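import Vale.Agent.Lib.P154.Chain.D7.L

set_option linter.all false

namespace Vale.Agent.Lib.P154.Chain.D7.S0

noncomputable def pc0 : PT := (PT.nd (nat_lit 653958) (PT.nd (nat_lit 491714) (PT.nd (nat_lit 329846) (PT.nd (nat_lit 275702) (PT.nd (nat_lit 221746) (PT.nd (nat_lit 167790) PT.nil (PT.lf (nat_lit 84) (nat_lit 3) (nat_lit 1) (nat_lit 1) (nat_lit 60) (nat_lit 3) (nat_lit 60))) (PT.nd (nat_lit 94) (PT.lf (nat_lit 168) (nat_lit 6) (nat_lit 2) (nat_lit 3) (nat_lit 59) (nat_lit 4) (nat_lit 60)) (PT.lf (nat_lit 168) (nat_lit 6) (nat_lit 2) (nat_lit 1) (nat_lit 60) (nat_lit 4) (nat_lit 59)))) (PT.nd (nat_lit 188) (PT.nd (nat_lit 94) (PT.lf (nat_lit 252) (nat_lit 6) (nat_lit 3) (nat_lit 3) (nat_lit 58) (nat_lit 5) (nat_lit 60)) (PT.lf (nat_lit 336) (nat_lit 3) (nat_lit 4) (nat_lit 1) (nat_lit 59) (nat_lit 5) (nat_lit 59))) (PT.nd (nat_lit 53862) (PT.lf (nat_lit 252) (nat_lit 6) (nat_lit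 3) (nat_lit 1) (nat_lit 60) (nat_lit 5) (nat_lit 58)) (PT.lf (nat_lit 420) (nat_lit 6) (nat_lit 5) (nat_lit 3) (nat_lit 58) (nat_lit 6) (nat_lit 59))))) (PT.nd (nat_lit 107818) (PT.nd (nat_lit 53956) (PT.nd (nat_lit 53862) (PT.lf (nat_lit 420) (nat_lit 6) (nat_lit 5) (nat_lit 1) (nat_lit 59) (nat_lit 6) (nat_lit 58)) (PT.lf (nat_lit 504) (nat_lit 6) (nat_lit 6) (nat_lit 3) (nat_lit 57) (nat_lit 7) (nat_lit 59))) (PT.nd (nat_lit 94) (PT.lf (nat_lit 588) (nat_lit 3) (nat_lit 7) (nat_lit 1) (nat_lit 58) (nat_lit 7) (nat_lit 58)) (PT.lf (nat_lit 504) (nat_lit 6) (nat_lit 6) (nat_lit 1) (nat_lit 59) (nat_lit 7) (nat_lit 57)))) (PT.nd (nat_lit 188) (PT.nd (nat_lit 94) (PT.lf (nat_lit 672) (nat_lit 6) (nat_lit 8) (nat_lit 3) (nat_lit 56) (nat_lit 8) (nat_lit 59)) (PT.lf (nat_lit 756) (nat_lit 6) (nat_lit 9) (nat_lit 3) (nat_lit 57) (nat_lit 8) (nat_lit 58))) (PT.nd (nat_lit 94) (PT.lf (nat_lit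 756) (nat_lit 6) (nat_lit 9) (nat_lit 1) (nat_lit 58) (nat_lit 8) (nat_lit 57)) (PT.lf (nat_lit 672) (nat_lit 6) (nat_lit 8) (nat_lit 1) (nat_lit 59) (nat_lit 8) (nat_lit 56)))))) (PT.nd (nat_lit 107912) (PT.nd (nat_lit 53956) (PT.nd (nat_lit 94) (PT.lf (nat_lit 840) (nat_lit 6) (nat_lit 10) (nat_lit 3) (nat_lit 56) (nat_lit 9) (nat_lit 58)) (PT.nd (nat_lit 94) (PT.lf (nat_lit 924) (nat_lit 3) (nat_lit 11) (nat_lit 1) (nat_lit 57) (nat_lit 9) (nat_lit 57)) (PT.lf (nat_lit 840) (nat_lit 6) (nat_lit 10) (nat_lit 1) (nat_lit 58) (nat_lit 9) (nat_lit 56)))) (PT.nd (nat_lit 188) (PT.nd (nat_lit 94) (PT.lf (nat_lit 1008) (nat_lit 6) (nat_lit 12) (nat_lit 3) (nat_lit 55) (nat_lit 10) (nat_lit 58)) (PT.lf (nat_lit 1092) (nat_lit 6) (nat_lit 13) (nat_lit 3) (nat_lit 56) (nat_lit 10) (nat_lit 57))) (PT.nd (nat_lit 94) (PT.lf (nat_lit 1092) (nat_lit 6) (nat_lit 13) (nat_lit 1) (nat_lit 57) (nat_lit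 10) (nat_lit 56)) (PT.lf (nat_lit 1008) (nat_lit 6) (nat_lit 12) (nat_lit 1) (nat_lit 58) (nat_lit 10) (nat_lit 55))))) (PT.nd (nat_lit 376) (PT.nd (nat_lit 188) (PT.nd (nat_lit 94) (PT.lf (nat_lit 1176) (nat_lit 6) (nat_lit 14) (nat_lit 3) (nat_lit 54) (nat_lit 11) (nat_lit 58)) (PT.lf (nat_lit 1260) (nat_lit 6) (nat_lit 15) (nat_lit 3) (nat_lit 55) (nat_lit 11) (nat_lit 57))) (PT.nd (nat_lit 94) (PT.lf (nat_lit 1344) (nat_lit 3) (nat_lit 16) (nat_lit 1) (nat_lit 56) (nat_lit 11) (nat_lit 56)) (PT.lf (nat_lit 1260) (nat_lit 6) (nat_lit 15) (nat_lit 1) (nat_lit 57) (nat_lit 11) (nat_lit 55)))) (PT.nd (nat_lit 53768) (PT.nd (nat_lit 53674) (PT.lf (nat_lit 1176) (nat_lit 6) (nat_lit 14) (nat_lit 1) (nat_lit 58) (nat_lit 11) (nat_lit 54)) (PT.lf (nat_lit 1428) (nat_lit 6) (nat_lit 17) (nat_lit 3) (nat_lit 54) (nat_lit 12) (nat_lit 57))) (PT.nd (nat_lit 94) (PT.lf (nat_lit 1512) (nat_lit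 6) (nat_lit 18) (nat_lit 3) (nat_lit 55) (nat_lit 12) (nat_lit 56)) (PT.lf (nat_lit 1512) (nat_lit 6) (nat_lit 18) (nat_lit 1) (nat_lit 56) (nat_lit 12) (nat_lit 55))))))) (PT.nd (nat_lit 161962) (PT.nd (nat_lit 107724) (PT.nd (nat_lit 53862) (PT.nd (nat_lit 53674) (PT.lf (nat_lit 1428) (nat_lit 6) (nat_lit 17) (nat_lit 1) (nat_lit 57) (nat_lit 12) (nat_lit 54)) (PT.nd (nat_lit 94) (PT.lf (nat_lit 1596) (nat_lit 6) (nat_lit 19) (nat_lit 3) (nat_lit 53) (nat_lit 13) (nat_lit 57)) (PT.lf (nat_lit 1680) (nat_lit 6) (nat_lit 20) (nat_lit 3) (nat_lit 54) (nat_lit 13) (nat_lit 56)))) (PT.nd (nat_lit 188) (PT.nd (nat_lit 94) (PT.lf (nat_lit 1764) (nat_lit 3) (nat_lit 21) (nat_lit 1) (nat_lit 55) (nat_lit 13) (nat_lit 55)) (PT.lf (nat_lit 1680) (nat_lit 6) (nat_lit 20) (nat_lit 1) (nat_lit 56) (nat_lit 13) (nat_lit 54))) (PT.nd (nat_lit 53580) (PT.lf (nat_lit 1596) (nat_lit 6) (nat_lit 19)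 (nat_lit 1) (nat_lit 57) (nat_lit 13) (nat_lit 53)) (PT.lf (nat_lit 1848) (nat_lit 6) (nat_lit 22) (nat_lit 3) (nat_lit 52) (nat_lit 14) (nat_lit 57))))) (PT.nd (nat_lit 376) (PT.nd (nat_lit 188) (PT.nd (nat_lit 94) (PT.lf (nat_lit 1932) (nat_lit 6) (nat_lit 23) (nat_lit 3) (nat_lit 53) (nat_lit 14) (nat_lit 56)) (PT.lf (nat_lit 2016) (nat_lit 6) (nat_lit 24) (nat_lit 3) (nat_lit 54) (nat_lit 14) (nat_lit 55))) (PT.nd (nat_lit 94) (PT.lf (nat_lit 2016) (nat_lit 6) (nat_lit 24) (nat_lit 1) (nat_lit 55) (nat_lit 14) (nat_lit 54)) (PT.lf (nat_lit 1932) (nat_lit 6) (nat_lit 23) (nat_lit 1) (nat_lit 56) (nat_lit 14) (nat_lit 53)))) (PT.nd (nat_lit 53674) (PT.nd (nat_lit 53580) (PT.lf (nat_lit 1848) (nat_lit 6) (nat_lit 22) (nat_lit 1) (nat_lit 57) (nat_lit 14) (nat_lit 52)) (PT.lf (nat_lit 2100) (nat_lit 6) (nat_lit 25) (nat_lit 3) (nat_lit 52) (nat_lit 15) (nat_lit 56))) (PT.nd (nat_lit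 94) (PT.lf (nat_lit 2184) (nat_lit 6) (nat_lit 26) (nat_lit 3) (nat_lit 53) (nat_lit 15) (nat_lit 55)) (PT.lf (nat_lit 2268) (nat_lit 3) (nat_lit 27) (nat_lit 1) (nat_lit 54) (nat_lit 15) (nat_lit 54)))))) (PT.nd (nat_lit 107630) (PT.nd (nat_lit 53862) (PT.nd (nat_lit 53674) (PT.nd (nat_lit 94) (PT.lf (nat_lit 2184) (nat_lit 6) (nat_lit 26) (nat_lit 1) (nat_lit 55) (nat_lit 15) (nat_lit 53)) (PT.lf (nat_lit 2100) (nat_lit 6) (nat_lit 25) (nat_lit 1) (nat_lit 56) (nat_lit 15) (nat_lit 52))) (PT.nd (nat_lit 94) (PT.lf (nat_lit 2352) (nat_lit 6) (nat_lit 28) (nat_lit 3) (nat_lit 51) (nat_lit 16) (nat_lit 56)) (PT.lf (nat_lit 2436) (nat_lit 6) (nat_lit 29) (nat_lit 3) (nat_lit 52) (nat_lit 16) (nat_lit 55)))) (PT.nd (nat_lit 188) (PT.nd (nat_lit 94) (PT.lf (nat_lit 2520) (nat_lit 6) (nat_lit 30) (nat_lit 3) (nat_lit 53) (nat_lit 16) (nat_lit 54)) (PT.lf (nat_lit 2520) (nat_lit 6) (nat_lit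 30) (nat_lit 1) (nat_lit 54) (nat_lit 16) (nat_lit 53))) (PT.nd (nat_lit 94) (PT.lf (nat_lit 2436) (nat_lit 6) (nat_lit 29) (nat_lit 1) (nat_lit 55) (nat_lit 16) (nat_lit 52)) (PT.lf (nat_lit 2352) (nat_lit 6) (nat_lit 28) (nat_lit 1) (nat_lit 56) (nat_lit 16) (nat_lit 51))))) (PT.nd (nat_lit 376) (PT.nd (nat_lit 188) (PT.nd (nat_lit 94) (PT.lf (nat_lit 2604) (nat_lit 6) (nat_lit 31) (nat_lit 3) (nat_lit 50) (nat_lit 17) (nat_lit 56)) (PT.lf (nat_lit 2688) (nat_lit 6) (nat_lit 32) (nat_lit 3) (nat_lit 51) (nat_lit 17) (nat_lit 55))) (PT.nd (nat_lit 94) (PT.lf (nat_lit 2772) (nat_lit 6) (nat_lit 33) (nat_lit 3) (nat_lit 52) (nat_lit 17) (nat_lit 54)) (PT.lf (nat_lit 2856) (nat_lit 3) (nat_lit 34) (nat_lit 1) (nat_lit 53) (nat_lit 17) (nat_lit 53)))) (PT.nd (nat_lit 188) (PT.nd (nat_lit 94) (PT.lf (nat_lit 2772) (nat_lit 6) (nat_lit 33) (nat_lit 1) (nat_lit 54) (nat_lit 17) (nat_lit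 52)) (PT.lf (nat_lit 2688) (nat_lit 6) (nat_lit 32) (nat_lit 1) (nat_lit 55) (nat_lit 17) (nat_lit 51))) (PT.nd (nat_lit 53392) (PT.lf (nat_lit 2604) (nat_lit 6) (nat_lit 31) (nat_lit 1) (nat_lit 56) (nat_lit 17) (nat_lit 50)) (PT.lf (nat_lit 2940) (nat_lit 6) (nat_lit 35) (nat_lit 3) (nat_lit 49) (nat_lit 18) (nat_lit 56))))))))
noncomputable def pc1 : PT := (PT.nd (nat_lit 162620) (PT.nd (nat_lit 108006) (PT.nd (nat_lit 53956) (PT.nd (nat_lit 282) (PT.nd (nat_lit 94) (PT.lf (nat_lit 3024) (nat_lit 6) (nat_lit 36) (nat_lit 3) (nat_lit 50) (nat_lit 18) (nat_lit 55)) (PT.nd (nat_lit 94) (PT.lf (nat_lit 3108) (nat_lit 6) (nat_lit 37) (nat_lit 3) (nat_lit 51) (nat_lit 18) (nat_lit 54)) (PT.lf (nat_lit 3192) (nat_lit 6) (nat_lit 38) (nat_lit 3) (nat_lit 52) (nat_lit 18) (nat_lit 53)))) (PT.nd (nat_lit 188) (PT.nd (nat_lit 94) (PT.lf (nat_lit 3192) (nat_lit 6) (nat_lit 38) (nat_lit 1) (nat_lit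 53) (nat_lit 18) (nat_lit 52)) (PT.lf (nat_lit 3108) (nat_lit 6) (nat_lit 37) (nat_lit 1) (nat_lit 54) (nat_lit 18) (nat_lit 51))) (PT.nd (nat_lit 94) (PT.lf (nat_lit 3024) (nat_lit 6) (nat_lit 36) (nat_lit 1) (nat_lit 55) (nat_lit 18) (nat_lit 50)) (PT.lf (nat_lit 2940) (nat_lit 6) (nat_lit 35) (nat_lit 1) (nat_lit 56) (nat_lit 18) (nat_lit 49))))) (PT.nd (nat_lit 376) (PT.nd (nat_lit 188) (PT.nd (nat_lit 94) (PT.lf (nat_lit 3276) (nat_lit 6) (nat_lit 39) (nat_lit 3) (nat_lit 49) (nat_lit 19) (nat_lit 55)) (PT.lf (nat_lit 3360) (nat_lit 6) (nat_lit 40) (nat_lit 3) (nat_lit 50) (nat_lit 19) (nat_lit 54))) (PT.nd (nat_lit 94) (PT.lf (nat_lit 3444) (nat_lit 6) (nat_lit 41) (nat_lit 3) (nat_lit 51) (nat_lit 19) (nat_lit 53)) (PT.lf (nat_lit 3528) (nat_lit 3) (nat_lit 42) (nat_lit 1) (nat_lit 52) (nat_lit 19) (nat_lit 52)))) (PT.nd (nat_lit 188) (PT.nd (nat_lit 94) (PT.lf (nat_lit 3444)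 (nat_lit 6) (nat_lit 41) (nat_lit 1) (nat_lit 53) (nat_lit 19) (nat_lit 51)) (PT.lf (nat_lit 3360) (nat_lit 6) (nat_lit 40) (nat_lit 1) (nat_lit 54) (nat_lit 19) (nat_lit 50))) (PT.nd (nat_lit 53392) (PT.lf (nat_lit 3276) (nat_lit 6) (nat_lit 39) (nat_lit 1) (nat_lit 55) (nat_lit 19) (nat_lit 49)) (PT.lf (nat_lit 3612) (nat_lit 6) (nat_lit 43) (nat_lit 3) (nat_lit 48) (nat_lit 20) (nat_lit 55)))))) (PT.nd (nat_lit 53862) (PT.nd (nat_lit 282) (PT.nd (nat_lit 94) (PT.lf (nat_lit 3696) (nat_lit 6) (nat_lit 44) (nat_lit 3) (nat_lit 49) (nat_lit 20) (nat_lit 54)) (PT.nd (nat_lit 94) (PT.lf (nat_lit 3780) (nat_lit 6) (nat_lit 45) (nat_lit 3) (nat_lit 50) (nat_lit 20) (nat_lit 53)) (PT.lf (nat_lit 3864) (nat_lit 6) (nat_lit 46) (nat_lit 3) (nat_lit 51) (nat_lit 20) (nat_lit 52)))) (PT.nd (nat_lit 188) (PT.nd (nat_lit 94) (PT.lf (nat_lit 3864) (nat_lit 6) (nat_lit 46) (nat_lit 1) (nat_lit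 52) (nat_lit 20) (nat_lit 51)) (PT.lf (nat_lit 3780) (nat_lit 6) (nat_lit 45) (nat_lit 1) (nat_lit 53) (nat_lit 20) (nat_lit 50))) (PT.nd (nat_lit 94) (PT.lf (nat_lit 3696) (nat_lit 6) (nat_lit 44) (nat_lit 1) (nat_lit 54) (nat_lit 20) (nat_lit 49)) (PT.lf (nat_lit 3612) (nat_lit 6) (nat_lit 43) (nat_lit 1) (nat_lit 55) (nat_lit 20) (nat_lit 48))))) (PT.nd (nat_lit 376) (PT.nd (nat_lit 188) (PT.nd (nat_lit 94) (PT.lf (nat_lit 3948) (nat_lit 6) (nat_lit 47) (nat_lit 3) (nat_lit 47) (nat_lit 21) (nat_lit 55)) (PT.lf (nat_lit 4032) (nat_lit 6) (nat_lit 48) (nat_lit 3) (nat_lit 48) (nat_lit 21) (nat_lit 54))) (PT.nd (nat_lit 94) (PT.lf (nat_lit 4116) (nat_lit 6) (nat_lit 49) (nat_lit 3) (nat_lit 49) (nat_lit 21) (nat_lit 53)) (PT.lf (nat_lit 4200) (nat_lit 6) (nat_lit 50) (nat_lit 3) (nat_lit 50) (nat_lit 21) (nat_lit 52)))) (PT.nd (nat_lit 188) (PT.nd (nat_lit 94) (PT.lf (nat_lit 4284)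 (nat_lit 3) (nat_lit 51) (nat_lit 1) (nat_lit 51) (nat_lit 21) (nat_lit 51)) (PT.lf (nat_lit 4200) (nat_lit 6) (nat_lit 50) (nat_lit 1) (nat_lit 52) (nat_lit 21) (nat_lit 50))) (PT.nd (nat_lit 94) (PT.lf (nat_lit 4116) (nat_lit 6) (nat_lit 49) (nat_lit 1) (nat_lit 53) (nat_lit 21) (nat_lit 49)) (PT.lf (nat_lit 4032) (nat_lit 6) (nat_lit 48) (nat_lit 1) (nat_lit 54) (nat_lit 21) (nat_lit 48))))))) (PT.nd (nat_lit 107630) (PT.nd (nat_lit 53768) (PT.nd (nat_lit 53392) (PT.nd (nat_lit 53204) (PT.lf (nat_lit 3948) (nat_lit 6) (nat_lit 47) (nat_lit 1) (nat_lit 55) (nat_lit 21) (nat_lit 47)) (PT.nd (nat_lit 94) (PT.lf (nat_lit 4368) (nat_lit 6) (nat_lit 52) (nat_lit 3) (nat_lit 46) (nat_lit 22) (nat_lit 55)) (PT.lf (nat_lit 4452) (nat_lit 6) (nat_lit 53) (nat_lit 3) (nat_lit 47) (nat_lit 22) (nat_lit 54)))) (PT.nd (nat_lit 188) (PT.nd (nat_lit 94) (PT.lf (nat_lit 4536) (nat_lit 6) (nat_lit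 54) (nat_lit 3) (nat_lit 48) (nat_lit 22) (nat_lit 53)) (PT.lf (nat_lit 4620) (nat_lit 6) (nat_lit 55) (nat_lit 3) (nat_lit 49) (nat_lit 22) (nat_lit 52))) (PT.nd (nat_lit 94) (PT.lf (nat_lit 4704) (nat_lit 6) (nat_lit 56) (nat_lit 3) (nat_lit 50) (nat_lit 22) (nat_lit 51)) (PT.lf (nat_lit 4704) (nat_lit 6) (nat_lit 56) (nat_lit 1) (nat_lit 51) (nat_lit 22) (nat_lit 50))))) (PT.nd (nat_lit 53486) (PT.nd (nat_lit 188) (PT.nd (nat_lit 94) (PT.lf (nat_lit 4620) (nat_lit 6) (nat_lit 55) (nat_lit 1) (nat_lit 52) (nat_lit 22) (nat_lit 49)) (PT.lf (nat_lit 4536) (nat_lit 6) (nat_lit 54) (nat_lit 1) (nat_lit 53) (nat_lit 22) (nat_lit 48))) (PT.nd (nat_lit 94) (PT.lf (nat_lit 4452) (nat_lit 6) (nat_lit 53) (nat_lit 1) (nat_lit 54) (nat_lit 22) (nat_lit 47)) (PT.lf (nat_lit 4368) (nat_lit 6) (nat_lit 52) (nat_lit 1) (nat_lit 55) (nat_lit 22) (nat_lit 46)))) (PT.nd (nat_lit 188) (PT.nd (nat_lit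 94) (PT.lf (nat_lit 4788) (nat_lit 6) (nat_lit 57) (nat_lit 3) (nat_lit 46) (nat_lit 23) (nat_lit 54)) (PT.lf (nat_lit 4872) (nat_lit 6) (nat_lit 58) (nat_lit 3) (nat_lit 47) (nat_lit 23) (nat_lit 53))) (PT.nd (nat_lit 94) (PT.lf (nat_lit 4956) (nat_lit 6) (nat_lit 59) (nat_lit 3) (nat_lit 48) (nat_lit 23) (nat_lit 52)) (PT.lf (nat_lit 5040) (nat_lit 6) (nat_lit 60) (nat_lit 3) (nat_lit 49) (nat_lit 23) (nat_lit 51)))))) (PT.nd (nat_lit 53862) (PT.nd (nat_lit 376) (PT.nd (nat_lit 188) (PT.nd (nat_lit 94) (PT.lf (nat_lit 5124) (nat_lit 3) (nat_lit 61) (nat_lit 1) (nat_lit 50) (nat_lit 23) (nat_lit 50)) (PT.lf (nat_lit 5040) (nat_lit 6) (nat_lit 60) (nat_lit 1) (nat_lit 51) (nat_lit 23) (nat_lit 49))) (PT.nd (nat_lit 94) (PT.lf (nat_lit 4956) (nat_lit 6) (nat_lit 59) (nat_lit 1) (nat_lit 52) (nat_lit 23) (nat_lit 48)) (PT.lf (nat_lit 4872) (nat_lit 6) (nat_lit 58) (nat_lit 1) (nat_lit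 53) (nat_lit 23) (nat_lit 47)))) (PT.nd (nat_lit 53298) (PT.nd (nat_lit 53204) (PT.lf (nat_lit 4788) (nat_lit 6) (nat_lit 57) (nat_lit 1) (nat_lit 54) (nat_lit 23) (nat_lit 46)) (PT.lf (nat_lit 5208) (nat_lit 6) (nat_lit 62) (nat_lit 3) (nat_lit 45) (nat_lit 24) (nat_lit 54))) (PT.nd (nat_lit 94) (PT.lf (nat_lit 5292) (nat_lit 6) (nat_lit 63) (nat_lit 3) (nat_lit 46) (nat_lit 24) (nat_lit 53)) (PT.lf (nat_lit 5376) (nat_lit 6) (nat_lit 64) (nat_lit 3) (nat_lit 47) (nat_lit 24) (nat_lit 52))))) (PT.nd (nat_lit 376) (PT.nd (nat_lit 188) (PT.nd (nat_lit 94) (PT.lf (nat_lit 5460) (nat_lit 6) (nat_lit 65) (nat_lit 3) (nat_lit 48) (nat_lit 24) (nat_lit 51)) (PT.lf (nat_lit 5544) (nat_lit 6) (nat_lit 66) (nat_lit 3) (nat_lit 49) (nat_lit 24) (nat_lit 50))) (PT.nd (nat_lit 94) (PT.lf (nat_lit 5544) (nat_lit 6) (nat_lit 66) (nat_lit 1) (nat_lit 50) (nat_lit 24) (nat_lit 49)) (PT.lf (nat_lit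 5460) (nat_lit 6) (nat_lit 65) (nat_lit 1) (nat_lit 51) (nat_lit 24) (nat_lit 48)))) (PT.nd (nat_lit 188) (PT.nd (nat_lit 94) (PT.lf (nat_lit 5376) (nat_lit 6) (nat_lit 64) (nat_lit 1) (nat_lit 52) (nat_lit 24) (nat_lit 47)) (PT.lf (nat_lit 5292) (nat_lit 6) (nat_lit 63) (nat_lit 1) (nat_lit 53) (nat_lit 24) (nat_lit 46))) (PT.nd (nat_lit 53110) (PT.lf (nat_lit 5208) (nat_lit 6) (nat_lit 62) (nat_lit 1) (nat_lit 54) (nat_lit 24) (nat_lit 45)) (PT.lf (nat_lit 5628) (nat_lit 6) (nat_lit 67) (nat_lit 3) (nat_lit 44) (nat_lit 25) (nat_lit 54))))))))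
noncomputable def pc2 : PT := (PT.nd (nat_lit 108570) (PT.nd (nat_lit 54332) (PT.nd (nat_lit 658) (PT.nd (nat_lit 282) (PT.nd (nat_lit 94) (PT.lf (nat_lit 5712) (nat_lit 6) (nat_lit 68) (nat_lit 3) (nat_lit 45) (nat_lit 25) (nat_lit 53)) (PT.nd (nat_lit 94) (PT.lf (nat_lit 5796) (nat_lit 6) (nat_lit 69) (nat_lit 3) (nat_lit 46) (nat_lit 25) (nat_lit 52)) (PT.lf (nat_lit 5880) (nat_lit 6) (nat_lit 70) (nat_lit 3) (nat_lit 47) (nat_lit 25) (nat_lit 51)))) (PT.nd (nat_lit 188) (PT.nd (nat_lit 94) (PT.lf (nat_lit 5964) (nat_lit 6) (nat_lit 71) (nat_lit 3) (nat_lit 48) (nat_lit 25) (nat_lit 50)) (PT.lf (nat_lit 6048) (nat_lit 3) (nat_lit 72) (nat_lit 1) (nat_lit 49) (nat_lit 25) (nat_lit 49))) (PT.nd (nat_lit 94) (PT.lf (nat_lit 5964) (nat_lit 6) (nat_lit 71) (nat_lit 1) (nat_lit 50) (nat_lit 25) (nat_lit 48)) (PT.lf (nat_lit 5880) (nat_lit 6) (nat_lit 70) (nat_lit 1) (nat_lit 51) (nat_lit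 25) (nat_lit 47))))) (PT.nd (nat_lit 53298) (PT.nd (nat_lit 188) (PT.nd (nat_lit 94) (PT.lf (nat_lit 5796) (nat_lit 6) (nat_lit 69) (nat_lit 1) (nat_lit 52) (nat_lit 25) (nat_lit 46)) (PT.lf (nat_lit 5712) (nat_lit 6) (nat_lit 68) (nat_lit 1) (nat_lit 53) (nat_lit 25) (nat_lit 45))) (PT.nd (nat_lit 53016) (PT.lf (nat_lit 5628) (nat_lit 6) (nat_lit 67) (nat_lit 1) (nat_lit 54) (nat_lit 25) (nat_lit 44)) (PT.lf (nat_lit 6132) (nat_lit 6) (nat_lit 73) (nat_lit 3) (nat_lit 43) (nat_lit 26) (nat_lit 54)))) (PT.nd (nat_lit 188) (PT.nd (nat_lit 94) (PT.lf (nat_lit 6216) (nat_lit 6) (nat_lit 74) (nat_lit 3) (nat_lit 44) (nat_lit 26) (nat_lit 53)) (PT.lf (nat_lit 6300) (nat_lit 6) (nat_lit 75) (nat_lit 3) (nat_lit 45) (nat_lit 26) (nat_lit 52))) (PT.nd (nat_lit 94) (PT.lf (nat_lit 6384) (nat_lit 6) (nat_lit 76) (nat_lit 3) (nat_lit 46) (nat_lit 26) (nat_lit 51)) (PT.lf (nat_lit 6468) (nat_lit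 6) (nat_lit 77) (nat_lit 3) (nat_lit 47) (nat_lit 26) (nat_lit 50)))))) (PT.nd (nat_lit 53486) (PT.nd (nat_lit 282) (PT.nd (nat_lit 94) (PT.lf (nat_lit 6552) (nat_lit 6) (nat_lit 78) (nat_lit 3) (nat_lit 48) (nat_lit 26) (nat_lit 49)) (PT.nd (nat_lit 94) (PT.lf (nat_lit 6552) (nat_lit 6) (nat_lit 78) (nat_lit 1) (nat_lit 49) (nat_lit 26) (nat_lit 48)) (PT.lf (nat_lit 6468) (nat_lit 6) (nat_lit 77) (nat_lit 1) (nat_lit 50) (nat_lit 26) (nat_lit 47)))) (PT.nd (nat_lit 188) (PT.nd (nat_lit 94) (PT.lf (nat_lit 6384) (nat_lit 6) (nat_lit 76) (nat_lit 1) (nat_lit 51) (nat_lit 26) (nat_lit 46)) (PT.lf (nat_lit 6300) (nat_lit 6) (nat_lit 75) (nat_lit 1) (nat_lit 52) (nat_lit 26) (nat_lit 45))) (PT.nd (nat_lit 94) (PT.lf (nat_lit 6216) (nat_lit 6) (nat_lit 74) (nat_lit 1) (nat_lit 53) (nat_lit 26) (nat_lit 44)) (PT.lf (nat_lit 6132) (nat_lit 6) (nat_lit 73) (nat_lit 1) (nat_lit 54) (nat_lit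 26) (nat_lit 43))))) (PT.nd (nat_lit 376) (PT.nd (nat_lit 188) (PT.nd (nat_lit 94) (PT.lf (nat_lit 6636) (nat_lit 6) (nat_lit 79) (nat_lit 3) (nat_lit 42) (nat_lit 27) (nat_lit 54)) (PT.lf (nat_lit 6720) (nat_lit 6) (nat_lit 80) (nat_lit 3) (nat_lit 43) (nat_lit 27) (nat_lit 53))) (PT.nd (nat_lit 94) (PT.lf (nat_lit 6804) (nat_lit 6) (nat_lit 81) (nat_lit 3) (nat_lit 44) (nat_lit 27) (nat_lit 52)) (PT.lf (nat_lit 6888) (nat_lit 6) (nat_lit 82) (nat_lit 3) (nat_lit 45) (nat_lit 27) (nat_lit 51)))) (PT.nd (nat_lit 188) (PT.nd (nat_lit 94) (PT.lf (nat_lit 6972) (nat_lit 6) (nat_lit 83) (nat_lit 3) (nat_lit 46) (nat_lit 27) (nat_lit 50)) (PT.lf (nat_lit 7056) (nat_lit 6) (nat_lit 84) (nat_lit 3) (nat_lit 47) (nat_lit 27) (nat_lit 49))) (PT.nd (nat_lit 94) (PT.lf (nat_lit 7140) (nat_lit 3) (nat_lit 85) (nat_lit 1) (nat_lit 48) (nat_lit 27) (nat_lit 48)) (PT.lf (nat_lit 7056) (nat_lit 6)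 (nat_lit 84) (nat_lit 1) (nat_lit 49) (nat_lit 27) (nat_lit 47))))))) (PT.nd (nat_lit 54144) (PT.nd (nat_lit 53392) (PT.nd (nat_lit 282) (PT.nd (nat_lit 94) (PT.lf (nat_lit 6972) (nat_lit 6) (nat_lit 83) (nat_lit 1) (nat_lit 50) (nat_lit 27) (nat_lit 46)) (PT.nd (nat_lit 94) (PT.lf (nat_lit 6888) (nat_lit 6) (nat_lit 82) (nat_lit 1) (nat_lit 51) (nat_lit 27) (nat_lit 45)) (PT.lf (nat_lit 6804) (nat_lit 6) (nat_lit 81) (nat_lit 1) (nat_lit 52) (nat_lit 27) (nat_lit 44)))) (PT.nd (nat_lit 52922) (PT.nd (nat_lit 94) (PT.lf (nat_lit 6720) (nat_lit 6) (nat_lit 80) (nat_lit 1) (nat_lit 53) (nat_lit 27) (nat_lit 43)) (PT.lf (nat_lit 6636) (nat_lit 6) (nat_lit 79) (nat_lit 1) (nat_lit 54) (nat_lit 27) (nat_lit 42))) (PT.nd (nat_lit 94) (PT.lf (nat_lit 7224) (nat_lit 6) (nat_lit 86) (nat_lit 3) (nat_lit 41) (nat_lit 28) (nat_lit 54)) (PT.lf (nat_lit 7308) (nat_lit 6) (nat_lit 87) (nat_lit 3)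 (nat_lit 42) (nat_lit 28) (nat_lit 53))))) (PT.nd (nat_lit 376) (PT.nd (nat_lit 188) (PT.nd (nat_lit 94) (PT.lf (nat_lit 7392) (nat_lit 6) (nat_lit 88) (nat_lit 3) (nat_lit 43) (nat_lit 28) (nat_lit 52)) (PT.lf (nat_lit 7476) (nat_lit 6) (nat_lit 89) (nat_lit 3) (nat_lit 44) (nat_lit 28) (nat_lit 51))) (PT.nd (nat_lit 94) (PT.lf (nat_lit 7560) (nat_lit 6) (nat_lit 90) (nat_lit 3) (nat_lit 45) (nat_lit 28) (nat_lit 50)) (PT.lf (nat_lit 7644) (nat_lit 6) (nat_lit 91) (nat_lit 3) (nat_lit 46) (nat_lit 28) (nat_lit 49)))) (PT.nd (nat_lit 188) (PT.nd (nat_lit 94) (PT.lf (nat_lit 7728) (nat_lit 6) (nat_lit 92) (nat_lit 3) (nat_lit 47) (nat_lit 28) (nat_lit 48)) (PT.lf (nat_lit 7728) (nat_lit 6) (nat_lit 92) (nat_lit 1) (nat_lit 48) (nat_lit 28) (nat_lit 47))) (PT.nd (nat_lit 94) (PT.lf (nat_lit 7644) (nat_lit 6) (nat_lit 91) (nat_lit 1) (nat_lit 49) (nat_lit 28) (nat_lit 46)) (PT.lf (nat_lit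 7560) (nat_lit 6) (nat_lit 90) (nat_lit 1) (nat_lit 50) (nat_lit 28) (nat_lit 45)))))) (PT.nd (nat_lit 53486) (PT.nd (nat_lit 53110) (PT.nd (nat_lit 188) (PT.nd (nat_lit 94) (PT.lf (nat_lit 7476) (nat_lit 6) (nat_lit 89) (nat_lit 1) (nat_lit 51) (nat_lit 28) (nat_lit 44)) (PT.lf (nat_lit 7392) (nat_lit 6) (nat_lit 88) (nat_lit 1) (nat_lit 52) (nat_lit 28) (nat_lit 43))) (PT.nd (nat_lit 94) (PT.lf (nat_lit 7308) (nat_lit 6) (nat_lit 87) (nat_lit 1) (nat_lit 53) (nat_lit 28) (nat_lit 42)) (PT.lf (nat_lit 7224) (nat_lit 6) (nat_lit 86) (nat_lit 1) (nat_lit 54) (nat_lit 28) (nat_lit 41)))) (PT.nd (nat_lit 188) (PT.nd (nat_lit 94) (PT.lf (nat_lit 8316) (nat_lit 6) (nat_lit 99) (nat_lit 3) (nat_lit 41) (nat_lit 29) (nat_lit 53)) (PT.lf (nat_lit 8400) (nat_lit 6) (nat_lit 100) (nat_lit 3) (nat_lit 42) (nat_lit 29) (nat_lit 52))) (PT.nd (nat_lit 94) (PT.lf (nat_lit 8484) (nat_lit 6) (nat_lit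 101) (nat_lit 3) (nat_lit 43) (nat_lit 29) (nat_lit 51)) (PT.lf (nat_lit 8568) (nat_lit 6) (nat_lit 102) (nat_lit 3) (nat_lit 44) (nat_lit 29) (nat_lit 50))))) (PT.nd (nat_lit 376) (PT.nd (nat_lit 188) (PT.nd (nat_lit 94) (PT.lf (nat_lit 8652) (nat_lit 6) (nat_lit 103) (nat_lit 3) (nat_lit 45) (nat_lit 29) (nat_lit 49)) (PT.lf (nat_lit 8736) (nat_lit 6) (nat_lit 104) (nat_lit 3) (nat_lit 46) (nat_lit 29) (nat_lit 48))) (PT.nd (nat_lit 94) (PT.lf (nat_lit 8820) (nat_lit 3) (nat_lit 105) (nat_lit 1) (nat_lit 47) (nat_lit 29) (nat_lit 47)) (PT.lf (nat_lit 8736) (nat_lit 6) (nat_lit 104) (nat_lit 1) (nat_lit 48) (nat_lit 29) (nat_lit 46)))) (PT.nd (nat_lit 188) (PT.nd (nat_lit 94) (PT.lf (nat_lit 8652) (nat_lit 6) (nat_lit 103) (nat_lit 1) (nat_lit 49) (nat_lit 29) (nat_lit 45)) (PT.lf (nat_lit 8568) (nat_lit 6) (nat_lit 102) (nat_lit 1) (nat_lit 50) (nat_lit 29) (nat_lit 44))) (PT.nd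 (nat_lit 94) (PT.lf (nat_lit 8484) (nat_lit 6) (nat_lit 101) (nat_lit 1) (nat_lit 51) (nat_lit 29) (nat_lit 43)) (PT.lf (nat_lit 8400) (nat_lit 6) (nat_lit 100) (nat_lit 1) (nat_lit 52) (nat_lit 29) (nat_lit 42))))))))
noncomputable def pc3 : PT := (PT.nd (nat_lit 160834) (PT.nd (nat_lit 106784) (PT.nd (nat_lit 53392) (PT.nd (nat_lit 53016) (PT.nd (nat_lit 52828) (PT.lf (nat_lit 8316) (nat_lit 6) (nat_lit 99) (nat_lit 1) (nat_lit 53) (nat_lit 29) (nat_lit 41)) (PT.nd (nat_lit 94) (PT.lf (nat_lit 8232) (nat_lit 6) (nat_lit 98) (nat_lit 3) (nat_lit 40) (nat_lit 30) (nat_lit 53)) (PT.lf (nat_lit 9324) (nat_lit 6) (nat_lit 111) (nat_lit 3) (nat_lit 41) (nat_lit 30) (nat_lit 52)))) (PT.nd (nat_lit 188) (PT.nd (nat_lit 94) (PT.lf (nat_lit 9408) (nat_lit 6) (nat_lit 112) (nat_lit 3) (nat_lit 42) (nat_lit 30) (nat_lit 51)) (PT.lf (nat_lit 9492) (nat_lit 6) (nat_lit 113) (nat_lit 3) (nat_lit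 43) (nat_lit 30) (nat_lit 50))) (PT.nd (nat_lit 94) (PT.lf (nat_lit 9576) (nat_lit 6) (nat_lit 114) (nat_lit 3) (nat_lit 44) (nat_lit 30) (nat_lit 49)) (PT.lf (nat_lit 9660) (nat_lit 6) (nat_lit 115) (nat_lit 3) (nat_lit 45) (nat_lit 30) (nat_lit 48))))) (PT.nd (nat_lit 376) (PT.nd (nat_lit 188) (PT.nd (nat_lit 94) (PT.lf (nat_lit 9744) (nat_lit 6) (nat_lit 116) (nat_lit 3) (nat_lit 46) (nat_lit 30) (nat_lit 47)) (PT.lf (nat_lit 9744) (nat_lit 6) (nat_lit 116) (nat_lit 1) (nat_lit 47) (nat_lit 30) (nat_lit 46))) (PT.nd (nat_lit 94) (PT.lf (nat_lit 9660) (nat_lit 6) (nat_lit 115) (nat_lit 1) (nat_lit 48) (nat_lit 30) (nat_lit 45)) (PT.lf (nat_lit 9576) (nat_lit 6) (nat_lit 114) (nat_lit 1) (nat_lit 49) (nat_lit 30) (nat_lit 44)))) (PT.nd (nat_lit 188) (PT.nd (nat_lit 94) (PT.lf (nat_lit 9492) (nat_lit 6) (nat_lit 113) (nat_lit 1) (nat_lit 50) (nat_lit 30) (nat_lit 43)) (PT.lf (nat_lit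 9408) (nat_lit 6) (nat_lit 112) (nat_lit 1) (nat_lit 51) (nat_lit 30) (nat_lit 42))) (PT.nd (nat_lit 94) (PT.lf (nat_lit 9324) (nat_lit 6) (nat_lit 111) (nat_lit 1) (nat_lit 52) (nat_lit 30) (nat_lit 41)) (PT.lf (nat_lit 8232) (nat_lit 6) (nat_lit 98) (nat_lit 1) (nat_lit 53) (nat_lit 30) (nat_lit 40)))))) (PT.nd (nat_lit 752) (PT.nd (nat_lit 376) (PT.nd (nat_lit 188) (PT.nd (nat_lit 94) (PT.lf (nat_lit 8148) (nat_lit 6) (nat_lit 97) (nat_lit 3) (nat_lit 39) (nat_lit 31) (nat_lit 53)) (PT.lf (nat_lit 9240) (nat_lit 6) (nat_lit 110) (nat_lit 3) (nat_lit 40) (nat_lit 31) (nat_lit 52))) (PT.nd (nat_lit 94) (PT.lf (nat_lit 10248) (nat_lit 6) (nat_lit 122) (nat_lit 3) (nat_lit 41) (nat_lit 31) (nat_lit 51)) (PT.lf (nat_lit 10332) (nat_lit 6) (nat_lit 123) (nat_lit 3) (nat_lit 42) (nat_lit 31) (nat_lit 50)))) (PT.nd (nat_lit 188) (PT.nd (nat_lit 94) (PT.lf (nat_lit 10416) (nat_lit 6) (nat_lit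 124) (nat_lit 3) (nat_lit 43) (nat_lit 31) (nat_lit 49)) (PT.lf (nat_lit 10500) (nat_lit 6) (nat_lit 125) (nat_lit 3) (nat_lit 44) (nat_lit 31) (nat_lit 48))) (PT.nd (nat_lit 94) (PT.lf (nat_lit 10584) (nat_lit 6) (nat_lit 126) (nat_lit 3) (nat_lit 45) (nat_lit 31) (nat_lit 47)) (PT.lf (nat_lit 10668) (nat_lit 3) (nat_lit 127) (nat_lit 1) (nat_lit 46) (nat_lit 31) (nat_lit 46))))) (PT.nd (nat_lit 376) (PT.nd (nat_lit 188) (PT.nd (nat_lit 94) (PT.lf (nat_lit 10584) (nat_lit 6) (nat_lit 126) (nat_lit 1) (nat_lit 47) (nat_lit 31) (nat_lit 45)) (PT.lf (nat_lit 10500) (nat_lit 6) (nat_lit 125) (nat_lit 1) (nat_lit 48) (nat_lit 31) (nat_lit 44))) (PT.nd (nat_lit 94) (PT.lf (nat_lit 10416) (nat_lit 6) (nat_lit 124) (nat_lit 1) (nat_lit 49) (nat_lit 31) (nat_lit 43)) (PT.lf (nat_lit 10332) (nat_lit 6) (nat_lit 123) (nat_lit 1) (nat_lit 50) (nat_lit 31) (nat_lit 42)))) (PT.nd (nat_lit 188)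 (PT.nd (nat_lit 94) (PT.lf (nat_lit 10248) (nat_lit 6) (nat_lit 122) (nat_lit 1) (nat_lit 51) (nat_lit 31) (nat_lit 41)) (PT.lf (nat_lit 9240) (nat_lit 6) (nat_lit 110) (nat_lit 1) (nat_lit 52) (nat_lit 31) (nat_lit 40))) (PT.nd (nat_lit 52640) (PT.lf (nat_lit 8148) (nat_lit 6) (nat_lit 97) (nat_lit 1) (nat_lit 53) (nat_lit 31) (nat_lit 39)) (PT.lf (nat_lit 8064) (nat_lit 6) (nat_lit 96) (nat_lit 3) (nat_lit 38) (nat_lit 32) (nat_lit 53))))))) (PT.nd (nat_lit 53862) (PT.nd (nat_lit 658) (PT.nd (nat_lit 282) (PT.nd (nat_lit 94) (PT.lf (nat_lit 9156) (nat_lit 6) (nat_lit 109) (nat_lit 3) (nat_lit 39) (nat_lit 32) (nat_lit 52)) (PT.nd (nat_lit 94) (PT.lf (nat_lit 10164) (nat_lit 6) (nat_lit 121) (nat_lit 3) (nat_lit 40) (nat_lit 32) (nat_lit 51)) (PT.lf (nat_lit 11088) (nat_lit 6) (nat_lit 132) (nat_lit 3) (nat_lit 41) (nat_lit 32) (nat_lit 50)))) (PT.nd (nat_lit 188) (PT.nd (nat_lit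 94) (PT.lf (nat_lit 11172) (nat_lit 6) (nat_lit 133) (nat_lit 3) (nat_lit 42) (nat_lit 32) (nat_lit 49)) (PT.lf (nat_lit 11256) (nat_lit 6) (nat_lit 134) (nat_lit 3) (nat_lit 43) (nat_lit 32) (nat_lit 48))) (PT.nd (nat_lit 94) (PT.lf (nat_lit 11340) (nat_lit 6) (nat_lit 135) (nat_lit 3) (nat_lit 44) (nat_lit 32) (nat_lit 47)) (PT.lf (nat_lit 11424) (nat_lit 6) (nat_lit 136) (nat_lit 3) (nat_lit 45) (nat_lit 32) (nat_lit 46))))) (PT.nd (nat_lit 376) (PT.nd (nat_lit 188) (PT.nd (nat_lit 94) (PT.lf (nat_lit 11424) (nat_lit 6) (nat_lit 136) (nat_lit 1) (nat_lit 46) (nat_lit 32) (nat_lit 45)) (PT.lf (nat_lit 11340) (nat_lit 6) (nat_lit 135) (nat_lit 1) (nat_lit 47) (nat_lit 32) (nat_lit 44))) (PT.nd (nat_lit 94) (PT.lf (nat_lit 11256) (nat_lit 6) (nat_lit 134) (nat_lit 1) (nat_lit 48) (nat_lit 32) (nat_lit 43)) (PT.lf (nat_lit 11172) (nat_lit 6) (nat_lit 133) (nat_lit 1) (nat_lit 49) (nat_lit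 32) (nat_lit 42)))) (PT.nd (nat_lit 188) (PT.nd (nat_lit 94) (PT.lf (nat_lit 11088) (nat_lit 6) (nat_lit 132) (nat_lit 1) (nat_lit 50) (nat_lit 32) (nat_lit 41)) (PT.lf (nat_lit 10164) (nat_lit 6) (nat_lit 121) (nat_lit 1) (nat_lit 51) (nat_lit 32) (nat_lit 40))) (PT.nd (nat_lit 94) (PT.lf (nat_lit 9156) (nat_lit 6) (nat_lit 109) (nat_lit 1) (nat_lit 52) (nat_lit 32) (nat_lit 39)) (PT.lf (nat_lit 8064) (nat_lit 6) (nat_lit 96) (nat_lit 1) (nat_lit 53) (nat_lit 32) (nat_lit 38)))))) (PT.nd (nat_lit 752) (PT.nd (nat_lit 376) (PT.nd (nat_lit 188) (PT.nd (nat_lit 94) (PT.lf (nat_lit 7980) (nat_lit 6) (nat_lit 95) (nat_lit 3) (nat_lit 37) (nat_lit 33) (nat_lit 53)) (PT.lf (nat_lit 9072) (nat_lit 6) (nat_lit 108) (nat_lit 3) (nat_lit 38) (nat_lit 33) (nat_lit 52))) (PT.nd (nat_lit 94) (PT.lf (nat_lit 10080) (nat_lit 6) (nat_lit 120) (nat_lit 3) (nat_lit 39) (nat_lit 33) (nat_lit 51)) (PT.lf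 (nat_lit 11004) (nat_lit 6) (nat_lit 131) (nat_lit 3) (nat_lit 40) (nat_lit 33) (nat_lit 50)))) (PT.nd (nat_lit 188) (PT.nd (nat_lit 94) (PT.lf (nat_lit 11844) (nat_lit 6) (nat_lit 141) (nat_lit 3) (nat_lit 41) (nat_lit 33) (nat_lit 49)) (PT.lf (nat_lit 11928) (nat_lit 6) (nat_lit 142) (nat_lit 3) (nat_lit 42) (nat_lit 33) (nat_lit 48))) (PT.nd (nat_lit 94) (PT.lf (nat_lit 12012) (nat_lit 6) (nat_lit 143) (nat_lit 3) (nat_lit 43) (nat_lit 33) (nat_lit 47)) (PT.lf (nat_lit 12096) (nat_lit 6) (nat_lit 144) (nat_lit 3) (nat_lit 44) (nat_lit 33) (nat_lit 46))))) (PT.nd (nat_lit 376) (PT.nd (nat_lit 188) (PT.nd (nat_lit 94) (PT.lf (nat_lit 12180) (nat_lit 3) (nat_lit 145) (nat_lit 1) (nat_lit 45) (nat_lit 33) (nat_lit 45)) (PT.lf (nat_lit 12096) (nat_lit 6) (nat_lit 144) (nat_lit 1) (nat_lit 46) (nat_lit 33) (nat_lit 44))) (PT.nd (nat_lit 94) (PT.lf (nat_lit 12012) (nat_lit 6) (nat_lit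 143) (nat_lit 1) (nat_lit 47) (nat_lit 33) (nat_lit 43)) (PT.lf (nat_lit 11928) (nat_lit 6) (nat_lit 142) (nat_lit 1) (nat_lit 48) (nat_lit 33) (nat_lit 42)))) (PT.nd (nat_lit 188) (PT.nd (nat_lit 94) (PT.lf (nat_lit 11844) (nat_lit 6) (nat_lit 141) (nat_lit 1) (nat_lit 49) (nat_lit 33) (nat_lit 41)) (PT.lf (nat_lit 11004) (nat_lit 6) (nat_lit 131) (nat_lit 1) (nat_lit 50) (nat_lit 33) (nat_lit 40))) (PT.nd (nat_lit 94) (PT.lf (nat_lit 10080) (nat_lit 6) (nat_lit 120) (nat_lit 1) (nat_lit 51) (nat_lit 33) (nat_lit 39)) (PT.lf (nat_lit 9072) (nat_lit 6) (nat_lit 108) (nat_lit 1) (nat_lit 52) (nat_lit 33) (nat_lit 38))))))))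
noncomputable def pc4 : PT := (PT.nd (nat_lit 107442) (PT.nd (nat_lit 53768) (PT.nd (nat_lit 53016) (PT.nd (nat_lit 52640) (PT.nd (nat_lit 52452) (PT.lf (nat_lit 7980) (nat_lit 6) (nat_lit 95) (nat_lit 1) (nat_lit 53) (nat_lit 33) (nat_lit 37)) (PT.nd (nat_lit 94) (PT.lf (nat_lit 7896) (nat_lit 6) (nat_lit 94) (nat_lit 3) (nat_lit 36) (nat_lit 34) (nat_lit 53)) (PT.lf (nat_lit 8988) (nat_lit 6) (nat_lit 107) (nat_lit 3) (nat_lit 37) (nat_lit 34) (nat_lit 52)))) (PT.nd (nat_lit 188) (PT.nd (nat_lit 94) (PT.lf (nat_lit 9996) (nat_lit 6) (nat_lit 119) (nat_lit 3) (nat_lit 38) (nat_lit 34) (nat_lit 51)) (PT.lf (nat_lit 10920) (nat_lit 6) (nat_lit 130) (nat_lit 3) (nat_lit 39) (nat_lit 34) (nat_lit 50))) (PT.nd (nat_lit 94) (PT.lf (nat_lit 11760) (nat_lit 6) (nat_lit 140) (nat_lit 3) (nat_lit 40) (nat_lit 34) (nat_lit 49)) (PT.lf (nat_lit 12516) (nat_lit 6) (nat_lit 149) (nat_lit 3) (nat_lit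 41) (nat_lit 34) (nat_lit 48))))) (PT.nd (nat_lit 376) (PT.nd (nat_lit 188) (PT.nd (nat_lit 94) (PT.lf (nat_lit 12600) (nat_lit 6) (nat_lit 150) (nat_lit 3) (nat_lit 42) (nat_lit 34) (nat_lit 47)) (PT.lf (nat_lit 12684) (nat_lit 6) (nat_lit 151) (nat_lit 3) (nat_lit 43) (nat_lit 34) (nat_lit 46))) (PT.nd (nat_lit 94) (PT.lf (nat_lit 12768) (nat_lit 6) (nat_lit 152) (nat_lit 3) (nat_lit 44) (nat_lit 34) (nat_lit 45)) (PT.lf (nat_lit 12768) (nat_lit 6) (nat_lit 152) (nat_lit 1) (nat_lit 45) (nat_lit 34) (nat_lit 44)))) (PT.nd (nat_lit 188) (PT.nd (nat_lit 94) (PT.lf (nat_lit 12684) (nat_lit 6) (nat_lit 151) (nat_lit 1) (nat_lit 46) (nat_lit 34) (nat_lit 43)) (PT.lf (nat_lit 12600) (nat_lit 6) (nat_lit 150) (nat_lit 1) (nat_lit 47) (nat_lit 34) (nat_lit 42))) (PT.nd (nat_lit 94) (PT.lf (nat_lit 12516) (nat_lit 6) (nat_lit 149) (nat_lit 1) (nat_lit 48) (nat_lit 34) (nat_lit 41)) (PT.lf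 (nat_lit 11760) (nat_lit 6) (nat_lit 140) (nat_lit 1) (nat_lit 49) (nat_lit 34) (nat_lit 40)))))) (PT.nd (nat_lit 52922) (PT.nd (nat_lit 282) (PT.nd (nat_lit 94) (PT.lf (nat_lit 10920) (nat_lit 6) (nat_lit 130) (nat_lit 1) (nat_lit 50) (nat_lit 34) (nat_lit 39)) (PT.nd (nat_lit 94) (PT.lf (nat_lit 9996) (nat_lit 6) (nat_lit 119) (nat_lit 1) (nat_lit 51) (nat_lit 34) (nat_lit 38)) (PT.lf (nat_lit 8988) (nat_lit 6) (nat_lit 107) (nat_lit 1) (nat_lit 52) (nat_lit 34) (nat_lit 37)))) (PT.nd (nat_lit 52452) (PT.nd (nat_lit 52358) (PT.lf (nat_lit 7896) (nat_lit 6) (nat_lit 94) (nat_lit 1) (nat_lit 53) (nat_lit 34) (nat_lit 36)) (PT.lf (nat_lit 7812) (nat_lit 3) (nat_lit 93) (nat_lit 3) (nat_lit 35) (nat_lit 35) (nat_lit 53))) (PT.nd (nat_lit 94) (PT.lf (nat_lit 8904) (nat_lit 6) (nat_lit 106) (nat_lit 3) (nat_lit 36) (nat_lit 35) (nat_lit 52)) (PT.lf (nat_lit 9912) (nat_lit 6) (nat_lit 118)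 (nat_lit 3) (nat_lit 37) (nat_lit 35) (nat_lit 51))))) (PT.nd (nat_lit 376) (PT.nd (nat_lit 188) (PT.nd (nat_lit 94) (PT.lf (nat_lit 10836) (nat_lit 6) (nat_lit 129) (nat_lit 3) (nat_lit 38) (nat_lit 35) (nat_lit 50)) (PT.lf (nat_lit 11676) (nat_lit 6) (nat_lit 139) (nat_lit 3) (nat_lit 39) (nat_lit 35) (nat_lit 49))) (PT.nd (nat_lit 94) (PT.lf (nat_lit 12432) (nat_lit 6) (nat_lit 148) (nat_lit 3) (nat_lit 40) (nat_lit 35) (nat_lit 48)) (PT.lf (nat_lit 13104) (nat_lit 6) (nat_lit 156) (nat_lit 3) (nat_lit 41) (nat_lit 35) (nat_lit 47)))) (PT.nd (nat_lit 188) (PT.nd (nat_lit 94) (PT.lf (nat_lit 13188) (nat_lit 6) (nat_lit 157) (nat_lit 3) (nat_lit 42) (nat_lit 35) (nat_lit 46)) (PT.lf (nat_lit 13272) (nat_lit 6) (nat_lit 158) (nat_lit 3) (nat_lit 43) (nat_lit 35) (nat_lit 45))) (PT.nd (nat_lit 94) (PT.lf (nat_lit 13356) (nat_lit 3) (nat_lit 159) (nat_lit 1) (nat_lit 44) (nat_lit 35)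 (nat_lit 44)) (PT.lf (nat_lit 13272) (nat_lit 6) (nat_lit 158) (nat_lit 1) (nat_lit 45) (nat_lit 35) (nat_lit 43))))))) (PT.nd (nat_lit 53580) (PT.nd (nat_lit 658) (PT.nd (nat_lit 282) (PT.nd (nat_lit 94) (PT.lf (nat_lit 13188) (nat_lit 6) (nat_lit 157) (nat_lit 1) (nat_lit 46) (nat_lit 35) (nat_lit 42)) (PT.nd (nat_lit 94) (PT.lf (nat_lit 13104) (nat_lit 6) (nat_lit 156) (nat_lit 1) (nat_lit 47) (nat_lit 35) (nat_lit 41)) (PT.lf (nat_lit 12432) (nat_lit 6) (nat_lit 148) (nat_lit 1) (nat_lit 48) (nat_lit 35) (nat_lit 40)))) (PT.nd (nat_lit 188) (PT.nd (nat_lit 94) (PT.lf (nat_lit 11676) (nat_lit 6) (nat_lit 139) (nat_lit 1) (nat_lit 49) (nat_lit 35) (nat_lit 39)) (PT.lf (nat_lit 10836) (nat_lit 6) (nat_lit 129) (nat_lit 1) (nat_lit 50) (nat_lit 35) (nat_lit 38))) (PT.nd (nat_lit 94) (PT.lf (nat_lit 9912) (nat_lit 6) (nat_lit 118) (nat_lit 1) (nat_lit 51) (nat_lit 35) (nat_lit 37))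 (PT.lf (nat_lit 8904) (nat_lit 6) (nat_lit 106) (nat_lit 1) (nat_lit 52) (nat_lit 35) (nat_lit 36))))) (PT.nd (nat_lit 52546) (PT.nd (nat_lit 52358) (PT.nd (nat_lit 52264) (PT.lf (nat_lit 7812) (nat_lit 3) (nat_lit 93) (nat_lit 0) (nat_lit 53) (nat_lit 35) (nat_lit 35)) (PT.lf (nat_lit 7896) (nat_lit 6) (nat_lit 94) (nat_lit 5) (nat_lit 34) (nat_lit 36) (nat_lit 53))) (PT.nd (nat_lit 94) (PT.lf (nat_lit 8904) (nat_lit 6) (nat_lit 106) (nat_lit 5) (nat_lit 35) (nat_lit 36) (nat_lit 52)) (PT.lf (nat_lit 9828) (nat_lit 3) (nat_lit 117) (nat_lit 3) (nat_lit 36) (nat_lit 36) (nat_lit 51)))) (PT.nd (nat_lit 188) (PT.nd (nat_lit 94) (PT.lf (nat_lit 10752) (nat_lit 6) (nat_lit 128) (nat_lit 3) (nat_lit 37) (nat_lit 36) (nat_lit 50)) (PT.lf (nat_lit 11592) (nat_lit 6) (nat_lit 138) (nat_lit 3) (nat_lit 38) (nat_lit 36) (nat_lit 49))) (PT.nd (nat_lit 94) (PT.lf (nat_lit 12348) (nat_lit 6) (nat_lit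 147) (nat_lit 3) (nat_lit 39) (nat_lit 36) (nat_lit 48)) (PT.lf (nat_lit 13020) (nat_lit 6) (nat_lit 155) (nat_lit 3) (nat_lit 40) (nat_lit 36) (nat_lit 47)))))) (PT.nd (nat_lit 752) (PT.nd (nat_lit 376) (PT.nd (nat_lit 188) (PT.nd (nat_lit 94) (PT.lf (nat_lit 13608) (nat_lit 6) (nat_lit 162) (nat_lit 3) (nat_lit 41) (nat_lit 36) (nat_lit 46)) (PT.lf (nat_lit 13692) (nat_lit 6) (nat_lit 163) (nat_lit 3) (nat_lit 42) (nat_lit 36) (nat_lit 45))) (PT.nd (nat_lit 94) (PT.lf (nat_lit 13776) (nat_lit 6) (nat_lit 164) (nat_lit 3) (nat_lit 43) (nat_lit 36) (nat_lit 44)) (PT.lf (nat_lit 13776) (nat_lit 6) (nat_lit 164) (nat_lit 1) (nat_lit 44) (nat_lit 36) (nat_lit 43)))) (PT.nd (nat_lit 188) (PT.nd (nat_lit 94) (PT.lf (nat_lit 13692) (nat_lit 6) (nat_lit 163) (nat_lit 1) (nat_lit 45) (nat_lit 36) (nat_lit 42)) (PT.lf (nat_lit 13608) (nat_lit 6) (nat_lit 162) (nat_lit 1) (nat_lit 46) (nat_lit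 36) (nat_lit 41))) (PT.nd (nat_lit 94) (PT.lf (nat_lit 13020) (nat_lit 6) (nat_lit 155) (nat_lit 1) (nat_lit 47) (nat_lit 36) (nat_lit 40)) (PT.lf (nat_lit 12348) (nat_lit 6) (nat_lit 147) (nat_lit 1) (nat_lit 48) (nat_lit 36) (nat_lit 39))))) (PT.nd (nat_lit 376) (PT.nd (nat_lit 188) (PT.nd (nat_lit 94) (PT.lf (nat_lit 11592) (nat_lit 6) (nat_lit 138) (nat_lit 1) (nat_lit 49) (nat_lit 36) (nat_lit 38)) (PT.lf (nat_lit 10752) (nat_lit 6) (nat_lit 128) (nat_lit 1) (nat_lit 50) (nat_lit 36) (nat_lit 37))) (PT.nd (nat_lit 94) (PT.lf (nat_lit 9828) (nat_lit 3) (nat_lit 117) (nat_lit 0) (nat_lit 51) (nat_lit 36) (nat_lit 36)) (PT.lf (nat_lit 8904) (nat_lit 6) (nat_lit 106) (nat_lit 0) (nat_lit 52) (nat_lit 36) (nat_lit 35)))) (PT.nd (nat_lit 52264) (PT.nd (nat_lit 52170) (PT.lf (nat_lit 7896) (nat_lit 6) (nat_lit 94) (nat_lit 0) (nat_lit 53) (nat_lit 36) (nat_lit 34)) (PT.lf (nat_lit 7980)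 (nat_lit 6) (nat_lit 95) (nat_lit 5) (nat_lit 33) (nat_lit 37) (nat_lit 53))) (PT.nd (nat_lit 94) (PT.lf (nat_lit 8988) (nat_lit 6) (nat_lit 107) (nat_lit 5) (nat_lit 34) (nat_lit 37) (nat_lit 52)) (PT.lf (nat_lit 9912) (nat_lit 6) (nat_lit 118) (nat_lit 5) (nat_lit 35) (nat_lit 37) (nat_lit 51))))))))
noncomputable def pc5 : PT := (PT.nd (nat_lit 54896) (PT.nd (nat_lit 1410) (PT.nd (nat_lit 658) (PT.nd (nat_lit 282) (PT.nd (nat_lit 94) (PT.lf (nat_lit 10752) (nat_lit 6) (nat_lit 128) (nat_lit 5) (nat_lit 36) (nat_lit 37) (nat_lit 50)) (PT.nd (nat_lit 94) (PT.lf (nat_lit 11508) (nat_lit 3) (nat_lit 137) (nat_lit 3) (nat_lit 37) (nat_lit 37) (nat_lit 49)) (PT.lf (nat_lit 12264) (nat_lit 6) (nat_lit 146) (nat_lit 3) (nat_lit 38) (nat_lit 37) (nat_lit 48)))) (PT.nd (nat_lit 188) (PT.nd (nat_lit 94) (PT.lf (nat_lit 12936) (nat_lit 6) (nat_lit 154) (nat_lit 3) (nat_lit 39) (nat_lit 37)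 (nat_lit 47)) (PT.lf (nat_lit 13524) (nat_lit 6) (nat_lit 161) (nat_lit 3) (nat_lit 40) (nat_lit 37) (nat_lit 46))) (PT.nd (nat_lit 94) (PT.lf (nat_lit 14028) (nat_lit 6) (nat_lit 167) (nat_lit 3) (nat_lit 41) (nat_lit 37) (nat_lit 45)) (PT.lf (nat_lit 14112) (nat_lit 6) (nat_lit 168) (nat_lit 3) (nat_lit 42) (nat_lit 37) (nat_lit 44))))) (PT.nd (nat_lit 376) (PT.nd (nat_lit 188) (PT.nd (nat_lit 94) (PT.lf (nat_lit 14196) (nat_lit 3) (nat_lit 169) (nat_lit 1) (nat_lit 43) (nat_lit 37) (nat_lit 43)) (PT.lf (nat_lit 14112) (nat_lit 6) (nat_lit 168) (nat_lit 1) (nat_lit 44) (nat_lit 37) (nat_lit 42))) (PT.nd (nat_lit 94) (PT.lf (nat_lit 14028) (nat_lit 6) (nat_lit 167) (nat_lit 1) (nat_lit 45) (nat_lit 37) (nat_lit 41)) (PT.lf (nat_lit 13524) (nat_lit 6) (nat_lit 161) (nat_lit 1) (nat_lit 46) (nat_lit 37) (nat_lit 40)))) (PT.nd (nat_lit 188) (PT.nd (nat_lit 94) (PT.lf (nat_lit 12936)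 (nat_lit 6) (nat_lit 154) (nat_lit 1) (nat_lit 47) (nat_lit 37) (nat_lit 39)) (PT.lf (nat_lit 12264) (nat_lit 6) (nat_lit 146) (nat_lit 1) (nat_lit 48) (nat_lit 37) (nat_lit 38))) (PT.nd (nat_lit 94) (PT.lf (nat_lit 11508) (nat_lit 3) (nat_lit 137) (nat_lit 0) (nat_lit 49) (nat_lit 37) (nat_lit 37)) (PT.lf (nat_lit 10752) (nat_lit 6) (nat_lit 128) (nat_lit 0) (nat_lit 50) (nat_lit 37) (nat_lit 36)))))) (PT.nd (nat_lit 52734) (PT.nd (nat_lit 52358) (PT.nd (nat_lit 188) (PT.nd (nat_lit 94) (PT.lf (nat_lit 9912) (nat_lit 6) (nat_lit 118) (nat_lit 0) (nat_lit 51) (nat_lit 37) (nat_lit 35)) (PT.lf (nat_lit 8988) (nat_lit 6) (nat_lit 107) (nat_lit 0) (nat_lit 52) (nat_lit 37) (nat_lit 34))) (PT.nd (nat_lit 52076) (PT.lf (nat_lit 7980) (nat_lit 6) (nat_lit 95) (nat_lit 0) (nat_lit 53) (nat_lit 37) (nat_lit 33)) (PT.lf (nat_lit 8064) (nat_lit 6) (nat_lit 96) (nat_lit 5) (nat_lit 32) (nat_lit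 38) (nat_lit 53)))) (PT.nd (nat_lit 188) (PT.nd (nat_lit 94) (PT.lf (nat_lit 9072) (nat_lit 6) (nat_lit 108) (nat_lit 5) (nat_lit 33) (nat_lit 38) (nat_lit 52)) (PT.lf (nat_lit 9996) (nat_lit 6) (nat_lit 119) (nat_lit 5) (nat_lit 34) (nat_lit 38) (nat_lit 51))) (PT.nd (nat_lit 94) (PT.lf (nat_lit 10836) (nat_lit 6) (nat_lit 129) (nat_lit 5) (nat_lit 35) (nat_lit 38) (nat_lit 50)) (PT.lf (nat_lit 11592) (nat_lit 6) (nat_lit 138) (nat_lit 5) (nat_lit 36) (nat_lit 38) (nat_lit 49))))) (PT.nd (nat_lit 376) (PT.nd (nat_lit 188) (PT.nd (nat_lit 94) (PT.lf (nat_lit 12264) (nat_lit 6) (nat_lit 146) (nat_lit 5) (nat_lit 37) (nat_lit 38) (nat_lit 48)) (PT.lf (nat_lit 12852) (nat_lit 3) (nat_lit 153) (nat_lit 3) (nat_lit 38) (nat_lit 38) (nat_lit 47))) (PT.nd (nat_lit 94) (PT.lf (nat_lit 13440) (nat_lit 6) (nat_lit 160) (nat_lit 3) (nat_lit 39) (nat_lit 38) (nat_lit 46)) (PT.lf (nat_lit 13944)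 (nat_lit 6) (nat_lit 166) (nat_lit 3) (nat_lit 40) (nat_lit 38) (nat_lit 45)))) (PT.nd (nat_lit 188) (PT.nd (nat_lit 94) (PT.lf (nat_lit 14364) (nat_lit 6) (nat_lit 171) (nat_lit 3) (nat_lit 41) (nat_lit 38) (nat_lit 44)) (PT.lf (nat_lit 14448) (nat_lit 6) (nat_lit 172) (nat_lit 3) (nat_lit 42) (nat_lit 38) (nat_lit 43))) (PT.nd (nat_lit 94) (PT.lf (nat_lit 14448) (nat_lit 6) (nat_lit 172) (nat_lit 1) (nat_lit 43) (nat_lit 38) (nat_lit 42)) (PT.lf (nat_lit 14364) (nat_lit 6) (nat_lit 171) (nat_lit 1) (nat_lit 44) (nat_lit 38) (nat_lit 41))))))) (PT.nd (nat_lit 53298) (PT.nd (nat_lit 658) (PT.nd (nat_lit 282) (PT.nd (nat_lit 94) (PT.lf (nat_lit 13944) (nat_lit 6) (nat_lit 166) (nat_lit 1) (nat_lit 45) (nat_lit 38) (nat_lit 40)) (PT.nd (nat_lit 94) (PT.lf (nat_lit 13440) (nat_lit 6) (nat_lit 160) (nat_lit 1) (nat_lit 46) (nat_lit 38) (nat_lit 39)) (PT.lf (nat_lit 12852) (nat_lit 3) (nat_lit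 153) (nat_lit 0) (nat_lit 47) (nat_lit 38) (nat_lit 38)))) (PT.nd (nat_lit 188) (PT.nd (nat_lit 94) (PT.lf (nat_lit 12264) (nat_lit 6) (nat_lit 146) (nat_lit 0) (nat_lit 48) (nat_lit 38) (nat_lit 37)) (PT.lf (nat_lit 11592) (nat_lit 6) (nat_lit 138) (nat_lit 0) (nat_lit 49) (nat_lit 38) (nat_lit 36))) (PT.nd (nat_lit 94) (PT.lf (nat_lit 10836) (nat_lit 6) (nat_lit 129) (nat_lit 0) (nat_lit 50) (nat_lit 38) (nat_lit 35)) (PT.lf (nat_lit 9996) (nat_lit 6) (nat_lit 119) (nat_lit 0) (nat_lit 51) (nat_lit 38) (nat_lit 34))))) (PT.nd (nat_lit 52264) (PT.nd (nat_lit 52076) (PT.nd (nat_lit 94) (PT.lf (nat_lit 9072) (nat_lit 6) (nat_lit 108) (nat_lit 0) (nat_lit 52) (nat_lit 38) (nat_lit 33)) (PT.lf (nat_lit 8064) (nat_lit 6) (nat_lit 96) (nat_lit 0) (nat_lit 53) (nat_lit 38) (nat_lit 32))) (PT.nd (nat_lit 94) (PT.lf (nat_lit 8148) (nat_lit 6) (nat_lit 97) (nat_lit 5) (nat_lit 31) (nat_lit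 39) (nat_lit 53)) (PT.lf (nat_lit 9156) (nat_lit 6) (nat_lit 109) (nat_lit 5) (nat_lit 32) (nat_lit 39) (nat_lit 52)))) (PT.nd (nat_lit 188) (PT.nd (nat_lit 94) (PT.lf (nat_lit 10080) (nat_lit 6) (nat_lit 120) (nat_lit 5) (nat_lit 33) (nat_lit 39) (nat_lit 51)) (PT.lf (nat_lit 10920) (nat_lit 6) (nat_lit 130) (nat_lit 5) (nat_lit 34) (nat_lit 39) (nat_lit 50))) (PT.nd (nat_lit 94) (PT.lf (nat_lit 11676) (nat_lit 6) (nat_lit 139) (nat_lit 5) (nat_lit 35) (nat_lit 39) (nat_lit 49)) (PT.lf (nat_lit 12348) (nat_lit 6) (nat_lit 147) (nat_lit 5) (nat_lit 36) (nat_lit 39) (nat_lit 48)))))) (PT.nd (nat_lit 752) (PT.nd (nat_lit 376) (PT.nd (nat_lit 188) (PT.nd (nat_lit 94) (PT.lf (nat_lit 12936) (nat_lit 6) (nat_lit 154) (nat_lit 5) (nat_lit 37) (nat_lit 39) (nat_lit 47)) (PT.lf (nat_lit 13440) (nat_lit 6) (nat_lit 160) (nat_lit 5) (nat_lit 38) (nat_lit 39) (nat_lit 46))) (PT.nd (nat_lit 94)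 (PT.lf (nat_lit 13860) (nat_lit 3) (nat_lit 165) (nat_lit 3) (nat_lit 39) (nat_lit 39) (nat_lit 45)) (PT.lf (nat_lit 14280) (nat_lit 6) (nat_lit 170) (nat_lit 3) (nat_lit 40) (nat_lit 39) (nat_lit 44)))) (PT.nd (nat_lit 188) (PT.nd (nat_lit 94) (PT.lf (nat_lit 14616) (nat_lit 6) (nat_lit 174) (nat_lit 3) (nat_lit 41) (nat_lit 39) (nat_lit 43)) (PT.lf (nat_lit 14700) (nat_lit 3) (nat_lit 175) (nat_lit 1) (nat_lit 42) (nat_lit 39) (nat_lit 42))) (PT.nd (nat_lit 94) (PT.lf (nat_lit 14616) (nat_lit 6) (nat_lit 174) (nat_lit 1) (nat_lit 43) (nat_lit 39) (nat_lit 41)) (PT.lf (nat_lit 14280) (nat_lit 6) (nat_lit 170) (nat_lit 1) (nat_lit 44) (nat_lit 39) (nat_lit 40))))) (PT.nd (nat_lit 376) (PT.nd (nat_lit 188) (PT.nd (nat_lit 94) (PT.lf (nat_lit 13860) (nat_lit 3) (nat_lit 165) (nat_lit 0) (nat_lit 45) (nat_lit 39) (nat_lit 39)) (PT.lf (nat_lit 13440) (nat_lit 6) (nat_lit 160) (nat_lit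 0) (nat_lit 46) (nat_lit 39) (nat_lit 38))) (PT.nd (nat_lit 94) (PT.lf (nat_lit 12936) (nat_lit 6) (nat_lit 154) (nat_lit 0) (nat_lit 47) (nat_lit 39) (nat_lit 37)) (PT.lf (nat_lit 12348) (nat_lit 6) (nat_lit 147) (nat_lit 0) (nat_lit 48) (nat_lit 39) (nat_lit 36)))) (PT.nd (nat_lit 188) (PT.nd (nat_lit 94) (PT.lf (nat_lit 11676) (nat_lit 6) (nat_lit 139) (nat_lit 0) (nat_lit 49) (nat_lit 39) (nat_lit 35)) (PT.lf (nat_lit 10920) (nat_lit 6) (nat_lit 130) (nat_lit 0) (nat_lit 50) (nat_lit 39) (nat_lit 34))) (PT.nd (nat_lit 94) (PT.lf (nat_lit 10080) (nat_lit 6) (nat_lit 120) (nat_lit 0) (nat_lit 51) (nat_lit 39) (nat_lit 33)) (PT.lf (nat_lit 9156) (nat_lit 6) (nat_lit 109) (nat_lit 0) (nat_lit 52) (nat_lit 39) (nat_lit 32))))))))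
noncomputable def pc6 : PT := (PT.nd (nat_lit 106220) (PT.nd (nat_lit 53204) (PT.nd (nat_lit 52452) (PT.nd (nat_lit 52076) (PT.nd (nat_lit 51888) (PT.lf (nat_lit 8148) (nat_lit 6) (nat_lit 97) (nat_lit 0) (nat_lit 53) (nat_lit 39) (nat_lit 31)) (PT.nd (nat_lit 94) (PT.lf (nat_lit 8232) (nat_lit 6) (nat_lit 98) (nat_lit 5) (nat_lit 30) (nat_lit 40) (nat_lit 53)) (PT.lf (nat_lit 9240) (nat_lit 6) (nat_lit 110) (nat_lit 5) (nat_lit 31) (nat_lit 40) (nat_lit 52)))) (PT.nd (nat_lit 188) (PT.nd (nat_lit 94) (PT.lf (nat_lit 10164) (nat_lit 6) (nat_lit 121) (nat_lit 5) (nat_lit 32) (nat_lit 40) (nat_lit 51)) (PT.lf (nat_lit 11004) (nat_lit 6) (nat_lit 131) (nat_lit 5) (nat_lit 33) (nat_lit 40) (nat_lit 50))) (PT.nd (nat_lit 94) (PT.lf (nat_lit 11760) (nat_lit 6) (nat_lit 140) (nat_lit 5) (nat_lit 34) (nat_lit 40) (nat_lit 49)) (PT.lf (nat_lit 12432) (nat_lit 6) (nat_lit 148) (nat_lit 5) (nat_lit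 35) (nat_lit 40) (nat_lit 48))))) (PT.nd (nat_lit 376) (PT.nd (nat_lit 188) (PT.nd (nat_lit 94) (PT.lf (nat_lit 13020) (nat_lit 6) (nat_lit 155) (nat_lit 5) (nat_lit 36) (nat_lit 40) (nat_lit 47)) (PT.lf (nat_lit 13524) (nat_lit 6) (nat_lit 161) (nat_lit 5) (nat_lit 37) (nat_lit 40) (nat_lit 46))) (PT.nd (nat_lit 94) (PT.lf (nat_lit 13944) (nat_lit 6) (nat_lit 166) (nat_lit 5) (nat_lit 38) (nat_lit 40) (nat_lit 45)) (PT.lf (nat_lit 14280) (nat_lit 6) (nat_lit 170) (nat_lit 5) (nat_lit 39) (nat_lit 40) (nat_lit 44)))) (PT.nd (nat_lit 188) (PT.nd (nat_lit 94) (PT.lf (nat_lit 14532) (nat_lit 3) (nat_lit 173) (nat_lit 3) (nat_lit 40) (nat_lit 40) (nat_lit 43)) (PT.lf (nat_lit 14784) (nat_lit 6) (nat_lit 176) (nat_lit 3) (nat_lit 41) (nat_lit 40) (nat_lit 42))) (PT.nd (nat_lit 94) (PT.lf (nat_lit 14784) (nat_lit 6) (nat_lit 176) (nat_lit 1) (nat_lit 42) (nat_lit 40) (nat_lit 41)) (PT.lf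 (nat_lit 14532) (nat_lit 3) (nat_lit 173) (nat_lit 0) (nat_lit 43) (nat_lit 40) (nat_lit 40)))))) (PT.nd (nat_lit 658) (PT.nd (nat_lit 282) (PT.nd (nat_lit 94) (PT.lf (nat_lit 14280) (nat_lit 6) (nat_lit 170) (nat_lit 0) (nat_lit 44) (nat_lit 40) (nat_lit 39)) (PT.nd (nat_lit 94) (PT.lf (nat_lit 13944) (nat_lit 6) (nat_lit 166) (nat_lit 0) (nat_lit 45) (nat_lit 40) (nat_lit 38)) (PT.lf (nat_lit 13524) (nat_lit 6) (nat_lit 161) (nat_lit 0) (nat_lit 46) (nat_lit 40) (nat_lit 37)))) (PT.nd (nat_lit 188) (PT.nd (nat_lit 94) (PT.lf (nat_lit 13020) (nat_lit 6) (nat_lit 155) (nat_lit 0) (nat_lit 47) (nat_lit 40) (nat_lit 36)) (PT.lf (nat_lit 12432) (nat_lit 6) (nat_lit 148) (nat_lit 0) (nat_lit 48) (nat_lit 40) (nat_lit 35))) (PT.nd (nat_lit 94) (PT.lf (nat_lit 11760) (nat_lit 6) (nat_lit 140) (nat_lit 0) (nat_lit 49) (nat_lit 40) (nat_lit 34)) (PT.lf (nat_lit 11004) (nat_lit 6) (nat_lit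 131) (nat_lit 0) (nat_lit 50) (nat_lit 40) (nat_lit 33))))) (PT.nd (nat_lit 51982) (PT.nd (nat_lit 188) (PT.nd (nat_lit 94) (PT.lf (nat_lit 10164) (nat_lit 6) (nat_lit 121) (nat_lit 0) (nat_lit 51) (nat_lit 40) (nat_lit 32)) (PT.lf (nat_lit 9240) (nat_lit 6) (nat_lit 110) (nat_lit 0) (nat_lit 52) (nat_lit 40) (nat_lit 31))) (PT.nd (nat_lit 51700) (PT.lf (nat_lit 8232) (nat_lit 6) (nat_lit 98) (nat_lit 0) (nat_lit 53) (nat_lit 40) (nat_lit 30)) (PT.lf (nat_lit 7224) (nat_lit 6) (nat_lit 86) (nat_lit 5) (nat_lit 28) (nat_lit 41) (nat_lit 54)))) (PT.nd (nat_lit 188) (PT.nd (nat_lit 94) (PT.lf (nat_lit 8316) (nat_lit 6) (nat_lit 99) (nat_lit 5) (nat_lit 29) (nat_lit 41) (nat_lit 53)) (PT.lf (nat_lit 9324) (nat_lit 6) (nat_lit 111) (nat_lit 5) (nat_lit 30) (nat_lit 41) (nat_lit 52))) (PT.nd (nat_lit 94) (PT.lf (nat_lit 10248) (nat_lit 6) (nat_lit 122) (nat_lit 5) (nat_lit 31) (nat_lit 41)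 (nat_lit 51)) (PT.lf (nat_lit 11088) (nat_lit 6) (nat_lit 132) (nat_lit 5) (nat_lit 32) (nat_lit 41) (nat_lit 50))))))) (PT.nd (nat_lit 1410) (PT.nd (nat_lit 658) (PT.nd (nat_lit 282) (PT.nd (nat_lit 94) (PT.lf (nat_lit 11844) (nat_lit 6) (nat_lit 141) (nat_lit 5) (nat_lit 33) (nat_lit 41) (nat_lit 49)) (PT.nd (nat_lit 94) (PT.lf (nat_lit 12516) (nat_lit 6) (nat_lit 149) (nat_lit 5) (nat_lit 34) (nat_lit 41) (nat_lit 48)) (PT.lf (nat_lit 13104) (nat_lit 6) (nat_lit 156) (nat_lit 5) (nat_lit 35) (nat_lit 41) (nat_lit 47)))) (PT.nd (nat_lit 188) (PT.nd (nat_lit 94) (PT.lf (nat_lit 13608) (nat_lit 6) (nat_lit 162) (nat_lit 5) (nat_lit 36) (nat_lit 41) (nat_lit 46)) (PT.lf (nat_lit 14028) (nat_lit 6) (nat_lit 167) (nat_lit 5) (nat_lit 37) (nat_lit 41) (nat_lit 45))) (PT.nd (nat_lit 94) (PT.lf (nat_lit 14364) (nat_lit 6) (nat_lit 171) (nat_lit 5) (nat_lit 38) (nat_lit 41) (nat_lit 44))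 (PT.lf (nat_lit 14616) (nat_lit 6) (nat_lit 174) (nat_lit 5) (nat_lit 39) (nat_lit 41) (nat_lit 43))))) (PT.nd (nat_lit 376) (PT.nd (nat_lit 188) (PT.nd (nat_lit 94) (PT.lf (nat_lit 14784) (nat_lit 6) (nat_lit 176) (nat_lit 5) (nat_lit 40) (nat_lit 41) (nat_lit 42)) (PT.lf (nat_lit 14868) (nat_lit 1) (nat_lit 177) (nat_lit 0) (nat_lit 41) (nat_lit 41) (nat_lit 41))) (PT.nd (nat_lit 94) (PT.lf (nat_lit 14784) (nat_lit 6) (nat_lit 176) (nat_lit 0) (nat_lit 42) (nat_lit 41) (nat_lit 40)) (PT.lf (nat_lit 14616) (nat_lit 6) (nat_lit 174) (nat_lit 0) (nat_lit 43) (nat_lit 41) (nat_lit 39)))) (PT.nd (nat_lit 188) (PT.nd (nat_lit 94) (PT.lf (nat_lit 14364) (nat_lit 6) (nat_lit 171) (nat_lit 0) (nat_lit 44) (nat_lit 41) (nat_lit 38)) (PT.lf (nat_lit 14028) (nat_lit 6) (nat_lit 167) (nat_lit 0) (nat_lit 45) (nat_lit 41) (nat_lit 37))) (PT.nd (nat_lit 94) (PT.lf (nat_lit 13608) (nat_lit 6) (nat_lit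 162) (nat_lit 0) (nat_lit 46) (nat_lit 41) (nat_lit 36)) (PT.lf (nat_lit 13104) (nat_lit 6) (nat_lit 156) (nat_lit 0) (nat_lit 47) (nat_lit 41) (nat_lit 35)))))) (PT.nd (nat_lit 52170) (PT.nd (nat_lit 376) (PT.nd (nat_lit 188) (PT.nd (nat_lit 94) (PT.lf (nat_lit 12516) (nat_lit 6) (nat_lit 149) (nat_lit 0) (nat_lit 48) (nat_lit 41) (nat_lit 34)) (PT.lf (nat_lit 11844) (nat_lit 6) (nat_lit 141) (nat_lit 0) (nat_lit 49) (nat_lit 41) (nat_lit 33))) (PT.nd (nat_lit 94) (PT.lf (nat_lit 11088) (nat_lit 6) (nat_lit 132) (nat_lit 0) (nat_lit 50) (nat_lit 41) (nat_lit 32)) (PT.lf (nat_lit 10248) (nat_lit 6) (nat_lit 122) (nat_lit 0) (nat_lit 51) (nat_lit 41) (nat_lit 31)))) (PT.nd (nat_lit 188) (PT.nd (nat_lit 94) (PT.lf (nat_lit 9324) (nat_lit 6) (nat_lit 111) (nat_lit 0) (nat_lit 52) (nat_lit 41) (nat_lit 30)) (PT.lf (nat_lit 8316) (nat_lit 6) (nat_lit 99) (nat_lit 0) (nat_lit 53) (nat_lit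 41) (nat_lit 29))) (PT.nd (nat_lit 51512) (PT.lf (nat_lit 7224) (nat_lit 6) (nat_lit 86) (nat_lit 0) (nat_lit 54) (nat_lit 41) (nat_lit 28)) (PT.lf (nat_lit 6636) (nat_lit 6) (nat_lit 79) (nat_lit 5) (nat_lit 27) (nat_lit 42) (nat_lit 54))))) (PT.nd (nat_lit 376) (PT.nd (nat_lit 188) (PT.nd (nat_lit 94) (PT.lf (nat_lit 7308) (nat_lit 6) (nat_lit 87) (nat_lit 5) (nat_lit 28) (nat_lit 42) (nat_lit 53)) (PT.lf (nat_lit 8400) (nat_lit 6) (nat_lit 100) (nat_lit 5) (nat_lit 29) (nat_lit 42) (nat_lit 52))) (PT.nd (nat_lit 94) (PT.lf (nat_lit 9408) (nat_lit 6) (nat_lit 112) (nat_lit 5) (nat_lit 30) (nat_lit 42) (nat_lit 51)) (PT.lf (nat_lit 10332) (nat_lit 6) (nat_lit 123) (nat_lit 5) (nat_lit 31) (nat_lit 42) (nat_lit 50)))) (PT.nd (nat_lit 188) (PT.nd (nat_lit 94) (PT.lf (nat_lit 11172) (nat_lit 6) (nat_lit 133) (nat_lit 5) (nat_lit 32) (nat_lit 42) (nat_lit 49)) (PT.lf (nat_lit 11928) (nat_lit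 6) (nat_lit 142) (nat_lit 5) (nat_lit 33) (nat_lit 42) (nat_lit 48))) (PT.nd (nat_lit 94) (PT.lf (nat_lit 12600) (nat_lit 6) (nat_lit 150) (nat_lit 5) (nat_lit 34) (nat_lit 42) (nat_lit 47)) (PT.lf (nat_lit 13188) (nat_lit 6) (nat_lit 157) (nat_lit 5) (nat_lit 35) (nat_lit 42) (nat_lit 46))))))))
noncomputable def pc7 : PT := (PT.nd (nat_lit 54238) (PT.nd (nat_lit 1410) (PT.nd (nat_lit 658) (PT.nd (nat_lit 282) (PT.nd (nat_lit 94) (PT.lf (nat_lit 13692) (nat_lit 6) (nat_lit 163) (nat_lit 5) (nat_lit 36) (nat_lit 42) (nat_lit 45)) (PT.nd (nat_lit 94) (PT.lf (nat_lit 14112) (nat_lit 6) (nat_lit 168) (nat_lit 5) (nat_lit 37) (nat_lit 42) (nat_lit 44)) (PT.lf (nat_lit 14448) (nat_lit 6) (nat_lit 172) (nat_lit 5) (nat_lit 38) (nat_lit 42) (nat_lit 43)))) (PT.nd (nat_lit 188) (PT.nd (nat_lit 94) (PT.lf (nat_lit 14700) (nat_lit 3) (nat_lit 175) (nat_lit 4) (nat_lit 39) (nat_lit 42) (nat_lit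 42)) (PT.lf (nat_lit 14784) (nat_lit 6) (nat_lit 176) (nat_lit 4) (nat_lit 40) (nat_lit 42) (nat_lit 41))) (PT.nd (nat_lit 94) (PT.lf (nat_lit 14784) (nat_lit 6) (nat_lit 176) (nat_lit 2) (nat_lit 41) (nat_lit 42) (nat_lit 40)) (PT.lf (nat_lit 14700) (nat_lit 3) (nat_lit 175) (nat_lit 0) (nat_lit 42) (nat_lit 42) (nat_lit 39))))) (PT.nd (nat_lit 376) (PT.nd (nat_lit 188) (PT.nd (nat_lit 94) (PT.lf (nat_lit 14448) (nat_lit 6) (nat_lit 172) (nat_lit 0) (nat_lit 43) (nat_lit 42) (nat_lit 38)) (PT.lf (nat_lit 14112) (nat_lit 6) (nat_lit 168) (nat_lit 0) (nat_lit 44) (nat_lit 42) (nat_lit 37))) (PT.nd (nat_lit 94) (PT.lf (nat_lit 13692) (nat_lit 6) (nat_lit 163) (nat_lit 0) (nat_lit 45) (nat_lit 42) (nat_lit 36)) (PT.lf (nat_lit 13188) (nat_lit 6) (nat_lit 157) (nat_lit 0) (nat_lit 46) (nat_lit 42) (nat_lit 35)))) (PT.nd (nat_lit 188) (PT.nd (nat_lit 94) (PT.lf (nat_lit 12600) (nat_lit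 6) (nat_lit 150) (nat_lit 0) (nat_lit 47) (nat_lit 42) (nat_lit 34)) (PT.lf (nat_lit 11928) (nat_lit 6) (nat_lit 142) (nat_lit 0) (nat_lit 48) (nat_lit 42) (nat_lit 33))) (PT.nd (nat_lit 94) (PT.lf (nat_lit 11172) (nat_lit 6) (nat_lit 133) (nat_lit 0) (nat_lit 49) (nat_lit 42) (nat_lit 32)) (PT.lf (nat_lit 10332) (nat_lit 6) (nat_lit 123) (nat_lit 0) (nat_lit 50) (nat_lit 42) (nat_lit 31)))))) (PT.nd (nat_lit 52076) (PT.nd (nat_lit 51700) (PT.nd (nat_lit 188) (PT.nd (nat_lit 94) (PT.lf (nat_lit 9408) (nat_lit 6) (nat_lit 112) (nat_lit 0) (nat_lit 51) (nat_lit 42) (nat_lit 30)) (PT.lf (nat_lit 8400) (nat_lit 6) (nat_lit 100) (nat_lit 0) (nat_lit 52) (nat_lit 42) (nat_lit 29))) (PT.nd (nat_lit 94) (PT.lf (nat_lit 7308) (nat_lit 6) (nat_lit 87) (nat_lit 0) (nat_lit 53) (nat_lit 42) (nat_lit 28)) (PT.lf (nat_lit 6636) (nat_lit 6) (nat_lit 79) (nat_lit 0) (nat_lit 54) (nat_lit 42) (nat_lit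 27)))) (PT.nd (nat_lit 188) (PT.nd (nat_lit 94) (PT.lf (nat_lit 6132) (nat_lit 6) (nat_lit 73) (nat_lit 5) (nat_lit 26) (nat_lit 43) (nat_lit 54)) (PT.lf (nat_lit 6720) (nat_lit 6) (nat_lit 80) (nat_lit 5) (nat_lit 27) (nat_lit 43) (nat_lit 53))) (PT.nd (nat_lit 94) (PT.lf (nat_lit 7392) (nat_lit 6) (nat_lit 88) (nat_lit 5) (nat_lit 28) (nat_lit 43) (nat_lit 52)) (PT.lf (nat_lit 8484) (nat_lit 6) (nat_lit 101) (nat_lit 5) (nat_lit 29) (nat_lit 43) (nat_lit 51))))) (PT.nd (nat_lit 376) (PT.nd (nat_lit 188) (PT.nd (nat_lit 94) (PT.lf (nat_lit 9492) (nat_lit 6) (nat_lit 113) (nat_lit 5) (nat_lit 30) (nat_lit 43) (nat_lit 50)) (PT.lf (nat_lit 10416) (nat_lit 6) (nat_lit 124) (nat_lit 5) (nat_lit 31) (nat_lit 43) (nat_lit 49))) (PT.nd (nat_lit 94) (PT.lf (nat_lit 11256) (nat_lit 6) (nat_lit 134) (nat_lit 5) (nat_lit 32) (nat_lit 43) (nat_lit 48)) (PT.lf (nat_lit 12012) (nat_lit 6) (nat_lit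 143) (nat_lit 5) (nat_lit 33) (nat_lit 43) (nat_lit 47)))) (PT.nd (nat_lit 188) (PT.nd (nat_lit 94) (PT.lf (nat_lit 12684) (nat_lit 6) (nat_lit 151) (nat_lit 5) (nat_lit 34) (nat_lit 43) (nat_lit 46)) (PT.lf (nat_lit 13272) (nat_lit 6) (nat_lit 158) (nat_lit 5) (nat_lit 35) (nat_lit 43) (nat_lit 45))) (PT.nd (nat_lit 94) (PT.lf (nat_lit 13776) (nat_lit 6) (nat_lit 164) (nat_lit 5) (nat_lit 36) (nat_lit 43) (nat_lit 44)) (PT.lf (nat_lit 14196) (nat_lit 3) (nat_lit 169) (nat_lit 4) (nat_lit 37) (nat_lit 43) (nat_lit 43))))))) (PT.nd (nat_lit 1410) (PT.nd (nat_lit 658) (PT.nd (nat_lit 282) (PT.nd (nat_lit 94) (PT.lf (nat_lit 14448) (nat_lit 6) (nat_lit 172) (nat_lit 4) (nat_lit 38) (nat_lit 43) (nat_lit 42)) (PT.nd (nat_lit 94) (PT.lf (nat_lit 14616) (nat_lit 6) (nat_lit 174) (nat_lit 4) (nat_lit 39) (nat_lit 43) (nat_lit 41)) (PT.lf (nat_lit 14532) (nat_lit 3) (nat_lit 173) (nat_lit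 2) (nat_lit 40) (nat_lit 43) (nat_lit 40)))) (PT.nd (nat_lit 188) (PT.nd (nat_lit 94) (PT.lf (nat_lit 14616) (nat_lit 6) (nat_lit 174) (nat_lit 2) (nat_lit 41) (nat_lit 43) (nat_lit 39)) (PT.lf (nat_lit 14448) (nat_lit 6) (nat_lit 172) (nat_lit 2) (nat_lit 42) (nat_lit 43) (nat_lit 38))) (PT.nd (nat_lit 94) (PT.lf (nat_lit 14196) (nat_lit 3) (nat_lit 169) (nat_lit 0) (nat_lit 43) (nat_lit 43) (nat_lit 37)) (PT.lf (nat_lit 13776) (nat_lit 6) (nat_lit 164) (nat_lit 0) (nat_lit 44) (nat_lit 43) (nat_lit 36))))) (PT.nd (nat_lit 376) (PT.nd (nat_lit 188) (PT.nd (nat_lit 94) (PT.lf (nat_lit 13272) (nat_lit 6) (nat_lit 158) (nat_lit 0) (nat_lit 45) (nat_lit 43) (nat_lit 35)) (PT.lf (nat_lit 12684) (nat_lit 6) (nat_lit 151) (nat_lit 0) (nat_lit 46) (nat_lit 43) (nat_lit 34))) (PT.nd (nat_lit 94) (PT.lf (nat_lit 12012) (nat_lit 6) (nat_lit 143) (nat_lit 0) (nat_lit 47) (nat_lit 43) (nat_lit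 33)) (PT.lf (nat_lit 11256) (nat_lit 6) (nat_lit 134) (nat_lit 0) (nat_lit 48) (nat_lit 43) (nat_lit 32)))) (PT.nd (nat_lit 188) (PT.nd (nat_lit 94) (PT.lf (nat_lit 10416) (nat_lit 6) (nat_lit 124) (nat_lit 0) (nat_lit 49) (nat_lit 43) (nat_lit 31)) (PT.lf (nat_lit 9492) (nat_lit 6) (nat_lit 113) (nat_lit 0) (nat_lit 50) (nat_lit 43) (nat_lit 30))) (PT.nd (nat_lit 94) (PT.lf (nat_lit 8484) (nat_lit 6) (nat_lit 101) (nat_lit 0) (nat_lit 51) (nat_lit 43) (nat_lit 29)) (PT.lf (nat_lit 7392) (nat_lit 6) (nat_lit 88) (nat_lit 0) (nat_lit 52) (nat_lit 43) (nat_lit 28)))))) (PT.nd (nat_lit 51982) (PT.nd (nat_lit 51606) (PT.nd (nat_lit 51418) (PT.nd (nat_lit 94) (PT.lf (nat_lit 6720) (nat_lit 6) (nat_lit 80) (nat_lit 0) (nat_lit 53) (nat_lit 43) (nat_lit 27)) (PT.lf (nat_lit 6132) (nat_lit 6) (nat_lit 73) (nat_lit 0) (nat_lit 54) (nat_lit 43) (nat_lit 26))) (PT.nd (nat_lit 94) (PT.lf (nat_lit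 5628) (nat_lit 6) (nat_lit 67) (nat_lit 5) (nat_lit 25) (nat_lit 44) (nat_lit 54)) (PT.lf (nat_lit 6216) (nat_lit 6) (nat_lit 74) (nat_lit 5) (nat_lit 26) (nat_lit 44) (nat_lit 53)))) (PT.nd (nat_lit 188) (PT.nd (nat_lit 94) (PT.lf (nat_lit 6804) (nat_lit 6) (nat_lit 81) (nat_lit 5) (nat_lit 27) (nat_lit 44) (nat_lit 52)) (PT.lf (nat_lit 7476) (nat_lit 6) (nat_lit 89) (nat_lit 5) (nat_lit 28) (nat_lit 44) (nat_lit 51))) (PT.nd (nat_lit 94) (PT.lf (nat_lit 8568) (nat_lit 6) (nat_lit 102) (nat_lit 5) (nat_lit 29) (nat_lit 44) (nat_lit 50)) (PT.lf (nat_lit 9576) (nat_lit 6) (nat_lit 114) (nat_lit 5) (nat_lit 30) (nat_lit 44) (nat_lit 49))))) (PT.nd (nat_lit 376) (PT.nd (nat_lit 188) (PT.nd (nat_lit 94) (PT.lf (nat_lit 10500) (nat_lit 6) (nat_lit 125) (nat_lit 5) (nat_lit 31) (nat_lit 44) (nat_lit 48)) (PT.lf (nat_lit 11340) (nat_lit 6) (nat_lit 135) (nat_lit 5) (nat_lit 32) (nat_lit 44)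 (nat_lit 47))) (PT.nd (nat_lit 94) (PT.lf (nat_lit 12096) (nat_lit 6) (nat_lit 144) (nat_lit 5) (nat_lit 33) (nat_lit 44) (nat_lit 46)) (PT.lf (nat_lit 12768) (nat_lit 6) (nat_lit 152) (nat_lit 5) (nat_lit 34) (nat_lit 44) (nat_lit 45)))) (PT.nd (nat_lit 188) (PT.nd (nat_lit 94) (PT.lf (nat_lit 13356) (nat_lit 3) (nat_lit 159) (nat_lit 4) (nat_lit 35) (nat_lit 44) (nat_lit 44)) (PT.lf (nat_lit 13776) (nat_lit 6) (nat_lit 164) (nat_lit 4) (nat_lit 36) (nat_lit 44) (nat_lit 43))) (PT.nd (nat_lit 94) (PT.lf (nat_lit 14112) (nat_lit 6) (nat_lit 168) (nat_lit 4) (nat_lit 37) (nat_lit 44) (nat_lit 42)) (PT.lf (nat_lit 14364) (nat_lit 6) (nat_lit 171) (nat_lit 4) (nat_lit 38) (nat_lit 44) (nat_lit 41))))))))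
noncomputable def pc8 : PT := (PT.nd (nat_lit 53956) (PT.nd (nat_lit 1410) (PT.nd (nat_lit 658) (PT.nd (nat_lit 282) (PT.nd (nat_lit 94) (PT.lf (nat_lit 14280) (nat_lit 6) (nat_lit 170) (nat_lit 4) (nat_lit 39) (nat_lit 44) (nat_lit 40)) (PT.nd (nat_lit 94) (PT.lf (nat_lit 14280) (nat_lit 6) (nat_lit 170) (nat_lit 2) (nat_lit 40) (nat_lit 44) (nat_lit 39)) (PT.lf (nat_lit 14364) (nat_lit 6) (nat_lit 171) (nat_lit 2) (nat_lit 41) (nat_lit 44) (nat_lit 38)))) (PT.nd (nat_lit 188) (PT.nd (nat_lit 94) (PT.lf (nat_lit 14112) (nat_lit 6) (nat_lit 168) (nat_lit 2) (nat_lit 42) (nat_lit 44) (nat_lit 37)) (PT.lf (nat_lit 13776) (nat_lit 6) (nat_lit 164) (nat_lit 2) (nat_lit 43) (nat_lit 44) (nat_lit 36))) (PT.nd (nat_lit 94) (PT.lf (nat_lit 13356) (nat_lit 3) (nat_lit 159) (nat_lit 0) (nat_lit 44) (nat_lit 44) (nat_lit 35)) (PT.lf (nat_lit 12768) (nat_lit 6) (nat_lit 152) (nat_lit 0) (nat_lit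 45) (nat_lit 44) (nat_lit 34))))) (PT.nd (nat_lit 376) (PT.nd (nat_lit 188) (PT.nd (nat_lit 94) (PT.lf (nat_lit 12096) (nat_lit 6) (nat_lit 144) (nat_lit 0) (nat_lit 46) (nat_lit 44) (nat_lit 33)) (PT.lf (nat_lit 11340) (nat_lit 6) (nat_lit 135) (nat_lit 0) (nat_lit 47) (nat_lit 44) (nat_lit 32))) (PT.nd (nat_lit 94) (PT.lf (nat_lit 10500) (nat_lit 6) (nat_lit 125) (nat_lit 0) (nat_lit 48) (nat_lit 44) (nat_lit 31)) (PT.lf (nat_lit 9576) (nat_lit 6) (nat_lit 114) (nat_lit 0) (nat_lit 49) (nat_lit 44) (nat_lit 30)))) (PT.nd (nat_lit 188) (PT.nd (nat_lit 94) (PT.lf (nat_lit 8568) (nat_lit 6) (nat_lit 102) (nat_lit 0) (nat_lit 50) (nat_lit 44) (nat_lit 29)) (PT.lf (nat_lit 7476) (nat_lit 6) (nat_lit 89) (nat_lit 0) (nat_lit 51) (nat_lit 44) (nat_lit 28))) (PT.nd (nat_lit 94) (PT.lf (nat_lit 6804) (nat_lit 6) (nat_lit 81) (nat_lit 0) (nat_lit 52) (nat_lit 44) (nat_lit 27)) (PT.lf (nat_lit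 6216) (nat_lit 6) (nat_lit 74) (nat_lit 0) (nat_lit 53) (nat_lit 44) (nat_lit 26)))))) (PT.nd (nat_lit 51794) (PT.nd (nat_lit 51418) (PT.nd (nat_lit 51230) (PT.lf (nat_lit 5628) (nat_lit 6) (nat_lit 67) (nat_lit 0) (nat_lit 54) (nat_lit 44) (nat_lit 25)) (PT.nd (nat_lit 94) (PT.lf (nat_lit 5208) (nat_lit 6) (nat_lit 62) (nat_lit 5) (nat_lit 24) (nat_lit 45) (nat_lit 54)) (PT.lf (nat_lit 5712) (nat_lit 6) (nat_lit 68) (nat_lit 5) (nat_lit 25) (nat_lit 45) (nat_lit 53)))) (PT.nd (nat_lit 188) (PT.nd (nat_lit 94) (PT.lf (nat_lit 6300) (nat_lit 6) (nat_lit 75) (nat_lit 5) (nat_lit 26) (nat_lit 45) (nat_lit 52)) (PT.lf (nat_lit 6888) (nat_lit 6) (nat_lit 82) (nat_lit 5) (nat_lit 27) (nat_lit 45) (nat_lit 51))) (PT.nd (nat_lit 94) (PT.lf (nat_lit 7560) (nat_lit 6) (nat_lit 90) (nat_lit 5) (nat_lit 28) (nat_lit 45) (nat_lit 50)) (PT.lf (nat_lit 8652) (nat_lit 6) (nat_lit 103) (nat_lit 5)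 (nat_lit 29) (nat_lit 45) (nat_lit 49))))) (PT.nd (nat_lit 376) (PT.nd (nat_lit 188) (PT.nd (nat_lit 94) (PT.lf (nat_lit 9660) (nat_lit 6) (nat_lit 115) (nat_lit 5) (nat_lit 30) (nat_lit 45) (nat_lit 48)) (PT.lf (nat_lit 10584) (nat_lit 6) (nat_lit 126) (nat_lit 5) (nat_lit 31) (nat_lit 45) (nat_lit 47))) (PT.nd (nat_lit 94) (PT.lf (nat_lit 11424) (nat_lit 6) (nat_lit 136) (nat_lit 5) (nat_lit 32) (nat_lit 45) (nat_lit 46)) (PT.lf (nat_lit 12180) (nat_lit 3) (nat_lit 145) (nat_lit 4) (nat_lit 33) (nat_lit 45) (nat_lit 45)))) (PT.nd (nat_lit 188) (PT.nd (nat_lit 94) (PT.lf (nat_lit 12768) (nat_lit 6) (nat_lit 152) (nat_lit 4) (nat_lit 34) (nat_lit 45) (nat_lit 44)) (PT.lf (nat_lit 13272) (nat_lit 6) (nat_lit 158) (nat_lit 4) (nat_lit 35) (nat_lit 45) (nat_lit 43))) (PT.nd (nat_lit 94) (PT.lf (nat_lit 13692) (nat_lit 6) (nat_lit 163) (nat_lit 4) (nat_lit 36) (nat_lit 45) (nat_lit 42))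 (PT.lf (nat_lit 14028) (nat_lit 6) (nat_lit 167) (nat_lit 4) (nat_lit 37) (nat_lit 45) (nat_lit 41))))))) (PT.nd (nat_lit 1410) (PT.nd (nat_lit 658) (PT.nd (nat_lit 282) (PT.nd (nat_lit 94) (PT.lf (nat_lit 13944) (nat_lit 6) (nat_lit 166) (nat_lit 4) (nat_lit 38) (nat_lit 45) (nat_lit 40)) (PT.nd (nat_lit 94) (PT.lf (nat_lit 13860) (nat_lit 3) (nat_lit 165) (nat_lit 2) (nat_lit 39) (nat_lit 45) (nat_lit 39)) (PT.lf (nat_lit 13944) (nat_lit 6) (nat_lit 166) (nat_lit 2) (nat_lit 40) (nat_lit 45) (nat_lit 38)))) (PT.nd (nat_lit 188) (PT.nd (nat_lit 94) (PT.lf (nat_lit 14028) (nat_lit 6) (nat_lit 167) (nat_lit 2) (nat_lit 41) (nat_lit 45) (nat_lit 37)) (PT.lf (nat_lit 13692) (nat_lit 6) (nat_lit 163) (nat_lit 2) (nat_lit 42) (nat_lit 45) (nat_lit 36))) (PT.nd (nat_lit 94) (PT.lf (nat_lit 13272) (nat_lit 6) (nat_lit 158) (nat_lit 2) (nat_lit 43) (nat_lit 45) (nat_lit 35)) (PT.lf (nat_lit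 12768) (nat_lit 6) (nat_lit 152) (nat_lit 2) (nat_lit 44) (nat_lit 45) (nat_lit 34))))) (PT.nd (nat_lit 376) (PT.nd (nat_lit 188) (PT.nd (nat_lit 94) (PT.lf (nat_lit 12180) (nat_lit 3) (nat_lit 145) (nat_lit 0) (nat_lit 45) (nat_lit 45) (nat_lit 33)) (PT.lf (nat_lit 11424) (nat_lit 6) (nat_lit 136) (nat_lit 0) (nat_lit 46) (nat_lit 45) (nat_lit 32))) (PT.nd (nat_lit 94) (PT.lf (nat_lit 10584) (nat_lit 6) (nat_lit 126) (nat_lit 0) (nat_lit 47) (nat_lit 45) (nat_lit 31)) (PT.lf (nat_lit 9660) (nat_lit 6) (nat_lit 115) (nat_lit 0) (nat_lit 48) (nat_lit 45) (nat_lit 30)))) (PT.nd (nat_lit 188) (PT.nd (nat_lit 94) (PT.lf (nat_lit 8652) (nat_lit 6) (nat_lit 103) (nat_lit 0) (nat_lit 49) (nat_lit 45) (nat_lit 29)) (PT.lf (nat_lit 7560) (nat_lit 6) (nat_lit 90) (nat_lit 0) (nat_lit 50) (nat_lit 45) (nat_lit 28))) (PT.nd (nat_lit 94) (PT.lf (nat_lit 6888) (nat_lit 6) (nat_lit 82) (nat_lit 0)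 (nat_lit 51) (nat_lit 45) (nat_lit 27)) (PT.lf (nat_lit 6300) (nat_lit 6) (nat_lit 75) (nat_lit 0) (nat_lit 52) (nat_lit 45) (nat_lit 26)))))) (PT.nd (nat_lit 51700) (PT.nd (nat_lit 51324) (PT.nd (nat_lit 51136) (PT.nd (nat_lit 94) (PT.lf (nat_lit 5712) (nat_lit 6) (nat_lit 68) (nat_lit 0) (nat_lit 53) (nat_lit 45) (nat_lit 25)) (PT.lf (nat_lit 5208) (nat_lit 6) (nat_lit 62) (nat_lit 0) (nat_lit 54) (nat_lit 45) (nat_lit 24))) (PT.nd (nat_lit 94) (PT.lf (nat_lit 4368) (nat_lit 6) (nat_lit 52) (nat_lit 5) (nat_lit 22) (nat_lit 46) (nat_lit 55)) (PT.lf (nat_lit 4788) (nat_lit 6) (nat_lit 57) (nat_lit 5) (nat_lit 23) (nat_lit 46) (nat_lit 54)))) (PT.nd (nat_lit 188) (PT.nd (nat_lit 94) (PT.lf (nat_lit 5292) (nat_lit 6) (nat_lit 63) (nat_lit 5) (nat_lit 24) (nat_lit 46) (nat_lit 53)) (PT.lf (nat_lit 5796) (nat_lit 6) (nat_lit 69) (nat_lit 5) (nat_lit 25) (nat_lit 46) (nat_lit 52))) (PT.nd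 (nat_lit 94) (PT.lf (nat_lit 6384) (nat_lit 6) (nat_lit 76) (nat_lit 5) (nat_lit 26) (nat_lit 46) (nat_lit 51)) (PT.lf (nat_lit 6972) (nat_lit 6) (nat_lit 83) (nat_lit 5) (nat_lit 27) (nat_lit 46) (nat_lit 50))))) (PT.nd (nat_lit 376) (PT.nd (nat_lit 188) (PT.nd (nat_lit 94) (PT.lf (nat_lit 7644) (nat_lit 6) (nat_lit 91) (nat_lit 5) (nat_lit 28) (nat_lit 46) (nat_lit 49)) (PT.lf (nat_lit 8736) (nat_lit 6) (nat_lit 104) (nat_lit 5) (nat_lit 29) (nat_lit 46) (nat_lit 48))) (PT.nd (nat_lit 94) (PT.lf (nat_lit 9744) (nat_lit 6) (nat_lit 116) (nat_lit 5) (nat_lit 30) (nat_lit 46) (nat_lit 47)) (PT.lf (nat_lit 10668) (nat_lit 3) (nat_lit 127) (nat_lit 4) (nat_lit 31) (nat_lit 46) (nat_lit 46)))) (PT.nd (nat_lit 188) (PT.nd (nat_lit 94) (PT.lf (nat_lit 11424) (nat_lit 6) (nat_lit 136) (nat_lit 4) (nat_lit 32) (nat_lit 46) (nat_lit 45)) (PT.lf (nat_lit 12096) (nat_lit 6) (nat_lit 144) (nat_lit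 4) (nat_lit 33) (nat_lit 46) (nat_lit 44))) (PT.nd (nat_lit 94) (PT.lf (nat_lit 12684) (nat_lit 6) (nat_lit 151) (nat_lit 4) (nat_lit 34) (nat_lit 46) (nat_lit 43)) (PT.lf (nat_lit 13188) (nat_lit 6) (nat_lit 157) (nat_lit 4) (nat_lit 35) (nat_lit 46) (nat_lit 42))))))))
noncomputable def pc9 : PT := (PT.nd (nat_lit 53580) (PT.nd (nat_lit 1410) (PT.nd (nat_lit 658) (PT.nd (nat_lit 282) (PT.nd (nat_lit 94) (PT.lf (nat_lit 13608) (nat_lit 6) (nat_lit 162) (nat_lit 4) (nat_lit 36) (nat_lit 46) (nat_lit 41)) (PT.nd (nat_lit 94) (PT.lf (nat_lit 13524) (nat_lit 6) (nat_lit 161) (nat_lit 4) (nat_lit 37) (nat_lit 46) (nat_lit 40)) (PT.lf (nat_lit 13440) (nat_lit 6) (nat_lit 160) (nat_lit 4) (nat_lit 38) (nat_lit 46) (nat_lit 39)))) (PT.nd (nat_lit 188) (PT.nd (nat_lit 94) (PT.lf (nat_lit 13440) (nat_lit 6) (nat_lit 160) (nat_lit 2) (nat_lit 39) (nat_lit 46) (nat_lit 38)) (PT.lf (nat_lit 13524)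 (nat_lit 6) (nat_lit 161) (nat_lit 2) (nat_lit 40) (nat_lit 46) (nat_lit 37))) (PT.nd (nat_lit 94) (PT.lf (nat_lit 13608) (nat_lit 6) (nat_lit 162) (nat_lit 2) (nat_lit 41) (nat_lit 46) (nat_lit 36)) (PT.lf (nat_lit 13188) (nat_lit 6) (nat_lit 157) (nat_lit 2) (nat_lit 42) (nat_lit 46) (nat_lit 35))))) (PT.nd (nat_lit 376) (PT.nd (nat_lit 188) (PT.nd (nat_lit 94) (PT.lf (nat_lit 12684) (nat_lit 6) (nat_lit 151) (nat_lit 2) (nat_lit 43) (nat_lit 46) (nat_lit 34)) (PT.lf (nat_lit 12096) (nat_lit 6) (nat_lit 144) (nat_lit 2) (nat_lit 44) (nat_lit 46) (nat_lit 33))) (PT.nd (nat_lit 94) (PT.lf (nat_lit 11424) (nat_lit 6) (nat_lit 136) (nat_lit 2) (nat_lit 45) (nat_lit 46) (nat_lit 32)) (PT.lf (nat_lit 10668) (nat_lit 3) (nat_lit 127) (nat_lit 0) (nat_lit 46) (nat_lit 46) (nat_lit 31)))) (PT.nd (nat_lit 188) (PT.nd (nat_lit 94) (PT.lf (nat_lit 9744) (nat_lit 6) (nat_lit 116) (nat_lit 0)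 (nat_lit 47) (nat_lit 46) (nat_lit 30)) (PT.lf (nat_lit 8736) (nat_lit 6) (nat_lit 104) (nat_lit 0) (nat_lit 48) (nat_lit 46) (nat_lit 29))) (PT.nd (nat_lit 94) (PT.lf (nat_lit 7644) (nat_lit 6) (nat_lit 91) (nat_lit 0) (nat_lit 49) (nat_lit 46) (nat_lit 28)) (PT.lf (nat_lit 6972) (nat_lit 6) (nat_lit 83) (nat_lit 0) (nat_lit 50) (nat_lit 46) (nat_lit 27)))))) (PT.nd (nat_lit 51418) (PT.nd (nat_lit 282) (PT.nd (nat_lit 94) (PT.lf (nat_lit 6384) (nat_lit 6) (nat_lit 76) (nat_lit 0) (nat_lit 51) (nat_lit 46) (nat_lit 26)) (PT.nd (nat_lit 94) (PT.lf (nat_lit 5796) (nat_lit 6) (nat_lit 69) (nat_lit 0) (nat_lit 52) (nat_lit 46) (nat_lit 25)) (PT.lf (nat_lit 5292) (nat_lit 6) (nat_lit 63) (nat_lit 0) (nat_lit 53) (nat_lit 46) (nat_lit 24)))) (PT.nd (nat_lit 50948) (PT.nd (nat_lit 94) (PT.lf (nat_lit 4788) (nat_lit 6) (nat_lit 57) (nat_lit 0) (nat_lit 54) (nat_lit 46) (nat_lit 23)) (PT.lf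 (nat_lit 4368) (nat_lit 6) (nat_lit 52) (nat_lit 0) (nat_lit 55) (nat_lit 46) (nat_lit 22))) (PT.nd (nat_lit 94) (PT.lf (nat_lit 3948) (nat_lit 6) (nat_lit 47) (nat_lit 5) (nat_lit 21) (nat_lit 47) (nat_lit 55)) (PT.lf (nat_lit 4452) (nat_lit 6) (nat_lit 53) (nat_lit 5) (nat_lit 22) (nat_lit 47) (nat_lit 54))))) (PT.nd (nat_lit 376) (PT.nd (nat_lit 188) (PT.nd (nat_lit 94) (PT.lf (nat_lit 4872) (nat_lit 6) (nat_lit 58) (nat_lit 5) (nat_lit 23) (nat_lit 47) (nat_lit 53)) (PT.lf (nat_lit 5376) (nat_lit 6) (nat_lit 64) (nat_lit 5) (nat_lit 24) (nat_lit 47) (nat_lit 52))) (PT.nd (nat_lit 94) (PT.lf (nat_lit 5880) (nat_lit 6) (nat_lit 70) (nat_lit 5) (nat_lit 25) (nat_lit 47) (nat_lit 51)) (PT.lf (nat_lit 6468) (nat_lit 6) (nat_lit 77) (nat_lit 5) (nat_lit 26) (nat_lit 47) (nat_lit 50)))) (PT.nd (nat_lit 188) (PT.nd (nat_lit 94) (PT.lf (nat_lit 7056) (nat_lit 6) (nat_lit 84) (nat_lit 5)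 (nat_lit 27) (nat_lit 47) (nat_lit 49)) (PT.lf (nat_lit 7728) (nat_lit 6) (nat_lit 92) (nat_lit 5) (nat_lit 28) (nat_lit 47) (nat_lit 48))) (PT.nd (nat_lit 94) (PT.lf (nat_lit 8820) (nat_lit 3) (nat_lit 105) (nat_lit 4) (nat_lit 29) (nat_lit 47) (nat_lit 47)) (PT.lf (nat_lit 9744) (nat_lit 6) (nat_lit 116) (nat_lit 4) (nat_lit 30) (nat_lit 47) (nat_lit 46))))))) (PT.nd (nat_lit 1410) (PT.nd (nat_lit 658) (PT.nd (nat_lit 282) (PT.nd (nat_lit 94) (PT.lf (nat_lit 10584) (nat_lit 6) (nat_lit 126) (nat_lit 4) (nat_lit 31) (nat_lit 47) (nat_lit 45)) (PT.nd (nat_lit 94) (PT.lf (nat_lit 11340) (nat_lit 6) (nat_lit 135) (nat_lit 4) (nat_lit 32) (nat_lit 47) (nat_lit 44)) (PT.lf (nat_lit 12012) (nat_lit 6) (nat_lit 143) (nat_lit 4) (nat_lit 33) (nat_lit 47) (nat_lit 43)))) (PT.nd (nat_lit 188) (PT.nd (nat_lit 94) (PT.lf (nat_lit 12600) (nat_lit 6) (nat_lit 150) (nat_lit 4) (nat_lit 34) (nat_lit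 47) (nat_lit 42)) (PT.lf (nat_lit 13104) (nat_lit 6) (nat_lit 156) (nat_lit 4) (nat_lit 35) (nat_lit 47) (nat_lit 41))) (PT.nd (nat_lit 94) (PT.lf (nat_lit 13020) (nat_lit 6) (nat_lit 155) (nat_lit 4) (nat_lit 36) (nat_lit 47) (nat_lit 40)) (PT.lf (nat_lit 12936) (nat_lit 6) (nat_lit 154) (nat_lit 4) (nat_lit 37) (nat_lit 47) (nat_lit 39))))) (PT.nd (nat_lit 376) (PT.nd (nat_lit 188) (PT.nd (nat_lit 94) (PT.lf (nat_lit 12852) (nat_lit 3) (nat_lit 153) (nat_lit 2) (nat_lit 38) (nat_lit 47) (nat_lit 38)) (PT.lf (nat_lit 12936) (nat_lit 6) (nat_lit 154) (nat_lit 2) (nat_lit 39) (nat_lit 47) (nat_lit 37))) (PT.nd (nat_lit 94) (PT.lf (nat_lit 13020) (nat_lit 6) (nat_lit 155) (nat_lit 2) (nat_lit 40) (nat_lit 47) (nat_lit 36)) (PT.lf (nat_lit 13104) (nat_lit 6) (nat_lit 156) (nat_lit 2) (nat_lit 41) (nat_lit 47) (nat_lit 35)))) (PT.nd (nat_lit 188) (PT.nd (nat_lit 94) (PT.lf (nat_lit 12600)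 (nat_lit 6) (nat_lit 150) (nat_lit 2) (nat_lit 42) (nat_lit 47) (nat_lit 34)) (PT.lf (nat_lit 12012) (nat_lit 6) (nat_lit 143) (nat_lit 2) (nat_lit 43) (nat_lit 47) (nat_lit 33))) (PT.nd (nat_lit 94) (PT.lf (nat_lit 11340) (nat_lit 6) (nat_lit 135) (nat_lit 2) (nat_lit 44) (nat_lit 47) (nat_lit 32)) (PT.lf (nat_lit 10584) (nat_lit 6) (nat_lit 126) (nat_lit 2) (nat_lit 45) (nat_lit 47) (nat_lit 31)))))) (PT.nd (nat_lit 752) (PT.nd (nat_lit 376) (PT.nd (nat_lit 188) (PT.nd (nat_lit 94) (PT.lf (nat_lit 9744) (nat_lit 6) (nat_lit 116) (nat_lit 2) (nat_lit 46) (nat_lit 47) (nat_lit 30)) (PT.lf (nat_lit 8820) (nat_lit 3) (nat_lit 105) (nat_lit 0) (nat_lit 47) (nat_lit 47) (nat_lit 29))) (PT.nd (nat_lit 94) (PT.lf (nat_lit 7728) (nat_lit 6) (nat_lit 92) (nat_lit 0) (nat_lit 48) (nat_lit 47) (nat_lit 28)) (PT.lf (nat_lit 7056) (nat_lit 6) (nat_lit 84) (nat_lit 0) (nat_lit 49) (nat_lit 47)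 (nat_lit 27)))) (PT.nd (nat_lit 188) (PT.nd (nat_lit 94) (PT.lf (nat_lit 6468) (nat_lit 6) (nat_lit 77) (nat_lit 0) (nat_lit 50) (nat_lit 47) (nat_lit 26)) (PT.lf (nat_lit 5880) (nat_lit 6) (nat_lit 70) (nat_lit 0) (nat_lit 51) (nat_lit 47) (nat_lit 25))) (PT.nd (nat_lit 94) (PT.lf (nat_lit 5376) (nat_lit 6) (nat_lit 64) (nat_lit 0) (nat_lit 52) (nat_lit 47) (nat_lit 24)) (PT.lf (nat_lit 4872) (nat_lit 6) (nat_lit 58) (nat_lit 0) (nat_lit 53) (nat_lit 47) (nat_lit 23))))) (PT.nd (nat_lit 51042) (PT.nd (nat_lit 50854) (PT.nd (nat_lit 94) (PT.lf (nat_lit 4452) (nat_lit 6) (nat_lit 53) (nat_lit 0) (nat_lit 54) (nat_lit 47) (nat_lit 22)) (PT.lf (nat_lit 3948) (nat_lit 6) (nat_lit 47) (nat_lit 0) (nat_lit 55) (nat_lit 47) (nat_lit 21))) (PT.nd (nat_lit 94) (PT.lf (nat_lit 3612) (nat_lit 6) (nat_lit 43) (nat_lit 5) (nat_lit 20) (nat_lit 48) (nat_lit 55)) (PT.lf (nat_lit 4032) (nat_lit 6)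 (nat_lit 48) (nat_lit 5) (nat_lit 21) (nat_lit 48) (nat_lit 54)))) (PT.nd (nat_lit 188) (PT.nd (nat_lit 94) (PT.lf (nat_lit 4536) (nat_lit 6) (nat_lit 54) (nat_lit 5) (nat_lit 22) (nat_lit 48) (nat_lit 53)) (PT.lf (nat_lit 4956) (nat_lit 6) (nat_lit 59) (nat_lit 5) (nat_lit 23) (nat_lit 48) (nat_lit 52))) (PT.nd (nat_lit 94) (PT.lf (nat_lit 5460) (nat_lit 6) (nat_lit 65) (nat_lit 5) (nat_lit 24) (nat_lit 48) (nat_lit 51)) (PT.lf (nat_lit 5964) (nat_lit 6) (nat_lit 71) (nat_lit 5) (nat_lit 25) (nat_lit 48) (nat_lit 50))))))))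
noncomputable def pc10 : PT := (PT.nd (nat_lit 53298) (PT.nd (nat_lit 1410) (PT.nd (nat_lit 658) (PT.nd (nat_lit 282) (PT.nd (nat_lit 94) (PT.lf (nat_lit 6552) (nat_lit 6) (nat_lit 78) (nat_lit 5) (nat_lit 26) (nat_lit 48) (nat_lit 49)) (PT.nd (nat_lit 94) (PT.lf (nat_lit 7140) (nat_lit 3) (nat_lit 85) (nat_lit 4) (nat_lit 27) (nat_lit 48) (nat_lit 48)) (PT.lf (nat_lit 7728) (nat_lit 6) (nat_lit 92) (nat_lit 4) (nat_lit 28) (nat_lit 48) (nat_lit 47)))) (PT.nd (nat_lit 188) (PT.nd (nat_lit 94) (PT.lf (nat_lit 8736) (nat_lit 6) (nat_lit 104) (nat_lit 4) (nat_lit 29) (nat_lit 48) (nat_lit 46)) (PT.lf (nat_lit 9660) (nat_lit 6) (nat_lit 115) (nat_lit 4) (nat_lit 30) (nat_lit 48) (nat_lit 45))) (PT.nd (nat_lit 94) (PT.lf (nat_lit 10500) (nat_lit 6) (nat_lit 125) (nat_lit 4) (nat_lit 31) (nat_lit 48) (nat_lit 44)) (PT.lf (nat_lit 11256) (nat_lit 6) (nat_lit 134) (nat_lit 4) (nat_lit 32)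 (nat_lit 48) (nat_lit 43))))) (PT.nd (nat_lit 376) (PT.nd (nat_lit 188) (PT.nd (nat_lit 94) (PT.lf (nat_lit 11928) (nat_lit 6) (nat_lit 142) (nat_lit 4) (nat_lit 33) (nat_lit 48) (nat_lit 42)) (PT.lf (nat_lit 12516) (nat_lit 6) (nat_lit 149) (nat_lit 4) (nat_lit 34) (nat_lit 48) (nat_lit 41))) (PT.nd (nat_lit 94) (PT.lf (nat_lit 12432) (nat_lit 6) (nat_lit 148) (nat_lit 4) (nat_lit 35) (nat_lit 48) (nat_lit 40)) (PT.lf (nat_lit 12348) (nat_lit 6) (nat_lit 147) (nat_lit 4) (nat_lit 36) (nat_lit 48) (nat_lit 39)))) (PT.nd (nat_lit 188) (PT.nd (nat_lit 94) (PT.lf (nat_lit 12264) (nat_lit 6) (nat_lit 146) (nat_lit 4) (nat_lit 37) (nat_lit 48) (nat_lit 38)) (PT.lf (nat_lit 12264) (nat_lit 6) (nat_lit 146) (nat_lit 2) (nat_lit 38) (nat_lit 48) (nat_lit 37))) (PT.nd (nat_lit 94) (PT.lf (nat_lit 12348) (nat_lit 6) (nat_lit 147) (nat_lit 2) (nat_lit 39) (nat_lit 48) (nat_lit 36)) (PT.lf (nat_lit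 12432) (nat_lit 6) (nat_lit 148) (nat_lit 2) (nat_lit 40) (nat_lit 48) (nat_lit 35)))))) (PT.nd (nat_lit 658) (PT.nd (nat_lit 282) (PT.nd (nat_lit 94) (PT.lf (nat_lit 12516) (nat_lit 6) (nat_lit 149) (nat_lit 2) (nat_lit 41) (nat_lit 48) (nat_lit 34)) (PT.nd (nat_lit 94) (PT.lf (nat_lit 11928) (nat_lit 6) (nat_lit 142) (nat_lit 2) (nat_lit 42) (nat_lit 48) (nat_lit 33)) (PT.lf (nat_lit 11256) (nat_lit 6) (nat_lit 134) (nat_lit 2) (nat_lit 43) (nat_lit 48) (nat_lit 32)))) (PT.nd (nat_lit 188) (PT.nd (nat_lit 94) (PT.lf (nat_lit 10500) (nat_lit 6) (nat_lit 125) (nat_lit 2) (nat_lit 44) (nat_lit 48) (nat_lit 31)) (PT.lf (nat_lit 9660) (nat_lit 6) (nat_lit 115) (nat_lit 2) (nat_lit 45) (nat_lit 48) (nat_lit 30))) (PT.nd (nat_lit 94) (PT.lf (nat_lit 8736) (nat_lit 6) (nat_lit 104) (nat_lit 2) (nat_lit 46) (nat_lit 48) (nat_lit 29)) (PT.lf (nat_lit 7728) (nat_lit 6) (nat_lit 92) (nat_lit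 2) (nat_lit 47) (nat_lit 48) (nat_lit 28))))) (PT.nd (nat_lit 376) (PT.nd (nat_lit 188) (PT.nd (nat_lit 94) (PT.lf (nat_lit 7140) (nat_lit 3) (nat_lit 85) (nat_lit 0) (nat_lit 48) (nat_lit 48) (nat_lit 27)) (PT.lf (nat_lit 6552) (nat_lit 6) (nat_lit 78) (nat_lit 0) (nat_lit 49) (nat_lit 48) (nat_lit 26))) (PT.nd (nat_lit 94) (PT.lf (nat_lit 5964) (nat_lit 6) (nat_lit 71) (nat_lit 0) (nat_lit 50) (nat_lit 48) (nat_lit 25)) (PT.lf (nat_lit 5460) (nat_lit 6) (nat_lit 65) (nat_lit 0) (nat_lit 51) (nat_lit 48) (nat_lit 24)))) (PT.nd (nat_lit 188) (PT.nd (nat_lit 94) (PT.lf (nat_lit 4956) (nat_lit 6) (nat_lit 59) (nat_lit 0) (nat_lit 52) (nat_lit 48) (nat_lit 23)) (PT.lf (nat_lit 4536) (nat_lit 6) (nat_lit 54) (nat_lit 0) (nat_lit 53) (nat_lit 48) (nat_lit 22))) (PT.nd (nat_lit 94) (PT.lf (nat_lit 4032) (nat_lit 6) (nat_lit 48) (nat_lit 0) (nat_lit 54) (nat_lit 48) (nat_lit 21)) (PT.lf (nat_lit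 3612) (nat_lit 6) (nat_lit 43) (nat_lit 0) (nat_lit 55) (nat_lit 48) (nat_lit 20))))))) (PT.nd (nat_lit 1410) (PT.nd (nat_lit 658) (PT.nd (nat_lit 282) (PT.nd (nat_lit 94) (PT.lf (nat_lit 2940) (nat_lit 6) (nat_lit 35) (nat_lit 5) (nat_lit 18) (nat_lit 49) (nat_lit 56)) (PT.nd (nat_lit 94) (PT.lf (nat_lit 3276) (nat_lit 6) (nat_lit 39) (nat_lit 5) (nat_lit 19) (nat_lit 49) (nat_lit 55)) (PT.lf (nat_lit 3696) (nat_lit 6) (nat_lit 44) (nat_lit 5) (nat_lit 20) (nat_lit 49) (nat_lit 54)))) (PT.nd (nat_lit 188) (PT.nd (nat_lit 94) (PT.lf (nat_lit 4116) (nat_lit 6) (nat_lit 49) (nat_lit 5) (nat_lit 21) (nat_lit 49) (nat_lit 53)) (PT.lf (nat_lit 4620) (nat_lit 6) (nat_lit 55) (nat_lit 5) (nat_lit 22) (nat_lit 49) (nat_lit 52))) (PT.nd (nat_lit 94) (PT.lf (nat_lit 5040) (nat_lit 6) (nat_lit 60) (nat_lit 5) (nat_lit 23) (nat_lit 49) (nat_lit 51)) (PT.lf (nat_lit 5544) (nat_lit 6) (nat_lit 66)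 (nat_lit 5) (nat_lit 24) (nat_lit 49) (nat_lit 50))))) (PT.nd (nat_lit 376) (PT.nd (nat_lit 188) (PT.nd (nat_lit 94) (PT.lf (nat_lit 6048) (nat_lit 3) (nat_lit 72) (nat_lit 4) (nat_lit 25) (nat_lit 49) (nat_lit 49)) (PT.lf (nat_lit 6552) (nat_lit 6) (nat_lit 78) (nat_lit 4) (nat_lit 26) (nat_lit 49) (nat_lit 48))) (PT.nd (nat_lit 94) (PT.lf (nat_lit 7056) (nat_lit 6) (nat_lit 84) (nat_lit 4) (nat_lit 27) (nat_lit 49) (nat_lit 47)) (PT.lf (nat_lit 7644) (nat_lit 6) (nat_lit 91) (nat_lit 4) (nat_lit 28) (nat_lit 49) (nat_lit 46)))) (PT.nd (nat_lit 188) (PT.nd (nat_lit 94) (PT.lf (nat_lit 8652) (nat_lit 6) (nat_lit 103) (nat_lit 4) (nat_lit 29) (nat_lit 49) (nat_lit 45)) (PT.lf (nat_lit 9576) (nat_lit 6) (nat_lit 114) (nat_lit 4) (nat_lit 30) (nat_lit 49) (nat_lit 44))) (PT.nd (nat_lit 94) (PT.lf (nat_lit 10416) (nat_lit 6) (nat_lit 124) (nat_lit 4) (nat_lit 31) (nat_lit 49) (nat_lit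 43)) (PT.lf (nat_lit 11172) (nat_lit 6) (nat_lit 133) (nat_lit 4) (nat_lit 32) (nat_lit 49) (nat_lit 42)))))) (PT.nd (nat_lit 752) (PT.nd (nat_lit 376) (PT.nd (nat_lit 188) (PT.nd (nat_lit 94) (PT.lf (nat_lit 11844) (nat_lit 6) (nat_lit 141) (nat_lit 4) (nat_lit 33) (nat_lit 49) (nat_lit 41)) (PT.lf (nat_lit 11760) (nat_lit 6) (nat_lit 140) (nat_lit 4) (nat_lit 34) (nat_lit 49) (nat_lit 40))) (PT.nd (nat_lit 94) (PT.lf (nat_lit 11676) (nat_lit 6) (nat_lit 139) (nat_lit 4) (nat_lit 35) (nat_lit 49) (nat_lit 39)) (PT.lf (nat_lit 11592) (nat_lit 6) (nat_lit 138) (nat_lit 4) (nat_lit 36) (nat_lit 49) (nat_lit 38)))) (PT.nd (nat_lit 188) (PT.nd (nat_lit 94) (PT.lf (nat_lit 11508) (nat_lit 3) (nat_lit 137) (nat_lit 2) (nat_lit 37) (nat_lit 49) (nat_lit 37)) (PT.lf (nat_lit 11592) (nat_lit 6) (nat_lit 138) (nat_lit 2) (nat_lit 38) (nat_lit 49) (nat_lit 36))) (PT.nd (nat_lit 94) (PT.lf (nat_lit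 11676) (nat_lit 6) (nat_lit 139) (nat_lit 2) (nat_lit 39) (nat_lit 49) (nat_lit 35)) (PT.lf (nat_lit 11760) (nat_lit 6) (nat_lit 140) (nat_lit 2) (nat_lit 40) (nat_lit 49) (nat_lit 34))))) (PT.nd (nat_lit 376) (PT.nd (nat_lit 188) (PT.nd (nat_lit 94) (PT.lf (nat_lit 11844) (nat_lit 6) (nat_lit 141) (nat_lit 2) (nat_lit 41) (nat_lit 49) (nat_lit 33)) (PT.lf (nat_lit 11172) (nat_lit 6) (nat_lit 133) (nat_lit 2) (nat_lit 42) (nat_lit 49) (nat_lit 32))) (PT.nd (nat_lit 94) (PT.lf (nat_lit 10416) (nat_lit 6) (nat_lit 124) (nat_lit 2) (nat_lit 43) (nat_lit 49) (nat_lit 31)) (PT.lf (nat_lit 9576) (nat_lit 6) (nat_lit 114) (nat_lit 2) (nat_lit 44) (nat_lit 49) (nat_lit 30)))) (PT.nd (nat_lit 188) (PT.nd (nat_lit 94) (PT.lf (nat_lit 8652) (nat_lit 6) (nat_lit 103) (nat_lit 2) (nat_lit 45) (nat_lit 49) (nat_lit 29)) (PT.lf (nat_lit 7644) (nat_lit 6) (nat_lit 91) (nat_lit 2) (nat_lit 46) (nat_lit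 49) (nat_lit 28))) (PT.nd (nat_lit 94) (PT.lf (nat_lit 7056) (nat_lit 6) (nat_lit 84) (nat_lit 2) (nat_lit 47) (nat_lit 49) (nat_lit 27)) (PT.lf (nat_lit 6552) (nat_lit 6) (nat_lit 78) (nat_lit 2) (nat_lit 48) (nat_lit 49) (nat_lit 26))))))))
noncomputable def pc11 : PT := (PT.nd (nat_lit 53204) (PT.nd (nat_lit 51700) (PT.nd (nat_lit 658) (PT.nd (nat_lit 282) (PT.nd (nat_lit 94) (PT.lf (nat_lit 6048) (nat_lit 3) (nat_lit 72) (nat_lit 0) (nat_lit 49) (nat_lit 49) (nat_lit 25)) (PT.nd (nat_lit 94) (PT.lf (nat_lit 5544) (nat_lit 6) (nat_lit 66) (nat_lit 0) (nat_lit 50) (nat_lit 49) (nat_lit 24)) (PT.lf (nat_lit 5040) (nat_lit 6) (nat_lit 60) (nat_lit 0) (nat_lit 51) (nat_lit 49) (nat_lit 23)))) (PT.nd (nat_lit 188) (PT.nd (nat_lit 94) (PT.lf (nat_lit 4620) (nat_lit 6) (nat_lit 55) (nat_lit 0) (nat_lit 52) (nat_lit 49) (nat_lit 22)) (PT.lf (nat_lit 4116) (nat_lit 6) (nat_lit 49) (nat_lit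 0) (nat_lit 53) (nat_lit 49) (nat_lit 21))) (PT.nd (nat_lit 94) (PT.lf (nat_lit 3696) (nat_lit 6) (nat_lit 44) (nat_lit 0) (nat_lit 54) (nat_lit 49) (nat_lit 20)) (PT.lf (nat_lit 3276) (nat_lit 6) (nat_lit 39) (nat_lit 0) (nat_lit 55) (nat_lit 49) (nat_lit 19))))) (PT.nd (nat_lit 50666) (PT.nd (nat_lit 50478) (PT.nd (nat_lit 50384) (PT.lf (nat_lit 2940) (nat_lit 6) (nat_lit 35) (nat_lit 0) (nat_lit 56) (nat_lit 49) (nat_lit 18)) (PT.lf (nat_lit 2604) (nat_lit 6) (nat_lit 31) (nat_lit 5) (nat_lit 17) (nat_lit 50) (nat_lit 56))) (PT.nd (nat_lit 94) (PT.lf (nat_lit 3024) (nat_lit 6) (nat_lit 36) (nat_lit 5) (nat_lit 18) (nat_lit 50) (nat_lit 55)) (PT.lf (nat_lit 3360) (nat_lit 6) (nat_lit 40) (nat_lit 5) (nat_lit 19) (nat_lit 50) (nat_lit 54)))) (PT.nd (nat_lit 188) (PT.nd (nat_lit 94) (PT.lf (nat_lit 3780) (nat_lit 6) (nat_lit 45) (nat_lit 5) (nat_lit 20) (nat_lit 50) (nat_lit 53)) (PT.lf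 (nat_lit 4200) (nat_lit 6) (nat_lit 50) (nat_lit 5) (nat_lit 21) (nat_lit 50) (nat_lit 52))) (PT.nd (nat_lit 94) (PT.lf (nat_lit 4704) (nat_lit 6) (nat_lit 56) (nat_lit 5) (nat_lit 22) (nat_lit 50) (nat_lit 51)) (PT.lf (nat_lit 5124) (nat_lit 3) (nat_lit 61) (nat_lit 4) (nat_lit 23) (nat_lit 50) (nat_lit 50)))))) (PT.nd (nat_lit 752) (PT.nd (nat_lit 376) (PT.nd (nat_lit 188) (PT.nd (nat_lit 94) (PT.lf (nat_lit 5544) (nat_lit 6) (nat_lit 66) (nat_lit 4) (nat_lit 24) (nat_lit 50) (nat_lit 49)) (PT.lf (nat_lit 5964) (nat_lit 6) (nat_lit 71) (nat_lit 4) (nat_lit 25) (nat_lit 50) (nat_lit 48))) (PT.nd (nat_lit 94) (PT.lf (nat_lit 6468) (nat_lit 6) (nat_lit 77) (nat_lit 4) (nat_lit 26) (nat_lit 50) (nat_lit 47)) (PT.lf (nat_lit 6972) (nat_lit 6) (nat_lit 83) (nat_lit 4) (nat_lit 27) (nat_lit 50) (nat_lit 46)))) (PT.nd (nat_lit 188) (PT.nd (nat_lit 94) (PT.lf (nat_lit 7560) (nat_lit 6) (nat_lit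 90) (nat_lit 4) (nat_lit 28) (nat_lit 50) (nat_lit 45)) (PT.lf (nat_lit 8568) (nat_lit 6) (nat_lit 102) (nat_lit 4) (nat_lit 29) (nat_lit 50) (nat_lit 44))) (PT.nd (nat_lit 94) (PT.lf (nat_lit 9492) (nat_lit 6) (nat_lit 113) (nat_lit 4) (nat_lit 30) (nat_lit 50) (nat_lit 43)) (PT.lf (nat_lit 10332) (nat_lit 6) (nat_lit 123) (nat_lit 4) (nat_lit 31) (nat_lit 50) (nat_lit 42))))) (PT.nd (nat_lit 376) (PT.nd (nat_lit 188) (PT.nd (nat_lit 94) (PT.lf (nat_lit 11088) (nat_lit 6) (nat_lit 132) (nat_lit 4) (nat_lit 32) (nat_lit 50) (nat_lit 41)) (PT.lf (nat_lit 11004) (nat_lit 6) (nat_lit 131) (nat_lit 4) (nat_lit 33) (nat_lit 50) (nat_lit 40))) (PT.nd (nat_lit 94) (PT.lf (nat_lit 10920) (nat_lit 6) (nat_lit 130) (nat_lit 4) (nat_lit 34) (nat_lit 50) (nat_lit 39)) (PT.lf (nat_lit 10836) (nat_lit 6) (nat_lit 129) (nat_lit 4) (nat_lit 35) (nat_lit 50) (nat_lit 38)))) (PT.nd (nat_lit 188) (PT.nd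 (nat_lit 94) (PT.lf (nat_lit 10752) (nat_lit 6) (nat_lit 128) (nat_lit 4) (nat_lit 36) (nat_lit 50) (nat_lit 37)) (PT.lf (nat_lit 10752) (nat_lit 6) (nat_lit 128) (nat_lit 2) (nat_lit 37) (nat_lit 50) (nat_lit 36))) (PT.nd (nat_lit 94) (PT.lf (nat_lit 10836) (nat_lit 6) (nat_lit 129) (nat_lit 2) (nat_lit 38) (nat_lit 50) (nat_lit 35)) (PT.lf (nat_lit 10920) (nat_lit 6) (nat_lit 130) (nat_lit 2) (nat_lit 39) (nat_lit 50) (nat_lit 34))))))) (PT.nd (nat_lit 1410) (PT.nd (nat_lit 658) (PT.nd (nat_lit 282) (PT.nd (nat_lit 94) (PT.lf (nat_lit 11004) (nat_lit 6) (nat_lit 131) (nat_lit 2) (nat_lit 40) (nat_lit 50) (nat_lit 33)) (PT.nd (nat_lit 94) (PT.lf (nat_lit 11088) (nat_lit 6) (nat_lit 132) (nat_lit 2) (nat_lit 41) (nat_lit 50) (nat_lit 32)) (PT.lf (nat_lit 10332) (nat_lit 6) (nat_lit 123) (nat_lit 2) (nat_lit 42) (nat_lit 50) (nat_lit 31)))) (PT.nd (nat_lit 188) (PT.nd (nat_lit 94) (PT.lf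 (nat_lit 9492) (nat_lit 6) (nat_lit 113) (nat_lit 2) (nat_lit 43) (nat_lit 50) (nat_lit 30)) (PT.lf (nat_lit 8568) (nat_lit 6) (nat_lit 102) (nat_lit 2) (nat_lit 44) (nat_lit 50) (nat_lit 29))) (PT.nd (nat_lit 94) (PT.lf (nat_lit 7560) (nat_lit 6) (nat_lit 90) (nat_lit 2) (nat_lit 45) (nat_lit 50) (nat_lit 28)) (PT.lf (nat_lit 6972) (nat_lit 6) (nat_lit 83) (nat_lit 2) (nat_lit 46) (nat_lit 50) (nat_lit 27))))) (PT.nd (nat_lit 376) (PT.nd (nat_lit 188) (PT.nd (nat_lit 94) (PT.lf (nat_lit 6468) (nat_lit 6) (nat_lit 77) (nat_lit 2) (nat_lit 47) (nat_lit 50) (nat_lit 26)) (PT.lf (nat_lit 5964) (nat_lit 6) (nat_lit 71) (nat_lit 2) (nat_lit 48) (nat_lit 50) (nat_lit 25))) (PT.nd (nat_lit 94) (PT.lf (nat_lit 5544) (nat_lit 6) (nat_lit 66) (nat_lit 2) (nat_lit 49) (nat_lit 50) (nat_lit 24)) (PT.lf (nat_lit 5124) (nat_lit 3) (nat_lit 61) (nat_lit 0) (nat_lit 50) (nat_lit 50) (nat_lit 23))))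 (PT.nd (nat_lit 188) (PT.nd (nat_lit 94) (PT.lf (nat_lit 4704) (nat_lit 6) (nat_lit 56) (nat_lit 0) (nat_lit 51) (nat_lit 50) (nat_lit 22)) (PT.lf (nat_lit 4200) (nat_lit 6) (nat_lit 50) (nat_lit 0) (nat_lit 52) (nat_lit 50) (nat_lit 21))) (PT.nd (nat_lit 94) (PT.lf (nat_lit 3780) (nat_lit 6) (nat_lit 45) (nat_lit 0) (nat_lit 53) (nat_lit 50) (nat_lit 20)) (PT.lf (nat_lit 3360) (nat_lit 6) (nat_lit 40) (nat_lit 0) (nat_lit 54) (nat_lit 50) (nat_lit 19)))))) (PT.nd (nat_lit 50948) (PT.nd (nat_lit 50572) (PT.nd (nat_lit 50384) (PT.nd (nat_lit 94) (PT.lf (nat_lit 3024) (nat_lit 6) (nat_lit 36) (nat_lit 0) (nat_lit 55) (nat_lit 50) (nat_lit 18)) (PT.lf (nat_lit 2604) (nat_lit 6) (nat_lit 31) (nat_lit 0) (nat_lit 56) (nat_lit 50) (nat_lit 17))) (PT.nd (nat_lit 94) (PT.lf (nat_lit 2352) (nat_lit 6) (nat_lit 28) (nat_lit 5) (nat_lit 16) (nat_lit 51) (nat_lit 56)) (PT.lf (nat_lit 2688) (nat_lit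 6) (nat_lit 32) (nat_lit 5) (nat_lit 17) (nat_lit 51) (nat_lit 55)))) (PT.nd (nat_lit 188) (PT.nd (nat_lit 94) (PT.lf (nat_lit 3108) (nat_lit 6) (nat_lit 37) (nat_lit 5) (nat_lit 18) (nat_lit 51) (nat_lit 54)) (PT.lf (nat_lit 3444) (nat_lit 6) (nat_lit 41) (nat_lit 5) (nat_lit 19) (nat_lit 51) (nat_lit 53))) (PT.nd (nat_lit 94) (PT.lf (nat_lit 3864) (nat_lit 6) (nat_lit 46) (nat_lit 5) (nat_lit 20) (nat_lit 51) (nat_lit 52)) (PT.lf (nat_lit 4284) (nat_lit 3) (nat_lit 51) (nat_lit 4) (nat_lit 21) (nat_lit 51) (nat_lit 51))))) (PT.nd (nat_lit 376) (PT.nd (nat_lit 188) (PT.nd (nat_lit 94) (PT.lf (nat_lit 4704) (nat_lit 6) (nat_lit 56) (nat_lit 4) (nat_lit 22) (nat_lit 51) (nat_lit 50)) (PT.lf (nat_lit 5040) (nat_lit 6) (nat_lit 60) (nat_lit 4) (nat_lit 23) (nat_lit 51) (nat_lit 49))) (PT.nd (nat_lit 94) (PT.lf (nat_lit 5460) (nat_lit 6) (nat_lit 65) (nat_lit 4) (nat_lit 24) (nat_lit 51)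 (nat_lit 48)) (PT.lf (nat_lit 5880) (nat_lit 6) (nat_lit 70) (nat_lit 4) (nat_lit 25) (nat_lit 51) (nat_lit 47)))) (PT.nd (nat_lit 188) (PT.nd (nat_lit 94) (PT.lf (nat_lit 6384) (nat_lit 6) (nat_lit 76) (nat_lit 4) (nat_lit 26) (nat_lit 51) (nat_lit 46)) (PT.lf (nat_lit 6888) (nat_lit 6) (nat_lit 82) (nat_lit 4) (nat_lit 27) (nat_lit 51) (nat_lit 45))) (PT.nd (nat_lit 94) (PT.lf (nat_lit 7476) (nat_lit 6) (nat_lit 89) (nat_lit 4) (nat_lit 28) (nat_lit 51) (nat_lit 44)) (PT.lf (nat_lit 8484) (nat_lit 6) (nat_lit 101) (nat_lit 4) (nat_lit 29) (nat_lit 51) (nat_lit 43))))))))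
noncomputable def pc12 : PT := (PT.nd (nat_lit 52828) (PT.nd (nat_lit 1410) (PT.nd (nat_lit 658) (PT.nd (nat_lit 282) (PT.nd (nat_lit 94) (PT.lf (nat_lit 9408) (nat_lit 6) (nat_lit 112) (nat_lit 4) (nat_lit 30) (nat_lit 51) (nat_lit 42)) (PT.nd (nat_lit 94) (PT.lf (nat_lit 10248) (nat_lit 6) (nat_lit 122) (nat_lit 4) (nat_lit 31) (nat_lit 51) (nat_lit 41)) (PT.lf (nat_lit 10164) (nat_lit 6) (nat_lit 121) (nat_lit 4) (nat_lit 32) (nat_lit 51) (nat_lit 40)))) (PT.nd (nat_lit 188) (PT.nd (nat_lit 94) (PT.lf (nat_lit 10080) (nat_lit 6) (nat_lit 120) (nat_lit 4) (nat_lit 33) (nat_lit 51) (nat_lit 39)) (PT.lf (nat_lit 9996) (nat_lit 6) (nat_lit 119) (nat_lit 4) (nat_lit 34) (nat_lit 51) (nat_lit 38))) (PT.nd (nat_lit 94) (PT.lf (nat_lit 9912) (nat_lit 6) (nat_lit 118) (nat_lit 4) (nat_lit 35) (nat_lit 51) (nat_lit 37)) (PT.lf (nat_lit 9828) (nat_lit 3) (nat_lit 117) (nat_lit 2) (nat_lit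 36) (nat_lit 51) (nat_lit 36))))) (PT.nd (nat_lit 376) (PT.nd (nat_lit 188) (PT.nd (nat_lit 94) (PT.lf (nat_lit 9912) (nat_lit 6) (nat_lit 118) (nat_lit 2) (nat_lit 37) (nat_lit 51) (nat_lit 35)) (PT.lf (nat_lit 9996) (nat_lit 6) (nat_lit 119) (nat_lit 2) (nat_lit 38) (nat_lit 51) (nat_lit 34))) (PT.nd (nat_lit 94) (PT.lf (nat_lit 10080) (nat_lit 6) (nat_lit 120) (nat_lit 2) (nat_lit 39) (nat_lit 51) (nat_lit 33)) (PT.lf (nat_lit 10164) (nat_lit 6) (nat_lit 121) (nat_lit 2) (nat_lit 40) (nat_lit 51) (nat_lit 32)))) (PT.nd (nat_lit 188) (PT.nd (nat_lit 94) (PT.lf (nat_lit 10248) (nat_lit 6) (nat_lit 122) (nat_lit 2) (nat_lit 41) (nat_lit 51) (nat_lit 31)) (PT.lf (nat_lit 9408) (nat_lit 6) (nat_lit 112) (nat_lit 2) (nat_lit 42) (nat_lit 51) (nat_lit 30))) (PT.nd (nat_lit 94) (PT.lf (nat_lit 8484) (nat_lit 6) (nat_lit 101) (nat_lit 2) (nat_lit 43) (nat_lit 51) (nat_lit 29)) (PT.lf (nat_lit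 7476) (nat_lit 6) (nat_lit 89) (nat_lit 2) (nat_lit 44) (nat_lit 51) (nat_lit 28)))))) (PT.nd (nat_lit 658) (PT.nd (nat_lit 282) (PT.nd (nat_lit 94) (PT.lf (nat_lit 6888) (nat_lit 6) (nat_lit 82) (nat_lit 2) (nat_lit 45) (nat_lit 51) (nat_lit 27)) (PT.nd (nat_lit 94) (PT.lf (nat_lit 6384) (nat_lit 6) (nat_lit 76) (nat_lit 2) (nat_lit 46) (nat_lit 51) (nat_lit 26)) (PT.lf (nat_lit 5880) (nat_lit 6) (nat_lit 70) (nat_lit 2) (nat_lit 47) (nat_lit 51) (nat_lit 25)))) (PT.nd (nat_lit 188) (PT.nd (nat_lit 94) (PT.lf (nat_lit 5460) (nat_lit 6) (nat_lit 65) (nat_lit 2) (nat_lit 48) (nat_lit 51) (nat_lit 24)) (PT.lf (nat_lit 5040) (nat_lit 6) (nat_lit 60) (nat_lit 2) (nat_lit 49) (nat_lit 51) (nat_lit 23))) (PT.nd (nat_lit 94) (PT.lf (nat_lit 4704) (nat_lit 6) (nat_lit 56) (nat_lit 2) (nat_lit 50) (nat_lit 51) (nat_lit 22)) (PT.lf (nat_lit 4284) (nat_lit 3) (nat_lit 51) (nat_lit 0) (nat_lit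 51) (nat_lit 51) (nat_lit 21))))) (PT.nd (nat_lit 376) (PT.nd (nat_lit 188) (PT.nd (nat_lit 94) (PT.lf (nat_lit 3864) (nat_lit 6) (nat_lit 46) (nat_lit 0) (nat_lit 52) (nat_lit 51) (nat_lit 20)) (PT.lf (nat_lit 3444) (nat_lit 6) (nat_lit 41) (nat_lit 0) (nat_lit 53) (nat_lit 51) (nat_lit 19))) (PT.nd (nat_lit 94) (PT.lf (nat_lit 3108) (nat_lit 6) (nat_lit 37) (nat_lit 0) (nat_lit 54) (nat_lit 51) (nat_lit 18)) (PT.lf (nat_lit 2688) (nat_lit 6) (nat_lit 32) (nat_lit 0) (nat_lit 55) (nat_lit 51) (nat_lit 17)))) (PT.nd (nat_lit 50196) (PT.nd (nat_lit 50102) (PT.lf (nat_lit 2352) (nat_lit 6) (nat_lit 28) (nat_lit 0) (nat_lit 56) (nat_lit 51) (nat_lit 16)) (PT.lf (nat_lit 1848) (nat_lit 6) (nat_lit 22) (nat_lit 5) (nat_lit 14) (nat_lit 52) (nat_lit 57))) (PT.nd (nat_lit 94) (PT.lf (nat_lit 2100) (nat_lit 6) (nat_lit 25) (nat_lit 5) (nat_lit 15) (nat_lit 52) (nat_lit 56)) (PT.lf (nat_lit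 2436) (nat_lit 6) (nat_lit 29) (nat_lit 5) (nat_lit 16) (nat_lit 52) (nat_lit 55))))))) (PT.nd (nat_lit 1410) (PT.nd (nat_lit 658) (PT.nd (nat_lit 282) (PT.nd (nat_lit 94) (PT.lf (nat_lit 2772) (nat_lit 6) (nat_lit 33) (nat_lit 5) (nat_lit 17) (nat_lit 52) (nat_lit 54)) (PT.nd (nat_lit 94) (PT.lf (nat_lit 3192) (nat_lit 6) (nat_lit 38) (nat_lit 5) (nat_lit 18) (nat_lit 52) (nat_lit 53)) (PT.lf (nat_lit 3528) (nat_lit 3) (nat_lit 42) (nat_lit 4) (nat_lit 19) (nat_lit 52) (nat_lit 52)))) (PT.nd (nat_lit 188) (PT.nd (nat_lit 94) (PT.lf (nat_lit 3864) (nat_lit 6) (nat_lit 46) (nat_lit 4) (nat_lit 20) (nat_lit 52) (nat_lit 51)) (PT.lf (nat_lit 4200) (nat_lit 6) (nat_lit 50) (nat_lit 4) (nat_lit 21) (nat_lit 52) (nat_lit 50))) (PT.nd (nat_lit 94) (PT.lf (nat_lit 4620) (nat_lit 6) (nat_lit 55) (nat_lit 4) (nat_lit 22) (nat_lit 52) (nat_lit 49)) (PT.lf (nat_lit 4956) (nat_lit 6) (nat_lit 59)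 (nat_lit 4) (nat_lit 23) (nat_lit 52) (nat_lit 48))))) (PT.nd (nat_lit 376) (PT.nd (nat_lit 188) (PT.nd (nat_lit 94) (PT.lf (nat_lit 5376) (nat_lit 6) (nat_lit 64) (nat_lit 4) (nat_lit 24) (nat_lit 52) (nat_lit 47)) (PT.lf (nat_lit 5796) (nat_lit 6) (nat_lit 69) (nat_lit 4) (nat_lit 25) (nat_lit 52) (nat_lit 46))) (PT.nd (nat_lit 94) (PT.lf (nat_lit 6300) (nat_lit 6) (nat_lit 75) (nat_lit 4) (nat_lit 26) (nat_lit 52) (nat_lit 45)) (PT.lf (nat_lit 6804) (nat_lit 6) (nat_lit 81) (nat_lit 4) (nat_lit 27) (nat_lit 52) (nat_lit 44)))) (PT.nd (nat_lit 188) (PT.nd (nat_lit 94) (PT.lf (nat_lit 7392) (nat_lit 6) (nat_lit 88) (nat_lit 4) (nat_lit 28) (nat_lit 52) (nat_lit 43)) (PT.lf (nat_lit 8400) (nat_lit 6) (nat_lit 100) (nat_lit 4) (nat_lit 29) (nat_lit 52) (nat_lit 42))) (PT.nd (nat_lit 94) (PT.lf (nat_lit 9324) (nat_lit 6) (nat_lit 111) (nat_lit 4) (nat_lit 30) (nat_lit 52) (nat_lit 41))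 (PT.lf (nat_lit 9240) (nat_lit 6) (nat_lit 110) (nat_lit 4) (nat_lit 31) (nat_lit 52) (nat_lit 40)))))) (PT.nd (nat_lit 752) (PT.nd (nat_lit 376) (PT.nd (nat_lit 188) (PT.nd (nat_lit 94) (PT.lf (nat_lit 9156) (nat_lit 6) (nat_lit 109) (nat_lit 4) (nat_lit 32) (nat_lit 52) (nat_lit 39)) (PT.lf (nat_lit 9072) (nat_lit 6) (nat_lit 108) (nat_lit 4) (nat_lit 33) (nat_lit 52) (nat_lit 38))) (PT.nd (nat_lit 94) (PT.lf (nat_lit 8988) (nat_lit 6) (nat_lit 107) (nat_lit 4) (nat_lit 34) (nat_lit 52) (nat_lit 37)) (PT.lf (nat_lit 8904) (nat_lit 6) (nat_lit 106) (nat_lit 4) (nat_lit 35) (nat_lit 52) (nat_lit 36)))) (PT.nd (nat_lit 188) (PT.nd (nat_lit 94) (PT.lf (nat_lit 8904) (nat_lit 6) (nat_lit 106) (nat_lit 2) (nat_lit 36) (nat_lit 52) (nat_lit 35)) (PT.lf (nat_lit 8988) (nat_lit 6) (nat_lit 107) (nat_lit 2) (nat_lit 37) (nat_lit 52) (nat_lit 34))) (PT.nd (nat_lit 94) (PT.lf (nat_lit 9072)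 (nat_lit 6) (nat_lit 108) (nat_lit 2) (nat_lit 38) (nat_lit 52) (nat_lit 33)) (PT.lf (nat_lit 9156) (nat_lit 6) (nat_lit 109) (nat_lit 2) (nat_lit 39) (nat_lit 52) (nat_lit 32))))) (PT.nd (nat_lit 376) (PT.nd (nat_lit 188) (PT.nd (nat_lit 94) (PT.lf (nat_lit 9240) (nat_lit 6) (nat_lit 110) (nat_lit 2) (nat_lit 40) (nat_lit 52) (nat_lit 31)) (PT.lf (nat_lit 9324) (nat_lit 6) (nat_lit 111) (nat_lit 2) (nat_lit 41) (nat_lit 52) (nat_lit 30))) (PT.nd (nat_lit 94) (PT.lf (nat_lit 8400) (nat_lit 6) (nat_lit 100) (nat_lit 2) (nat_lit 42) (nat_lit 52) (nat_lit 29)) (PT.lf (nat_lit 7392) (nat_lit 6) (nat_lit 88) (nat_lit 2) (nat_lit 43) (nat_lit 52) (nat_lit 28)))) (PT.nd (nat_lit 188) (PT.nd (nat_lit 94) (PT.lf (nat_lit 6804) (nat_lit 6) (nat_lit 81) (nat_lit 2) (nat_lit 44) (nat_lit 52) (nat_lit 27)) (PT.lf (nat_lit 6300) (nat_lit 6) (nat_lit 75) (nat_lit 2) (nat_lit 45) (nat_lit 52) (nat_lit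 26))) (PT.nd (nat_lit 94) (PT.lf (nat_lit 5796) (nat_lit 6) (nat_lit 69) (nat_lit 2) (nat_lit 46) (nat_lit 52) (nat_lit 25)) (PT.lf (nat_lit 5376) (nat_lit 6) (nat_lit 64) (nat_lit 2) (nat_lit 47) (nat_lit 52) (nat_lit 24))))))))
noncomputable def pc13 : PT := (PT.nd (nat_lit 52734) (PT.nd (nat_lit 51230) (PT.nd (nat_lit 658) (PT.nd (nat_lit 282) (PT.nd (nat_lit 94) (PT.lf (nat_lit 4956) (nat_lit 6) (nat_lit 59) (nat_lit 2) (nat_lit 48) (nat_lit 52) (nat_lit 23)) (PT.nd (nat_lit 94) (PT.lf (nat_lit 4620) (nat_lit 6) (nat_lit 55) (nat_lit 2) (nat_lit 49) (nat_lit 52) (nat_lit 22)) (PT.lf (nat_lit 4200) (nat_lit 6) (nat_lit 50) (nat_lit 2) (nat_lit 50) (nat_lit 52) (nat_lit 21)))) (PT.nd (nat_lit 188) (PT.nd (nat_lit 94) (PT.lf (nat_lit 3864) (nat_lit 6) (nat_lit 46) (nat_lit 2) (nat_lit 51) (nat_lit 52) (nat_lit 20)) (PT.lf (nat_lit 3528) (nat_lit 3) (nat_lit 42) (nat_lit 0) (nat_lit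 52) (nat_lit 52) (nat_lit 19))) (PT.nd (nat_lit 94) (PT.lf (nat_lit 3192) (nat_lit 6) (nat_lit 38) (nat_lit 0) (nat_lit 53) (nat_lit 52) (nat_lit 18)) (PT.lf (nat_lit 2772) (nat_lit 6) (nat_lit 33) (nat_lit 0) (nat_lit 54) (nat_lit 52) (nat_lit 17))))) (PT.nd (nat_lit 50196) (PT.nd (nat_lit 188) (PT.nd (nat_lit 94) (PT.lf (nat_lit 2436) (nat_lit 6) (nat_lit 29) (nat_lit 0) (nat_lit 55) (nat_lit 52) (nat_lit 16)) (PT.lf (nat_lit 2100) (nat_lit 6) (nat_lit 25) (nat_lit 0) (nat_lit 56) (nat_lit 52) (nat_lit 15))) (PT.nd (nat_lit 49914) (PT.lf (nat_lit 1848) (nat_lit 6) (nat_lit 22) (nat_lit 0) (nat_lit 57) (nat_lit 52) (nat_lit 14)) (PT.lf (nat_lit 1596) (nat_lit 6) (nat_lit 19) (nat_lit 5) (nat_lit 13) (nat_lit 53) (nat_lit 57)))) (PT.nd (nat_lit 188) (PT.nd (nat_lit 94) (PT.lf (nat_lit 1932) (nat_lit 6) (nat_lit 23) (nat_lit 5) (nat_lit 14) (nat_lit 53) (nat_lit 56)) (PT.lf (nat_lit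 2184) (nat_lit 6) (nat_lit 26) (nat_lit 5) (nat_lit 15) (nat_lit 53) (nat_lit 55))) (PT.nd (nat_lit 94) (PT.lf (nat_lit 2520) (nat_lit 6) (nat_lit 30) (nat_lit 5) (nat_lit 16) (nat_lit 53) (nat_lit 54)) (PT.lf (nat_lit 2856) (nat_lit 3) (nat_lit 34) (nat_lit 4) (nat_lit 17) (nat_lit 53) (nat_lit 53)))))) (PT.nd (nat_lit 752) (PT.nd (nat_lit 376) (PT.nd (nat_lit 188) (PT.nd (nat_lit 94) (PT.lf (nat_lit 3192) (nat_lit 6) (nat_lit 38) (nat_lit 4) (nat_lit 18) (nat_lit 53) (nat_lit 52)) (PT.lf (nat_lit 3444) (nat_lit 6) (nat_lit 41) (nat_lit 4) (nat_lit 19) (nat_lit 53) (nat_lit 51))) (PT.nd (nat_lit 94) (PT.lf (nat_lit 3780) (nat_lit 6) (nat_lit 45) (nat_lit 4) (nat_lit 20) (nat_lit 53) (nat_lit 50)) (PT.lf (nat_lit 4116) (nat_lit 6) (nat_lit 49) (nat_lit 4) (nat_lit 21) (nat_lit 53) (nat_lit 49)))) (PT.nd (nat_lit 188) (PT.nd (nat_lit 94) (PT.lf (nat_lit 4536) (nat_lit 6) (nat_lit 54)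 (nat_lit 4) (nat_lit 22) (nat_lit 53) (nat_lit 48)) (PT.lf (nat_lit 4872) (nat_lit 6) (nat_lit 58) (nat_lit 4) (nat_lit 23) (nat_lit 53) (nat_lit 47))) (PT.nd (nat_lit 94) (PT.lf (nat_lit 5292) (nat_lit 6) (nat_lit 63) (nat_lit 4) (nat_lit 24) (nat_lit 53) (nat_lit 46)) (PT.lf (nat_lit 5712) (nat_lit 6) (nat_lit 68) (nat_lit 4) (nat_lit 25) (nat_lit 53) (nat_lit 45))))) (PT.nd (nat_lit 376) (PT.nd (nat_lit 188) (PT.nd (nat_lit 94) (PT.lf (nat_lit 6216) (nat_lit 6) (nat_lit 74) (nat_lit 4) (nat_lit 26) (nat_lit 53) (nat_lit 44)) (PT.lf (nat_lit 6720) (nat_lit 6) (nat_lit 80) (nat_lit 4) (nat_lit 27) (nat_lit 53) (nat_lit 43))) (PT.nd (nat_lit 94) (PT.lf (nat_lit 7308) (nat_lit 6) (nat_lit 87) (nat_lit 4) (nat_lit 28) (nat_lit 53) (nat_lit 42)) (PT.lf (nat_lit 8316) (nat_lit 6) (nat_lit 99) (nat_lit 4) (nat_lit 29) (nat_lit 53) (nat_lit 41)))) (PT.nd (nat_lit 188) (PT.nd (nat_lit 94)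 (PT.lf (nat_lit 8232) (nat_lit 6) (nat_lit 98) (nat_lit 4) (nat_lit 30) (nat_lit 53) (nat_lit 40)) (PT.lf (nat_lit 8148) (nat_lit 6) (nat_lit 97) (nat_lit 4) (nat_lit 31) (nat_lit 53) (nat_lit 39))) (PT.nd (nat_lit 94) (PT.lf (nat_lit 8064) (nat_lit 6) (nat_lit 96) (nat_lit 4) (nat_lit 32) (nat_lit 53) (nat_lit 38)) (PT.lf (nat_lit 7980) (nat_lit 6) (nat_lit 95) (nat_lit 4) (nat_lit 33) (nat_lit 53) (nat_lit 37))))))) (PT.nd (nat_lit 1410) (PT.nd (nat_lit 658) (PT.nd (nat_lit 282) (PT.nd (nat_lit 94) (PT.lf (nat_lit 7896) (nat_lit 6) (nat_lit 94) (nat_lit 4) (nat_lit 34) (nat_lit 53) (nat_lit 36)) (PT.nd (nat_lit 94) (PT.lf (nat_lit 7812) (nat_lit 3) (nat_lit 93) (nat_lit 2) (nat_lit 35) (nat_lit 53) (nat_lit 35)) (PT.lf (nat_lit 7896) (nat_lit 6) (nat_lit 94) (nat_lit 2) (nat_lit 36) (nat_lit 53) (nat_lit 34)))) (PT.nd (nat_lit 188) (PT.nd (nat_lit 94) (PT.lf (nat_lit 7980) (nat_lit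 6) (nat_lit 95) (nat_lit 2) (nat_lit 37) (nat_lit 53) (nat_lit 33)) (PT.lf (nat_lit 8064) (nat_lit 6) (nat_lit 96) (nat_lit 2) (nat_lit 38) (nat_lit 53) (nat_lit 32))) (PT.nd (nat_lit 94) (PT.lf (nat_lit 8148) (nat_lit 6) (nat_lit 97) (nat_lit 2) (nat_lit 39) (nat_lit 53) (nat_lit 31)) (PT.lf (nat_lit 8232) (nat_lit 6) (nat_lit 98) (nat_lit 2) (nat_lit 40) (nat_lit 53) (nat_lit 30))))) (PT.nd (nat_lit 376) (PT.nd (nat_lit 188) (PT.nd (nat_lit 94) (PT.lf (nat_lit 8316) (nat_lit 6) (nat_lit 99) (nat_lit 2) (nat_lit 41) (nat_lit 53) (nat_lit 29)) (PT.lf (nat_lit 7308) (nat_lit 6) (nat_lit 87) (nat_lit 2) (nat_lit 42) (nat_lit 53) (nat_lit 28))) (PT.nd (nat_lit 94) (PT.lf (nat_lit 6720) (nat_lit 6) (nat_lit 80) (nat_lit 2) (nat_lit 43) (nat_lit 53) (nat_lit 27)) (PT.lf (nat_lit 6216) (nat_lit 6) (nat_lit 74) (nat_lit 2) (nat_lit 44) (nat_lit 53) (nat_lit 26)))) (PT.nd (nat_lit 188) (PT.nd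 (nat_lit 94) (PT.lf (nat_lit 5712) (nat_lit 6) (nat_lit 68) (nat_lit 2) (nat_lit 45) (nat_lit 53) (nat_lit 25)) (PT.lf (nat_lit 5292) (nat_lit 6) (nat_lit 63) (nat_lit 2) (nat_lit 46) (nat_lit 53) (nat_lit 24))) (PT.nd (nat_lit 94) (PT.lf (nat_lit 4872) (nat_lit 6) (nat_lit 58) (nat_lit 2) (nat_lit 47) (nat_lit 53) (nat_lit 23)) (PT.lf (nat_lit 4536) (nat_lit 6) (nat_lit 54) (nat_lit 2) (nat_lit 48) (nat_lit 53) (nat_lit 22)))))) (PT.nd (nat_lit 752) (PT.nd (nat_lit 376) (PT.nd (nat_lit 188) (PT.nd (nat_lit 94) (PT.lf (nat_lit 4116) (nat_lit 6) (nat_lit 49) (nat_lit 2) (nat_lit 49) (nat_lit 53) (nat_lit 21)) (PT.lf (nat_lit 3780) (nat_lit 6) (nat_lit 45) (nat_lit 2) (nat_lit 50) (nat_lit 53) (nat_lit 20))) (PT.nd (nat_lit 94) (PT.lf (nat_lit 3444) (nat_lit 6) (nat_lit 41) (nat_lit 2) (nat_lit 51) (nat_lit 53) (nat_lit 19)) (PT.lf (nat_lit 3192) (nat_lit 6) (nat_lit 38) (nat_lit 2)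 (nat_lit 52) (nat_lit 53) (nat_lit 18)))) (PT.nd (nat_lit 188) (PT.nd (nat_lit 94) (PT.lf (nat_lit 2856) (nat_lit 3) (nat_lit 34) (nat_lit 0) (nat_lit 53) (nat_lit 53) (nat_lit 17)) (PT.lf (nat_lit 2520) (nat_lit 6) (nat_lit 30) (nat_lit 0) (nat_lit 54) (nat_lit 53) (nat_lit 16))) (PT.nd (nat_lit 94) (PT.lf (nat_lit 2184) (nat_lit 6) (nat_lit 26) (nat_lit 0) (nat_lit 55) (nat_lit 53) (nat_lit 15)) (PT.lf (nat_lit 1932) (nat_lit 6) (nat_lit 23) (nat_lit 0) (nat_lit 56) (nat_lit 53) (nat_lit 14))))) (PT.nd (nat_lit 50008) (PT.nd (nat_lit 49820) (PT.nd (nat_lit 49726) (PT.lf (nat_lit 1596) (nat_lit 6) (nat_lit 19) (nat_lit 0) (nat_lit 57) (nat_lit 53) (nat_lit 13)) (PT.lf (nat_lit 1176) (nat_lit 6) (nat_lit 14) (nat_lit 5) (nat_lit 11) (nat_lit 54) (nat_lit 58))) (PT.nd (nat_lit 94) (PT.lf (nat_lit 1428) (nat_lit 6) (nat_lit 17) (nat_lit 5) (nat_lit 12) (nat_lit 54) (nat_lit 57)) (PT.lf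 (nat_lit 1680) (nat_lit 6) (nat_lit 20) (nat_lit 5) (nat_lit 13) (nat_lit 54) (nat_lit 56)))) (PT.nd (nat_lit 188) (PT.nd (nat_lit 94) (PT.lf (nat_lit 2016) (nat_lit 6) (nat_lit 24) (nat_lit 5) (nat_lit 14) (nat_lit 54) (nat_lit 55)) (PT.lf (nat_lit 2268) (nat_lit 3) (nat_lit 27) (nat_lit 4) (nat_lit 15) (nat_lit 54) (nat_lit 54))) (PT.nd (nat_lit 94) (PT.lf (nat_lit 2520) (nat_lit 6) (nat_lit 30) (nat_lit 4) (nat_lit 16) (nat_lit 54) (nat_lit 53)) (PT.lf (nat_lit 2772) (nat_lit 6) (nat_lit 33) (nat_lit 4) (nat_lit 17) (nat_lit 54) (nat_lit 52))))))))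
noncomputable def pc14 : PT := (PT.nd (nat_lit 53392) (PT.nd (nat_lit 2538) (PT.nd (nat_lit 658) (PT.nd (nat_lit 282) (PT.nd (nat_lit 94) (PT.lf (nat_lit 3108) (nat_lit 6) (nat_lit 37) (nat_lit 4) (nat_lit 18) (nat_lit 54) (nat_lit 51)) (PT.nd (nat_lit 94) (PT.lf (nat_lit 3360) (nat_lit 6) (nat_lit 40) (nat_lit 4) (nat_lit 19) (nat_lit 54) (nat_lit 50)) (PT.lf (nat_lit 3696) (nat_lit 6) (nat_lit 44) (nat_lit 4) (nat_lit 20) (nat_lit 54) (nat_lit 49)))) (PT.nd (nat_lit 188) (PT.nd (nat_lit 94) (PT.lf (nat_lit 4032) (nat_lit 6) (nat_lit 48) (nat_lit 4) (nat_lit 21) (nat_lit 54) (nat_lit 48)) (PT.lf (nat_lit 4452) (nat_lit 6) (nat_lit 53) (nat_lit 4) (nat_lit 22) (nat_lit 54) (nat_lit 47))) (PT.nd (nat_lit 94) (PT.lf (nat_lit 4788) (nat_lit 6) (nat_lit 57) (nat_lit 4) (nat_lit 23) (nat_lit 54) (nat_lit 46)) (PT.lf (nat_lit 5208) (nat_lit 6) (nat_lit 62) (nat_lit 4) (nat_lit 24) (nat_lit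 54) (nat_lit 45))))) (PT.nd (nat_lit 1504) (PT.nd (nat_lit 188) (PT.nd (nat_lit 94) (PT.lf (nat_lit 5628) (nat_lit 6) (nat_lit 67) (nat_lit 4) (nat_lit 25) (nat_lit 54) (nat_lit 44)) (PT.lf (nat_lit 6132) (nat_lit 6) (nat_lit 73) (nat_lit 4) (nat_lit 26) (nat_lit 54) (nat_lit 43))) (PT.nd (nat_lit 94) (PT.lf (nat_lit 6636) (nat_lit 6) (nat_lit 79) (nat_lit 4) (nat_lit 27) (nat_lit 54) (nat_lit 42)) (PT.lf (nat_lit 7224) (nat_lit 6) (nat_lit 86) (nat_lit 4) (nat_lit 28) (nat_lit 54) (nat_lit 41)))) (PT.nd (nat_lit 188) (PT.nd (nat_lit 94) (PT.lf (nat_lit 7224) (nat_lit 6) (nat_lit 86) (nat_lit 2) (nat_lit 41) (nat_lit 54) (nat_lit 28)) (PT.lf (nat_lit 6636) (nat_lit 6) (nat_lit 79) (nat_lit 2) (nat_lit 42) (nat_lit 54) (nat_lit 27))) (PT.nd (nat_lit 94) (PT.lf (nat_lit 6132) (nat_lit 6) (nat_lit 73) (nat_lit 2) (nat_lit 43) (nat_lit 54) (nat_lit 26)) (PT.lf (nat_lit 5628) (nat_lit 6)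 (nat_lit 67) (nat_lit 2) (nat_lit 44) (nat_lit 54) (nat_lit 25)))))) (PT.nd (nat_lit 658) (PT.nd (nat_lit 282) (PT.nd (nat_lit 94) (PT.lf (nat_lit 5208) (nat_lit 6) (nat_lit 62) (nat_lit 2) (nat_lit 45) (nat_lit 54) (nat_lit 24)) (PT.nd (nat_lit 94) (PT.lf (nat_lit 4788) (nat_lit 6) (nat_lit 57) (nat_lit 2) (nat_lit 46) (nat_lit 54) (nat_lit 23)) (PT.lf (nat_lit 4452) (nat_lit 6) (nat_lit 53) (nat_lit 2) (nat_lit 47) (nat_lit 54) (nat_lit 22)))) (PT.nd (nat_lit 188) (PT.nd (nat_lit 94) (PT.lf (nat_lit 4032) (nat_lit 6) (nat_lit 48) (nat_lit 2) (nat_lit 48) (nat_lit 54) (nat_lit 21)) (PT.lf (nat_lit 3696) (nat_lit 6) (nat_lit 44) (nat_lit 2) (nat_lit 49) (nat_lit 54) (nat_lit 20))) (PT.nd (nat_lit 94) (PT.lf (nat_lit 3360) (nat_lit 6) (nat_lit 40) (nat_lit 2) (nat_lit 50) (nat_lit 54) (nat_lit 19)) (PT.lf (nat_lit 3108) (nat_lit 6) (nat_lit 37) (nat_lit 2) (nat_lit 51) (nat_lit 54)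 (nat_lit 18))))) (PT.nd (nat_lit 376) (PT.nd (nat_lit 188) (PT.nd (nat_lit 94) (PT.lf (nat_lit 2772) (nat_lit 6) (nat_lit 33) (nat_lit 2) (nat_lit 52) (nat_lit 54) (nat_lit 17)) (PT.lf (nat_lit 2520) (nat_lit 6) (nat_lit 30) (nat_lit 2) (nat_lit 53) (nat_lit 54) (nat_lit 16))) (PT.nd (nat_lit 94) (PT.lf (nat_lit 2268) (nat_lit 3) (nat_lit 27) (nat_lit 0) (nat_lit 54) (nat_lit 54) (nat_lit 15)) (PT.lf (nat_lit 2016) (nat_lit 6) (nat_lit 24) (nat_lit 0) (nat_lit 55) (nat_lit 54) (nat_lit 14)))) (PT.nd (nat_lit 188) (PT.nd (nat_lit 94) (PT.lf (nat_lit 1680) (nat_lit 6) (nat_lit 20) (nat_lit 0) (nat_lit 56) (nat_lit 54) (nat_lit 13)) (PT.lf (nat_lit 1428) (nat_lit 6) (nat_lit 17) (nat_lit 0) (nat_lit 57) (nat_lit 54) (nat_lit 12))) (PT.nd (nat_lit 49538) (PT.lf (nat_lit 1176) (nat_lit 6) (nat_lit 14) (nat_lit 0) (nat_lit 58) (nat_lit 54) (nat_lit 11)) (PT.lf (nat_lit 1008) (nat_lit 6)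 (nat_lit 12) (nat_lit 5) (nat_lit 10) (nat_lit 55) (nat_lit 58))))))) (PT.nd (nat_lit 3572) (PT.nd (nat_lit 658) (PT.nd (nat_lit 282) (PT.nd (nat_lit 94) (PT.lf (nat_lit 1260) (nat_lit 6) (nat_lit 15) (nat_lit 5) (nat_lit 11) (nat_lit 55) (nat_lit 57)) (PT.nd (nat_lit 94) (PT.lf (nat_lit 1512) (nat_lit 6) (nat_lit 18) (nat_lit 5) (nat_lit 12) (nat_lit 55) (nat_lit 56)) (PT.lf (nat_lit 1764) (nat_lit 3) (nat_lit 21) (nat_lit 4) (nat_lit 13) (nat_lit 55) (nat_lit 55)))) (PT.nd (nat_lit 188) (PT.nd (nat_lit 94) (PT.lf (nat_lit 2016) (nat_lit 6) (nat_lit 24) (nat_lit 4) (nat_lit 14) (nat_lit 55) (nat_lit 54)) (PT.lf (nat_lit 2184) (nat_lit 6) (nat_lit 26) (nat_lit 4) (nat_lit 15) (nat_lit 55) (nat_lit 53))) (PT.nd (nat_lit 94) (PT.lf (nat_lit 2436) (nat_lit 6) (nat_lit 29) (nat_lit 4) (nat_lit 16) (nat_lit 55) (nat_lit 52)) (PT.lf (nat_lit 2688) (nat_lit 6) (nat_lit 32) (nat_lit 4) (nat_lit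 17) (nat_lit 55) (nat_lit 51))))) (PT.nd (nat_lit 376) (PT.nd (nat_lit 188) (PT.nd (nat_lit 94) (PT.lf (nat_lit 3024) (nat_lit 6) (nat_lit 36) (nat_lit 4) (nat_lit 18) (nat_lit 55) (nat_lit 50)) (PT.lf (nat_lit 3276) (nat_lit 6) (nat_lit 39) (nat_lit 4) (nat_lit 19) (nat_lit 55) (nat_lit 49))) (PT.nd (nat_lit 94) (PT.lf (nat_lit 3612) (nat_lit 6) (nat_lit 43) (nat_lit 4) (nat_lit 20) (nat_lit 55) (nat_lit 48)) (PT.lf (nat_lit 3948) (nat_lit 6) (nat_lit 47) (nat_lit 4) (nat_lit 21) (nat_lit 55) (nat_lit 47)))) (PT.nd (nat_lit 2350) (PT.nd (nat_lit 2256) (PT.lf (nat_lit 4368) (nat_lit 6) (nat_lit 52) (nat_lit 4) (nat_lit 22) (nat_lit 55) (nat_lit 46)) (PT.lf (nat_lit 4368) (nat_lit 6) (nat_lit 52) (nat_lit 2) (nat_lit 46) (nat_lit 55) (nat_lit 22))) (PT.nd (nat_lit 94) (PT.lf (nat_lit 3948) (nat_lit 6) (nat_lit 47) (nat_lit 2) (nat_lit 47) (nat_lit 55) (nat_lit 21)) (PT.lf (nat_lit 3612)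 (nat_lit 6) (nat_lit 43) (nat_lit 2) (nat_lit 48) (nat_lit 55) (nat_lit 20)))))) (PT.nd (nat_lit 752) (PT.nd (nat_lit 376) (PT.nd (nat_lit 188) (PT.nd (nat_lit 94) (PT.lf (nat_lit 3276) (nat_lit 6) (nat_lit 39) (nat_lit 2) (nat_lit 49) (nat_lit 55) (nat_lit 19)) (PT.lf (nat_lit 3024) (nat_lit 6) (nat_lit 36) (nat_lit 2) (nat_lit 50) (nat_lit 55) (nat_lit 18))) (PT.nd (nat_lit 94) (PT.lf (nat_lit 2688) (nat_lit 6) (nat_lit 32) (nat_lit 2) (nat_lit 51) (nat_lit 55) (nat_lit 17)) (PT.lf (nat_lit 2436) (nat_lit 6) (nat_lit 29) (nat_lit 2) (nat_lit 52) (nat_lit 55) (nat_lit 16)))) (PT.nd (nat_lit 188) (PT.nd (nat_lit 94) (PT.lf (nat_lit 2184) (nat_lit 6) (nat_lit 26) (nat_lit 2) (nat_lit 53) (nat_lit 55) (nat_lit 15)) (PT.lf (nat_lit 2016) (nat_lit 6) (nat_lit 24) (nat_lit 2) (nat_lit 54) (nat_lit 55) (nat_lit 14))) (PT.nd (nat_lit 94) (PT.lf (nat_lit 1764) (nat_lit 3) (nat_lit 21) (nat_lit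 0) (nat_lit 55) (nat_lit 55) (nat_lit 13)) (PT.lf (nat_lit 1512) (nat_lit 6) (nat_lit 18) (nat_lit 0) (nat_lit 56) (nat_lit 55) (nat_lit 12))))) (PT.nd (nat_lit 49632) (PT.nd (nat_lit 49444) (PT.nd (nat_lit 94) (PT.lf (nat_lit 1260) (nat_lit 6) (nat_lit 15) (nat_lit 0) (nat_lit 57) (nat_lit 55) (nat_lit 11)) (PT.lf (nat_lit 1008) (nat_lit 6) (nat_lit 12) (nat_lit 0) (nat_lit 58) (nat_lit 55) (nat_lit 10))) (PT.nd (nat_lit 94) (PT.lf (nat_lit 672) (nat_lit 6) (nat_lit 8) (nat_lit 5) (nat_lit 8) (nat_lit 56) (nat_lit 59)) (PT.lf (nat_lit 840) (nat_lit 6) (nat_lit 10) (nat_lit 5) (nat_lit 9) (nat_lit 56) (nat_lit 58)))) (PT.nd (nat_lit 188) (PT.nd (nat_lit 94) (PT.lf (nat_lit 1092) (nat_lit 6) (nat_lit 13) (nat_lit 5) (nat_lit 10) (nat_lit 56) (nat_lit 57)) (PT.lf (nat_lit 1344) (nat_lit 3) (nat_lit 16) (nat_lit 4) (nat_lit 11) (nat_lit 56) (nat_lit 56))) (PT.nd (nat_lit 94) (PT.lf (nat_lit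 1512) (nat_lit 6) (nat_lit 18) (nat_lit 4) (nat_lit 12) (nat_lit 56) (nat_lit 55)) (PT.lf (nat_lit 1680) (nat_lit 6) (nat_lit 20) (nat_lit 4) (nat_lit 13) (nat_lit 56) (nat_lit 54))))))))
noncomputable def pc15 : PT := (PT.nd (nat_lit 58280) (PT.nd (nat_lit 4230) (PT.nd (nat_lit 3478) (PT.nd (nat_lit 282) (PT.nd (nat_lit 94) (PT.lf (nat_lit 1932) (nat_lit 6) (nat_lit 23) (nat_lit 4) (nat_lit 14) (nat_lit 56) (nat_lit 53)) (PT.nd (nat_lit 94) (PT.lf (nat_lit 2100) (nat_lit 6) (nat_lit 25) (nat_lit 4) (nat_lit 15) (nat_lit 56) (nat_lit 52)) (PT.lf (nat_lit 2352) (nat_lit 6) (nat_lit 28) (nat_lit 4) (nat_lit 16) (nat_lit 56) (nat_lit 51)))) (PT.nd (nat_lit 3008) (PT.nd (nat_lit 94) (PT.lf (nat_lit 2604) (nat_lit 6) (nat_lit 31) (nat_lit 4) (nat_lit 17) (nat_lit 56) (nat_lit 50)) (PT.lf (nat_lit 2940) (nat_lit 6) (nat_lit 35) (nat_lit 4) (nat_lit 18) (nat_lit 56) (nat_lit 49))) (PT.nd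 (nat_lit 94) (PT.lf (nat_lit 2940) (nat_lit 6) (nat_lit 35) (nat_lit 2) (nat_lit 49) (nat_lit 56) (nat_lit 18)) (PT.lf (nat_lit 2604) (nat_lit 6) (nat_lit 31) (nat_lit 2) (nat_lit 50) (nat_lit 56) (nat_lit 17))))) (PT.nd (nat_lit 376) (PT.nd (nat_lit 188) (PT.nd (nat_lit 94) (PT.lf (nat_lit 2352) (nat_lit 6) (nat_lit 28) (nat_lit 2) (nat_lit 51) (nat_lit 56) (nat_lit 16)) (PT.lf (nat_lit 2100) (nat_lit 6) (nat_lit 25) (nat_lit 2) (nat_lit 52) (nat_lit 56) (nat_lit 15))) (PT.nd (nat_lit 94) (PT.lf (nat_lit 1932) (nat_lit 6) (nat_lit 23) (nat_lit 2) (nat_lit 53) (nat_lit 56) (nat_lit 14)) (PT.lf (nat_lit 1680) (nat_lit 6) (nat_lit 20) (nat_lit 2) (nat_lit 54) (nat_lit 56) (nat_lit 13)))) (PT.nd (nat_lit 188) (PT.nd (nat_lit 94) (PT.lf (nat_lit 1512) (nat_lit 6) (nat_lit 18) (nat_lit 2) (nat_lit 55) (nat_lit 56) (nat_lit 12)) (PT.lf (nat_lit 1344) (nat_lit 3) (nat_lit 16) (nat_lit 0)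 (nat_lit 56) (nat_lit 56) (nat_lit 11))) (PT.nd (nat_lit 94) (PT.lf (nat_lit 1092) (nat_lit 6) (nat_lit 13) (nat_lit 0) (nat_lit 57) (nat_lit 56) (nat_lit 10)) (PT.lf (nat_lit 840) (nat_lit 6) (nat_lit 10) (nat_lit 0) (nat_lit 58) (nat_lit 56) (nat_lit 9)))))) (PT.nd (nat_lit 49820) (PT.nd (nat_lit 49444) (PT.nd (nat_lit 49256) (PT.nd (nat_lit 49162) (PT.lf (nat_lit 672) (nat_lit 6) (nat_lit 8) (nat_lit 0) (nat_lit 59) (nat_lit 56) (nat_lit 8)) (PT.lf (nat_lit 504) (nat_lit 6) (nat_lit 6) (nat_lit 5) (nat_lit 7) (nat_lit 57) (nat_lit 59))) (PT.nd (nat_lit 94) (PT.lf (nat_lit 756) (nat_lit 6) (nat_lit 9) (nat_lit 5) (nat_lit 8) (nat_lit 57) (nat_lit 58)) (PT.lf (nat_lit 924) (nat_lit 3) (nat_lit 11) (nat_lit 4) (nat_lit 9) (nat_lit 57) (nat_lit 57)))) (PT.nd (nat_lit 188) (PT.nd (nat_lit 94) (PT.lf (nat_lit 1092) (nat_lit 6) (nat_lit 13) (nat_lit 4) (nat_lit 10) (nat_lit 57) (nat_lit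 56)) (PT.lf (nat_lit 1260) (nat_lit 6) (nat_lit 15) (nat_lit 4) (nat_lit 11) (nat_lit 57) (nat_lit 55))) (PT.nd (nat_lit 94) (PT.lf (nat_lit 1428) (nat_lit 6) (nat_lit 17) (nat_lit 4) (nat_lit 12) (nat_lit 57) (nat_lit 54)) (PT.lf (nat_lit 1596) (nat_lit 6) (nat_lit 19) (nat_lit 4) (nat_lit 13) (nat_lit 57) (nat_lit 53))))) (PT.nd (nat_lit 3854) (PT.nd (nat_lit 3666) (PT.nd (nat_lit 3572) (PT.lf (nat_lit 1848) (nat_lit 6) (nat_lit 22) (nat_lit 4) (nat_lit 14) (nat_lit 57) (nat_lit 52)) (PT.lf (nat_lit 1848) (nat_lit 6) (nat_lit 22) (nat_lit 2) (nat_lit 52) (nat_lit 57) (nat_lit 14))) (PT.nd (nat_lit 94) (PT.lf (nat_lit 1596) (nat_lit 6) (nat_lit 19) (nat_lit 2) (nat_lit 53) (nat_lit 57) (nat_lit 13)) (PT.lf (nat_lit 1428) (nat_lit 6) (nat_lit 17) (nat_lit 2) (nat_lit 54) (nat_lit 57) (nat_lit 12)))) (PT.nd (nat_lit 188) (PT.nd (nat_lit 94) (PT.lf (nat_lit 1260) (nat_lit 6) (nat_lit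 15) (nat_lit 2) (nat_lit 55) (nat_lit 57) (nat_lit 11)) (PT.lf (nat_lit 1092) (nat_lit 6) (nat_lit 13) (nat_lit 2) (nat_lit 56) (nat_lit 57) (nat_lit 10))) (PT.nd (nat_lit 94) (PT.lf (nat_lit 924) (nat_lit 3) (nat_lit 11) (nat_lit 0) (nat_lit 57) (nat_lit 57) (nat_lit 9)) (PT.lf (nat_lit 756) (nat_lit 6) (nat_lit 9) (nat_lit 0) (nat_lit 58) (nat_lit 57) (nat_lit 8))))))) (PT.nd (nat_lit 102930) (PT.nd (nat_lit 49538) (PT.nd (nat_lit 49162) (PT.nd (nat_lit 48974) (PT.lf (nat_lit 504) (nat_lit 6) (nat_lit 6) (nat_lit 0) (nat_lit 59) (nat_lit 57) (nat_lit 7)) (PT.nd (nat_lit 94) (PT.lf (nat_lit 252) (nat_lit 6) (nat_lit 3) (nat_lit 5) (nat_lit 5) (nat_lit 58) (nat_lit 60)) (PT.lf (nat_lit 420) (nat_lit 6) (nat_lit 5) (nat_lit 5) (nat_lit 6) (nat_lit 58) (nat_lit 59)))) (PT.nd (nat_lit 188) (PT.nd (nat_lit 94) (PT.lf (nat_lit 588) (nat_lit 3) (nat_lit 7) (nat_lit 4) (nat_lit 7) (nat_lit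 58) (nat_lit 58)) (PT.lf (nat_lit 756) (nat_lit 6) (nat_lit 9) (nat_lit 4) (nat_lit 8) (nat_lit 58) (nat_lit 57))) (PT.nd (nat_lit 94) (PT.lf (nat_lit 840) (nat_lit 6) (nat_lit 10) (nat_lit 4) (nat_lit 9) (nat_lit 58) (nat_lit 56)) (PT.lf (nat_lit 1008) (nat_lit 6) (nat_lit 12) (nat_lit 4) (nat_lit 10) (nat_lit 58) (nat_lit 55))))) (PT.nd (nat_lit 4324) (PT.nd (nat_lit 4136) (PT.nd (nat_lit 4042) (PT.lf (nat_lit 1176) (nat_lit 6) (nat_lit 14) (nat_lit 4) (nat_lit 11) (nat_lit 58) (nat_lit 54)) (PT.lf (nat_lit 1176) (nat_lit 6) (nat_lit 14) (nat_lit 2) (nat_lit 54) (nat_lit 58) (nat_lit 11))) (PT.nd (nat_lit 94) (PT.lf (nat_lit 1008) (nat_lit 6) (nat_lit 12) (nat_lit 2) (nat_lit 55) (nat_lit 58) (nat_lit 10)) (PT.lf (nat_lit 840) (nat_lit 6) (nat_lit 10) (nat_lit 2) (nat_lit 56) (nat_lit 58) (nat_lit 9)))) (PT.nd (nat_lit 188) (PT.nd (nat_lit 94) (PT.lf (nat_lit 756) (nat_lit 6) (nat_lit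 9) (nat_lit 2) (nat_lit 57) (nat_lit 58) (nat_lit 8)) (PT.lf (nat_lit 588) (nat_lit 3) (nat_lit 7) (nat_lit 0) (nat_lit 58) (nat_lit 58) (nat_lit 7))) (PT.nd (nat_lit 94) (PT.lf (nat_lit 420) (nat_lit 6) (nat_lit 5) (nat_lit 0) (nat_lit 59) (nat_lit 58) (nat_lit 6)) (PT.lf (nat_lit 252) (nat_lit 6) (nat_lit 3) (nat_lit 0) (nat_lit 60) (nat_lit 58) (nat_lit 5)))))) (PT.nd (nat_lit 5170) (PT.nd (nat_lit 376) (PT.nd (nat_lit 188) (PT.nd (nat_lit 94) (PT.lf (nat_lit 168) (nat_lit 6) (nat_lit 2) (nat_lit 5) (nat_lit 4) (nat_lit 59) (nat_lit 60)) (PT.lf (nat_lit 336) (nat_lit 3) (nat_lit 4) (nat_lit 4) (nat_lit 5) (nat_lit 59) (nat_lit 59))) (PT.nd (nat_lit 94) (PT.lf (nat_lit 420) (nat_lit 6) (nat_lit 5) (nat_lit 4) (nat_lit 6) (nat_lit 59) (nat_lit 58)) (PT.lf (nat_lit 504) (nat_lit 6) (nat_lit 6) (nat_lit 4) (nat_lit 7) (nat_lit 59) (nat_lit 57)))) (PT.nd (nat_lit 4606) (PT.nd (nat_lit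 4512) (PT.lf (nat_lit 672) (nat_lit 6) (nat_lit 8) (nat_lit 4) (nat_lit 8) (nat_lit 59) (nat_lit 56)) (PT.lf (nat_lit 672) (nat_lit 6) (nat_lit 8) (nat_lit 2) (nat_lit 56) (nat_lit 59) (nat_lit 8))) (PT.nd (nat_lit 94) (PT.lf (nat_lit 504) (nat_lit 6) (nat_lit 6) (nat_lit 2) (nat_lit 57) (nat_lit 59) (nat_lit 7)) (PT.lf (nat_lit 420) (nat_lit 6) (nat_lit 5) (nat_lit 2) (nat_lit 58) (nat_lit 59) (nat_lit 6))))) (PT.nd (nat_lit 48974) (PT.nd (nat_lit 48786) (PT.nd (nat_lit 94) (PT.lf (nat_lit 336) (nat_lit 3) (nat_lit 4) (nat_lit 0) (nat_lit 59) (nat_lit 59) (nat_lit 5)) (PT.lf (nat_lit 168) (nat_lit 6) (nat_lit 2) (nat_lit 0) (nat_lit 60) (nat_lit 59) (nat_lit 4))) (PT.nd (nat_lit 94) (PT.lf (nat_lit 84) (nat_lit 3) (nat_lit 1) (nat_lit 4) (nat_lit 3) (nat_lit 60) (nat_lit 60)) (PT.lf (nat_lit 168) (nat_lit 6) (nat_lit 2) (nat_lit 4) (nat_lit 4) (nat_lit 60) (nat_lit 59)))) (PT.nd (nat_lit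 5076) (PT.nd (nat_lit 4982) (PT.lf (nat_lit 252) (nat_lit 6) (nat_lit 3) (nat_lit 4) (nat_lit 5) (nat_lit 60) (nat_lit 58)) (PT.lf (nat_lit 252) (nat_lit 6) (nat_lit 3) (nat_lit 2) (nat_lit 58) (nat_lit 60) (nat_lit 5))) (PT.nd (nat_lit 94) (PT.lf (nat_lit 168) (nat_lit 6) (nat_lit 2) (nat_lit 2) (nat_lit 59) (nat_lit 60) (nat_lit 4)) (PT.lf (nat_lit 84) (nat_lit 3) (nat_lit 1) (nat_lit 0) (nat_lit 60) (nat_lit 60) (nat_lit 3))))))))
noncomputable def xc0 : XT := (XT.nd (nat_lit 269310) (nat_lit 0) (nat_lit 0) (XT.nd (nat_lit 161868) (nat_lit 0) (nat_lit 0) (XT.nd (nat_lit 107912) (nat_lit 0) (nat_lit 0) (XT.nd (nat_lit 54050) (nat_lit 0) (nat_lit 0) (XT.nd (nat_lit 53862) (nat_lit 0) (nat_lit 0) (XT.lf (nat_lit 0) (nat_lit 5015834237) (nat_lit 84) (nat_lit 17221991572) (nat_lit 84) (nat_lit 17221991572) (nat_lit 1) (nat_lit 4) (nat_lit 2) (nat_lit 5) (nat_lit 2) (nat_lit 4) (nat_lit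 413) (nat_lit 224) (nat_lit 224)) (XT.nd (nat_lit 94) (nat_lit 0) (nat_lit 0) (XT.lf (nat_lit 0) (nat_lit 2343396170) (nat_lit 84) (nat_lit 17414228263) (nat_lit 84) (nat_lit 17414228263) (nat_lit 1) (nat_lit 4) (nat_lit 2) (nat_lit 5) (nat_lit 2) (nat_lit 4) (nat_lit 411) (nat_lit 225) (nat_lit 225)) (XT.lf (nat_lit 0) (nat_lit 7330895921) (nat_lit 84) (nat_lit 34735494492) (nat_lit 84) (nat_lit 34530098941) (nat_lit 1) (nat_lit 4) (nat_lit 2) (nat_lit 5) (nat_lit 2) (nat_lit 4) (nat_lit 412) (nat_lit 225) (nat_lit 224)))) (XT.nd (nat_lit 53674) (nat_lit 0) (nat_lit 0) (XT.lf (nat_lit 0) (nat_lit 10007130902) (nat_lit 84) (nat_lit 34658814253) (nat_lit 84) (nat_lit 34254198963) (nat_lit 1) (nat_lit 4) (nat_lit 2) (nat_lit 5) (nat_lit 2) (nat_lit 4) (nat_lit 413) (nat_lit 225) (nat_lit 223)) (XT.nd (nat_lit 94) (nat_lit 84) (nat_lit 0) (XT.lf (nat_lit 0) (nat_lit 17390700432) (nat_lit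 168) (nat_lit 239460603) (nat_lit 0) (nat_lit 17390700432) (nat_lit 2) (nat_lit 5) (nat_lit 4) (nat_lit 4) (nat_lit 2) (nat_lit 4) (nat_lit 409) (nat_lit 226) (nat_lit 226)) (XT.lf (nat_lit 0) (nat_lit 2072355578) (nat_lit 84) (nat_lit 35149549821) (nat_lit 84) (nat_lit 34937787008) (nat_lit 1) (nat_lit 4) (nat_lit 2) (nat_lit 5) (nat_lit 2) (nat_lit 4) (nat_lit 410) (nat_lit 226) (nat_lit 225))))) (XT.nd (nat_lit 53674) (nat_lit 0) (nat_lit 84) (XT.nd (nat_lit 94) (nat_lit 0) (nat_lit 0) (XT.lf (nat_lit 0) (nat_lit 4661494102) (nat_lit 84) (nat_lit 35049947401) (nat_lit 84) (nat_lit 34632789037) (nat_lit 1) (nat_lit 4) (nat_lit 2) (nat_lit 5) (nat_lit 2) (nat_lit 4) (nat_lit 411) (nat_lit 226) (nat_lit 224)) (XT.nd (nat_lit 94) (nat_lit 0) (nat_lit 0) (XT.lf (nat_lit 0) (nat_lit 7281060110) (nat_lit 84) (nat_lit 34966420924) (nat_lit 84) (nat_lit 34350042821) (nat_lit 1) (nat_lit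 4) (nat_lit 2) (nat_lit 5) (nat_lit 2) (nat_lit 4) (nat_lit 412) (nat_lit 226) (nat_lit 223)) (XT.lf (nat_lit 0) (nat_lit 9933495312) (nat_lit 84) (nat_lit 34898892537) (nat_lit 84) (nat_lit 34089284813) (nat_lit 1) (nat_lit 4) (nat_lit 2) (nat_lit 5) (nat_lit 2) (nat_lit 4) (nat_lit 413) (nat_lit 226) (nat_lit 222)))) (XT.nd (nat_lit 94) (nat_lit 0) (nat_lit 0) (XT.lf (nat_lit 0) (nat_lit 15149425161) (nat_lit 168) (nat_lit 2699301425) (nat_lit 0) (nat_lit 15149425161) (nat_lit 2) (nat_lit 5) (nat_lit 4) (nat_lit 4) (nat_lit 2) (nat_lit 4) (nat_lit 407) (nat_lit 227) (nat_lit 227)) (XT.nd (nat_lit 94) (nat_lit 0) (nat_lit 0) (XT.lf (nat_lit 0) (nat_lit 32621431184) (nat_lit 168) (nat_lit 2963334073) (nat_lit 0) (nat_lit 32403103724) (nat_lit 2) (nat_lit 5) (nat_lit 4) (nat_lit 4) (nat_lit 2) (nat_lit 4) (nat_lit 408) (nat_lit 227) (nat_lit 226)) (XT.lf (nat_lit 0) (nat_lit 34983934213)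 (nat_lit 168) (nat_lit 504478186) (nat_lit 0) (nat_lit 34553843940) (nat_lit 2) (nat_lit 5) (nat_lit 4) (nat_lit 4) (nat_lit 2) (nat_lit 4) (nat_lit 409) (nat_lit 227) (nat_lit 225)))))) (XT.nd (nat_lit 53768) (nat_lit 0) (nat_lit 0) (XT.nd (nat_lit 282) (nat_lit 0) (nat_lit 0) (XT.nd (nat_lit 94) (nat_lit 0) (nat_lit 0) (XT.lf (nat_lit 0) (nat_lit 2020974858) (nat_lit 84) (nat_lit 35387634973) (nat_lit 84) (nat_lit 34752149149) (nat_lit 1) (nat_lit 4) (nat_lit 2) (nat_lit 5) (nat_lit 2) (nat_lit 4) (nat_lit 410) (nat_lit 227) (nat_lit 224)) (XT.nd (nat_lit 94) (nat_lit 0) (nat_lit 0) (XT.lf (nat_lit 0) (nat_lit 4585575809) (nat_lit 84) (nat_lit 35297468111) (nat_lit 84) (nat_lit 34462762548) (nat_lit 1) (nat_lit 4) (nat_lit 2) (nat_lit 5) (nat_lit 2) (nat_lit 4) (nat_lit 411) (nat_lit 227) (nat_lit 223)) (XT.lf (nat_lit 0) (nat_lit 7181342037) (nat_lit 84) (nat_lit 35223093486) (nat_lit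 84) (nat_lit 34195158302) (nat_lit 1) (nat_lit 4) (nat_lit 2) (nat_lit 5) (nat_lit 2) (nat_lit 4) (nat_lit 412) (nat_lit 227) (nat_lit 222)))) (XT.nd (nat_lit 53298) (nat_lit 0) (nat_lit 84) (XT.lf (nat_lit 0) (nat_lit 9810693068) (nat_lit 84) (nat_lit 35164441773) (nat_lit 84) (nat_lit 33949086976) (nat_lit 1) (nat_lit 4) (nat_lit 2) (nat_lit 5) (nat_lit 2) (nat_lit 4) (nat_lit 413) (nat_lit 227) (nat_lit 221)) (XT.nd (nat_lit 94) (nat_lit 0) (nat_lit 0) (XT.lf (nat_lit 0) (nat_lit 13003357439) (nat_lit 168) (nat_lit 5090136423) (nat_lit 0) (nat_lit 13003357439) (nat_lit 2) (nat_lit 5) (nat_lit 4) (nat_lit 4) (nat_lit 2) (nat_lit 4) (nat_lit 405) (nat_lit 228) (nat_lit 228)) (XT.lf (nat_lit 0) (nat_lit 28239122352) (nat_lit 168) (nat_lit 7812554448) (nat_lit 0) (nat_lit 28014026741) (nat_lit 2) (nat_lit 5) (nat_lit 4) (nat_lit 4) (nat_lit 2) (nat_lit 4) (nat_lit 406) (nat_lit 228)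 (nat_lit 227))))) (XT.nd (nat_lit 282) (nat_lit 84) (nat_lit 0) (XT.nd (nat_lit 94) (nat_lit 0) (nat_lit 0) (XT.lf (nat_lit 0) (nat_lit 30507662206) (nat_lit 168) (nat_lit 5424952097) (nat_lit 0) (nat_lit 30064239134) (nat_lit 2) (nat_lit 5) (nat_lit 4) (nat_lit 4) (nat_lit 2) (nat_lit 4) (nat_lit 407) (nat_lit 228) (nat_lit 226)) (XT.nd (nat_lit 94) (nat_lit 0) (nat_lit 0) (XT.lf (nat_lit 0) (nat_lit 32814448957) (nat_lit 168) (nat_lit 3015240297) (nat_lit 0) (nat_lit 32159263072) (nat_lit 2) (nat_lit 5) (nat_lit 4) (nat_lit 4) (nat_lit 2) (nat_lit 4) (nat_lit 408) (nat_lit 228) (nat_lit 225)) (XT.lf (nat_lit 0) (nat_lit 35161632771) (nat_lit 168) (nat_lit 581172945) (nat_lit 0) (nat_lit 34301051335) (nat_lit 2) (nat_lit 5) (nat_lit 4) (nat_lit 4) (nat_lit 2) (nat_lit 4) (nat_lit 409) (nat_lit 228) (nat_lit 224)))) (XT.nd (nat_lit 94) (nat_lit 0) (nat_lit 0) (XT.lf (nat_lit 0) (nat_lit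 1918165524) (nat_lit 84) (nat_lit 35652264385) (nat_lit 84) (nat_lit 34592463210) (nat_lit 1) (nat_lit 4) (nat_lit 2) (nat_lit 5) (nat_lit 2) (nat_lit 4) (nat_lit 410) (nat_lit 228) (nat_lit 223)) (XT.nd (nat_lit 94) (nat_lit 0) (nat_lit 0) (XT.lf (nat_lit 0) (nat_lit 4458966696) (nat_lit 84) (nat_lit 35571249374) (nat_lit 84) (nat_lit 34318218578) (nat_lit 1) (nat_lit 4) (nat_lit 2) (nat_lit 5) (nat_lit 2) (nat_lit 4) (nat_lit 411) (nat_lit 228) (nat_lit 222)) (XT.lf (nat_lit 0) (nat_lit 7031648753) (nat_lit 84) (nat_lit 35505751423) (nat_lit 84) (nat_lit 34065301015) (nat_lit 1) (nat_lit 4) (nat_lit 2) (nat_lit 5) (nat_lit 2) (nat_lit 4) (nat_lit 412) (nat_lit 228) (nat_lit 221))))))) (XT.nd (nat_lit 54050) (nat_lit 0) (nat_lit 0) (XT.nd (nat_lit 564) (nat_lit 84) (nat_lit 0) (XT.nd (nat_lit 282) (nat_lit 0) (nat_lit 0) (XT.nd (nat_lit 94) (nat_lit 0) (nat_lit 0) (XT.lf (nat_lit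 0) (nat_lit 10945694001) (nat_lit 168) (nat_lit 7418430467) (nat_lit 0) (nat_lit 10945694001) (nat_lit 2) (nat_lit 5) (nat_lit 4) (nat_lit 4) (nat_lit 2) (nat_lit 4) (nat_lit 403) (nat_lit 229) (nat_lit 229)) (XT.nd (nat_lit 94) (nat_lit 0) (nat_lit 0) (XT.lf (nat_lit 0) (nat_lit 24040432522) (nat_lit 168) (nat_lit 12530314254) (nat_lit 0) (nat_lit 23808358946) (nat_lit 2) (nat_lit 5) (nat_lit 4) (nat_lit 4) (nat_lit 2) (nat_lit 4) (nat_lit 404) (nat_lit 229) (nat_lit 228)) (XT.lf (nat_lit 0) (nat_lit 26221999930) (nat_lit 168) (nat_lit 10207438919) (nat_lit 0) (nat_lit 25764830743) (nat_lit 2) (nat_lit 5) (nat_lit 4) (nat_lit 4) (nat_lit 2) (nat_lit 4) (nat_lit 405) (nat_lit 229) (nat_lit 227)))) (XT.nd (nat_lit 94) (nat_lit 0) (nat_lit 0) (XT.lf (nat_lit 0) (nat_lit 28438123676) (nat_lit 168) (nat_lit 7866069766) (nat_lit 0) (nat_lit 27762627029) (nat_lit 2) (nat_lit 5) (nat_lit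 4) (nat_lit 4) (nat_lit 2) (nat_lit 4) (nat_lit 406) (nat_lit 229) (nat_lit 226)) (XT.nd (nat_lit 94) (nat_lit 0) (nat_lit 0) (XT.lf (nat_lit 0) (nat_lit 30690869419) (nat_lit 168) (nat_lit 5504024393) (nat_lit 0) (nat_lit 29803609959) (nat_lit 2) (nat_lit 5) (nat_lit 4) (nat_lit 4) (nat_lit 2) (nat_lit 4) (nat_lit 407) (nat_lit 229) (nat_lit 225)) (XT.lf (nat_lit 0) (nat_lit 32982336955) (nat_lit 168) (nat_lit 3119101128) (nat_lit 0) (nat_lit 31889681943) (nat_lit 2) (nat_lit 5) (nat_lit 4) (nat_lit 4) (nat_lit 2) (nat_lit 4) (nat_lit 408) (nat_lit 229) (nat_lit 224))))) (XT.nd (nat_lit 282) (nat_lit 0) (nat_lit 0) (XT.nd (nat_lit 94) (nat_lit 84) (nat_lit 0) (XT.lf (nat_lit 0) (nat_lit 35314662170) (nat_lit 168) (nat_lit 709076972) (nat_lit 0) (nat_lit 34022787420) (nat_lit 2) (nat_lit 5) (nat_lit 4) (nat_lit 4) (nat_lit 2) (nat_lit 4) (nat_lit 409) (nat_lit 229) (nat_lit 223)) (XT.nd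 (nat_lit 94) (nat_lit 0) (nat_lit 0) (XT.lf (nat_lit 0) (nat_lit 1763831749) (nat_lit 84) (nat_lit 35943684717) (nat_lit 84) (nat_lit 34458580346) (nat_lit 1) (nat_lit 4) (nat_lit 2) (nat_lit 5) (nat_lit 2) (nat_lit 4) (nat_lit 410) (nat_lit 229) (nat_lit 222)) (XT.lf (nat_lit 0) (nat_lit 4281548750) (nat_lit 84) (nat_lit 35871546381) (nat_lit 84) (nat_lit 34199022397) (nat_lit 1) (nat_lit 4) (nat_lit 2) (nat_lit 5) (nat_lit 2) (nat_lit 4) (nat_lit 411) (nat_lit 229) (nat_lit 221)))) (XT.nd (nat_lit 53016) (nat_lit 0) (nat_lit 84) (XT.lf (nat_lit 0) (nat_lit 6831840730) (nat_lit 84) (nat_lit 35814658202) (nat_lit 84) (nat_lit 33960349918) (nat_lit 1) (nat_lit 4) (nat_lit 2) (nat_lit 5) (nat_lit 2) (nat_lit 4) (nat_lit 412) (nat_lit 229) (nat_lit 220)) (XT.nd (nat_lit 94) (nat_lit 0) (nat_lit 0) (XT.lf (nat_lit 0) (nat_lit 8969998470) (nat_lit 168) (nat_lit 9690339205) (nat_lit 0) (nat_lit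 8969998470) (nat_lit 2) (nat_lit 5) (nat_lit 4) (nat_lit 4) (nat_lit 2) (nat_lit 4) (nat_lit 401) (nat_lit 230) (nat_lit 230)) (XT.lf (nat_lit 0) (nat_lit 20012131093) (nat_lit 168) (nat_lit 17129228902) (nat_lit 0) (nat_lit 19772863236) (nat_lit 2) (nat_lit 5) (nat_lit 4) (nat_lit 4) (nat_lit 2) (nat_lit 4) (nat_lit 402) (nat_lit 230) (nat_lit 229)))))) (XT.nd (nat_lit 564) (nat_lit 84) (nat_lit 0) (XT.nd (nat_lit 282) (nat_lit 0) (nat_lit 0) (XT.nd (nat_lit 94) (nat_lit 0) (nat_lit 0) (XT.lf (nat_lit 0) (nat_lit 22113346890) (nat_lit 168) (nat_lit 14864869154) (nat_lit 0) (nat_lit 21642005459) (nat_lit 2) (nat_lit 5) (nat_lit 4) (nat_lit 4) (nat_lit 2) (nat_lit 4) (nat_lit 403) (nat_lit 230) (nat_lit 228)) (XT.nd (nat_lit 94) (nat_lit 0) (nat_lit 0) (XT.lf (nat_lit 0) (nat_lit 24245602886) (nat_lit 168) (nat_lit 12585488546) (nat_lit 0) (nat_lit 23549165843) (nat_lit 2) (nat_lit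 5) (nat_lit 4) (nat_lit 4) (nat_lit 2) (nat_lit 4) (nat_lit 404) (nat_lit 230) (nat_lit 227)) (XT.lf (nat_lit 0) (nat_lit 26410886566) (nat_lit 168) (nat_lit 10288962456) (nat_lit 0) (nat_lit 25496122063) (nat_lit 2) (nat_lit 5) (nat_lit 4) (nat_lit 4) (nat_lit 2) (nat_lit 4) (nat_lit 405) (nat_lit 230) (nat_lit 226)))) (XT.nd (nat_lit 94) (nat_lit 0) (nat_lit 0) (XT.lf (nat_lit 0) (nat_lit 28611216202) (nat_lit 168) (nat_lit 7973150282) (nat_lit 0) (nat_lit 27484688885) (nat_lit 2) (nat_lit 5) (nat_lit 4) (nat_lit 4) (nat_lit 2) (nat_lit 4) (nat_lit 406) (nat_lit 230) (nat_lit 225)) (XT.nd (nat_lit 94) (nat_lit 0) (nat_lit 0) (XT.lf (nat_lit 0) (nat_lit 30848642730) (nat_lit 168) (nat_lit 5635893445) (nat_lit 0) (nat_lit 29516719862) (nat_lit 2) (nat_lit 5) (nat_lit 4) (nat_lit 4) (nat_lit 2) (nat_lit 4) (nat_lit 407) (nat_lit 230) (nat_lit 224)) (XT.lf (nat_lit 0) (nat_lit 33125251667)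 (nat_lit 168) (nat_lit 3275013375) (nat_lit 0) (nat_lit 31594109060) (nat_lit 2) (nat_lit 5) (nat_lit 4) (nat_lit 4) (nat_lit 2) (nat_lit 4) (nat_lit 408) (nat_lit 230) (nat_lit 223))))) (XT.nd (nat_lit 282) (nat_lit 0) (nat_lit 0) (XT.nd (nat_lit 94) (nat_lit 84) (nat_lit 0) (XT.lf (nat_lit 0) (nat_lit 35443165051) (nat_lit 168) (nat_lit 888309486) (nat_lit 0) (nat_lit 33718792824) (nat_lit 2) (nat_lit 5) (nat_lit 4) (nat_lit 4) (nat_lit 2) (nat_lit 4) (nat_lit 409) (nat_lit 230) (nat_lit 222)) (XT.nd (nat_lit 94) (nat_lit 0) (nat_lit 0) (XT.lf (nat_lit 0) (nat_lit 1557829677) (nat_lit 84) (nat_lit 36262167606) (nat_lit 84) (nat_lit 34350375766) (nat_lit 1) (nat_lit 4) (nat_lit 2) (nat_lit 5) (nat_lit 2) (nat_lit 4) (nat_lit 410) (nat_lit 230) (nat_lit 221)) (XT.lf (nat_lit 0) (nat_lit 4053156600) (nat_lit 84) (nat_lit 36198639041) (nat_lit 84) (nat_lit 34105062901) (nat_lit 1) (nat_lit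 4) (nat_lit 2) (nat_lit 5) (nat_lit 2) (nat_lit 4) (nat_lit 411) (nat_lit 230) (nat_lit 220)))) (XT.nd (nat_lit 52828) (nat_lit 0) (nat_lit 84) (XT.lf (nat_lit 0) (nat_lit 6581731724) (nat_lit 84) (nat_lit 36150101756) (nat_lit 84) (nat_lit 33880207188) (nat_lit 1) (nat_lit 4) (nat_lit 2) (nat_lit 5) (nat_lit 2) (nat_lit 4) (nat_lit 412) (nat_lit 230) (nat_lit 219)) (XT.nd (nat_lit 94) (nat_lit 0) (nat_lit 0) (XT.lf (nat_lit 0) (nat_lit 7070178504) (nat_lit 168) (nat_lit 11911729667) (nat_lit 0) (nat_lit 7070178504) (nat_lit 2) (nat_lit 5) (nat_lit 4) (nat_lit 4) (nat_lit 2) (nat_lit 4) (nat_lit 399) (nat_lit 231) (nat_lit 231)) (XT.lf (nat_lit 0) (nat_lit 16141698145) (nat_lit 168) (nat_lit 21621316267) (nat_lit 0) (nat_lit 15895012986) (nat_lit 2) (nat_lit 5) (nat_lit 4) (nat_lit 4) (nat_lit 2) (nat_lit 4) (nat_lit 400) (nat_lit 231) (nat_lit 230))))))))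
noncomputable def xc1 : XT := (XT.nd (nat_lit 54802) (nat_lit 0) (nat_lit 0) (XT.nd (nat_lit 53674) (nat_lit 0) (nat_lit 84) (XT.nd (nat_lit 564) (nat_lit 84) (nat_lit 0) (XT.nd (nat_lit 282) (nat_lit 0) (nat_lit 0) (XT.nd (nat_lit 94) (nat_lit 0) (nat_lit 0) (XT.lf (nat_lit 0) (nat_lit 18168836554) (nat_lit 168) (nat_lit 19409554886) (nat_lit 0) (nat_lit 17682883537) (nat_lit 2) (nat_lit 5) (nat_lit 4) (nat_lit 4) (nat_lit 2) (nat_lit 4) (nat_lit 401) (nat_lit 231) (nat_lit 229)) (XT.nd (nat_lit 94) (nat_lit 0) (nat_lit 0) (XT.lf (nat_lit 0) (nat_lit 20223661739) (nat_lit 168) (nat_lit 17186113598) (nat_lit 0) (nat_lit 19505635147) (nat_lit 2) (nat_lit 5) (nat_lit 4) (nat_lit 4) (nat_lit 2) (nat_lit 4) (nat_lit 402) (nat_lit 231) (nat_lit 228)) (XT.lf (nat_lit 0) (nat_lit 22308089013) (nat_lit 168) (nat_lit 14948919921) (nat_lit 0) (nat_lit 21364966810) (nat_lit 2) (nat_lit 5) (nat_lit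 4) (nat_lit 4) (nat_lit 2) (nat_lit 4) (nat_lit 403) (nat_lit 231) (nat_lit 227)))) (XT.nd (nat_lit 94) (nat_lit 0) (nat_lit 0) (XT.lf (nat_lit 0) (nat_lit 24424061281) (nat_lit 168) (nat_lit 12695888559) (nat_lit 0) (nat_lit 23262611617) (nat_lit 2) (nat_lit 5) (nat_lit 4) (nat_lit 4) (nat_lit 2) (nat_lit 4) (nat_lit 404) (nat_lit 231) (nat_lit 226)) (XT.nd (nat_lit 94) (nat_lit 0) (nat_lit 0) (XT.lf (nat_lit 0) (nat_lit 26573550850) (nat_lit 168) (nat_lit 10424919448) (nat_lit 0) (nat_lit 25200338373) (nat_lit 2) (nat_lit 5) (nat_lit 4) (nat_lit 4) (nat_lit 2) (nat_lit 4) (nat_lit 405) (nat_lit 231) (nat_lit 225)) (XT.lf (nat_lit 0) (nat_lit 28758561270) (nat_lit 168) (nat_lit 8133895809) (nat_lit 0) (nat_lit 27179953243) (nat_lit 2) (nat_lit 5) (nat_lit 4) (nat_lit 4) (nat_lit 2) (nat_lit 4) (nat_lit 406) (nat_lit 231) (nat_lit 224))))) (XT.nd (nat_lit 282) (nat_lit 84) (nat_lit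 0) (XT.nd (nat_lit 94) (nat_lit 0) (nat_lit 0) (XT.lf (nat_lit 0) (nat_lit 30981129200) (nat_lit 168) (nat_lit 5820682166) (nat_lit 0) (nat_lit 29203301433) (nat_lit 2) (nat_lit 5) (nat_lit 4) (nat_lit 4) (nat_lit 2) (nat_lit 4) (nat_lit 407) (nat_lit 231) (nat_lit 223)) (XT.nd (nat_lit 94) (nat_lit 0) (nat_lit 0) (XT.lf (nat_lit 0) (nat_lit 33243326305) (nat_lit 168) (nat_lit 3483122364) (nat_lit 0) (nat_lit 31272268918) (nat_lit 2) (nat_lit 5) (nat_lit 4) (nat_lit 4) (nat_lit 2) (nat_lit 4) (nat_lit 408) (nat_lit 231) (nat_lit 222)) (XT.lf (nat_lit 0) (nat_lit 35547261191) (nat_lit 168) (nat_lit 1119037550) (nat_lit 0) (nat_lit 33388784191) (nat_lit 2) (nat_lit 5) (nat_lit 4) (nat_lit 4) (nat_lit 2) (nat_lit 4) (nat_lit 409) (nat_lit 231) (nat_lit 221)))) (XT.nd (nat_lit 94) (nat_lit 0) (nat_lit 0) (XT.lf (nat_lit 0) (nat_lit 1299967292) (nat_lit 84) (nat_lit 36608009910) (nat_lit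 84) (nat_lit 34267748611) (nat_lit 1) (nat_lit 4) (nat_lit 2) (nat_lit 5) (nat_lit 2) (nat_lit 4) (nat_lit 410) (nat_lit 231) (nat_lit 220)) (XT.nd (nat_lit 94) (nat_lit 0) (nat_lit 0) (XT.lf (nat_lit 0) (nat_lit 3773577359) (nat_lit 84) (nat_lit 36552832239) (nat_lit 84) (nat_lit 34036252511) (nat_lit 1) (nat_lit 4) (nat_lit 2) (nat_lit 5) (nat_lit 2) (nat_lit 4) (nat_lit 411) (nat_lit 231) (nat_lit 219)) (XT.lf (nat_lit 0) (nat_lit 6281088608) (nat_lit 84) (nat_lit 36512394753) (nat_lit 84) (nat_lit 33824798121) (nat_lit 1) (nat_lit 4) (nat_lit 2) (nat_lit 5) (nat_lit 2) (nat_lit 4) (nat_lit 412) (nat_lit 231) (nat_lit 218)))))) (XT.nd (nat_lit 564) (nat_lit 0) (nat_lit 0) (XT.nd (nat_lit 282) (nat_lit 0) (nat_lit 0) (XT.nd (nat_lit 94) (nat_lit 0) (nat_lit 0) (XT.lf (nat_lit 0) (nat_lit 5240464268) (nat_lit 168) (nat_lit 14088199709) (nat_lit 0) (nat_lit 5240464268) (nat_lit 2)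 (nat_lit 5) (nat_lit 4) (nat_lit 4) (nat_lit 2) (nat_lit 4) (nat_lit 397) (nat_lit 232) (nat_lit 232)) (XT.nd (nat_lit 94) (nat_lit 0) (nat_lit 0) (XT.lf (nat_lit 0) (nat_lit 12417280084) (nat_lit 168) (nat_lit 26018036715) (nat_lit 0) (nat_lit 12162947684) (nat_lit 2) (nat_lit 5) (nat_lit 4) (nat_lit 4) (nat_lit 2) (nat_lit 4) (nat_lit 398) (nat_lit 232) (nat_lit 231)) (XT.lf (nat_lit 0) (nat_lit 14376290651) (nat_lit 168) (nat_lit 23853230980) (nat_lit 0) (nat_lit 13875273091) (nat_lit 2) (nat_lit 5) (nat_lit 4) (nat_lit 4) (nat_lit 2) (nat_lit 4) (nat_lit 399) (nat_lit 232) (nat_lit 230)))) (XT.nd (nat_lit 94) (nat_lit 0) (nat_lit 0) (XT.lf (nat_lit 0) (nat_lit 16359786241) (nat_lit 168) (nat_lit 21679964388) (nat_lit 0) (nat_lit 15619500826) (nat_lit 2) (nat_lit 5) (nat_lit 4) (nat_lit 4) (nat_lit 2) (nat_lit 4) (nat_lit 400) (nat_lit 232) (nat_lit 229)) (XT.nd (nat_lit 94) (nat_lit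 0) (nat_lit 0) (XT.lf (nat_lit 0) (nat_lit 18369615682) (nat_lit 168) (nat_lit 19496211227) (nat_lit 0) (nat_lit 17397256690) (nat_lit 2) (nat_lit 5) (nat_lit 4) (nat_lit 4) (nat_lit 2) (nat_lit 4) (nat_lit 401) (nat_lit 232) (nat_lit 228)) (XT.lf (nat_lit 0) (nat_lit 20407652343) (nat_lit 168) (nat_lit 17299936011) (nat_lit 0) (nat_lit 19210197740) (nat_lit 2) (nat_lit 5) (nat_lit 4) (nat_lit 4) (nat_lit 2) (nat_lit 4) (nat_lit 402) (nat_lit 232) (nat_lit 227))))) (XT.nd (nat_lit 282) (nat_lit 0) (nat_lit 0) (XT.nd (nat_lit 94) (nat_lit 0) (nat_lit 0) (XT.lf (nat_lit 0) (nat_lit 22475795889) (nat_lit 168) (nat_lit 15089091580) (nat_lit 0) (nat_lit 21060013826) (nat_lit 2) (nat_lit 5) (nat_lit 4) (nat_lit 4) (nat_lit 2) (nat_lit 4) (nat_lit 403) (nat_lit 232) (nat_lit 226)) (XT.nd (nat_lit 94) (nat_lit 0) (nat_lit 0) (XT.lf (nat_lit 0) (nat_lit 24575974046) (nat_lit 168) (nat_lit 12861617196)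 (nat_lit 0) (nat_lit 22948429170) (nat_lit 2) (nat_lit 5) (nat_lit 4) (nat_lit 4) (nat_lit 2) (nat_lit 4) (nat_lit 404) (nat_lit 232) (nat_lit 225)) (XT.lf (nat_lit 0) (nat_lit 26710144400) (nat_lit 168) (nat_lit 10615436620) (nat_lit 0) (nat_lit 24877203973) (nat_lit 2) (nat_lit 5) (nat_lit 4) (nat_lit 4) (nat_lit 2) (nat_lit 4) (nat_lit 405) (nat_lit 232) (nat_lit 224)))) (XT.nd (nat_lit 94) (nat_lit 0) (nat_lit 0) (XT.lf (nat_lit 0) (nat_lit 28880296222) (nat_lit 168) (nat_lit 8348456176) (nat_lit 0) (nat_lit 26848136056) (nat_lit 2) (nat_lit 5) (nat_lit 4) (nat_lit 4) (nat_lit 2) (nat_lit 4) (nat_lit 406) (nat_lit 232) (nat_lit 223)) (XT.nd (nat_lit 94) (nat_lit 0) (nat_lit 0) (XT.lf (nat_lit 0) (nat_lit 31088452320) (nat_lit 168) (nat_lit 6058562801) (nat_lit 0) (nat_lit 28863062533) (nat_lit 2) (nat_lit 5) (nat_lit 4) (nat_lit 4) (nat_lit 2) (nat_lit 4) (nat_lit 407) (nat_lit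 232) (nat_lit 222)) (XT.lf (nat_lit 0) (nat_lit 33336670927) (nat_lit 168) (nat_lit 3743622075) (nat_lit 0) (nat_lit 30923861528) (nat_lit 2) (nat_lit 5) (nat_lit 4) (nat_lit 4) (nat_lit 2) (nat_lit 4) (nat_lit 408) (nat_lit 232) (nat_lit 221))))))) (XT.nd (nat_lit 53486) (nat_lit 0) (nat_lit 0) (XT.nd (nat_lit 52922) (nat_lit 0) (nat_lit 84) (XT.nd (nat_lit 282) (nat_lit 0) (nat_lit 0) (XT.nd (nat_lit 94) (nat_lit 84) (nat_lit 0) (XT.lf (nat_lit 0) (nat_lit 35627047619) (nat_lit 168) (nat_lit 1401476229) (nat_lit 0) (nat_lit 33032453920) (nat_lit 2) (nat_lit 5) (nat_lit 4) (nat_lit 4) (nat_lit 2) (nat_lit 4) (nat_lit 409) (nat_lit 232) (nat_lit 220)) (XT.nd (nat_lit 94) (nat_lit 0) (nat_lit 0) (XT.lf (nat_lit 0) (nat_lit 990004239) (nat_lit 84) (nat_lit 36981533991) (nat_lit 84) (nat_lit 34210621863) (nat_lit 1) (nat_lit 4) (nat_lit 2) (nat_lit 5) (nat_lit 2) (nat_lit 4) (nat_lit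 410) (nat_lit 232) (nat_lit 219)) (XT.lf (nat_lit 0) (nat_lit 3442550432) (nat_lit 84) (nat_lit 36934456119) (nat_lit 84) (nat_lit 33992527088) (nat_lit 1) (nat_lit 4) (nat_lit 2) (nat_lit 5) (nat_lit 2) (nat_lit 4) (nat_lit 411) (nat_lit 232) (nat_lit 218)))) (XT.nd (nat_lit 52452) (nat_lit 0) (nat_lit 84) (XT.lf (nat_lit 0) (nat_lit 5929631152) (nat_lit 84) (nat_lit 36901874890) (nat_lit 84) (nat_lit 33794071072) (nat_lit 1) (nat_lit 4) (nat_lit 2) (nat_lit 5) (nat_lit 2) (nat_lit 4) (nat_lit 412) (nat_lit 232) (nat_lit 217)) (XT.nd (nat_lit 94) (nat_lit 0) (nat_lit 0) (XT.lf (nat_lit 0) (nat_lit 3475388141) (nat_lit 168) (nat_lit 16225096392) (nat_lit 0) (nat_lit 3475388141) (nat_lit 2) (nat_lit 5) (nat_lit 4) (nat_lit 4) (nat_lit 2) (nat_lit 4) (nat_lit 395) (nat_lit 233) (nat_lit 233)) (XT.lf (nat_lit 0) (nat_lit 8827647834) (nat_lit 168) (nat_lit 30330330912) (nat_lit 0) (nat_lit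 8565431129) (nat_lit 2) (nat_lit 5) (nat_lit 4) (nat_lit 4) (nat_lit 2) (nat_lit 4) (nat_lit 396) (nat_lit 233) (nat_lit 232))))) (XT.nd (nat_lit 282) (nat_lit 0) (nat_lit 0) (XT.nd (nat_lit 94) (nat_lit 0) (nat_lit 0) (XT.lf (nat_lit 0) (nat_lit 10724176122) (nat_lit 168) (nat_lit 28207093986) (nat_lit 0) (nat_lit 10207627018) (nat_lit 2) (nat_lit 5) (nat_lit 4) (nat_lit 4) (nat_lit 2) (nat_lit 4) (nat_lit 397) (nat_lit 233) (nat_lit 231)) (XT.nd (nat_lit 94) (nat_lit 0) (nat_lit 0) (XT.lf (nat_lit 0) (nat_lit 12642128911) (nat_lit 168) (nat_lit 26078502928) (nat_lit 0) (nat_lit 11878894647) (nat_lit 2) (nat_lit 5) (nat_lit 4) (nat_lit 4) (nat_lit 2) (nat_lit 4) (nat_lit 398) (nat_lit 233) (nat_lit 230)) (XT.lf (nat_lit 0) (nat_lit 14583293932) (nat_lit 168) (nat_lit 23942573668) (nat_lit 0) (nat_lit 13580791812) (nat_lit 2) (nat_lit 5) (nat_lit 4) (nat_lit 4) (nat_lit 2) (nat_lit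 4) (nat_lit 399) (nat_lit 233) (nat_lit 229)))) (XT.nd (nat_lit 94) (nat_lit 0) (nat_lit 0) (XT.lf (nat_lit 0) (nat_lit 16549480555) (nat_lit 168) (nat_lit 21797315296) (nat_lit 0) (nat_lit 15314904859) (nat_lit 2) (nat_lit 5) (nat_lit 4) (nat_lit 4) (nat_lit 2) (nat_lit 4) (nat_lit 400) (nat_lit 233) (nat_lit 228)) (XT.nd (nat_lit 94) (nat_lit 0) (nat_lit 0) (XT.lf (nat_lit 0) (nat_lit 18542521471) (nat_lit 168) (nat_lit 19640728208) (nat_lit 0) (nat_lit 17082850164) (nat_lit 2) (nat_lit 5) (nat_lit 4) (nat_lit 4) (nat_lit 2) (nat_lit 4) (nat_lit 401) (nat_lit 233) (nat_lit 227)) (XT.lf (nat_lit 0) (nat_lit 20564274404) (nat_lit 168) (nat_lit 17470802236) (nat_lit 0) (nat_lit 18886275637) (nat_lit 2) (nat_lit 5) (nat_lit 4) (nat_lit 4) (nat_lit 2) (nat_lit 4) (nat_lit 402) (nat_lit 233) (nat_lit 226)))))) (XT.nd (nat_lit 564) (nat_lit 84) (nat_lit 0) (XT.nd (nat_lit 282) (nat_lit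 0) (nat_lit 0) (XT.nd (nat_lit 94) (nat_lit 0) (nat_lit 0) (XT.lf (nat_lit 0) (nat_lit 22616623840) (nat_lit 168) (nat_lit 15285514785) (nat_lit 0) (nat_lit 20726862259) (nat_lit 2) (nat_lit 5) (nat_lit 4) (nat_lit 4) (nat_lit 2) (nat_lit 4) (nat_lit 403) (nat_lit 233) (nat_lit 225)) (XT.nd (nat_lit 94) (nat_lit 0) (nat_lit 0) (XT.lf (nat_lit 0) (nat_lit 24701482782) (nat_lit 168) (nat_lit 13082828935) (nat_lit 0) (nat_lit 22606325650) (nat_lit 2) (nat_lit 5) (nat_lit 4) (nat_lit 4) (nat_lit 2) (nat_lit 4) (nat_lit 404) (nat_lit 233) (nat_lit 224)) (XT.lf (nat_lit 0) (nat_lit 26820794538) (nat_lit 168) (nat_lit 10860691555) (nat_lit 0) (nat_lit 24526417667) (nat_lit 2) (nat_lit 5) (nat_lit 4) (nat_lit 4) (nat_lit 2) (nat_lit 4) (nat_lit 405) (nat_lit 233) (nat_lit 223)))) (XT.nd (nat_lit 94) (nat_lit 0) (nat_lit 0) (XT.lf (nat_lit 0) (nat_lit 28976534528) (nat_lit 168) (nat_lit 8617031378)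 (nat_lit 0) (nat_lit 26488928036) (nat_lit 2) (nat_lit 5) (nat_lit 4) (nat_lit 4) (nat_lit 2) (nat_lit 4) (nat_lit 406) (nat_lit 233) (nat_lit 222)) (XT.nd (nat_lit 94) (nat_lit 0) (nat_lit 0) (XT.lf (nat_lit 0) (nat_lit 31170712128) (nat_lit 168) (nat_lit 6349757079) (nat_lit 0) (nat_lit 28495686024) (nat_lit 2) (nat_lit 5) (nat_lit 4) (nat_lit 4) (nat_lit 2) (nat_lit 4) (nat_lit 407) (nat_lit 233) (nat_lit 221)) (XT.lf (nat_lit 0) (nat_lit 33405372541) (nat_lit 168) (nat_lit 4056755320) (nat_lit 0) (nat_lit 30548562137) (nat_lit 2) (nat_lit 5) (nat_lit 4) (nat_lit 4) (nat_lit 2) (nat_lit 4) (nat_lit 408) (nat_lit 233) (nat_lit 220))))) (XT.nd (nat_lit 282) (nat_lit 0) (nat_lit 0) (XT.nd (nat_lit 94) (nat_lit 84) (nat_lit 0) (XT.lf (nat_lit 0) (nat_lit 35682598704) (nat_lit 168) (nat_lit 1735888783) (nat_lit 0) (nat_lit 32649469872) (nat_lit 2) (nat_lit 5) (nat_lit 4) (nat_lit 4)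 (nat_lit 2) (nat_lit 4) (nat_lit 409) (nat_lit 233) (nat_lit 219)) (XT.nd (nat_lit 94) (nat_lit 0) (nat_lit 0) (XT.lf (nat_lit 0) (nat_lit 627651601) (nat_lit 84) (nat_lit 37383088012) (nat_lit 84) (nat_lit 34178942276) (nat_lit 1) (nat_lit 4) (nat_lit 2) (nat_lit 5) (nat_lit 2) (nat_lit 4) (nat_lit 410) (nat_lit 233) (nat_lit 218)) (XT.lf (nat_lit 0) (nat_lit 3059767265) (nat_lit 84) (nat_lit 37343866396) (nat_lit 84) (nat_lit 33973845874) (nat_lit 1) (nat_lit 4) (nat_lit 2) (nat_lit 5) (nat_lit 2) (nat_lit 4) (nat_lit 411) (nat_lit 233) (nat_lit 217)))) (XT.nd (nat_lit 52358) (nat_lit 0) (nat_lit 84) (XT.nd (nat_lit 52264) (nat_lit 0) (nat_lit 84) (XT.lf (nat_lit 0) (nat_lit 5527031759) (nat_lit 84) (nat_lit 37318905201) (nat_lit 84) (nat_lit 33787997399) (nat_lit 1) (nat_lit 4) (nat_lit 2) (nat_lit 5) (nat_lit 2) (nat_lit 4) (nat_lit 412) (nat_lit 233) (nat_lit 216)) (XT.lf (nat_lit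 0) (nat_lit 1769765586) (nat_lit 168) (nat_lit 18327533337) (nat_lit 0) (nat_lit 1769765586) (nat_lit 2) (nat_lit 5) (nat_lit 4) (nat_lit 4) (nat_lit 2) (nat_lit 4) (nat_lit 393) (nat_lit 234) (nat_lit 234))) (XT.nd (nat_lit 94) (nat_lit 0) (nat_lit 0) (XT.lf (nat_lit 0) (nat_lit 5362157448) (nat_lit 168) (nat_lit 34568655539) (nat_lit 0) (nat_lit 5091812025) (nat_lit 2) (nat_lit 5) (nat_lit 4) (nat_lit 4) (nat_lit 2) (nat_lit 4) (nat_lit 394) (nat_lit 234) (nat_lit 233)) (XT.lf (nat_lit 0) (nat_lit 7201564542) (nat_lit 168) (nat_lit 32481838884) (nat_lit 0) (nat_lit 6669002415) (nat_lit 2) (nat_lit 5) (nat_lit 4) (nat_lit 4) (nat_lit 2) (nat_lit 4) (nat_lit 395) (nat_lit 234) (nat_lit 232))))))))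
noncomputable def xc2 : XT := (XT.nd (nat_lit 54144) (nat_lit 0) (nat_lit 0) (XT.nd (nat_lit 1128) (nat_lit 84) (nat_lit 0) (XT.nd (nat_lit 564) (nat_lit 0) (nat_lit 0) (XT.nd (nat_lit 282) (nat_lit 0) (nat_lit 0) (XT.nd (nat_lit 94) (nat_lit 0) (nat_lit 0) (XT.lf (nat_lit 0) (nat_lit 9059466974) (nat_lit 168) (nat_lit 30392671577) (nat_lit 0) (nat_lit 8272572448) (nat_lit 2) (nat_lit 5) (nat_lit 4) (nat_lit 4) (nat_lit 2) (nat_lit 4) (nat_lit 396) (nat_lit 234) (nat_lit 231)) (XT.nd (nat_lit 94) (nat_lit 0) (nat_lit 0) (XT.lf (nat_lit 0) (nat_lit 10937596505) (nat_lit 168) (nat_lit 28299206297) (nat_lit 0) (nat_lit 9904016819) (nat_lit 2) (nat_lit 5) (nat_lit 4) (nat_lit 4) (nat_lit 2) (nat_lit 4) (nat_lit 397) (nat_lit 234) (nat_lit 230)) (XT.lf (nat_lit 0) (nat_lit 12837703748) (nat_lit 168) (nat_lit 26199491714) (nat_lit 0) (nat_lit 11564856205) (nat_lit 2) (nat_lit 5) (nat_lit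 4) (nat_lit 4) (nat_lit 2) (nat_lit 4) (nat_lit 398) (nat_lit 234) (nat_lit 229)))) (XT.nd (nat_lit 94) (nat_lit 0) (nat_lit 0) (XT.lf (nat_lit 0) (nat_lit 14761559801) (nat_lit 168) (nat_lit 24091570674) (nat_lit 0) (nat_lit 13256638683) (nat_lit 2) (nat_lit 5) (nat_lit 4) (nat_lit 4) (nat_lit 2) (nat_lit 4) (nat_lit 399) (nat_lit 234) (nat_lit 228)) (XT.nd (nat_lit 94) (nat_lit 0) (nat_lit 0) (XT.lf (nat_lit 0) (nat_lit 16710957900) (nat_lit 168) (nat_lit 21973478375) (nat_lit 0) (nat_lit 14980941171) (nat_lit 2) (nat_lit 5) (nat_lit 4) (nat_lit 4) (nat_lit 2) (nat_lit 4) (nat_lit 400) (nat_lit 234) (nat_lit 227)) (XT.lf (nat_lit 0) (nat_lit 18687715088) (nat_lit 168) (nat_lit 19843240531) (nat_lit 0) (nat_lit 16739370899) (nat_lit 2) (nat_lit 5) (nat_lit 4) (nat_lit 4) (nat_lit 2) (nat_lit 4) (nat_lit 401) (nat_lit 234) (nat_lit 226))))) (XT.nd (nat_lit 282) (nat_lit 0) (nat_lit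 0) (XT.nd (nat_lit 94) (nat_lit 0) (nat_lit 0) (XT.lf (nat_lit 0) (nat_lit 20693673911) (nat_lit 168) (nat_lit 17698871539) (nat_lit 0) (nat_lit 18533566908) (nat_lit 2) (nat_lit 5) (nat_lit 4) (nat_lit 4) (nat_lit 2) (nat_lit 4) (nat_lit 402) (nat_lit 234) (nat_lit 225)) (XT.nd (nat_lit 94) (nat_lit 0) (nat_lit 0) (XT.lf (nat_lit 0) (nat_lit 22730704131) (nat_lit 168) (nat_lit 15538372622) (nat_lit 0) (nat_lit 20365201578) (nat_lit 2) (nat_lit 5) (nat_lit 4) (nat_lit 4) (nat_lit 2) (nat_lit 4) (nat_lit 403) (nat_lit 234) (nat_lit 224)) (XT.lf (nat_lit 0) (nat_lit 24800704475) (nat_lit 168) (nat_lit 13359729968) (nat_lit 0) (nat_lit 22235982182) (nat_lit 2) (nat_lit 5) (nat_lit 4) (nat_lit 4) (nat_lit 2) (nat_lit 4) (nat_lit 404) (nat_lit 234) (nat_lit 223)))) (XT.nd (nat_lit 94) (nat_lit 0) (nat_lit 0) (XT.lf (nat_lit 0) (nat_lit 26905604399) (nat_lit 168) (nat_lit 11160912855) (nat_lit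 0) (nat_lit 24147652486) (nat_lit 2) (nat_lit 5) (nat_lit 4) (nat_lit 4) (nat_lit 2) (nat_lit 4) (nat_lit 405) (nat_lit 234) (nat_lit 222)) (XT.nd (nat_lit 94) (nat_lit 0) (nat_lit 0) (XT.lf (nat_lit 0) (nat_lit 29047365891) (nat_lit 168) (nat_lit 8939871754) (nat_lit 0) (nat_lit 26101994365) (nat_lit 2) (nat_lit 5) (nat_lit 4) (nat_lit 4) (nat_lit 2) (nat_lit 4) (nat_lit 406) (nat_lit 234) (nat_lit 221)) (XT.lf (nat_lit 0) (nat_lit 31227985296) (nat_lit 168) (nat_lit 6694536422) (nat_lit 0) (nat_lit 28100829471) (nat_lit 2) (nat_lit 5) (nat_lit 4) (nat_lit 4) (nat_lit 2) (nat_lit 4) (nat_lit 407) (nat_lit 234) (nat_lit 220)))))) (XT.nd (nat_lit 52452) (nat_lit 0) (nat_lit 84) (XT.nd (nat_lit 282) (nat_lit 0) (nat_lit 0) (XT.nd (nat_lit 94) (nat_lit 84) (nat_lit 0) (XT.lf (nat_lit 0) (nat_lit 33449495181) (nat_lit 168) (nat_lit 4422813973) (nat_lit 0) (nat_lit 30146020928) (nat_lit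 2) (nat_lit 5) (nat_lit 4) (nat_lit 4) (nat_lit 2) (nat_lit 4) (nat_lit 408) (nat_lit 234) (nat_lit 219)) (XT.nd (nat_lit 94) (nat_lit 84) (nat_lit 0) (XT.lf (nat_lit 0) (nat_lit 35713966226) (nat_lit 168) (nat_lit 2122586921) (nat_lit 0) (nat_lit 32239475068) (nat_lit 2) (nat_lit 5) (nat_lit 4) (nat_lit 4) (nat_lit 2) (nat_lit 4) (nat_lit 409) (nat_lit 234) (nat_lit 218)) (XT.lf (nat_lit 0) (nat_lit 212571628) (nat_lit 84) (nat_lit 37813046263) (nat_lit 84) (nat_lit 34172680319) (nat_lit 1) (nat_lit 4) (nat_lit 2) (nat_lit 5) (nat_lit 2) (nat_lit 4) (nat_lit 410) (nat_lit 234) (nat_lit 217)))) (XT.nd (nat_lit 94) (nat_lit 0) (nat_lit 0) (XT.lf (nat_lit 0) (nat_lit 2624871065) (nat_lit 84) (nat_lit 37781444682) (nat_lit 84) (nat_lit 33980191458) (nat_lit 1) (nat_lit 4) (nat_lit 2) (nat_lit 5) (nat_lit 2) (nat_lit 4) (nat_lit 411) (nat_lit 234) (nat_lit 216)) (XT.nd (nat_lit 94) (nat_lit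 0) (nat_lit 0) (XT.lf (nat_lit 0) (nat_lit 5072915165) (nat_lit 84) (nat_lit 37763874404) (nat_lit 84) (nat_lit 33806571442) (nat_lit 1) (nat_lit 4) (nat_lit 2) (nat_lit 5) (nat_lit 2) (nat_lit 4) (nat_lit 412) (nat_lit 234) (nat_lit 215)) (XT.lf (nat_lit 0) (nat_lit 7558985762) (nat_lit 84) (nat_lit 37760319051) (nat_lit 84) (nat_lit 33651658437) (nat_lit 1) (nat_lit 4) (nat_lit 2) (nat_lit 5) (nat_lit 2) (nat_lit 4) (nat_lit 413) (nat_lit 234) (nat_lit 214))))) (XT.nd (nat_lit 282) (nat_lit 0) (nat_lit 0) (XT.nd (nat_lit 94) (nat_lit 0) (nat_lit 0) (XT.lf (nat_lit 0) (nat_lit 118677125) (nat_lit 168) (nat_lit 20400407135) (nat_lit 0) (nat_lit 118677125) (nat_lit 2) (nat_lit 5) (nat_lit 4) (nat_lit 4) (nat_lit 2) (nat_lit 4) (nat_lit 391) (nat_lit 235) (nat_lit 235)) (XT.nd (nat_lit 94) (nat_lit 0) (nat_lit 0) (XT.lf (nat_lit 0) (nat_lit 2010712966) (nat_lit 168) (nat_lit 38743017045)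 (nat_lit 0) (nat_lit 1731986836) (nat_lit 2) (nat_lit 5) (nat_lit 4) (nat_lit 4) (nat_lit 2) (nat_lit 4) (nat_lit 392) (nat_lit 235) (nat_lit 234)) (XT.lf (nat_lit 0) (nat_lit 3798093868) (nat_lit 168) (nat_lit 36687693802) (nat_lit 0) (nat_lit 3249022316) (nat_lit 2) (nat_lit 5) (nat_lit 4) (nat_lit 4) (nat_lit 2) (nat_lit 4) (nat_lit 393) (nat_lit 235) (nat_lit 233)))) (XT.nd (nat_lit 94) (nat_lit 0) (nat_lit 0) (XT.lf (nat_lit 0) (nat_lit 5601162982) (nat_lit 168) (nat_lit 34632928765) (nat_lit 0) (nat_lit 4789874725) (nat_lit 2) (nat_lit 5) (nat_lit 4) (nat_lit 4) (nat_lit 2) (nat_lit 4) (nat_lit 394) (nat_lit 235) (nat_lit 232)) (XT.nd (nat_lit 94) (nat_lit 0) (nat_lit 0) (XT.lf (nat_lit 0) (nat_lit 7421600956) (nat_lit 168) (nat_lit 32576806676) (nat_lit 0) (nat_lit 6355980300) (nat_lit 2) (nat_lit 5) (nat_lit 4) (nat_lit 4) (nat_lit 2) (nat_lit 4) (nat_lit 395) (nat_lit 235)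 (nat_lit 231)) (XT.lf (nat_lit 0) (nat_lit 9261104631) (nat_lit 168) (nat_lit 30517411016) (nat_lit 0) (nat_lit 7948798815) (nat_lit 2) (nat_lit 5) (nat_lit 4) (nat_lit 4) (nat_lit 2) (nat_lit 4) (nat_lit 396) (nat_lit 235) (nat_lit 230))))))) (XT.nd (nat_lit 1128) (nat_lit 84) (nat_lit 0) (XT.nd (nat_lit 564) (nat_lit 0) (nat_lit 0) (XT.nd (nat_lit 282) (nat_lit 0) (nat_lit 0) (XT.nd (nat_lit 94) (nat_lit 0) (nat_lit 0) (XT.lf (nat_lit 0) (nat_lit 11121388616) (nat_lit 168) (nat_lit 28452822211) (nat_lit 0) (nat_lit 9569814944) (nat_lit 2) (nat_lit 5) (nat_lit 4) (nat_lit 4) (nat_lit 2) (nat_lit 4) (nat_lit 397) (nat_lit 235) (nat_lit 229)) (XT.nd (nat_lit 94) (nat_lit 0) (nat_lit 0) (XT.lf (nat_lit 0) (nat_lit 13004186890) (nat_lit 168) (nat_lit 26381115848) (nat_lit 0) (nat_lit 11220539643) (nat_lit 2) (nat_lit 5) (nat_lit 4) (nat_lit 4) (nat_lit 2) (nat_lit 4) (nat_lit 398) (nat_lit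 235) (nat_lit 228)) (XT.lf (nat_lit 0) (nat_lit 14911254420) (nat_lit 168) (nat_lit 24300360880) (nat_lit 0) (nat_lit 12902511561) (nat_lit 2) (nat_lit 5) (nat_lit 4) (nat_lit 4) (nat_lit 2) (nat_lit 4) (nat_lit 399) (nat_lit 235) (nat_lit 227)))) (XT.nd (nat_lit 94) (nat_lit 0) (nat_lit 0) (XT.lf (nat_lit 0) (nat_lit 16844368791) (nat_lit 168) (nat_lit 22208617826) (nat_lit 0) (nat_lit 14617298471) (nat_lit 2) (nat_lit 5) (nat_lit 4) (nat_lit 4) (nat_lit 2) (nat_lit 4) (nat_lit 400) (nat_lit 235) (nat_lit 226)) (XT.nd (nat_lit 94) (nat_lit 0) (nat_lit 0) (XT.lf (nat_lit 0) (nat_lit 18805331869) (nat_lit 168) (nat_lit 20103936962) (nat_lit 0) (nat_lit 16366498736) (nat_lit 2) (nat_lit 5) (nat_lit 4) (nat_lit 4) (nat_lit 2) (nat_lit 4) (nat_lit 401) (nat_lit 235) (nat_lit 225)) (XT.lf (nat_lit 0) (nat_lit 20795971476) (nat_lit 168) (nat_lit 17984356504) (nat_lit 0) (nat_lit 18151742793)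 (nat_lit 2) (nat_lit 5) (nat_lit 4) (nat_lit 4) (nat_lit 2) (nat_lit 4) (nat_lit 402) (nat_lit 235) (nat_lit 224))))) (XT.nd (nat_lit 282) (nat_lit 0) (nat_lit 0) (XT.nd (nat_lit 94) (nat_lit 0) (nat_lit 0) (XT.lf (nat_lit 0) (nat_lit 22818143098) (nat_lit 168) (nat_lit 15847900782) (nat_lit 0) (nat_lit 19974694676) (nat_lit 2) (nat_lit 5) (nat_lit 4) (nat_lit 4) (nat_lit 2) (nat_lit 4) (nat_lit 403) (nat_lit 235) (nat_lit 223)) (XT.nd (nat_lit 94) (nat_lit 0) (nat_lit 0) (XT.lf (nat_lit 0) (nat_lit 24873731610) (nat_lit 168) (nat_lit 13692578396) (nat_lit 0) (nat_lit 21837053567) (nat_lit 2) (nat_lit 5) (nat_lit 4) (nat_lit 4) (nat_lit 2) (nat_lit 4) (nat_lit 404) (nat_lit 235) (nat_lit 222)) (XT.lf (nat_lit 0) (nat_lit 26964653036) (nat_lit 168) (nat_lit 11516380358) (nat_lit 0) (nat_lit 23740555380) (nat_lit 2) (nat_lit 5) (nat_lit 4) (nat_lit 4) (nat_lit 2) (nat_lit 4) (nat_lit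 405) (nat_lit 235) (nat_lit 221)))) (XT.nd (nat_lit 94) (nat_lit 0) (nat_lit 0) (XT.lf (nat_lit 0) (nat_lit 29092856334) (nat_lit 168) (nat_lit 9317278225) (nat_lit 0) (nat_lit 25686974378) (nat_lit 2) (nat_lit 5) (nat_lit 4) (nat_lit 4) (nat_lit 2) (nat_lit 4) (nat_lit 406) (nat_lit 235) (nat_lit 220)) (XT.nd (nat_lit 94) (nat_lit 0) (nat_lit 0) (XT.lf (nat_lit 0) (nat_lit 31260325211) (nat_lit 168) (nat_lit 7093222203) (nat_lit 0) (nat_lit 27678124827) (nat_lit 2) (nat_lit 5) (nat_lit 4) (nat_lit 4) (nat_lit 2) (nat_lit 4) (nat_lit 407) (nat_lit 235) (nat_lit 219)) (XT.lf (nat_lit 0) (nat_lit 33469079977) (nat_lit 168) (nat_lit 4842139238) (nat_lit 0) (nat_lit 29715862689) (nat_lit 2) (nat_lit 5) (nat_lit 4) (nat_lit 4) (nat_lit 2) (nat_lit 4) (nat_lit 408) (nat_lit 235) (nat_lit 218)))))) (XT.nd (nat_lit 52170) (nat_lit 0) (nat_lit 84) (XT.nd (nat_lit 282) (nat_lit 0) (nat_lit 0)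 (XT.nd (nat_lit 94) (nat_lit 84) (nat_lit 0) (XT.lf (nat_lit 0) (nat_lit 35721179422) (nat_lit 168) (nat_lit 2561931086) (nat_lit 0) (nat_lit 31802087348) (nat_lit 2) (nat_lit 5) (nat_lit 4) (nat_lit 4) (nat_lit 2) (nat_lit 4) (nat_lit 409) (nat_lit 235) (nat_lit 217)) (XT.nd (nat_lit 94) (nat_lit 84) (nat_lit 0) (XT.lf (nat_lit 0) (nat_lit 38018722739) (nat_lit 168) (nat_lit 250472354) (nat_lit 0) (nat_lit 33938743385) (nat_lit 2) (nat_lit 5) (nat_lit 4) (nat_lit 4) (nat_lit 2) (nat_lit 4) (nat_lit 410) (nat_lit 235) (nat_lit 216)) (XT.lf (nat_lit 0) (nat_lit 2137456463) (nat_lit 84) (nat_lit 38247598847) (nat_lit 84) (nat_lit 34011569754) (nat_lit 1) (nat_lit 4) (nat_lit 2) (nat_lit 5) (nat_lit 2) (nat_lit 4) (nat_lit 411) (nat_lit 235) (nat_lit 215)))) (XT.nd (nat_lit 94) (nat_lit 0) (nat_lit 0) (XT.lf (nat_lit 0) (nat_lit 4566858087) (nat_lit 84) (nat_lit 38237197256) (nat_lit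 84) (nat_lit 33849810512) (nat_lit 1) (nat_lit 4) (nat_lit 2) (nat_lit 5) (nat_lit 2) (nat_lit 4) (nat_lit 412) (nat_lit 235) (nat_lit 214)) (XT.nd (nat_lit 94) (nat_lit 0) (nat_lit 0) (XT.lf (nat_lit 0) (nat_lit 7034846747) (nat_lit 84) (nat_lit 38240595042) (nat_lit 84) (nat_lit 33706401654) (nat_lit 1) (nat_lit 4) (nat_lit 2) (nat_lit 5) (nat_lit 2) (nat_lit 4) (nat_lit 413) (nat_lit 235) (nat_lit 213)) (XT.lf (nat_lit 0) (nat_lit 9543722867) (nat_lit 84) (nat_lit 38257795374) (nat_lit 84) (nat_lit 33581209507) (nat_lit 1) (nat_lit 4) (nat_lit 2) (nat_lit 5) (nat_lit 2) (nat_lit 4) (nat_lit 414) (nat_lit 235) (nat_lit 212))))) (XT.nd (nat_lit 282) (nat_lit 0) (nat_lit 0) (XT.nd (nat_lit 94) (nat_lit 168) (nat_lit 0) (XT.lf (nat_lit 0) (nat_lit 16546403944) (nat_lit 84) (nat_lit 1467539194) (nat_lit 84) (nat_lit 1467539194) (nat_lit 4) (nat_lit 4) (nat_lit 5) (nat_lit 5) (nat_lit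 5) (nat_lit 4) (nat_lit 389) (nat_lit 236) (nat_lit 236)) (XT.nd (nat_lit 94) (nat_lit 168) (nat_lit 0) (XT.lf (nat_lit 0) (nat_lit 37369431111) (nat_lit 84) (nat_lit 1514118645) (nat_lit 84) (nat_lit 1217843639) (nat_lit 4) (nat_lit 4) (nat_lit 5) (nat_lit 5) (nat_lit 5) (nat_lit 4) (nat_lit 390) (nat_lit 236) (nat_lit 235)) (XT.lf (nat_lit 0) (nat_lit 441123183) (nat_lit 84) (nat_lit 63438525) (nat_lit 168) (nat_lit 40771643631) (nat_lit 2) (nat_lit 5) (nat_lit 3) (nat_lit 5) (nat_lit 4) (nat_lit 4) (nat_lit 391) (nat_lit 236) (nat_lit 234)))) (XT.nd (nat_lit 188) (nat_lit 0) (nat_lit 0) (XT.nd (nat_lit 94) (nat_lit 0) (nat_lit 0) (XT.lf (nat_lit 0) (nat_lit 2257127672) (nat_lit 168) (nat_lit 38809282741) (nat_lit 0) (nat_lit 1420689479) (nat_lit 2) (nat_lit 5) (nat_lit 4) (nat_lit 4) (nat_lit 2) (nat_lit 4) (nat_lit 392) (nat_lit 236) (nat_lit 233)) (XT.lf (nat_lit 0) (nat_lit 4024951411)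 (nat_lit 168) (nat_lit 36785605596) (nat_lit 0) (nat_lit 2926296515) (nat_lit 2) (nat_lit 5) (nat_lit 4) (nat_lit 4) (nat_lit 2) (nat_lit 4) (nat_lit 393) (nat_lit 236) (nat_lit 232))) (XT.nd (nat_lit 94) (nat_lit 0) (nat_lit 0) (XT.lf (nat_lit 0) (nat_lit 5809051406) (nat_lit 168) (nat_lit 34761535126) (nat_lit 0) (nat_lit 4456064109) (nat_lit 2) (nat_lit 5) (nat_lit 4) (nat_lit 4) (nat_lit 2) (nat_lit 4) (nat_lit 394) (nat_lit 236) (nat_lit 231)) (XT.lf (nat_lit 0) (nat_lit 7611090623) (nat_lit 168) (nat_lit 32735184683) (nat_lit 0) (nat_lit 6011418166) (nat_lit 2) (nat_lit 5) (nat_lit 4) (nat_lit 4) (nat_lit 2) (nat_lit 4) (nat_lit 395) (nat_lit 236) (nat_lit 230))))))))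
noncomputable def xc3 : XT := (XT.nd (nat_lit 53580) (nat_lit 0) (nat_lit 0) (XT.nd (nat_lit 1128) (nat_lit 84) (nat_lit 0) (XT.nd (nat_lit 564) (nat_lit 0) (nat_lit 0) (XT.nd (nat_lit 282) (nat_lit 0) (nat_lit 0) (XT.nd (nat_lit 94) (nat_lit 0) (nat_lit 0) (XT.lf (nat_lit 0) (nat_lit 9432748751) (nat_lit 168) (nat_lit 30704665498) (nat_lit 0) (nat_lit 7593808439) (nat_lit 2) (nat_lit 5) (nat_lit 4) (nat_lit 4) (nat_lit 2) (nat_lit 4) (nat_lit 396) (nat_lit 236) (nat_lit 229)) (XT.nd (nat_lit 94) (nat_lit 0) (nat_lit 0) (XT.lf (nat_lit 0) (nat_lit 11275723768) (nat_lit 168) (nat_lit 28668084913) (nat_lit 0) (nat_lit 9204709880) (nat_lit 2) (nat_lit 5) (nat_lit 4) (nat_lit 4) (nat_lit 2) (nat_lit 4) (nat_lit 397) (nat_lit 236) (nat_lit 228)) (XT.lf (nat_lit 0) (nat_lit 13141733519) (nat_lit 168) (nat_lit 26623544622) (nat_lit 0) (nat_lit 10845624020) (nat_lit 2) (nat_lit 5) (nat_lit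 4) (nat_lit 4) (nat_lit 2) (nat_lit 4) (nat_lit 398) (nat_lit 236) (nat_lit 227)))) (XT.nd (nat_lit 94) (nat_lit 0) (nat_lit 0) (XT.lf (nat_lit 0) (nat_lit 15032517321) (nat_lit 168) (nat_lit 24569138900) (nat_lit 0) (nat_lit 12518080361) (nat_lit 2) (nat_lit 5) (nat_lit 4) (nat_lit 4) (nat_lit 2) (nat_lit 4) (nat_lit 399) (nat_lit 236) (nat_lit 226)) (XT.nd (nat_lit 94) (nat_lit 0) (nat_lit 0) (XT.lf (nat_lit 0) (nat_lit 16949837581) (nat_lit 168) (nat_lit 22502952825) (nat_lit 0) (nat_lit 14223637808) (nat_lit 2) (nat_lit 5) (nat_lit 4) (nat_lit 4) (nat_lit 2) (nat_lit 4) (nat_lit 400) (nat_lit 236) (nat_lit 225)) (XT.lf (nat_lit 0) (nat_lit 18895481444) (nat_lit 168) (nat_lit 20423060495) (nat_lit 0) (nat_lit 15963886120) (nat_lit 2) (nat_lit 5) (nat_lit 4) (nat_lit 4) (nat_lit 2) (nat_lit 4) (nat_lit 401) (nat_lit 236) (nat_lit 224))))) (XT.nd (nat_lit 282) (nat_lit 0) (nat_lit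 0) (XT.nd (nat_lit 94) (nat_lit 0) (nat_lit 0) (XT.lf (nat_lit 0) (nat_lit 20871262453) (nat_lit 168) (nat_lit 18327523233) (nat_lit 0) (nat_lit 17740447390) (nat_lit 2) (nat_lit 5) (nat_lit 4) (nat_lit 4) (nat_lit 2) (nat_lit 4) (nat_lit 402) (nat_lit 236) (nat_lit 223)) (XT.nd (nat_lit 94) (nat_lit 0) (nat_lit 0) (XT.lf (nat_lit 0) (nat_lit 22879022243) (nat_lit 168) (nat_lit 16214387778) (nat_lit 0) (nat_lit 19554977559) (nat_lit 2) (nat_lit 5) (nat_lit 4) (nat_lit 4) (nat_lit 2) (nat_lit 4) (nat_lit 403) (nat_lit 236) (nat_lit 222)) (XT.lf (nat_lit 0) (nat_lit 24920632257) (nat_lit 168) (nat_lit 14081684468) (nat_lit 0) (nat_lit 21409167960) (nat_lit 2) (nat_lit 5) (nat_lit 4) (nat_lit 4) (nat_lit 2) (nat_lit 4) (nat_lit 404) (nat_lit 236) (nat_lit 221)))) (XT.nd (nat_lit 94) (nat_lit 0) (nat_lit 0) (XT.lf (nat_lit 0) (nat_lit 26997995488) (nat_lit 168) (nat_lit 11927425398) (nat_lit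 0) (nat_lit 23304746892) (nat_lit 2) (nat_lit 5) (nat_lit 4) (nat_lit 4) (nat_lit 2) (nat_lit 4) (nat_lit 405) (nat_lit 236) (nat_lit 220)) (XT.nd (nat_lit 94) (nat_lit 0) (nat_lit 0) (XT.lf (nat_lit 0) (nat_lit 29113048258) (nat_lit 168) (nat_lit 9749602574) (nat_lit 0) (nat_lit 25243481234) (nat_lit 2) (nat_lit 5) (nat_lit 4) (nat_lit 4) (nat_lit 2) (nat_lit 4) (nat_lit 406) (nat_lit 236) (nat_lit 219)) (XT.lf (nat_lit 0) (nat_lit 31267762017) (nat_lit 168) (nat_lit 7546186037) (nat_lit 0) (nat_lit 27227178088) (nat_lit 2) (nat_lit 5) (nat_lit 4) (nat_lit 4) (nat_lit 2) (nat_lit 4) (nat_lit 407) (nat_lit 236) (nat_lit 218)))))) (XT.nd (nat_lit 564) (nat_lit 0) (nat_lit 0) (XT.nd (nat_lit 282) (nat_lit 84) (nat_lit 0) (XT.nd (nat_lit 94) (nat_lit 0) (nat_lit 0) (XT.lf (nat_lit 0) (nat_lit 33464145183) (nat_lit 168) (nat_lit 5315121971) (nat_lit 0) (nat_lit 29257686469) (nat_lit 2)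 (nat_lit 5) (nat_lit 4) (nat_lit 4) (nat_lit 2) (nat_lit 4) (nat_lit 408) (nat_lit 236) (nat_lit 217)) (XT.nd (nat_lit 94) (nat_lit 0) (nat_lit 0) (XT.lf (nat_lit 0) (nat_lit 35704245016) (nat_lit 168) (nat_lit 3054330793) (nat_lit 0) (nat_lit 31336899022) (nat_lit 2) (nat_lit 5) (nat_lit 4) (nat_lit 4) (nat_lit 2) (nat_lit 4) (nat_lit 409) (nat_lit 236) (nat_lit 216)) (XT.lf (nat_lit 0) (nat_lit 37990149524) (nat_lit 168) (nat_lit 761705206) (nat_lit 0) (nat_lit 33466753792) (nat_lit 2) (nat_lit 5) (nat_lit 4) (nat_lit 4) (nat_lit 2) (nat_lit 4) (nat_lit 410) (nat_lit 236) (nat_lit 215)))) (XT.nd (nat_lit 94) (nat_lit 0) (nat_lit 0) (XT.lf (nat_lit 0) (nat_lit 1597069139) (nat_lit 84) (nat_lit 38742763394) (nat_lit 84) (nat_lit 34068010010) (nat_lit 1) (nat_lit 4) (nat_lit 2) (nat_lit 5) (nat_lit 2) (nat_lit 4) (nat_lit 411) (nat_lit 236) (nat_lit 214)) (XT.nd (nat_lit 94) (nat_lit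 0) (nat_lit 0) (XT.lf (nat_lit 0) (nat_lit 4008388825) (nat_lit 84) (nat_lit 38739314943) (nat_lit 84) (nat_lit 33917754914) (nat_lit 1) (nat_lit 4) (nat_lit 2) (nat_lit 5) (nat_lit 2) (nat_lit 4) (nat_lit 412) (nat_lit 236) (nat_lit 213)) (XT.lf (nat_lit 0) (nat_lit 6458839234) (nat_lit 84) (nat_lit 38749456803) (nat_lit 84) (nat_lit 33785504296) (nat_lit 1) (nat_lit 4) (nat_lit 2) (nat_lit 5) (nat_lit 2) (nat_lit 4) (nat_lit 413) (nat_lit 236) (nat_lit 212))))) (XT.nd (nat_lit 51606) (nat_lit 0) (nat_lit 252) (XT.nd (nat_lit 94) (nat_lit 0) (nat_lit 0) (XT.lf (nat_lit 0) (nat_lit 8950704442) (nat_lit 84) (nat_lit 38773198428) (nat_lit 84) (nat_lit 33671134885) (nat_lit 1) (nat_lit 4) (nat_lit 2) (nat_lit 5) (nat_lit 2) (nat_lit 4) (nat_lit 414) (nat_lit 236) (nat_lit 211)) (XT.nd (nat_lit 51418) (nat_lit 0) (nat_lit 252) (XT.lf (nat_lit 0) (nat_lit 11486307128) (nat_lit 84) (nat_lit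 38810561947) (nat_lit 84) (nat_lit 33574540076) (nat_lit 1) (nat_lit 4) (nat_lit 2) (nat_lit 5) (nat_lit 2) (nat_lit 4) (nat_lit 415) (nat_lit 236) (nat_lit 210)) (XT.lf (nat_lit 0) (nat_lit 12380418141) (nat_lit 84) (nat_lit 3007590625) (nat_lit 84) (nat_lit 3007590625) (nat_lit 4) (nat_lit 4) (nat_lit 5) (nat_lit 5) (nat_lit 5) (nat_lit 4) (nat_lit 387) (nat_lit 237) (nat_lit 237)))) (XT.nd (nat_lit 94) (nat_lit 0) (nat_lit 0) (XT.lf (nat_lit 0) (nat_lit 28879941517) (nat_lit 84) (nat_lit 4642834333) (nat_lit 84) (nat_lit 4337374802) (nat_lit 4) (nat_lit 4) (nat_lit 5) (nat_lit 5) (nat_lit 5) (nat_lit 4) (nat_lit 388) (nat_lit 237) (nat_lit 236)) (XT.nd (nat_lit 94) (nat_lit 0) (nat_lit 0) (XT.lf (nat_lit 0) (nat_lit 33059897004) (nat_lit 84) (nat_lit 3252752523) (nat_lit 84) (nat_lit 2651017986) (nat_lit 4) (nat_lit 4) (nat_lit 5) (nat_lit 5) (nat_lit 5) (nat_lit 4) (nat_lit 389)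 (nat_lit 237) (nat_lit 235)) (XT.lf (nat_lit 0) (nat_lit 37304598901) (nat_lit 84) (nat_lit 1843640116) (nat_lit 84) (nat_lit 954538939) (nat_lit 4) (nat_lit 4) (nat_lit 5) (nat_lit 5) (nat_lit 5) (nat_lit 4) (nat_lit 390) (nat_lit 237) (nat_lit 234))))))) (XT.nd (nat_lit 1128) (nat_lit 84) (nat_lit 0) (XT.nd (nat_lit 564) (nat_lit 0) (nat_lit 0) (XT.nd (nat_lit 282) (nat_lit 0) (nat_lit 0) (XT.nd (nat_lit 94) (nat_lit 0) (nat_lit 0) (XT.lf (nat_lit 0) (nat_lit 338809987) (nat_lit 84) (nat_lit 403010443) (nat_lit 168) (nat_lit 40536387368) (nat_lit 2) (nat_lit 5) (nat_lit 3) (nat_lit 5) (nat_lit 4) (nat_lit 4) (nat_lit 391) (nat_lit 237) (nat_lit 233)) (XT.nd (nat_lit 94) (nat_lit 0) (nat_lit 0) (XT.lf (nat_lit 0) (nat_lit 2471460637) (nat_lit 168) (nat_lit 38941875899) (nat_lit 0) (nat_lit 1076530735) (nat_lit 2) (nat_lit 5) (nat_lit 4) (nat_lit 4) (nat_lit 2) (nat_lit 4) (nat_lit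 392) (nat_lit 237) (nat_lit 232)) (XT.lf (nat_lit 0) (nat_lit 4220315257) (nat_lit 168) (nat_lit 36948893322) (nat_lit 0) (nat_lit 2571052955) (nat_lit 2) (nat_lit 5) (nat_lit 4) (nat_lit 4) (nat_lit 2) (nat_lit 4) (nat_lit 393) (nat_lit 237) (nat_lit 231)))) (XT.nd (nat_lit 94) (nat_lit 0) (nat_lit 0) (XT.lf (nat_lit 0) (nat_lit 5986016494) (nat_lit 168) (nat_lit 34954594497) (nat_lit 0) (nat_lit 4090069032) (nat_lit 2) (nat_lit 5) (nat_lit 4) (nat_lit 4) (nat_lit 2) (nat_lit 4) (nat_lit 394) (nat_lit 237) (nat_lit 230)) (XT.nd (nat_lit 94) (nat_lit 0) (nat_lit 0) (XT.lf (nat_lit 0) (nat_lit 7770210165) (nat_lit 168) (nat_lit 32957120529) (nat_lit 0) (nat_lit 5634994846) (nat_lit 2) (nat_lit 5) (nat_lit 4) (nat_lit 4) (nat_lit 2) (nat_lit 4) (nat_lit 395) (nat_lit 237) (nat_lit 229)) (XT.lf (nat_lit 0) (nat_lit 9574559326) (nat_lit 168) (nat_lit 30954609564) (nat_lit 0) (nat_lit 7207270432)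 (nat_lit 2) (nat_lit 5) (nat_lit 4) (nat_lit 4) (nat_lit 2) (nat_lit 4) (nat_lit 396) (nat_lit 237) (nat_lit 228))))) (XT.nd (nat_lit 282) (nat_lit 0) (nat_lit 0) (XT.nd (nat_lit 94) (nat_lit 0) (nat_lit 0) (XT.lf (nat_lit 0) (nat_lit 11400745819) (nat_lit 168) (nat_lit 28945195051) (nat_lit 0) (nat_lit 8808361313) (nat_lit 2) (nat_lit 5) (nat_lit 4) (nat_lit 4) (nat_lit 2) (nat_lit 4) (nat_lit 397) (nat_lit 237) (nat_lit 227)) (XT.nd (nat_lit 94) (nat_lit 0) (nat_lit 0) (XT.lf (nat_lit 0) (nat_lit 13250471842) (nat_lit 168) (nat_lit 26927004006) (nat_lit 0) (nat_lit 10439759876) (nat_lit 2) (nat_lit 5) (nat_lit 4) (nat_lit 4) (nat_lit 2) (nat_lit 4) (nat_lit 398) (nat_lit 237) (nat_lit 226)) (XT.lf (nat_lit 0) (nat_lit 15125461532) (nat_lit 168) (nat_lit 24898155263) (nat_lit 0) (nat_lit 12102986754) (nat_lit 2) (nat_lit 5) (nat_lit 4) (nat_lit 4) (nat_lit 2) (nat_lit 4) (nat_lit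 399) (nat_lit 237) (nat_lit 225)))) (XT.nd (nat_lit 94) (nat_lit 0) (nat_lit 0) (XT.lf (nat_lit 0) (nat_lit 17027462578) (nat_lit 168) (nat_lit 22856757722) (nat_lit 0) (nat_lit 13799592248) (nat_lit 2) (nat_lit 5) (nat_lit 4) (nat_lit 4) (nat_lit 2) (nat_lit 4) (nat_lit 400) (nat_lit 237) (nat_lit 224)) (XT.nd (nat_lit 94) (nat_lit 0) (nat_lit 0) (XT.lf (nat_lit 0) (nat_lit 18958247842) (nat_lit 168) (nat_lit 20800908588) (nat_lit 0) (nat_lit 15531157773) (nat_lit 2) (nat_lit 5) (nat_lit 4) (nat_lit 4) (nat_lit 2) (nat_lit 4) (nat_lit 401) (nat_lit 237) (nat_lit 223)) (XT.lf (nat_lit 0) (nat_lit 20919617019) (nat_lit 168) (nat_lit 18728691593) (nat_lit 0) (nat_lit 17299297330) (nat_lit 2) (nat_lit 5) (nat_lit 4) (nat_lit 4) (nat_lit 2) (nat_lit 4) (nat_lit 402) (nat_lit 237) (nat_lit 222)))))) (XT.nd (nat_lit 564) (nat_lit 84) (nat_lit 0) (XT.nd (nat_lit 282) (nat_lit 0) (nat_lit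 0) (XT.nd (nat_lit 94) (nat_lit 0) (nat_lit 0) (XT.lf (nat_lit 0) (nat_lit 22913398311) (nat_lit 168) (nat_lit 16638175214) (nat_lit 0) (nat_lit 19105659009) (nat_lit 2) (nat_lit 5) (nat_lit 4) (nat_lit 4) (nat_lit 2) (nat_lit 4) (nat_lit 403) (nat_lit 237) (nat_lit 221)) (XT.nd (nat_lit 94) (nat_lit 0) (nat_lit 0) (XT.lf (nat_lit 0) (nat_lit 24941450131) (nat_lit 168) (nat_lit 14527410871) (nat_lit 0) (nat_lit 20951926529) (nat_lit 2) (nat_lit 5) (nat_lit 4) (nat_lit 4) (nat_lit 2) (nat_lit 4) (nat_lit 404) (nat_lit 237) (nat_lit 220)) (XT.lf (nat_lit 0) (nat_lit 27005662834) (nat_lit 168) (nat_lit 12394431111) (nat_lit 0) (nat_lit 22839820804) (nat_lit 2) (nat_lit 5) (nat_lit 4) (nat_lit 4) (nat_lit 2) (nat_lit 4) (nat_lit 405) (nat_lit 237) (nat_lit 219)))) (XT.nd (nat_lit 94) (nat_lit 0) (nat_lit 0) (XT.lf (nat_lit 0) (nat_lit 29107960485) (nat_lit 168) (nat_lit 10237247772) (nat_lit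 0) (nat_lit 24771101551) (nat_lit 2) (nat_lit 5) (nat_lit 4) (nat_lit 4) (nat_lit 2) (nat_lit 4) (nat_lit 406) (nat_lit 237) (nat_lit 218)) (XT.nd (nat_lit 94) (nat_lit 0) (nat_lit 0) (XT.lf (nat_lit 0) (nat_lit 31250302644) (nat_lit 168) (nat_lit 8053850134) (nat_lit 0) (nat_lit 26747568924) (nat_lit 2) (nat_lit 5) (nat_lit 4) (nat_lit 4) (nat_lit 2) (nat_lit 4) (nat_lit 407) (nat_lit 237) (nat_lit 217)) (XT.lf (nat_lit 0) (nat_lit 33434686199) (nat_lit 168) (nat_lit 5842203042) (nat_lit 0) (nat_lit 28771065199) (nat_lit 2) (nat_lit 5) (nat_lit 4) (nat_lit 4) (nat_lit 2) (nat_lit 4) (nat_lit 408) (nat_lit 237) (nat_lit 216))))) (XT.nd (nat_lit 282) (nat_lit 0) (nat_lit 0) (XT.nd (nat_lit 94) (nat_lit 84) (nat_lit 0) (XT.lf (nat_lit 0) (nat_lit 35663147224) (nat_lit 168) (nat_lit 3600245009) (nat_lit 0) (nat_lit 30843476485) (nat_lit 2) (nat_lit 5) (nat_lit 4) (nat_lit 4) (nat_lit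 2) (nat_lit 4) (nat_lit 409) (nat_lit 237) (nat_lit 215)) (XT.nd (nat_lit 94) (nat_lit 84) (nat_lit 0) (XT.lf (nat_lit 0) (nat_lit 37937762878) (nat_lit 168) (nat_lit 1325886295) (nat_lit 0) (nat_lit 32966734488) (nat_lit 2) (nat_lit 5) (nat_lit 4) (nat_lit 4) (nat_lit 2) (nat_lit 4) (nat_lit 410) (nat_lit 237) (nat_lit 214)) (XT.lf (nat_lit 0) (nat_lit 1003205393) (nat_lit 84) (nat_lit 39267399869) (nat_lit 84) (nat_lit 34149564834) (nat_lit 1) (nat_lit 4) (nat_lit 2) (nat_lit 5) (nat_lit 2) (nat_lit 4) (nat_lit 411) (nat_lit 237) (nat_lit 213)))) (XT.nd (nat_lit 188) (nat_lit 0) (nat_lit 0) (XT.nd (nat_lit 94) (nat_lit 0) (nat_lit 0) (XT.lf (nat_lit 0) (nat_lit 3396986828) (nat_lit 84) (nat_lit 39270695492) (nat_lit 84) (nat_lit 34010467979) (nat_lit 1) (nat_lit 4) (nat_lit 2) (nat_lit 5) (nat_lit 2) (nat_lit 4) (nat_lit 412) (nat_lit 237) (nat_lit 212)) (XT.lf (nat_lit 0) (nat_lit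 5830426324) (nat_lit 84) (nat_lit 39287378645) (nat_lit 84) (nat_lit 33889040096) (nat_lit 1) (nat_lit 4) (nat_lit 2) (nat_lit 5) (nat_lit 2) (nat_lit 4) (nat_lit 413) (nat_lit 237) (nat_lit 211))) (XT.nd (nat_lit 94) (nat_lit 0) (nat_lit 0) (XT.lf (nat_lit 0) (nat_lit 8305792102) (nat_lit 84) (nat_lit 39317464881) (nat_lit 84) (nat_lit 33785168003) (nat_lit 1) (nat_lit 4) (nat_lit 2) (nat_lit 5) (nat_lit 2) (nat_lit 4) (nat_lit 414) (nat_lit 237) (nat_lit 210)) (XT.lf (nat_lit 0) (nat_lit 10825391460) (nat_lit 84) (nat_lit 39360982241) (nat_lit 84) (nat_lit 33698754881) (nat_lit 1) (nat_lit 4) (nat_lit 2) (nat_lit 5) (nat_lit 2) (nat_lit 4) (nat_lit 415) (nat_lit 237) (nat_lit 209))))))))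
noncomputable def xc4 : XT := (XT.nd (nat_lit 53298) (nat_lit 0) (nat_lit 0) (XT.nd (nat_lit 52170) (nat_lit 0) (nat_lit 84) (XT.nd (nat_lit 51606) (nat_lit 0) (nat_lit 84) (XT.nd (nat_lit 51324) (nat_lit 0) (nat_lit 252) (XT.nd (nat_lit 51136) (nat_lit 0) (nat_lit 252) (XT.lf (nat_lit 0) (nat_lit 13391572930) (nat_lit 84) (nat_lit 39417971290) (nat_lit 84) (nat_lit 33629720183) (nat_lit 1) (nat_lit 4) (nat_lit 2) (nat_lit 5) (nat_lit 2) (nat_lit 4) (nat_lit 416) (nat_lit 237) (nat_lit 208)) (XT.nd (nat_lit 94) (nat_lit 0) (nat_lit 0) (XT.lf (nat_lit 0) (nat_lit 8362427478) (nat_lit 84) (nat_lit 4506858438) (nat_lit 84) (nat_lit 4506858438) (nat_lit 4) (nat_lit 4) (nat_lit 5) (nat_lit 5) (nat_lit 5) (nat_lit 4) (nat_lit 385) (nat_lit 238) (nat_lit 238)) (XT.lf (nat_lit 0) (nat_lit 20698741866) (nat_lit 84) (nat_lit 7686001220) (nat_lit 84) (nat_lit 7371072444) (nat_lit 4) (nat_lit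 4) (nat_lit 5) (nat_lit 5) (nat_lit 5) (nat_lit 4) (nat_lit 386) (nat_lit 238) (nat_lit 237)))) (XT.nd (nat_lit 94) (nat_lit 0) (nat_lit 0) (XT.lf (nat_lit 0) (nat_lit 24726905160) (nat_lit 84) (nat_lit 6342703283) (nat_lit 84) (nat_lit 5722314975) (nat_lit 4) (nat_lit 4) (nat_lit 5) (nat_lit 5) (nat_lit 5) (nat_lit 4) (nat_lit 387) (nat_lit 238) (nat_lit 236)) (XT.nd (nat_lit 94) (nat_lit 0) (nat_lit 0) (XT.lf (nat_lit 0) (nat_lit 28813099508) (nat_lit 84) (nat_lit 4982570970) (nat_lit 84) (nat_lit 4065907657) (nat_lit 4) (nat_lit 4) (nat_lit 5) (nat_lit 5) (nat_lit 5) (nat_lit 4) (nat_lit 388) (nat_lit 238) (nat_lit 235)) (XT.lf (nat_lit 0) (nat_lit 32961133671) (nat_lit 84) (nat_lit 3604336496) (nat_lit 84) (nat_lit 2400306542) (nat_lit 4) (nat_lit 4) (nat_lit 5) (nat_lit 5) (nat_lit 5) (nat_lit 4) (nat_lit 389) (nat_lit 238) (nat_lit 234))))) (XT.nd (nat_lit 282) (nat_lit 0) (nat_lit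 0) (XT.nd (nat_lit 94) (nat_lit 168) (nat_lit 0) (XT.lf (nat_lit 0) (nat_lit 37174874050) (nat_lit 84) (nat_lit 2206715202) (nat_lit 84) (nat_lit 723959117) (nat_lit 4) (nat_lit 4) (nat_lit 5) (nat_lit 5) (nat_lit 5) (nat_lit 4) (nat_lit 390) (nat_lit 238) (nat_lit 233)) (XT.nd (nat_lit 94) (nat_lit 0) (nat_lit 0) (XT.lf (nat_lit 0) (nat_lit 170151040) (nat_lit 84) (nat_lit 776797530) (nat_lit 168) (nat_lit 40334657940) (nat_lit 2) (nat_lit 5) (nat_lit 3) (nat_lit 5) (nat_lit 4) (nat_lit 4) (nat_lit 391) (nat_lit 238) (nat_lit 232)) (XT.lf (nat_lit 0) (nat_lit 2653911643) (nat_lit 168) (nat_lit 39140920111) (nat_lit 0) (nat_lit 699189809) (nat_lit 2) (nat_lit 5) (nat_lit 4) (nat_lit 4) (nat_lit 2) (nat_lit 4) (nat_lit 392) (nat_lit 238) (nat_lit 231)))) (XT.nd (nat_lit 94) (nat_lit 0) (nat_lit 0) (XT.lf (nat_lit 0) (nat_lit 4384367505) (nat_lit 168) (nat_lit 37177709179) (nat_lit 0)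 (nat_lit 2182960512) (nat_lit 2) (nat_lit 5) (nat_lit 4) (nat_lit 4) (nat_lit 2) (nat_lit 4) (nat_lit 393) (nat_lit 238) (nat_lit 230)) (XT.nd (nat_lit 94) (nat_lit 0) (nat_lit 0) (XT.lf (nat_lit 0) (nat_lit 6132223196) (nat_lit 168) (nat_lit 35212286829) (nat_lit 0) (nat_lit 3691548346) (nat_lit 2) (nat_lit 5) (nat_lit 4) (nat_lit 4) (nat_lit 2) (nat_lit 4) (nat_lit 394) (nat_lit 238) (nat_lit 229)) (XT.lf (nat_lit 0) (nat_lit 7899107899) (nat_lit 168) (nat_lit 33242821082) (nat_lit 0) (nat_lit 5226359474) (nat_lit 2) (nat_lit 5) (nat_lit 4) (nat_lit 4) (nat_lit 2) (nat_lit 4) (nat_lit 395) (nat_lit 238) (nat_lit 228)))))) (XT.nd (nat_lit 564) (nat_lit 0) (nat_lit 0) (XT.nd (nat_lit 282) (nat_lit 0) (nat_lit 0) (XT.nd (nat_lit 94) (nat_lit 0) (nat_lit 0) (XT.lf (nat_lit 0) (nat_lit 9686668536) (nat_lit 168) (nat_lit 31267476189) (nat_lit 0) (nat_lit 6788824499) (nat_lit 2) (nat_lit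 5) (nat_lit 4) (nat_lit 4) (nat_lit 2) (nat_lit 4) (nat_lit 396) (nat_lit 238) (nat_lit 227)) (XT.nd (nat_lit 94) (nat_lit 0) (nat_lit 0) (XT.lf (nat_lit 0) (nat_lit 11496571301) (nat_lit 168) (nat_lit 29284410921) (nat_lit 0) (nat_lit 8380399804) (nat_lit 2) (nat_lit 5) (nat_lit 4) (nat_lit 4) (nat_lit 2) (nat_lit 4) (nat_lit 397) (nat_lit 238) (nat_lit 226)) (XT.lf (nat_lit 0) (nat_lit 13330503213) (nat_lit 168) (nat_lit 27291776855) (nat_lit 0) (nat_lit 10002568903) (nat_lit 2) (nat_lit 5) (nat_lit 4) (nat_lit 4) (nat_lit 2) (nat_lit 4) (nat_lit 398) (nat_lit 238) (nat_lit 225)))) (XT.nd (nat_lit 94) (nat_lit 0) (nat_lit 0) (XT.lf (nat_lit 0) (nat_lit 15190173689) (nat_lit 168) (nat_lit 25287716647) (nat_lit 0) (nat_lit 11656843828) (nat_lit 2) (nat_lit 5) (nat_lit 4) (nat_lit 4) (nat_lit 2) (nat_lit 4) (nat_lit 399) (nat_lit 238) (nat_lit 224)) (XT.nd (nat_lit 94) (nat_lit 0) (nat_lit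 0) (XT.lf (nat_lit 0) (nat_lit 17077316136) (nat_lit 168) (nat_lit 23270362301) (nat_lit 0) (nat_lit 13344766536) (nat_lit 2) (nat_lit 5) (nat_lit 4) (nat_lit 4) (nat_lit 2) (nat_lit 4) (nat_lit 400) (nat_lit 238) (nat_lit 223)) (XT.lf (nat_lit 0) (nat_lit 18993689568) (nat_lit 168) (nat_lit 21237833434) (nat_lit 0) (nat_lit 15067910348) (nat_lit 2) (nat_lit 5) (nat_lit 4) (nat_lit 4) (nat_lit 2) (nat_lit 4) (nat_lit 401) (nat_lit 238) (nat_lit 222))))) (XT.nd (nat_lit 282) (nat_lit 0) (nat_lit 0) (XT.nd (nat_lit 94) (nat_lit 0) (nat_lit 0) (XT.lf (nat_lit 0) (nat_lit 20941080248) (nat_lit 168) (nat_lit 19188235515) (nat_lit 0) (nat_lit 16827881414) (nat_lit 2) (nat_lit 5) (nat_lit 4) (nat_lit 4) (nat_lit 2) (nat_lit 4) (nat_lit 402) (nat_lit 238) (nat_lit 221)) (XT.nd (nat_lit 94) (nat_lit 0) (nat_lit 0) (XT.lf (nat_lit 0) (nat_lit 22921303345) (nat_lit 168) (nat_lit 17119658104)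 (nat_lit 0) (nat_lit 18626320212) (nat_lit 2) (nat_lit 5) (nat_lit 4) (nat_lit 4) (nat_lit 2) (nat_lit 4) (nat_lit 403) (nat_lit 238) (nat_lit 220)) (XT.lf (nat_lit 0) (nat_lit 24936204637) (nat_lit 168) (nat_lit 15030173070) (nat_lit 0) (nat_lit 20464903076) (nat_lit 2) (nat_lit 5) (nat_lit 4) (nat_lit 4) (nat_lit 2) (nat_lit 4) (nat_lit 404) (nat_lit 238) (nat_lit 219)))) (XT.nd (nat_lit 94) (nat_lit 0) (nat_lit 0) (XT.lf (nat_lit 0) (nat_lit 26987662221) (nat_lit 168) (nat_lit 12917832795) (nat_lit 0) (nat_lit 22345343756) (nat_lit 2) (nat_lit 5) (nat_lit 4) (nat_lit 4) (nat_lit 2) (nat_lit 4) (nat_lit 405) (nat_lit 238) (nat_lit 218)) (XT.nd (nat_lit 94) (nat_lit 0) (nat_lit 0) (XT.lf (nat_lit 0) (nat_lit 29077588272) (nat_lit 168) (nat_lit 10780668355) (nat_lit 0) (nat_lit 24269395021) (nat_lit 2) (nat_lit 5) (nat_lit 4) (nat_lit 4) (nat_lit 2) (nat_lit 4) (nat_lit 406) (nat_lit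 238) (nat_lit 217)) (XT.lf (nat_lit 0) (nat_lit 31207930820) (nat_lit 168) (nat_lit 8616687691) (nat_lit 0) (nat_lit 26238850288) (nat_lit 2) (nat_lit 5) (nat_lit 4) (nat_lit 4) (nat_lit 2) (nat_lit 4) (nat_lit 407) (nat_lit 238) (nat_lit 216))))))) (XT.nd (nat_lit 51982) (nat_lit 0) (nat_lit 84) (XT.nd (nat_lit 564) (nat_lit 0) (nat_lit 0) (XT.nd (nat_lit 282) (nat_lit 84) (nat_lit 0) (XT.nd (nat_lit 94) (nat_lit 0) (nat_lit 0) (XT.lf (nat_lit 0) (nat_lit 33380675566) (nat_lit 168) (nat_lit 6423873744) (nat_lit 0) (nat_lit 28255545296) (nat_lit 2) (nat_lit 5) (nat_lit 4) (nat_lit 4) (nat_lit 2) (nat_lit 4) (nat_lit 408) (nat_lit 238) (nat_lit 215)) (XT.nd (nat_lit 94) (nat_lit 0) (nat_lit 0) (XT.lf (nat_lit 0) (nat_lit 35597847737) (nat_lit 168) (nat_lit 4200182584) (nat_lit 0) (nat_lit 30321359816) (nat_lit 2) (nat_lit 5) (nat_lit 4) (nat_lit 4) (nat_lit 2) (nat_lit 4) (nat_lit 409)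 (nat_lit 238) (nat_lit 214)) (XT.lf (nat_lit 0) (nat_lit 37861513969) (nat_lit 168) (nat_lit 1943541496) (nat_lit 0) (nat_lit 32438219403) (nat_lit 2) (nat_lit 5) (nat_lit 4) (nat_lit 4) (nat_lit 2) (nat_lit 4) (nat_lit 410) (nat_lit 238) (nat_lit 213)))) (XT.nd (nat_lit 94) (nat_lit 0) (nat_lit 0) (XT.lf (nat_lit 0) (nat_lit 355311683) (nat_lit 84) (nat_lit 39821997289) (nat_lit 84) (nat_lit 34256310244) (nat_lit 1) (nat_lit 4) (nat_lit 2) (nat_lit 5) (nat_lit 2) (nat_lit 4) (nat_lit 411) (nat_lit 238) (nat_lit 212)) (XT.nd (nat_lit 94) (nat_lit 0) (nat_lit 0) (XT.lf (nat_lit 0) (nat_lit 2732082206) (nat_lit 84) (nat_lit 39831834204) (nat_lit 84) (nat_lit 34128036124) (nat_lit 1) (nat_lit 4) (nat_lit 2) (nat_lit 5) (nat_lit 2) (nat_lit 4) (nat_lit 412) (nat_lit 238) (nat_lit 211)) (XT.lf (nat_lit 0) (nat_lit 5149022271) (nat_lit 84) (nat_lit 39854861969) (nat_lit 84) (nat_lit 34017105560)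 (nat_lit 1) (nat_lit 4) (nat_lit 2) (nat_lit 5) (nat_lit 2) (nat_lit 4) (nat_lit 413) (nat_lit 238) (nat_lit 210))))) (XT.nd (nat_lit 51136) (nat_lit 0) (nat_lit 252) (XT.nd (nat_lit 94) (nat_lit 0) (nat_lit 0) (XT.lf (nat_lit 0) (nat_lit 7608384721) (nat_lit 84) (nat_lit 39891102045) (nat_lit 84) (nat_lit 33923415154) (nat_lit 1) (nat_lit 4) (nat_lit 2) (nat_lit 5) (nat_lit 2) (nat_lit 4) (nat_lit 414) (nat_lit 238) (nat_lit 209)) (XT.nd (nat_lit 94) (nat_lit 0) (nat_lit 0) (XT.lf (nat_lit 0) (nat_lit 10112461939) (nat_lit 84) (nat_lit 39940588215) (nat_lit 84) (nat_lit 33846877576) (nat_lit 1) (nat_lit 4) (nat_lit 2) (nat_lit 5) (nat_lit 2) (nat_lit 4) (nat_lit 415) (nat_lit 238) (nat_lit 208)) (XT.lf (nat_lit 0) (nat_lit 12663587986) (nat_lit 84) (nat_lit 40003366602) (nat_lit 84) (nat_lit 33787421486) (nat_lit 1) (nat_lit 4) (nat_lit 2) (nat_lit 5) (nat_lit 2) (nat_lit 4) (nat_lit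 416) (nat_lit 238) (nat_lit 207)))) (XT.nd (nat_lit 94) (nat_lit 0) (nat_lit 0) (XT.lf (nat_lit 0) (nat_lit 4480604284) (nat_lit 84) (nat_lit 5969321840) (nat_lit 84) (nat_lit 5969321840) (nat_lit 4) (nat_lit 4) (nat_lit 5) (nat_lit 5) (nat_lit 5) (nat_lit 4) (nat_lit 383) (nat_lit 239) (nat_lit 239)) (XT.nd (nat_lit 94) (nat_lit 0) (nat_lit 0) (XT.lf (nat_lit 0) (nat_lit 12801540350) (nat_lit 84) (nat_lit 10651779389) (nat_lit 84) (nat_lit 10327087821) (nat_lit 4) (nat_lit 4) (nat_lit 5) (nat_lit 5) (nat_lit 5) (nat_lit 4) (nat_lit 384) (nat_lit 239) (nat_lit 238)) (XT.lf (nat_lit 0) (nat_lit 16689871968) (nat_lit 84) (nat_lit 9351392092) (nat_lit 84) (nat_lit 8711771747) (nat_lit 4) (nat_lit 4) (nat_lit 5) (nat_lit 5) (nat_lit 5) (nat_lit 4) (nat_lit 385) (nat_lit 239) (nat_lit 237)))))) (XT.nd (nat_lit 564) (nat_lit 84) (nat_lit 0) (XT.nd (nat_lit 282) (nat_lit 84) (nat_lit 0) (XT.nd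 (nat_lit 94) (nat_lit 0) (nat_lit 0) (XT.lf (nat_lit 0) (nat_lit 20629827756) (nat_lit 84) (nat_lit 8036269693) (nat_lit 84) (nat_lit 7091189816) (nat_lit 4) (nat_lit 4) (nat_lit 5) (nat_lit 5) (nat_lit 5) (nat_lit 4) (nat_lit 386) (nat_lit 239) (nat_lit 236)) (XT.nd (nat_lit 94) (nat_lit 0) (nat_lit 0) (XT.lf (nat_lit 0) (nat_lit 24625080164) (nat_lit 84) (nat_lit 6705186360) (nat_lit 84) (nat_lit 5463831477) (nat_lit 4) (nat_lit 4) (nat_lit 5) (nat_lit 5) (nat_lit 5) (nat_lit 4) (nat_lit 387) (nat_lit 239) (nat_lit 235)) (XT.lf (nat_lit 0) (nat_lit 28679353187) (nat_lit 84) (nat_lit 5356901383) (nat_lit 84) (nat_lit 3828179861) (nat_lit 4) (nat_lit 4) (nat_lit 5) (nat_lit 5) (nat_lit 5) (nat_lit 4) (nat_lit 388) (nat_lit 239) (nat_lit 234)))) (XT.nd (nat_lit 94) (nat_lit 84) (nat_lit 0) (XT.lf (nat_lit 0) (nat_lit 32796425832) (nat_lit 84) (nat_lit 3990158021) (nat_lit 84) (nat_lit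 2182710368) (nat_lit 4) (nat_lit 4) (nat_lit 5) (nat_lit 5) (nat_lit 5) (nat_lit 4) (nat_lit 389) (nat_lit 239) (nat_lit 233)) (XT.nd (nat_lit 94) (nat_lit 84) (nat_lit 0) (XT.lf (nat_lit 0) (nat_lit 36980135642) (nat_lit 84) (nat_lit 2603682325) (nat_lit 84) (nat_lit 525889250) (nat_lit 4) (nat_lit 4) (nat_lit 5) (nat_lit 5) (nat_lit 5) (nat_lit 4) (nat_lit 390) (nat_lit 239) (nat_lit 232)) (XT.lf (nat_lit 0) (nat_lit 1120782242) (nat_lit 168) (nat_lit 63701043) (nat_lit 84) (nat_lit 40101901362) (nat_lit 3) (nat_lit 5) (nat_lit 5) (nat_lit 5) (nat_lit 4) (nat_lit 4) (nat_lit 391) (nat_lit 239) (nat_lit 231))))) (XT.nd (nat_lit 282) (nat_lit 0) (nat_lit 0) (XT.nd (nat_lit 94) (nat_lit 0) (nat_lit 0) (XT.lf (nat_lit 0) (nat_lit 2804650753) (nat_lit 168) (nat_lit 39406600905) (nat_lit 0) (nat_lit 288314983) (nat_lit 2) (nat_lit 5) (nat_lit 4) (nat_lit 4) (nat_lit 2) (nat_lit 4) (nat_lit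 392) (nat_lit 239) (nat_lit 230)) (XT.nd (nat_lit 94) (nat_lit 0) (nat_lit 0) (XT.lf (nat_lit 0) (nat_lit 4517261069) (nat_lit 168) (nat_lit 37472266449) (nat_lit 0) (nat_lit 1761657443) (nat_lit 2) (nat_lit 5) (nat_lit 4) (nat_lit 4) (nat_lit 2) (nat_lit 4) (nat_lit 393) (nat_lit 239) (nat_lit 229)) (XT.lf (nat_lit 0) (nat_lit 6247807792) (nat_lit 168) (nat_lit 35534852319) (nat_lit 0) (nat_lit 3260130590) (nat_lit 2) (nat_lit 5) (nat_lit 4) (nat_lit 4) (nat_lit 2) (nat_lit 4) (nat_lit 394) (nat_lit 239) (nat_lit 228)))) (XT.nd (nat_lit 94) (nat_lit 0) (nat_lit 0) (XT.lf (nat_lit 0) (nat_lit 7997903971) (nat_lit 168) (nat_lit 33592552644) (nat_lit 0) (nat_lit 4785131158) (nat_lit 2) (nat_lit 5) (nat_lit 4) (nat_lit 4) (nat_lit 2) (nat_lit 4) (nat_lit 395) (nat_lit 239) (nat_lit 227)) (XT.nd (nat_lit 94) (nat_lit 0) (nat_lit 0) (XT.lf (nat_lit 0) (nat_lit 9769180880) (nat_lit 168)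 (nat_lit 31643556996) (nat_lit 0) (nat_lit 6338080607) (nat_lit 2) (nat_lit 5) (nat_lit 4) (nat_lit 4) (nat_lit 2) (nat_lit 4) (nat_lit 396) (nat_lit 239) (nat_lit 226)) (XT.lf (nat_lit 0) (nat_lit 11563289535) (nat_lit 168) (nat_lit 29686048708) (nat_lit 0) (nat_lit 7920426448) (nat_lit 2) (nat_lit 5) (nat_lit 4) (nat_lit 4) (nat_lit 2) (nat_lit 4) (nat_lit 397) (nat_lit 239) (nat_lit 225))))))))
noncomputable def xc5 : XT := (XT.nd (nat_lit 52922) (nat_lit 0) (nat_lit 84) (XT.nd (nat_lit 1128) (nat_lit 84) (nat_lit 0) (XT.nd (nat_lit 564) (nat_lit 0) (nat_lit 0) (XT.nd (nat_lit 282) (nat_lit 0) (nat_lit 0) (XT.nd (nat_lit 94) (nat_lit 0) (nat_lit 0) (XT.lf (nat_lit 0) (nat_lit 13381902232) (nat_lit 168) (nat_lit 27718203176) (nat_lit 0) (nat_lit 9533643594) (nat_lit 2) (nat_lit 5) (nat_lit 4) (nat_lit 4) (nat_lit 2) (nat_lit 4) (nat_lit 398) (nat_lit 239) (nat_lit 224)) (XT.nd (nat_lit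 94) (nat_lit 0) (nat_lit 0) (XT.lf (nat_lit 0) (nat_lit 15226714109) (nat_lit 168) (nat_lit 25738186163) (nat_lit 0) (nat_lit 11179235732) (nat_lit 2) (nat_lit 5) (nat_lit 4) (nat_lit 4) (nat_lit 2) (nat_lit 4) (nat_lit 399) (nat_lit 239) (nat_lit 223)) (XT.lf (nat_lit 0) (nat_lit 17099444724) (nat_lit 168) (nat_lit 23744152085) (nat_lit 0) (nat_lit 12858736727) (nat_lit 2) (nat_lit 5) (nat_lit 4) (nat_lit 4) (nat_lit 2) (nat_lit 4) (nat_lit 400) (nat_lit 239) (nat_lit 222)))) (XT.nd (nat_lit 94) (nat_lit 0) (nat_lit 0) (XT.lf (nat_lit 0) (nat_lit 19001839658) (nat_lit 168) (nat_lit 21734242294) (nat_lit 0) (nat_lit 14573712048) (nat_lit 2) (nat_lit 5) (nat_lit 4) (nat_lit 4) (nat_lit 2) (nat_lit 4) (nat_lit 401) (nat_lit 239) (nat_lit 221)) (XT.nd (nat_lit 94) (nat_lit 0) (nat_lit 0) (XT.lf (nat_lit 0) (nat_lit 20935672143) (nat_lit 168) (nat_lit 19706583342) (nat_lit 0) (nat_lit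 16325760234) (nat_lit 2) (nat_lit 5) (nat_lit 4) (nat_lit 4) (nat_lit 2) (nat_lit 4) (nat_lit 402) (nat_lit 239) (nat_lit 220)) (XT.lf (nat_lit 0) (nat_lit 22902744713) (nat_lit 168) (nat_lit 17659285240) (nat_lit 0) (nat_lit 18116514375) (nat_lit 2) (nat_lit 5) (nat_lit 4) (nat_lit 4) (nat_lit 2) (nat_lit 4) (nat_lit 403) (nat_lit 239) (nat_lit 219))))) (XT.nd (nat_lit 282) (nat_lit 0) (nat_lit 0) (XT.nd (nat_lit 94) (nat_lit 0) (nat_lit 0) (XT.lf (nat_lit 0) (nat_lit 24904890886) (nat_lit 168) (nat_lit 15590439692) (nat_lit 0) (nat_lit 19947643644) (nat_lit 2) (nat_lit 5) (nat_lit 4) (nat_lit 4) (nat_lit 2) (nat_lit 4) (nat_lit 404) (nat_lit 239) (nat_lit 218)) (XT.nd (nat_lit 94) (nat_lit 0) (nat_lit 0) (XT.lf (nat_lit 0) (nat_lit 26943976871) (nat_lit 168) (nat_lit 13498118316) (nat_lit 0) (nat_lit 21820854843) (nat_lit 2) (nat_lit 5) (nat_lit 4) (nat_lit 4) (nat_lit 2) (nat_lit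 4) (nat_lit 405) (nat_lit 239) (nat_lit 217)) (XT.lf (nat_lit 0) (nat_lit 29021903310) (nat_lit 168) (nat_lit 11380370850) (nat_lit 0) (nat_lit 23737894002) (nat_lit 2) (nat_lit 5) (nat_lit 4) (nat_lit 4) (nat_lit 2) (nat_lit 4) (nat_lit 406) (nat_lit 239) (nat_lit 216)))) (XT.nd (nat_lit 94) (nat_lit 0) (nat_lit 0) (XT.lf (nat_lit 0) (nat_lit 31140607049) (nat_lit 168) (nat_lit 9235223330) (nat_lit 0) (nat_lit 25700548003) (nat_lit 2) (nat_lit 5) (nat_lit 4) (nat_lit 4) (nat_lit 2) (nat_lit 4) (nat_lit 407) (nat_lit 239) (nat_lit 215)) (XT.nd (nat_lit 94) (nat_lit 0) (nat_lit 0) (XT.lf (nat_lit 0) (nat_lit 33302062941) (nat_lit 168) (nat_lit 7060676257) (nat_lit 0) (nat_lit 27710646244) (nat_lit 2) (nat_lit 5) (nat_lit 4) (nat_lit 4) (nat_lit 2) (nat_lit 4) (nat_lit 408) (nat_lit 239) (nat_lit 214)) (XT.lf (nat_lit 0) (nat_lit 35508285690) (nat_lit 168) (nat_lit 4854702722) (nat_lit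 0) (nat_lit 29770062347) (nat_lit 2) (nat_lit 5) (nat_lit 4) (nat_lit 4) (nat_lit 2) (nat_lit 4) (nat_lit 409) (nat_lit 239) (nat_lit 213)))))) (XT.nd (nat_lit 564) (nat_lit 0) (nat_lit 0) (XT.nd (nat_lit 282) (nat_lit 0) (nat_lit 0) (XT.nd (nat_lit 94) (nat_lit 84) (nat_lit 0) (XT.lf (nat_lit 0) (nat_lit 37761331726) (nat_lit 168) (nat_lit 2615246529) (nat_lit 0) (nat_lit 31880715905) (nat_lit 2) (nat_lit 5) (nat_lit 4) (nat_lit 4) (nat_lit 2) (nat_lit 4) (nat_lit 410) (nat_lit 239) (nat_lit 212)) (XT.nd (nat_lit 94) (nat_lit 84) (nat_lit 0) (XT.lf (nat_lit 0) (nat_lit 40063301124) (nat_lit 168) (nat_lit 340220268) (nat_lit 0) (nat_lit 34044574267) (nat_lit 2) (nat_lit 5) (nat_lit 4) (nat_lit 4) (nat_lit 2) (nat_lit 4) (nat_lit 411) (nat_lit 239) (nat_lit 211)) (XT.lf (nat_lit 0) (nat_lit 2013055196) (nat_lit 84) (nat_lit 40423254121) (nat_lit 84) (nat_lit 34270568936) (nat_lit 1)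 (nat_lit 4) (nat_lit 2) (nat_lit 5) (nat_lit 2) (nat_lit 4) (nat_lit 412) (nat_lit 239) (nat_lit 210)))) (XT.nd (nat_lit 94) (nat_lit 0) (nat_lit 0) (XT.lf (nat_lit 0) (nat_lit 4413991935) (nat_lit 84) (nat_lit 40452435727) (nat_lit 84) (nat_lit 34169820059) (nat_lit 1) (nat_lit 4) (nat_lit 2) (nat_lit 5) (nat_lit 2) (nat_lit 4) (nat_lit 413) (nat_lit 239) (nat_lit 209)) (XT.nd (nat_lit 94) (nat_lit 0) (nat_lit 0) (XT.lf (nat_lit 0) (nat_lit 6857832243) (nat_lit 84) (nat_lit 40494644612) (nat_lit 84) (nat_lit 34086005197) (nat_lit 1) (nat_lit 4) (nat_lit 2) (nat_lit 5) (nat_lit 2) (nat_lit 4) (nat_lit 414) (nat_lit 239) (nat_lit 208)) (XT.lf (nat_lit 0) (nat_lit 9346854038) (nat_lit 84) (nat_lit 40549920120) (nat_lit 84) (nat_lit 34019046227) (nat_lit 1) (nat_lit 4) (nat_lit 2) (nat_lit 5) (nat_lit 2) (nat_lit 4) (nat_lit 415) (nat_lit 239) (nat_lit 207))))) (XT.nd (nat_lit 50948)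 (nat_lit 0) (nat_lit 252) (XT.nd (nat_lit 50760) (nat_lit 0) (nat_lit 252) (XT.lf (nat_lit 0) (nat_lit 11883377348) (nat_lit 84) (nat_lit 40618313774) (nat_lit 84) (nat_lit 33968880736) (nat_lit 1) (nat_lit 4) (nat_lit 2) (nat_lit 5) (nat_lit 2) (nat_lit 4) (nat_lit 416) (nat_lit 239) (nat_lit 206)) (XT.nd (nat_lit 94) (nat_lit 0) (nat_lit 0) (XT.lf (nat_lit 0) (nat_lit 723726553) (nat_lit 84) (nat_lit 7398772814) (nat_lit 84) (nat_lit 7398772814) (nat_lit 4) (nat_lit 4) (nat_lit 5) (nat_lit 5) (nat_lit 5) (nat_lit 4) (nat_lit 381) (nat_lit 240) (nat_lit 240)) (XT.lf (nat_lit 0) (nat_lit 5165297033) (nat_lit 84) (nat_lit 13547941468) (nat_lit 84) (nat_lit 13213184461) (nat_lit 4) (nat_lit 4) (nat_lit 5) (nat_lit 5) (nat_lit 5) (nat_lit 4) (nat_lit 382) (nat_lit 240) (nat_lit 239)))) (XT.nd (nat_lit 94) (nat_lit 0) (nat_lit 0) (XT.lf (nat_lit 0) (nat_lit 8925141108) (nat_lit 84) (nat_lit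 12286786829) (nat_lit 84) (nat_lit 11627338253) (nat_lit 4) (nat_lit 4) (nat_lit 5) (nat_lit 5) (nat_lit 5) (nat_lit 4) (nat_lit 383) (nat_lit 240) (nat_lit 238)) (XT.nd (nat_lit 94) (nat_lit 0) (nat_lit 0) (XT.lf (nat_lit 0) (nat_lit 12730489902) (nat_lit 84) (nat_lit 11012906185) (nat_lit 84) (nat_lit 10038528832) (nat_lit 4) (nat_lit 4) (nat_lit 5) (nat_lit 5) (nat_lit 5) (nat_lit 4) (nat_lit 384) (nat_lit 240) (nat_lit 237)) (XT.lf (nat_lit 0) (nat_lit 16584890397) (nat_lit 84) (nat_lit 9725112144) (nat_lit 84) (nat_lit 8445275260) (nat_lit 4) (nat_lit 4) (nat_lit 5) (nat_lit 5) (nat_lit 5) (nat_lit 4) (nat_lit 385) (nat_lit 240) (nat_lit 236))))))) (XT.nd (nat_lit 1128) (nat_lit 0) (nat_lit 0) (XT.nd (nat_lit 564) (nat_lit 84) (nat_lit 0) (XT.nd (nat_lit 282) (nat_lit 84) (nat_lit 0) (XT.nd (nat_lit 94) (nat_lit 0) (nat_lit 0) (XT.lf (nat_lit 0) (nat_lit 20491935299) (nat_lit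 84) (nat_lit 8422204349) (nat_lit 84) (nat_lit 6846092459) (nat_lit 4) (nat_lit 4) (nat_lit 5) (nat_lit 5) (nat_lit 5) (nat_lit 4) (nat_lit 386) (nat_lit 240) (nat_lit 235)) (XT.nd (nat_lit 94) (nat_lit 0) (nat_lit 0) (XT.lf (nat_lit 0) (nat_lit 24455266383) (nat_lit 84) (nat_lit 7102968352) (nat_lit 84) (nat_lit 5239489822) (nat_lit 4) (nat_lit 4) (nat_lit 5) (nat_lit 5) (nat_lit 5) (nat_lit 4) (nat_lit 387) (nat_lit 240) (nat_lit 234)) (XT.lf (nat_lit 0) (nat_lit 28478577889) (nat_lit 84) (nat_lit 5766174487) (nat_lit 84) (nat_lit 3623969827) (nat_lit 4) (nat_lit 4) (nat_lit 5) (nat_lit 5) (nat_lit 5) (nat_lit 4) (nat_lit 388) (nat_lit 240) (nat_lit 233)))) (XT.nd (nat_lit 94) (nat_lit 84) (nat_lit 0) (XT.lf (nat_lit 0) (nat_lit 32565619964) (nat_lit 84) (nat_lit 4410576723) (nat_lit 84) (nat_lit 1998026641) (nat_lit 4) (nat_lit 4) (nat_lit 5) (nat_lit 5) (nat_lit 5) (nat_lit 4)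 (nat_lit 389) (nat_lit 240) (nat_lit 232)) (XT.nd (nat_lit 94) (nat_lit 84) (nat_lit 0) (XT.lf (nat_lit 0) (nat_lit 36720202160) (nat_lit 84) (nat_lit 3034911501) (nat_lit 84) (nat_lit 360144715) (nat_lit 4) (nat_lit 4) (nat_lit 5) (nat_lit 5) (nat_lit 5) (nat_lit 4) (nat_lit 390) (nat_lit 240) (nat_lit 231)) (XT.lf (nat_lit 0) (nat_lit 1265187774) (nat_lit 168) (nat_lit 359502816) (nat_lit 84) (nat_lit 39667803243) (nat_lit 3) (nat_lit 5) (nat_lit 5) (nat_lit 5) (nat_lit 4) (nat_lit 4) (nat_lit 391) (nat_lit 240) (nat_lit 230))))) (XT.nd (nat_lit 282) (nat_lit 0) (nat_lit 0) (XT.nd (nat_lit 94) (nat_lit 0) (nat_lit 0) (XT.lf (nat_lit 0) (nat_lit 2765708452) (nat_lit 84) (nat_lit 159694205) (nat_lit 168) (nat_lit 39581055906) (nat_lit 2) (nat_lit 5) (nat_lit 3) (nat_lit 5) (nat_lit 4) (nat_lit 4) (nat_lit 392) (nat_lit 240) (nat_lit 229)) (XT.nd (nat_lit 94) (nat_lit 0) (nat_lit 0)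 (XT.lf (nat_lit 0) (nat_lit 4619119820) (nat_lit 168) (nat_lit 37832839689) (nat_lit 0) (nat_lit 1306751049) (nat_lit 2) (nat_lit 5) (nat_lit 4) (nat_lit 4) (nat_lit 2) (nat_lit 4) (nat_lit 393) (nat_lit 240) (nat_lit 228)) (XT.lf (nat_lit 0) (nat_lit 6332878019) (nat_lit 168) (nat_lit 35922591632) (nat_lit 0) (nat_lit 2795413637) (nat_lit 2) (nat_lit 5) (nat_lit 4) (nat_lit 4) (nat_lit 2) (nat_lit 4) (nat_lit 394) (nat_lit 240) (nat_lit 227)))) (XT.nd (nat_lit 94) (nat_lit 0) (nat_lit 0) (XT.lf (nat_lit 0) (nat_lit 8066690470) (nat_lit 168) (nat_lit 34006641202) (nat_lit 0) (nat_lit 4310898628) (nat_lit 2) (nat_lit 5) (nat_lit 4) (nat_lit 4) (nat_lit 2) (nat_lit 4) (nat_lit 395) (nat_lit 240) (nat_lit 226)) (XT.nd (nat_lit 94) (nat_lit 0) (nat_lit 0) (XT.lf (nat_lit 0) (nat_lit 9822173268) (nat_lit 168) (nat_lit 32083202533) (nat_lit 0) (nat_lit 5854618613) (nat_lit 2) (nat_lit 5)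 (nat_lit 4) (nat_lit 4) (nat_lit 2) (nat_lit 4) (nat_lit 396) (nat_lit 240) (nat_lit 225)) (XT.lf (nat_lit 0) (nat_lit 11600962708) (nat_lit 168) (nat_lit 30150482780) (nat_lit 0) (nat_lit 7428012502) (nat_lit 2) (nat_lit 5) (nat_lit 4) (nat_lit 4) (nat_lit 2) (nat_lit 4) (nat_lit 397) (nat_lit 240) (nat_lit 224)))))) (XT.nd (nat_lit 564) (nat_lit 0) (nat_lit 0) (XT.nd (nat_lit 282) (nat_lit 0) (nat_lit 0) (XT.nd (nat_lit 94) (nat_lit 0) (nat_lit 0) (XT.lf (nat_lit 0) (nat_lit 13404716806) (nat_lit 168) (nat_lit 28206680443) (nat_lit 0) (nat_lit 9032546861) (nat_lit 2) (nat_lit 5) (nat_lit 4) (nat_lit 4) (nat_lit 2) (nat_lit 4) (nat_lit 398) (nat_lit 240) (nat_lit 223)) (XT.nd (nat_lit 94) (nat_lit 0) (nat_lit 0) (XT.lf (nat_lit 0) (nat_lit 15235116852) (nat_lit 168) (nat_lit 26249983697) (nat_lit 0) (nat_lit 10669717286) (nat_lit 2) (nat_lit 5) (nat_lit 4) (nat_lit 4) (nat_lit 2)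 (nat_lit 4) (nat_lit 399) (nat_lit 240) (nat_lit 222)) (XT.lf (nat_lit 0) (nat_lit 17093868969) (nat_lit 168) (nat_lit 24278568695) (nat_lit 0) (nat_lit 12341049790) (nat_lit 2) (nat_lit 5) (nat_lit 4) (nat_lit 4) (nat_lit 2) (nat_lit 4) (nat_lit 400) (nat_lit 240) (nat_lit 221)))) (XT.nd (nat_lit 94) (nat_lit 0) (nat_lit 0) (XT.lf (nat_lit 0) (nat_lit 18982705709) (nat_lit 168) (nat_lit 22290597871) (nat_lit 0) (nat_lit 14048102231) (nat_lit 2) (nat_lit 5) (nat_lit 4) (nat_lit 4) (nat_lit 2) (nat_lit 4) (nat_lit 401) (nat_lit 240) (nat_lit 220)) (XT.nd (nat_lit 94) (nat_lit 0) (nat_lit 0) (XT.lf (nat_lit 0) (nat_lit 20903387666) (nat_lit 168) (nat_lit 20284218229) (nat_lit 0) (nat_lit 15792465759) (nat_lit 2) (nat_lit 5) (nat_lit 4) (nat_lit 4) (nat_lit 2) (nat_lit 4) (nat_lit 402) (nat_lit 240) (nat_lit 219)) (XT.lf (nat_lit 0) (nat_lit 22857705117) (nat_lit 168) (nat_lit 18257559613)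 (nat_lit 0) (nat_lit 17575766306) (nat_lit 2) (nat_lit 5) (nat_lit 4) (nat_lit 4) (nat_lit 2) (nat_lit 4) (nat_lit 403) (nat_lit 240) (nat_lit 218))))) (XT.nd (nat_lit 282) (nat_lit 0) (nat_lit 0) (XT.nd (nat_lit 94) (nat_lit 0) (nat_lit 0) (XT.lf (nat_lit 0) (nat_lit 24847479689) (nat_lit 168) (nat_lit 16208732963) (nat_lit 0) (nat_lit 19399666093) (nat_lit 2) (nat_lit 5) (nat_lit 4) (nat_lit 4) (nat_lit 2) (nat_lit 4) (nat_lit 404) (nat_lit 240) (nat_lit 217)) (XT.nd (nat_lit 94) (nat_lit 0) (nat_lit 0) (XT.lf (nat_lit 0) (nat_lit 26874566063) (nat_lit 168) (nat_lit 14135828560) (nat_lit 0) (nat_lit 21265865186) (nat_lit 2) (nat_lit 5) (nat_lit 4) (nat_lit 4) (nat_lit 2) (nat_lit 4) (nat_lit 405) (nat_lit 240) (nat_lit 216)) (XT.lf (nat_lit 0) (nat_lit 28940853694) (nat_lit 168) (nat_lit 12036914240) (nat_lit 0) (nat_lit 23176103079) (nat_lit 2) (nat_lit 5) (nat_lit 4) (nat_lit 4)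 (nat_lit 2) (nat_lit 4) (nat_lit 406) (nat_lit 240) (nat_lit 215)))) (XT.nd (nat_lit 188) (nat_lit 0) (nat_lit 0) (XT.nd (nat_lit 94) (nat_lit 0) (nat_lit 0) (XT.lf (nat_lit 0) (nat_lit 31048268579) (nat_lit 168) (nat_lit 9910033593) (nat_lit 0) (nat_lit 25132160312) (nat_lit 2) (nat_lit 5) (nat_lit 4) (nat_lit 4) (nat_lit 2) (nat_lit 4) (nat_lit 407) (nat_lit 240) (nat_lit 214)) (XT.lf (nat_lit 0) (nat_lit 33198775049) (nat_lit 168) (nat_lit 7753204146) (nat_lit 0) (nat_lit 27135860137) (nat_lit 2) (nat_lit 5) (nat_lit 4) (nat_lit 4) (nat_lit 2) (nat_lit 4) (nat_lit 408) (nat_lit 240) (nat_lit 213))) (XT.nd (nat_lit 94) (nat_lit 0) (nat_lit 0) (XT.lf (nat_lit 0) (nat_lit 35394377602) (nat_lit 168) (nat_lit 5564415505) (nat_lit 0) (nat_lit 29189070212) (nat_lit 2) (nat_lit 5) (nat_lit 4) (nat_lit 4) (nat_lit 2) (nat_lit 4) (nat_lit 409) (nat_lit 240) (nat_lit 212)) (XT.lf (nat_lit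 0) (nat_lit 37637122769) (nat_lit 168) (nat_lit 3341627493) (nat_lit 0) (nat_lit 31293704343) (nat_lit 2) (nat_lit 5) (nat_lit 4) (nat_lit 4) (nat_lit 2) (nat_lit 4) (nat_lit 410) (nat_lit 240) (nat_lit 211))))))))
noncomputable def xc6 : XT := (XT.nd (nat_lit 52734) (nat_lit 0) (nat_lit 0) (XT.nd (nat_lit 51606) (nat_lit 0) (nat_lit 84) (XT.nd (nat_lit 51042) (nat_lit 0) (nat_lit 252) (XT.nd (nat_lit 282) (nat_lit 0) (nat_lit 0) (XT.nd (nat_lit 94) (nat_lit 84) (nat_lit 0) (XT.lf (nat_lit 0) (nat_lit 39929101023) (nat_lit 168) (nat_lit 1082768236) (nat_lit 0) (nat_lit 33451724270) (nat_lit 2) (nat_lit 5) (nat_lit 4) (nat_lit 4) (nat_lit 2) (nat_lit 4) (nat_lit 411) (nat_lit 240) (nat_lit 210)) (XT.nd (nat_lit 94) (nat_lit 0) (nat_lit 0) (XT.lf (nat_lit 0) (nat_lit 1239235592) (nat_lit 84) (nat_lit 41045506508) (nat_lit 84) (nat_lit 34438199271) (nat_lit 1) (nat_lit 4) (nat_lit 2)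 (nat_lit 5) (nat_lit 2) (nat_lit 4) (nat_lit 412) (nat_lit 240) (nat_lit 209)) (XT.lf (nat_lit 0) (nat_lit 3624650189) (nat_lit 84) (nat_lit 41080656922) (nat_lit 84) (nat_lit 34347325938) (nat_lit 1) (nat_lit 4) (nat_lit 2) (nat_lit 5) (nat_lit 2) (nat_lit 4) (nat_lit 413) (nat_lit 240) (nat_lit 208)))) (XT.nd (nat_lit 94) (nat_lit 0) (nat_lit 0) (XT.lf (nat_lit 0) (nat_lit 6053435075) (nat_lit 84) (nat_lit 41128655146) (nat_lit 84) (nat_lit 34273089684) (nat_lit 1) (nat_lit 4) (nat_lit 2) (nat_lit 5) (nat_lit 2) (nat_lit 4) (nat_lit 414) (nat_lit 240) (nat_lit 207)) (XT.nd (nat_lit 94) (nat_lit 0) (nat_lit 0) (XT.lf (nat_lit 0) (nat_lit 8527854132) (nat_lit 84) (nat_lit 41189545920) (nat_lit 84) (nat_lit 34215421313) (nat_lit 1) (nat_lit 4) (nat_lit 2) (nat_lit 5) (nat_lit 2) (nat_lit 4) (nat_lit 415) (nat_lit 240) (nat_lit 206)) (XT.lf (nat_lit 0) (nat_lit 11050213777) (nat_lit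 84) (nat_lit 41263385999) (nat_lit 84) (nat_lit 34174267073) (nat_lit 1) (nat_lit 4) (nat_lit 2) (nat_lit 5) (nat_lit 2) (nat_lit 4) (nat_lit 416) (nat_lit 240) (nat_lit 205))))) (XT.nd (nat_lit 282) (nat_lit 0) (nat_lit 0) (XT.nd (nat_lit 94) (nat_lit 84) (nat_lit 0) (XT.lf (nat_lit 0) (nat_lit 5908923293) (nat_lit 168) (nat_lit 2860052334) (nat_lit 0) (nat_lit 5908923293) (nat_lit 5) (nat_lit 5) (nat_lit 7) (nat_lit 4) (nat_lit 5) (nat_lit 4) (nat_lit 379) (nat_lit 241) (nat_lit 241)) (XT.nd (nat_lit 94) (nat_lit 84) (nat_lit 0) (XT.lf (nat_lit 0) (nat_lit 14172182750) (nat_lit 168) (nat_lit 2186889162) (nat_lit 0) (nat_lit 13827048275) (nat_lit 5) (nat_lit 5) (nat_lit 7) (nat_lit 4) (nat_lit 5) (nat_lit 4) (nat_lit 380) (nat_lit 241) (nat_lit 240)) (XT.lf (nat_lit 0) (nat_lit 1410267555) (nat_lit 84) (nat_lit 15156481215) (nat_lit 84) (nat_lit 14476589733) (nat_lit 4) (nat_lit 4)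 (nat_lit 5) (nat_lit 5) (nat_lit 5) (nat_lit 4) (nat_lit 381) (nat_lit 241) (nat_lit 239)))) (XT.nd (nat_lit 94) (nat_lit 0) (nat_lit 0) (XT.lf (nat_lit 0) (nat_lit 5092044021) (nat_lit 84) (nat_lit 13920263194) (nat_lit 84) (nat_lit 12915680143) (nat_lit 4) (nat_lit 4) (nat_lit 5) (nat_lit 5) (nat_lit 5) (nat_lit 4) (nat_lit 382) (nat_lit 241) (nat_lit 238)) (XT.nd (nat_lit 94) (nat_lit 0) (nat_lit 0) (XT.lf (nat_lit 0) (nat_lit 8816905108) (nat_lit 84) (nat_lit 12672092203) (nat_lit 84) (nat_lit 11352580375) (nat_lit 4) (nat_lit 4) (nat_lit 5) (nat_lit 5) (nat_lit 5) (nat_lit 4) (nat_lit 383) (nat_lit 241) (nat_lit 237)) (XT.lf (nat_lit 0) (nat_lit 12588322779) (nat_lit 84) (nat_lit 11410804815) (nat_lit 84) (nat_lit 9785833456) (nat_lit 4) (nat_lit 4) (nat_lit 5) (nat_lit 5) (nat_lit 5) (nat_lit 4) (nat_lit 384) (nat_lit 241) (nat_lit 236)))))) (XT.nd (nat_lit 564) (nat_lit 168)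 (nat_lit 0) (XT.nd (nat_lit 282) (nat_lit 0) (nat_lit 0) (XT.nd (nat_lit 94) (nat_lit 0) (nat_lit 0) (XT.lf (nat_lit 0) (nat_lit 16409812388) (nat_lit 84) (nat_lit 10135225378) (nat_lit 84) (nat_lit 8213979014) (nat_lit 4) (nat_lit 4) (nat_lit 5) (nat_lit 5) (nat_lit 5) (nat_lit 4) (nat_lit 385) (nat_lit 241) (nat_lit 235)) (XT.nd (nat_lit 94) (nat_lit 0) (nat_lit 0) (XT.lf (nat_lit 0) (nat_lit 20284935966) (nat_lit 84) (nat_lit 8844164919) (nat_lit 84) (nat_lit 6635551914) (nat_lit 4) (nat_lit 4) (nat_lit 5) (nat_lit 5) (nat_lit 5) (nat_lit 4) (nat_lit 386) (nat_lit 241) (nat_lit 234)) (XT.lf (nat_lit 0) (nat_lit 24217305533) (nat_lit 84) (nat_lit 7536420034) (nat_lit 84) (nat_lit 5049080899) (nat_lit 4) (nat_lit 4) (nat_lit 5) (nat_lit 5) (nat_lit 5) (nat_lit 4) (nat_lit 387) (nat_lit 241) (nat_lit 233)))) (XT.nd (nat_lit 94) (nat_lit 0) (nat_lit 0) (XT.lf (nat_lit 0) (nat_lit 28210586469)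 (nat_lit 84) (nat_lit 6210771768) (nat_lit 84) (nat_lit 3453087211) (nat_lit 4) (nat_lit 4) (nat_lit 5) (nat_lit 5) (nat_lit 5) (nat_lit 4) (nat_lit 388) (nat_lit 241) (nat_lit 232)) (XT.nd (nat_lit 94) (nat_lit 0) (nat_lit 0) (XT.lf (nat_lit 0) (nat_lit 32268500930) (nat_lit 84) (nat_lit 4865984478) (nat_lit 84) (nat_lit 1846083217) (nat_lit 4) (nat_lit 4) (nat_lit 5) (nat_lit 5) (nat_lit 5) (nat_lit 4) (nat_lit 389) (nat_lit 241) (nat_lit 231)) (XT.lf (nat_lit 0) (nat_lit 36394831319) (nat_lit 84) (nat_lit 3500804681) (nat_lit 84) (nat_lit 226571020) (nat_lit 4) (nat_lit 4) (nat_lit 5) (nat_lit 5) (nat_lit 5) (nat_lit 4) (nat_lit 390) (nat_lit 241) (nat_lit 230))))) (XT.nd (nat_lit 282) (nat_lit 0) (nat_lit 0) (XT.nd (nat_lit 94) (nat_lit 84) (nat_lit 0) (XT.lf (nat_lit 0) (nat_lit 1378611846) (nat_lit 168) (nat_lit 720958159) (nat_lit 84) (nat_lit 39200422079) (nat_lit 3) (nat_lit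 5) (nat_lit 5) (nat_lit 5) (nat_lit 4) (nat_lit 4) (nat_lit 391) (nat_lit 241) (nat_lit 229)) (XT.nd (nat_lit 94) (nat_lit 0) (nat_lit 0) (XT.lf (nat_lit 0) (nat_lit 2369291613) (nat_lit 84) (nat_lit 648669139) (nat_lit 168) (nat_lit 39496690895) (nat_lit 2) (nat_lit 5) (nat_lit 3) (nat_lit 5) (nat_lit 4) (nat_lit 4) (nat_lit 392) (nat_lit 241) (nat_lit 228)) (XT.lf (nat_lit 0) (nat_lit 4690038700) (nat_lit 168) (nat_lit 38259764992) (nat_lit 0) (nat_lit 817817311) (nat_lit 2) (nat_lit 5) (nat_lit 4) (nat_lit 4) (nat_lit 2) (nat_lit 4) (nat_lit 393) (nat_lit 241) (nat_lit 227)))) (XT.nd (nat_lit 94) (nat_lit 0) (nat_lit 0) (XT.lf (nat_lit 0) (nat_lit 6387513171) (nat_lit 168) (nat_lit 36375866180) (nat_lit 0) (nat_lit 2296964321) (nat_lit 2) (nat_lit 5) (nat_lit 4) (nat_lit 4) (nat_lit 2) (nat_lit 4) (nat_lit 394) (nat_lit 241) (nat_lit 226)) (XT.nd (nat_lit 94) (nat_lit 0) (nat_lit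 0) (XT.lf (nat_lit 0) (nat_lit 8105531511) (nat_lit 168) (nat_lit 34485472730) (nat_lit 0) (nat_lit 3803219849) (nat_lit 2) (nat_lit 5) (nat_lit 4) (nat_lit 4) (nat_lit 2) (nat_lit 4) (nat_lit 395) (nat_lit 241) (nat_lit 225)) (XT.lf (nat_lit 0) (nat_lit 9845695095) (nat_lit 168) (nat_lit 32586822596) (nat_lit 0) (nat_lit 5337987881) (nat_lit 2) (nat_lit 5) (nat_lit 4) (nat_lit 4) (nat_lit 2) (nat_lit 4) (nat_lit 396) (nat_lit 241) (nat_lit 224))))))) (XT.nd (nat_lit 1128) (nat_lit 84) (nat_lit 0) (XT.nd (nat_lit 564) (nat_lit 0) (nat_lit 0) (XT.nd (nat_lit 282) (nat_lit 0) (nat_lit 0) (XT.nd (nat_lit 94) (nat_lit 0) (nat_lit 0) (XT.lf (nat_lit 0) (nat_lit 11609625936) (nat_lit 168) (nat_lit 30678146037) (nat_lit 0) (nat_lit 6902698983) (nat_lit 2) (nat_lit 5) (nat_lit 4) (nat_lit 4) (nat_lit 2) (nat_lit 4) (nat_lit 397) (nat_lit 241) (nat_lit 223)) (XT.nd (nat_lit 94) (nat_lit 0)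 (nat_lit 0) (XT.lf (nat_lit 0) (nat_lit 13398968202) (nat_lit 168) (nat_lit 28757663968) (nat_lit 0) (nat_lit 8498811629) (nat_lit 2) (nat_lit 5) (nat_lit 4) (nat_lit 4) (nat_lit 2) (nat_lit 4) (nat_lit 398) (nat_lit 241) (nat_lit 222)) (XT.lf (nat_lit 0) (nat_lit 15215389750) (nat_lit 168) (nat_lit 26823586298) (nat_lit 0) (nat_lit 10127813564) (nat_lit 2) (nat_lit 5) (nat_lit 4) (nat_lit 4) (nat_lit 2) (nat_lit 4) (nat_lit 399) (nat_lit 241) (nat_lit 221)))) (XT.nd (nat_lit 94) (nat_lit 0) (nat_lit 0) (XT.lf (nat_lit 0) (nat_lit 17060583672) (nat_lit 168) (nat_lit 24874110264) (nat_lit 0) (nat_lit 11791223187) (nat_lit 2) (nat_lit 5) (nat_lit 4) (nat_lit 4) (nat_lit 2) (nat_lit 4) (nat_lit 400) (nat_lit 241) (nat_lit 220)) (XT.nd (nat_lit 94) (nat_lit 0) (nat_lit 0) (XT.lf (nat_lit 0) (nat_lit 18936269885) (nat_lit 168) (nat_lit 22907418749) (nat_lit 0) (nat_lit 13490590971) (nat_lit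 2) (nat_lit 5) (nat_lit 4) (nat_lit 4) (nat_lit 2) (nat_lit 4) (nat_lit 401) (nat_lit 241) (nat_lit 219)) (XT.lf (nat_lit 0) (nat_lit 20844196723) (nat_lit 168) (nat_lit 20921678592) (nat_lit 0) (nat_lit 15227500904) (nat_lit 2) (nat_lit 5) (nat_lit 4) (nat_lit 4) (nat_lit 2) (nat_lit 4) (nat_lit 402) (nat_lit 241) (nat_lit 218))))) (XT.nd (nat_lit 282) (nat_lit 0) (nat_lit 0) (XT.nd (nat_lit 94) (nat_lit 0) (nat_lit 0) (XT.lf (nat_lit 0) (nat_lit 22786142574) (nat_lit 168) (nat_lit 18915038875) (nat_lit 0) (nat_lit 17003571970) (nat_lit 2) (nat_lit 5) (nat_lit 4) (nat_lit 4) (nat_lit 2) (nat_lit 4) (nat_lit 403) (nat_lit 241) (nat_lit 217)) (XT.nd (nat_lit 94) (nat_lit 0) (nat_lit 0) (XT.lf (nat_lit 0) (nat_lit 24763917535) (nat_lit 168) (nat_lit 16885629199) (nat_lit 0) (nat_lit 18820459651) (nat_lit 2) (nat_lit 5) (nat_lit 4) (nat_lit 4) (nat_lit 2) (nat_lit 4) (nat_lit 404) (nat_lit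 241) (nat_lit 216)) (XT.lf (nat_lit 0) (nat_lit 26779365100) (nat_lit 168) (nat_lit 14831557941) (nat_lit 0) (nat_lit 20679857477) (nat_lit 2) (nat_lit 5) (nat_lit 4) (nat_lit 4) (nat_lit 2) (nat_lit 4) (nat_lit 405) (nat_lit 241) (nat_lit 215)))) (XT.nd (nat_lit 94) (nat_lit 0) (nat_lit 0) (XT.lf (nat_lit 0) (nat_lit 28834363877) (nat_lit 168) (nat_lit 12750910493) (nat_lit 0) (nat_lit 22583498603) (nat_lit 2) (nat_lit 5) (nat_lit 4) (nat_lit 4) (nat_lit 2) (nat_lit 4) (nat_lit 406) (nat_lit 241) (nat_lit 214)) (XT.nd (nat_lit 94) (nat_lit 0) (nat_lit 0) (XT.lf (nat_lit 0) (nat_lit 30930829339) (nat_lit 168) (nat_lit 10641747473) (nat_lit 0) (nat_lit 24533157421) (nat_lit 2) (nat_lit 5) (nat_lit 4) (nat_lit 4) (nat_lit 2) (nat_lit 4) (nat_lit 407) (nat_lit 241) (nat_lit 213)) (XT.lf (nat_lit 0) (nat_lit 33070715614) (nat_lit 168) (nat_lit 8502102920) (nat_lit 0) (nat_lit 26530651217)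 (nat_lit 2) (nat_lit 5) (nat_lit 4) (nat_lit 4) (nat_lit 2) (nat_lit 4) (nat_lit 408) (nat_lit 241) (nat_lit 212)))))) (XT.nd (nat_lit 564) (nat_lit 0) (nat_lit 0) (XT.nd (nat_lit 282) (nat_lit 84) (nat_lit 0) (XT.nd (nat_lit 94) (nat_lit 0) (nat_lit 0) (XT.lf (nat_lit 0) (nat_lit 35256017298) (nat_lit 168) (nat_lit 6329982460) (nat_lit 0) (nat_lit 28577841864) (nat_lit 2) (nat_lit 5) (nat_lit 4) (nat_lit 4) (nat_lit 2) (nat_lit 4) (nat_lit 409) (nat_lit 241) (nat_lit 211)) (XT.nd (nat_lit 94) (nat_lit 0) (nat_lit 0) (XT.lf (nat_lit 0) (nat_lit 37488771321) (nat_lit 168) (nat_lit 4123361452) (nat_lit 0) (nat_lit 30676637560) (nat_lit 2) (nat_lit 5) (nat_lit 4) (nat_lit 4) (nat_lit 2) (nat_lit 4) (nat_lit 410) (nat_lit 241) (nat_lit 210)) (XT.lf (nat_lit 0) (nat_lit 39771058845) (nat_lit 168) (nat_lit 1880183091) (nat_lit 0) (nat_lit 32828994601) (nat_lit 2) (nat_lit 5) (nat_lit 4)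 (nat_lit 4) (nat_lit 2) (nat_lit 4) (nat_lit 411) (nat_lit 241) (nat_lit 209)))) (XT.nd (nat_lit 94) (nat_lit 0) (nat_lit 0) (XT.lf (nat_lit 0) (nat_lit 409902111) (nat_lit 84) (nat_lit 41699171368) (nat_lit 84) (nat_lit 34631083377) (nat_lit 1) (nat_lit 4) (nat_lit 2) (nat_lit 5) (nat_lit 2) (nat_lit 4) (nat_lit 412) (nat_lit 241) (nat_lit 208)) (XT.nd (nat_lit 94) (nat_lit 0) (nat_lit 0) (XT.lf (nat_lit 0) (nat_lit 2780261286) (nat_lit 84) (nat_lit 41740111121) (nat_lit 84) (nat_lit 34549788652) (nat_lit 1) (nat_lit 4) (nat_lit 2) (nat_lit 5) (nat_lit 2) (nat_lit 4) (nat_lit 413) (nat_lit 241) (nat_lit 207)) (XT.lf (nat_lit 0) (nat_lit 5194443434) (nat_lit 84) (nat_lit 41793724611) (nat_lit 84) (nat_lit 34484842997) (nat_lit 1) (nat_lit 4) (nat_lit 2) (nat_lit 5) (nat_lit 2) (nat_lit 4) (nat_lit 414) (nat_lit 241) (nat_lit 206))))) (XT.nd (nat_lit 50572) (nat_lit 0) (nat_lit 252)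 (XT.nd (nat_lit 94) (nat_lit 0) (nat_lit 0) (XT.lf (nat_lit 0) (nat_lit 7654698826) (nat_lit 84) (nat_lit 41860061811) (nat_lit 84) (nat_lit 34436185877) (nat_lit 1) (nat_lit 4) (nat_lit 2) (nat_lit 5) (nat_lit 2) (nat_lit 4) (nat_lit 415) (nat_lit 241) (nat_lit 205)) (XT.nd (nat_lit 50384) (nat_lit 0) (nat_lit 336) (XT.lf (nat_lit 0) (nat_lit 10163320679) (nat_lit 84) (nat_lit 41939184554) (nat_lit 84) (nat_lit 34403771937) (nat_lit 1) (nat_lit 4) (nat_lit 2) (nat_lit 5) (nat_lit 2) (nat_lit 4) (nat_lit 416) (nat_lit 241) (nat_lit 204)) (XT.lf (nat_lit 0) (nat_lit 3779718241) (nat_lit 168) (nat_lit 6327183071) (nat_lit 0) (nat_lit 3779718241) (nat_lit 5) (nat_lit 5) (nat_lit 7) (nat_lit 4) (nat_lit 5) (nat_lit 4) (nat_lit 377) (nat_lit 242) (nat_lit 242)))) (XT.nd (nat_lit 188) (nat_lit 84) (nat_lit 0) (XT.nd (nat_lit 94) (nat_lit 0) (nat_lit 0) (XT.lf (nat_lit 0) (nat_lit 9843389405)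 (nat_lit 168) (nat_lit 9221086040) (nat_lit 0) (nat_lit 9487555761) (nat_lit 5) (nat_lit 5) (nat_lit 7) (nat_lit 4) (nat_lit 5) (nat_lit 4) (nat_lit 378) (nat_lit 242) (nat_lit 241)) (XT.lf (nat_lit 0) (nat_lit 12149951191) (nat_lit 168) (nat_lit 5757670541) (nat_lit 0) (nat_lit 11448983073) (nat_lit 5) (nat_lit 5) (nat_lit 7) (nat_lit 4) (nat_lit 5) (nat_lit 4) (nat_lit 379) (nat_lit 242) (nat_lit 240))) (XT.nd (nat_lit 94) (nat_lit 84) (nat_lit 0) (XT.lf (nat_lit 0) (nat_lit 14481271800) (nat_lit 168) (nat_lit 2260891380) (nat_lit 0) (nat_lit 13445546675) (nat_lit 5) (nat_lit 5) (nat_lit 7) (nat_lit 4) (nat_lit 5) (nat_lit 4) (nat_lit 380) (nat_lit 242) (nat_lit 239)) (XT.lf (nat_lit 0) (nat_lit 1298676240) (nat_lit 84) (nat_lit 15553731055) (nat_lit 84) (nat_lit 14193314361) (nat_lit 4) (nat_lit 4) (nat_lit 5) (nat_lit 5) (nat_lit 5) (nat_lit 4) (nat_lit 381) (nat_lit 242) (nat_lit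 238))))))))
noncomputable def xc7 : XT := (XT.nd (nat_lit 2256) (nat_lit 84) (nat_lit 0) (XT.nd (nat_lit 1128) (nat_lit 0) (nat_lit 0) (XT.nd (nat_lit 564) (nat_lit 168) (nat_lit 0) (XT.nd (nat_lit 282) (nat_lit 0) (nat_lit 0) (XT.nd (nat_lit 94) (nat_lit 0) (nat_lit 0) (XT.lf (nat_lit 0) (nat_lit 4945469717) (nat_lit 84) (nat_lit 14330496682) (nat_lit 84) (nat_lit 12655151211) (nat_lit 4) (nat_lit 4) (nat_lit 5) (nat_lit 5) (nat_lit 5) (nat_lit 4) (nat_lit 382) (nat_lit 242) (nat_lit 237)) (XT.nd (nat_lit 94) (nat_lit 0) (nat_lit 0) (XT.lf (nat_lit 0) (nat_lit 8636399682) (nat_lit 84) (nat_lit 13094918947) (nat_lit 84) (nat_lit 11114113945) (nat_lit 4) (nat_lit 4) (nat_lit 5) (nat_lit 5) (nat_lit 5) (nat_lit 4) (nat_lit 383) (nat_lit 242) (nat_lit 236)) (XT.lf (nat_lit 0) (nat_lit 12374906467) (nat_lit 84) (nat_lit 11845846163) (nat_lit 84) (nat_lit 9568766155) (nat_lit 4) (nat_lit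 4) (nat_lit 5) (nat_lit 5) (nat_lit 5) (nat_lit 4) (nat_lit 384) (nat_lit 242) (nat_lit 235)))) (XT.nd (nat_lit 94) (nat_lit 0) (nat_lit 0) (XT.lf (nat_lit 0) (nat_lit 16164474752) (nat_lit 84) (nat_lit 10582114062) (nat_lit 84) (nat_lit 8017667415) (nat_lit 4) (nat_lit 4) (nat_lit 5) (nat_lit 5) (nat_lit 5) (nat_lit 4) (nat_lit 385) (nat_lit 242) (nat_lit 234)) (XT.nd (nat_lit 94) (nat_lit 0) (nat_lit 0) (XT.lf (nat_lit 0) (nat_lit 20008636812) (nat_lit 84) (nat_lit 9302544715) (nat_lit 84) (nat_lit 6459371937) (nat_lit 4) (nat_lit 4) (nat_lit 5) (nat_lit 5) (nat_lit 5) (nat_lit 4) (nat_lit 386) (nat_lit 242) (nat_lit 233)) (XT.lf (nat_lit 0) (nat_lit 23910975809) (nat_lit 84) (nat_lit 8005945429) (nat_lit 84) (nat_lit 4892427229) (nat_lit 4) (nat_lit 4) (nat_lit 5) (nat_lit 5) (nat_lit 5) (nat_lit 4) (nat_lit 387) (nat_lit 242) (nat_lit 232))))) (XT.nd (nat_lit 282) (nat_lit 168)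 (nat_lit 0) (XT.nd (nat_lit 94) (nat_lit 0) (nat_lit 0) (XT.lf (nat_lit 0) (nat_lit 27875129131) (nat_lit 84) (nat_lit 6691107636) (nat_lit 84) (nat_lit 3315372732) (nat_lit 4) (nat_lit 4) (nat_lit 5) (nat_lit 5) (nat_lit 5) (nat_lit 4) (nat_lit 388) (nat_lit 242) (nat_lit 231)) (XT.nd (nat_lit 94) (nat_lit 0) (nat_lit 0) (XT.lf (nat_lit 0) (nat_lit 31904791785) (nat_lit 84) (nat_lit 5356805772) (nat_lit 84) (nat_lit 1726738468) (nat_lit 4) (nat_lit 4) (nat_lit 5) (nat_lit 5) (nat_lit 5) (nat_lit 4) (nat_lit 389) (nat_lit 242) (nat_lit 230)) (XT.lf (nat_lit 0) (nat_lit 36003719838) (nat_lit 84) (nat_lit 4001796125) (nat_lit 84) (nat_lit 125043661) (nat_lit 4) (nat_lit 4) (nat_lit 5) (nat_lit 5) (nat_lit 5) (nat_lit 4) (nat_lit 390) (nat_lit 242) (nat_lit 229)))) (XT.nd (nat_lit 94) (nat_lit 84) (nat_lit 0) (XT.lf (nat_lit 0) (nat_lit 1461160182) (nat_lit 168) (nat_lit 1148403988) (nat_lit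 84) (nat_lit 38699322222) (nat_lit 3) (nat_lit 5) (nat_lit 5) (nat_lit 5) (nat_lit 4) (nat_lit 4) (nat_lit 391) (nat_lit 242) (nat_lit 228)) (XT.nd (nat_lit 94) (nat_lit 0) (nat_lit 0) (XT.lf (nat_lit 0) (nat_lit 1906355136) (nat_lit 84) (nat_lit 1173137247) (nat_lit 168) (nat_lit 39444751635) (nat_lit 2) (nat_lit 5) (nat_lit 3) (nat_lit 5) (nat_lit 4) (nat_lit 4) (nat_lit 392) (nat_lit 242) (nat_lit 227)) (XT.lf (nat_lit 0) (nat_lit 4730083814) (nat_lit 168) (nat_lit 38753440298) (nat_lit 0) (nat_lit 294400489) (nat_lit 2) (nat_lit 5) (nat_lit 4) (nat_lit 4) (nat_lit 2) (nat_lit 4) (nat_lit 393) (nat_lit 242) (nat_lit 226)))))) (XT.nd (nat_lit 564) (nat_lit 0) (nat_lit 0) (XT.nd (nat_lit 282) (nat_lit 0) (nat_lit 0) (XT.nd (nat_lit 94) (nat_lit 0) (nat_lit 0) (XT.lf (nat_lit 0) (nat_lit 6411764174) (nat_lit 168) (nat_lit 36895098465) (nat_lit 0) (nat_lit 1764318036) (nat_lit 2) (nat_lit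 5) (nat_lit 4) (nat_lit 4) (nat_lit 2) (nat_lit 4) (nat_lit 394) (nat_lit 242) (nat_lit 225)) (XT.nd (nat_lit 94) (nat_lit 0) (nat_lit 0) (XT.lf (nat_lit 0) (nat_lit 8114463299) (nat_lit 168) (nat_lit 35029493548) (nat_lit 0) (nat_lit 3261621611) (nat_lit 2) (nat_lit 5) (nat_lit 4) (nat_lit 4) (nat_lit 2) (nat_lit 4) (nat_lit 395) (nat_lit 242) (nat_lit 224)) (XT.lf (nat_lit 0) (nat_lit 9839768284) (nat_lit 168) (nat_lit 33154886610) (nat_lit 0) (nat_lit 4787706857) (nat_lit 2) (nat_lit 5) (nat_lit 4) (nat_lit 4) (nat_lit 2) (nat_lit 4) (nat_lit 396) (nat_lit 242) (nat_lit 223)))) (XT.nd (nat_lit 94) (nat_lit 0) (nat_lit 0) (XT.lf (nat_lit 0) (nat_lit 11589287293) (nat_lit 168) (nat_lit 31269530318) (nat_lit 0) (nat_lit 6343996245) (nat_lit 2) (nat_lit 5) (nat_lit 4) (nat_lit 4) (nat_lit 2) (nat_lit 4) (nat_lit 397) (nat_lit 242) (nat_lit 222)) (XT.nd (nat_lit 94) (nat_lit 0) (nat_lit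 0) (XT.lf (nat_lit 0) (nat_lit 13364651062) (nat_lit 168) (nat_lit 29371667325) (nat_lit 0) (nat_lit 7931940401) (nat_lit 2) (nat_lit 5) (nat_lit 4) (nat_lit 4) (nat_lit 2) (nat_lit 4) (nat_lit 398) (nat_lit 242) (nat_lit 221)) (XT.lf (nat_lit 0) (nat_lit 15167514415) (nat_lit 168) (nat_lit 27459528623) (nat_lit 0) (nat_lit 9553019455) (nat_lit 2) (nat_lit 5) (nat_lit 4) (nat_lit 4) (nat_lit 2) (nat_lit 4) (nat_lit 399) (nat_lit 242) (nat_lit 220))))) (XT.nd (nat_lit 282) (nat_lit 0) (nat_lit 0) (XT.nd (nat_lit 94) (nat_lit 0) (nat_lit 0) (XT.lf (nat_lit 0) (nat_lit 16999557810) (nat_lit 168) (nat_lit 25531331898) (nat_lit 0) (nat_lit 11208744421) (nat_lit 2) (nat_lit 5) (nat_lit 4) (nat_lit 4) (nat_lit 2) (nat_lit 4) (nat_lit 400) (nat_lit 242) (nat_lit 219)) (XT.nd (nat_lit 94) (nat_lit 0) (nat_lit 0) (XT.lf (nat_lit 0) (nat_lit 18862488903) (nat_lit 168) (nat_lit 23585279868) (nat_lit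 0) (nat_lit 12900658610) (nat_lit 2) (nat_lit 5) (nat_lit 4) (nat_lit 4) (nat_lit 2) (nat_lit 4) (nat_lit 401) (nat_lit 242) (nat_lit 218)) (XT.lf (nat_lit 0) (nat_lit 20758044141) (nat_lit 168) (nat_lit 21619558611) (nat_lit 0) (nat_lit 14630339063) (nat_lit 2) (nat_lit 5) (nat_lit 4) (nat_lit 4) (nat_lit 2) (nat_lit 4) (nat_lit 402) (nat_lit 242) (nat_lit 217)))) (XT.nd (nat_lit 94) (nat_lit 0) (nat_lit 0) (XT.lf (nat_lit 0) (nat_lit 22687990381) (nat_lit 168) (nat_lit 19632335867) (nat_lit 0) (nat_lit 16399398022) (nat_lit 2) (nat_lit 5) (nat_lit 4) (nat_lit 4) (nat_lit 2) (nat_lit 4) (nat_lit 403) (nat_lit 242) (nat_lit 216)) (XT.nd (nat_lit 94) (nat_lit 0) (nat_lit 0) (XT.lf (nat_lit 0) (nat_lit 24654126533) (nat_lit 168) (nat_lit 17621759336) (nat_lit 0) (nat_lit 18209484436) (nat_lit 2) (nat_lit 5) (nat_lit 4) (nat_lit 4) (nat_lit 2) (nat_lit 4) (nat_lit 404) (nat_lit 242) (nat_lit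 215)) (XT.lf (nat_lit 0) (nat_lit 26658285244) (nat_lit 168) (nat_lit 15585954951) (nat_lit 0) (nat_lit 20062285496) (nat_lit 2) (nat_lit 5) (nat_lit 4) (nat_lit 4) (nat_lit 2) (nat_lit 4) (nat_lit 405) (nat_lit 242) (nat_lit 214))))))) (XT.nd (nat_lit 51136) (nat_lit 0) (nat_lit 252) (XT.nd (nat_lit 564) (nat_lit 84) (nat_lit 0) (XT.nd (nat_lit 282) (nat_lit 0) (nat_lit 0) (XT.nd (nat_lit 94) (nat_lit 0) (nat_lit 0) (XT.lf (nat_lit 0) (nat_lit 28702334599) (nat_lit 168) (nat_lit 13523025129) (nat_lit 0) (nat_lit 21959528206) (nat_lit 2) (nat_lit 5) (nat_lit 4) (nat_lit 4) (nat_lit 2) (nat_lit 4) (nat_lit 406) (nat_lit 242) (nat_lit 213)) (XT.nd (nat_lit 94) (nat_lit 0) (nat_lit 0) (XT.lf (nat_lit 0) (nat_lit 30788179866) (nat_lit 168) (nat_lit 11431047003) (nat_lit 0) (nat_lit 23902980995) (nat_lit 2) (nat_lit 5) (nat_lit 4) (nat_lit 4) (nat_lit 2) (nat_lit 4) (nat_lit 407) (nat_lit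 242) (nat_lit 212)) (XT.lf (nat_lit 0) (nat_lit 32917765271) (nat_lit 168) (nat_lit 9308070631) (nat_lit 0) (nat_lit 25894455364) (nat_lit 2) (nat_lit 5) (nat_lit 4) (nat_lit 4) (nat_lit 2) (nat_lit 4) (nat_lit 408) (nat_lit 242) (nat_lit 211)))) (XT.nd (nat_lit 94) (nat_lit 0) (nat_lit 0) (XT.lf (nat_lit 0) (nat_lit 35093075812) (nat_lit 168) (nat_lit 7152117175) (nat_lit 0) (nat_lit 27935807576) (nat_lit 2) (nat_lit 5) (nat_lit 4) (nat_lit 4) (nat_lit 2) (nat_lit 4) (nat_lit 409) (nat_lit 242) (nat_lit 210)) (XT.nd (nat_lit 94) (nat_lit 0) (nat_lit 0) (XT.lf (nat_lit 0) (nat_lit 37316139104) (nat_lit 168) (nat_lit 4961177063) (nat_lit 0) (nat_lit 30028940386) (nat_lit 2) (nat_lit 5) (nat_lit 4) (nat_lit 4) (nat_lit 2) (nat_lit 4) (nat_lit 410) (nat_lit 242) (nat_lit 209)) (XT.lf (nat_lit 0) (nat_lit 39589027277) (nat_lit 168) (nat_lit 2733208106) (nat_lit 0) (nat_lit 32175804812)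 (nat_lit 2) (nat_lit 5) (nat_lit 4) (nat_lit 4) (nat_lit 2) (nat_lit 4) (nat_lit 411) (nat_lit 242) (nat_lit 208))))) (XT.nd (nat_lit 282) (nat_lit 0) (nat_lit 0) (XT.nd (nat_lit 94) (nat_lit 84) (nat_lit 0) (XT.lf (nat_lit 0) (nat_lit 41913858900) (nat_lit 168) (nat_lit 466133607) (nat_lit 0) (nat_lit 34378401957) (nat_lit 2) (nat_lit 5) (nat_lit 4) (nat_lit 4) (nat_lit 2) (nat_lit 4) (nat_lit 412) (nat_lit 242) (nat_lit 207)) (XT.nd (nat_lit 94) (nat_lit 0) (nat_lit 0) (XT.lf (nat_lit 0) (nat_lit 1880038166) (nat_lit 84) (nat_lit 42431413005) (nat_lit 84) (nat_lit 34777396917) (nat_lit 1) (nat_lit 4) (nat_lit 2) (nat_lit 5) (nat_lit 2) (nat_lit 4) (nat_lit 413) (nat_lit 242) (nat_lit 206)) (XT.lf (nat_lit 0) (nat_lit 4280056650) (nat_lit 84) (nat_lit 42490472921) (nat_lit 84) (nat_lit 34721462512) (nat_lit 1) (nat_lit 4) (nat_lit 2) (nat_lit 5) (nat_lit 2) (nat_lit 4) (nat_lit 414)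 (nat_lit 242) (nat_lit 205)))) (XT.nd (nat_lit 94) (nat_lit 0) (nat_lit 0) (XT.lf (nat_lit 0) (nat_lit 6726574249) (nat_lit 84) (nat_lit 42562092785) (nat_lit 84) (nat_lit 34681545693) (nat_lit 1) (nat_lit 4) (nat_lit 2) (nat_lit 5) (nat_lit 2) (nat_lit 4) (nat_lit 415) (nat_lit 242) (nat_lit 204)) (XT.nd (nat_lit 94) (nat_lit 0) (nat_lit 0) (XT.lf (nat_lit 0) (nat_lit 9221871375) (nat_lit 84) (nat_lit 42646339354) (nat_lit 84) (nat_lit 34657609251) (nat_lit 1) (nat_lit 4) (nat_lit 2) (nat_lit 5) (nat_lit 2) (nat_lit 4) (nat_lit 416) (nat_lit 242) (nat_lit 203)) (XT.lf (nat_lit 0) (nat_lit 11768273906) (nat_lit 84) (nat_lit 42743291154) (nat_lit 84) (nat_lit 34649630877) (nat_lit 1) (nat_lit 4) (nat_lit 2) (nat_lit 5) (nat_lit 2) (nat_lit 4) (nat_lit 417) (nat_lit 242) (nat_lit 202)))))) (XT.nd (nat_lit 564) (nat_lit 84) (nat_lit 0) (XT.nd (nat_lit 282) (nat_lit 0) (nat_lit 0) (XT.nd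 (nat_lit 94) (nat_lit 0) (nat_lit 0) (XT.lf (nat_lit 0) (nat_lit 1721474159) (nat_lit 168) (nat_lit 9701682351) (nat_lit 0) (nat_lit 1721474159) (nat_lit 5) (nat_lit 5) (nat_lit 7) (nat_lit 4) (nat_lit 5) (nat_lit 4) (nat_lit 375) (nat_lit 243) (nat_lit 243)) (XT.nd (nat_lit 94) (nat_lit 0) (nat_lit 0) (XT.lf (nat_lit 0) (nat_lit 5662828029) (nat_lit 168) (nat_lit 16060711026) (nat_lit 0) (nat_lit 5295963543) (nat_lit 5) (nat_lit 5) (nat_lit 7) (nat_lit 4) (nat_lit 5) (nat_lit 4) (nat_lit 376) (nat_lit 243) (nat_lit 242)) (XT.lf (nat_lit 0) (nat_lit 7901836331) (nat_lit 168) (nat_lit 12693096557) (nat_lit 0) (nat_lit 7179138202) (nat_lit 5) (nat_lit 5) (nat_lit 7) (nat_lit 4) (nat_lit 5) (nat_lit 4) (nat_lit 377) (nat_lit 243) (nat_lit 241)))) (XT.nd (nat_lit 94) (nat_lit 0) (nat_lit 0) (XT.lf (nat_lit 0) (nat_lit 10162060215) (nat_lit 168) (nat_lit 9297382327) (nat_lit 0) (nat_lit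 9094227611) (nat_lit 5) (nat_lit 5) (nat_lit 7) (nat_lit 4) (nat_lit 5) (nat_lit 4) (nat_lit 378) (nat_lit 243) (nat_lit 240)) (XT.nd (nat_lit 94) (nat_lit 0) (nat_lit 0) (XT.lf (nat_lit 0) (nat_lit 12445606446) (nat_lit 168) (nat_lit 5870403174) (nat_lit 0) (nat_lit 11043016835) (nat_lit 5) (nat_lit 5) (nat_lit 7) (nat_lit 4) (nat_lit 5) (nat_lit 4) (nat_lit 379) (nat_lit 243) (nat_lit 239)) (XT.lf (nat_lit 0) (nat_lit 14754603529) (nat_lit 168) (nat_lit 2408964794) (nat_lit 0) (nat_lit 13027322349) (nat_lit 5) (nat_lit 5) (nat_lit 7) (nat_lit 4) (nat_lit 5) (nat_lit 4) (nat_lit 380) (nat_lit 243) (nat_lit 238))))) (XT.nd (nat_lit 282) (nat_lit 0) (nat_lit 0) (XT.nd (nat_lit 94) (nat_lit 0) (nat_lit 0) (XT.lf (nat_lit 0) (nat_lit 1112575145) (nat_lit 84) (nat_lit 15989665428) (nat_lit 84) (nat_lit 13947455471) (nat_lit 4) (nat_lit 4) (nat_lit 5) (nat_lit 5) (nat_lit 5) (nat_lit 4)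 (nat_lit 381) (nat_lit 243) (nat_lit 237)) (XT.nd (nat_lit 94) (nat_lit 0) (nat_lit 0) (XT.lf (nat_lit 0) (nat_lit 4725437499) (nat_lit 84) (nat_lit 14779024311) (nat_lit 84) (nat_lit 12431354823) (nat_lit 4) (nat_lit 4) (nat_lit 5) (nat_lit 5) (nat_lit 5) (nat_lit 4) (nat_lit 382) (nat_lit 243) (nat_lit 236)) (XT.lf (nat_lit 0) (nat_lit 8383456578) (nat_lit 84) (nat_lit 13555661180) (nat_lit 84) (nat_lit 10911716687) (nat_lit 4) (nat_lit 4) (nat_lit 5) (nat_lit 5) (nat_lit 5) (nat_lit 4) (nat_lit 383) (nat_lit 243) (nat_lit 235)))) (XT.nd (nat_lit 188) (nat_lit 0) (nat_lit 0) (XT.nd (nat_lit 94) (nat_lit 0) (nat_lit 0) (XT.lf (nat_lit 0) (nat_lit 12090042039) (nat_lit 84) (nat_lit 12318435733) (nat_lit 84) (nat_lit 9387124599) (nat_lit 4) (nat_lit 4) (nat_lit 5) (nat_lit 5) (nat_lit 5) (nat_lit 4) (nat_lit 384) (nat_lit 243) (nat_lit 234)) (XT.lf (nat_lit 0) (nat_lit 15848648806)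 (nat_lit 84) (nat_lit 11066194744) (nat_lit 84) (nat_lit 7856157480) (nat_lit 4) (nat_lit 4) (nat_lit 5) (nat_lit 5) (nat_lit 5) (nat_lit 4) (nat_lit 385) (nat_lit 243) (nat_lit 233))) (XT.nd (nat_lit 94) (nat_lit 0) (nat_lit 0) (XT.lf (nat_lit 0) (nat_lit 19662780297) (nat_lit 84) (nat_lit 9797770996) (nat_lit 84) (nat_lit 6317388309) (nat_lit 4) (nat_lit 4) (nat_lit 5) (nat_lit 5) (nat_lit 5) (nat_lit 4) (nat_lit 386) (nat_lit 243) (nat_lit 232)) (XT.lf (nat_lit 0) (nat_lit 23535991680) (nat_lit 84) (nat_lit 8511982183) (nat_lit 84) (nat_lit 4769382792) (nat_lit 4) (nat_lit 4) (nat_lit 5) (nat_lit 5) (nat_lit 5) (nat_lit 4) (nat_lit 387) (nat_lit 243) (nat_lit 231))))))))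
noncomputable def xc8 : XT := (XT.nd (nat_lit 2256) (nat_lit 84) (nat_lit 0) (XT.nd (nat_lit 1128) (nat_lit 0) (nat_lit 0) (XT.nd (nat_lit 564) (nat_lit 0) (nat_lit 0) (XT.nd (nat_lit 282) (nat_lit 168) (nat_lit 0) (XT.nd (nat_lit 94) (nat_lit 0) (nat_lit 0) (XT.lf (nat_lit 0) (nat_lit 27471893195) (nat_lit 84) (nat_lit 7207629816) (nat_lit 84) (nat_lit 3210698026) (nat_lit 4) (nat_lit 4) (nat_lit 5) (nat_lit 5) (nat_lit 5) (nat_lit 4) (nat_lit 388) (nat_lit 243) (nat_lit 230)) (XT.nd (nat_lit 94) (nat_lit 0) (nat_lit 0) (XT.lf (nat_lit 0) (nat_lit 31474153513) (nat_lit 84) (nat_lit 5883498102) (nat_lit 84) (nat_lit 1639881152) (nat_lit 4) (nat_lit 4) (nat_lit 5) (nat_lit 5) (nat_lit 5) (nat_lit 4) (nat_lit 389) (nat_lit 243) (nat_lit 229)) (XT.lf (nat_lit 0) (nat_lit 35546503162) (nat_lit 84) (nat_lit 4538352811) (nat_lit 84) (nat_lit 55468005) (nat_lit 4) (nat_lit 4) (nat_lit 5)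 (nat_lit 5) (nat_lit 5) (nat_lit 4) (nat_lit 390) (nat_lit 243) (nat_lit 228)))) (XT.nd (nat_lit 94) (nat_lit 84) (nat_lit 0) (XT.lf (nat_lit 0) (nat_lit 1512909726) (nat_lit 168) (nat_lit 1642238727) (nat_lit 84) (nat_lit 38164036595) (nat_lit 3) (nat_lit 5) (nat_lit 5) (nat_lit 5) (nat_lit 4) (nat_lit 4) (nat_lit 391) (nat_lit 243) (nat_lit 227)) (XT.nd (nat_lit 94) (nat_lit 0) (nat_lit 0) (XT.lf (nat_lit 0) (nat_lit 1376467514) (nat_lit 84) (nat_lit 1733587388) (nat_lit 168) (nat_lit 39425189714) (nat_lit 2) (nat_lit 5) (nat_lit 3) (nat_lit 5) (nat_lit 4) (nat_lit 4) (nat_lit 392) (nat_lit 243) (nat_lit 226)) (XT.lf (nat_lit 0) (nat_lit 4472549708) (nat_lit 84) (nat_lit 269415413) (nat_lit 168) (nat_lit 39047582983) (nat_lit 2) (nat_lit 5) (nat_lit 3) (nat_lit 5) (nat_lit 4) (nat_lit 4) (nat_lit 393) (nat_lit 243) (nat_lit 225))))) (XT.nd (nat_lit 282) (nat_lit 0) (nat_lit 0) (XT.nd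 (nat_lit 94) (nat_lit 0) (nat_lit 0) (XT.lf (nat_lit 0) (nat_lit 6405653632) (nat_lit 168) (nat_lit 37480772463) (nat_lit 0) (nat_lit 1196978301) (nat_lit 2) (nat_lit 5) (nat_lit 4) (nat_lit 4) (nat_lit 2) (nat_lit 4) (nat_lit 394) (nat_lit 243) (nat_lit 224)) (XT.nd (nat_lit 94) (nat_lit 0) (nat_lit 0) (XT.lf (nat_lit 0) (nat_lit 8093494159) (nat_lit 168) (nat_lit 35639210742) (nat_lit 0) (nat_lit 2685599089) (nat_lit 2) (nat_lit 5) (nat_lit 4) (nat_lit 4) (nat_lit 2) (nat_lit 4) (nat_lit 395) (nat_lit 243) (nat_lit 223)) (XT.lf (nat_lit 0) (nat_lit 9804387312) (nat_lit 168) (nat_lit 33787924071) (nat_lit 0) (nat_lit 4203262621) (nat_lit 2) (nat_lit 5) (nat_lit 4) (nat_lit 4) (nat_lit 2) (nat_lit 4) (nat_lit 396) (nat_lit 243) (nat_lit 222)))) (XT.nd (nat_lit 94) (nat_lit 0) (nat_lit 0) (XT.lf (nat_lit 0) (nat_lit 11539927823) (nat_lit 168) (nat_lit 31925186855) (nat_lit 0) (nat_lit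 5751383519) (nat_lit 2) (nat_lit 5) (nat_lit 4) (nat_lit 4) (nat_lit 2) (nat_lit 4) (nat_lit 397) (nat_lit 243) (nat_lit 221)) (XT.nd (nat_lit 94) (nat_lit 0) (nat_lit 0) (XT.lf (nat_lit 0) (nat_lit 13301733398) (nat_lit 168) (nat_lit 30049262830) (nat_lit 0) (nat_lit 7331404794) (nat_lit 2) (nat_lit 5) (nat_lit 4) (nat_lit 4) (nat_lit 2) (nat_lit 4) (nat_lit 398) (nat_lit 243) (nat_lit 220)) (XT.lf (nat_lit 0) (nat_lit 15091446223) (nat_lit 168) (nat_lit 28158403437) (nat_lit 0) (nat_lit 8944799191) (nat_lit 2) (nat_lit 5) (nat_lit 4) (nat_lit 4) (nat_lit 2) (nat_lit 4) (nat_lit 399) (nat_lit 243) (nat_lit 219)))))) (XT.nd (nat_lit 564) (nat_lit 0) (nat_lit 0) (XT.nd (nat_lit 282) (nat_lit 0) (nat_lit 0) (XT.nd (nat_lit 94) (nat_lit 0) (nat_lit 0) (XT.lf (nat_lit 0) (nat_lit 16910734499) (nat_lit 168) (nat_lit 26250846197) (nat_lit 0) (nat_lit 10593070563) (nat_lit 2) (nat_lit 5)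 (nat_lit 4) (nat_lit 4) (nat_lit 2) (nat_lit 4) (nat_lit 400) (nat_lit 243) (nat_lit 218)) (XT.nd (nat_lit 94) (nat_lit 0) (nat_lit 0) (XT.lf (nat_lit 0) (nat_lit 18761293992) (nat_lit 168) (nat_lit 24324813067) (nat_lit 0) (nat_lit 12277755270) (nat_lit 2) (nat_lit 5) (nat_lit 4) (nat_lit 4) (nat_lit 2) (nat_lit 4) (nat_lit 401) (nat_lit 243) (nat_lit 217)) (XT.lf (nat_lit 0) (nat_lit 20644849619) (nat_lit 168) (nat_lit 22378508782) (nat_lit 0) (nat_lit 14000423617) (nat_lit 2) (nat_lit 5) (nat_lit 4) (nat_lit 4) (nat_lit 2) (nat_lit 4) (nat_lit 402) (nat_lit 243) (nat_lit 216)))) (XT.nd (nat_lit 94) (nat_lit 0) (nat_lit 0) (XT.lf (nat_lit 0) (nat_lit 22563157050) (nat_lit 168) (nat_lit 20410119184) (nat_lit 0) (nat_lit 15762681309) (nat_lit 2) (nat_lit 5) (nat_lit 4) (nat_lit 4) (nat_lit 2) (nat_lit 4) (nat_lit 403) (nat_lit 243) (nat_lit 215)) (XT.nd (nat_lit 94) (nat_lit 0) (nat_lit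 0) (XT.lf (nat_lit 0) (nat_lit 24518004348) (nat_lit 168) (nat_lit 18417809526) (nat_lit 0) (nat_lit 17566170957) (nat_lit 2) (nat_lit 5) (nat_lit 4) (nat_lit 4) (nat_lit 2) (nat_lit 4) (nat_lit 404) (nat_lit 243) (nat_lit 214)) (XT.lf (nat_lit 0) (nat_lit 26511213637) (nat_lit 168) (nat_lit 16399722767) (nat_lit 0) (nat_lit 19412573601) (nat_lit 2) (nat_lit 5) (nat_lit 4) (nat_lit 4) (nat_lit 2) (nat_lit 4) (nat_lit 405) (nat_lit 243) (nat_lit 213))))) (XT.nd (nat_lit 282) (nat_lit 0) (nat_lit 0) (XT.nd (nat_lit 94) (nat_lit 0) (nat_lit 0) (XT.lf (nat_lit 0) (nat_lit 28544642796) (nat_lit 168) (nat_lit 14353977840) (nat_lit 0) (nat_lit 21303610281) (nat_lit 2) (nat_lit 5) (nat_lit 4) (nat_lit 4) (nat_lit 2) (nat_lit 4) (nat_lit 406) (nat_lit 243) (nat_lit 212)) (XT.nd (nat_lit 94) (nat_lit 0) (nat_lit 0) (XT.lf (nat_lit 0) (nat_lit 30620187194) (nat_lit 168) (nat_lit 12278667895)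 (nat_lit 0) (nat_lit 23241043643) (nat_lit 2) (nat_lit 5) (nat_lit 4) (nat_lit 4) (nat_lit 2) (nat_lit 4) (nat_lit 407) (nat_lit 243) (nat_lit 211)) (XT.lf (nat_lit 0) (nat_lit 32739781456) (nat_lit 168) (nat_lit 10171858526) (nat_lit 0) (nat_lit 25226679577) (nat_lit 2) (nat_lit 5) (nat_lit 4) (nat_lit 4) (nat_lit 2) (nat_lit 4) (nat_lit 408) (nat_lit 243) (nat_lit 210)))) (XT.nd (nat_lit 94) (nat_lit 0) (nat_lit 0) (XT.lf (nat_lit 0) (nat_lit 34905401265) (nat_lit 168) (nat_lit 8031585966) (nat_lit 0) (nat_lit 27262368903) (nat_lit 2) (nat_lit 5) (nat_lit 4) (nat_lit 4) (nat_lit 2) (nat_lit 4) (nat_lit 409) (nat_lit 243) (nat_lit 209)) (XT.nd (nat_lit 94) (nat_lit 0) (nat_lit 0) (XT.lf (nat_lit 0) (nat_lit 37119065207) (nat_lit 168) (nat_lit 5855855258) (nat_lit 0) (nat_lit 29350009098) (nat_lit 2) (nat_lit 5) (nat_lit 4) (nat_lit 4) (nat_lit 2) (nat_lit 4) (nat_lit 410) (nat_lit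 243) (nat_lit 208)) (XT.lf (nat_lit 0) (nat_lit 39382836647) (nat_lit 168) (nat_lit 3642638391) (nat_lit 0) (nat_lit 31491546061) (nat_lit 2) (nat_lit 5) (nat_lit 4) (nat_lit 4) (nat_lit 2) (nat_lit 4) (nat_lit 411) (nat_lit 243) (nat_lit 207))))))) (XT.nd (nat_lit 50854) (nat_lit 0) (nat_lit 252) (XT.nd (nat_lit 564) (nat_lit 0) (nat_lit 0) (XT.nd (nat_lit 282) (nat_lit 0) (nat_lit 0) (XT.nd (nat_lit 94) (nat_lit 84) (nat_lit 0) (XT.lf (nat_lit 0) (nat_lit 41698825659) (nat_lit 168) (nat_lit 1389872417) (nat_lit 0) (nat_lit 33688975928) (nat_lit 2) (nat_lit 5) (nat_lit 4) (nat_lit 4) (nat_lit 2) (nat_lit 4) (nat_lit 412) (nat_lit 243) (nat_lit 206)) (XT.nd (nat_lit 94) (nat_lit 0) (nat_lit 0) (XT.lf (nat_lit 0) (nat_lit 923141727) (nat_lit 84) (nat_lit 43155206939) (nat_lit 84) (nat_lit 35030362887) (nat_lit 1) (nat_lit 4) (nat_lit 2) (nat_lit 5) (nat_lit 2) (nat_lit 4) (nat_lit 413)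 (nat_lit 243) (nat_lit 205)) (XT.lf (nat_lit 0) (nat_lit 3309422418) (nat_lit 84) (nat_lit 43219549519) (nat_lit 84) (nat_lit 34983168784) (nat_lit 1) (nat_lit 4) (nat_lit 2) (nat_lit 5) (nat_lit 2) (nat_lit 4) (nat_lit 414) (nat_lit 243) (nat_lit 204)))) (XT.nd (nat_lit 94) (nat_lit 0) (nat_lit 0) (XT.lf (nat_lit 0) (nat_lit 5742615291) (nat_lit 84) (nat_lit 43296293208) (nat_lit 84) (nat_lit 34951729463) (nat_lit 1) (nat_lit 4) (nat_lit 2) (nat_lit 5) (nat_lit 2) (nat_lit 4) (nat_lit 415) (nat_lit 243) (nat_lit 203)) (XT.nd (nat_lit 94) (nat_lit 0) (nat_lit 0) (XT.lf (nat_lit 0) (nat_lit 8224988337) (nat_lit 84) (nat_lit 43385509540) (nat_lit 84) (nat_lit 34936015620) (nat_lit 1) (nat_lit 4) (nat_lit 2) (nat_lit 5) (nat_lit 2) (nat_lit 4) (nat_lit 416) (nat_lit 243) (nat_lit 202)) (XT.lf (nat_lit 0) (nat_lit 10758855388) (nat_lit 84) (nat_lit 43487281672) (nat_lit 84) (nat_lit 34936012607)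 (nat_lit 1) (nat_lit 4) (nat_lit 2) (nat_lit 5) (nat_lit 2) (nat_lit 4) (nat_lit 417) (nat_lit 243) (nat_lit 201))))) (XT.nd (nat_lit 50008) (nat_lit 0) (nat_lit 336) (XT.nd (nat_lit 49820) (nat_lit 0) (nat_lit 336) (XT.lf (nat_lit 0) (nat_lit 13346578273) (nat_lit 84) (nat_lit 43601704469) (nat_lit 84) (nat_lit 34951720423) (nat_lit 1) (nat_lit 4) (nat_lit 2) (nat_lit 5) (nat_lit 2) (nat_lit 4) (nat_lit 418) (nat_lit 243) (nat_lit 200)) (XT.nd (nat_lit 94) (nat_lit 168) (nat_lit 0) (XT.lf (nat_lit 0) (nat_lit 11910809844) (nat_lit 168) (nat_lit 268970973) (nat_lit 168) (nat_lit 268970973) (nat_lit 7) (nat_lit 4) (nat_lit 9) (nat_lit 5) (nat_lit 9) (nat_lit 4) (nat_lit 373) (nat_lit 244) (nat_lit 244)) (XT.lf (nat_lit 0) (nat_lit 1618365325) (nat_lit 168) (nat_lit 22724173290) (nat_lit 0) (nat_lit 1240128039) (nat_lit 5) (nat_lit 5) (nat_lit 7) (nat_lit 4) (nat_lit 5) (nat_lit 4) (nat_lit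 374) (nat_lit 244) (nat_lit 243)))) (XT.nd (nat_lit 94) (nat_lit 0) (nat_lit 0) (XT.lf (nat_lit 0) (nat_lit 3795962562) (nat_lit 168) (nat_lit 19443295759) (nat_lit 0) (nat_lit 3050860791) (nat_lit 5) (nat_lit 5) (nat_lit 7) (nat_lit 4) (nat_lit 5) (nat_lit 4) (nat_lit 375) (nat_lit 244) (nat_lit 242)) (XT.nd (nat_lit 94) (nat_lit 0) (nat_lit 0) (XT.lf (nat_lit 0) (nat_lit 5991377635) (nat_lit 168) (nat_lit 16139372497) (nat_lit 0) (nat_lit 4890442220) (nat_lit 5) (nat_lit 5) (nat_lit 7) (nat_lit 4) (nat_lit 5) (nat_lit 4) (nat_lit 376) (nat_lit 244) (nat_lit 241)) (XT.lf (nat_lit 0) (nat_lit 8206656899) (nat_lit 168) (nat_lit 12809323901) (nat_lit 0) (nat_lit 6760587010) (nat_lit 5) (nat_lit 5) (nat_lit 7) (nat_lit 4) (nat_lit 5) (nat_lit 4) (nat_lit 377) (nat_lit 244) (nat_lit 240)))))) (XT.nd (nat_lit 564) (nat_lit 0) (nat_lit 0) (XT.nd (nat_lit 282) (nat_lit 84) (nat_lit 0) (XT.nd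 (nat_lit 94) (nat_lit 0) (nat_lit 0) (XT.lf (nat_lit 0) (nat_lit 10443865228) (nat_lit 168) (nat_lit 9450046017) (nat_lit 0) (nat_lit 8663038331) (nat_lit 5) (nat_lit 5) (nat_lit 7) (nat_lit 4) (nat_lit 5) (nat_lit 4) (nat_lit 378) (nat_lit 244) (nat_lit 239)) (XT.nd (nat_lit 94) (nat_lit 0) (nat_lit 0) (XT.lf (nat_lit 0) (nat_lit 12705087933) (nat_lit 168) (nat_lit 6058407645) (nat_lit 0) (nat_lit 10599569467) (nat_lit 5) (nat_lit 5) (nat_lit 7) (nat_lit 4) (nat_lit 5) (nat_lit 4) (nat_lit 379) (nat_lit 244) (nat_lit 238)) (XT.lf (nat_lit 0) (nat_lit 14992432711) (nat_lit 168) (nat_lit 2631247424) (nat_lit 0) (nat_lit 12571985468) (nat_lit 5) (nat_lit 5) (nat_lit 7) (nat_lit 4) (nat_lit 5) (nat_lit 4) (nat_lit 380) (nat_lit 244) (nat_lit 237)))) (XT.nd (nat_lit 94) (nat_lit 0) (nat_lit 0) (XT.lf (nat_lit 0) (nat_lit 851790805) (nat_lit 84) (nat_lit 16464690671) (nat_lit 84) (nat_lit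 13738783898) (nat_lit 4) (nat_lit 4) (nat_lit 5) (nat_lit 5) (nat_lit 5) (nat_lit 4) (nat_lit 381) (nat_lit 244) (nat_lit 236)) (XT.nd (nat_lit 94) (nat_lit 0) (nat_lit 0) (XT.lf (nat_lit 0) (nat_lit 4431742274) (nat_lit 84) (nat_lit 15266264158) (nat_lit 84) (nat_lit 12244082379) (nat_lit 4) (nat_lit 4) (nat_lit 5) (nat_lit 5) (nat_lit 5) (nat_lit 4) (nat_lit 382) (nat_lit 244) (nat_lit 235)) (XT.lf (nat_lit 0) (nat_lit 8057840029) (nat_lit 84) (nat_lit 14054748364) (nat_lit 84) (nat_lit 10745199944) (nat_lit 4) (nat_lit 4) (nat_lit 5) (nat_lit 5) (nat_lit 5) (nat_lit 4) (nat_lit 383) (nat_lit 244) (nat_lit 234))))) (XT.nd (nat_lit 282) (nat_lit 0) (nat_lit 0) (XT.nd (nat_lit 94) (nat_lit 0) (nat_lit 0) (XT.lf (nat_lit 0) (nat_lit 11733463972) (nat_lit 84) (nat_lit 12829014028) (nat_lit 84) (nat_lit 9240739478) (nat_lit 4) (nat_lit 4) (nat_lit 5) (nat_lit 5) (nat_lit 5) (nat_lit 4)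 (nat_lit 384) (nat_lit 244) (nat_lit 233)) (XT.nd (nat_lit 94) (nat_lit 0) (nat_lit 0) (XT.lf (nat_lit 0) (nat_lit 15462040170) (nat_lit 84) (nat_lit 11587918638) (nat_lit 84) (nat_lit 7729298666) (nat_lit 4) (nat_lit 4) (nat_lit 5) (nat_lit 5) (nat_lit 5) (nat_lit 4) (nat_lit 385) (nat_lit 244) (nat_lit 232)) (XT.lf (nat_lit 0) (nat_lit 19247044046) (nat_lit 84) (nat_lit 10330305363) (nat_lit 84) (nat_lit 6209468687) (nat_lit 4) (nat_lit 4) (nat_lit 5) (nat_lit 5) (nat_lit 5) (nat_lit 4) (nat_lit 386) (nat_lit 244) (nat_lit 231)))) (XT.nd (nat_lit 94) (nat_lit 0) (nat_lit 0) (XT.lf (nat_lit 0) (nat_lit 23092003622) (nat_lit 84) (nat_lit 9055001975) (nat_lit 84) (nat_lit 4679832900) (nat_lit 4) (nat_lit 4) (nat_lit 5) (nat_lit 5) (nat_lit 5) (nat_lit 4) (nat_lit 387) (nat_lit 244) (nat_lit 230)) (XT.nd (nat_lit 94) (nat_lit 0) (nat_lit 0) (XT.lf (nat_lit 0) (nat_lit 27000502801) (nat_lit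 84) (nat_lit 7760819759) (nat_lit 84) (nat_lit 3138965524) (nat_lit 4) (nat_lit 4) (nat_lit 5) (nat_lit 5) (nat_lit 5) (nat_lit 4) (nat_lit 388) (nat_lit 244) (nat_lit 229)) (XT.lf (nat_lit 0) (nat_lit 30976184715) (nat_lit 84) (nat_lit 6446552401) (nat_lit 84) (nat_lit 1585430309) (nat_lit 4) (nat_lit 4) (nat_lit 5) (nat_lit 5) (nat_lit 5) (nat_lit 4) (nat_lit 389) (nat_lit 244) (nat_lit 228))))))))
noncomputable def xc9 : XT := (XT.nd (nat_lit 2256) (nat_lit 84) (nat_lit 0) (XT.nd (nat_lit 1128) (nat_lit 0) (nat_lit 0) (XT.nd (nat_lit 564) (nat_lit 0) (nat_lit 0) (XT.nd (nat_lit 282) (nat_lit 0) (nat_lit 0) (XT.nd (nat_lit 94) (nat_lit 168) (nat_lit 0) (XT.lf (nat_lit 0) (nat_lit 35022755115) (nat_lit 84) (nat_lit 5110974866) (nat_lit 84) (nat_lit 17779199) (nat_lit 4) (nat_lit 4) (nat_lit 5) (nat_lit 5) (nat_lit 5) (nat_lit 4) (nat_lit 390) (nat_lit 244) (nat_lit 227)) (XT.nd (nat_lit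 94) (nat_lit 84) (nat_lit 0) (XT.lf (nat_lit 0) (nat_lit 1533908713) (nat_lit 168) (nat_lit 2202922681) (nat_lit 84) (nat_lit 37594066255) (nat_lit 3) (nat_lit 5) (nat_lit 5) (nat_lit 5) (nat_lit 4) (nat_lit 4) (nat_lit 391) (nat_lit 244) (nat_lit 226)) (XT.lf (nat_lit 0) (nat_lit 779134836) (nat_lit 84) (nat_lit 2330541960) (nat_lit 168) (nat_lit 39437986898) (nat_lit 2) (nat_lit 5) (nat_lit 3) (nat_lit 5) (nat_lit 4) (nat_lit 4) (nat_lit 392) (nat_lit 244) (nat_lit 225)))) (XT.nd (nat_lit 94) (nat_lit 0) (nat_lit 0) (XT.lf (nat_lit 0) (nat_lit 3850852423) (nat_lit 84) (nat_lit 875506008) (nat_lit 168) (nat_lit 39076123308) (nat_lit 2) (nat_lit 5) (nat_lit 3) (nat_lit 5) (nat_lit 4) (nat_lit 4) (nat_lit 393) (nat_lit 244) (nat_lit 224)) (XT.nd (nat_lit 94) (nat_lit 0) (nat_lit 0) (XT.lf (nat_lit 0) (nat_lit 6369175850) (nat_lit 168) (nat_lit 38133434086) (nat_lit 0) (nat_lit 594416293)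 (nat_lit 2) (nat_lit 5) (nat_lit 4) (nat_lit 4) (nat_lit 2) (nat_lit 4) (nat_lit 394) (nat_lit 244) (nat_lit 223)) (XT.lf (nat_lit 0) (nat_lit 8042604545) (nat_lit 168) (nat_lit 36315192632) (nat_lit 0) (nat_lit 2074615368) (nat_lit 2) (nat_lit 5) (nat_lit 4) (nat_lit 4) (nat_lit 2) (nat_lit 4) (nat_lit 395) (nat_lit 244) (nat_lit 222))))) (XT.nd (nat_lit 282) (nat_lit 0) (nat_lit 0) (XT.nd (nat_lit 94) (nat_lit 0) (nat_lit 0) (XT.lf (nat_lit 0) (nat_lit 9739519200) (nat_lit 168) (nat_lit 34486525036) (nat_lit 0) (nat_lit 3584110410) (nat_lit 2) (nat_lit 5) (nat_lit 4) (nat_lit 4) (nat_lit 2) (nat_lit 4) (nat_lit 396) (nat_lit 244) (nat_lit 221)) (XT.nd (nat_lit 94) (nat_lit 0) (nat_lit 0) (XT.lf (nat_lit 0) (nat_lit 11461501517) (nat_lit 168) (nat_lit 32645726789) (nat_lit 0) (nat_lit 5124308427) (nat_lit 2) (nat_lit 5) (nat_lit 4) (nat_lit 4) (nat_lit 2) (nat_lit 4) (nat_lit 397)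 (nat_lit 244) (nat_lit 220)) (XT.lf (nat_lit 0) (nat_lit 13210156564) (nat_lit 168) (nat_lit 30791082072) (nat_lit 0) (nat_lit 6696645046) (nat_lit 2) (nat_lit 5) (nat_lit 4) (nat_lit 4) (nat_lit 2) (nat_lit 4) (nat_lit 398) (nat_lit 244) (nat_lit 219)))) (XT.nd (nat_lit 94) (nat_lit 0) (nat_lit 0) (XT.lf (nat_lit 0) (nat_lit 14987114270) (nat_lit 168) (nat_lit 28920862164) (nat_lit 0) (nat_lit 8302585848) (nat_lit 2) (nat_lit 5) (nat_lit 4) (nat_lit 4) (nat_lit 2) (nat_lit 4) (nat_lit 399) (nat_lit 244) (nat_lit 218)) (XT.nd (nat_lit 94) (nat_lit 0) (nat_lit 0) (XT.lf (nat_lit 0) (nat_lit 16794030946) (nat_lit 168) (nat_lit 27033323824) (nat_lit 0) (nat_lit 9943627738) (nat_lit 2) (nat_lit 5) (nat_lit 4) (nat_lit 4) (nat_lit 2) (nat_lit 4) (nat_lit 400) (nat_lit 244) (nat_lit 217)) (XT.lf (nat_lit 0) (nat_lit 18632590828) (nat_lit 168) (nat_lit 25126707667) (nat_lit 0) (nat_lit 11621300340)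 (nat_lit 2) (nat_lit 5) (nat_lit 4) (nat_lit 4) (nat_lit 2) (nat_lit 4) (nat_lit 401) (nat_lit 244) (nat_lit 216)))))) (XT.nd (nat_lit 564) (nat_lit 0) (nat_lit 0) (XT.nd (nat_lit 282) (nat_lit 0) (nat_lit 0) (XT.nd (nat_lit 94) (nat_lit 0) (nat_lit 0) (XT.lf (nat_lit 0) (nat_lit 20504507646) (nat_lit 168) (nat_lit 23199236528) (nat_lit 0) (nat_lit 13337167419) (nat_lit 2) (nat_lit 5) (nat_lit 4) (nat_lit 4) (nat_lit 2) (nat_lit 4) (nat_lit 402) (nat_lit 244) (nat_lit 215)) (XT.nd (nat_lit 94) (nat_lit 0) (nat_lit 0) (XT.lf (nat_lit 0) (nat_lit 22411526223) (nat_lit 168) (nat_lit 21249113802) (nat_lit 0) (nat_lit 15092828345) (nat_lit 2) (nat_lit 5) (nat_lit 4) (nat_lit 4) (nat_lit 2) (nat_lit 4) (nat_lit 403) (nat_lit 244) (nat_lit 214)) (XT.lf (nat_lit 0) (nat_lit 24355424099) (nat_lit 168) (nat_lit 19274521770) (nat_lit 0) (nat_lit 16889919577) (nat_lit 2) (nat_lit 5) (nat_lit 4)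 (nat_lit 4) (nat_lit 2) (nat_lit 4) (nat_lit 404) (nat_lit 244) (nat_lit 213)))) (XT.nd (nat_lit 94) (nat_lit 0) (nat_lit 0) (XT.lf (nat_lit 0) (nat_lit 26338013192) (nat_lit 168) (nat_lit 17273619906) (nat_lit 0) (nat_lit 18730116191) (nat_lit 2) (nat_lit 5) (nat_lit 4) (nat_lit 4) (nat_lit 2) (nat_lit 4) (nat_lit 405) (nat_lit 244) (nat_lit 212)) (XT.nd (nat_lit 94) (nat_lit 0) (nat_lit 0) (XT.lf (nat_lit 0) (nat_lit 28361141482) (nat_lit 168) (nat_lit 15244543159) (nat_lit 0) (nat_lit 20615133445) (nat_lit 2) (nat_lit 5) (nat_lit 4) (nat_lit 4) (nat_lit 2) (nat_lit 4) (nat_lit 406) (nat_lit 244) (nat_lit 211)) (XT.lf (nat_lit 0) (nat_lit 30426694737) (nat_lit 168) (nat_lit 13185400218) (nat_lit 0) (nat_lit 22546728372) (nat_lit 2) (nat_lit 5) (nat_lit 4) (nat_lit 4) (nat_lit 2) (nat_lit 4) (nat_lit 407) (nat_lit 244) (nat_lit 210))))) (XT.nd (nat_lit 282) (nat_lit 0) (nat_lit 0)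 (XT.nd (nat_lit 94) (nat_lit 0) (nat_lit 0) (XT.lf (nat_lit 0) (nat_lit 32536598268) (nat_lit 168) (nat_lit 11094271745) (nat_lit 0) (nat_lit 24526701419) (nat_lit 2) (nat_lit 5) (nat_lit 4) (nat_lit 4) (nat_lit 2) (nat_lit 4) (nat_lit 408) (nat_lit 244) (nat_lit 209)) (XT.nd (nat_lit 94) (nat_lit 0) (nat_lit 0) (XT.lf (nat_lit 0) (nat_lit 34692818726) (nat_lit 168) (nat_lit 8969208590) (nat_lit 0) (nat_lit 26556898131) (nat_lit 2) (nat_lit 5) (nat_lit 4) (nat_lit 4) (nat_lit 2) (nat_lit 4) (nat_lit 409) (nat_lit 244) (nat_lit 208)) (XT.lf (nat_lit 0) (nat_lit 36897365935) (nat_lit 168) (nat_lit 6808229971) (nat_lit 0) (nat_lit 28639210862) (nat_lit 2) (nat_lit 5) (nat_lit 4) (nat_lit 4) (nat_lit 2) (nat_lit 4) (nat_lit 410) (nat_lit 244) (nat_lit 207)))) (XT.nd (nat_lit 94) (nat_lit 0) (nat_lit 0) (XT.lf (nat_lit 0) (nat_lit 39152294765) (nat_lit 168) (nat_lit 4609321630) (nat_lit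 0) (nat_lit 30775580547) (nat_lit 2) (nat_lit 5) (nat_lit 4) (nat_lit 4) (nat_lit 2) (nat_lit 4) (nat_lit 411) (nat_lit 244) (nat_lit 206)) (XT.nd (nat_lit 94) (nat_lit 0) (nat_lit 0) (XT.lf (nat_lit 0) (nat_lit 41459707044) (nat_lit 168) (nat_lit 2370433954) (nat_lit 0) (nat_lit 32967998505) (nat_lit 2) (nat_lit 5) (nat_lit 4) (nat_lit 4) (nat_lit 2) (nat_lit 4) (nat_lit 412) (nat_lit 244) (nat_lit 205)) (XT.lf (nat_lit 0) (nat_lit 43821753522) (nat_lit 168) (nat_lit 89480064) (nat_lit 0) (nat_lit 35218508301) (nat_lit 2) (nat_lit 5) (nat_lit 4) (nat_lit 4) (nat_lit 2) (nat_lit 4) (nat_lit 413) (nat_lit 244) (nat_lit 204))))))) (XT.nd (nat_lit 50572) (nat_lit 0) (nat_lit 252) (XT.nd (nat_lit 50008) (nat_lit 0) (nat_lit 336) (XT.nd (nat_lit 282) (nat_lit 0) (nat_lit 0) (XT.nd (nat_lit 94) (nat_lit 0) (nat_lit 0) (XT.lf (nat_lit 0) (nat_lit 2281636006) (nat_lit 84) (nat_lit 43981633981)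 (nat_lit 84) (nat_lit 35270205749) (nat_lit 1) (nat_lit 4) (nat_lit 2) (nat_lit 5) (nat_lit 2) (nat_lit 4) (nat_lit 414) (nat_lit 244) (nat_lit 203)) (XT.nd (nat_lit 94) (nat_lit 0) (nat_lit 0) (XT.lf (nat_lit 0) (nat_lit 4701904799) (nat_lit 84) (nat_lit 44063347433) (nat_lit 84) (nat_lit 35246989026) (nat_lit 1) (nat_lit 4) (nat_lit 2) (nat_lit 5) (nat_lit 2) (nat_lit 4) (nat_lit 415) (nat_lit 244) (nat_lit 202)) (XT.lf (nat_lit 0) (nat_lit 7171742365) (nat_lit 84) (nat_lit 44157384097) (nat_lit 84) (nat_lit 35239250545) (nat_lit 1) (nat_lit 4) (nat_lit 2) (nat_lit 5) (nat_lit 2) (nat_lit 4) (nat_lit 416) (nat_lit 244) (nat_lit 201)))) (XT.nd (nat_lit 94) (nat_lit 0) (nat_lit 0) (XT.lf (nat_lit 0) (nat_lit 9693450852) (nat_lit 84) (nat_lit 44263831624) (nat_lit 84) (nat_lit 35246983092) (nat_lit 1) (nat_lit 4) (nat_lit 2) (nat_lit 5) (nat_lit 2) (nat_lit 4) (nat_lit 417) (nat_lit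 244) (nat_lit 200)) (XT.nd (nat_lit 94) (nat_lit 0) (nat_lit 0) (XT.lf (nat_lit 0) (nat_lit 12269380755) (nat_lit 84) (nat_lit 44382789236) (nat_lit 84) (nat_lit 35270193875) (nat_lit 1) (nat_lit 4) (nat_lit 2) (nat_lit 5) (nat_lit 2) (nat_lit 4) (nat_lit 418) (nat_lit 244) (nat_lit 199)) (XT.lf (nat_lit 0) (nat_lit 14901933112) (nat_lit 84) (nat_lit 44514367814) (nat_lit 84) (nat_lit 35308904529) (nat_lit 1) (nat_lit 4) (nat_lit 2) (nat_lit 5) (nat_lit 2) (nat_lit 4) (nat_lit 419) (nat_lit 244) (nat_lit 198))))) (XT.nd (nat_lit 282) (nat_lit 168) (nat_lit 0) (XT.nd (nat_lit 94) (nat_lit 0) (nat_lit 0) (XT.lf (nat_lit 0) (nat_lit 7428275795) (nat_lit 168) (nat_lit 2183157144) (nat_lit 168) (nat_lit 2183157144) (nat_lit 7) (nat_lit 4) (nat_lit 9) (nat_lit 5) (nat_lit 9) (nat_lit 4) (nat_lit 371) (nat_lit 245) (nat_lit 245)) (XT.nd (nat_lit 94) (nat_lit 0) (nat_lit 0) (XT.lf (nat_lit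 0) (nat_lit 19290473247) (nat_lit 168) (nat_lit 2672249539) (nat_lit 168) (nat_lit 2270198056) (nat_lit 7) (nat_lit 4) (nat_lit 9) (nat_lit 5) (nat_lit 9) (nat_lit 4) (nat_lit 372) (nat_lit 245) (nat_lit 244)) (XT.lf (nat_lit 0) (nat_lit 23782602434) (nat_lit 168) (nat_lit 953887363) (nat_lit 168) (nat_lit 161873239) (nat_lit 7) (nat_lit 4) (nat_lit 9) (nat_lit 5) (nat_lit 9) (nat_lit 4) (nat_lit 373) (nat_lit 245) (nat_lit 243)))) (XT.nd (nat_lit 94) (nat_lit 0) (nat_lit 0) (XT.lf (nat_lit 0) (nat_lit 1957099968) (nat_lit 168) (nat_lit 22805273267) (nat_lit 0) (nat_lit 822035555) (nat_lit 5) (nat_lit 5) (nat_lit 7) (nat_lit 4) (nat_lit 5) (nat_lit 4) (nat_lit 374) (nat_lit 245) (nat_lit 242)) (XT.nd (nat_lit 94) (nat_lit 0) (nat_lit 0) (XT.lf (nat_lit 0) (nat_lit 4110232568) (nat_lit 168) (nat_lit 19563126151) (nat_lit 0) (nat_lit 2619334512) (nat_lit 5) (nat_lit 5) (nat_lit 7) (nat_lit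 4) (nat_lit 5) (nat_lit 4) (nat_lit 375) (nat_lit 245) (nat_lit 241)) (XT.lf (nat_lit 0) (nat_lit 6281918603) (nat_lit 168) (nat_lit 16296768762) (nat_lit 0) (nat_lit 4445886073) (nat_lit 5) (nat_lit 5) (nat_lit 7) (nat_lit 4) (nat_lit 5) (nat_lit 4) (nat_lit 376) (nat_lit 245) (nat_lit 240)))))) (XT.nd (nat_lit 564) (nat_lit 0) (nat_lit 0) (XT.nd (nat_lit 282) (nat_lit 84) (nat_lit 0) (XT.nd (nat_lit 94) (nat_lit 0) (nat_lit 0) (XT.lf (nat_lit 0) (nat_lit 8474182312) (nat_lit 168) (nat_lit 13003156511) (nat_lit 0) (nat_lit 6303392774) (nat_lit 5) (nat_lit 5) (nat_lit 7) (nat_lit 4) (nat_lit 5) (nat_lit 4) (nat_lit 377) (nat_lit 245) (nat_lit 239)) (XT.nd (nat_lit 94) (nat_lit 0) (nat_lit 0) (XT.lf (nat_lit 0) (nat_lit 10689067114) (nat_lit 168) (nat_lit 9679219408) (nat_lit 0) (nat_lit 8193586008) (nat_lit 5) (nat_lit 5) (nat_lit 7) (nat_lit 4) (nat_lit 5) (nat_lit 4) (nat_lit 378)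 (nat_lit 245) (nat_lit 238)) (XT.lf (nat_lit 0) (nat_lit 12928637514) (nat_lit 168) (nat_lit 6321859195) (nat_lit 0) (nat_lit 10118227631) (nat_lit 5) (nat_lit 5) (nat_lit 7) (nat_lit 4) (nat_lit 5) (nat_lit 4) (nat_lit 379) (nat_lit 245) (nat_lit 237)))) (XT.nd (nat_lit 94) (nat_lit 84) (nat_lit 0) (XT.lf (nat_lit 0) (nat_lit 15194981027) (nat_lit 168) (nat_lit 2927946460) (nat_lit 0) (nat_lit 12079111612) (nat_lit 5) (nat_lit 5) (nat_lit 7) (nat_lit 4) (nat_lit 5) (nat_lit 4) (nat_lit 380) (nat_lit 245) (nat_lit 236)) (XT.nd (nat_lit 94) (nat_lit 0) (nat_lit 0) (XT.lf (nat_lit 0) (nat_lit 516080142) (nat_lit 84) (nat_lit 16979249557) (nat_lit 84) (nat_lit 13567105136) (nat_lit 4) (nat_lit 4) (nat_lit 5) (nat_lit 5) (nat_lit 5) (nat_lit 4) (nat_lit 381) (nat_lit 245) (nat_lit 235)) (XT.lf (nat_lit 0) (nat_lit 4064110287) (nat_lit 84) (nat_lit 15792670380) (nat_lit 84) (nat_lit 12093159320)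 (nat_lit 4) (nat_lit 4) (nat_lit 5) (nat_lit 5) (nat_lit 5) (nat_lit 4) (nat_lit 382) (nat_lit 245) (nat_lit 234))))) (XT.nd (nat_lit 282) (nat_lit 0) (nat_lit 0) (XT.nd (nat_lit 94) (nat_lit 0) (nat_lit 0) (XT.lf (nat_lit 0) (nat_lit 7659246524) (nat_lit 84) (nat_lit 14592645698) (nat_lit 84) (nat_lit 10614408507) (nat_lit 4) (nat_lit 4) (nat_lit 5) (nat_lit 5) (nat_lit 5) (nat_lit 4) (nat_lit 383) (nat_lit 245) (nat_lit 233)) (XT.nd (nat_lit 94) (nat_lit 0) (nat_lit 0) (XT.lf (nat_lit 0) (nat_lit 11304839897) (nat_lit 84) (nat_lit 13378056960) (nat_lit 84) (nat_lit 9129474347) (nat_lit 4) (nat_lit 4) (nat_lit 5) (nat_lit 5) (nat_lit 5) (nat_lit 4) (nat_lit 384) (nat_lit 245) (nat_lit 232)) (XT.lf (nat_lit 0) (nat_lit 15004288482) (nat_lit 84) (nat_lit 12147772044) (nat_lit 84) (nat_lit 7636972727) (nat_lit 4) (nat_lit 4) (nat_lit 5) (nat_lit 5) (nat_lit 5) (nat_lit 4) (nat_lit 385)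 (nat_lit 245) (nat_lit 231)))) (XT.nd (nat_lit 188) (nat_lit 0) (nat_lit 0) (XT.nd (nat_lit 94) (nat_lit 0) (nat_lit 0) (XT.lf (nat_lit 0) (nat_lit 18761040551) (nat_lit 84) (nat_lit 10900644194) (nat_lit 84) (nat_lit 6135512477) (nat_lit 4) (nat_lit 4) (nat_lit 5) (nat_lit 5) (nat_lit 5) (nat_lit 4) (nat_lit 386) (nat_lit 245) (nat_lit 230)) (XT.lf (nat_lit 0) (nat_lit 22578597791) (nat_lit 84) (nat_lit 9635510958) (nat_lit 84) (nat_lit 4623694081) (nat_lit 4) (nat_lit 4) (nat_lit 5) (nat_lit 5) (nat_lit 5) (nat_lit 4) (nat_lit 387) (nat_lit 245) (nat_lit 229))) (XT.nd (nat_lit 94) (nat_lit 0) (nat_lit 0) (XT.lf (nat_lit 0) (nat_lit 26460518565) (nat_lit 84) (nat_lit 8351193097) (nat_lit 84) (nat_lit 3100108365) (nat_lit 4) (nat_lit 4) (nat_lit 5) (nat_lit 5) (nat_lit 5) (nat_lit 4) (nat_lit 388) (nat_lit 245) (nat_lit 228)) (XT.lf (nat_lit 0) (nat_lit 30410421231) (nat_lit 84) (nat_lit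 7046493495) (nat_lit 84) (nat_lit 1563335186) (nat_lit 4) (nat_lit 4) (nat_lit 5) (nat_lit 5) (nat_lit 5) (nat_lit 4) (nat_lit 389) (nat_lit 245) (nat_lit 227))))))))
noncomputable def xc10 : XT := (XT.nd (nat_lit 2256) (nat_lit 84) (nat_lit 0) (XT.nd (nat_lit 1128) (nat_lit 0) (nat_lit 0) (XT.nd (nat_lit 564) (nat_lit 0) (nat_lit 0) (XT.nd (nat_lit 282) (nat_lit 0) (nat_lit 0) (XT.nd (nat_lit 94) (nat_lit 168) (nat_lit 0) (XT.lf (nat_lit 0) (nat_lit 34431987511) (nat_lit 84) (nat_lit 5720196033) (nat_lit 84) (nat_lit 11942113) (nat_lit 4) (nat_lit 4) (nat_lit 5) (nat_lit 5) (nat_lit 5) (nat_lit 4) (nat_lit 390) (nat_lit 245) (nat_lit 226)) (XT.nd (nat_lit 94) (nat_lit 84) (nat_lit 0) (XT.lf (nat_lit 0) (nat_lit 1524176716) (nat_lit 168) (nat_lit 2830978467) (nat_lit 84) (nat_lit 36988879930) (nat_lit 3) (nat_lit 5) (nat_lit 5) (nat_lit 5) (nat_lit 4) (nat_lit 4) (nat_lit 391) (nat_lit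 245) (nat_lit 225)) (XT.lf (nat_lit 0) (nat_lit 113800327) (nat_lit 84) (nat_lit 2964557387) (nat_lit 168) (nat_lit 39483155115) (nat_lit 2) (nat_lit 5) (nat_lit 3) (nat_lit 5) (nat_lit 4) (nat_lit 4) (nat_lit 392) (nat_lit 245) (nat_lit 224)))) (XT.nd (nat_lit 94) (nat_lit 0) (nat_lit 0) (XT.lf (nat_lit 0) (nat_lit 3161885898) (nat_lit 84) (nat_lit 1518382758) (nat_lit 168) (nat_lit 39136561303) (nat_lit 2) (nat_lit 5) (nat_lit 3) (nat_lit 5) (nat_lit 4) (nat_lit 4) (nat_lit 393) (nat_lit 245) (nat_lit 223)) (XT.nd (nat_lit 94) (nat_lit 0) (nat_lit 0) (XT.lf (nat_lit 0) (nat_lit 6257908656) (nat_lit 84) (nat_lit 44832918) (nat_lit 168) (nat_lit 38809303510) (nat_lit 2) (nat_lit 5) (nat_lit 3) (nat_lit 5) (nat_lit 4) (nat_lit 4) (nat_lit 394) (nat_lit 245) (nat_lit 222)) (XT.lf (nat_lit 0) (nat_lit 7961747024) (nat_lit 168) (nat_lit 37058069303) (nat_lit 0) (nat_lit 1428100948) (nat_lit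 2) (nat_lit 5) (nat_lit 4) (nat_lit 4) (nat_lit 2) (nat_lit 4) (nat_lit 395) (nat_lit 245) (nat_lit 221))))) (XT.nd (nat_lit 282) (nat_lit 0) (nat_lit 0) (XT.nd (nat_lit 94) (nat_lit 0) (nat_lit 0) (XT.lf (nat_lit 0) (nat_lit 9645103485) (nat_lit 168) (nat_lit 35251340675) (nat_lit 0) (nat_lit 2929673110) (nat_lit 2) (nat_lit 5) (nat_lit 4) (nat_lit 4) (nat_lit 2) (nat_lit 4) (nat_lit 396) (nat_lit 245) (nat_lit 220)) (XT.nd (nat_lit 94) (nat_lit 0) (nat_lit 0) (XT.lf (nat_lit 0) (nat_lit 11353935274) (nat_lit 168) (nat_lit 33431821737) (nat_lit 0) (nat_lit 4462186470) (nat_lit 2) (nat_lit 5) (nat_lit 4) (nat_lit 4) (nat_lit 2) (nat_lit 4) (nat_lit 397) (nat_lit 245) (nat_lit 219)) (XT.lf (nat_lit 0) (nat_lit 13089835201) (nat_lit 168) (nat_lit 31597816506) (nat_lit 0) (nat_lit 6027069493) (nat_lit 2) (nat_lit 5) (nat_lit 4) (nat_lit 4) (nat_lit 2) (nat_lit 4) (nat_lit 398) (nat_lit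 245) (nat_lit 218)))) (XT.nd (nat_lit 94) (nat_lit 0) (nat_lit 0) (XT.lf (nat_lit 0) (nat_lit 14854421307) (nat_lit 168) (nat_lit 29747615497) (nat_lit 0) (nat_lit 7625780814) (nat_lit 2) (nat_lit 5) (nat_lit 4) (nat_lit 4) (nat_lit 2) (nat_lit 4) (nat_lit 399) (nat_lit 245) (nat_lit 217)) (XT.nd (nat_lit 94) (nat_lit 0) (nat_lit 0) (XT.lf (nat_lit 0) (nat_lit 16649338372) (nat_lit 168) (nat_lit 27879494130) (nat_lit 0) (nat_lit 9259810598) (nat_lit 2) (nat_lit 5) (nat_lit 4) (nat_lit 4) (nat_lit 2) (nat_lit 4) (nat_lit 400) (nat_lit 245) (nat_lit 216)) (XT.lf (nat_lit 0) (nat_lit 18476259445) (nat_lit 168) (nat_lit 25991711118) (nat_lit 0) (nat_lit 10930681934) (nat_lit 2) (nat_lit 5) (nat_lit 4) (nat_lit 4) (nat_lit 2) (nat_lit 4) (nat_lit 401) (nat_lit 245) (nat_lit 215)))))) (XT.nd (nat_lit 564) (nat_lit 0) (nat_lit 0) (XT.nd (nat_lit 282) (nat_lit 0) (nat_lit 0) (XT.nd (nat_lit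 94) (nat_lit 0) (nat_lit 0) (XT.lf (nat_lit 0) (nat_lit 20336887409) (nat_lit 168) (nat_lit 24082506852) (nat_lit 0) (nat_lit 12639952246) (nat_lit 2) (nat_lit 5) (nat_lit 4) (nat_lit 4) (nat_lit 2) (nat_lit 4) (nat_lit 402) (nat_lit 245) (nat_lit 214)) (XT.nd (nat_lit 94) (nat_lit 0) (nat_lit 0) (XT.lf (nat_lit 0) (nat_lit 22232956564) (nat_lit 168) (nat_lit 22150101752) (nat_lit 0) (nat_lit 14389214756) (nat_lit 2) (nat_lit 5) (nat_lit 4) (nat_lit 4) (nat_lit 2) (nat_lit 4) (nat_lit 403) (nat_lit 245) (nat_lit 213)) (XT.lf (nat_lit 0) (nat_lit 24166234245) (nat_lit 168) (nat_lit 20192694615) (nat_lit 0) (nat_lit 16180099959) (nat_lit 2) (nat_lit 5) (nat_lit 4) (nat_lit 4) (nat_lit 2) (nat_lit 4) (nat_lit 404) (nat_lit 245) (nat_lit 212)))) (XT.nd (nat_lit 94) (nat_lit 0) (nat_lit 0) (XT.lf (nat_lit 0) (nat_lit 26138522469) (nat_lit 168) (nat_lit 18208460932) (nat_lit 0) (nat_lit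 18014277146) (nat_lit 2) (nat_lit 5) (nat_lit 4) (nat_lit 4) (nat_lit 2) (nat_lit 4) (nat_lit 405) (nat_lit 245) (nat_lit 211)) (XT.nd (nat_lit 94) (nat_lit 0) (nat_lit 0) (XT.lf (nat_lit 0) (nat_lit 28151659615) (nat_lit 168) (nat_lit 16195551189) (nat_lit 0) (nat_lit 19893455965) (nat_lit 2) (nat_lit 5) (nat_lit 4) (nat_lit 4) (nat_lit 2) (nat_lit 4) (nat_lit 406) (nat_lit 245) (nat_lit 210)) (XT.lf (nat_lit 0) (nat_lit 30207522139) (nat_lit 168) (nat_lit 14152089143) (nat_lit 0) (nat_lit 21819388005) (nat_lit 2) (nat_lit 5) (nat_lit 4) (nat_lit 4) (nat_lit 2) (nat_lit 4) (nat_lit 407) (nat_lit 245) (nat_lit 209))))) (XT.nd (nat_lit 282) (nat_lit 0) (nat_lit 0) (XT.nd (nat_lit 94) (nat_lit 0) (nat_lit 0) (XT.lf (nat_lit 0) (nat_lit 32308026319) (nat_lit 168) (nat_lit 12076170075) (nat_lit 0) (nat_lit 23793868438) (nat_lit 2) (nat_lit 5) (nat_lit 4) (nat_lit 4) (nat_lit 2) (nat_lit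 4) (nat_lit 408) (nat_lit 245) (nat_lit 208)) (XT.nd (nat_lit 94) (nat_lit 0) (nat_lit 0) (XT.lf (nat_lit 0) (nat_lit 34455130045) (nat_lit 168) (nat_lit 9965859009) (nat_lit 0) (nat_lit 25818737686) (nat_lit 2) (nat_lit 5) (nat_lit 4) (nat_lit 4) (nat_lit 2) (nat_lit 4) (nat_lit 409) (nat_lit 245) (nat_lit 207)) (XT.lf (nat_lit 0) (nat_lit 36650834643) (nat_lit 168) (nat_lit 7819188916) (nat_lit 0) (nat_lit 27895883140) (nat_lit 2) (nat_lit 5) (nat_lit 4) (nat_lit 4) (nat_lit 2) (nat_lit 4) (nat_lit 410) (nat_lit 245) (nat_lit 206)))) (XT.nd (nat_lit 94) (nat_lit 0) (nat_lit 0) (XT.lf (nat_lit 0) (nat_lit 38897186739) (nat_lit 168) (nat_lit 5634158873) (nat_lit 0) (nat_lit 30027240916) (nat_lit 2) (nat_lit 5) (nat_lit 4) (nat_lit 4) (nat_lit 2) (nat_lit 4) (nat_lit 411) (nat_lit 245) (nat_lit 205)) (XT.nd (nat_lit 94) (nat_lit 0) (nat_lit 0) (XT.lf (nat_lit 0) (nat_lit 41196280170)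 (nat_lit 168) (nat_lit 3408732203) (nat_lit 0) (nat_lit 32214797663) (nat_lit 2) (nat_lit 5) (nat_lit 4) (nat_lit 4) (nat_lit 2) (nat_lit 4) (nat_lit 412) (nat_lit 245) (nat_lit 204)) (XT.lf (nat_lit 0) (nat_lit 43550257931) (nat_lit 168) (nat_lit 1140834577) (nat_lit 0) (nat_lit 34460592414) (nat_lit 2) (nat_lit 5) (nat_lit 4) (nat_lit 4) (nat_lit 2) (nat_lit 4) (nat_lit 413) (nat_lit 245) (nat_lit 203))))))) (XT.nd (nat_lit 50290) (nat_lit 0) (nat_lit 252) (XT.nd (nat_lit 564) (nat_lit 0) (nat_lit 0) (XT.nd (nat_lit 282) (nat_lit 0) (nat_lit 0) (XT.nd (nat_lit 94) (nat_lit 0) (nat_lit 0) (XT.lf (nat_lit 0) (nat_lit 1195739409) (nat_lit 84) (nat_lit 44777436649) (nat_lit 84) (nat_lit 35582840957) (nat_lit 1) (nat_lit 4) (nat_lit 2) (nat_lit 5) (nat_lit 2) (nat_lit 4) (nat_lit 414) (nat_lit 245) (nat_lit 202)) (XT.nd (nat_lit 94) (nat_lit 0) (nat_lit 0) (XT.lf (nat_lit 0) (nat_lit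 3603472722) (nat_lit 84) (nat_lit 44863970433) (nat_lit 84) (nat_lit 35567599596) (nat_lit 1) (nat_lit 4) (nat_lit 2) (nat_lit 5) (nat_lit 2) (nat_lit 4) (nat_lit 415) (nat_lit 245) (nat_lit 201)) (XT.lf (nat_lit 0) (nat_lit 6061151724) (nat_lit 84) (nat_lit 44962682492) (nat_lit 84) (nat_lit 35567596674) (nat_lit 1) (nat_lit 4) (nat_lit 2) (nat_lit 5) (nat_lit 2) (nat_lit 4) (nat_lit 416) (nat_lit 245) (nat_lit 200)))) (XT.nd (nat_lit 94) (nat_lit 0) (nat_lit 0) (XT.lf (nat_lit 0) (nat_lit 8571067229) (nat_lit 84) (nat_lit 45073664836) (nat_lit 84) (nat_lit 35582832189) (nat_lit 1) (nat_lit 4) (nat_lit 2) (nat_lit 5) (nat_lit 2) (nat_lit 4) (nat_lit 417) (nat_lit 245) (nat_lit 199)) (XT.nd (nat_lit 94) (nat_lit 0) (nat_lit 0) (XT.lf (nat_lit 0) (nat_lit 11135558740) (nat_lit 84) (nat_lit 45197020911) (nat_lit 84) (nat_lit 35613320341) (nat_lit 1) (nat_lit 4) (nat_lit 2) (nat_lit 5)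 (nat_lit 2) (nat_lit 4) (nat_lit 418) (nat_lit 245) (nat_lit 198)) (XT.lf (nat_lit 0) (nat_lit 13757016633) (nat_lit 84) (nat_lit 45332865699) (nat_lit 84) (nat_lit 35659089549) (nat_lit 1) (nat_lit 4) (nat_lit 2) (nat_lit 5) (nat_lit 2) (nat_lit 4) (nat_lit 419) (nat_lit 245) (nat_lit 197))))) (XT.nd (nat_lit 49444) (nat_lit 0) (nat_lit 420) (XT.nd (nat_lit 49256) (nat_lit 0) (nat_lit 504) (XT.lf (nat_lit 0) (nat_lit 16437884381) (nat_lit 84) (nat_lit 45481325822) (nat_lit 84) (nat_lit 35720182474) (nat_lit 1) (nat_lit 4) (nat_lit 2) (nat_lit 5) (nat_lit 2) (nat_lit 4) (nat_lit 420) (nat_lit 245) (nat_lit 196)) (XT.nd (nat_lit 94) (nat_lit 0) (nat_lit 0) (XT.lf (nat_lit 0) (nat_lit 3094161784) (nat_lit 168) (nat_lit 4043796443) (nat_lit 168) (nat_lit 4043796443) (nat_lit 7) (nat_lit 4) (nat_lit 9) (nat_lit 5) (nat_lit 9) (nat_lit 4) (nat_lit 369) (nat_lit 246) (nat_lit 246)) (XT.lf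 (nat_lit 0) (nat_lit 10476704583) (nat_lit 168) (nat_lit 6452175738) (nat_lit 168) (nat_lit 6037660659) (nat_lit 7) (nat_lit 4) (nat_lit 9) (nat_lit 5) (nat_lit 9) (nat_lit 4) (nat_lit 370) (nat_lit 246) (nat_lit 245)))) (XT.nd (nat_lit 94) (nat_lit 84) (nat_lit 0) (XT.lf (nat_lit 0) (nat_lit 14816324802) (nat_lit 168) (nat_lit 4795154015) (nat_lit 168) (nat_lit 3978587453) (nat_lit 7) (nat_lit 4) (nat_lit 9) (nat_lit 5) (nat_lit 9) (nat_lit 4) (nat_lit 371) (nat_lit 246) (nat_lit 244)) (XT.nd (nat_lit 94) (nat_lit 84) (nat_lit 0) (XT.lf (nat_lit 0) (nat_lit 19211229206) (nat_lit 168) (nat_lit 3114983199) (nat_lit 168) (nat_lit 1908453996) (nat_lit 7) (nat_lit 4) (nat_lit 9) (nat_lit 5) (nat_lit 9) (nat_lit 4) (nat_lit 372) (nat_lit 246) (nat_lit 243)) (XT.lf (nat_lit 0) (nat_lit 171150094) (nat_lit 252) (nat_lit 1237160646) (nat_lit 84) (nat_lit 23492577756) (nat_lit 6) (nat_lit 5)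 (nat_lit 9) (nat_lit 5) (nat_lit 7) (nat_lit 4) (nat_lit 373) (nat_lit 246) (nat_lit 242)))))) (XT.nd (nat_lit 564) (nat_lit 84) (nat_lit 0) (XT.nd (nat_lit 282) (nat_lit 0) (nat_lit 0) (XT.nd (nat_lit 94) (nat_lit 0) (nat_lit 0) (XT.lf (nat_lit 0) (nat_lit 2256647706) (nat_lit 168) (nat_lit 22967548815) (nat_lit 0) (nat_lit 363698167) (nat_lit 5) (nat_lit 5) (nat_lit 7) (nat_lit 4) (nat_lit 5) (nat_lit 4) (nat_lit 374) (nat_lit 246) (nat_lit 241)) (XT.nd (nat_lit 94) (nat_lit 0) (nat_lit 0) (XT.lf (nat_lit 0) (nat_lit 4386051268) (nat_lit 168) (nat_lit 19762967572) (nat_lit 0) (nat_lit 2147967255) (nat_lit 5) (nat_lit 5) (nat_lit 7) (nat_lit 4) (nat_lit 5) (nat_lit 4) (nat_lit 375) (nat_lit 246) (nat_lit 240)) (XT.lf (nat_lit 0) (nat_lit 6534721748) (nat_lit 168) (nat_lit 16533046528) (nat_lit 0) (nat_lit 3961880727) (nat_lit 5) (nat_lit 5) (nat_lit 7) (nat_lit 4) (nat_lit 5) (nat_lit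 4) (nat_lit 376) (nat_lit 246) (nat_lit 239)))) (XT.nd (nat_lit 94) (nat_lit 0) (nat_lit 0) (XT.lf (nat_lit 0) (nat_lit 8704661931) (nat_lit 168) (nat_lit 13274775059) (nat_lit 0) (nat_lit 5807129341) (nat_lit 5) (nat_lit 5) (nat_lit 7) (nat_lit 4) (nat_lit 5) (nat_lit 4) (nat_lit 377) (nat_lit 246) (nat_lit 238)) (XT.nd (nat_lit 94) (nat_lit 0) (nat_lit 0) (XT.lf (nat_lit 0) (nat_lit 10897894428) (nat_lit 168) (nat_lit 9985116115) (nat_lit 0) (nat_lit 7685433062) (nat_lit 5) (nat_lit 5) (nat_lit 7) (nat_lit 4) (nat_lit 5) (nat_lit 4) (nat_lit 378) (nat_lit 246) (nat_lit 237)) (XT.lf (nat_lit 0) (nat_lit 13116463563) (nat_lit 168) (nat_lit 6661003388) (nat_lit 0) (nat_lit 9598542665) (nat_lit 5) (nat_lit 5) (nat_lit 7) (nat_lit 4) (nat_lit 5) (nat_lit 4) (nat_lit 379) (nat_lit 246) (nat_lit 236))))) (XT.nd (nat_lit 282) (nat_lit 0) (nat_lit 0) (XT.nd (nat_lit 94) (nat_lit 84) (nat_lit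 0) (XT.lf (nat_lit 0) (nat_lit 15362437273) (nat_lit 168) (nat_lit 3299338458) (nat_lit 0) (nat_lit 11548241370) (nat_lit 5) (nat_lit 5) (nat_lit 7) (nat_lit 4) (nat_lit 5) (nat_lit 4) (nat_lit 380) (nat_lit 246) (nat_lit 235)) (XT.nd (nat_lit 94) (nat_lit 0) (nat_lit 0) (XT.lf (nat_lit 0) (nat_lit 105130239) (nat_lit 84) (nat_lit 17533821708) (nat_lit 84) (nat_lit 13432259165) (nat_lit 4) (nat_lit 4) (nat_lit 5) (nat_lit 5) (nat_lit 5) (nat_lit 4) (nat_lit 381) (nat_lit 246) (nat_lit 234)) (XT.lf (nat_lit 0) (nat_lit 3622198866) (nat_lit 84) (nat_lit 16358733644) (nat_lit 84) (nat_lit 11978444970) (nat_lit 4) (nat_lit 4) (nat_lit 5) (nat_lit 5) (nat_lit 5) (nat_lit 4) (nat_lit 382) (nat_lit 246) (nat_lit 233)))) (XT.nd (nat_lit 188) (nat_lit 0) (nat_lit 0) (XT.nd (nat_lit 94) (nat_lit 0) (nat_lit 0) (XT.lf (nat_lit 0) (nat_lit 7187304534) (nat_lit 84) (nat_lit 15169854559) (nat_lit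 84) (nat_lit 10519220464) (nat_lit 4) (nat_lit 4) (nat_lit 5) (nat_lit 5) (nat_lit 5) (nat_lit 4) (nat_lit 383) (nat_lit 246) (nat_lit 232)) (XT.lf (nat_lit 0) (nat_lit 10803770293) (nat_lit 84) (nat_lit 13966076295) (nat_lit 84) (nat_lit 9053225496) (nat_lit 4) (nat_lit 4) (nat_lit 5) (nat_lit 5) (nat_lit 5) (nat_lit 4) (nat_lit 384) (nat_lit 246) (nat_lit 231))) (XT.nd (nat_lit 94) (nat_lit 0) (nat_lit 0) (XT.lf (nat_lit 0) (nat_lit 14474967070) (nat_lit 84) (nat_lit 12746276805) (nat_lit 84) (nat_lit 7579093605) (nat_lit 4) (nat_lit 4) (nat_lit 5) (nat_lit 5) (nat_lit 5) (nat_lit 4) (nat_lit 385) (nat_lit 246) (nat_lit 230)) (XT.lf (nat_lit 0) (nat_lit 18204316804) (nat_lit 84) (nat_lit 11509319106) (nat_lit 84) (nat_lit 6095450746) (nat_lit 4) (nat_lit 4) (nat_lit 5) (nat_lit 5) (nat_lit 5) (nat_lit 4) (nat_lit 386) (nat_lit 246) (nat_lit 229))))))))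
noncomputable def xc11 : XT := (XT.nd (nat_lit 2256) (nat_lit 84) (nat_lit 0) (XT.nd (nat_lit 1128) (nat_lit 0) (nat_lit 0) (XT.nd (nat_lit 564) (nat_lit 84) (nat_lit 0) (XT.nd (nat_lit 282) (nat_lit 84) (nat_lit 0) (XT.nd (nat_lit 94) (nat_lit 0) (nat_lit 0) (XT.lf (nat_lit 0) (nat_lit 21995295639) (nat_lit 84) (nat_lit 10254050225) (nat_lit 84) (nat_lit 4600914009) (nat_lit 4) (nat_lit 4) (nat_lit 5) (nat_lit 5) (nat_lit 5) (nat_lit 4) (nat_lit 387) (nat_lit 246) (nat_lit 228)) (XT.nd (nat_lit 94) (nat_lit 0) (nat_lit 0) (XT.lf (nat_lit 0) (nat_lit 25851437165) (nat_lit 84) (nat_lit 8979300120) (nat_lit 84) (nat_lit 3094090329) (nat_lit 4) (nat_lit 4) (nat_lit 5) (nat_lit 5) (nat_lit 5) (nat_lit 4) (nat_lit 388) (nat_lit 246) (nat_lit 227)) (XT.lf (nat_lit 0) (nat_lit 29776335711) (nat_lit 84) (nat_lit 7683880591) (nat_lit 84) (nat_lit 1573575188) (nat_lit 4) (nat_lit 4) (nat_lit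 5) (nat_lit 5) (nat_lit 5) (nat_lit 4) (nat_lit 389) (nat_lit 246) (nat_lit 226)))) (XT.nd (nat_lit 94) (nat_lit 84) (nat_lit 0) (XT.lf (nat_lit 0) (nat_lit 33773649692) (nat_lit 84) (nat_lit 6366584169) (nat_lit 84) (nat_lit 37951306) (nat_lit 4) (nat_lit 4) (nat_lit 5) (nat_lit 5) (nat_lit 5) (nat_lit 4) (nat_lit 390) (nat_lit 246) (nat_lit 225)) (XT.nd (nat_lit 94) (nat_lit 0) (nat_lit 0) (XT.lf (nat_lit 0) (nat_lit 1483704666) (nat_lit 168) (nat_lit 3526991499) (nat_lit 84) (nat_lit 36347913524) (nat_lit 3) (nat_lit 5) (nat_lit 5) (nat_lit 5) (nat_lit 4) (nat_lit 4) (nat_lit 391) (nat_lit 246) (nat_lit 224)) (XT.lf (nat_lit 0) (nat_lit 3022220491) (nat_lit 168) (nat_lit 607661409) (nat_lit 84) (nat_lit 38946732318) (nat_lit 3) (nat_lit 5) (nat_lit 5) (nat_lit 5) (nat_lit 4) (nat_lit 4) (nat_lit 392) (nat_lit 246) (nat_lit 223))))) (XT.nd (nat_lit 282) (nat_lit 0) (nat_lit 0) (XT.nd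 (nat_lit 94) (nat_lit 0) (nat_lit 0) (XT.lf (nat_lit 0) (nat_lit 2405007945) (nat_lit 84) (nat_lit 2198644891) (nat_lit 168) (nat_lit 39228953303) (nat_lit 2) (nat_lit 5) (nat_lit 3) (nat_lit 5) (nat_lit 4) (nat_lit 4) (nat_lit 393) (nat_lit 246) (nat_lit 222)) (XT.nd (nat_lit 94) (nat_lit 0) (nat_lit 0) (XT.lf (nat_lit 0) (nat_lit 5478798452) (nat_lit 84) (nat_lit 733431502) (nat_lit 168) (nat_lit 38916060833) (nat_lit 2) (nat_lit 5) (nat_lit 3) (nat_lit 5) (nat_lit 4) (nat_lit 4) (nat_lit 394) (nat_lit 246) (nat_lit 221)) (XT.lf (nat_lit 0) (nat_lit 7850846227) (nat_lit 168) (nat_lit 37868533195) (nat_lit 0) (nat_lit 745453210) (nat_lit 2) (nat_lit 5) (nat_lit 4) (nat_lit 4) (nat_lit 2) (nat_lit 4) (nat_lit 395) (nat_lit 246) (nat_lit 220)))) (XT.nd (nat_lit 94) (nat_lit 0) (nat_lit 0) (XT.lf (nat_lit 0) (nat_lit 9521052160) (nat_lit 168) (nat_lit 36083083876) (nat_lit 0) (nat_lit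 2239340715) (nat_lit 2) (nat_lit 5) (nat_lit 4) (nat_lit 4) (nat_lit 2) (nat_lit 4) (nat_lit 396) (nat_lit 246) (nat_lit 219)) (XT.nd (nat_lit 94) (nat_lit 0) (nat_lit 0) (XT.lf (nat_lit 0) (nat_lit 11217128829) (nat_lit 168) (nat_lit 34284204423) (nat_lit 0) (nat_lit 3764400481) (nat_lit 2) (nat_lit 5) (nat_lit 4) (nat_lit 4) (nat_lit 2) (nat_lit 4) (nat_lit 397) (nat_lit 246) (nat_lit 218)) (XT.lf (nat_lit 0) (nat_lit 12940657157) (nat_lit 168) (nat_lit 32470218091) (nat_lit 0) (nat_lit 5322054023) (nat_lit 2) (nat_lit 5) (nat_lit 4) (nat_lit 4) (nat_lit 2) (nat_lit 4) (nat_lit 398) (nat_lit 246) (nat_lit 217)))))) (XT.nd (nat_lit 564) (nat_lit 0) (nat_lit 0) (XT.nd (nat_lit 282) (nat_lit 0) (nat_lit 0) (XT.nd (nat_lit 94) (nat_lit 0) (nat_lit 0) (XT.lf (nat_lit 0) (nat_lit 14693243652) (nat_lit 168) (nat_lit 30639434056) (nat_lit 0) (nat_lit 6913753237) (nat_lit 2) (nat_lit 5) (nat_lit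 4) (nat_lit 4) (nat_lit 2) (nat_lit 4) (nat_lit 399) (nat_lit 246) (nat_lit 216)) (XT.nd (nat_lit 94) (nat_lit 0) (nat_lit 0) (XT.lf (nat_lit 0) (nat_lit 16476521908) (nat_lit 168) (nat_lit 28790145834) (nat_lit 0) (nat_lit 8540981755) (nat_lit 2) (nat_lit 5) (nat_lit 4) (nat_lit 4) (nat_lit 2) (nat_lit 4) (nat_lit 400) (nat_lit 246) (nat_lit 215)) (XT.lf (nat_lit 0) (nat_lit 18292154127) (nat_lit 168) (nat_lit 26920629695) (nat_lit 0) (nat_lit 10205256323) (nat_lit 2) (nat_lit 5) (nat_lit 4) (nat_lit 4) (nat_lit 2) (nat_lit 4) (nat_lit 401) (nat_lit 246) (nat_lit 214)))) (XT.nd (nat_lit 94) (nat_lit 0) (nat_lit 0) (XT.lf (nat_lit 0) (nat_lit 20141832669) (nat_lit 168) (nat_lit 25029143055) (nat_lit 0) (nat_lit 11908128220) (nat_lit 2) (nat_lit 5) (nat_lit 4) (nat_lit 4) (nat_lit 2) (nat_lit 4) (nat_lit 402) (nat_lit 246) (nat_lit 213)) (XT.nd (nat_lit 94) (nat_lit 0) (nat_lit 0) (XT.lf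 (nat_lit 0) (nat_lit 22027281628) (nat_lit 168) (nat_lit 23113922849) (nat_lit 0) (nat_lit 13651184701) (nat_lit 2) (nat_lit 5) (nat_lit 4) (nat_lit 4) (nat_lit 2) (nat_lit 4) (nat_lit 403) (nat_lit 246) (nat_lit 212)) (XT.lf (nat_lit 0) (nat_lit 23950258440) (nat_lit 168) (nat_lit 21173183893) (nat_lit 0) (nat_lit 15436050476) (nat_lit 2) (nat_lit 5) (nat_lit 4) (nat_lit 4) (nat_lit 2) (nat_lit 4) (nat_lit 404) (nat_lit 246) (nat_lit 211))))) (XT.nd (nat_lit 282) (nat_lit 0) (nat_lit 0) (XT.nd (nat_lit 94) (nat_lit 0) (nat_lit 0) (XT.lf (nat_lit 0) (nat_lit 25912555520) (nat_lit 168) (nat_lit 19205117213) (nat_lit 0) (nat_lit 17264389229) (nat_lit 2) (nat_lit 5) (nat_lit 4) (nat_lit 4) (nat_lit 2) (nat_lit 4) (nat_lit 405) (nat_lit 246) (nat_lit 210)) (XT.nd (nat_lit 94) (nat_lit 0) (nat_lit 0) (XT.lf (nat_lit 0) (nat_lit 27916001936) (nat_lit 168) (nat_lit 17207888366) (nat_lit 0)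 (nat_lit 19137905161) (nat_lit 2) (nat_lit 5) (nat_lit 4) (nat_lit 4) (nat_lit 2) (nat_lit 4) (nat_lit 406) (nat_lit 246) (nat_lit 209)) (XT.lf (nat_lit 0) (nat_lit 29962465108) (nat_lit 168) (nat_lit 15179635725) (nat_lit 0) (nat_lit 21058344587) (nat_lit 2) (nat_lit 5) (nat_lit 4) (nat_lit 4) (nat_lit 2) (nat_lit 4) (nat_lit 407) (nat_lit 246) (nat_lit 208)))) (XT.nd (nat_lit 94) (nat_lit 0) (nat_lit 0) (XT.lf (nat_lit 0) (nat_lit 32053852556) (nat_lit 168) (nat_lit 13118468746) (nat_lit 0) (nat_lit 23027497557) (nat_lit 2) (nat_lit 5) (nat_lit 4) (nat_lit 4) (nat_lit 2) (nat_lit 4) (nat_lit 408) (nat_lit 246) (nat_lit 207)) (XT.nd (nat_lit 94) (nat_lit 0) (nat_lit 0) (XT.lf (nat_lit 0) (nat_lit 34192113671) (nat_lit 168) (nat_lit 11022466206) (nat_lit 0) (nat_lit 25047199527) (nat_lit 2) (nat_lit 5) (nat_lit 4) (nat_lit 4) (nat_lit 2) (nat_lit 4) (nat_lit 409) (nat_lit 246) (nat_lit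 206)) (XT.lf (nat_lit 0) (nat_lit 36379241536) (nat_lit 168) (nat_lit 8889674411) (nat_lit 0) (nat_lit 27119333072) (nat_lit 2) (nat_lit 5) (nat_lit 4) (nat_lit 4) (nat_lit 2) (nat_lit 4) (nat_lit 410) (nat_lit 246) (nat_lit 205))))))) (XT.nd (nat_lit 50102) (nat_lit 0) (nat_lit 336) (XT.nd (nat_lit 564) (nat_lit 0) (nat_lit 0) (XT.nd (nat_lit 282) (nat_lit 84) (nat_lit 0) (XT.nd (nat_lit 94) (nat_lit 0) (nat_lit 0) (XT.lf (nat_lit 0) (nat_lit 38617274784) (nat_lit 168) (nat_lit 6718105375) (nat_lit 0) (nat_lit 29245829636) (nat_lit 2) (nat_lit 5) (nat_lit 4) (nat_lit 4) (nat_lit 2) (nat_lit 4) (nat_lit 411) (nat_lit 246) (nat_lit 204)) (XT.nd (nat_lit 94) (nat_lit 0) (nat_lit 0) (XT.lf (nat_lit 0) (nat_lit 40908299497) (nat_lit 168) (nat_lit 4505734968) (nat_lit 0) (nat_lit 31428671339) (nat_lit 2) (nat_lit 5) (nat_lit 4) (nat_lit 4) (nat_lit 2) (nat_lit 4) (nat_lit 412) (nat_lit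 246) (nat_lit 203)) (XT.lf (nat_lit 0) (nat_lit 43254451149) (nat_lit 168) (nat_lit 2250501030) (nat_lit 0) (nat_lit 33669892816) (nat_lit 2) (nat_lit 5) (nat_lit 4) (nat_lit 4) (nat_lit 2) (nat_lit 4) (nat_lit 413) (nat_lit 246) (nat_lit 202)))) (XT.nd (nat_lit 94) (nat_lit 0) (nat_lit 0) (XT.lf (nat_lit 0) (nat_lit 50720457) (nat_lit 84) (nat_lit 45607699295) (nat_lit 84) (nat_lit 35921365817) (nat_lit 1) (nat_lit 4) (nat_lit 2) (nat_lit 5) (nat_lit 2) (nat_lit 4) (nat_lit 414) (nat_lit 246) (nat_lit 201)) (XT.nd (nat_lit 94) (nat_lit 0) (nat_lit 0) (XT.lf (nat_lit 0) (nat_lit 2446295206) (nat_lit 84) (nat_lit 45698908474) (nat_lit 84) (nat_lit 35913860015) (nat_lit 1) (nat_lit 4) (nat_lit 2) (nat_lit 5) (nat_lit 2) (nat_lit 4) (nat_lit 415) (nat_lit 246) (nat_lit 200)) (XT.lf (nat_lit 0) (nat_lit 4892181226) (nat_lit 84) (nat_lit 45802155349) (nat_lit 84) (nat_lit 35921360061) (nat_lit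 1) (nat_lit 4) (nat_lit 2) (nat_lit 5) (nat_lit 2) (nat_lit 4) (nat_lit 416) (nat_lit 246) (nat_lit 199))))) (XT.nd (nat_lit 282) (nat_lit 0) (nat_lit 0) (XT.nd (nat_lit 94) (nat_lit 0) (nat_lit 0) (XT.lf (nat_lit 0) (nat_lit 7390658339) (nat_lit 84) (nat_lit 45917536156) (nat_lit 84) (nat_lit 35943872944) (nat_lit 1) (nat_lit 4) (nat_lit 2) (nat_lit 5) (nat_lit 2) (nat_lit 4) (nat_lit 417) (nat_lit 246) (nat_lit 198)) (XT.nd (nat_lit 94) (nat_lit 0) (nat_lit 0) (XT.lf (nat_lit 0) (nat_lit 9944055387) (nat_lit 84) (nat_lit 46045158442) (nat_lit 84) (nat_lit 35981419650) (nat_lit 1) (nat_lit 4) (nat_lit 2) (nat_lit 5) (nat_lit 2) (nat_lit 4) (nat_lit 418) (nat_lit 246) (nat_lit 197)) (XT.lf (nat_lit 0) (nat_lit 12554752404) (nat_lit 84) (nat_lit 46185141165) (nat_lit 84) (nat_lit 36034035176) (nat_lit 1) (nat_lit 4) (nat_lit 2) (nat_lit 5) (nat_lit 2) (nat_lit 4) (nat_lit 419) (nat_lit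 246) (nat_lit 196)))) (XT.nd (nat_lit 49068) (nat_lit 0) (nat_lit 504) (XT.lf (nat_lit 0) (nat_lit 15225182832) (nat_lit 84) (nat_lit 46337614803) (nat_lit 84) (nat_lit 36101768565) (nat_lit 1) (nat_lit 4) (nat_lit 2) (nat_lit 5) (nat_lit 2) (nat_lit 4) (nat_lit 420) (nat_lit 246) (nat_lit 195)) (XT.nd (nat_lit 94) (nat_lit 168) (nat_lit 0) (XT.lf (nat_lit 0) (nat_lit 4762913644) (nat_lit 168) (nat_lit 1081710897) (nat_lit 0) (nat_lit 4762913644) (nat_lit 9) (nat_lit 5) (nat_lit 11) (nat_lit 4) (nat_lit 9) (nat_lit 4) (nat_lit 367) (nat_lit 247) (nat_lit 247)) (XT.lf (nat_lit 0) (nat_lit 1947184540) (nat_lit 168) (nat_lit 10130294887) (nat_lit 168) (nat_lit 9702929841) (nat_lit 7) (nat_lit 4) (nat_lit 9) (nat_lit 5) (nat_lit 9) (nat_lit 4) (nat_lit 368) (nat_lit 247) (nat_lit 246)))))) (XT.nd (nat_lit 564) (nat_lit 0) (nat_lit 0) (XT.nd (nat_lit 282) (nat_lit 168) (nat_lit 0) (XT.nd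 (nat_lit 94) (nat_lit 0) (nat_lit 0) (XT.lf (nat_lit 0) (nat_lit 6146849751) (nat_lit 168) (nat_lit 8529726643) (nat_lit 168) (nat_lit 7687846518) (nat_lit 7) (nat_lit 4) (nat_lit 9) (nat_lit 5) (nat_lit 9) (nat_lit 4) (nat_lit 369) (nat_lit 247) (nat_lit 245)) (XT.nd (nat_lit 94) (nat_lit 0) (nat_lit 0) (XT.lf (nat_lit 0) (nat_lit 10395003976) (nat_lit 168) (nat_lit 6908634141) (nat_lit 168) (nat_lit 5664702533) (nat_lit 7) (nat_lit 4) (nat_lit 9) (nat_lit 5) (nat_lit 9) (nat_lit 4) (nat_lit 370) (nat_lit 247) (nat_lit 244)) (XT.lf (nat_lit 0) (nat_lit 14695606942) (nat_lit 168) (nat_lit 5265506353) (nat_lit 168) (nat_lit 3631612103) (nat_lit 7) (nat_lit 4) (nat_lit 9) (nat_lit 5) (nat_lit 9) (nat_lit 4) (nat_lit 371) (nat_lit 247) (nat_lit 243)))) (XT.nd (nat_lit 94) (nat_lit 168) (nat_lit 0) (XT.lf (nat_lit 0) (nat_lit 19052667259) (nat_lit 168) (nat_lit 3598811711) (nat_lit 168)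 (nat_lit 1586680176) (nat_lit 7) (nat_lit 4) (nat_lit 9) (nat_lit 5) (nat_lit 9) (nat_lit 4) (nat_lit 372) (nat_lit 247) (nat_lit 242)) (XT.nd (nat_lit 94) (nat_lit 84) (nat_lit 0) (XT.lf (nat_lit 0) (nat_lit 462489604) (nat_lit 252) (nat_lit 1439679634) (nat_lit 84) (nat_lit 23002929117) (nat_lit 6) (nat_lit 5) (nat_lit 9) (nat_lit 5) (nat_lit 7) (nat_lit 4) (nat_lit 373) (nat_lit 247) (nat_lit 241)) (XT.lf (nat_lit 0) (nat_lit 2380564032) (nat_lit 84) (nat_lit 138093622) (nat_lit 168) (nat_lit 23074427476) (nat_lit 5) (nat_lit 5) (nat_lit 6) (nat_lit 5) (nat_lit 7) (nat_lit 4) (nat_lit 374) (nat_lit 247) (nat_lit 240))))) (XT.nd (nat_lit 282) (nat_lit 0) (nat_lit 0) (XT.nd (nat_lit 94) (nat_lit 0) (nat_lit 0) (XT.lf (nat_lit 0) (nat_lit 4623675755) (nat_lit 168) (nat_lit 20043006295) (nat_lit 0) (nat_lit 1636319655) (nat_lit 5) (nat_lit 5) (nat_lit 7) (nat_lit 4) (nat_lit 5) (nat_lit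 4) (nat_lit 375) (nat_lit 247) (nat_lit 239)) (XT.nd (nat_lit 94) (nat_lit 0) (nat_lit 0) (XT.lf (nat_lit 0) (nat_lit 6750022708) (nat_lit 168) (nat_lit 16848426033) (nat_lit 0) (nat_lit 3437975040) (nat_lit 5) (nat_lit 5) (nat_lit 7) (nat_lit 4) (nat_lit 5) (nat_lit 4) (nat_lit 376) (nat_lit 247) (nat_lit 238)) (XT.lf (nat_lit 0) (nat_lit 8898310586) (nat_lit 168) (nat_lit 13624432722) (nat_lit 0) (nat_lit 5271334141) (nat_lit 5) (nat_lit 5) (nat_lit 7) (nat_lit 4) (nat_lit 5) (nat_lit 4) (nat_lit 377) (nat_lit 247) (nat_lit 237)))) (XT.nd (nat_lit 188) (nat_lit 0) (nat_lit 0) (XT.nd (nat_lit 94) (nat_lit 0) (nat_lit 0) (XT.lf (nat_lit 0) (nat_lit 11070541818) (nat_lit 168) (nat_lit 10368021264) (nat_lit 0) (nat_lit 7138105842) (nat_lit 5) (nat_lit 5) (nat_lit 7) (nat_lit 4) (nat_lit 5) (nat_lit 4) (nat_lit 378) (nat_lit 247) (nat_lit 236)) (XT.lf (nat_lit 0) (nat_lit 13268741151)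 (nat_lit 168) (nat_lit 7076156342) (nat_lit 0) (nat_lit 9040030169) (nat_lit 5) (nat_lit 5) (nat_lit 7) (nat_lit 4) (nat_lit 5) (nat_lit 4) (nat_lit 379) (nat_lit 247) (nat_lit 235))) (XT.nd (nat_lit 94) (nat_lit 0) (nat_lit 0) (XT.lf (nat_lit 0) (nat_lit 15494957537) (nat_lit 168) (nat_lit 3745769592) (nat_lit 0) (nat_lit 10978879915) (nat_lit 5) (nat_lit 5) (nat_lit 7) (nat_lit 4) (nat_lit 5) (nat_lit 4) (nat_lit 380) (nat_lit 247) (nat_lit 234)) (XT.lf (nat_lit 0) (nat_lit 17751266044) (nat_lit 168) (nat_lit 373756747) (nat_lit 0) (nat_lit 12956462291) (nat_lit 5) (nat_lit 5) (nat_lit 7) (nat_lit 4) (nat_lit 5) (nat_lit 4) (nat_lit 381) (nat_lit 247) (nat_lit 233))))))))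
noncomputable def xc12 : XT := (XT.nd (nat_lit 2256) (nat_lit 84) (nat_lit 0) (XT.nd (nat_lit 1128) (nat_lit 0) (nat_lit 0) (XT.nd (nat_lit 564) (nat_lit 168) (nat_lit 0) (XT.nd (nat_lit 282) (nat_lit 0) (nat_lit 0) (XT.nd (nat_lit 94) (nat_lit 0) (nat_lit 0) (XT.lf (nat_lit 0) (nat_lit 3105596105) (nat_lit 84) (nat_lit 16964981578) (nat_lit 84) (nat_lit 11899832404) (nat_lit 4) (nat_lit 4) (nat_lit 5) (nat_lit 5) (nat_lit 5) (nat_lit 4) (nat_lit 382) (nat_lit 247) (nat_lit 232)) (XT.nd (nat_lit 94) (nat_lit 0) (nat_lit 0) (XT.lf (nat_lit 0) (nat_lit 6641574158) (nat_lit 84) (nat_lit 15786912968) (nat_lit 84) (nat_lit 10459547089) (nat_lit 4) (nat_lit 4) (nat_lit 5) (nat_lit 5) (nat_lit 5) (nat_lit 4) (nat_lit 383) (nat_lit 247) (nat_lit 231)) (XT.lf (nat_lit 0) (nat_lit 10229788110) (nat_lit 84) (nat_lit 14593620129) (nat_lit 84) (nat_lit 9011921851) (nat_lit 4) (nat_lit 4) (nat_lit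 5) (nat_lit 5) (nat_lit 5) (nat_lit 4) (nat_lit 384) (nat_lit 247) (nat_lit 230)))) (XT.nd (nat_lit 94) (nat_lit 0) (nat_lit 0) (XT.lf (nat_lit 0) (nat_lit 13873582551) (nat_lit 84) (nat_lit 13383990789) (nat_lit 84) (nat_lit 7555607351) (nat_lit 4) (nat_lit 4) (nat_lit 5) (nat_lit 5) (nat_lit 5) (nat_lit 4) (nat_lit 385) (nat_lit 247) (nat_lit 229)) (XT.nd (nat_lit 94) (nat_lit 0) (nat_lit 0) (XT.lf (nat_lit 0) (nat_lit 17576353880) (nat_lit 84) (nat_lit 12156897446) (nat_lit 84) (nat_lit 6089246152) (nat_lit 4) (nat_lit 4) (nat_lit 5) (nat_lit 5) (nat_lit 5) (nat_lit 4) (nat_lit 386) (nat_lit 247) (nat_lit 228)) (XT.lf (nat_lit 0) (nat_lit 21341553468) (nat_lit 84) (nat_lit 10911196321) (nat_lit 84) (nat_lit 4611471451) (nat_lit 4) (nat_lit 4) (nat_lit 5) (nat_lit 5) (nat_lit 5) (nat_lit 4) (nat_lit 387) (nat_lit 247) (nat_lit 227))))) (XT.nd (nat_lit 282) (nat_lit 168) (nat_lit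 0) (XT.nd (nat_lit 94) (nat_lit 0) (nat_lit 0) (XT.lf (nat_lit 0) (nat_lit 25172690874) (nat_lit 84) (nat_lit 9645726289) (nat_lit 84) (nat_lit 3120905807) (nat_lit 4) (nat_lit 4) (nat_lit 5) (nat_lit 5) (nat_lit 5) (nat_lit 4) (nat_lit 388) (nat_lit 247) (nat_lit 226)) (XT.nd (nat_lit 94) (nat_lit 0) (nat_lit 0) (XT.lf (nat_lit 0) (nat_lit 29073337120) (nat_lit 84) (nat_lit 8359307800) (nat_lit 84) (nat_lit 1616159858) (nat_lit 4) (nat_lit 4) (nat_lit 5) (nat_lit 5) (nat_lit 5) (nat_lit 4) (nat_lit 389) (nat_lit 247) (nat_lit 225)) (XT.lf (nat_lit 0) (nat_lit 33047128017) (nat_lit 84) (nat_lit 7050741778) (nat_lit 84) (nat_lit 95831023) (nat_lit 4) (nat_lit 4) (nat_lit 5) (nat_lit 5) (nat_lit 5) (nat_lit 4) (nat_lit 390) (nat_lit 247) (nat_lit 224)))) (XT.nd (nat_lit 94) (nat_lit 84) (nat_lit 0) (XT.lf (nat_lit 0) (nat_lit 1412454836) (nat_lit 168) (nat_lit 4291610533) (nat_lit 84)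 (nat_lit 35670569587) (nat_lit 3) (nat_lit 5) (nat_lit 5) (nat_lit 5) (nat_lit 4) (nat_lit 4) (nat_lit 391) (nat_lit 247) (nat_lit 223)) (XT.nd (nat_lit 94) (nat_lit 84) (nat_lit 0) (XT.lf (nat_lit 0) (nat_lit 2936871475) (nat_lit 168) (nat_lit 1394740077) (nat_lit 84) (nat_lit 38261504963) (nat_lit 3) (nat_lit 5) (nat_lit 5) (nat_lit 5) (nat_lit 4) (nat_lit 4) (nat_lit 392) (nat_lit 247) (nat_lit 222)) (XT.lf (nat_lit 0) (nat_lit 1579513075) (nat_lit 84) (nat_lit 2916926482) (nat_lit 168) (nat_lit 39353385427) (nat_lit 2) (nat_lit 5) (nat_lit 3) (nat_lit 5) (nat_lit 4) (nat_lit 4) (nat_lit 393) (nat_lit 247) (nat_lit 221)))))) (XT.nd (nat_lit 564) (nat_lit 0) (nat_lit 0) (XT.nd (nat_lit 282) (nat_lit 0) (nat_lit 0) (XT.nd (nat_lit 94) (nat_lit 0) (nat_lit 0) (XT.lf (nat_lit 0) (nat_lit 4631739808) (nat_lit 84) (nat_lit 1459798885) (nat_lit 168) (nat_lit 39054426345) (nat_lit 2) (nat_lit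 5) (nat_lit 3) (nat_lit 5) (nat_lit 4) (nat_lit 4) (nat_lit 394) (nat_lit 247) (nat_lit 220)) (XT.nd (nat_lit 94) (nat_lit 0) (nat_lit 0) (XT.lf (nat_lit 0) (nat_lit 7709798783) (nat_lit 168) (nat_lit 38747339744) (nat_lit 0) (nat_lit 26035855) (nat_lit 2) (nat_lit 5) (nat_lit 4) (nat_lit 4) (nat_lit 2) (nat_lit 4) (nat_lit 395) (nat_lit 247) (nat_lit 219)) (XT.lf (nat_lit 0) (nat_lit 9367249596) (nat_lit 168) (nat_lit 36982529910) (nat_lit 0) (nat_lit 1512469765) (nat_lit 2) (nat_lit 5) (nat_lit 4) (nat_lit 4) (nat_lit 2) (nat_lit 4) (nat_lit 396) (nat_lit 247) (nat_lit 218)))) (XT.nd (nat_lit 94) (nat_lit 0) (nat_lit 0) (XT.lf (nat_lit 0) (nat_lit 11050954667) (nat_lit 168) (nat_lit 35203669357) (nat_lit 0) (nat_lit 3030300049) (nat_lit 2) (nat_lit 5) (nat_lit 4) (nat_lit 4) (nat_lit 2) (nat_lit 4) (nat_lit 397) (nat_lit 247) (nat_lit 217)) (XT.nd (nat_lit 94) (nat_lit 0) (nat_lit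 0) (XT.lf (nat_lit 0) (nat_lit 12762483383) (nat_lit 168) (nat_lit 33409099998) (nat_lit 0) (nat_lit 4580941485) (nat_lit 2) (nat_lit 5) (nat_lit 4) (nat_lit 4) (nat_lit 2) (nat_lit 4) (nat_lit 398) (nat_lit 247) (nat_lit 216)) (XT.lf (nat_lit 0) (nat_lit 14503431069) (nat_lit 168) (nat_lit 31597149108) (nat_lit 0) (nat_lit 6165839433) (nat_lit 2) (nat_lit 5) (nat_lit 4) (nat_lit 4) (nat_lit 2) (nat_lit 4) (nat_lit 399) (nat_lit 247) (nat_lit 215))))) (XT.nd (nat_lit 282) (nat_lit 0) (nat_lit 0) (XT.nd (nat_lit 94) (nat_lit 0) (nat_lit 0) (XT.lf (nat_lit 0) (nat_lit 16275420471) (nat_lit 168) (nat_lit 29766127759) (nat_lit 0) (nat_lit 7786471184) (nat_lit 2) (nat_lit 5) (nat_lit 4) (nat_lit 4) (nat_lit 2) (nat_lit 4) (nat_lit 400) (nat_lit 247) (nat_lit 214)) (XT.nd (nat_lit 94) (nat_lit 0) (nat_lit 0) (XT.lf (nat_lit 0) (nat_lit 18080103268) (nat_lit 168) (nat_lit 27914329246) (nat_lit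 0) (nat_lit 9444347336) (nat_lit 2) (nat_lit 5) (nat_lit 4) (nat_lit 4) (nat_lit 2) (nat_lit 4) (nat_lit 401) (nat_lit 247) (nat_lit 213)) (XT.lf (nat_lit 0) (nat_lit 19919161614) (nat_lit 168) (nat_lit 26040027501) (nat_lit 0) (nat_lit 11141013204) (nat_lit 2) (nat_lit 5) (nat_lit 4) (nat_lit 4) (nat_lit 2) (nat_lit 4) (nat_lit 402) (nat_lit 247) (nat_lit 212)))) (XT.nd (nat_lit 94) (nat_lit 0) (nat_lit 0) (XT.lf (nat_lit 0) (nat_lit 21794309704) (nat_lit 168) (nat_lit 24141475476) (nat_lit 0) (nat_lit 12878050258) (nat_lit 2) (nat_lit 5) (nat_lit 4) (nat_lit 4) (nat_lit 2) (nat_lit 4) (nat_lit 403) (nat_lit 247) (nat_lit 211)) (XT.nd (nat_lit 94) (nat_lit 0) (nat_lit 0) (XT.lf (nat_lit 0) (nat_lit 23707295373) (nat_lit 168) (nat_lit 22216903523) (nat_lit 0) (nat_lit 14657077598) (nat_lit 2) (nat_lit 5) (nat_lit 4) (nat_lit 4) (nat_lit 2) (nat_lit 4) (nat_lit 404) (nat_lit 247) (nat_lit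 210)) (XT.lf (nat_lit 0) (nat_lit 25659901722) (nat_lit 168) (nat_lit 20264517739) (nat_lit 0) (nat_lit 16479753465) (nat_lit 2) (nat_lit 5) (nat_lit 4) (nat_lit 4) (nat_lit 2) (nat_lit 4) (nat_lit 405) (nat_lit 247) (nat_lit 209))))))) (XT.nd (nat_lit 1128) (nat_lit 0) (nat_lit 0) (XT.nd (nat_lit 564) (nat_lit 84) (nat_lit 0) (XT.nd (nat_lit 282) (nat_lit 0) (nat_lit 0) (XT.nd (nat_lit 94) (nat_lit 0) (nat_lit 0) (XT.lf (nat_lit 0) (nat_lit 27653948787) (nat_lit 168) (nat_lit 18282498297) (nat_lit 0) (nat_lit 18347776782) (nat_lit 2) (nat_lit 5) (nat_lit 4) (nat_lit 4) (nat_lit 2) (nat_lit 4) (nat_lit 406) (nat_lit 247) (nat_lit 208)) (XT.nd (nat_lit 94) (nat_lit 0) (nat_lit 0) (XT.lf (nat_lit 0) (nat_lit 29691295227) (nat_lit 168) (nat_lit 16268997745) (nat_lit 0) (nat_lit 20262888744) (nat_lit 2) (nat_lit 5) (nat_lit 4) (nat_lit 4) (nat_lit 2) (nat_lit 4) (nat_lit 407) (nat_lit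 247) (nat_lit 207)) (XT.lf (nat_lit 0) (nat_lit 31773840063) (nat_lit 168) (nat_lit 14222139292) (nat_lit 0) (nat_lit 22226874436) (nat_lit 2) (nat_lit 5) (nat_lit 4) (nat_lit 4) (nat_lit 2) (nat_lit 4) (nat_lit 408) (nat_lit 247) (nat_lit 206)))) (XT.nd (nat_lit 94) (nat_lit 0) (nat_lit 0) (XT.lf (nat_lit 0) (nat_lit 33903524445) (nat_lit 168) (nat_lit 12140015050) (nat_lit 0) (nat_lit 24241564498) (nat_lit 2) (nat_lit 5) (nat_lit 4) (nat_lit 4) (nat_lit 2) (nat_lit 4) (nat_lit 409) (nat_lit 247) (nat_lit 205)) (XT.nd (nat_lit 94) (nat_lit 0) (nat_lit 0) (XT.lf (nat_lit 0) (nat_lit 36082333462) (nat_lit 168) (nat_lit 10020684261) (nat_lit 0) (nat_lit 26308836831) (nat_lit 2) (nat_lit 5) (nat_lit 4) (nat_lit 4) (nat_lit 2) (nat_lit 4) (nat_lit 410) (nat_lit 247) (nat_lit 204)) (XT.lf (nat_lit 0) (nat_lit 38312297993) (nat_lit 168) (nat_lit 7862171488) (nat_lit 0) (nat_lit 28430618351)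 (nat_lit 2) (nat_lit 5) (nat_lit 4) (nat_lit 4) (nat_lit 2) (nat_lit 4) (nat_lit 411) (nat_lit 247) (nat_lit 203))))) (XT.nd (nat_lit 282) (nat_lit 84) (nat_lit 0) (XT.nd (nat_lit 94) (nat_lit 0) (nat_lit 0) (XT.lf (nat_lit 0) (nat_lit 40595496596) (nat_lit 168) (nat_lit 5662464770) (nat_lit 0) (nat_lit 30608886781) (nat_lit 2) (nat_lit 5) (nat_lit 4) (nat_lit 4) (nat_lit 2) (nat_lit 4) (nat_lit 412) (nat_lit 247) (nat_lit 202)) (XT.nd (nat_lit 94) (nat_lit 0) (nat_lit 0) (XT.lf (nat_lit 0) (nat_lit 42934057454) (nat_lit 168) (nat_lit 3419513749) (nat_lit 0) (nat_lit 32845672493) (nat_lit 2) (nat_lit 5) (nat_lit 4) (nat_lit 4) (nat_lit 2) (nat_lit 4) (nat_lit 413) (nat_lit 247) (nat_lit 201)) (XT.lf (nat_lit 0) (nat_lit 45330160350) (nat_lit 168) (nat_lit 1131227762) (nat_lit 0) (nat_lit 35143060408) (nat_lit 2) (nat_lit 5) (nat_lit 4) (nat_lit 4) (nat_lit 2) (nat_lit 4) (nat_lit 414)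 (nat_lit 247) (nat_lit 200)))) (XT.nd (nat_lit 94) (nat_lit 0) (nat_lit 0) (XT.lf (nat_lit 0) (nat_lit 1229293641) (nat_lit 84) (nat_lit 46568939805) (nat_lit 84) (nat_lit 36286093034) (nat_lit 1) (nat_lit 4) (nat_lit 2) (nat_lit 5) (nat_lit 2) (nat_lit 4) (nat_lit 415) (nat_lit 247) (nat_lit 199)) (XT.nd (nat_lit 94) (nat_lit 0) (nat_lit 0) (XT.lf (nat_lit 0) (nat_lit 3663741269) (nat_lit 84) (nat_lit 46676585143) (nat_lit 84) (nat_lit 36300870449) (nat_lit 1) (nat_lit 4) (nat_lit 2) (nat_lit 5) (nat_lit 2) (nat_lit 4) (nat_lit 416) (nat_lit 247) (nat_lit 198)) (XT.lf (nat_lit 0) (nat_lit 6151123919) (nat_lit 84) (nat_lit 46796232161) (nat_lit 84) (nat_lit 36330441886) (nat_lit 1) (nat_lit 4) (nat_lit 2) (nat_lit 5) (nat_lit 2) (nat_lit 4) (nat_lit 417) (nat_lit 247) (nat_lit 197)))))) (XT.nd (nat_lit 49350) (nat_lit 0) (nat_lit 336) (XT.nd (nat_lit 49068) (nat_lit 0) (nat_lit 672)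 (XT.nd (nat_lit 94) (nat_lit 0) (nat_lit 0) (XT.lf (nat_lit 0) (nat_lit 8693760090) (nat_lit 84) (nat_lit 46927992382) (nat_lit 84) (nat_lit 36374834910) (nat_lit 1) (nat_lit 4) (nat_lit 2) (nat_lit 5) (nat_lit 2) (nat_lit 4) (nat_lit 418) (nat_lit 247) (nat_lit 196)) (XT.nd (nat_lit 94) (nat_lit 0) (nat_lit 0) (XT.lf (nat_lit 0) (nat_lit 11294019787) (nat_lit 84) (nat_lit 47071988621) (nat_lit 84) (nat_lit 36434090899) (nat_lit 1) (nat_lit 4) (nat_lit 2) (nat_lit 5) (nat_lit 2) (nat_lit 4) (nat_lit 419) (nat_lit 247) (nat_lit 195)) (XT.lf (nat_lit 0) (nat_lit 13954326725) (nat_lit 84) (nat_lit 47228355097) (nat_lit 84) (nat_lit 36508265087) (nat_lit 1) (nat_lit 4) (nat_lit 2) (nat_lit 5) (nat_lit 2) (nat_lit 4) (nat_lit 420) (nat_lit 247) (nat_lit 194)))) (XT.nd (nat_lit 94) (nat_lit 0) (nat_lit 0) (XT.lf (nat_lit 0) (nat_lit 2497798783) (nat_lit 168) (nat_lit 5073544078) (nat_lit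 0) (nat_lit 2497798783) (nat_lit 9) (nat_lit 5) (nat_lit 11) (nat_lit 4) (nat_lit 9) (nat_lit 4) (nat_lit 365) (nat_lit 248) (nat_lit 248)) (XT.nd (nat_lit 94) (nat_lit 0) (nat_lit 0) (XT.lf (nat_lit 0) (nat_lit 7456844364) (nat_lit 168) (nat_lit 6194915238) (nat_lit 0) (nat_lit 7016231001) (nat_lit 9) (nat_lit 5) (nat_lit 11) (nat_lit 4) (nat_lit 9) (nat_lit 4) (nat_lit 366) (nat_lit 248) (nat_lit 247)) (XT.lf (nat_lit 0) (nat_lit 9939331865) (nat_lit 168) (nat_lit 2205319792) (nat_lit 0) (nat_lit 9071353456) (nat_lit 9) (nat_lit 5) (nat_lit 11) (nat_lit 4) (nat_lit 9) (nat_lit 4) (nat_lit 367) (nat_lit 248) (nat_lit 246))))) (XT.nd (nat_lit 282) (nat_lit 168) (nat_lit 0) (XT.nd (nat_lit 94) (nat_lit 0) (nat_lit 0) (XT.lf (nat_lit 0) (nat_lit 1862951214) (nat_lit 168) (nat_lit 10600903501) (nat_lit 168) (nat_lit 9318410013) (nat_lit 7) (nat_lit 4) (nat_lit 9) (nat_lit 5) (nat_lit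 9) (nat_lit 4) (nat_lit 368) (nat_lit 248) (nat_lit 245)) (XT.nd (nat_lit 94) (nat_lit 0) (nat_lit 0) (XT.lf (nat_lit 0) (nat_lit 6022389637) (nat_lit 168) (nat_lit 9014659904) (nat_lit 168) (nat_lit 7330114933) (nat_lit 7) (nat_lit 4) (nat_lit 9) (nat_lit 5) (nat_lit 9) (nat_lit 4) (nat_lit 369) (nat_lit 248) (nat_lit 244)) (XT.lf (nat_lit 0) (nat_lit 10231526609) (nat_lit 168) (nat_lit 7407461337) (nat_lit 168) (nat_lit 5332953724) (nat_lit 7) (nat_lit 4) (nat_lit 9) (nat_lit 5) (nat_lit 9) (nat_lit 4) (nat_lit 370) (nat_lit 248) (nat_lit 243)))) (XT.nd (nat_lit 188) (nat_lit 168) (nat_lit 0) (XT.nd (nat_lit 94) (nat_lit 0) (nat_lit 0) (XT.lf (nat_lit 0) (nat_lit 14494285488) (nat_lit 168) (nat_lit 5777809721) (nat_lit 168) (nat_lit 3325064824) (nat_lit 7) (nat_lit 4) (nat_lit 9) (nat_lit 5) (nat_lit 9) (nat_lit 4) (nat_lit 371) (nat_lit 248) (nat_lit 242)) (XT.lf (nat_lit 0) (nat_lit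 18814639611) (nat_lit 168) (nat_lit 4124186052) (nat_lit 168) (nat_lit 1304576668) (nat_lit 7) (nat_lit 4) (nat_lit 9) (nat_lit 5) (nat_lit 9) (nat_lit 4) (nat_lit 372) (nat_lit 248) (nat_lit 241))) (XT.nd (nat_lit 94) (nat_lit 84) (nat_lit 0) (XT.lf (nat_lit 0) (nat_lit 715678235) (nat_lit 252) (nat_lit 1721900531) (nat_lit 84) (nat_lit 22473467552) (nat_lit 6) (nat_lit 5) (nat_lit 9) (nat_lit 5) (nat_lit 7) (nat_lit 4) (nat_lit 373) (nat_lit 248) (nat_lit 240)) (XT.lf (nat_lit 0) (nat_lit 2056754534) (nat_lit 84) (nat_lit 689346911) (nat_lit 168) (nat_lit 22853798957) (nat_lit 5) (nat_lit 5) (nat_lit 6) (nat_lit 5) (nat_lit 7) (nat_lit 4) (nat_lit 374) (nat_lit 248) (nat_lit 239))))))))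
noncomputable def xc13 : XT := (XT.nd (nat_lit 2256) (nat_lit 84) (nat_lit 0) (XT.nd (nat_lit 1128) (nat_lit 168) (nat_lit 0) (XT.nd (nat_lit 564) (nat_lit 84) (nat_lit 0) (XT.nd (nat_lit 282) (nat_lit 0) (nat_lit 0) (XT.nd (nat_lit 94) (nat_lit 0) (nat_lit 0) (XT.lf (nat_lit 0) (nat_lit 4823327519) (nat_lit 168) (nat_lit 20403503346) (nat_lit 0) (nat_lit 1083914804) (nat_lit 5) (nat_lit 5) (nat_lit 7) (nat_lit 4) (nat_lit 5) (nat_lit 4) (nat_lit 375) (nat_lit 248) (nat_lit 238)) (XT.nd (nat_lit 94) (nat_lit 0) (nat_lit 0) (XT.lf (nat_lit 0) (nat_lit 6928022168) (nat_lit 168) (nat_lit 17243201242) (nat_lit 0) (nat_lit 2873680676) (nat_lit 5) (nat_lit 5) (nat_lit 7) (nat_lit 4) (nat_lit 5) (nat_lit 4) (nat_lit 376) (nat_lit 248) (nat_lit 237)) (XT.lf (nat_lit 0) (nat_lit 9055308780) (nat_lit 168) (nat_lit 14052455418) (nat_lit 0) (nat_lit 4695507758) (nat_lit 5) (nat_lit 5) (nat_lit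 7) (nat_lit 4) (nat_lit 5) (nat_lit 4) (nat_lit 377) (nat_lit 248) (nat_lit 236)))) (XT.nd (nat_lit 94) (nat_lit 0) (nat_lit 0) (XT.lf (nat_lit 0) (nat_lit 11207170211) (nat_lit 168) (nat_lit 10828291764) (nat_lit 0) (nat_lit 6551094182) (nat_lit 5) (nat_lit 5) (nat_lit 7) (nat_lit 4) (nat_lit 5) (nat_lit 4) (nat_lit 378) (nat_lit 248) (nat_lit 235)) (XT.nd (nat_lit 94) (nat_lit 0) (nat_lit 0) (XT.lf (nat_lit 0) (nat_lit 13385612219) (nat_lit 168) (nat_lit 7567705023) (nat_lit 0) (nat_lit 8442169550) (nat_lit 5) (nat_lit 5) (nat_lit 7) (nat_lit 4) (nat_lit 5) (nat_lit 4) (nat_lit 379) (nat_lit 248) (nat_lit 234)) (XT.lf (nat_lit 0) (nat_lit 15592665342) (nat_lit 168) (nat_lit 4267655985) (nat_lit 0) (nat_lit 10370496543) (nat_lit 5) (nat_lit 5) (nat_lit 7) (nat_lit 4) (nat_lit 5) (nat_lit 4) (nat_lit 380) (nat_lit 248) (nat_lit 233))))) (XT.nd (nat_lit 282) (nat_lit 0) (nat_lit 0)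 (XT.nd (nat_lit 94) (nat_lit 84) (nat_lit 0) (XT.lf (nat_lit 0) (nat_lit 17830386783) (nat_lit 168) (nat_lit 925068660) (nat_lit 0) (nat_lit 12337872562) (nat_lit 5) (nat_lit 5) (nat_lit 7) (nat_lit 4) (nat_lit 5) (nat_lit 4) (nat_lit 381) (nat_lit 248) (nat_lit 232)) (XT.nd (nat_lit 94) (nat_lit 0) (nat_lit 0) (XT.lf (nat_lit 0) (nat_lit 2513820474) (nat_lit 84) (nat_lit 17611979271) (nat_lit 84) (nat_lit 11857248346) (nat_lit 4) (nat_lit 4) (nat_lit 5) (nat_lit 5) (nat_lit 5) (nat_lit 4) (nat_lit 382) (nat_lit 248) (nat_lit 231)) (XT.lf (nat_lit 0) (nat_lit 6021546719) (nat_lit 84) (nat_lit 16444396086) (nat_lit 84) (nat_lit 10435332761) (nat_lit 4) (nat_lit 4) (nat_lit 5) (nat_lit 5) (nat_lit 5) (nat_lit 4) (nat_lit 383) (nat_lit 248) (nat_lit 230)))) (XT.nd (nat_lit 94) (nat_lit 0) (nat_lit 0) (XT.lf (nat_lit 0) (nat_lit 9582358336) (nat_lit 84) (nat_lit 15261273398) (nat_lit 84)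 (nat_lit 9005524913) (nat_lit 4) (nat_lit 4) (nat_lit 5) (nat_lit 5) (nat_lit 5) (nat_lit 4) (nat_lit 384) (nat_lit 248) (nat_lit 229)) (XT.nd (nat_lit 94) (nat_lit 0) (nat_lit 0) (XT.lf (nat_lit 0) (nat_lit 13199574373) (nat_lit 84) (nat_lit 14061508414) (nat_lit 84) (nat_lit 7566492073) (nat_lit 4) (nat_lit 4) (nat_lit 5) (nat_lit 5) (nat_lit 5) (nat_lit 4) (nat_lit 385) (nat_lit 248) (nat_lit 228)) (XT.lf (nat_lit 0) (nat_lit 16876566453) (nat_lit 84) (nat_lit 12843982827) (nat_lit 84) (nat_lit 6116892910) (nat_lit 4) (nat_lit 4) (nat_lit 5) (nat_lit 5) (nat_lit 5) (nat_lit 4) (nat_lit 386) (nat_lit 248) (nat_lit 227)))))) (XT.nd (nat_lit 564) (nat_lit 84) (nat_lit 0) (XT.nd (nat_lit 282) (nat_lit 84) (nat_lit 0) (XT.nd (nat_lit 94) (nat_lit 0) (nat_lit 0) (XT.lf (nat_lit 0) (nat_lit 20616761920) (nat_lit 84) (nat_lit 11607561774) (nat_lit 84) (nat_lit 4655376246) (nat_lit 4) (nat_lit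 4) (nat_lit 5) (nat_lit 5) (nat_lit 5) (nat_lit 4) (nat_lit 387) (nat_lit 248) (nat_lit 226)) (XT.nd (nat_lit 94) (nat_lit 0) (nat_lit 0) (XT.lf (nat_lit 0) (nat_lit 24423647027) (nat_lit 84) (nat_lit 10351092783) (nat_lit 84) (nat_lit 3180579795) (nat_lit 4) (nat_lit 4) (nat_lit 5) (nat_lit 5) (nat_lit 5) (nat_lit 4) (nat_lit 388) (nat_lit 248) (nat_lit 225)) (XT.lf (nat_lit 0) (nat_lit 28300770190) (nat_lit 84) (nat_lit 9073404693) (nat_lit 84) (nat_lit 1691128892) (nat_lit 4) (nat_lit 4) (nat_lit 5) (nat_lit 5) (nat_lit 5) (nat_lit 4) (nat_lit 389) (nat_lit 248) (nat_lit 224)))) (XT.nd (nat_lit 94) (nat_lit 84) (nat_lit 0) (XT.lf (nat_lit 0) (nat_lit 32251745294) (nat_lit 84) (nat_lit 7773306564) (nat_lit 84) (nat_lit 185635212) (nat_lit 4) (nat_lit 4) (nat_lit 5) (nat_lit 5) (nat_lit 5) (nat_lit 4) (nat_lit 390) (nat_lit 248) (nat_lit 223)) (XT.nd (nat_lit 94) (nat_lit 0) (nat_lit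 0) (XT.lf (nat_lit 0) (nat_lit 1310360815) (nat_lit 168) (nat_lit 5125548274) (nat_lit 84) (nat_lit 34956216765) (nat_lit 3) (nat_lit 5) (nat_lit 5) (nat_lit 5) (nat_lit 4) (nat_lit 4) (nat_lit 391) (nat_lit 248) (nat_lit 222)) (XT.lf (nat_lit 0) (nat_lit 2821102202) (nat_lit 168) (nat_lit 2250462139) (nat_lit 84) (nat_lit 37539505761) (nat_lit 3) (nat_lit 5) (nat_lit 5) (nat_lit 5) (nat_lit 4) (nat_lit 4) (nat_lit 392) (nat_lit 248) (nat_lit 221))))) (XT.nd (nat_lit 282) (nat_lit 0) (nat_lit 0) (XT.nd (nat_lit 94) (nat_lit 0) (nat_lit 0) (XT.lf (nat_lit 0) (nat_lit 684631839) (nat_lit 84) (nat_lit 3673897045) (nat_lit 168) (nat_lit 39509973657) (nat_lit 2) (nat_lit 5) (nat_lit 3) (nat_lit 5) (nat_lit 4) (nat_lit 4) (nat_lit 393) (nat_lit 248) (nat_lit 220)) (XT.nd (nat_lit 94) (nat_lit 0) (nat_lit 0) (XT.lf (nat_lit 0) (nat_lit 3715943175) (nat_lit 84) (nat_lit 2224612117) (nat_lit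 168) (nat_lit 39224529016) (nat_lit 2) (nat_lit 5) (nat_lit 3) (nat_lit 5) (nat_lit 4) (nat_lit 4) (nat_lit 394) (nat_lit 248) (nat_lit 219)) (XT.lf (nat_lit 0) (nat_lit 6800023252) (nat_lit 84) (nat_lit 745848882) (nat_lit 168) (nat_lit 38956858122) (nat_lit 2) (nat_lit 5) (nat_lit 3) (nat_lit 5) (nat_lit 4) (nat_lit 4) (nat_lit 395) (nat_lit 248) (nat_lit 218)))) (XT.nd (nat_lit 94) (nat_lit 0) (nat_lit 0) (XT.lf (nat_lit 0) (nat_lit 9183552435) (nat_lit 168) (nat_lit 37950517156) (nat_lit 0) (nat_lit 748382738) (nat_lit 2) (nat_lit 5) (nat_lit 4) (nat_lit 4) (nat_lit 2) (nat_lit 4) (nat_lit 396) (nat_lit 248) (nat_lit 217)) (XT.nd (nat_lit 94) (nat_lit 0) (nat_lit 0) (XT.lf (nat_lit 0) (nat_lit 10855257894) (nat_lit 168) (nat_lit 36191073576) (nat_lit 0) (nat_lit 2259200917) (nat_lit 2) (nat_lit 5) (nat_lit 4) (nat_lit 4) (nat_lit 2) (nat_lit 4) (nat_lit 397) (nat_lit 248) (nat_lit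 216)) (XT.lf (nat_lit 0) (nat_lit 12555147801) (nat_lit 168) (nat_lit 34415337363) (nat_lit 0) (nat_lit 3803041086) (nat_lit 2) (nat_lit 5) (nat_lit 4) (nat_lit 4) (nat_lit 2) (nat_lit 4) (nat_lit 398) (nat_lit 248) (nat_lit 215))))))) (XT.nd (nat_lit 1128) (nat_lit 84) (nat_lit 0) (XT.nd (nat_lit 564) (nat_lit 0) (nat_lit 0) (XT.nd (nat_lit 282) (nat_lit 0) (nat_lit 0) (XT.nd (nat_lit 94) (nat_lit 0) (nat_lit 0) (XT.lf (nat_lit 0) (nat_lit 14284806633) (nat_lit 168) (nat_lit 32621653345) (nat_lit 0) (nat_lit 5381342267) (nat_lit 2) (nat_lit 5) (nat_lit 4) (nat_lit 4) (nat_lit 2) (nat_lit 4) (nat_lit 399) (nat_lit 248) (nat_lit 214)) (XT.nd (nat_lit 94) (nat_lit 0) (nat_lit 0) (XT.lf (nat_lit 0) (nat_lit 16045846613) (nat_lit 168) (nat_lit 30808349622) (nat_lit 0) (nat_lit 6995575602) (nat_lit 2) (nat_lit 5) (nat_lit 4) (nat_lit 4) (nat_lit 2) (nat_lit 4) (nat_lit 400) (nat_lit 248)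 (nat_lit 213)) (XT.lf (nat_lit 0) (nat_lit 17839909215) (nat_lit 168) (nat_lit 28973736004) (nat_lit 0) (nat_lit 8647245725) (nat_lit 2) (nat_lit 5) (nat_lit 4) (nat_lit 4) (nat_lit 2) (nat_lit 4) (nat_lit 401) (nat_lit 248) (nat_lit 212)))) (XT.nd (nat_lit 94) (nat_lit 0) (nat_lit 0) (XT.lf (nat_lit 0) (nat_lit 19668666692) (nat_lit 168) (nat_lit 27116102439) (nat_lit 0) (nat_lit 10337892166) (nat_lit 2) (nat_lit 5) (nat_lit 4) (nat_lit 4) (nat_lit 2) (nat_lit 4) (nat_lit 402) (nat_lit 248) (nat_lit 211)) (XT.nd (nat_lit 94) (nat_lit 0) (nat_lit 0) (XT.lf (nat_lit 0) (nat_lit 21533823638) (nat_lit 168) (nat_lit 25233717418) (nat_lit 0) (nat_lit 12069090785) (nat_lit 2) (nat_lit 5) (nat_lit 4) (nat_lit 4) (nat_lit 2) (nat_lit 4) (nat_lit 403) (nat_lit 248) (nat_lit 210)) (XT.lf (nat_lit 0) (nat_lit 23437118576) (nat_lit 168) (nat_lit 23324826362) (nat_lit 0) (nat_lit 13842455239) (nat_lit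 2) (nat_lit 5) (nat_lit 4) (nat_lit 4) (nat_lit 2) (nat_lit 4) (nat_lit 404) (nat_lit 248) (nat_lit 209))))) (XT.nd (nat_lit 282) (nat_lit 0) (nat_lit 0) (XT.nd (nat_lit 94) (nat_lit 0) (nat_lit 0) (XT.lf (nat_lit 0) (nat_lit 25380325574) (nat_lit 168) (nat_lit 21387649982) (nat_lit 0) (nat_lit 15659638491) (nat_lit 2) (nat_lit 5) (nat_lit 4) (nat_lit 4) (nat_lit 2) (nat_lit 4) (nat_lit 405) (nat_lit 248) (nat_lit 208)) (XT.nd (nat_lit 94) (nat_lit 0) (nat_lit 0) (XT.lf (nat_lit 0) (nat_lit 27365255906) (nat_lit 168) (nat_lit 19420382629) (nat_lit 0) (nat_lit 17522334345) (nat_lit 2) (nat_lit 5) (nat_lit 4) (nat_lit 4) (nat_lit 2) (nat_lit 4) (nat_lit 406) (nat_lit 248) (nat_lit 207)) (XT.lf (nat_lit 0) (nat_lit 29393759735) (nat_lit 168) (nat_lit 17421190603) (nat_lit 0) (nat_lit 19432279029) (nat_lit 2) (nat_lit 5) (nat_lit 4) (nat_lit 4) (nat_lit 2) (nat_lit 4) (nat_lit 407) (nat_lit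 248) (nat_lit 206)))) (XT.nd (nat_lit 94) (nat_lit 0) (nat_lit 0) (XT.lf (nat_lit 0) (nat_lit 31467727839) (nat_lit 168) (nat_lit 15388210448) (nat_lit 0) (nat_lit 21391252812) (nat_lit 2) (nat_lit 5) (nat_lit 4) (nat_lit 4) (nat_lit 2) (nat_lit 4) (nat_lit 408) (nat_lit 248) (nat_lit 205)) (XT.nd (nat_lit 94) (nat_lit 0) (nat_lit 0) (XT.lf (nat_lit 0) (nat_lit 33589093373) (nat_lit 168) (nat_lit 13319547213) (nat_lit 0) (nat_lit 23401081663) (nat_lit 2) (nat_lit 5) (nat_lit 4) (nat_lit 4) (nat_lit 2) (nat_lit 4) (nat_lit 409) (nat_lit 248) (nat_lit 204)) (XT.lf (nat_lit 0) (nat_lit 35759833672) (nat_lit 168) (nat_lit 11213272687) (nat_lit 0) (nat_lit 25463638952) (nat_lit 2) (nat_lit 5) (nat_lit 4) (nat_lit 4) (nat_lit 2) (nat_lit 4) (nat_lit 410) (nat_lit 248) (nat_lit 203)))))) (XT.nd (nat_lit 564) (nat_lit 0) (nat_lit 0) (XT.nd (nat_lit 282) (nat_lit 84) (nat_lit 0) (XT.nd (nat_lit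 94) (nat_lit 0) (nat_lit 0) (XT.lf (nat_lit 0) (nat_lit 37981972093) (nat_lit 168) (nat_lit 9067423602) (nat_lit 0) (nat_lit 27580847198) (nat_lit 2) (nat_lit 5) (nat_lit 4) (nat_lit 4) (nat_lit 2) (nat_lit 4) (nat_lit 411) (nat_lit 248) (nat_lit 202)) (XT.nd (nat_lit 94) (nat_lit 0) (nat_lit 0) (XT.lf (nat_lit 0) (nat_lit 40257579903) (nat_lit 168) (nat_lit 6879999801) (nat_lit 0) (nat_lit 29754679863) (nat_lit 2) (nat_lit 5) (nat_lit 4) (nat_lit 4) (nat_lit 2) (nat_lit 4) (nat_lit 412) (nat_lit 248) (nat_lit 201)) (XT.lf (nat_lit 0) (nat_lit 42588778206) (nat_lit 168) (nat_lit 4648962378) (nat_lit 0) (nat_lit 31987163185) (nat_lit 2) (nat_lit 5) (nat_lit 4) (nat_lit 4) (nat_lit 2) (nat_lit 4) (nat_lit 413) (nat_lit 248) (nat_lit 200)))) (XT.nd (nat_lit 94) (nat_lit 84) (nat_lit 0) (XT.lf (nat_lit 0) (nat_lit 44977739923) (nat_lit 168) (nat_lit 2372231770) (nat_lit 0) (nat_lit 34280378073)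 (nat_lit 2) (nat_lit 5) (nat_lit 4) (nat_lit 4) (nat_lit 2) (nat_lit 4) (nat_lit 414) (nat_lit 248) (nat_lit 199)) (XT.nd (nat_lit 94) (nat_lit 84) (nat_lit 0) (XT.lf (nat_lit 0) (nat_lit 47426691817) (nat_lit 168) (nat_lit 47685827) (nat_lit 0) (nat_lit 36636462043) (nat_lit 2) (nat_lit 5) (nat_lit 4) (nat_lit 4) (nat_lit 2) (nat_lit 4) (nat_lit 415) (nat_lit 248) (nat_lit 198)) (XT.lf (nat_lit 0) (nat_lit 2374686819) (nat_lit 84) (nat_lit 47586786935) (nat_lit 84) (nat_lit 36706481581) (nat_lit 1) (nat_lit 4) (nat_lit 2) (nat_lit 5) (nat_lit 2) (nat_lit 4) (nat_lit 416) (nat_lit 248) (nat_lit 197))))) (XT.nd (nat_lit 282) (nat_lit 0) (nat_lit 0) (XT.nd (nat_lit 94) (nat_lit 0) (nat_lit 0) (XT.lf (nat_lit 0) (nat_lit 4851308591) (nat_lit 84) (nat_lit 47710571888) (nat_lit 84) (nat_lit 36742899337) (nat_lit 1) (nat_lit 4) (nat_lit 2) (nat_lit 5) (nat_lit 2) (nat_lit 4) (nat_lit 417)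 (nat_lit 248) (nat_lit 196)) (XT.nd (nat_lit 94) (nat_lit 0) (nat_lit 0) (XT.lf (nat_lit 0) (nat_lit 7383507444) (nat_lit 84) (nat_lit 47846345625) (nat_lit 84) (nat_lit 36793932824) (nat_lit 1) (nat_lit 4) (nat_lit 2) (nat_lit 5) (nat_lit 2) (nat_lit 4) (nat_lit 418) (nat_lit 248) (nat_lit 195)) (XT.lf (nat_lit 0) (nat_lit 9973643650) (nat_lit 84) (nat_lit 47994234702) (nat_lit 84) (nat_lit 36859629613) (nat_lit 1) (nat_lit 4) (nat_lit 2) (nat_lit 5) (nat_lit 2) (nat_lit 4) (nat_lit 419) (nat_lit 248) (nat_lit 194)))) (XT.nd (nat_lit 48786) (nat_lit 0) (nat_lit 672) (XT.nd (nat_lit 48692) (nat_lit 0) (nat_lit 672) (XT.lf (nat_lit 0) (nat_lit 12624131488) (nat_lit 84) (nat_lit 48154376967) (nat_lit 84) (nat_lit 36940050938) (nat_lit 1) (nat_lit 4) (nat_lit 2) (nat_lit 5) (nat_lit 2) (nat_lit 4) (nat_lit 420) (nat_lit 248) (nat_lit 193)) (XT.lf (nat_lit 0) (nat_lit 305377575) (nat_lit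 168) (nat_lit 8954667193) (nat_lit 0) (nat_lit 305377575) (nat_lit 9) (nat_lit 5) (nat_lit 11) (nat_lit 4) (nat_lit 9) (nat_lit 4) (nat_lit 363) (nat_lit 249) (nat_lit 249))) (XT.nd (nat_lit 94) (nat_lit 0) (nat_lit 0) (XT.lf (nat_lit 0) (nat_lit 3007569713) (nat_lit 168) (nat_lit 14065522388) (nat_lit 0) (nat_lit 2553297336) (nat_lit 9) (nat_lit 5) (nat_lit 11) (nat_lit 4) (nat_lit 9) (nat_lit 4) (nat_lit 364) (nat_lit 249) (nat_lit 248)) (XT.lf (nat_lit 0) (nat_lit 5421920786) (nat_lit 168) (nat_lit 10190284993) (nat_lit 0) (nat_lit 4527035046) (nat_lit 9) (nat_lit 5) (nat_lit 11) (nat_lit 4) (nat_lit 9) (nat_lit 4) (nat_lit 365) (nat_lit 249) (nat_lit 247))))))))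
noncomputable def xc14 : XT := (XT.nd (nat_lit 2256) (nat_lit 168) (nat_lit 0) (XT.nd (nat_lit 1128) (nat_lit 84) (nat_lit 0) (XT.nd (nat_lit 564) (nat_lit 168) (nat_lit 0) (XT.nd (nat_lit 282) (nat_lit 0) (nat_lit 0) (XT.nd (nat_lit 94) (nat_lit 168) (nat_lit 0) (XT.lf (nat_lit 0) (nat_lit 7856058795) (nat_lit 168) (nat_lit 6280010072) (nat_lit 0) (nat_lit 6533808009) (nat_lit 9) (nat_lit 5) (nat_lit 11) (nat_lit 4) (nat_lit 9) (nat_lit 4) (nat_lit 366) (nat_lit 249) (nat_lit 246)) (XT.nd (nat_lit 94) (nat_lit 168) (nat_lit 0) (XT.lf (nat_lit 0) (nat_lit 10312252614) (nat_lit 168) (nat_lit 2331052840) (nat_lit 0) (nat_lit 8575486748) (nat_lit 9) (nat_lit 5) (nat_lit 11) (nat_lit 4) (nat_lit 9) (nat_lit 4) (nat_lit 367) (nat_lit 249) (nat_lit 245)) (XT.lf (nat_lit 0) (nat_lit 1694406049) (nat_lit 168) (nat_lit 11115194340) (nat_lit 168) (nat_lit 8976376991) (nat_lit 7) (nat_lit 4)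 (nat_lit 9) (nat_lit 5) (nat_lit 9) (nat_lit 4) (nat_lit 368) (nat_lit 249) (nat_lit 244)))) (XT.nd (nat_lit 94) (nat_lit 0) (nat_lit 0) (XT.lf (nat_lit 0) (nat_lit 5814827218) (nat_lit 168) (nat_lit 9542844677) (nat_lit 168) (nat_lit 7014064688) (nat_lit 7) (nat_lit 4) (nat_lit 9) (nat_lit 5) (nat_lit 9) (nat_lit 4) (nat_lit 369) (nat_lit 249) (nat_lit 243)) (XT.nd (nat_lit 94) (nat_lit 0) (nat_lit 0) (XT.lf (nat_lit 0) (nat_lit 9986120104) (nat_lit 168) (nat_lit 7949122283) (nat_lit 168) (nat_lit 5042105008) (nat_lit 7) (nat_lit 4) (nat_lit 9) (nat_lit 5) (nat_lit 9) (nat_lit 4) (nat_lit 370) (nat_lit 249) (nat_lit 242)) (XT.lf (nat_lit 0) (nat_lit 14212172788) (nat_lit 168) (nat_lit 6332541641) (nat_lit 168) (nat_lit 3058659880) (nat_lit 7) (nat_lit 4) (nat_lit 9) (nat_lit 5) (nat_lit 9) (nat_lit 4) (nat_lit 371) (nat_lit 249) (nat_lit 241))))) (XT.nd (nat_lit 282) (nat_lit 0) (nat_lit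 0) (XT.nd (nat_lit 94) (nat_lit 168) (nat_lit 0) (XT.lf (nat_lit 0) (nat_lit 18496924394) (nat_lit 168) (nat_lit 4691595928) (nat_lit 168) (nat_lit 1061880524) (nat_lit 7) (nat_lit 4) (nat_lit 9) (nat_lit 5) (nat_lit 9) (nat_lit 4) (nat_lit 372) (nat_lit 249) (nat_lit 240)) (XT.nd (nat_lit 94) (nat_lit 84) (nat_lit 0) (XT.lf (nat_lit 0) (nat_lit 930951984) (nat_lit 252) (nat_lit 2084086398) (nat_lit 84) (nat_lit 21903699546) (nat_lit 6) (nat_lit 5) (nat_lit 9) (nat_lit 5) (nat_lit 7) (nat_lit 4) (nat_lit 373) (nat_lit 249) (nat_lit 239)) (XT.lf (nat_lit 0) (nat_lit 1652411820) (nat_lit 84) (nat_lit 1283097144) (nat_lit 168) (nat_lit 22672952041) (nat_lit 5) (nat_lit 5) (nat_lit 6) (nat_lit 5) (nat_lit 7) (nat_lit 4) (nat_lit 374) (nat_lit 249) (nat_lit 238)))) (XT.nd (nat_lit 94) (nat_lit 0) (nat_lit 0) (XT.lf (nat_lit 0) (nat_lit 4985192657) (nat_lit 168) (nat_lit 20844794745) (nat_lit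 0) (nat_lit 490237803) (nat_lit 5) (nat_lit 5) (nat_lit 7) (nat_lit 4) (nat_lit 5) (nat_lit 4) (nat_lit 375) (nat_lit 249) (nat_lit 237)) (XT.nd (nat_lit 94) (nat_lit 0) (nat_lit 0) (XT.lf (nat_lit 0) (nat_lit 7068886040) (nat_lit 168) (nat_lit 17717740127) (nat_lit 0) (nat_lit 2268471655) (nat_lit 5) (nat_lit 5) (nat_lit 7) (nat_lit 4) (nat_lit 5) (nat_lit 4) (nat_lit 376) (nat_lit 249) (nat_lit 236)) (XT.lf (nat_lit 0) (nat_lit 9175802851) (nat_lit 168) (nat_lit 14559242108) (nat_lit 0) (nat_lit 4079113459) (nat_lit 5) (nat_lit 5) (nat_lit 7) (nat_lit 4) (nat_lit 5) (nat_lit 4) (nat_lit 377) (nat_lit 249) (nat_lit 235)))))) (XT.nd (nat_lit 564) (nat_lit 0) (nat_lit 0) (XT.nd (nat_lit 282) (nat_lit 84) (nat_lit 0) (XT.nd (nat_lit 94) (nat_lit 0) (nat_lit 0) (XT.lf (nat_lit 0) (nat_lit 11307906957) (nat_lit 168) (nat_lit 11366356635) (nat_lit 0) (nat_lit 5923850925) (nat_lit 5) (nat_lit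 5) (nat_lit 7) (nat_lit 4) (nat_lit 5) (nat_lit 4) (nat_lit 378) (nat_lit 249) (nat_lit 234)) (XT.nd (nat_lit 94) (nat_lit 0) (nat_lit 0) (XT.lf (nat_lit 0) (nat_lit 13467185702) (nat_lit 168) (nat_lit 8136107606) (nat_lit 0) (nat_lit 7804403540) (nat_lit 5) (nat_lit 5) (nat_lit 7) (nat_lit 4) (nat_lit 5) (nat_lit 4) (nat_lit 379) (nat_lit 249) (nat_lit 233)) (XT.lf (nat_lit 0) (nat_lit 15655651760) (nat_lit 168) (nat_lit 4865484089) (nat_lit 0) (nat_lit 9722524176) (nat_lit 5) (nat_lit 5) (nat_lit 7) (nat_lit 4) (nat_lit 5) (nat_lit 4) (nat_lit 380) (nat_lit 249) (nat_lit 232)))) (XT.nd (nat_lit 94) (nat_lit 84) (nat_lit 0) (XT.lf (nat_lit 0) (nat_lit 17875345011) (nat_lit 168) (nat_lit 1551437521) (nat_lit 0) (nat_lit 11680000723) (nat_lit 5) (nat_lit 5) (nat_lit 7) (nat_lit 4) (nat_lit 5) (nat_lit 4) (nat_lit 381) (nat_lit 249) (nat_lit 231)) (XT.nd (nat_lit 94) (nat_lit 0) (nat_lit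 0) (XT.lf (nat_lit 0) (nat_lit 1846320377) (nat_lit 84) (nat_lit 18300329792) (nat_lit 84) (nat_lit 11850653103) (nat_lit 4) (nat_lit 4) (nat_lit 5) (nat_lit 5) (nat_lit 5) (nat_lit 4) (nat_lit 382) (nat_lit 249) (nat_lit 230)) (XT.lf (nat_lit 0) (nat_lit 5326644287) (nat_lit 84) (nat_lit 17142916757) (nat_lit 84) (nat_lit 10446554909) (nat_lit 4) (nat_lit 4) (nat_lit 5) (nat_lit 5) (nat_lit 5) (nat_lit 4) (nat_lit 383) (nat_lit 249) (nat_lit 229))))) (XT.nd (nat_lit 282) (nat_lit 0) (nat_lit 0) (XT.nd (nat_lit 94) (nat_lit 0) (nat_lit 0) (XT.lf (nat_lit 0) (nat_lit 8860877499) (nat_lit 84) (nat_lit 15969658426) (nat_lit 84) (nat_lit 9034028721) (nat_lit 4) (nat_lit 4) (nat_lit 5) (nat_lit 5) (nat_lit 5) (nat_lit 4) (nat_lit 384) (nat_lit 249) (nat_lit 228)) (XT.nd (nat_lit 94) (nat_lit 0) (nat_lit 0) (XT.lf (nat_lit 0) (nat_lit 12452314288) (nat_lit 84) (nat_lit 14779461197) (nat_lit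 84) (nat_lit 7611757917) (nat_lit 4) (nat_lit 4) (nat_lit 5) (nat_lit 5) (nat_lit 5) (nat_lit 4) (nat_lit 385) (nat_lit 249) (nat_lit 227)) (XT.lf (nat_lit 0) (nat_lit 16104302248) (nat_lit 84) (nat_lit 13571215682) (nat_lit 84) (nat_lit 6178416791) (nat_lit 4) (nat_lit 4) (nat_lit 5) (nat_lit 5) (nat_lit 5) (nat_lit 4) (nat_lit 386) (nat_lit 249) (nat_lit 226)))) (XT.nd (nat_lit 94) (nat_lit 0) (nat_lit 0) (XT.lf (nat_lit 0) (nat_lit 19820245416) (nat_lit 84) (nat_lit 12343795671) (nat_lit 84) (nat_lit 4732669319) (nat_lit 4) (nat_lit 4) (nat_lit 5) (nat_lit 5) (nat_lit 5) (nat_lit 4) (nat_lit 387) (nat_lit 249) (nat_lit 225)) (XT.nd (nat_lit 94) (nat_lit 0) (nat_lit 0) (XT.lf (nat_lit 0) (nat_lit 23603607440) (nat_lit 84) (nat_lit 11096057078) (nat_lit 84) (nat_lit 3273167914) (nat_lit 4) (nat_lit 4) (nat_lit 5) (nat_lit 5) (nat_lit 5) (nat_lit 4) (nat_lit 388) (nat_lit 249) (nat_lit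 224)) (XT.lf (nat_lit 0) (nat_lit 27457914808) (nat_lit 84) (nat_lit 9826836882) (nat_lit 84) (nat_lit 1798552166) (nat_lit 4) (nat_lit 4) (nat_lit 5) (nat_lit 5) (nat_lit 5) (nat_lit 4) (nat_lit 389) (nat_lit 249) (nat_lit 223))))))) (XT.nd (nat_lit 1128) (nat_lit 0) (nat_lit 0) (XT.nd (nat_lit 564) (nat_lit 0) (nat_lit 0) (XT.nd (nat_lit 282) (nat_lit 84) (nat_lit 0) (XT.nd (nat_lit 94) (nat_lit 84) (nat_lit 0) (XT.lf (nat_lit 0) (nat_lit 31386760141) (nat_lit 84) (nat_lit 8534952035) (nat_lit 84) (nat_lit 307447581) (nat_lit 4) (nat_lit 4) (nat_lit 5) (nat_lit 5) (nat_lit 5) (nat_lit 4) (nat_lit 390) (nat_lit 249) (nat_lit 222)) (XT.nd (nat_lit 94) (nat_lit 0) (nat_lit 0) (XT.lf (nat_lit 0) (nat_lit 1177327441) (nat_lit 168) (nat_lit 6029582040) (nat_lit 84) (nat_lit 34204189207) (nat_lit 3) (nat_lit 5) (nat_lit 5) (nat_lit 5) (nat_lit 4) (nat_lit 4) (nat_lit 391) (nat_lit 249)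 (nat_lit 221)) (XT.lf (nat_lit 0) (nat_lit 2674804761) (nat_lit 168) (nat_lit 3175625217) (nat_lit 84) (nat_lit 36780061732) (nat_lit 3) (nat_lit 5) (nat_lit 5) (nat_lit 5) (nat_lit 4) (nat_lit 4) (nat_lit 392) (nat_lit 249) (nat_lit 220)))) (XT.nd (nat_lit 94) (nat_lit 84) (nat_lit 0) (XT.lf (nat_lit 0) (nat_lit 4192574566) (nat_lit 168) (nat_lit 274819042) (nat_lit 84) (nat_lit 39421176363) (nat_lit 3) (nat_lit 5) (nat_lit 5) (nat_lit 5) (nat_lit 4) (nat_lit 4) (nat_lit 393) (nat_lit 249) (nat_lit 219)) (XT.nd (nat_lit 94) (nat_lit 0) (nat_lit 0) (XT.lf (nat_lit 0) (nat_lit 2730554936) (nat_lit 84) (nat_lit 3028584084) (nat_lit 168) (nat_lit 39426527401) (nat_lit 2) (nat_lit 5) (nat_lit 3) (nat_lit 5) (nat_lit 4) (nat_lit 4) (nat_lit 394) (nat_lit 249) (nat_lit 218)) (XT.lf (nat_lit 0) (nat_lit 5794958471) (nat_lit 84) (nat_lit 1557198983) (nat_lit 168) (nat_lit 39171570463) (nat_lit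 2) (nat_lit 5) (nat_lit 3) (nat_lit 5) (nat_lit 4) (nat_lit 4) (nat_lit 395) (nat_lit 249) (nat_lit 217))))) (XT.nd (nat_lit 282) (nat_lit 0) (nat_lit 0) (XT.nd (nat_lit 94) (nat_lit 0) (nat_lit 0) (XT.lf (nat_lit 0) (nat_lit 8915597064) (nat_lit 84) (nat_lit 54735367) (nat_lit 168) (nat_lit 38933755493) (nat_lit 2) (nat_lit 5) (nat_lit 3) (nat_lit 5) (nat_lit 4) (nat_lit 4) (nat_lit 396) (nat_lit 249) (nat_lit 216)) (XT.nd (nat_lit 94) (nat_lit 0) (nat_lit 0) (XT.lf (nat_lit 0) (nat_lit 10629856101) (nat_lit 168) (nat_lit 37247337444) (nat_lit 0) (nat_lit 1450384339) (nat_lit 2) (nat_lit 5) (nat_lit 4) (nat_lit 4) (nat_lit 2) (nat_lit 4) (nat_lit 397) (nat_lit 249) (nat_lit 215)) (XT.lf (nat_lit 0) (nat_lit 12318457154) (nat_lit 168) (nat_lit 35489868104) (nat_lit 0) (nat_lit 2987627742) (nat_lit 2) (nat_lit 5) (nat_lit 4) (nat_lit 4) (nat_lit 2) (nat_lit 4) (nat_lit 398) (nat_lit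 249) (nat_lit 214)))) (XT.nd (nat_lit 94) (nat_lit 0) (nat_lit 0) (XT.lf (nat_lit 0) (nat_lit 14037166564) (nat_lit 168) (nat_lit 33713901713) (nat_lit 0) (nat_lit 4559530507) (nat_lit 2) (nat_lit 5) (nat_lit 4) (nat_lit 4) (nat_lit 2) (nat_lit 4) (nat_lit 399) (nat_lit 249) (nat_lit 213)) (XT.nd (nat_lit 94) (nat_lit 0) (nat_lit 0) (XT.lf (nat_lit 0) (nat_lit 15787586348) (nat_lit 168) (nat_lit 31917782884) (nat_lit 0) (nat_lit 6167557812) (nat_lit 2) (nat_lit 5) (nat_lit 4) (nat_lit 4) (nat_lit 2) (nat_lit 4) (nat_lit 400) (nat_lit 249) (nat_lit 212)) (XT.lf (nat_lit 0) (nat_lit 17571348081) (nat_lit 168) (nat_lit 30099837447) (nat_lit 0) (nat_lit 7813208509) (nat_lit 2) (nat_lit 5) (nat_lit 4) (nat_lit 4) (nat_lit 2) (nat_lit 4) (nat_lit 401) (nat_lit 249) (nat_lit 211)))))) (XT.nd (nat_lit 564) (nat_lit 0) (nat_lit 0) (XT.nd (nat_lit 282) (nat_lit 0) (nat_lit 0) (XT.nd (nat_lit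 94) (nat_lit 0) (nat_lit 0) (XT.lf (nat_lit 0) (nat_lit 19390114414) (nat_lit 168) (nat_lit 28258370886) (nat_lit 0) (nat_lit 9498016514) (nat_lit 2) (nat_lit 5) (nat_lit 4) (nat_lit 4) (nat_lit 2) (nat_lit 4) (nat_lit 402) (nat_lit 249) (nat_lit 210)) (XT.nd (nat_lit 94) (nat_lit 0) (nat_lit 0) (XT.lf (nat_lit 0) (nat_lit 21245580630) (nat_lit 168) (nat_lit 26391666761) (nat_lit 0) (nat_lit 11223552247) (nat_lit 2) (nat_lit 5) (nat_lit 4) (nat_lit 4) (nat_lit 2) (nat_lit 4) (nat_lit 403) (nat_lit 249) (nat_lit 209)) (XT.lf (nat_lit 0) (nat_lit 23139476216) (nat_lit 168) (nat_lit 24497985108) (nat_lit 0) (nat_lit 12991424086) (nat_lit 2) (nat_lit 5) (nat_lit 4) (nat_lit 4) (nat_lit 2) (nat_lit 4) (nat_lit 404) (nat_lit 249) (nat_lit 208)))) (XT.nd (nat_lit 94) (nat_lit 0) (nat_lit 0) (XT.lf (nat_lit 0) (nat_lit 25073566483) (nat_lit 168) (nat_lit 22575560819) (nat_lit 0) (nat_lit 14803279875)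 (nat_lit 2) (nat_lit 5) (nat_lit 4) (nat_lit 4) (nat_lit 2) (nat_lit 4) (nat_lit 405) (nat_lit 249) (nat_lit 207)) (XT.nd (nat_lit 94) (nat_lit 0) (nat_lit 0) (XT.lf (nat_lit 0) (nat_lit 27049654203) (nat_lit 168) (nat_lit 20622601991) (nat_lit 0) (nat_lit 16660808451) (nat_lit 2) (nat_lit 5) (nat_lit 4) (nat_lit 4) (nat_lit 2) (nat_lit 4) (nat_lit 406) (nat_lit 249) (nat_lit 206)) (XT.lf (nat_lit 0) (nat_lit 29069581300) (nat_lit 168) (nat_lit 18637288263) (nat_lit 0) (nat_lit 18565741227) (nat_lit 2) (nat_lit 5) (nat_lit 4) (nat_lit 4) (nat_lit 2) (nat_lit 4) (nat_lit 407) (nat_lit 249) (nat_lit 205))))) (XT.nd (nat_lit 282) (nat_lit 0) (nat_lit 0) (XT.nd (nat_lit 94) (nat_lit 0) (nat_lit 0) (XT.lf (nat_lit 0) (nat_lit 31135230555) (nat_lit 168) (nat_lit 16617769115) (nat_lit 0) (nat_lit 20519853798) (nat_lit 2) (nat_lit 5) (nat_lit 4) (nat_lit 4) (nat_lit 2) (nat_lit 4) (nat_lit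 408) (nat_lit 249) (nat_lit 204)) (XT.nd (nat_lit 94) (nat_lit 0) (nat_lit 0) (XT.lf (nat_lit 0) (nat_lit 33248527371) (nat_lit 168) (nat_lit 14562162142) (nat_lit 0) (nat_lit 22524967604) (nat_lit 2) (nat_lit 5) (nat_lit 4) (nat_lit 4) (nat_lit 2) (nat_lit 4) (nat_lit 409) (nat_lit 249) (nat_lit 203)) (XT.lf (nat_lit 0) (nat_lit 35411441561) (nat_lit 168) (nat_lit 12468551305) (nat_lit 0) (nat_lit 24582951620) (nat_lit 2) (nat_lit 5) (nat_lit 4) (nat_lit 4) (nat_lit 2) (nat_lit 4) (nat_lit 410) (nat_lit 249) (nat_lit 202)))) (XT.nd (nat_lit 188) (nat_lit 0) (nat_lit 0) (XT.nd (nat_lit 94) (nat_lit 0) (nat_lit 0) (XT.lf (nat_lit 0) (nat_lit 37625989188) (nat_lit 168) (nat_lit 10334985137) (nat_lit 0) (nat_lit 26695724102) (nat_lit 2) (nat_lit 5) (nat_lit 4) (nat_lit 4) (nat_lit 2) (nat_lit 4) (nat_lit 411) (nat_lit 249) (nat_lit 201)) (XT.lf (nat_lit 0) (nat_lit 39894234443) (nat_lit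 168) (nat_lit 8159474934) (nat_lit 0) (nat_lit 28865254376) (nat_lit 2) (nat_lit 5) (nat_lit 4) (nat_lit 4) (nat_lit 2) (nat_lit 4) (nat_lit 412) (nat_lit 249) (nat_lit 200))) (XT.nd (nat_lit 94) (nat_lit 0) (nat_lit 0) (XT.lf (nat_lit 0) (nat_lit 42218291568) (nat_lit 168) (nat_lit 5939992890) (nat_lit 0) (nat_lit 31093564671) (nat_lit 2) (nat_lit 5) (nat_lit 4) (nat_lit 4) (nat_lit 2) (nat_lit 4) (nat_lit 413) (nat_lit 249) (nat_lit 199)) (XT.lf (nat_lit 0) (nat_lit 44600326827) (nat_lit 168) (nat_lit 3674470215) (nat_lit 0) (nat_lit 33382732007) (nat_lit 2) (nat_lit 5) (nat_lit 4) (nat_lit 4) (nat_lit 2) (nat_lit 4) (nat_lit 414) (nat_lit 249) (nat_lit 198))))))))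
noncomputable def xc15 : XT := (XT.nd (nat_lit 50666) (nat_lit 0) (nat_lit 84) (XT.nd (nat_lit 49538) (nat_lit 0) (nat_lit 336) (XT.nd (nat_lit 48974) (nat_lit 0) (nat_lit 672) (XT.nd (nat_lit 282) (nat_lit 0) (nat_lit 0) (XT.nd (nat_lit 94) (nat_lit 84) (nat_lit 0) (XT.lf (nat_lit 0) (nat_lit 47042560526) (nat_lit 168) (nat_lit 1360795207) (nat_lit 0) (nat_lit 35734890126) (nat_lit 2) (nat_lit 5) (nat_lit 4) (nat_lit 4) (nat_lit 2) (nat_lit 4) (nat_lit 415) (nat_lit 249) (nat_lit 197)) (XT.nd (nat_lit 94) (nat_lit 0) (nat_lit 0) (XT.lf (nat_lit 0) (nat_lit 1023816340) (nat_lit 84) (nat_lit 48533609129) (nat_lit 84) (nat_lit 37138571531) (nat_lit 1) (nat_lit 4) (nat_lit 2) (nat_lit 5) (nat_lit 2) (nat_lit 4) (nat_lit 416) (nat_lit 249) (nat_lit 196)) (XT.lf (nat_lit 0) (nat_lit 3490000793) (nat_lit 84) (nat_lit 48661407598) (nat_lit 84) (nat_lit 37181629750) (nat_lit 1) (nat_lit 4)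 (nat_lit 2) (nat_lit 5) (nat_lit 2) (nat_lit 4) (nat_lit 417) (nat_lit 249) (nat_lit 195)))) (XT.nd (nat_lit 94) (nat_lit 0) (nat_lit 0) (XT.lf (nat_lit 0) (nat_lit 6012076154) (nat_lit 84) (nat_lit 48801074173) (nat_lit 84) (nat_lit 37239104037) (nat_lit 1) (nat_lit 4) (nat_lit 2) (nat_lit 5) (nat_lit 2) (nat_lit 4) (nat_lit 418) (nat_lit 249) (nat_lit 194)) (XT.nd (nat_lit 94) (nat_lit 0) (nat_lit 0) (XT.lf (nat_lit 0) (nat_lit 8592393261) (nat_lit 84) (nat_lit 48952739038) (nat_lit 84) (nat_lit 37311047963) (nat_lit 1) (nat_lit 4) (nat_lit 2) (nat_lit 5) (nat_lit 2) (nat_lit 4) (nat_lit 419) (nat_lit 249) (nat_lit 193)) (XT.lf (nat_lit 0) (nat_lit 11233357240) (nat_lit 84) (nat_lit 49116543561) (nat_lit 84) (nat_lit 37397528587) (nat_lit 1) (nat_lit 4) (nat_lit 2) (nat_lit 5) (nat_lit 2) (nat_lit 4) (nat_lit 420) (nat_lit 249) (nat_lit 192))))) (XT.nd (nat_lit 282) (nat_lit 0) (nat_lit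 0) (XT.nd (nat_lit 94) (nat_lit 168) (nat_lit 0) (XT.lf (nat_lit 0) (nat_lit 5487901810) (nat_lit 168) (nat_lit 1802129863) (nat_lit 168) (nat_lit 1802129863) (nat_lit 11) (nat_lit 4) (nat_lit 13) (nat_lit 5) (nat_lit 13) (nat_lit 4) (nat_lit 361) (nat_lit 250) (nat_lit 250)) (XT.nd (nat_lit 94) (nat_lit 168) (nat_lit 0) (XT.lf (nat_lit 0) (nat_lit 15608198499) (nat_lit 168) (nat_lit 1762459995) (nat_lit 168) (nat_lit 1279586175) (nat_lit 11) (nat_lit 4) (nat_lit 13) (nat_lit 5) (nat_lit 13) (nat_lit 4) (nat_lit 362) (nat_lit 250) (nat_lit 249)) (XT.lf (nat_lit 0) (nat_lit 1050294389) (nat_lit 168) (nat_lit 17953870325) (nat_lit 0) (nat_lit 127667191) (nat_lit 9) (nat_lit 5) (nat_lit 11) (nat_lit 4) (nat_lit 9) (nat_lit 4) (nat_lit 363) (nat_lit 250) (nat_lit 248)))) (XT.nd (nat_lit 94) (nat_lit 0) (nat_lit 0) (XT.lf (nat_lit 0) (nat_lit 3419159792) (nat_lit 168) (nat_lit 14153255163)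 (nat_lit 0) (nat_lit 2055919231) (nat_lit 9) (nat_lit 5) (nat_lit 11) (nat_lit 4) (nat_lit 9) (nat_lit 4) (nat_lit 364) (nat_lit 250) (nat_lit 247)) (XT.nd (nat_lit 94) (nat_lit 0) (nat_lit 0) (XT.lf (nat_lit 0) (nat_lit 5806402078) (nat_lit 168) (nat_lit 10319915765) (nat_lit 0) (nat_lit 4015796470) (nat_lit 9) (nat_lit 5) (nat_lit 11) (nat_lit 4) (nat_lit 9) (nat_lit 4) (nat_lit 365) (nat_lit 250) (nat_lit 246)) (XT.lf (nat_lit 0) (nat_lit 8214246405) (nat_lit 168) (nat_lit 6450279058) (nat_lit 0) (nat_lit 6009125718) (nat_lit 9) (nat_lit 5) (nat_lit 11) (nat_lit 4) (nat_lit 9) (nat_lit 4) (nat_lit 366) (nat_lit 250) (nat_lit 245)))))) (XT.nd (nat_lit 564) (nat_lit 168) (nat_lit 0) (XT.nd (nat_lit 282) (nat_lit 0) (nat_lit 0) (XT.nd (nat_lit 94) (nat_lit 168) (nat_lit 0) (XT.lf (nat_lit 0) (nat_lit 10644937136) (nat_lit 168) (nat_lit 2540738134) (nat_lit 0) (nat_lit 8037764967) (nat_lit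 9) (nat_lit 5) (nat_lit 11) (nat_lit 4) (nat_lit 9) (nat_lit 4) (nat_lit 367) (nat_lit 250) (nat_lit 244)) (XT.nd (nat_lit 94) (nat_lit 0) (nat_lit 0) (XT.lf (nat_lit 0) (nat_lit 1441391942) (nat_lit 168) (nat_lit 11673646775) (nat_lit 168) (nat_lit 8676511965) (nat_lit 7) (nat_lit 4) (nat_lit 9) (nat_lit 5) (nat_lit 9) (nat_lit 4) (nat_lit 368) (nat_lit 250) (nat_lit 243)) (XT.lf (nat_lit 0) (nat_lit 5523969025) (nat_lit 168) (nat_lit 10114773286) (nat_lit 168) (nat_lit 6739401190) (nat_lit 7) (nat_lit 4) (nat_lit 9) (nat_lit 5) (nat_lit 9) (nat_lit 4) (nat_lit 369) (nat_lit 250) (nat_lit 242)))) (XT.nd (nat_lit 94) (nat_lit 0) (nat_lit 0) (XT.lf (nat_lit 0) (nat_lit 9658555716) (nat_lit 168) (nat_lit 8534121865) (nat_lit 168) (nat_lit 4791885283) (nat_lit 7) (nat_lit 4) (nat_lit 9) (nat_lit 5) (nat_lit 9) (nat_lit 4) (nat_lit 370) (nat_lit 250) (nat_lit 241)) (XT.nd (nat_lit 94)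 (nat_lit 0) (nat_lit 0) (XT.lf (nat_lit 0) (nat_lit 13849005884) (nat_lit 168) (nat_lit 6930219179) (nat_lit 168) (nat_lit 2832148954) (nat_lit 7) (nat_lit 4) (nat_lit 9) (nat_lit 5) (nat_lit 9) (nat_lit 4) (nat_lit 371) (nat_lit 250) (nat_lit 240)) (XT.lf (nat_lit 0) (nat_lit 18099225466) (nat_lit 168) (nat_lit 5301570224) (nat_lit 168) (nat_lit 858365524) (nat_lit 7) (nat_lit 4) (nat_lit 9) (nat_lit 5) (nat_lit 9) (nat_lit 4) (nat_lit 372) (nat_lit 250) (nat_lit 239))))) (XT.nd (nat_lit 282) (nat_lit 0) (nat_lit 0) (XT.nd (nat_lit 94) (nat_lit 84) (nat_lit 0) (XT.lf (nat_lit 0) (nat_lit 1108511509) (nat_lit 252) (nat_lit 2526574830) (nat_lit 84) (nat_lit 21293094016) (nat_lit 6) (nat_lit 5) (nat_lit 9) (nat_lit 5) (nat_lit 7) (nat_lit 4) (nat_lit 373) (nat_lit 250) (nat_lit 238)) (XT.nd (nat_lit 94) (nat_lit 0) (nat_lit 0) (XT.lf (nat_lit 0) (nat_lit 1167158999) (nat_lit 84) (nat_lit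 1919897758) (nat_lit 168) (nat_lit 22531718158) (nat_lit 5) (nat_lit 5) (nat_lit 6) (nat_lit 5) (nat_lit 7) (nat_lit 4) (nat_lit 374) (nat_lit 250) (nat_lit 237)) (XT.lf (nat_lit 0) (nat_lit 4962641060) (nat_lit 84) (nat_lit 148251658) (nat_lit 168) (nat_lit 21220510838) (nat_lit 5) (nat_lit 5) (nat_lit 6) (nat_lit 5) (nat_lit 7) (nat_lit 4) (nat_lit 375) (nat_lit 250) (nat_lit 236)))) (XT.nd (nat_lit 94) (nat_lit 0) (nat_lit 0) (XT.lf (nat_lit 0) (nat_lit 7172745626) (nat_lit 168) (nat_lit 18272485009) (nat_lit 0) (nat_lit 1621783857) (nat_lit 5) (nat_lit 5) (nat_lit 7) (nat_lit 4) (nat_lit 5) (nat_lit 4) (nat_lit 376) (nat_lit 250) (nat_lit 235)) (XT.nd (nat_lit 94) (nat_lit 0) (nat_lit 0) (XT.lf (nat_lit 0) (nat_lit 9259905112) (nat_lit 168) (nat_lit 15145265171) (nat_lit 0) (nat_lit 3421576703) (nat_lit 5) (nat_lit 5) (nat_lit 7) (nat_lit 4) (nat_lit 5) (nat_lit 4) (nat_lit 377)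 (nat_lit 250) (nat_lit 234)) (XT.lf (nat_lit 0) (nat_lit 11372845954) (nat_lit 168) (nat_lit 11982717410) (nat_lit 0) (nat_lit 5255791415) (nat_lit 5) (nat_lit 5) (nat_lit 7) (nat_lit 4) (nat_lit 5) (nat_lit 4) (nat_lit 378) (nat_lit 250) (nat_lit 233))))))) (XT.nd (nat_lit 1128) (nat_lit 168) (nat_lit 0) (XT.nd (nat_lit 564) (nat_lit 0) (nat_lit 0) (XT.nd (nat_lit 282) (nat_lit 84) (nat_lit 0) (XT.nd (nat_lit 94) (nat_lit 0) (nat_lit 0) (XT.lf (nat_lit 0) (nat_lit 13513537635) (nat_lit 168) (nat_lit 8781893901) (nat_lit 0) (nat_lit 7126137674) (nat_lit 5) (nat_lit 5) (nat_lit 7) (nat_lit 4) (nat_lit 5) (nat_lit 4) (nat_lit 379) (nat_lit 250) (nat_lit 232)) (XT.nd (nat_lit 94) (nat_lit 0) (nat_lit 0) (XT.lf (nat_lit 0) (nat_lit 15683975503) (nat_lit 168) (nat_lit 5539811142) (nat_lit 0) (nat_lit 9034358837) (nat_lit 5) (nat_lit 5) (nat_lit 7) (nat_lit 4) (nat_lit 5) (nat_lit 4) (nat_lit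 380) (nat_lit 250) (nat_lit 231)) (XT.lf (nat_lit 0) (nat_lit 17886182633) (nat_lit 168) (nat_lit 2253447170) (nat_lit 0) (nat_lit 10982233568) (nat_lit 5) (nat_lit 5) (nat_lit 7) (nat_lit 4) (nat_lit 5) (nat_lit 4) (nat_lit 381) (nat_lit 250) (nat_lit 230)))) (XT.nd (nat_lit 94) (nat_lit 0) (nat_lit 0) (XT.lf (nat_lit 0) (nat_lit 1102473634) (nat_lit 84) (nat_lit 19030674754) (nat_lit 84) (nat_lit 11880040529) (nat_lit 4) (nat_lit 4) (nat_lit 5) (nat_lit 5) (nat_lit 5) (nat_lit 4) (nat_lit 382) (nat_lit 250) (nat_lit 229)) (XT.nd (nat_lit 94) (nat_lit 0) (nat_lit 0) (XT.lf (nat_lit 0) (nat_lit 4556219140) (nat_lit 84) (nat_lit 17883126076) (nat_lit 84) (nat_lit 10493223995) (nat_lit 4) (nat_lit 4) (nat_lit 5) (nat_lit 5) (nat_lit 5) (nat_lit 4) (nat_lit 383) (nat_lit 250) (nat_lit 228)) (XT.lf (nat_lit 0) (nat_lit 8064673103) (nat_lit 84) (nat_lit 16719435500) (nat_lit 84) (nat_lit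 9097459843) (nat_lit 4) (nat_lit 4) (nat_lit 5) (nat_lit 5) (nat_lit 5) (nat_lit 4) (nat_lit 384) (nat_lit 250) (nat_lit 227))))) (XT.nd (nat_lit 282) (nat_lit 0) (nat_lit 0) (XT.nd (nat_lit 94) (nat_lit 0) (nat_lit 0) (XT.lf (nat_lit 0) (nat_lit 11631105771) (nat_lit 84) (nat_lit 15538518344) (nat_lit 84) (nat_lit 7691447076) (nat_lit 4) (nat_lit 4) (nat_lit 5) (nat_lit 5) (nat_lit 5) (nat_lit 4) (nat_lit 385) (nat_lit 250) (nat_lit 226)) (XT.nd (nat_lit 94) (nat_lit 0) (nat_lit 0) (XT.lf (nat_lit 0) (nat_lit 15258841433) (nat_lit 84) (nat_lit 14339273870) (nat_lit 84) (nat_lit 6273875142) (nat_lit 4) (nat_lit 4) (nat_lit 5) (nat_lit 5) (nat_lit 5) (nat_lit 4) (nat_lit 386) (nat_lit 250) (nat_lit 225)) (XT.lf (nat_lit 0) (nat_lit 18951261517) (nat_lit 84) (nat_lit 13120584257) (nat_lit 84) (nat_lit 4843422716) (nat_lit 4) (nat_lit 4) (nat_lit 5) (nat_lit 5) (nat_lit 5) (nat_lit 4)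 (nat_lit 387) (nat_lit 250) (nat_lit 224)))) (XT.nd (nat_lit 94) (nat_lit 0) (nat_lit 0) (XT.lf (nat_lit 0) (nat_lit 22711807747) (nat_lit 84) (nat_lit 11881313559) (nat_lit 84) (nat_lit 3398756466) (nat_lit 4) (nat_lit 4) (nat_lit 5) (nat_lit 5) (nat_lit 5) (nat_lit 4) (nat_lit 388) (nat_lit 250) (nat_lit 223)) (XT.nd (nat_lit 94) (nat_lit 0) (nat_lit 0) (XT.lf (nat_lit 0) (nat_lit 26543985345) (nat_lit 84) (nat_lit 10620306644) (nat_lit 84) (nat_lit 1938529813) (nat_lit 4) (nat_lit 4) (nat_lit 5) (nat_lit 5) (nat_lit 5) (nat_lit 4) (nat_lit 389) (nat_lit 250) (nat_lit 222)) (XT.lf (nat_lit 0) (nat_lit 30451366302) (nat_lit 84) (nat_lit 9336388123) (nat_lit 84) (nat_lit 461381671) (nat_lit 4) (nat_lit 4) (nat_lit 5) (nat_lit 5) (nat_lit 5) (nat_lit 4) (nat_lit 390) (nat_lit 250) (nat_lit 221)))))) (XT.nd (nat_lit 564) (nat_lit 0) (nat_lit 0) (XT.nd (nat_lit 282) (nat_lit 84) (nat_lit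 0) (XT.nd (nat_lit 94) (nat_lit 0) (nat_lit 0) (XT.lf (nat_lit 0) (nat_lit 1013230713) (nat_lit 168) (nat_lit 7004554485) (nat_lit 84) (nat_lit 33413785943) (nat_lit 3) (nat_lit 5) (nat_lit 5) (nat_lit 5) (nat_lit 4) (nat_lit 4) (nat_lit 391) (nat_lit 250) (nat_lit 220)) (XT.nd (nat_lit 94) (nat_lit 0) (nat_lit 0) (XT.lf (nat_lit 0) (nat_lit 2497842788) (nat_lit 168) (nat_lit 4171091660) (nat_lit 84) (nat_lit 35982464995) (nat_lit 3) (nat_lit 5) (nat_lit 5) (nat_lit 5) (nat_lit 4) (nat_lit 4) (nat_lit 392) (nat_lit 250) (nat_lit 219)) (XT.lf (nat_lit 0) (nat_lit 4003134180) (nat_lit 168) (nat_lit 1290163272) (nat_lit 84) (nat_lit 38616602446) (nat_lit 3) (nat_lit 5) (nat_lit 5) (nat_lit 5) (nat_lit 4) (nat_lit 4) (nat_lit 393) (nat_lit 250) (nat_lit 218)))) (XT.nd (nat_lit 94) (nat_lit 0) (nat_lit 0) (XT.lf (nat_lit 0) (nat_lit 1674656605) (nat_lit 84) (nat_lit 3872464173) (nat_lit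 168) (nat_lit 39660609782) (nat_lit 2) (nat_lit 5) (nat_lit 3) (nat_lit 5) (nat_lit 4) (nat_lit 4) (nat_lit 394) (nat_lit 250) (nat_lit 217)) (XT.nd (nat_lit 94) (nat_lit 0) (nat_lit 0) (XT.lf (nat_lit 0) (nat_lit 4719975230) (nat_lit 84) (nat_lit 2408235361) (nat_lit 168) (nat_lit 39417984520) (nat_lit 2) (nat_lit 5) (nat_lit 3) (nat_lit 5) (nat_lit 4) (nat_lit 4) (nat_lit 395) (nat_lit 250) (nat_lit 216)) (XT.lf (nat_lit 0) (nat_lit 7822102757) (nat_lit 84) (nat_lit 912712860) (nat_lit 168) (nat_lit 39192130438) (nat_lit 2) (nat_lit 5) (nat_lit 3) (nat_lit 5) (nat_lit 4) (nat_lit 4) (nat_lit 396) (nat_lit 250) (nat_lit 215))))) (XT.nd (nat_lit 282) (nat_lit 0) (nat_lit 0) (XT.nd (nat_lit 94) (nat_lit 0) (nat_lit 0) (XT.lf (nat_lit 0) (nat_lit 10374539189) (nat_lit 168) (nat_lit 38373445511) (nat_lit 0) (nat_lit 603096414) (nat_lit 2) (nat_lit 5) (nat_lit 4) (nat_lit 4) (nat_lit 2)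 (nat_lit 4) (nat_lit 397) (nat_lit 250) (nat_lit 214)) (XT.nd (nat_lit 94) (nat_lit 0) (nat_lit 0) (XT.lf (nat_lit 0) (nat_lit 12052190821) (nat_lit 168) (nat_lit 36633693797) (nat_lit 0) (nat_lit 2133941400) (nat_lit 2) (nat_lit 5) (nat_lit 4) (nat_lit 4) (nat_lit 2) (nat_lit 4) (nat_lit 398) (nat_lit 250) (nat_lit 213)) (XT.lf (nat_lit 0) (nat_lit 13760280035) (nat_lit 168) (nat_lit 34874912300) (nat_lit 0) (nat_lit 3699638136) (nat_lit 2) (nat_lit 5) (nat_lit 4) (nat_lit 4) (nat_lit 2) (nat_lit 4) (nat_lit 399) (nat_lit 250) (nat_lit 212)))) (XT.nd (nat_lit 188) (nat_lit 0) (nat_lit 0) (XT.nd (nat_lit 94) (nat_lit 0) (nat_lit 0) (XT.lf (nat_lit 0) (nat_lit 15500398950) (nat_lit 168) (nat_lit 33095461652) (nat_lit 0) (nat_lit 5301646015) (nat_lit 2) (nat_lit 5) (nat_lit 4) (nat_lit 4) (nat_lit 2) (nat_lit 4) (nat_lit 400) (nat_lit 250) (nat_lit 211)) (XT.lf (nat_lit 0) (nat_lit 17274169539)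 (nat_lit 168) (nat_lit 31293683219) (nat_lit 0) (nat_lit 6941458276) (nat_lit 2) (nat_lit 5) (nat_lit 4) (nat_lit 4) (nat_lit 2) (nat_lit 4) (nat_lit 401) (nat_lit 250) (nat_lit 210))) (XT.nd (nat_lit 94) (nat_lit 0) (nat_lit 0) (XT.lf (nat_lit 0) (nat_lit 19083245142) (nat_lit 168) (nat_lit 29467897554) (nat_lit 0) (nat_lit 8620603396) (nat_lit 2) (nat_lit 5) (nat_lit 4) (nat_lit 4) (nat_lit 2) (nat_lit 4) (nat_lit 402) (nat_lit 250) (nat_lit 209)) (XT.lf (nat_lit 0) (nat_lit 20929312006) (nat_lit 168) (nat_lit 27616402833) (nat_lit 0) (nat_lit 10340646514) (nat_lit 2) (nat_lit 5) (nat_lit 4) (nat_lit 4) (nat_lit 2) (nat_lit 4) (nat_lit 403) (nat_lit 250) (nat_lit 208))))))))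
noncomputable def xc16 : XT := (XT.nd (nat_lit 50478) (nat_lit 0) (nat_lit 252) (XT.nd (nat_lit 1128) (nat_lit 84) (nat_lit 0) (XT.nd (nat_lit 564) (nat_lit 0) (nat_lit 0) (XT.nd (nat_lit 282) (nat_lit 0) (nat_lit 0) (XT.nd (nat_lit 94) (nat_lit 0) (nat_lit 0) (XT.lf (nat_lit 0) (nat_lit 22814090860) (nat_lit 168) (nat_lit 25737473270) (nat_lit 0) (nat_lit 12103190890) (nat_lit 2) (nat_lit 5) (nat_lit 4) (nat_lit 4) (nat_lit 2) (nat_lit 4) (nat_lit 404) (nat_lit 250) (nat_lit 207)) (XT.nd (nat_lit 94) (nat_lit 0) (nat_lit 0) (XT.lf (nat_lit 0) (nat_lit 24739338515) (nat_lit 168) (nat_lit 23829357506) (nat_lit 0) (nat_lit 13909879400) (nat_lit 2) (nat_lit 5) (nat_lit 4) (nat_lit 4) (nat_lit 2) (nat_lit 4) (nat_lit 405) (nat_lit 250) (nat_lit 206)) (XT.lf (nat_lit 0) (nat_lit 26706849504) (nat_lit 168) (nat_lit 21890276976) (nat_lit 0) (nat_lit 15762396068) (nat_lit 2) (nat_lit 5) (nat_lit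 4) (nat_lit 4) (nat_lit 2) (nat_lit 4) (nat_lit 406) (nat_lit 250) (nat_lit 205)))) (XT.nd (nat_lit 94) (nat_lit 0) (nat_lit 0) (XT.lf (nat_lit 0) (nat_lit 28718457751) (nat_lit 168) (nat_lit 19918424255) (nat_lit 0) (nat_lit 17662467632) (nat_lit 2) (nat_lit 5) (nat_lit 4) (nat_lit 4) (nat_lit 2) (nat_lit 4) (nat_lit 407) (nat_lit 250) (nat_lit 204)) (XT.nd (nat_lit 94) (nat_lit 0) (nat_lit 0) (XT.lf (nat_lit 0) (nat_lit 30776038289) (nat_lit 168) (nat_lit 17911961369) (nat_lit 0) (nat_lit 19611865159) (nat_lit 2) (nat_lit 5) (nat_lit 4) (nat_lit 4) (nat_lit 2) (nat_lit 4) (nat_lit 408) (nat_lit 250) (nat_lit 203)) (XT.lf (nat_lit 0) (nat_lit 32881508996) (nat_lit 168) (nat_lit 15869018085) (nat_lit 0) (nat_lit 21612405692) (nat_lit 2) (nat_lit 5) (nat_lit 4) (nat_lit 4) (nat_lit 2) (nat_lit 4) (nat_lit 409) (nat_lit 250) (nat_lit 202))))) (XT.nd (nat_lit 282) (nat_lit 0) (nat_lit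 0) (XT.nd (nat_lit 94) (nat_lit 0) (nat_lit 0) (XT.lf (nat_lit 0) (nat_lit 35036832392) (nat_lit 168) (nat_lit 13787690166) (nat_lit 0) (nat_lit 23665953943) (nat_lit 2) (nat_lit 5) (nat_lit 4) (nat_lit 4) (nat_lit 2) (nat_lit 4) (nat_lit 410) (nat_lit 250) (nat_lit 201)) (XT.nd (nat_lit 94) (nat_lit 0) (nat_lit 0) (XT.lf (nat_lit 0) (nat_lit 37244017464) (nat_lit 168) (nat_lit 11666037595) (nat_lit 0) (nat_lit 25774424034) (nat_lit 2) (nat_lit 5) (nat_lit 4) (nat_lit 4) (nat_lit 2) (nat_lit 4) (nat_lit 411) (nat_lit 250) (nat_lit 200)) (XT.lf (nat_lit 0) (nat_lit 39505121541) (nat_lit 168) (nat_lit 9502082771) (nat_lit 0) (nat_lit 27939781282) (nat_lit 2) (nat_lit 5) (nat_lit 4) (nat_lit 4) (nat_lit 2) (nat_lit 4) (nat_lit 412) (nat_lit 250) (nat_lit 199)))) (XT.nd (nat_lit 94) (nat_lit 0) (nat_lit 0) (XT.lf (nat_lit 0) (nat_lit 41822252207) (nat_lit 168) (nat_lit 7293808661) (nat_lit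 0) (nat_lit 30164044025) (nat_lit 2) (nat_lit 5) (nat_lit 4) (nat_lit 4) (nat_lit 2) (nat_lit 4) (nat_lit 413) (nat_lit 250) (nat_lit 198)) (XT.nd (nat_lit 94) (nat_lit 0) (nat_lit 0) (XT.lf (nat_lit 0) (nat_lit 44197569272) (nat_lit 168) (nat_lit 5039156921) (nat_lit 0) (nat_lit 32449285509) (nat_lit 2) (nat_lit 5) (nat_lit 4) (nat_lit 4) (nat_lit 2) (nat_lit 4) (nat_lit 414) (nat_lit 250) (nat_lit 197)) (XT.lf (nat_lit 0) (nat_lit 46633286780) (nat_lit 168) (nat_lit 2736025982) (nat_lit 0) (nat_lit 34797635819) (nat_lit 2) (nat_lit 5) (nat_lit 4) (nat_lit 4) (nat_lit 2) (nat_lit 4) (nat_lit 415) (nat_lit 250) (nat_lit 196)))))) (XT.nd (nat_lit 48786) (nat_lit 0) (nat_lit 672) (XT.nd (nat_lit 282) (nat_lit 0) (nat_lit 0) (XT.nd (nat_lit 94) (nat_lit 84) (nat_lit 0) (XT.lf (nat_lit 0) (nat_lit 49131675074) (nat_lit 168) (nat_lit 382269082) (nat_lit 0) (nat_lit 37211283864) (nat_lit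 2) (nat_lit 5) (nat_lit 4) (nat_lit 4) (nat_lit 2) (nat_lit 4) (nat_lit 416) (nat_lit 250) (nat_lit 195)) (XT.nd (nat_lit 94) (nat_lit 0) (nat_lit 0) (XT.lf (nat_lit 0) (nat_lit 2065931643) (nat_lit 84) (nat_lit 49649625568) (nat_lit 84) (nat_lit 37647042069) (nat_lit 1) (nat_lit 4) (nat_lit 2) (nat_lit 5) (nat_lit 2) (nat_lit 4) (nat_lit 417) (nat_lit 250) (nat_lit 194)) (XT.lf (nat_lit 0) (nat_lit 4578187905) (nat_lit 84) (nat_lit 49793067932) (nat_lit 84) (nat_lit 37710763493) (nat_lit 1) (nat_lit 4) (nat_lit 2) (nat_lit 5) (nat_lit 2) (nat_lit 4) (nat_lit 418) (nat_lit 250) (nat_lit 193)))) (XT.nd (nat_lit 94) (nat_lit 0) (nat_lit 0) (XT.lf (nat_lit 0) (nat_lit 7148981152) (nat_lit 84) (nat_lit 49948395056) (nat_lit 84) (nat_lit 37788766719) (nat_lit 1) (nat_lit 4) (nat_lit 2) (nat_lit 5) (nat_lit 2) (nat_lit 4) (nat_lit 419) (nat_lit 250) (nat_lit 192)) (XT.nd (nat_lit 48316)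 (nat_lit 0) (nat_lit 840) (XT.lf (nat_lit 0) (nat_lit 9780707634) (nat_lit 84) (nat_lit 50115751721) (nat_lit 84) (nat_lit 37881124452) (nat_lit 1) (nat_lit 4) (nat_lit 2) (nat_lit 5) (nat_lit 2) (nat_lit 4) (nat_lit 420) (nat_lit 250) (nat_lit 191)) (XT.lf (nat_lit 0) (nat_lit 956300676) (nat_lit 168) (nat_lit 3846579315) (nat_lit 168) (nat_lit 3846579315) (nat_lit 11) (nat_lit 4) (nat_lit 13) (nat_lit 5) (nat_lit 13) (nat_lit 4) (nat_lit 359) (nat_lit 251) (nat_lit 251))))) (XT.nd (nat_lit 282) (nat_lit 168) (nat_lit 0) (XT.nd (nat_lit 94) (nat_lit 0) (nat_lit 0) (XT.lf (nat_lit 0) (nat_lit 6397093455) (nat_lit 168) (nat_lit 5917555282) (nat_lit 168) (nat_lit 5419712373) (nat_lit 11) (nat_lit 4) (nat_lit 13) (nat_lit 5) (nat_lit 13) (nat_lit 4) (nat_lit 360) (nat_lit 251) (nat_lit 250)) (XT.nd (nat_lit 94) (nat_lit 0) (nat_lit 0) (XT.lf (nat_lit 0) (nat_lit 10932349508) (nat_lit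 168) (nat_lit 4116840177) (nat_lit 168) (nat_lit 3136123448) (nat_lit 11) (nat_lit 4) (nat_lit 13) (nat_lit 5) (nat_lit 13) (nat_lit 4) (nat_lit 361) (nat_lit 251) (nat_lit 249)) (XT.lf (nat_lit 0) (nat_lit 15522596847) (nat_lit 168) (nat_lit 2289334862) (nat_lit 168) (nat_lit 840263312) (nat_lit 11) (nat_lit 4) (nat_lit 13) (nat_lit 5) (nat_lit 13) (nat_lit 4) (nat_lit 362) (nat_lit 251) (nat_lit 248)))) (XT.nd (nat_lit 94) (nat_lit 0) (nat_lit 0) (XT.lf (nat_lit 0) (nat_lit 1043105697) (nat_lit 84) (nat_lit 407632669) (nat_lit 168) (nat_lit 17683930748) (nat_lit 9) (nat_lit 5) (nat_lit 10) (nat_lit 5) (nat_lit 11) (nat_lit 4) (nat_lit 363) (nat_lit 251) (nat_lit 247)) (XT.nd (nat_lit 94) (nat_lit 0) (nat_lit 0) (XT.lf (nat_lit 0) (nat_lit 3788451218) (nat_lit 168) (nat_lit 14328802487) (nat_lit 0) (nat_lit 1514971790) (nat_lit 9) (nat_lit 5) (nat_lit 11) (nat_lit 4) (nat_lit 9) (nat_lit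 4) (nat_lit 364) (nat_lit 251) (nat_lit 246)) (XT.lf (nat_lit 0) (nat_lit 6149399820) (nat_lit 168) (nat_lit 10536101303) (nat_lit 0) (nat_lit 3461405314) (nat_lit 9) (nat_lit 5) (nat_lit 11) (nat_lit 4) (nat_lit 9) (nat_lit 4) (nat_lit 365) (nat_lit 251) (nat_lit 245))))))) (XT.nd (nat_lit 1128) (nat_lit 84) (nat_lit 0) (XT.nd (nat_lit 564) (nat_lit 168) (nat_lit 0) (XT.nd (nat_lit 282) (nat_lit 0) (nat_lit 0) (XT.nd (nat_lit 94) (nat_lit 168) (nat_lit 0) (XT.lf (nat_lit 0) (nat_lit 8531741061) (nat_lit 168) (nat_lit 6705880904) (nat_lit 0) (nat_lit 5441695071) (nat_lit 9) (nat_lit 5) (nat_lit 11) (nat_lit 4) (nat_lit 9) (nat_lit 4) (nat_lit 366) (nat_lit 251) (nat_lit 244)) (XT.nd (nat_lit 94) (nat_lit 168) (nat_lit 0) (XT.lf (nat_lit 0) (nat_lit 10937695530) (nat_lit 168) (nat_lit 2834571123) (nat_lit 0) (nat_lit 7457686899) (nat_lit 9) (nat_lit 5) (nat_lit 11) (nat_lit 4) (nat_lit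 9) (nat_lit 4) (nat_lit 367) (nat_lit 251) (nat_lit 243)) (XT.lf (nat_lit 0) (nat_lit 1103673058) (nat_lit 168) (nat_lit 12276781344) (nat_lit 168) (nat_lit 8418535428) (nat_lit 7) (nat_lit 4) (nat_lit 9) (nat_lit 5) (nat_lit 9) (nat_lit 4) (nat_lit 368) (nat_lit 251) (nat_lit 242)))) (XT.nd (nat_lit 94) (nat_lit 0) (nat_lit 0) (XT.lf (nat_lit 0) (nat_lit 5149543946) (nat_lit 168) (nat_lit 10730978828) (nat_lit 168) (nat_lit 6505868426) (nat_lit 7) (nat_lit 4) (nat_lit 9) (nat_lit 5) (nat_lit 9) (nat_lit 4) (nat_lit 369) (nat_lit 251) (nat_lit 241)) (XT.nd (nat_lit 94) (nat_lit 0) (nat_lit 0) (XT.lf (nat_lit 0) (nat_lit 9248528121) (nat_lit 168) (nat_lit 9163005363) (nat_lit 168) (nat_lit 4582061318) (nat_lit 7) (nat_lit 4) (nat_lit 9) (nat_lit 5) (nat_lit 9) (nat_lit 4) (nat_lit 370) (nat_lit 251) (nat_lit 240)) (XT.lf (nat_lit 0) (nat_lit 13404446265) (nat_lit 168) (nat_lit 7571399435)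 (nat_lit 168) (nat_lit 2645320914) (nat_lit 7) (nat_lit 4) (nat_lit 9) (nat_lit 5) (nat_lit 9) (nat_lit 4) (nat_lit 371) (nat_lit 251) (nat_lit 239))))) (XT.nd (nat_lit 282) (nat_lit 0) (nat_lit 0) (XT.nd (nat_lit 94) (nat_lit 168) (nat_lit 0) (XT.lf (nat_lit 0) (nat_lit 17621172128) (nat_lit 168) (nat_lit 5954677498) (nat_lit 168) (nat_lit 693841971) (nat_lit 7) (nat_lit 4) (nat_lit 9) (nat_lit 5) (nat_lit 9) (nat_lit 4) (nat_lit 372) (nat_lit 251) (nat_lit 238)) (XT.nd (nat_lit 94) (nat_lit 84) (nat_lit 0) (XT.lf (nat_lit 0) (nat_lit 1248522315) (nat_lit 252) (nat_lit 3049778272) (nat_lit 84) (nat_lit 20641081814) (nat_lit 6) (nat_lit 5) (nat_lit 9) (nat_lit 5) (nat_lit 7) (nat_lit 4) (nat_lit 373) (nat_lit 251) (nat_lit 237)) (XT.lf (nat_lit 0) (nat_lit 600543765) (nat_lit 84) (nat_lit 2600342319) (nat_lit 168) (nat_lit 22429965665) (nat_lit 5) (nat_lit 5) (nat_lit 6) (nat_lit 5)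 (nat_lit 7) (nat_lit 4) (nat_lit 374) (nat_lit 251) (nat_lit 236)))) (XT.nd (nat_lit 94) (nat_lit 0) (nat_lit 0) (XT.lf (nat_lit 0) (nat_lit 4364353997) (nat_lit 84) (nat_lit 840111488) (nat_lit 168) (nat_lit 21139704122) (nat_lit 5) (nat_lit 5) (nat_lit 6) (nat_lit 5) (nat_lit 7) (nat_lit 4) (nat_lit 375) (nat_lit 251) (nat_lit 235)) (XT.nd (nat_lit 94) (nat_lit 0) (nat_lit 0) (XT.lf (nat_lit 0) (nat_lit 7239697732) (nat_lit 168) (nat_lit 18907952968) (nat_lit 0) (nat_lit 933014502) (nat_lit 5) (nat_lit 5) (nat_lit 7) (nat_lit 4) (nat_lit 5) (nat_lit 4) (nat_lit 376) (nat_lit 251) (nat_lit 234)) (XT.lf (nat_lit 0) (nat_lit 9307693955) (nat_lit 168) (nat_lit 15811070841) (nat_lit 0) (nat_lit 2722284595) (nat_lit 5) (nat_lit 5) (nat_lit 7) (nat_lit 4) (nat_lit 5) (nat_lit 4) (nat_lit 377) (nat_lit 251) (nat_lit 233)))))) (XT.nd (nat_lit 564) (nat_lit 0) (nat_lit 0) (XT.nd (nat_lit 282)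 (nat_lit 84) (nat_lit 0) (XT.nd (nat_lit 94) (nat_lit 0) (nat_lit 0) (XT.lf (nat_lit 0) (nat_lit 11402047733) (nat_lit 168) (nat_lit 12677948601) (nat_lit 0) (nat_lit 4546292951) (nat_lit 5) (nat_lit 5) (nat_lit 7) (nat_lit 4) (nat_lit 5) (nat_lit 4) (nat_lit 378) (nat_lit 251) (nat_lit 232)) (XT.nd (nat_lit 94) (nat_lit 0) (nat_lit 0) (XT.lf (nat_lit 0) (nat_lit 13524711223) (nat_lit 168) (nat_lit 9505665850) (nat_lit 0) (nat_lit 6406739737) (nat_lit 5) (nat_lit 5) (nat_lit 7) (nat_lit 4) (nat_lit 5) (nat_lit 4) (nat_lit 379) (nat_lit 251) (nat_lit 231)) (XT.lf (nat_lit 0) (nat_lit 15677662970) (nat_lit 168) (nat_lit 6291265687) (nat_lit 0) (nat_lit 8305359084) (nat_lit 5) (nat_lit 5) (nat_lit 7) (nat_lit 4) (nat_lit 5) (nat_lit 4) (nat_lit 380) (nat_lit 251) (nat_lit 230)))) (XT.nd (nat_lit 94) (nat_lit 84) (nat_lit 0) (XT.lf (nat_lit 0) (nat_lit 17862909750) (nat_lit 168) (nat_lit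 3031751955) (nat_lit 0) (nat_lit 10243920704) (nat_lit 5) (nat_lit 5) (nat_lit 7) (nat_lit 4) (nat_lit 5) (nat_lit 4) (nat_lit 381) (nat_lit 251) (nat_lit 229)) (XT.nd (nat_lit 94) (nat_lit 0) (nat_lit 0) (XT.lf (nat_lit 0) (nat_lit 281586902) (nat_lit 84) (nat_lit 19803694918) (nat_lit 84) (nat_lit 11945438016) (nat_lit 4) (nat_lit 4) (nat_lit 5) (nat_lit 5) (nat_lit 5) (nat_lit 4) (nat_lit 382) (nat_lit 251) (nat_lit 228)) (XT.lf (nat_lit 0) (nat_lit 3709553159) (nat_lit 84) (nat_lit 18665713995) (nat_lit 84) (nat_lit 10575383517) (nat_lit 4) (nat_lit 4) (nat_lit 5) (nat_lit 5) (nat_lit 5) (nat_lit 4) (nat_lit 383) (nat_lit 251) (nat_lit 227))))) (XT.nd (nat_lit 282) (nat_lit 0) (nat_lit 0) (XT.nd (nat_lit 94) (nat_lit 0) (nat_lit 0) (XT.lf (nat_lit 0) (nat_lit 7193003003) (nat_lit 84) (nat_lit 17511303491) (nat_lit 84) (nat_lit 9195877402) (nat_lit 4) (nat_lit 4) (nat_lit 5) (nat_lit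 5) (nat_lit 5) (nat_lit 4) (nat_lit 384) (nat_lit 251) (nat_lit 226)) (XT.nd (nat_lit 94) (nat_lit 0) (nat_lit 0) (XT.lf (nat_lit 0) (nat_lit 10735183372) (nat_lit 84) (nat_lit 16339387377) (nat_lit 84) (nat_lit 7805633827) (nat_lit 4) (nat_lit 4) (nat_lit 5) (nat_lit 5) (nat_lit 5) (nat_lit 4) (nat_lit 385) (nat_lit 251) (nat_lit 225)) (XT.lf (nat_lit 0) (nat_lit 14339395950) (nat_lit 84) (nat_lit 15148873302) (nat_lit 84) (nat_lit 6403356939) (nat_lit 4) (nat_lit 4) (nat_lit 5) (nat_lit 5) (nat_lit 5) (nat_lit 4) (nat_lit 386) (nat_lit 251) (nat_lit 224)))) (XT.nd (nat_lit 94) (nat_lit 0) (nat_lit 0) (XT.lf (nat_lit 0) (nat_lit 18009000240) (nat_lit 84) (nat_lit 13938651582) (nat_lit 84) (nat_lit 4987739669) (nat_lit 4) (nat_lit 4) (nat_lit 5) (nat_lit 5) (nat_lit 5) (nat_lit 4) (nat_lit 387) (nat_lit 251) (nat_lit 223)) (XT.nd (nat_lit 94) (nat_lit 0) (nat_lit 0) (XT.lf (nat_lit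 0) (nat_lit 21747416699) (nat_lit 84) (nat_lit 12707594166) (nat_lit 84) (nat_lit 3557462513) (nat_lit 4) (nat_lit 4) (nat_lit 5) (nat_lit 5) (nat_lit 5) (nat_lit 4) (nat_lit 388) (nat_lit 251) (nat_lit 222)) (XT.lf (nat_lit 0) (nat_lit 25558129922) (nat_lit 84) (nat_lit 11454553577) (nat_lit 84) (nat_lit 2111192304) (nat_lit 4) (nat_lit 4) (nat_lit 5) (nat_lit 5) (nat_lit 5) (nat_lit 4) (nat_lit 389) (nat_lit 251) (nat_lit 221))))))))
noncomputable def xc17 : XT := (XT.nd (nat_lit 2256) (nat_lit 84) (nat_lit 0) (XT.nd (nat_lit 1128) (nat_lit 0) (nat_lit 0) (XT.nd (nat_lit 564) (nat_lit 0) (nat_lit 0) (XT.nd (nat_lit 282) (nat_lit 84) (nat_lit 0) (XT.nd (nat_lit 94) (nat_lit 84) (nat_lit 0) (XT.lf (nat_lit 0) (nat_lit 29444691892) (nat_lit 84) (nat_lit 10178361852) (nat_lit 84) (nat_lit 647580966) (nat_lit 4) (nat_lit 4) (nat_lit 5) (nat_lit 5) (nat_lit 5) (nat_lit 4) (nat_lit 390)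 (nat_lit 251) (nat_lit 220)) (XT.nd (nat_lit 94) (nat_lit 0) (nat_lit 0) (XT.lf (nat_lit 0) (nat_lit 817917675) (nat_lit 168) (nat_lit 8051374386) (nat_lit 84) (nat_lit 32584270235) (nat_lit 3) (nat_lit 5) (nat_lit 5) (nat_lit 5) (nat_lit 4) (nat_lit 4) (nat_lit 391) (nat_lit 251) (nat_lit 219)) (XT.lf (nat_lit 0) (nat_lit 2290051337) (nat_lit 168) (nat_lit 5237789347) (nat_lit 84) (nat_lit 35145972107) (nat_lit 3) (nat_lit 5) (nat_lit 5) (nat_lit 5) (nat_lit 4) (nat_lit 4) (nat_lit 392) (nat_lit 251) (nat_lit 218)))) (XT.nd (nat_lit 94) (nat_lit 84) (nat_lit 0) (XT.lf (nat_lit 0) (nat_lit 3783239515) (nat_lit 168) (nat_lit 2376141062) (nat_lit 84) (nat_lit 37773342167) (nat_lit 3) (nat_lit 5) (nat_lit 5) (nat_lit 5) (nat_lit 4) (nat_lit 4) (nat_lit 393) (nat_lit 251) (nat_lit 217)) (XT.nd (nat_lit 94) (nat_lit 0) (nat_lit 0) (XT.lf (nat_lit 0) (nat_lit 547263974) (nat_lit 84) (nat_lit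 4757038969) (nat_lit 168) (nat_lit 39926994350) (nat_lit 2) (nat_lit 5) (nat_lit 3) (nat_lit 5) (nat_lit 4) (nat_lit 4) (nat_lit 394) (nat_lit 251) (nat_lit 216)) (XT.lf (nat_lit 0) (nat_lit 3574071533) (nat_lit 84) (nat_lit 3299751271) (nat_lit 168) (nat_lit 39696329975) (nat_lit 2) (nat_lit 5) (nat_lit 3) (nat_lit 5) (nat_lit 4) (nat_lit 4) (nat_lit 395) (nat_lit 251) (nat_lit 215))))) (XT.nd (nat_lit 282) (nat_lit 0) (nat_lit 0) (XT.nd (nat_lit 94) (nat_lit 0) (nat_lit 0) (XT.lf (nat_lit 0) (nat_lit 6658244582) (nat_lit 84) (nat_lit 1810961180) (nat_lit 168) (nat_lit 39482077142) (nat_lit 2) (nat_lit 5) (nat_lit 3) (nat_lit 5) (nat_lit 4) (nat_lit 4) (nat_lit 396) (nat_lit 251) (nat_lit 214)) (XT.nd (nat_lit 94) (nat_lit 0) (nat_lit 0) (XT.lf (nat_lit 0) (nat_lit 9802657894) (nat_lit 84) (nat_lit 289280986) (nat_lit 168) (nat_lit 39284036143) (nat_lit 2) (nat_lit 5) (nat_lit 3)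 (nat_lit 5) (nat_lit 4) (nat_lit 4) (nat_lit 397) (nat_lit 251) (nat_lit 213)) (XT.lf (nat_lit 0) (nat_lit 11756100613) (nat_lit 168) (nat_lit 37847880607) (nat_lit 0) (nat_lit 1241186337) (nat_lit 2) (nat_lit 5) (nat_lit 4) (nat_lit 4) (nat_lit 2) (nat_lit 4) (nat_lit 398) (nat_lit 251) (nat_lit 212)))) (XT.nd (nat_lit 94) (nat_lit 0) (nat_lit 0) (XT.lf (nat_lit 0) (nat_lit 13453888959) (nat_lit 168) (nat_lit 36105767291) (nat_lit 0) (nat_lit 2800863647) (nat_lit 2) (nat_lit 5) (nat_lit 4) (nat_lit 4) (nat_lit 2) (nat_lit 4) (nat_lit 399) (nat_lit 251) (nat_lit 211)) (XT.nd (nat_lit 94) (nat_lit 0) (nat_lit 0) (XT.lf (nat_lit 0) (nat_lit 15184016730) (nat_lit 168) (nat_lit 34342483647) (nat_lit 0) (nat_lit 4397033090) (nat_lit 2) (nat_lit 5) (nat_lit 4) (nat_lit 4) (nat_lit 2) (nat_lit 4) (nat_lit 400) (nat_lit 251) (nat_lit 210)) (XT.lf (nat_lit 0) (nat_lit 16948096588) (nat_lit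 168) (nat_lit 32556386109) (nat_lit 0) (nat_lit 6031182465) (nat_lit 2) (nat_lit 5) (nat_lit 4) (nat_lit 4) (nat_lit 2) (nat_lit 4) (nat_lit 401) (nat_lit 251) (nat_lit 209)))))) (XT.nd (nat_lit 564) (nat_lit 0) (nat_lit 0) (XT.nd (nat_lit 282) (nat_lit 0) (nat_lit 0) (XT.nd (nat_lit 94) (nat_lit 0) (nat_lit 0) (XT.lf (nat_lit 0) (nat_lit 18747772840) (nat_lit 168) (nat_lit 30745809848) (nat_lit 0) (nat_lit 7704834970) (nat_lit 2) (nat_lit 5) (nat_lit 4) (nat_lit 4) (nat_lit 2) (nat_lit 4) (nat_lit 402) (nat_lit 251) (nat_lit 208)) (XT.nd (nat_lit 94) (nat_lit 0) (nat_lit 0) (XT.lf (nat_lit 0) (nat_lit 20584722972) (nat_lit 168) (nat_lit 28909067218) (nat_lit 0) (nat_lit 9419550624) (nat_lit 2) (nat_lit 5) (nat_lit 4) (nat_lit 4) (nat_lit 2) (nat_lit 4) (nat_lit 403) (nat_lit 251) (nat_lit 207)) (XT.lf (nat_lit 0) (nat_lit 22460659215) (nat_lit 168) (nat_lit 27044446180) (nat_lit 0)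 (nat_lit 11176927722) (nat_lit 2) (nat_lit 5) (nat_lit 4) (nat_lit 4) (nat_lit 2) (nat_lit 4) (nat_lit 404) (nat_lit 251) (nat_lit 206)))) (XT.nd (nat_lit 94) (nat_lit 0) (nat_lit 0) (XT.lf (nat_lit 0) (nat_lit 24377330137) (nat_lit 168) (nat_lit 25150208714) (nat_lit 0) (nat_lit 12978604324) (nat_lit 2) (nat_lit 5) (nat_lit 4) (nat_lit 4) (nat_lit 2) (nat_lit 4) (nat_lit 405) (nat_lit 251) (nat_lit 205)) (XT.nd (nat_lit 94) (nat_lit 0) (nat_lit 0) (XT.lf (nat_lit 0) (nat_lit 26336522277) (nat_lit 168) (nat_lit 23224589191) (nat_lit 0) (nat_lit 14826259780) (nat_lit 2) (nat_lit 5) (nat_lit 4) (nat_lit 4) (nat_lit 2) (nat_lit 4) (nat_lit 406) (nat_lit 251) (nat_lit 204)) (XT.lf (nat_lit 0) (nat_lit 28340061807) (nat_lit 168) (nat_lit 21265792733) (nat_lit 0) (nat_lit 16721616300) (nat_lit 2) (nat_lit 5) (nat_lit 4) (nat_lit 4) (nat_lit 2) (nat_lit 4) (nat_lit 407) (nat_lit 251) (nat_lit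 203))))) (XT.nd (nat_lit 282) (nat_lit 0) (nat_lit 0) (XT.nd (nat_lit 94) (nat_lit 0) (nat_lit 0) (XT.lf (nat_lit 0) (nat_lit 30389816235) (nat_lit 168) (nat_lit 19271993535) (nat_lit 0) (nat_lit 18666440554) (nat_lit 2) (nat_lit 5) (nat_lit 4) (nat_lit 4) (nat_lit 2) (nat_lit 4) (nat_lit 408) (nat_lit 251) (nat_lit 202)) (XT.nd (nat_lit 94) (nat_lit 0) (nat_lit 0) (XT.lf (nat_lit 0) (nat_lit 32487696148) (nat_lit 168) (nat_lit 17241333169) (nat_lit 0) (nat_lit 20662545322) (nat_lit 2) (nat_lit 5) (nat_lit 4) (nat_lit 4) (nat_lit 2) (nat_lit 4) (nat_lit 409) (nat_lit 251) (nat_lit 201)) (XT.lf (nat_lit 0) (nat_lit 34635656990) (nat_lit 168) (nat_lit 15171918846) (nat_lit 0) (nat_lit 22711791182) (nat_lit 2) (nat_lit 5) (nat_lit 4) (nat_lit 4) (nat_lit 2) (nat_lit 4) (nat_lit 410) (nat_lit 251) (nat_lit 200)))) (XT.nd (nat_lit 94) (nat_lit 0) (nat_lit 0) (XT.lf (nat_lit 0) (nat_lit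 36835700884) (nat_lit 168) (nat_lit 13061821655) (nat_lit 0) (nat_lit 24816088247) (nat_lit 2) (nat_lit 5) (nat_lit 4) (nat_lit 4) (nat_lit 2) (nat_lit 4) (nat_lit 411) (nat_lit 251) (nat_lit 199)) (XT.nd (nat_lit 94) (nat_lit 0) (nat_lit 0) (XT.lf (nat_lit 0) (nat_lit 39089878502) (nat_lit 168) (nat_lit 10909074765) (nat_lit 0) (nat_lit 26977397942) (nat_lit 2) (nat_lit 5) (nat_lit 4) (nat_lit 4) (nat_lit 2) (nat_lit 4) (nat_lit 412) (nat_lit 251) (nat_lit 198)) (XT.lf (nat_lit 0) (nat_lit 41400290975) (nat_lit 168) (nat_lit 8711671589) (nat_lit 0) (nat_lit 29197734834) (nat_lit 2) (nat_lit 5) (nat_lit 4) (nat_lit 4) (nat_lit 2) (nat_lit 4) (nat_lit 413) (nat_lit 251) (nat_lit 197))))))) (XT.nd (nat_lit 49162) (nat_lit 0) (nat_lit 420) (XT.nd (nat_lit 564) (nat_lit 0) (nat_lit 0) (XT.nd (nat_lit 282) (nat_lit 84) (nat_lit 0) (XT.nd (nat_lit 94) (nat_lit 0) (nat_lit 0) (XT.lf (nat_lit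 0) (nat_lit 43769091847) (nat_lit 168) (nat_lit 6467563919) (nat_lit 0) (nat_lit 31479168509) (nat_lit 2) (nat_lit 5) (nat_lit 4) (nat_lit 4) (nat_lit 2) (nat_lit 4) (nat_lit 414) (nat_lit 251) (nat_lit 196)) (XT.nd (nat_lit 94) (nat_lit 0) (nat_lit 0) (XT.lf (nat_lit 0) (nat_lit 46198489091) (nat_lit 168) (nat_lit 4174660010) (nat_lit 0) (nat_lit 33823825503) (nat_lit 2) (nat_lit 5) (nat_lit 4) (nat_lit 4) (nat_lit 2) (nat_lit 4) (nat_lit 415) (nat_lit 251) (nat_lit 195)) (XT.lf (nat_lit 0) (nat_lit 48690747158) (nat_lit 168) (nat_lit 1830822635) (nat_lit 0) (nat_lit 36233891282) (nat_lit 2) (nat_lit 5) (nat_lit 4) (nat_lit 4) (nat_lit 2) (nat_lit 4) (nat_lit 416) (nat_lit 251) (nat_lit 194)))) (XT.nd (nat_lit 94) (nat_lit 0) (nat_lit 0) (XT.lf (nat_lit 0) (nat_lit 577773759) (nat_lit 84) (nat_lit 50676146922) (nat_lit 84) (nat_lit 38139570107) (nat_lit 1) (nat_lit 4) (nat_lit 2)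 (nat_lit 5) (nat_lit 2) (nat_lit 4) (nat_lit 417) (nat_lit 251) (nat_lit 193)) (XT.nd (nat_lit 94) (nat_lit 0) (nat_lit 0) (XT.lf (nat_lit 0) (nat_lit 3080506161) (nat_lit 84) (nat_lit 50823251544) (nat_lit 84) (nat_lit 38209350830) (nat_lit 1) (nat_lit 4) (nat_lit 2) (nat_lit 5) (nat_lit 2) (nat_lit 4) (nat_lit 418) (nat_lit 251) (nat_lit 192)) (XT.lf (nat_lit 0) (nat_lit 5642061911) (nat_lit 84) (nat_lit 50982130810) (nat_lit 84) (nat_lit 38293231164) (nat_lit 1) (nat_lit 4) (nat_lit 2) (nat_lit 5) (nat_lit 2) (nat_lit 4) (nat_lit 419) (nat_lit 251) (nat_lit 191))))) (XT.nd (nat_lit 48316) (nat_lit 0) (nat_lit 840) (XT.nd (nat_lit 48128) (nat_lit 0) (nat_lit 1008) (XT.lf (nat_lit 0) (nat_lit 8264828648) (nat_lit 84) (nat_lit 51152932812) (nat_lit 84) (nat_lit 38391289294) (nat_lit 1) (nat_lit 4) (nat_lit 2) (nat_lit 5) (nat_lit 2) (nat_lit 4) (nat_lit 420) (nat_lit 251) (nat_lit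 190)) (XT.nd (nat_lit 94) (nat_lit 0) (nat_lit 0) (XT.lf (nat_lit 0) (nat_lit 2433429025) (nat_lit 252) (nat_lit 3368035096) (nat_lit 0) (nat_lit 2433429025) (nat_lit 13) (nat_lit 5) (nat_lit 16) (nat_lit 4) (nat_lit 13) (nat_lit 4) (nat_lit 357) (nat_lit 252) (nat_lit 252)) (XT.lf (nat_lit 0) (nat_lit 7458325857) (nat_lit 252) (nat_lit 2474427507) (nat_lit 0) (nat_lit 6945049818) (nat_lit 13) (nat_lit 5) (nat_lit 16) (nat_lit 4) (nat_lit 13) (nat_lit 4) (nat_lit 358) (nat_lit 252) (nat_lit 251)))) (XT.nd (nat_lit 94) (nat_lit 0) (nat_lit 0) (XT.lf (nat_lit 0) (nat_lit 1867800163) (nat_lit 168) (nat_lit 8221629076) (nat_lit 168) (nat_lit 7210510129) (nat_lit 11) (nat_lit 4) (nat_lit 13) (nat_lit 5) (nat_lit 13) (nat_lit 4) (nat_lit 359) (nat_lit 252) (nat_lit 250)) (XT.nd (nat_lit 94) (nat_lit 0) (nat_lit 0) (XT.lf (nat_lit 0) (nat_lit 6308838151) (nat_lit 168) (nat_lit 6460763269)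 (nat_lit 168) (nat_lit 4966770501) (nat_lit 11) (nat_lit 4) (nat_lit 13) (nat_lit 5) (nat_lit 13) (nat_lit 4) (nat_lit 360) (nat_lit 252) (nat_lit 249)) (XT.lf (nat_lit 0) (nat_lit 10801946665) (nat_lit 168) (nat_lit 4674342580) (nat_lit 168) (nat_lit 2711994992) (nat_lit 11) (nat_lit 4) (nat_lit 13) (nat_lit 5) (nat_lit 13) (nat_lit 4) (nat_lit 361) (nat_lit 252) (nat_lit 248)))))) (XT.nd (nat_lit 564) (nat_lit 252) (nat_lit 0) (XT.nd (nat_lit 282) (nat_lit 0) (nat_lit 0) (XT.nd (nat_lit 94) (nat_lit 168) (nat_lit 0) (XT.lf (nat_lit 0) (nat_lit 15351313752) (nat_lit 168) (nat_lit 2860701878) (nat_lit 168) (nat_lit 444081912) (nat_lit 11) (nat_lit 4) (nat_lit 13) (nat_lit 5) (nat_lit 13) (nat_lit 4) (nat_lit 362) (nat_lit 252) (nat_lit 247)) (XT.nd (nat_lit 94) (nat_lit 0) (nat_lit 0) (XT.lf (nat_lit 0) (nat_lit 819192993) (nat_lit 84) (nat_lit 990962753) (nat_lit 168) (nat_lit 17329274660)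 (nat_lit 9) (nat_lit 5) (nat_lit 10) (nat_lit 5) (nat_lit 11) (nat_lit 4) (nat_lit 363) (nat_lit 252) (nat_lit 246)) (XT.lf (nat_lit 0) (nat_lit 4115788208) (nat_lit 168) (nat_lit 14592327990) (nat_lit 0) (nat_lit 929950793) (nat_lit 9) (nat_lit 5) (nat_lit 11) (nat_lit 4) (nat_lit 9) (nat_lit 4) (nat_lit 364) (nat_lit 252) (nat_lit 245)))) (XT.nd (nat_lit 94) (nat_lit 0) (nat_lit 0) (XT.lf (nat_lit 0) (nat_lit 6451233724) (nat_lit 168) (nat_lit 10839043114) (nat_lit 0) (nat_lit 2863344826) (nat_lit 9) (nat_lit 5) (nat_lit 11) (nat_lit 4) (nat_lit 9) (nat_lit 4) (nat_lit 365) (nat_lit 252) (nat_lit 244)) (XT.nd (nat_lit 94) (nat_lit 0) (nat_lit 0) (XT.lf (nat_lit 0) (nat_lit 8808838701) (nat_lit 168) (nat_lit 7047053858) (nat_lit 0) (nat_lit 4830987162) (nat_lit 9) (nat_lit 5) (nat_lit 11) (nat_lit 4) (nat_lit 9) (nat_lit 4) (nat_lit 366) (nat_lit 252) (nat_lit 243)) (XT.lf (nat_lit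 0) (nat_lit 11190800675) (nat_lit 168) (nat_lit 3212825689) (nat_lit 0) (nat_lit 6834711850) (nat_lit 9) (nat_lit 5) (nat_lit 11) (nat_lit 4) (nat_lit 9) (nat_lit 4) (nat_lit 367) (nat_lit 252) (nat_lit 242))))) (XT.nd (nat_lit 282) (nat_lit 84) (nat_lit 0) (XT.nd (nat_lit 94) (nat_lit 0) (nat_lit 0) (XT.lf (nat_lit 0) (nat_lit 680934607) (nat_lit 168) (nat_lit 12925160231) (nat_lit 168) (nat_lit 8202206920) (nat_lit 7) (nat_lit 4) (nat_lit 9) (nat_lit 5) (nat_lit 9) (nat_lit 4) (nat_lit 368) (nat_lit 252) (nat_lit 241)) (XT.nd (nat_lit 94) (nat_lit 0) (nat_lit 0) (XT.lf (nat_lit 0) (nat_lit 4691202979) (nat_lit 168) (nat_lit 11392035671) (nat_lit 168) (nat_lit 6313248717) (nat_lit 7) (nat_lit 4) (nat_lit 9) (nat_lit 5) (nat_lit 9) (nat_lit 4) (nat_lit 369) (nat_lit 252) (nat_lit 240)) (XT.lf (nat_lit 0) (nat_lit 8755655130) (nat_lit 168) (nat_lit 9836358964) (nat_lit 168) (nat_lit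 4412437535) (nat_lit 7) (nat_lit 4) (nat_lit 9) (nat_lit 5) (nat_lit 9) (nat_lit 4) (nat_lit 370) (nat_lit 252) (nat_lit 239)))) (XT.nd (nat_lit 188) (nat_lit 84) (nat_lit 0) (XT.nd (nat_lit 94) (nat_lit 0) (nat_lit 0) (XT.lf (nat_lit 0) (nat_lit 12878079555) (nat_lit 168) (nat_lit 8256680054) (nat_lit 168) (nat_lit 2498001618) (nat_lit 7) (nat_lit 4) (nat_lit 9) (nat_lit 5) (nat_lit 9) (nat_lit 4) (nat_lit 371) (nat_lit 252) (nat_lit 238)) (XT.lf (nat_lit 0) (nat_lit 17062318786) (nat_lit 168) (nat_lit 6651526517) (nat_lit 168) (nat_lit 568156512) (nat_lit 7) (nat_lit 4) (nat_lit 9) (nat_lit 5) (nat_lit 9) (nat_lit 4) (nat_lit 372) (nat_lit 252) (nat_lit 237))) (XT.nd (nat_lit 94) (nat_lit 0) (nat_lit 0) (XT.lf (nat_lit 0) (nat_lit 1351114906) (nat_lit 252) (nat_lit 3654184405) (nat_lit 84) (nat_lit 19947055196) (nat_lit 6) (nat_lit 5) (nat_lit 9) (nat_lit 5) (nat_lit 7) (nat_lit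 4) (nat_lit 373) (nat_lit 252) (nat_lit 236)) (XT.lf (nat_lit 0) (nat_lit 3277578834) (nat_lit 252) (nat_lit 46995698) (nat_lit 84) (nat_lit 22320113479) (nat_lit 6) (nat_lit 5) (nat_lit 9) (nat_lit 5) (nat_lit 7) (nat_lit 4) (nat_lit 374) (nat_lit 252) (nat_lit 235))))))))
noncomputable def xc18 : XT := (XT.nd (nat_lit 2256) (nat_lit 84) (nat_lit 0) (XT.nd (nat_lit 1128) (nat_lit 168) (nat_lit 0) (XT.nd (nat_lit 564) (nat_lit 84) (nat_lit 0) (XT.nd (nat_lit 282) (nat_lit 0) (nat_lit 0) (XT.nd (nat_lit 94) (nat_lit 0) (nat_lit 0) (XT.lf (nat_lit 0) (nat_lit 3685128681) (nat_lit 84) (nat_lit 1575906276) (nat_lit 168) (nat_lit 21097654155) (nat_lit 5) (nat_lit 5) (nat_lit 6) (nat_lit 5) (nat_lit 7) (nat_lit 4) (nat_lit 375) (nat_lit 252) (nat_lit 234)) (XT.nd (nat_lit 94) (nat_lit 0) (nat_lit 0) (XT.lf (nat_lit 0) (nat_lit 7269804766) (nat_lit 168) (nat_lit 19624736326) (nat_lit 0) (nat_lit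 201521585) (nat_lit 5) (nat_lit 5) (nat_lit 7) (nat_lit 4) (nat_lit 5) (nat_lit 4) (nat_lit 376) (nat_lit 252) (nat_lit 233)) (XT.lf (nat_lit 0) (nat_lit 9319213924) (nat_lit 168) (nat_lit 16557279720) (nat_lit 0) (nat_lit 1980585322) (nat_lit 5) (nat_lit 5) (nat_lit 7) (nat_lit 4) (nat_lit 5) (nat_lit 4) (nat_lit 377) (nat_lit 252) (nat_lit 232)))) (XT.nd (nat_lit 94) (nat_lit 0) (nat_lit 0) (XT.lf (nat_lit 0) (nat_lit 11395539511) (nat_lit 168) (nat_lit 13452698238) (nat_lit 0) (nat_lit 3794694205) (nat_lit 5) (nat_lit 5) (nat_lit 7) (nat_lit 4) (nat_lit 5) (nat_lit 4) (nat_lit 378) (nat_lit 252) (nat_lit 231)) (XT.nd (nat_lit 94) (nat_lit 0) (nat_lit 0) (XT.lf (nat_lit 0) (nat_lit 13500716881) (nat_lit 168) (nat_lit 10308098083) (nat_lit 0) (nat_lit 5645539174) (nat_lit 5) (nat_lit 5) (nat_lit 7) (nat_lit 4) (nat_lit 5) (nat_lit 4) (nat_lit 379) (nat_lit 252) (nat_lit 230)) (XT.lf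 (nat_lit 0) (nat_lit 15636708278) (nat_lit 168) (nat_lit 7120548159) (nat_lit 0) (nat_lit 7534845412) (nat_lit 5) (nat_lit 5) (nat_lit 7) (nat_lit 4) (nat_lit 5) (nat_lit 4) (nat_lit 380) (nat_lit 252) (nat_lit 229))))) (XT.nd (nat_lit 282) (nat_lit 0) (nat_lit 0) (XT.nd (nat_lit 94) (nat_lit 84) (nat_lit 0) (XT.lf (nat_lit 0) (nat_lit 17805504670) (nat_lit 168) (nat_lit 3887077336) (nat_lit 0) (nat_lit 9464373948) (nat_lit 5) (nat_lit 5) (nat_lit 7) (nat_lit 4) (nat_lit 5) (nat_lit 4) (nat_lit 381) (nat_lit 252) (nat_lit 228)) (XT.nd (nat_lit 94) (nat_lit 84) (nat_lit 0) (XT.lf (nat_lit 0) (nat_lit 20009127604) (nat_lit 168) (nat_lit 604671681) (nat_lit 0) (nat_lit 11435923306) (nat_lit 5) (nat_lit 5) (nat_lit 7) (nat_lit 4) (nat_lit 5) (nat_lit 4) (nat_lit 382) (nat_lit 252) (nat_lit 227)) (XT.lf (nat_lit 0) (nat_lit 2785857165) (nat_lit 84) (nat_lit 19491409967) (nat_lit 84) (nat_lit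 10693110058) (nat_lit 4) (nat_lit 4) (nat_lit 5) (nat_lit 5) (nat_lit 5) (nat_lit 4) (nat_lit 383) (nat_lit 252) (nat_lit 226)))) (XT.nd (nat_lit 94) (nat_lit 0) (nat_lit 0) (XT.lf (nat_lit 0) (nat_lit 6245054710) (nat_lit 84) (nat_lit 18346000505) (nat_lit 84) (nat_lit 9329373135) (nat_lit 4) (nat_lit 4) (nat_lit 5) (nat_lit 5) (nat_lit 5) (nat_lit 4) (nat_lit 384) (nat_lit 252) (nat_lit 225)) (XT.nd (nat_lit 94) (nat_lit 0) (nat_lit 0) (XT.lf (nat_lit 0) (nat_lit 9763711995) (nat_lit 84) (nat_lit 17182814789) (nat_lit 84) (nat_lit 7954424606) (nat_lit 4) (nat_lit 4) (nat_lit 5) (nat_lit 5) (nat_lit 5) (nat_lit 4) (nat_lit 385) (nat_lit 252) (nat_lit 224)) (XT.lf (nat_lit 0) (nat_lit 13345108780) (nat_lit 84) (nat_lit 16000768607) (nat_lit 84) (nat_lit 6566982874) (nat_lit 4) (nat_lit 4) (nat_lit 5) (nat_lit 5) (nat_lit 5) (nat_lit 4) (nat_lit 386) (nat_lit 252) (nat_lit 223))))))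 (XT.nd (nat_lit 564) (nat_lit 84) (nat_lit 0) (XT.nd (nat_lit 282) (nat_lit 84) (nat_lit 0) (XT.nd (nat_lit 94) (nat_lit 0) (nat_lit 0) (XT.lf (nat_lit 0) (nat_lit 16992583299) (nat_lit 84) (nat_lit 14798760170) (nat_lit 84) (nat_lit 5165754698) (nat_lit 4) (nat_lit 4) (nat_lit 5) (nat_lit 5) (nat_lit 5) (nat_lit 4) (nat_lit 387) (nat_lit 252) (nat_lit 222)) (XT.nd (nat_lit 94) (nat_lit 0) (nat_lit 0) (XT.lf (nat_lit 0) (nat_lit 20709535382) (nat_lit 84) (nat_lit 13575669080) (nat_lit 84) (nat_lit 3749433986) (nat_lit 4) (nat_lit 4) (nat_lit 5) (nat_lit 5) (nat_lit 5) (nat_lit 4) (nat_lit 388) (nat_lit 252) (nat_lit 221)) (XT.lf (nat_lit 0) (nat_lit 24499429618) (nat_lit 84) (nat_lit 12330355286) (nat_lit 84) (nat_lit 2316700580) (nat_lit 4) (nat_lit 4) (nat_lit 5) (nat_lit 5) (nat_lit 5) (nat_lit 4) (nat_lit 389) (nat_lit 252) (nat_lit 220)))) (XT.nd (nat_lit 94) (nat_lit 84) (nat_lit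 0) (XT.lf (nat_lit 0) (nat_lit 28365798585) (nat_lit 84) (nat_lit 11061658027) (nat_lit 84) (nat_lit 866219022) (nat_lit 4) (nat_lit 4) (nat_lit 5) (nat_lit 5) (nat_lit 5) (nat_lit 4) (nat_lit 390) (nat_lit 252) (nat_lit 219)) (XT.nd (nat_lit 94) (nat_lit 0) (nat_lit 0) (XT.lf (nat_lit 0) (nat_lit 591206275) (nat_lit 168) (nat_lit 9171017488) (nat_lit 84) (nat_lit 31714868887) (nat_lit 3) (nat_lit 5) (nat_lit 5) (nat_lit 5) (nat_lit 4) (nat_lit 4) (nat_lit 391) (nat_lit 252) (nat_lit 218)) (XT.lf (nat_lit 0) (nat_lit 2051236723) (nat_lit 168) (nat_lit 6376712552) (nat_lit 84) (nat_lit 34269803369) (nat_lit 3) (nat_lit 5) (nat_lit 5) (nat_lit 5) (nat_lit 4) (nat_lit 4) (nat_lit 392) (nat_lit 252) (nat_lit 217))))) (XT.nd (nat_lit 282) (nat_lit 0) (nat_lit 0) (XT.nd (nat_lit 94) (nat_lit 84) (nat_lit 0) (XT.lf (nat_lit 0) (nat_lit 3532685605) (nat_lit 168) (nat_lit 3533764658) (nat_lit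 84) (nat_lit 36890609519) (nat_lit 3) (nat_lit 5) (nat_lit 5) (nat_lit 5) (nat_lit 4) (nat_lit 4) (nat_lit 393) (nat_lit 252) (nat_lit 216)) (XT.nd (nat_lit 94) (nat_lit 84) (nat_lit 0) (XT.lf (nat_lit 0) (nat_lit 5036933787) (nat_lit 168) (nat_lit 639523881) (nat_lit 84) (nat_lit 39579730203) (nat_lit 3) (nat_lit 5) (nat_lit 5) (nat_lit 5) (nat_lit 4) (nat_lit 4) (nat_lit 394) (nat_lit 252) (nat_lit 215)) (XT.lf (nat_lit 0) (nat_lit 2356179277) (nat_lit 84) (nat_lit 4232577699) (nat_lit 168) (nat_lit 40006866277) (nat_lit 2) (nat_lit 5) (nat_lit 3) (nat_lit 5) (nat_lit 4) (nat_lit 4) (nat_lit 395) (nat_lit 252) (nat_lit 214)))) (XT.nd (nat_lit 94) (nat_lit 0) (nat_lit 0) (XT.lf (nat_lit 0) (nat_lit 5422937702) (nat_lit 84) (nat_lit 2750317588) (nat_lit 168) (nat_lit 39803865867) (nat_lit 2) (nat_lit 5) (nat_lit 3) (nat_lit 5) (nat_lit 4) (nat_lit 4) (nat_lit 396) (nat_lit 252) (nat_lit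 213)) (XT.nd (nat_lit 94) (nat_lit 0) (nat_lit 0) (XT.lf (nat_lit 0) (nat_lit 8550460011) (nat_lit 84) (nat_lit 1234971032) (nat_lit 168) (nat_lit 39616738955) (nat_lit 2) (nat_lit 5) (nat_lit 3) (nat_lit 5) (nat_lit 4) (nat_lit 4) (nat_lit 397) (nat_lit 252) (nat_lit 212)) (XT.lf (nat_lit 0) (nat_lit 11429910544) (nat_lit 168) (nat_lit 39133560283) (nat_lit 0) (nat_lit 308530412) (nat_lit 2) (nat_lit 5) (nat_lit 4) (nat_lit 4) (nat_lit 2) (nat_lit 4) (nat_lit 398) (nat_lit 252) (nat_lit 211))))))) (XT.nd (nat_lit 1128) (nat_lit 84) (nat_lit 0) (XT.nd (nat_lit 564) (nat_lit 0) (nat_lit 0) (XT.nd (nat_lit 282) (nat_lit 0) (nat_lit 0) (XT.nd (nat_lit 94) (nat_lit 0) (nat_lit 0) (XT.lf (nat_lit 0) (nat_lit 13117707746) (nat_lit 168) (nat_lit 37407613971) (nat_lit 0) (nat_lit 1862369285) (nat_lit 2) (nat_lit 5) (nat_lit 4) (nat_lit 4) (nat_lit 2) (nat_lit 4) (nat_lit 399) (nat_lit 252)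 (nat_lit 210)) (XT.nd (nat_lit 94) (nat_lit 0) (nat_lit 0) (XT.lf (nat_lit 0) (nat_lit 14838144787) (nat_lit 168) (nat_lit 35660011223) (nat_lit 0) (nat_lit 3452875843) (nat_lit 2) (nat_lit 5) (nat_lit 4) (nat_lit 4) (nat_lit 2) (nat_lit 4) (nat_lit 400) (nat_lit 252) (nat_lit 209)) (XT.lf (nat_lit 0) (nat_lit 16592825294) (nat_lit 168) (nat_lit 33889123090) (nat_lit 0) (nat_lit 5081532603) (nat_lit 2) (nat_lit 5) (nat_lit 4) (nat_lit 4) (nat_lit 2) (nat_lit 4) (nat_lit 401) (nat_lit 252) (nat_lit 208)))) (XT.nd (nat_lit 94) (nat_lit 0) (nat_lit 0) (XT.lf (nat_lit 0) (nat_lit 18383384813) (nat_lit 168) (nat_lit 32093298919) (nat_lit 0) (nat_lit 6749857645) (nat_lit 2) (nat_lit 5) (nat_lit 4) (nat_lit 4) (nat_lit 2) (nat_lit 4) (nat_lit 402) (nat_lit 252) (nat_lit 207)) (XT.nd (nat_lit 94) (nat_lit 0) (nat_lit 0) (XT.lf (nat_lit 0) (nat_lit 20211492334) (nat_lit 168) (nat_lit 30270864813)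 (nat_lit 0) (nat_lit 8459406021) (nat_lit 2) (nat_lit 5) (nat_lit 4) (nat_lit 4) (nat_lit 2) (nat_lit 4) (nat_lit 403) (nat_lit 252) (nat_lit 206)) (XT.lf (nat_lit 0) (nat_lit 22078851844) (nat_lit 168) (nat_lit 28420122074) (nat_lit 0) (nat_lit 10211771210) (nat_lit 2) (nat_lit 5) (nat_lit 4) (nat_lit 4) (nat_lit 2) (nat_lit 4) (nat_lit 404) (nat_lit 252) (nat_lit 205))))) (XT.nd (nat_lit 282) (nat_lit 0) (nat_lit 0) (XT.nd (nat_lit 94) (nat_lit 0) (nat_lit 0) (XT.lf (nat_lit 0) (nat_lit 23987203918) (nat_lit 168) (nat_lit 26539345614) (nat_lit 0) (nat_lit 12008586601) (nat_lit 2) (nat_lit 5) (nat_lit 4) (nat_lit 4) (nat_lit 2) (nat_lit 4) (nat_lit 405) (nat_lit 252) (nat_lit 204)) (XT.nd (nat_lit 94) (nat_lit 0) (nat_lit 0) (XT.lf (nat_lit 0) (nat_lit 25938327340) (nat_lit 168) (nat_lit 24626782354) (nat_lit 0) (nat_lit 13851527013) (nat_lit 2) (nat_lit 5) (nat_lit 4) (nat_lit 4)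 (nat_lit 2) (nat_lit 4) (nat_lit 406) (nat_lit 252) (nat_lit 203)) (XT.lf (nat_lit 0) (nat_lit 27934040761) (nat_lit 168) (nat_lit 22680649584) (nat_lit 0) (nat_lit 15742310259) (nat_lit 2) (nat_lit 5) (nat_lit 4) (nat_lit 4) (nat_lit 2) (nat_lit 4) (nat_lit 407) (nat_lit 252) (nat_lit 202)))) (XT.nd (nat_lit 94) (nat_lit 0) (nat_lit 0) (XT.lf (nat_lit 0) (nat_lit 29976204396) (nat_lit 168) (nat_lit 20699133305) (nat_lit 0) (nat_lit 17682698748) (nat_lit 2) (nat_lit 5) (nat_lit 4) (nat_lit 4) (nat_lit 2) (nat_lit 4) (nat_lit 408) (nat_lit 252) (nat_lit 201)) (XT.nd (nat_lit 94) (nat_lit 0) (nat_lit 0) (XT.lf (nat_lit 0) (nat_lit 32066721754) (nat_lit 168) (nat_lit 18680386535) (nat_lit 0) (nat_lit 19674501126) (nat_lit 2) (nat_lit 5) (nat_lit 4) (nat_lit 4) (nat_lit 2) (nat_lit 4) (nat_lit 409) (nat_lit 252) (nat_lit 200)) (XT.lf (nat_lit 0) (nat_lit 34207541417) (nat_lit 168) (nat_lit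 16622527592) (nat_lit 0) (nat_lit 21719573959) (nat_lit 2) (nat_lit 5) (nat_lit 4) (nat_lit 4) (nat_lit 2) (nat_lit 4) (nat_lit 410) (nat_lit 252) (nat_lit 199)))))) (XT.nd (nat_lit 564) (nat_lit 84) (nat_lit 0) (XT.nd (nat_lit 282) (nat_lit 0) (nat_lit 0) (XT.nd (nat_lit 94) (nat_lit 0) (nat_lit 0) (XT.lf (nat_lit 0) (nat_lit 36400658853) (nat_lit 168) (nat_lit 14523638335) (nat_lit 0) (nat_lit 23819823472) (nat_lit 2) (nat_lit 5) (nat_lit 4) (nat_lit 4) (nat_lit 2) (nat_lit 4) (nat_lit 411) (nat_lit 252) (nat_lit 198)) (XT.nd (nat_lit 94) (nat_lit 0) (nat_lit 0) (XT.lf (nat_lit 0) (nat_lit 38648118277) (nat_lit 168) (nat_lit 12381762379) (nat_lit 0) (nat_lit 25977207316) (nat_lit 2) (nat_lit 5) (nat_lit 4) (nat_lit 4) (nat_lit 2) (nat_lit 4) (nat_lit 412) (nat_lit 252) (nat_lit 197)) (XT.lf (nat_lit 0) (nat_lit 40952014557) (nat_lit 168) (nat_lit 10194903272) (nat_lit 0) (nat_lit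 28193736399) (nat_lit 2) (nat_lit 5) (nat_lit 4) (nat_lit 4) (nat_lit 2) (nat_lit 4) (nat_lit 413) (nat_lit 252) (nat_lit 196)))) (XT.nd (nat_lit 94) (nat_lit 0) (nat_lit 0) (XT.lf (nat_lit 0) (nat_lit 43314495166) (nat_lit 168) (nat_lit 7961022632) (nat_lit 0) (nat_lit 30471476758) (nat_lit 2) (nat_lit 5) (nat_lit 4) (nat_lit 4) (nat_lit 2) (nat_lit 4) (nat_lit 414) (nat_lit 252) (nat_lit 195)) (XT.nd (nat_lit 94) (nat_lit 0) (nat_lit 0) (XT.lf (nat_lit 0) (nat_lit 45737762182) (nat_lit 168) (nat_lit 5678038248) (nat_lit 0) (nat_lit 32812551485) (nat_lit 2) (nat_lit 5) (nat_lit 4) (nat_lit 4) (nat_lit 2) (nat_lit 4) (nat_lit 415) (nat_lit 252) (nat_lit 194)) (XT.lf (nat_lit 0) (nat_lit 48224074345) (nat_lit 168) (nat_lit 3343822140) (nat_lit 0) (nat_lit 35219142709) (nat_lit 2) (nat_lit 5) (nat_lit 4) (nat_lit 4) (nat_lit 2) (nat_lit 4) (nat_lit 416) (nat_lit 252) (nat_lit 193)))))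 (XT.nd (nat_lit 282) (nat_lit 0) (nat_lit 0) (XT.nd (nat_lit 94) (nat_lit 84) (nat_lit 0) (XT.lf (nat_lit 0) (nat_lit 50775749159) (nat_lit 168) (nat_lit 956198574) (nat_lit 0) (nat_lit 37693493624) (nat_lit 2) (nat_lit 5) (nat_lit 4) (nat_lit 4) (nat_lit 2) (nat_lit 4) (nat_lit 417) (nat_lit 252) (nat_lit 192)) (XT.nd (nat_lit 94) (nat_lit 0) (nat_lit 0) (XT.lf (nat_lit 0) (nat_lit 1517634927) (nat_lit 84) (nat_lit 51892585249) (nat_lit 84) (nat_lit 38735330782) (nat_lit 1) (nat_lit 4) (nat_lit 2) (nat_lit 5) (nat_lit 2) (nat_lit 4) (nat_lit 418) (nat_lit 252) (nat_lit 191)) (XT.lf (nat_lit 0) (nat_lit 4070230932) (nat_lit 84) (nat_lit 52054909852) (nat_lit 84) (nat_lit 38824911513) (nat_lit 1) (nat_lit 4) (nat_lit 2) (nat_lit 5) (nat_lit 2) (nat_lit 4) (nat_lit 419) (nat_lit 252) (nat_lit 190)))) (XT.nd (nat_lit 48034) (nat_lit 0) (nat_lit 1008) (XT.nd (nat_lit 47940) (nat_lit 0)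 (nat_lit 1008) (XT.lf (nat_lit 0) (nat_lit 6684307324) (nat_lit 84) (nat_lit 52229053596) (nat_lit 84) (nat_lit 38928498641) (nat_lit 1) (nat_lit 4) (nat_lit 2) (nat_lit 5) (nat_lit 2) (nat_lit 4) (nat_lit 420) (nat_lit 252) (nat_lit 189)) (XT.lf (nat_lit 0) (nat_lit 148892060) (nat_lit 252) (nat_lit 7549843523) (nat_lit 0) (nat_lit 148892060) (nat_lit 13) (nat_lit 5) (nat_lit 16) (nat_lit 4) (nat_lit 13) (nat_lit 4) (nat_lit 355) (nat_lit 253) (nat_lit 253))) (XT.nd (nat_lit 94) (nat_lit 0) (nat_lit 0) (XT.lf (nat_lit 0) (nat_lit 2823269088) (nat_lit 252) (nat_lit 10958732198) (nat_lit 0) (nat_lit 2294081492) (nat_lit 13) (nat_lit 5) (nat_lit 16) (nat_lit 4) (nat_lit 13) (nat_lit 4) (nat_lit 356) (nat_lit 253) (nat_lit 252)) (XT.lf (nat_lit 0) (nat_lit 5365979263) (nat_lit 252) (nat_lit 6781329593) (nat_lit 0) (nat_lit 4323515628) (nat_lit 13) (nat_lit 5) (nat_lit 16) (nat_lit 4)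 (nat_lit 13) (nat_lit 4) (nat_lit 357) (nat_lit 253) (nat_lit 251))))))))
noncomputable def xc19 : XT := (XT.nd (nat_lit 2256) (nat_lit 252) (nat_lit 0) (XT.nd (nat_lit 1128) (nat_lit 168) (nat_lit 0) (XT.nd (nat_lit 564) (nat_lit 168) (nat_lit 0) (XT.nd (nat_lit 282) (nat_lit 168) (nat_lit 0) (XT.nd (nat_lit 94) (nat_lit 168) (nat_lit 0) (XT.lf (nat_lit 0) (nat_lit 7928284718) (nat_lit 252) (nat_lit 2563585455) (nat_lit 0) (nat_lit 6387978175) (nat_lit 13) (nat_lit 5) (nat_lit 16) (nat_lit 4) (nat_lit 13) (nat_lit 4) (nat_lit 358) (nat_lit 253) (nat_lit 250)) (XT.nd (nat_lit 94) (nat_lit 0) (nat_lit 0) (XT.lf (nat_lit 0) (nat_lit 1733354832) (nat_lit 168) (nat_lit 8796414054) (nat_lit 168) (nat_lit 6773233690) (nat_lit 11) (nat_lit 4) (nat_lit 13) (nat_lit 5) (nat_lit 13) (nat_lit 4) (nat_lit 359) (nat_lit 253) (nat_lit 249)) (XT.lf (nat_lit 0) (nat_lit 6132245281) (nat_lit 168) (nat_lit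 7049842663) (nat_lit 168) (nat_lit 4558307478) (nat_lit 11) (nat_lit 4) (nat_lit 13) (nat_lit 5) (nat_lit 13) (nat_lit 4) (nat_lit 360) (nat_lit 253) (nat_lit 248)))) (XT.nd (nat_lit 94) (nat_lit 168) (nat_lit 0) (XT.lf (nat_lit 0) (nat_lit 10584473544) (nat_lit 168) (nat_lit 5277286586) (nat_lit 168) (nat_lit 2331479024) (nat_lit 11) (nat_lit 4) (nat_lit 13) (nat_lit 5) (nat_lit 13) (nat_lit 4) (nat_lit 361) (nat_lit 253) (nat_lit 247)) (XT.nd (nat_lit 94) (nat_lit 168) (nat_lit 0) (XT.lf (nat_lit 0) (nat_lit 15094189562) (nat_lit 168) (nat_lit 3477093617) (nat_lit 168) (nat_lit 90672692) (nat_lit 11) (nat_lit 4) (nat_lit 13) (nat_lit 5) (nat_lit 13) (nat_lit 4) (nat_lit 362) (nat_lit 253) (nat_lit 246)) (XT.lf (nat_lit 0) (nat_lit 507347341) (nat_lit 84) (nat_lit 1620241684) (nat_lit 168) (nat_lit 17018571261) (nat_lit 9) (nat_lit 5) (nat_lit 10) (nat_lit 5) (nat_lit 11) (nat_lit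 4) (nat_lit 363) (nat_lit 253) (nat_lit 245))))) (XT.nd (nat_lit 282) (nat_lit 168) (nat_lit 0) (XT.nd (nat_lit 94) (nat_lit 0) (nat_lit 0) (XT.lf (nat_lit 0) (nat_lit 4401475876) (nat_lit 168) (nat_lit 14944077306) (nat_lit 0) (nat_lit 300310938) (nat_lit 9) (nat_lit 5) (nat_lit 11) (nat_lit 4) (nat_lit 9) (nat_lit 4) (nat_lit 364) (nat_lit 253) (nat_lit 244)) (XT.nd (nat_lit 94) (nat_lit 0) (nat_lit 0) (XT.lf (nat_lit 0) (nat_lit 6712185129) (nat_lit 168) (nat_lit 11229023572) (nat_lit 0) (nat_lit 2221057551) (nat_lit 9) (nat_lit 5) (nat_lit 11) (nat_lit 4) (nat_lit 9) (nat_lit 4) (nat_lit 365) (nat_lit 253) (nat_lit 243)) (XT.lf (nat_lit 0) (nat_lit 9045797611) (nat_lit 168) (nat_lit 7474115928) (nat_lit 0) (nat_lit 4176432747) (nat_lit 9) (nat_lit 5) (nat_lit 11) (nat_lit 4) (nat_lit 9) (nat_lit 4) (nat_lit 366) (nat_lit 253) (nat_lit 242)))) (XT.nd (nat_lit 94) (nat_lit 168) (nat_lit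 0) (XT.lf (nat_lit 0) (nat_lit 11404488493) (nat_lit 168) (nat_lit 3675854406) (nat_lit 0) (nat_lit 6168259143) (nat_lit 9) (nat_lit 5) (nat_lit 11) (nat_lit 4) (nat_lit 9) (nat_lit 4) (nat_lit 367) (nat_lit 253) (nat_lit 241)) (XT.nd (nat_lit 94) (nat_lit 0) (nat_lit 0) (XT.lf (nat_lit 0) (nat_lit 172782553) (nat_lit 168) (nat_lit 13619387793) (nat_lit 168) (nat_lit 8027324800) (nat_lit 7) (nat_lit 4) (nat_lit 9) (nat_lit 5) (nat_lit 9) (nat_lit 4) (nat_lit 368) (nat_lit 253) (nat_lit 240)) (XT.lf (nat_lit 0) (nat_lit 4148518901) (nat_lit 168) (nat_lit 12098559990) (nat_lit 168) (nat_lit 6161362523) (nat_lit 7) (nat_lit 4) (nat_lit 9) (nat_lit 5) (nat_lit 9) (nat_lit 4) (nat_lit 369) (nat_lit 253) (nat_lit 239)))))) (XT.nd (nat_lit 564) (nat_lit 0) (nat_lit 0) (XT.nd (nat_lit 282) (nat_lit 168) (nat_lit 0) (XT.nd (nat_lit 94) (nat_lit 0) (nat_lit 0) (XT.lf (nat_lit 0) (nat_lit 8179477334)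 (nat_lit 168) (nat_lit 10554810302) (nat_lit 168) (nat_lit 4282855827) (nat_lit 7) (nat_lit 4) (nat_lit 9) (nat_lit 5) (nat_lit 9) (nat_lit 4) (nat_lit 370) (nat_lit 253) (nat_lit 238)) (XT.nd (nat_lit 94) (nat_lit 0) (nat_lit 0) (XT.lf (nat_lit 0) (nat_lit 12269415126) (nat_lit 168) (nat_lit 8986699791) (nat_lit 168) (nat_lit 2390053748) (nat_lit 7) (nat_lit 4) (nat_lit 9) (nat_lit 5) (nat_lit 9) (nat_lit 4) (nat_lit 371) (nat_lit 253) (nat_lit 237)) (XT.lf (nat_lit 0) (nat_lit 16422144528) (nat_lit 168) (nat_lit 7392766816) (nat_lit 168) (nat_lit 481191995) (nat_lit 7) (nat_lit 4) (nat_lit 9) (nat_lit 5) (nat_lit 9) (nat_lit 4) (nat_lit 372) (nat_lit 253) (nat_lit 236)))) (XT.nd (nat_lit 94) (nat_lit 84) (nat_lit 0) (XT.lf (nat_lit 0) (nat_lit 1416384910) (nat_lit 252) (nat_lit 4340356598) (nat_lit 84) (nat_lit 19210367257) (nat_lit 6) (nat_lit 5) (nat_lit 9) (nat_lit 5) (nat_lit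 7) (nat_lit 4) (nat_lit 373) (nat_lit 253) (nat_lit 235)) (XT.nd (nat_lit 94) (nat_lit 84) (nat_lit 0) (XT.lf (nat_lit 0) (nat_lit 3323506091) (nat_lit 252) (nat_lit 763268486) (nat_lit 84) (nat_lit 21573326738) (nat_lit 6) (nat_lit 5) (nat_lit 9) (nat_lit 5) (nat_lit 7) (nat_lit 4) (nat_lit 374) (nat_lit 253) (nat_lit 234)) (XT.lf (nat_lit 0) (nat_lit 2924332003) (nat_lit 84) (nat_lit 2356321862) (nat_lit 168) (nat_lit 21094321743) (nat_lit 5) (nat_lit 5) (nat_lit 6) (nat_lit 5) (nat_lit 7) (nat_lit 4) (nat_lit 375) (nat_lit 253) (nat_lit 233))))) (XT.nd (nat_lit 282) (nat_lit 0) (nat_lit 0) (XT.nd (nat_lit 94) (nat_lit 0) (nat_lit 0) (XT.lf (nat_lit 0) (nat_lit 6683733191) (nat_lit 84) (nat_lit 585166522) (nat_lit 168) (nat_lit 19844141603) (nat_lit 5) (nat_lit 5) (nat_lit 6) (nat_lit 5) (nat_lit 7) (nat_lit 4) (nat_lit 376) (nat_lit 253) (nat_lit 232)) (XT.nd (nat_lit 94) (nat_lit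 0) (nat_lit 0) (XT.lf (nat_lit 0) (nat_lit 9294475757) (nat_lit 168) (nat_lit 17384587353) (nat_lit 0) (nat_lit 1195787542) (nat_lit 5) (nat_lit 5) (nat_lit 7) (nat_lit 4) (nat_lit 5) (nat_lit 4) (nat_lit 377) (nat_lit 253) (nat_lit 231)) (XT.lf (nat_lit 0) (nat_lit 11353315224) (nat_lit 168) (nat_lit 14307688467) (nat_lit 0) (nat_lit 3000294609) (nat_lit 5) (nat_lit 5) (nat_lit 7) (nat_lit 4) (nat_lit 5) (nat_lit 4) (nat_lit 378) (nat_lit 253) (nat_lit 230)))) (XT.nd (nat_lit 94) (nat_lit 0) (nat_lit 0) (XT.lf (nat_lit 0) (nat_lit 13441532243) (nat_lit 168) (nat_lit 11189938551) (nat_lit 0) (nat_lit 4841826468) (nat_lit 5) (nat_lit 5) (nat_lit 7) (nat_lit 4) (nat_lit 5) (nat_lit 4) (nat_lit 379) (nat_lit 253) (nat_lit 229)) (XT.nd (nat_lit 94) (nat_lit 0) (nat_lit 0) (XT.lf (nat_lit 0) (nat_lit 15561073252) (nat_lit 168) (nat_lit 8028431537) (nat_lit 0) (nat_lit 6722099621) (nat_lit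 5) (nat_lit 5) (nat_lit 7) (nat_lit 4) (nat_lit 5) (nat_lit 4) (nat_lit 380) (nat_lit 253) (nat_lit 228)) (XT.lf (nat_lit 0) (nat_lit 17713913886) (nat_lit 168) (nat_lit 4820220568) (nat_lit 0) (nat_lit 8642866679) (nat_lit 5) (nat_lit 5) (nat_lit 7) (nat_lit 4) (nat_lit 5) (nat_lit 4) (nat_lit 381) (nat_lit 253) (nat_lit 227))))))) (XT.nd (nat_lit 1128) (nat_lit 84) (nat_lit 0) (XT.nd (nat_lit 564) (nat_lit 84) (nat_lit 0) (XT.nd (nat_lit 282) (nat_lit 0) (nat_lit 0) (XT.nd (nat_lit 94) (nat_lit 84) (nat_lit 0) (XT.lf (nat_lit 0) (nat_lit 19902060816) (nat_lit 168) (nat_lit 1562315255) (nat_lit 0) (nat_lit 10605917998) (nat_lit 5) (nat_lit 5) (nat_lit 7) (nat_lit 4) (nat_lit 5) (nat_lit 4) (nat_lit 382) (nat_lit 253) (nat_lit 226)) (XT.nd (nat_lit 94) (nat_lit 0) (nat_lit 0) (XT.lf (nat_lit 0) (nat_lit 1784270176) (nat_lit 84) (nat_lit 20360983629) (nat_lit 84) (nat_lit 10846513351)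 (nat_lit 4) (nat_lit 4) (nat_lit 5) (nat_lit 5) (nat_lit 5) (nat_lit 4) (nat_lit 383) (nat_lit 253) (nat_lit 225)) (XT.lf (nat_lit 0) (nat_lit 5219944637) (nat_lit 84) (nat_lit 19224304565) (nat_lit 84) (nat_lit 9498071474) (nat_lit 4) (nat_lit 4) (nat_lit 5) (nat_lit 5) (nat_lit 5) (nat_lit 4) (nat_lit 384) (nat_lit 253) (nat_lit 224)))) (XT.nd (nat_lit 94) (nat_lit 0) (nat_lit 0) (XT.lf (nat_lit 0) (nat_lit 8715786129) (nat_lit 84) (nat_lit 18069586743) (nat_lit 84) (nat_lit 8137958100) (nat_lit 4) (nat_lit 4) (nat_lit 5) (nat_lit 5) (nat_lit 5) (nat_lit 4) (nat_lit 385) (nat_lit 253) (nat_lit 223)) (XT.nd (nat_lit 94) (nat_lit 0) (nat_lit 0) (XT.lf (nat_lit 0) (nat_lit 12275053142) (nat_lit 84) (nat_lit 16895753843) (nat_lit 84) (nat_lit 6764905462) (nat_lit 4) (nat_lit 4) (nat_lit 5) (nat_lit 5) (nat_lit 5) (nat_lit 4) (nat_lit 386) (nat_lit 253) (nat_lit 222)) (XT.lf (nat_lit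 0) (nat_lit 15901063286) (nat_lit 84) (nat_lit 15701711732) (nat_lit 84) (nat_lit 5377633730) (nat_lit 4) (nat_lit 4) (nat_lit 5) (nat_lit 5) (nat_lit 5) (nat_lit 4) (nat_lit 387) (nat_lit 253) (nat_lit 221))))) (XT.nd (nat_lit 282) (nat_lit 84) (nat_lit 0) (XT.nd (nat_lit 94) (nat_lit 0) (nat_lit 0) (XT.lf (nat_lit 0) (nat_lit 19597196383) (nat_lit 84) (nat_lit 14486347437) (nat_lit 84) (nat_lit 3974849822) (nat_lit 4) (nat_lit 4) (nat_lit 5) (nat_lit 5) (nat_lit 5) (nat_lit 4) (nat_lit 388) (nat_lit 253) (nat_lit 220)) (XT.nd (nat_lit 94) (nat_lit 0) (nat_lit 0) (XT.lf (nat_lit 0) (nat_lit 23366897615) (nat_lit 84) (nat_lit 13248528110) (nat_lit 84) (nat_lit 2555246196) (nat_lit 4) (nat_lit 4) (nat_lit 5) (nat_lit 5) (nat_lit 5) (nat_lit 4) (nat_lit 389) (nat_lit 253) (nat_lit 219)) (XT.lf (nat_lit 0) (nat_lit 27213680740) (nat_lit 84) (nat_lit 11987099976) (nat_lit 84) (nat_lit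 1117499633) (nat_lit 4) (nat_lit 4) (nat_lit 5) (nat_lit 5) (nat_lit 5) (nat_lit 4) (nat_lit 390) (nat_lit 253) (nat_lit 218)))) (XT.nd (nat_lit 94) (nat_lit 0) (nat_lit 0) (XT.lf (nat_lit 0) (nat_lit 332885194) (nat_lit 168) (nat_lit 10364527416) (nat_lit 84) (nat_lit 30804771527) (nat_lit 3) (nat_lit 5) (nat_lit 5) (nat_lit 5) (nat_lit 4) (nat_lit 4) (nat_lit 391) (nat_lit 253) (nat_lit 217)) (XT.nd (nat_lit 94) (nat_lit 0) (nat_lit 0) (XT.lf (nat_lit 0) (nat_lit 1781176347) (nat_lit 168) (nat_lit 7588922871) (nat_lit 84) (nat_lit 33353142099) (nat_lit 3) (nat_lit 5) (nat_lit 5) (nat_lit 5) (nat_lit 4) (nat_lit 4) (nat_lit 392) (nat_lit 253) (nat_lit 216)) (XT.lf (nat_lit 0) (nat_lit 3251238909) (nat_lit 168) (nat_lit 4764113087) (nat_lit 84) (nat_lit 35967581703) (nat_lit 3) (nat_lit 5) (nat_lit 5) (nat_lit 5) (nat_lit 4) (nat_lit 4) (nat_lit 393) (nat_lit 253) (nat_lit 215))))))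 (XT.nd (nat_lit 564) (nat_lit 0) (nat_lit 0) (XT.nd (nat_lit 282) (nat_lit 0) (nat_lit 0) (XT.nd (nat_lit 94) (nat_lit 84) (nat_lit 0) (XT.lf (nat_lit 0) (nat_lit 4744443134) (nat_lit 168) (nat_lit 1887465044) (nat_lit 84) (nat_lit 38650527269) (nat_lit 3) (nat_lit 5) (nat_lit 5) (nat_lit 5) (nat_lit 4) (nat_lit 4) (nat_lit 394) (nat_lit 253) (nat_lit 214)) (XT.nd (nat_lit 94) (nat_lit 0) (nat_lit 0) (XT.lf (nat_lit 0) (nat_lit 1065163259) (nat_lit 84) (nat_lit 5207584136) (nat_lit 168) (nat_lit 40349882876) (nat_lit 2) (nat_lit 5) (nat_lit 3) (nat_lit 5) (nat_lit 4) (nat_lit 4) (nat_lit 395) (nat_lit 253) (nat_lit 213)) (XT.lf (nat_lit 0) (nat_lit 4115030681) (nat_lit 84) (nat_lit 3731657663) (nat_lit 168) (nat_lit 40157796553) (nat_lit 2) (nat_lit 5) (nat_lit 3) (nat_lit 5) (nat_lit 4) (nat_lit 4) (nat_lit 396) (nat_lit 253) (nat_lit 212)))) (XT.nd (nat_lit 94) (nat_lit 0) (nat_lit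 0) (XT.lf (nat_lit 0) (nat_lit 7226169863) (nat_lit 84) (nat_lit 2222454306) (nat_lit 168) (nat_lit 39981255565) (nat_lit 2) (nat_lit 5) (nat_lit 3) (nat_lit 5) (nat_lit 4) (nat_lit 4) (nat_lit 397) (nat_lit 253) (nat_lit 211)) (XT.nd (nat_lit 94) (nat_lit 0) (nat_lit 0) (XT.lf (nat_lit 0) (nat_lit 10401480714) (nat_lit 84) (nat_lit 678567329) (nat_lit 168) (nat_lit 39820095357) (nat_lit 2) (nat_lit 5) (nat_lit 3) (nat_lit 5) (nat_lit 4) (nat_lit 4) (nat_lit 398) (nat_lit 253) (nat_lit 210)) (XT.lf (nat_lit 0) (nat_lit 12751423042) (nat_lit 168) (nat_lit 38781665798) (nat_lit 0) (nat_lit 883280278) (nat_lit 2) (nat_lit 5) (nat_lit 4) (nat_lit 4) (nat_lit 2) (nat_lit 4) (nat_lit 399) (nat_lit 253) (nat_lit 209))))) (XT.nd (nat_lit 282) (nat_lit 0) (nat_lit 0) (XT.nd (nat_lit 94) (nat_lit 0) (nat_lit 0) (XT.lf (nat_lit 0) (nat_lit 14462460731) (nat_lit 168) (nat_lit 37049272454) (nat_lit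 0) (nat_lit 2468294220) (nat_lit 2) (nat_lit 5) (nat_lit 4) (nat_lit 4) (nat_lit 2) (nat_lit 4) (nat_lit 400) (nat_lit 253) (nat_lit 208)) (XT.nd (nat_lit 94) (nat_lit 0) (nat_lit 0) (XT.lf (nat_lit 0) (nat_lit 16208024506) (nat_lit 168) (nat_lit 35293136411) (nat_lit 0) (nat_lit 4091623517) (nat_lit 2) (nat_lit 5) (nat_lit 4) (nat_lit 4) (nat_lit 2) (nat_lit 4) (nat_lit 401) (nat_lit 253) (nat_lit 207)) (XT.lf (nat_lit 0) (nat_lit 17989741414) (nat_lit 168) (nat_lit 33511620765) (nat_lit 0) (nat_lit 5754781281) (nat_lit 2) (nat_lit 5) (nat_lit 4) (nat_lit 4) (nat_lit 2) (nat_lit 4) (nat_lit 402) (nat_lit 253) (nat_lit 206)))) (XT.nd (nat_lit 188) (nat_lit 0) (nat_lit 0) (XT.nd (nat_lit 94) (nat_lit 0) (nat_lit 0) (XT.lf (nat_lit 0) (nat_lit 19809272203) (nat_lit 168) (nat_lit 31703064957) (nat_lit 0) (nat_lit 7459317748) (nat_lit 2) (nat_lit 5) (nat_lit 4) (nat_lit 4) (nat_lit 2)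 (nat_lit 4) (nat_lit 403) (nat_lit 253) (nat_lit 205)) (XT.lf (nat_lit 0) (nat_lit 21668312864) (nat_lit 168) (nat_lit 29865783225) (nat_lit 0) (nat_lit 9206821727) (nat_lit 2) (nat_lit 5) (nat_lit 4) (nat_lit 4) (nat_lit 2) (nat_lit 4) (nat_lit 404) (nat_lit 253) (nat_lit 204))) (XT.nd (nat_lit 94) (nat_lit 0) (nat_lit 0) (XT.lf (nat_lit 0) (nat_lit 23568596220) (nat_lit 168) (nat_lit 27998063028) (nat_lit 0) (nat_lit 10998922072) (nat_lit 2) (nat_lit 5) (nat_lit 4) (nat_lit 4) (nat_lit 2) (nat_lit 4) (nat_lit 405) (nat_lit 253) (nat_lit 203)) (XT.lf (nat_lit 0) (nat_lit 25511893533) (nat_lit 168) (nat_lit 26098163457) (nat_lit 0) (nat_lit 12837289211) (nat_lit 2) (nat_lit 5) (nat_lit 4) (nat_lit 4) (nat_lit 2) (nat_lit 4) (nat_lit 406) (nat_lit 253) (nat_lit 202))))))))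
noncomputable def xc20 : XT := (XT.nd (nat_lit 50008) (nat_lit 0) (nat_lit 252) (XT.nd (nat_lit 1128) (nat_lit 84) (nat_lit 0) (XT.nd (nat_lit 564) (nat_lit 0) (nat_lit 0) (XT.nd (nat_lit 282) (nat_lit 0) (nat_lit 0) (XT.nd (nat_lit 94) (nat_lit 0) (nat_lit 0) (XT.lf (nat_lit 0) (nat_lit 27500016160) (nat_lit 168) (nat_lit 24164313605) (nat_lit 0) (nat_lit 14723636693) (nat_lit 2) (nat_lit 5) (nat_lit 4) (nat_lit 4) (nat_lit 2) (nat_lit 4) (nat_lit 407) (nat_lit 253) (nat_lit 201)) (XT.nd (nat_lit 94) (nat_lit 0) (nat_lit 0) (XT.lf (nat_lit 0) (nat_lit 29534817240) (nat_lit 168) (nat_lit 22194710922) (nat_lit 0) (nat_lit 16659722791) (nat_lit 2) (nat_lit 5) (nat_lit 4) (nat_lit 4) (nat_lit 2) (nat_lit 4) (nat_lit 408) (nat_lit 253) (nat_lit 200)) (XT.lf (nat_lit 0) (nat_lit 31618193420) (nat_lit 168) (nat_lit 20187519532) (nat_lit 0) (nat_lit 18647352142) (nat_lit 2) (nat_lit 5) (nat_lit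 4) (nat_lit 4) (nat_lit 2) (nat_lit 4) (nat_lit 409) (nat_lit 253) (nat_lit 199)))) (XT.nd (nat_lit 94) (nat_lit 0) (nat_lit 0) (XT.lf (nat_lit 0) (nat_lit 33752086625) (nat_lit 168) (nat_lit 18140868522) (nat_lit 0) (nat_lit 20688377424) (nat_lit 2) (nat_lit 5) (nat_lit 4) (nat_lit 4) (nat_lit 2) (nat_lit 4) (nat_lit 410) (nat_lit 253) (nat_lit 198)) (XT.nd (nat_lit 94) (nat_lit 0) (nat_lit 0) (XT.lf (nat_lit 0) (nat_lit 35938485866) (nat_lit 168) (nat_lit 16052850200) (nat_lit 0) (nat_lit 22784701085) (nat_lit 2) (nat_lit 5) (nat_lit 4) (nat_lit 4) (nat_lit 2) (nat_lit 4) (nat_lit 411) (nat_lit 253) (nat_lit 197)) (XT.lf (nat_lit 0) (nat_lit 38179429098) (nat_lit 168) (nat_lit 13921518312) (nat_lit 0) (nat_lit 24938277120) (nat_lit 2) (nat_lit 5) (nat_lit 4) (nat_lit 4) (nat_lit 2) (nat_lit 4) (nat_lit 412) (nat_lit 253) (nat_lit 196))))) (XT.nd (nat_lit 282) (nat_lit 0) (nat_lit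 0) (XT.nd (nat_lit 94) (nat_lit 0) (nat_lit 0) (XT.lf (nat_lit 0) (nat_lit 40477005115) (nat_lit 168) (nat_lit 11744886236) (nat_lit 0) (nat_lit 27151112886) (nat_lit 2) (nat_lit 5) (nat_lit 4) (nat_lit 4) (nat_lit 2) (nat_lit 4) (nat_lit 413) (nat_lit 253) (nat_lit 195)) (XT.nd (nat_lit 94) (nat_lit 0) (nat_lit 0) (XT.lf (nat_lit 0) (nat_lit 42833355496) (nat_lit 168) (nat_lit 9520925122) (nat_lit 0) (nat_lit 29425270979) (nat_lit 2) (nat_lit 5) (nat_lit 4) (nat_lit 4) (nat_lit 2) (nat_lit 4) (nat_lit 414) (nat_lit 253) (nat_lit 194)) (XT.lf (nat_lit 0) (nat_lit 45250676609) (nat_lit 168) (nat_lit 7247562004) (nat_lit 0) (nat_lit 31762871152) (nat_lit 2) (nat_lit 5) (nat_lit 4) (nat_lit 4) (nat_lit 2) (nat_lit 4) (nat_lit 415) (nat_lit 253) (nat_lit 193)))) (XT.nd (nat_lit 94) (nat_lit 0) (nat_lit 0) (XT.lf (nat_lit 0) (nat_lit 47731221649) (nat_lit 168) (nat_lit 4922677871) (nat_lit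 0) (nat_lit 34166092294) (nat_lit 2) (nat_lit 5) (nat_lit 4) (nat_lit 4) (nat_lit 2) (nat_lit 4) (nat_lit 416) (nat_lit 253) (nat_lit 192)) (XT.nd (nat_lit 94) (nat_lit 0) (nat_lit 0) (XT.lf (nat_lit 0) (nat_lit 50277302744) (nat_lit 168) (nat_lit 2544105687) (nat_lit 0) (nat_lit 36637174457) (nat_lit 2) (nat_lit 5) (nat_lit 4) (nat_lit 4) (nat_lit 2) (nat_lit 4) (nat_lit 417) (nat_lit 253) (nat_lit 191)) (XT.lf (nat_lit 0) (nat_lit 52891293109) (nat_lit 168) (nat_lit 109628373) (nat_lit 0) (nat_lit 39178420950) (nat_lit 2) (nat_lit 5) (nat_lit 4) (nat_lit 4) (nat_lit 2) (nat_lit 4) (nat_lit 418) (nat_lit 253) (nat_lit 190)))))) (XT.nd (nat_lit 48316) (nat_lit 0) (nat_lit 672) (XT.nd (nat_lit 48034) (nat_lit 0) (nat_lit 1008) (XT.nd (nat_lit 47846) (nat_lit 0) (nat_lit 1260) (XT.lf (nat_lit 0) (nat_lit 2432023103) (nat_lit 84) (nat_lit 53167732123) (nat_lit 84) (nat_lit 39384303347)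 (nat_lit 1) (nat_lit 4) (nat_lit 2) (nat_lit 5) (nat_lit 2) (nat_lit 4) (nat_lit 419) (nat_lit 253) (nat_lit 189)) (XT.nd (nat_lit 94) (nat_lit 0) (nat_lit 0) (XT.lf (nat_lit 0) (nat_lit 3392346582) (nat_lit 168) (nat_lit 2045757010) (nat_lit 168) (nat_lit 2045757010) (nat_lit 16) (nat_lit 4) (nat_lit 18) (nat_lit 5) (nat_lit 18) (nat_lit 4) (nat_lit 353) (nat_lit 254) (nat_lit 254)) (XT.lf (nat_lit 0) (nat_lit 11484803470) (nat_lit 168) (nat_lit 2201645238) (nat_lit 168) (nat_lit 1639139461) (nat_lit 16) (nat_lit 4) (nat_lit 18) (nat_lit 5) (nat_lit 18) (nat_lit 4) (nat_lit 354) (nat_lit 254) (nat_lit 253)))) (XT.nd (nat_lit 94) (nat_lit 0) (nat_lit 0) (XT.lf (nat_lit 0) (nat_lit 547237238) (nat_lit 168) (nat_lit 267797437) (nat_lit 252) (nat_lit 14881208636) (nat_lit 13) (nat_lit 5) (nat_lit 15) (nat_lit 5) (nat_lit 16) (nat_lit 4) (nat_lit 355) (nat_lit 254) (nat_lit 252)) (XT.nd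 (nat_lit 94) (nat_lit 0) (nat_lit 0) (XT.lf (nat_lit 0) (nat_lit 3307796674) (nat_lit 252) (nat_lit 11050654042) (nat_lit 0) (nat_lit 1719740627) (nat_lit 13) (nat_lit 5) (nat_lit 16) (nat_lit 4) (nat_lit 13) (nat_lit 4) (nat_lit 356) (nat_lit 254) (nat_lit 251)) (XT.lf (nat_lit 0) (nat_lit 5821344498) (nat_lit 252) (nat_lit 6917149983) (nat_lit 0) (nat_lit 3735445543) (nat_lit 13) (nat_lit 5) (nat_lit 16) (nat_lit 4) (nat_lit 13) (nat_lit 4) (nat_lit 357) (nat_lit 254) (nat_lit 250))))) (XT.nd (nat_lit 282) (nat_lit 168) (nat_lit 0) (XT.nd (nat_lit 94) (nat_lit 168) (nat_lit 0) (XT.lf (nat_lit 0) (nat_lit 8355364453) (nat_lit 252) (nat_lit 2741984455) (nat_lit 0) (nat_lit 5786591678) (nat_lit 13) (nat_lit 5) (nat_lit 16) (nat_lit 4) (nat_lit 13) (nat_lit 4) (nat_lit 358) (nat_lit 254) (nat_lit 249)) (XT.nd (nat_lit 94) (nat_lit 0) (nat_lit 0) (XT.lf (nat_lit 0) (nat_lit 1509140044)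 (nat_lit 168) (nat_lit 9418049324) (nat_lit 168) (nat_lit 6380921728) (nat_lit 11) (nat_lit 4) (nat_lit 13) (nat_lit 5) (nat_lit 13) (nat_lit 4) (nat_lit 359) (nat_lit 254) (nat_lit 248)) (XT.lf (nat_lit 0) (nat_lit 5867150242) (nat_lit 168) (nat_lit 7685342545) (nat_lit 168) (nat_lit 4193942572) (nat_lit 11) (nat_lit 4) (nat_lit 13) (nat_lit 5) (nat_lit 13) (nat_lit 4) (nat_lit 360) (nat_lit 254) (nat_lit 247)))) (XT.nd (nat_lit 94) (nat_lit 168) (nat_lit 0) (XT.lf (nat_lit 0) (nat_lit 10279727436) (nat_lit 168) (nat_lit 5926234202) (nat_lit 168) (nat_lit 1994220865) (nat_lit 11) (nat_lit 4) (nat_lit 13) (nat_lit 5) (nat_lit 13) (nat_lit 4) (nat_lit 361) (nat_lit 254) (nat_lit 246)) (XT.nd (nat_lit 94) (nat_lit 84) (nat_lit 0) (XT.lf (nat_lit 0) (nat_lit 215855333) (nat_lit 252) (nat_lit 3920976200) (nat_lit 84) (nat_lit 14532876190) (nat_lit 10) (nat_lit 5) (nat_lit 13) (nat_lit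 5) (nat_lit 11) (nat_lit 4) (nat_lit 362) (nat_lit 254) (nat_lit 245)) (XT.lf (nat_lit 0) (nat_lit 107278068) (nat_lit 84) (nat_lit 2296056018) (nat_lit 168) (nat_lit 16751530942) (nat_lit 9) (nat_lit 5) (nat_lit 10) (nat_lit 5) (nat_lit 11) (nat_lit 4) (nat_lit 363) (nat_lit 254) (nat_lit 244))))))) (XT.nd (nat_lit 1128) (nat_lit 84) (nat_lit 0) (XT.nd (nat_lit 564) (nat_lit 168) (nat_lit 0) (XT.nd (nat_lit 282) (nat_lit 168) (nat_lit 0) (XT.nd (nat_lit 94) (nat_lit 0) (nat_lit 0) (XT.lf (nat_lit 0) (nat_lit 4267336475) (nat_lit 84) (nat_lit 382235863) (nat_lit 168) (nat_lit 15005934264) (nat_lit 9) (nat_lit 5) (nat_lit 10) (nat_lit 5) (nat_lit 11) (nat_lit 4) (nat_lit 364) (nat_lit 254) (nat_lit 243)) (XT.nd (nat_lit 94) (nat_lit 0) (nat_lit 0) (XT.lf (nat_lit 0) (nat_lit 6932497269) (nat_lit 168) (nat_lit 11706406180) (nat_lit 0) (nat_lit 1533944810) (nat_lit 9) (nat_lit 5) (nat_lit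 11) (nat_lit 4) (nat_lit 9) (nat_lit 4) (nat_lit 365) (nat_lit 254) (nat_lit 242)) (XT.lf (nat_lit 0) (nat_lit 9242838660) (nat_lit 168) (nat_lit 7987465182) (nat_lit 0) (nat_lit 3477421714) (nat_lit 9) (nat_lit 5) (nat_lit 11) (nat_lit 4) (nat_lit 9) (nat_lit 4) (nat_lit 366) (nat_lit 254) (nat_lit 241)))) (XT.nd (nat_lit 94) (nat_lit 168) (nat_lit 0) (XT.lf (nat_lit 0) (nat_lit 11578958163) (nat_lit 168) (nat_lit 4224088866) (nat_lit 0) (nat_lit 5457707574) (nat_lit 9) (nat_lit 5) (nat_lit 11) (nat_lit 4) (nat_lit 9) (nat_lit 4) (nat_lit 367) (nat_lit 254) (nat_lit 240)) (XT.nd (nat_lit 94) (nat_lit 168) (nat_lit 0) (XT.lf (nat_lit 0) (nat_lit 13943033288) (nat_lit 168) (nat_lit 412769369) (nat_lit 0) (nat_lit 7476648224) (nat_lit 9) (nat_lit 5) (nat_lit 11) (nat_lit 4) (nat_lit 9) (nat_lit 4) (nat_lit 368) (nat_lit 254) (nat_lit 239)) (XT.lf (nat_lit 0) (nat_lit 3520985875) (nat_lit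 168) (nat_lit 12851210339) (nat_lit 168) (nat_lit 6050068268) (nat_lit 7) (nat_lit 4) (nat_lit 9) (nat_lit 5) (nat_lit 9) (nat_lit 4) (nat_lit 369) (nat_lit 254) (nat_lit 238))))) (XT.nd (nat_lit 282) (nat_lit 168) (nat_lit 0) (XT.nd (nat_lit 94) (nat_lit 0) (nat_lit 0) (XT.lf (nat_lit 0) (nat_lit 7519457674) (nat_lit 168) (nat_lit 11319029050) (nat_lit 168) (nat_lit 4193195410) (nat_lit 7) (nat_lit 4) (nat_lit 9) (nat_lit 5) (nat_lit 9) (nat_lit 4) (nat_lit 370) (nat_lit 254) (nat_lit 237)) (XT.nd (nat_lit 94) (nat_lit 0) (nat_lit 0) (XT.lf (nat_lit 0) (nat_lit 11577885638) (nat_lit 168) (nat_lit 9762139101) (nat_lit 168) (nat_lit 2321376684) (nat_lit 7) (nat_lit 4) (nat_lit 9) (nat_lit 5) (nat_lit 9) (nat_lit 4) (nat_lit 371) (nat_lit 254) (nat_lit 236)) (XT.lf (nat_lit 0) (nat_lit 15700052647) (nat_lit 168) (nat_lit 8179089308) (nat_lit 168) (nat_lit 432867361) (nat_lit 7) (nat_lit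 4) (nat_lit 9) (nat_lit 5) (nat_lit 9) (nat_lit 4) (nat_lit 372) (nat_lit 254) (nat_lit 235)))) (XT.nd (nat_lit 94) (nat_lit 84) (nat_lit 0) (XT.lf (nat_lit 0) (nat_lit 1444393164) (nat_lit 252) (nat_lit 5108934437) (nat_lit 84) (nat_lit 18430331325) (nat_lit 6) (nat_lit 5) (nat_lit 9) (nat_lit 5) (nat_lit 7) (nat_lit 4) (nat_lit 373) (nat_lit 254) (nat_lit 234)) (XT.nd (nat_lit 94) (nat_lit 84) (nat_lit 0) (XT.lf (nat_lit 0) (nat_lit 3332753193) (nat_lit 252) (nat_lit 1561041857) (nat_lit 84) (nat_lit 20783495655) (nat_lit 6) (nat_lit 5) (nat_lit 9) (nat_lit 5) (nat_lit 7) (nat_lit 4) (nat_lit 374) (nat_lit 254) (nat_lit 233)) (XT.lf (nat_lit 0) (nat_lit 2081254821) (nat_lit 84) (nat_lit 3182085673) (nat_lit 168) (nat_lit 21129703780) (nat_lit 5) (nat_lit 5) (nat_lit 6) (nat_lit 5) (nat_lit 7) (nat_lit 4) (nat_lit 375) (nat_lit 254) (nat_lit 232)))))) (XT.nd (nat_lit 564) (nat_lit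 84) (nat_lit 0) (XT.nd (nat_lit 282) (nat_lit 0) (nat_lit 0) (XT.nd (nat_lit 94) (nat_lit 0) (nat_lit 0) (XT.lf (nat_lit 0) (nat_lit 5812625016) (nat_lit 84) (nat_lit 1421033359) (nat_lit 168) (nat_lit 19898061594) (nat_lit 5) (nat_lit 5) (nat_lit 6) (nat_lit 5) (nat_lit 7) (nat_lit 4) (nat_lit 376) (nat_lit 254) (nat_lit 231)) (XT.nd (nat_lit 94) (nat_lit 0) (nat_lit 0) (XT.lf (nat_lit 0) (nat_lit 9233456396) (nat_lit 168) (nat_lit 18293764875) (nat_lit 0) (nat_lit 367159742) (nat_lit 5) (nat_lit 5) (nat_lit 7) (nat_lit 4) (nat_lit 5) (nat_lit 4) (nat_lit 377) (nat_lit 254) (nat_lit 230)) (XT.lf (nat_lit 0) (nat_lit 11275335513) (nat_lit 168) (nat_lit 15243716229) (nat_lit 0) (nat_lit 2162353699) (nat_lit 5) (nat_lit 5) (nat_lit 7) (nat_lit 4) (nat_lit 5) (nat_lit 4) (nat_lit 378) (nat_lit 254) (nat_lit 229)))) (XT.nd (nat_lit 94) (nat_lit 0) (nat_lit 0) (XT.lf (nat_lit 0) (nat_lit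 13347102144) (nat_lit 168) (nat_lit 12152009222) (nat_lit 0) (nat_lit 3994852474) (nat_lit 5) (nat_lit 5) (nat_lit 7) (nat_lit 4) (nat_lit 5) (nat_lit 4) (nat_lit 379) (nat_lit 254) (nat_lit 228)) (XT.nd (nat_lit 94) (nat_lit 0) (nat_lit 0) (XT.lf (nat_lit 0) (nat_lit 15450687394) (nat_lit 168) (nat_lit 9015762062) (nat_lit 0) (nat_lit 5866364149) (nat_lit 5) (nat_lit 5) (nat_lit 7) (nat_lit 4) (nat_lit 5) (nat_lit 4) (nat_lit 380) (nat_lit 254) (nat_lit 227)) (XT.lf (nat_lit 0) (nat_lit 17588052024) (nat_lit 168) (nat_lit 5832051435) (nat_lit 0) (nat_lit 7778633167) (nat_lit 5) (nat_lit 5) (nat_lit 7) (nat_lit 4) (nat_lit 5) (nat_lit 4) (nat_lit 381) (nat_lit 254) (nat_lit 226))))) (XT.nd (nat_lit 282) (nat_lit 0) (nat_lit 0) (XT.nd (nat_lit 94) (nat_lit 84) (nat_lit 0) (XT.lf (nat_lit 0) (nat_lit 19761188282) (nat_lit 168) (nat_lit 2597909792) (nat_lit 0) (nat_lit 9733441964) (nat_lit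 5) (nat_lit 5) (nat_lit 7) (nat_lit 4) (nat_lit 5) (nat_lit 4) (nat_lit 382) (nat_lit 254) (nat_lit 225)) (XT.nd (nat_lit 94) (nat_lit 0) (nat_lit 0) (XT.lf (nat_lit 0) (nat_lit 703858608) (nat_lit 84) (nat_lit 21275245514) (nat_lit 84) (nat_lit 11035736384) (nat_lit 4) (nat_lit 4) (nat_lit 5) (nat_lit 5) (nat_lit 5) (nat_lit 4) (nat_lit 383) (nat_lit 254) (nat_lit 224)) (XT.lf (nat_lit 0) (nat_lit 4116717275) (nat_lit 84) (nat_lit 20147034344) (nat_lit 84) (nat_lit 9702129663) (nat_lit 4) (nat_lit 4) (nat_lit 5) (nat_lit 5) (nat_lit 5) (nat_lit 4) (nat_lit 384) (nat_lit 254) (nat_lit 223)))) (XT.nd (nat_lit 94) (nat_lit 0) (nat_lit 0) (XT.lf (nat_lit 0) (nat_lit 7590428996) (nat_lit 84) (nat_lit 19000529803) (nat_lit 84) (nat_lit 8356405383) (nat_lit 4) (nat_lit 4) (nat_lit 5) (nat_lit 5) (nat_lit 5) (nat_lit 4) (nat_lit 385) (nat_lit 254) (nat_lit 222)) (XT.nd (nat_lit 94) (nat_lit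 0) (nat_lit 0) (XT.lf (nat_lit 0) (nat_lit 11128231634) (nat_lit 84) (nat_lit 17834663230) (nat_lit 84) (nat_lit 6997309189) (nat_lit 4) (nat_lit 4) (nat_lit 5) (nat_lit 5) (nat_lit 5) (nat_lit 4) (nat_lit 386) (nat_lit 254) (nat_lit 221)) (XT.lf (nat_lit 0) (nat_lit 14733422791) (nat_lit 84) (nat_lit 16648347914) (nat_lit 84) (nat_lit 5623574260) (nat_lit 4) (nat_lit 4) (nat_lit 5) (nat_lit 5) (nat_lit 5) (nat_lit 4) (nat_lit 387) (nat_lit 254) (nat_lit 220))))))))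
noncomputable def xc21 : XT := (XT.nd (nat_lit 2256) (nat_lit 0) (nat_lit 0) (XT.nd (nat_lit 1128) (nat_lit 0) (nat_lit 0) (XT.nd (nat_lit 564) (nat_lit 84) (nat_lit 0) (XT.nd (nat_lit 282) (nat_lit 84) (nat_lit 0) (XT.nd (nat_lit 94) (nat_lit 0) (nat_lit 0) (XT.lf (nat_lit 0) (nat_lit 18409362884) (nat_lit 84) (nat_lit 15440478085) (nat_lit 84) (nat_lit 4233920132) (nat_lit 4) (nat_lit 4) (nat_lit 5) (nat_lit 5) (nat_lit 5) (nat_lit 4) (nat_lit 388) (nat_lit 254) (nat_lit 219)) (XT.nd (nat_lit 94) (nat_lit 0) (nat_lit 0) (XT.lf (nat_lit 0) (nat_lit 22159478274) (nat_lit 84) (nat_lit 14209927883) (nat_lit 84) (nat_lit 2827051501) (nat_lit 4) (nat_lit 4) (nat_lit 5) (nat_lit 5) (nat_lit 5) (nat_lit 4) (nat_lit 389) (nat_lit 254) (nat_lit 218)) (XT.lf (nat_lit 0) (nat_lit 25987264461) (nat_lit 84) (nat_lit 12955550305) (nat_lit 84) (nat_lit 1401657019) (nat_lit 4) (nat_lit 4) (nat_lit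 5) (nat_lit 5) (nat_lit 5) (nat_lit 4) (nat_lit 390) (nat_lit 254) (nat_lit 217)))) (XT.nd (nat_lit 94) (nat_lit 0) (nat_lit 0) (XT.lf (nat_lit 0) (nat_lit 42713651) (nat_lit 168) (nat_lit 11633016646) (nat_lit 84) (nat_lit 29853129848) (nat_lit 3) (nat_lit 5) (nat_lit 5) (nat_lit 5) (nat_lit 4) (nat_lit 4) (nat_lit 391) (nat_lit 254) (nat_lit 216)) (XT.nd (nat_lit 94) (nat_lit 0) (nat_lit 0) (XT.lf (nat_lit 0) (nat_lit 1479618483) (nat_lit 168) (nat_lit 8875550211) (nat_lit 84) (nat_lit 32395133874) (nat_lit 3) (nat_lit 5) (nat_lit 5) (nat_lit 5) (nat_lit 4) (nat_lit 4) (nat_lit 392) (nat_lit 254) (nat_lit 215)) (XT.lf (nat_lit 0) (nat_lit 2938637088) (nat_lit 168) (nat_lit 6068333162) (nat_lit 84) (nat_lit 35003398359) (nat_lit 3) (nat_lit 5) (nat_lit 5) (nat_lit 5) (nat_lit 4) (nat_lit 4) (nat_lit 393) (nat_lit 254) (nat_lit 214))))) (XT.nd (nat_lit 282) (nat_lit 0) (nat_lit 0)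 (XT.nd (nat_lit 94) (nat_lit 84) (nat_lit 0) (XT.lf (nat_lit 0) (nat_lit 4421129425) (nat_lit 168) (nat_lit 3208748878) (nat_lit 84) (nat_lit 37680354480) (nat_lit 3) (nat_lit 5) (nat_lit 5) (nat_lit 5) (nat_lit 4) (nat_lit 4) (nat_lit 394) (nat_lit 254) (nat_lit 213)) (XT.nd (nat_lit 94) (nat_lit 84) (nat_lit 0) (XT.lf (nat_lit 0) (nat_lit 5928477331) (nat_lit 168) (nat_lit 294131926) (nat_lit 84) (nat_lit 40428497440) (nat_lit 3) (nat_lit 5) (nat_lit 5) (nat_lit 5) (nat_lit 4) (nat_lit 4) (nat_lit 395) (nat_lit 254) (nat_lit 212)) (XT.lf (nat_lit 0) (nat_lit 2733304413) (nat_lit 84) (nat_lit 4755896117) (nat_lit 168) (nat_lit 40544199101) (nat_lit 2) (nat_lit 5) (nat_lit 3) (nat_lit 5) (nat_lit 4) (nat_lit 4) (nat_lit 396) (nat_lit 254) (nat_lit 211)))) (XT.nd (nat_lit 94) (nat_lit 0) (nat_lit 0) (XT.lf (nat_lit 0) (nat_lit 5828553075) (nat_lit 84) (nat_lit 3252651245) (nat_lit 168)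 (nat_lit 40377925740) (nat_lit 2) (nat_lit 5) (nat_lit 3) (nat_lit 5) (nat_lit 4) (nat_lit 4) (nat_lit 397) (nat_lit 254) (nat_lit 210)) (XT.nd (nat_lit 94) (nat_lit 0) (nat_lit 0) (XT.lf (nat_lit 0) (nat_lit 8988451200) (nat_lit 84) (nat_lit 1714543595) (nat_lit 168) (nat_lit 40226724433) (nat_lit 2) (nat_lit 5) (nat_lit 3) (nat_lit 5) (nat_lit 4) (nat_lit 4) (nat_lit 398) (nat_lit 254) (nat_lit 209)) (XT.lf (nat_lit 0) (nat_lit 12215944143) (nat_lit 84) (nat_lit 140139487) (nat_lit 168) (nat_lit 40090454245) (nat_lit 2) (nat_lit 5) (nat_lit 3) (nat_lit 5) (nat_lit 4) (nat_lit 4) (nat_lit 399) (nat_lit 254) (nat_lit 208)))))) (XT.nd (nat_lit 564) (nat_lit 0) (nat_lit 0) (XT.nd (nat_lit 282) (nat_lit 0) (nat_lit 0) (XT.nd (nat_lit 94) (nat_lit 0) (nat_lit 0) (XT.lf (nat_lit 0) (nat_lit 14056614387) (nat_lit 168) (nat_lit 38511562278) (nat_lit 0) (nat_lit 1442370489) (nat_lit 2) (nat_lit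 5) (nat_lit 4) (nat_lit 4) (nat_lit 2) (nat_lit 4) (nat_lit 400) (nat_lit 254) (nat_lit 207)) (XT.nd (nat_lit 94) (nat_lit 0) (nat_lit 0) (XT.lf (nat_lit 0) (nat_lit 15793335550) (nat_lit 168) (nat_lit 36769734759) (nat_lit 0) (nat_lit 3060532508) (nat_lit 2) (nat_lit 5) (nat_lit 4) (nat_lit 4) (nat_lit 2) (nat_lit 4) (nat_lit 401) (nat_lit 254) (nat_lit 206)) (XT.lf (nat_lit 0) (nat_lit 17566475726) (nat_lit 168) (nat_lit 35002097412) (nat_lit 0) (nat_lit 4718678363) (nat_lit 2) (nat_lit 5) (nat_lit 4) (nat_lit 4) (nat_lit 2) (nat_lit 4) (nat_lit 402) (nat_lit 254) (nat_lit 205)))) (XT.nd (nat_lit 94) (nat_lit 0) (nat_lit 0) (XT.lf (nat_lit 0) (nat_lit 19377687666) (nat_lit 168) (nat_lit 33207002611) (nat_lit 0) (nat_lit 6418353620) (nat_lit 2) (nat_lit 5) (nat_lit 4) (nat_lit 4) (nat_lit 2) (nat_lit 4) (nat_lit 403) (nat_lit 254) (nat_lit 204)) (XT.nd (nat_lit 94) (nat_lit 0) (nat_lit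 0) (XT.lf (nat_lit 0) (nat_lit 21228659610) (nat_lit 168) (nat_lit 31382777141) (nat_lit 0) (nat_lit 8161142553) (nat_lit 2) (nat_lit 5) (nat_lit 4) (nat_lit 4) (nat_lit 2) (nat_lit 4) (nat_lit 404) (nat_lit 254) (nat_lit 203)) (XT.lf (nat_lit 0) (nat_lit 23121116857) (nat_lit 168) (nat_lit 29527720633) (nat_lit 0) (nat_lit 9948669626) (nat_lit 2) (nat_lit 5) (nat_lit 4) (nat_lit 4) (nat_lit 2) (nat_lit 4) (nat_lit 405) (nat_lit 254) (nat_lit 202))))) (XT.nd (nat_lit 282) (nat_lit 0) (nat_lit 0) (XT.nd (nat_lit 94) (nat_lit 0) (nat_lit 0) (XT.lf (nat_lit 0) (nat_lit 25056823376) (nat_lit 168) (nat_lit 27640103979) (nat_lit 0) (nat_lit 11782600999) (nat_lit 2) (nat_lit 5) (nat_lit 4) (nat_lit 4) (nat_lit 2) (nat_lit 4) (nat_lit 406) (nat_lit 254) (nat_lit 201)) (XT.nd (nat_lit 94) (nat_lit 0) (nat_lit 0) (XT.lf (nat_lit 0) (nat_lit 27037583448) (nat_lit 168) (nat_lit 25718167724) (nat_lit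 0) (nat_lit 13664646091) (nat_lit 2) (nat_lit 5) (nat_lit 4) (nat_lit 4) (nat_lit 2) (nat_lit 4) (nat_lit 407) (nat_lit 254) (nat_lit 200)) (XT.lf (nat_lit 0) (nat_lit 29065243349) (nat_lit 168) (nat_lit 23760120421) (nat_lit 0) (nat_lit 15596559163) (nat_lit 2) (nat_lit 5) (nat_lit 4) (nat_lit 4) (nat_lit 2) (nat_lit 4) (nat_lit 408) (nat_lit 254) (nat_lit 199)))) (XT.nd (nat_lit 94) (nat_lit 0) (nat_lit 0) (XT.lf (nat_lit 0) (nat_lit 31141693071) (nat_lit 168) (nat_lit 21764136964) (nat_lit 0) (nat_lit 17580140961) (nat_lit 2) (nat_lit 5) (nat_lit 4) (nat_lit 4) (nat_lit 2) (nat_lit 4) (nat_lit 409) (nat_lit 254) (nat_lit 198)) (XT.nd (nat_lit 94) (nat_lit 0) (nat_lit 0) (XT.lf (nat_lit 0) (nat_lit 33268868081) (nat_lit 168) (nat_lit 19728356890) (nat_lit 0) (nat_lit 19617240391) (nat_lit 2) (nat_lit 5) (nat_lit 4) (nat_lit 4) (nat_lit 2) (nat_lit 4) (nat_lit 410) (nat_lit 254) (nat_lit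 197)) (XT.lf (nat_lit 0) (nat_lit 35448751131) (nat_lit 168) (nat_lit 17650882636) (nat_lit 0) (nat_lit 21709756244) (nat_lit 2) (nat_lit 5) (nat_lit 4) (nat_lit 4) (nat_lit 2) (nat_lit 4) (nat_lit 411) (nat_lit 254) (nat_lit 196))))))) (XT.nd (nat_lit 48786) (nat_lit 0) (nat_lit 588) (XT.nd (nat_lit 564) (nat_lit 0) (nat_lit 0) (XT.nd (nat_lit 282) (nat_lit 0) (nat_lit 0) (XT.nd (nat_lit 94) (nat_lit 0) (nat_lit 0) (XT.lf (nat_lit 0) (nat_lit 37683374099) (nat_lit 168) (nat_lit 15529777779) (nat_lit 0) (nat_lit 23859638962) (nat_lit 2) (nat_lit 5) (nat_lit 4) (nat_lit 4) (nat_lit 2) (nat_lit 4) (nat_lit 412) (nat_lit 254) (nat_lit 195)) (XT.nd (nat_lit 94) (nat_lit 0) (nat_lit 0) (XT.lf (nat_lit 0) (nat_lit 39974819888) (nat_lit 168) (nat_lit 13363065228) (nat_lit 0) (nat_lit 26068892463) (nat_lit 2) (nat_lit 5) (nat_lit 4) (nat_lit 4) (nat_lit 2) (nat_lit 4) (nat_lit 413) (nat_lit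 254) (nat_lit 194)) (XT.lf (nat_lit 0) (nat_lit 42325224366) (nat_lit 168) (nat_lit 11148725380) (nat_lit 0) (nat_lit 28339576001) (nat_lit 2) (nat_lit 5) (nat_lit 4) (nat_lit 4) (nat_lit 2) (nat_lit 4) (nat_lit 414) (nat_lit 254) (nat_lit 193)))) (XT.nd (nat_lit 94) (nat_lit 0) (nat_lit 0) (XT.lf (nat_lit 0) (nat_lit 44736778356) (nat_lit 168) (nat_lit 8884694237) (nat_lit 0) (nat_lit 30673806092) (nat_lit 2) (nat_lit 5) (nat_lit 4) (nat_lit 4) (nat_lit 2) (nat_lit 4) (nat_lit 415) (nat_lit 254) (nat_lit 192)) (XT.nd (nat_lit 94) (nat_lit 0) (nat_lit 0) (XT.lf (nat_lit 0) (nat_lit 47211729678) (nat_lit 168) (nat_lit 6568861486) (nat_lit 0) (nat_lit 33073758482) (nat_lit 2) (nat_lit 5) (nat_lit 4) (nat_lit 4) (nat_lit 2) (nat_lit 4) (nat_lit 416) (nat_lit 254) (nat_lit 191)) (XT.lf (nat_lit 0) (nat_lit 49752385247) (nat_lit 168) (nat_lit 4199068528) (nat_lit 0) (nat_lit 35541670179)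 (nat_lit 2) (nat_lit 5) (nat_lit 4) (nat_lit 4) (nat_lit 2) (nat_lit 4) (nat_lit 417) (nat_lit 254) (nat_lit 190))))) (XT.nd (nat_lit 47940) (nat_lit 0) (nat_lit 924) (XT.nd (nat_lit 47752) (nat_lit 0) (nat_lit 1176) (XT.lf (nat_lit 0) (nat_lit 52361113219) (nat_lit 168) (nat_lit 1773106467) (nat_lit 0) (nat_lit 38079841535) (nat_lit 2) (nat_lit 5) (nat_lit 4) (nat_lit 4) (nat_lit 2) (nat_lit 4) (nat_lit 418) (nat_lit 254) (nat_lit 189)) (XT.nd (nat_lit 94) (nat_lit 168) (nat_lit 0) (XT.lf (nat_lit 0) (nat_lit 2979874259) (nat_lit 252) (nat_lit 1184474172) (nat_lit 0) (nat_lit 2979874259) (nat_lit 18) (nat_lit 5) (nat_lit 21) (nat_lit 4) (nat_lit 18) (nat_lit 4) (nat_lit 351) (nat_lit 255) (nat_lit 255)) (XT.lf (nat_lit 0) (nat_lit 2136361942) (nat_lit 168) (nat_lit 6533156371) (nat_lit 168) (nat_lit 5953212916) (nat_lit 16) (nat_lit 4) (nat_lit 18) (nat_lit 5) (nat_lit 18) (nat_lit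 4) (nat_lit 352) (nat_lit 255) (nat_lit 254)))) (XT.nd (nat_lit 94) (nat_lit 252) (nat_lit 0) (XT.lf (nat_lit 0) (nat_lit 6739238125) (nat_lit 168) (nat_lit 4686003403) (nat_lit 168) (nat_lit 3543554171) (nat_lit 16) (nat_lit 4) (nat_lit 18) (nat_lit 5) (nat_lit 18) (nat_lit 4) (nat_lit 353) (nat_lit 255) (nat_lit 253)) (XT.nd (nat_lit 94) (nat_lit 252) (nat_lit 0) (XT.lf (nat_lit 0) (nat_lit 11395260129) (nat_lit 168) (nat_lit 2810243183) (nat_lit 168) (nat_lit 1122201540) (nat_lit 16) (nat_lit 4) (nat_lit 18) (nat_lit 5) (nat_lit 18) (nat_lit 4) (nat_lit 354) (nat_lit 255) (nat_lit 252)) (XT.lf (nat_lit 0) (nat_lit 404090007) (nat_lit 168) (nat_lit 886564471) (nat_lit 252) (nat_lit 14408610670) (nat_lit 13) (nat_lit 5) (nat_lit 15) (nat_lit 5) (nat_lit 16) (nat_lit 4) (nat_lit 355) (nat_lit 255) (nat_lit 251)))))) (XT.nd (nat_lit 564) (nat_lit 168) (nat_lit 0) (XT.nd (nat_lit 282)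 (nat_lit 168) (nat_lit 0) (XT.nd (nat_lit 94) (nat_lit 0) (nat_lit 0) (XT.lf (nat_lit 0) (nat_lit 3748115881) (nat_lit 252) (nat_lit 11234583411) (nat_lit 0) (nat_lit 1099711149) (nat_lit 13) (nat_lit 5) (nat_lit 16) (nat_lit 4) (nat_lit 13) (nat_lit 4) (nat_lit 356) (nat_lit 255) (nat_lit 250)) (XT.nd (nat_lit 94) (nat_lit 0) (nat_lit 0) (XT.lf (nat_lit 0) (nat_lit 6233378205) (nat_lit 252) (nat_lit 7143657962) (nat_lit 0) (nat_lit 3102099653) (nat_lit 13) (nat_lit 5) (nat_lit 16) (nat_lit 4) (nat_lit 13) (nat_lit 4) (nat_lit 357) (nat_lit 255) (nat_lit 249)) (XT.lf (nat_lit 0) (nat_lit 8739963145) (nat_lit 252) (nat_lit 3009790793) (nat_lit 0) (nat_lit 5140329773) (nat_lit 13) (nat_lit 5) (nat_lit 16) (nat_lit 4) (nat_lit 13) (nat_lit 4) (nat_lit 358) (nat_lit 255) (nat_lit 248)))) (XT.nd (nat_lit 94) (nat_lit 0) (nat_lit 0) (XT.lf (nat_lit 0) (nat_lit 1194946806) (nat_lit 168) (nat_lit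 10087114316) (nat_lit 168) (nat_lit 6033208566) (nat_lit 11) (nat_lit 4) (nat_lit 13) (nat_lit 5) (nat_lit 13) (nat_lit 4) (nat_lit 359) (nat_lit 255) (nat_lit 247)) (XT.nd (nat_lit 94) (nat_lit 0) (nat_lit 0) (XT.lf (nat_lit 0) (nat_lit 5513305936) (nat_lit 168) (nat_lit 8367855270) (nat_lit 168) (nat_lit 3873336157) (nat_lit 11) (nat_lit 4) (nat_lit 13) (nat_lit 5) (nat_lit 13) (nat_lit 4) (nat_lit 360) (nat_lit 255) (nat_lit 246)) (XT.lf (nat_lit 0) (nat_lit 9887424286) (nat_lit 168) (nat_lit 6621790314) (nat_lit 168) (nat_lit 1699906155) (nat_lit 11) (nat_lit 4) (nat_lit 13) (nat_lit 5) (nat_lit 13) (nat_lit 4) (nat_lit 361) (nat_lit 255) (nat_lit 245))))) (XT.nd (nat_lit 282) (nat_lit 0) (nat_lit 0) (XT.nd (nat_lit 94) (nat_lit 84) (nat_lit 0) (XT.lf (nat_lit 0) (nat_lit 479252881) (nat_lit 252) (nat_lit 4363036634) (nat_lit 84) (nat_lit 13837123693) (nat_lit 10) (nat_lit 5) (nat_lit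 13) (nat_lit 5) (nat_lit 11) (nat_lit 4) (nat_lit 362) (nat_lit 255) (nat_lit 244)) (XT.nd (nat_lit 94) (nat_lit 84) (nat_lit 0) (XT.lf (nat_lit 0) (nat_lit 2641431365) (nat_lit 252) (nat_lit 373703618) (nat_lit 84) (nat_lit 16150300475) (nat_lit 10) (nat_lit 5) (nat_lit 13) (nat_lit 5) (nat_lit 11) (nat_lit 4) (nat_lit 363) (nat_lit 255) (nat_lit 243)) (XT.lf (nat_lit 0) (nat_lit 3742282996) (nat_lit 84) (nat_lit 1117734905) (nat_lit 168) (nat_lit 14806994545) (nat_lit 9) (nat_lit 5) (nat_lit 10) (nat_lit 5) (nat_lit 11) (nat_lit 4) (nat_lit 364) (nat_lit 255) (nat_lit 242)))) (XT.nd (nat_lit 188) (nat_lit 0) (nat_lit 0) (XT.nd (nat_lit 94) (nat_lit 0) (nat_lit 0) (XT.lf (nat_lit 0) (nat_lit 7112375499) (nat_lit 168) (nat_lit 12271635907) (nat_lit 0) (nat_lit 801366142) (nat_lit 9) (nat_lit 5) (nat_lit 11) (nat_lit 4) (nat_lit 9) (nat_lit 4) (nat_lit 365) (nat_lit 255) (nat_lit 241))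 (XT.lf (nat_lit 0) (nat_lit 9400145511) (nat_lit 168) (nat_lit 8587580115) (nat_lit 0) (nat_lit 2733302510) (nat_lit 9) (nat_lit 5) (nat_lit 11) (nat_lit 4) (nat_lit 9) (nat_lit 4) (nat_lit 366) (nat_lit 255) (nat_lit 240))) (XT.nd (nat_lit 94) (nat_lit 0) (nat_lit 0) (XT.lf (nat_lit 0) (nat_lit 11714372310) (nat_lit 168) (nat_lit 4858040079) (nat_lit 0) (nat_lit 4702394834) (nat_lit 9) (nat_lit 5) (nat_lit 11) (nat_lit 4) (nat_lit 9) (nat_lit 4) (nat_lit 367) (nat_lit 255) (nat_lit 239)) (XT.lf (nat_lit 0) (nat_lit 14057212997) (nat_lit 168) (nat_lit 1079539477) (nat_lit 0) (nat_lit 6710478514) (nat_lit 9) (nat_lit 5) (nat_lit 11) (nat_lit 4) (nat_lit 9) (nat_lit 4) (nat_lit 368) (nat_lit 255) (nat_lit 238))))))))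
noncomputable def xc22 : XT := (XT.nd (nat_lit 2256) (nat_lit 84) (nat_lit 0) (XT.nd (nat_lit 1128) (nat_lit 168) (nat_lit 0) (XT.nd (nat_lit 564) (nat_lit 84) (nat_lit 0) (XT.nd (nat_lit 282) (nat_lit 84) (nat_lit 0) (XT.nd (nat_lit 94) (nat_lit 0) (nat_lit 0) (XT.lf (nat_lit 0) (nat_lit 2808018973) (nat_lit 168) (nat_lit 13650688267) (nat_lit 168) (nat_lit 5979262216) (nat_lit 7) (nat_lit 4) (nat_lit 9) (nat_lit 5) (nat_lit 9) (nat_lit 4) (nat_lit 369) (nat_lit 255) (nat_lit 237)) (XT.nd (nat_lit 94) (nat_lit 0) (nat_lit 0) (XT.lf (nat_lit 0) (nat_lit 6774980944) (nat_lit 168) (nat_lit 12129727540) (nat_lit 168) (nat_lit 4143372712) (nat_lit 7) (nat_lit 4) (nat_lit 9) (nat_lit 5) (nat_lit 9) (nat_lit 4) (nat_lit 370) (nat_lit 255) (nat_lit 236)) (XT.lf (nat_lit 0) (nat_lit 10802846514) (nat_lit 168) (nat_lit 10583720774) (nat_lit 168) (nat_lit 2291906414) (nat_lit 7) (nat_lit 4)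 (nat_lit 9) (nat_lit 5) (nat_lit 9) (nat_lit 4) (nat_lit 371) (nat_lit 255) (nat_lit 235)))) (XT.nd (nat_lit 94) (nat_lit 84) (nat_lit 0) (XT.lf (nat_lit 0) (nat_lit 14895370076) (nat_lit 168) (nat_lit 9011226929) (nat_lit 168) (nat_lit 423137564) (nat_lit 7) (nat_lit 4) (nat_lit 9) (nat_lit 5) (nat_lit 9) (nat_lit 4) (nat_lit 372) (nat_lit 255) (nat_lit 234)) (XT.nd (nat_lit 94) (nat_lit 0) (nat_lit 0) (XT.lf (nat_lit 0) (nat_lit 1435165775) (nat_lit 252) (nat_lit 5960634315) (nat_lit 84) (nat_lit 17606220327) (nat_lit 6) (nat_lit 5) (nat_lit 9) (nat_lit 5) (nat_lit 7) (nat_lit 4) (nat_lit 373) (nat_lit 255) (nat_lit 233)) (XT.lf (nat_lit 0) (nat_lit 3305328761) (nat_lit 252) (nat_lit 2441059420) (nat_lit 84) (nat_lit 19949884024) (nat_lit 6) (nat_lit 5) (nat_lit 9) (nat_lit 5) (nat_lit 7) (nat_lit 4) (nat_lit 374) (nat_lit 255) (nat_lit 232))))) (XT.nd (nat_lit 282) (nat_lit 0) (nat_lit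 0) (XT.nd (nat_lit 94) (nat_lit 0) (nat_lit 0) (XT.lf (nat_lit 0) (nat_lit 1155111298) (nat_lit 84) (nat_lit 4053967409) (nat_lit 168) (nat_lit 21203833245) (nat_lit 5) (nat_lit 5) (nat_lit 6) (nat_lit 5) (nat_lit 7) (nat_lit 4) (nat_lit 375) (nat_lit 255) (nat_lit 231)) (XT.nd (nat_lit 94) (nat_lit 0) (nat_lit 0) (XT.lf (nat_lit 0) (nat_lit 4859293333) (nat_lit 84) (nat_lit 2302714344) (nat_lit 168) (nat_lit 19990171617) (nat_lit 5) (nat_lit 5) (nat_lit 6) (nat_lit 5) (nat_lit 7) (nat_lit 4) (nat_lit 376) (nat_lit 255) (nat_lit 230)) (XT.lf (nat_lit 0) (nat_lit 8624746181) (nat_lit 84) (nat_lit 516476291) (nat_lit 168) (nat_lit 18774306955) (nat_lit 5) (nat_lit 5) (nat_lit 6) (nat_lit 5) (nat_lit 7) (nat_lit 4) (nat_lit 377) (nat_lit 255) (nat_lit 229)))) (XT.nd (nat_lit 94) (nat_lit 0) (nat_lit 0) (XT.lf (nat_lit 0) (nat_lit 11161527693) (nat_lit 168) (nat_lit 16261654000) (nat_lit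 0) (nat_lit 1280090427) (nat_lit 5) (nat_lit 5) (nat_lit 7) (nat_lit 4) (nat_lit 5) (nat_lit 4) (nat_lit 378) (nat_lit 255) (nat_lit 228)) (XT.nd (nat_lit 94) (nat_lit 0) (nat_lit 0) (XT.lf (nat_lit 0) (nat_lit 13217338565) (nat_lit 168) (nat_lit 13195206847) (nat_lit 0) (nat_lit 3103827723) (nat_lit 5) (nat_lit 5) (nat_lit 7) (nat_lit 4) (nat_lit 5) (nat_lit 4) (nat_lit 379) (nat_lit 255) (nat_lit 227)) (XT.lf (nat_lit 0) (nat_lit 15305447811) (nat_lit 168) (nat_lit 10083460029) (nat_lit 0) (nat_lit 4966841358) (nat_lit 5) (nat_lit 5) (nat_lit 7) (nat_lit 4) (nat_lit 5) (nat_lit 4) (nat_lit 380) (nat_lit 255) (nat_lit 226)))))) (XT.nd (nat_lit 564) (nat_lit 84) (nat_lit 0) (XT.nd (nat_lit 282) (nat_lit 84) (nat_lit 0) (XT.nd (nat_lit 94) (nat_lit 0) (nat_lit 0) (XT.lf (nat_lit 0) (nat_lit 17427801769) (nat_lit 168) (nat_lit 6923513073) (nat_lit 0) (nat_lit 6870867856) (nat_lit 5)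 (nat_lit 5) (nat_lit 7) (nat_lit 4) (nat_lit 5) (nat_lit 4) (nat_lit 381) (nat_lit 255) (nat_lit 225)) (XT.nd (nat_lit 94) (nat_lit 0) (nat_lit 0) (XT.lf (nat_lit 0) (nat_lit 19586378694) (nat_lit 168) (nat_lit 3712420575) (nat_lit 0) (nat_lit 8817681967) (nat_lit 5) (nat_lit 5) (nat_lit 7) (nat_lit 4) (nat_lit 5) (nat_lit 4) (nat_lit 382) (nat_lit 255) (nat_lit 224)) (XT.lf (nat_lit 0) (nat_lit 21783190605) (nat_lit 168) (nat_lit 447189463) (nat_lit 0) (nat_lit 10809098328) (nat_lit 5) (nat_lit 5) (nat_lit 7) (nat_lit 4) (nat_lit 5) (nat_lit 4) (nat_lit 383) (nat_lit 255) (nat_lit 223)))) (XT.nd (nat_lit 94) (nat_lit 0) (nat_lit 0) (XT.lf (nat_lit 0) (nat_lit 2934344300) (nat_lit 84) (nat_lit 21115049921) (nat_lit 84) (nat_lit 9941737905) (nat_lit 4) (nat_lit 4) (nat_lit 5) (nat_lit 5) (nat_lit 5) (nat_lit 4) (nat_lit 384) (nat_lit 255) (nat_lit 222)) (XT.nd (nat_lit 94) (nat_lit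 0) (nat_lit 0) (XT.lf (nat_lit 0) (nat_lit 6386591645) (nat_lit 84) (nat_lit 19976511707) (nat_lit 84) (nat_lit 8609970070) (nat_lit 4) (nat_lit 4) (nat_lit 5) (nat_lit 5) (nat_lit 5) (nat_lit 4) (nat_lit 385) (nat_lit 255) (nat_lit 221)) (XT.lf (nat_lit 0) (nat_lit 9903575296) (nat_lit 84) (nat_lit 18818371929) (nat_lit 84) (nat_lit 7264410679) (nat_lit 4) (nat_lit 4) (nat_lit 5) (nat_lit 5) (nat_lit 5) (nat_lit 4) (nat_lit 386) (nat_lit 255) (nat_lit 220))))) (XT.nd (nat_lit 282) (nat_lit 84) (nat_lit 0) (XT.nd (nat_lit 94) (nat_lit 0) (nat_lit 0) (XT.lf (nat_lit 0) (nat_lit 13488573450) (nat_lit 84) (nat_lit 17639551079) (nat_lit 84) (nat_lit 5903805530) (nat_lit 4) (nat_lit 4) (nat_lit 5) (nat_lit 5) (nat_lit 5) (nat_lit 4) (nat_lit 387) (nat_lit 255) (nat_lit 219)) (XT.nd (nat_lit 94) (nat_lit 0) (nat_lit 0) (XT.lf (nat_lit 0) (nat_lit 17144927701) (nat_lit 84) (nat_lit 16438950375)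 (nat_lit 84) (nat_lit 4526886397) (nat_lit 4) (nat_lit 4) (nat_lit 5) (nat_lit 5) (nat_lit 5) (nat_lit 4) (nat_lit 388) (nat_lit 255) (nat_lit 218)) (XT.lf (nat_lit 0) (nat_lit 20876046153) (nat_lit 84) (nat_lit 15215450729) (nat_lit 84) (nat_lit 3132369847) (nat_lit 4) (nat_lit 4) (nat_lit 5) (nat_lit 5) (nat_lit 5) (nat_lit 4) (nat_lit 389) (nat_lit 255) (nat_lit 217)))) (XT.nd (nat_lit 94) (nat_lit 84) (nat_lit 0) (XT.lf (nat_lit 0) (nat_lit 24685406600) (nat_lit 84) (nat_lit 13967911712) (nat_lit 84) (nat_lit 1718956045) (nat_lit 4) (nat_lit 4) (nat_lit 5) (nat_lit 5) (nat_lit 5) (nat_lit 4) (nat_lit 390) (nat_lit 255) (nat_lit 216)) (XT.nd (nat_lit 94) (nat_lit 84) (nat_lit 0) (XT.lf (nat_lit 0) (nat_lit 28576559766) (nat_lit 84) (nat_lit 12695170487) (nat_lit 84) (nat_lit 285327539) (nat_lit 4) (nat_lit 4) (nat_lit 5) (nat_lit 5) (nat_lit 5) (nat_lit 4) (nat_lit 391) (nat_lit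 255) (nat_lit 215)) (XT.lf (nat_lit 0) (nat_lit 1146282049) (nat_lit 168) (nat_lit 10237793843) (nat_lit 84) (nat_lit 31394885728) (nat_lit 3) (nat_lit 5) (nat_lit 5) (nat_lit 5) (nat_lit 4) (nat_lit 4) (nat_lit 392) (nat_lit 255) (nat_lit 214))))))) (XT.nd (nat_lit 1128) (nat_lit 0) (nat_lit 0) (XT.nd (nat_lit 564) (nat_lit 0) (nat_lit 0) (XT.nd (nat_lit 282) (nat_lit 84) (nat_lit 0) (XT.nd (nat_lit 94) (nat_lit 0) (nat_lit 0) (XT.lf (nat_lit 0) (nat_lit 2594588766) (nat_lit 168) (nat_lit 7447640552) (nat_lit 84) (nat_lit 33997160768) (nat_lit 3) (nat_lit 5) (nat_lit 5) (nat_lit 5) (nat_lit 4) (nat_lit 4) (nat_lit 393) (nat_lit 255) (nat_lit 213)) (XT.nd (nat_lit 94) (nat_lit 0) (nat_lit 0) (XT.lf (nat_lit 0) (nat_lit 4066691298) (nat_lit 168) (nat_lit 4604606955) (nat_lit 84) (nat_lit 36668307534) (nat_lit 3) (nat_lit 5) (nat_lit 5) (nat_lit 5) (nat_lit 4) (nat_lit 4) (nat_lit 394)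 (nat_lit 255) (nat_lit 212)) (XT.lf (nat_lit 0) (nat_lit 5563961798) (nat_lit 168) (nat_lit 1706043046) (nat_lit 84) (nat_lit 39410815814) (nat_lit 3) (nat_lit 5) (nat_lit 5) (nat_lit 5) (nat_lit 4) (nat_lit 4) (nat_lit 395) (nat_lit 255) (nat_lit 211)))) (XT.nd (nat_lit 94) (nat_lit 0) (nat_lit 0) (XT.lf (nat_lit 0) (nat_lit 1276470984) (nat_lit 84) (nat_lit 5823987647) (nat_lit 168) (nat_lit 40963433679) (nat_lit 2) (nat_lit 5) (nat_lit 3) (nat_lit 5) (nat_lit 4) (nat_lit 4) (nat_lit 396) (nat_lit 255) (nat_lit 210)) (XT.nd (nat_lit 94) (nat_lit 0) (nat_lit 0) (XT.lf (nat_lit 0) (nat_lit 4356306920) (nat_lit 84) (nat_lit 4326522102) (nat_lit 168) (nat_lit 40807119219) (nat_lit 2) (nat_lit 5) (nat_lit 3) (nat_lit 5) (nat_lit 4) (nat_lit 4) (nat_lit 397) (nat_lit 255) (nat_lit 209)) (XT.lf (nat_lit 0) (nat_lit 7501255747) (nat_lit 84) (nat_lit 2794020005) (nat_lit 168) (nat_lit 40665577370)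 (nat_lit 2) (nat_lit 5) (nat_lit 3) (nat_lit 5) (nat_lit 4) (nat_lit 4) (nat_lit 398) (nat_lit 255) (nat_lit 208))))) (XT.nd (nat_lit 282) (nat_lit 0) (nat_lit 0) (XT.nd (nat_lit 94) (nat_lit 0) (nat_lit 0) (XT.lf (nat_lit 0) (nat_lit 10714248887) (nat_lit 84) (nat_lit 1225052905) (nat_lit 168) (nat_lit 40538676200) (nat_lit 2) (nat_lit 5) (nat_lit 3) (nat_lit 5) (nat_lit 4) (nat_lit 4) (nat_lit 399) (nat_lit 255) (nat_lit 207)) (XT.nd (nat_lit 94) (nat_lit 0) (nat_lit 0) (XT.lf (nat_lit 0) (nat_lit 13620227462) (nat_lit 168) (nat_lit 40048243701) (nat_lit 0) (nat_lit 374148381) (nat_lit 2) (nat_lit 5) (nat_lit 4) (nat_lit 4) (nat_lit 2) (nat_lit 4) (nat_lit 400) (nat_lit 255) (nat_lit 206)) (XT.lf (nat_lit 0) (nat_lit 15348371893) (nat_lit 168) (nat_lit 38320294481) (nat_lit 0) (nat_lit 1987298491) (nat_lit 2) (nat_lit 5) (nat_lit 4) (nat_lit 4) (nat_lit 2) (nat_lit 4) (nat_lit 401)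 (nat_lit 255) (nat_lit 205)))) (XT.nd (nat_lit 94) (nat_lit 0) (nat_lit 0) (XT.lf (nat_lit 0) (nat_lit 17113193220) (nat_lit 168) (nat_lit 36566118140) (nat_lit 0) (nat_lit 3640583135) (nat_lit 2) (nat_lit 5) (nat_lit 4) (nat_lit 4) (nat_lit 2) (nat_lit 4) (nat_lit 402) (nat_lit 255) (nat_lit 204)) (XT.nd (nat_lit 94) (nat_lit 0) (nat_lit 0) (XT.lf (nat_lit 0) (nat_lit 18916336442) (nat_lit 168) (nat_lit 34784079602) (nat_lit 0) (nat_lit 5335543347) (nat_lit 2) (nat_lit 5) (nat_lit 4) (nat_lit 4) (nat_lit 2) (nat_lit 4) (nat_lit 403) (nat_lit 255) (nat_lit 203)) (XT.lf (nat_lit 0) (nat_lit 20759482277) (nat_lit 168) (nat_lit 32972517820) (nat_lit 0) (nat_lit 7073759007) (nat_lit 2) (nat_lit 5) (nat_lit 4) (nat_lit 4) (nat_lit 2) (nat_lit 4) (nat_lit 404) (nat_lit 255) (nat_lit 202)))))) (XT.nd (nat_lit 564) (nat_lit 0) (nat_lit 0) (XT.nd (nat_lit 282) (nat_lit 0) (nat_lit 0) (XT.nd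 (nat_lit 94) (nat_lit 0) (nat_lit 0) (XT.lf (nat_lit 0) (nat_lit 22644348730) (nat_lit 168) (nat_lit 31129744230) (nat_lit 0) (nat_lit 8856850315) (nat_lit 2) (nat_lit 5) (nat_lit 4) (nat_lit 4) (nat_lit 2) (nat_lit 4) (nat_lit 405) (nat_lit 255) (nat_lit 201)) (XT.nd (nat_lit 94) (nat_lit 0) (nat_lit 0) (XT.lf (nat_lit 0) (nat_lit 24572692694) (nat_lit 168) (nat_lit 29254041173) (nat_lit 0) (nat_lit 10686479298) (nat_lit 2) (nat_lit 5) (nat_lit 4) (nat_lit 4) (nat_lit 2) (nat_lit 4) (nat_lit 406) (nat_lit 255) (nat_lit 200)) (XT.lf (nat_lit 0) (nat_lit 26546311588) (nat_lit 168) (nat_lit 27343660297) (nat_lit 0) (nat_lit 12564351363) (nat_lit 2) (nat_lit 5) (nat_lit 4) (nat_lit 4) (nat_lit 2) (nat_lit 4) (nat_lit 407) (nat_lit 255) (nat_lit 199)))) (XT.nd (nat_lit 94) (nat_lit 0) (nat_lit 0) (XT.lf (nat_lit 0) (nat_lit 28567045031) (nat_lit 168) (nat_lit 25396820928) (nat_lit 0) (nat_lit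 14492216883) (nat_lit 2) (nat_lit 5) (nat_lit 4) (nat_lit 4) (nat_lit 2) (nat_lit 4) (nat_lit 408) (nat_lit 255) (nat_lit 198)) (XT.nd (nat_lit 94) (nat_lit 0) (nat_lit 0) (XT.lf (nat_lit 0) (nat_lit 30636776559) (nat_lit 168) (nat_lit 23411708406) (nat_lit 0) (nat_lit 16471872830) (nat_lit 2) (nat_lit 5) (nat_lit 4) (nat_lit 4) (nat_lit 2) (nat_lit 4) (nat_lit 409) (nat_lit 255) (nat_lit 197)) (XT.lf (nat_lit 0) (nat_lit 32757435377) (nat_lit 168) (nat_lit 21386472400) (nat_lit 0) (nat_lit 18505164451) (nat_lit 2) (nat_lit 5) (nat_lit 4) (nat_lit 4) (nat_lit 2) (nat_lit 4) (nat_lit 410) (nat_lit 255) (nat_lit 196))))) (XT.nd (nat_lit 282) (nat_lit 0) (nat_lit 0) (XT.nd (nat_lit 94) (nat_lit 0) (nat_lit 0) (XT.lf (nat_lit 0) (nat_lit 34930998163) (nat_lit 168) (nat_lit 19319225177) (nat_lit 0) (nat_lit 20593986987) (nat_lit 2) (nat_lit 5) (nat_lit 4) (nat_lit 4) (nat_lit 2) (nat_lit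 4) (nat_lit 411) (nat_lit 255) (nat_lit 195)) (XT.nd (nat_lit 94) (nat_lit 0) (nat_lit 0) (XT.lf (nat_lit 0) (nat_lit 37159490904) (nat_lit 168) (nat_lit 17208039846) (nat_lit 0) (nat_lit 22740287439) (nat_lit 2) (nat_lit 5) (nat_lit 4) (nat_lit 4) (nat_lit 2) (nat_lit 4) (nat_lit 412) (nat_lit 255) (nat_lit 194)) (XT.lf (nat_lit 0) (nat_lit 39444990789) (nat_lit 168) (nat_lit 15050948561) (nat_lit 0) (nat_lit 24946066385) (nat_lit 2) (nat_lit 5) (nat_lit 4) (nat_lit 4) (nat_lit 2) (nat_lit 4) (nat_lit 413) (nat_lit 255) (nat_lit 193)))) (XT.nd (nat_lit 188) (nat_lit 0) (nat_lit 0) (XT.nd (nat_lit 94) (nat_lit 0) (nat_lit 0) (XT.lf (nat_lit 0) (nat_lit 41789628144) (nat_lit 168) (nat_lit 12845940687) (nat_lit 0) (nat_lit 27213379841) (nat_lit 2) (nat_lit 5) (nat_lit 4) (nat_lit 4) (nat_lit 2) (nat_lit 4) (nat_lit 414) (nat_lit 255) (nat_lit 192)) (XT.lf (nat_lit 0) (nat_lit 44195588416)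 (nat_lit 168) (nat_lit 10590960927) (nat_lit 0) (nat_lit 29544341181) (nat_lit 2) (nat_lit 5) (nat_lit 4) (nat_lit 4) (nat_lit 2) (nat_lit 4) (nat_lit 415) (nat_lit 255) (nat_lit 191))) (XT.nd (nat_lit 94) (nat_lit 0) (nat_lit 0) (XT.lf (nat_lit 0) (nat_lit 46665114211) (nat_lit 168) (nat_lit 8283907402) (nat_lit 0) (nat_lit 31941123105) (nat_lit 2) (nat_lit 5) (nat_lit 4) (nat_lit 4) (nat_lit 2) (nat_lit 4) (nat_lit 416) (nat_lit 255) (nat_lit 190)) (XT.lf (nat_lit 0) (nat_lit 49200507388) (nat_lit 168) (nat_lit 5922629697) (nat_lit 0) (nat_lit 34405959664) (nat_lit 2) (nat_lit 5) (nat_lit 4) (nat_lit 4) (nat_lit 2) (nat_lit 4) (nat_lit 417) (nat_lit 255) (nat_lit 189))))))))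
noncomputable def xc23 : XT := (XT.nd (nat_lit 49726) (nat_lit 0) (nat_lit 84) (XT.nd (nat_lit 48598) (nat_lit 0) (nat_lit 420) (XT.nd (nat_lit 48034) (nat_lit 0) (nat_lit 756) (XT.nd (nat_lit 47752) (nat_lit 0) (nat_lit 1176) (XT.nd (nat_lit 47564) (nat_lit 0) (nat_lit 1344) (XT.lf (nat_lit 0) (nat_lit 51804131197) (nat_lit 168) (nat_lit 3504926854) (nat_lit 0) (nat_lit 36941148346) (nat_lit 2) (nat_lit 5) (nat_lit 4) (nat_lit 4) (nat_lit 2) (nat_lit 4) (nat_lit 418) (nat_lit 255) (nat_lit 188)) (XT.nd (nat_lit 94) (nat_lit 0) (nat_lit 0) (XT.lf (nat_lit 0) (nat_lit 633670941) (nat_lit 252) (nat_lit 5559561336) (nat_lit 0) (nat_lit 633670941) (nat_lit 18) (nat_lit 5) (nat_lit 21) (nat_lit 4) (nat_lit 18) (nat_lit 4) (nat_lit 349) (nat_lit 256) (nat_lit 256)) (XT.lf (nat_lit 0) (nat_lit 3888072660) (nat_lit 252) (nat_lit 6787503873) (nat_lit 0) (nat_lit 3290150957) (nat_lit 18) (nat_lit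 5) (nat_lit 21) (nat_lit 4) (nat_lit 18) (nat_lit 4) (nat_lit 350) (nat_lit 256) (nat_lit 255)))) (XT.nd (nat_lit 94) (nat_lit 168) (nat_lit 0) (XT.lf (nat_lit 0) (nat_lit 6526267825) (nat_lit 252) (nat_lit 2414868283) (nat_lit 0) (nat_lit 5348402667) (nat_lit 18) (nat_lit 5) (nat_lit 21) (nat_lit 4) (nat_lit 18) (nat_lit 4) (nat_lit 351) (nat_lit 256) (nat_lit 254)) (XT.nd (nat_lit 94) (nat_lit 0) (nat_lit 0) (XT.lf (nat_lit 0) (nat_lit 2044042758) (nat_lit 168) (nat_lit 7160620852) (nat_lit 168) (nat_lit 5420249918) (nat_lit 16) (nat_lit 4) (nat_lit 18) (nat_lit 5) (nat_lit 18) (nat_lit 4) (nat_lit 352) (nat_lit 256) (nat_lit 253)) (XT.lf (nat_lit 0) (nat_lit 6602830639) (nat_lit 168) (nat_lit 5327576446) (nat_lit 168) (nat_lit 3041613101) (nat_lit 16) (nat_lit 4) (nat_lit 18) (nat_lit 5) (nat_lit 18) (nat_lit 4) (nat_lit 353) (nat_lit 256) (nat_lit 252))))) (XT.nd (nat_lit 282)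 (nat_lit 168) (nat_lit 0) (XT.nd (nat_lit 94) (nat_lit 252) (nat_lit 0) (XT.lf (nat_lit 0) (nat_lit 11216089984) (nat_lit 168) (nat_lit 3465500574) (nat_lit 168) (nat_lit 650349632) (nat_lit 16) (nat_lit 4) (nat_lit 18) (nat_lit 5) (nat_lit 18) (nat_lit 4) (nat_lit 354) (nat_lit 256) (nat_lit 251)) (XT.nd (nat_lit 94) (nat_lit 0) (nat_lit 0) (XT.lf (nat_lit 0) (nat_lit 169101378) (nat_lit 168) (nat_lit 1552970684) (nat_lit 252) (nat_lit 13982345015) (nat_lit 13) (nat_lit 5) (nat_lit 15) (nat_lit 5) (nat_lit 16) (nat_lit 4) (nat_lit 355) (nat_lit 256) (nat_lit 250)) (XT.lf (nat_lit 0) (nat_lit 4144637132) (nat_lit 252) (nat_lit 11510691746) (nat_lit 0) (nat_lit 433415125) (nat_lit 13) (nat_lit 5) (nat_lit 16) (nat_lit 4) (nat_lit 13) (nat_lit 4) (nat_lit 356) (nat_lit 256) (nat_lit 249)))) (XT.nd (nat_lit 94) (nat_lit 168) (nat_lit 0) (XT.lf (nat_lit 0) (nat_lit 6602464441) (nat_lit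 252) (nat_lit 7461064657) (nat_lit 0) (nat_lit 2422887613) (nat_lit 13) (nat_lit 5) (nat_lit 16) (nat_lit 4) (nat_lit 13) (nat_lit 4) (nat_lit 357) (nat_lit 256) (nat_lit 248)) (XT.nd (nat_lit 94) (nat_lit 168) (nat_lit 0) (XT.lf (nat_lit 0) (nat_lit 9082439280) (nat_lit 252) (nat_lit 3367254094) (nat_lit 0) (nat_lit 4448590075) (nat_lit 13) (nat_lit 5) (nat_lit 16) (nat_lit 4) (nat_lit 13) (nat_lit 4) (nat_lit 358) (nat_lit 256) (nat_lit 247)) (XT.lf (nat_lit 0) (nat_lit 790482259) (nat_lit 168) (nat_lit 10804232668) (nat_lit 168) (nat_lit 5729770100) (nat_lit 11) (nat_lit 4) (nat_lit 13) (nat_lit 5) (nat_lit 13) (nat_lit 4) (nat_lit 359) (nat_lit 256) (nat_lit 246)))))) (XT.nd (nat_lit 564) (nat_lit 168) (nat_lit 0) (XT.nd (nat_lit 282) (nat_lit 84) (nat_lit 0) (XT.nd (nat_lit 94) (nat_lit 84) (nat_lit 0) (XT.lf (nat_lit 0) (nat_lit 5070382544) (nat_lit 168) (nat_lit 9098017010)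 (nat_lit 168) (nat_lit 3596189395) (nat_lit 11) (nat_lit 4) (nat_lit 13) (nat_lit 5) (nat_lit 13) (nat_lit 4) (nat_lit 360) (nat_lit 256) (nat_lit 245)) (XT.nd (nat_lit 94) (nat_lit 84) (nat_lit 0) (XT.lf (nat_lit 0) (nat_lit 9407198426) (nat_lit 168) (nat_lit 7364603255) (nat_lit 168) (nat_lit 1448260561) (nat_lit 11) (nat_lit 4) (nat_lit 13) (nat_lit 5) (nat_lit 13) (nat_lit 4) (nat_lit 361) (nat_lit 256) (nat_lit 244)) (XT.lf (nat_lit 0) (nat_lit 701592319) (nat_lit 252) (nat_lit 4893460175) (nat_lit 84) (nat_lit 13096056768) (nat_lit 10) (nat_lit 5) (nat_lit 13) (nat_lit 5) (nat_lit 11) (nat_lit 4) (nat_lit 362) (nat_lit 256) (nat_lit 243)))) (XT.nd (nat_lit 94) (nat_lit 84) (nat_lit 0) (XT.lf (nat_lit 0) (nat_lit 2840263471) (nat_lit 252) (nat_lit 939781707) (nat_lit 84) (nat_lit 15397893271) (nat_lit 10) (nat_lit 5) (nat_lit 13) (nat_lit 5) (nat_lit 11) (nat_lit 4) (nat_lit 363)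 (nat_lit 256) (nat_lit 242)) (XT.nd (nat_lit 94) (nat_lit 0) (nat_lit 0) (XT.lf (nat_lit 0) (nat_lit 3129271603) (nat_lit 84) (nat_lit 1900696740) (nat_lit 168) (nat_lit 14650518284) (nat_lit 9) (nat_lit 5) (nat_lit 10) (nat_lit 5) (nat_lit 11) (nat_lit 4) (nat_lit 364) (nat_lit 256) (nat_lit 241)) (XT.lf (nat_lit 0) (nat_lit 7251987484) (nat_lit 168) (nat_lit 12925239608) (nat_lit 0) (nat_lit 22638707) (nat_lit 9) (nat_lit 5) (nat_lit 11) (nat_lit 4) (nat_lit 9) (nat_lit 4) (nat_lit 365) (nat_lit 256) (nat_lit 240))))) (XT.nd (nat_lit 282) (nat_lit 168) (nat_lit 0) (XT.nd (nat_lit 94) (nat_lit 0) (nat_lit 0) (XT.lf (nat_lit 0) (nat_lit 9517864791) (nat_lit 168) (nat_lit 9275020096) (nat_lit 0) (nat_lit 1943381539) (nat_lit 9) (nat_lit 5) (nat_lit 11) (nat_lit 4) (nat_lit 9) (nat_lit 4) (nat_lit 366) (nat_lit 256) (nat_lit 239)) (XT.nd (nat_lit 94) (nat_lit 0) (nat_lit 0) (XT.lf (nat_lit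 0) (nat_lit 11810857152) (nat_lit 168) (nat_lit 5578298955) (nat_lit 0) (nat_lit 3901616893) (nat_lit 9) (nat_lit 5) (nat_lit 11) (nat_lit 4) (nat_lit 9) (nat_lit 4) (nat_lit 367) (nat_lit 256) (nat_lit 238)) (XT.lf (nat_lit 0) (nat_lit 14133101877) (nat_lit 168) (nat_lit 1831630452) (nat_lit 0) (nat_lit 5899170049) (nat_lit 9) (nat_lit 5) (nat_lit 11) (nat_lit 4) (nat_lit 9) (nat_lit 4) (nat_lit 368) (nat_lit 256) (nat_lit 237)))) (XT.nd (nat_lit 94) (nat_lit 0) (nat_lit 0) (XT.lf (nat_lit 0) (nat_lit 2008953636) (nat_lit 168) (nat_lit 14497738972) (nat_lit 168) (nat_lit 5948878368) (nat_lit 7) (nat_lit 4) (nat_lit 9) (nat_lit 5) (nat_lit 9) (nat_lit 4) (nat_lit 369) (nat_lit 256) (nat_lit 236)) (XT.nd (nat_lit 94) (nat_lit 0) (nat_lit 0) (XT.lf (nat_lit 0) (nat_lit 5945353213) (nat_lit 168) (nat_lit 12987661427) (nat_lit 168) (nat_lit 4133341291) (nat_lit 7) (nat_lit 4) (nat_lit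 9) (nat_lit 5) (nat_lit 9) (nat_lit 4) (nat_lit 370) (nat_lit 256) (nat_lit 235)) (XT.lf (nat_lit 0) (nat_lit 9943575336) (nat_lit 168) (nat_lit 11452210610) (nat_lit 168) (nat_lit 2301615468) (nat_lit 7) (nat_lit 4) (nat_lit 9) (nat_lit 5) (nat_lit 9) (nat_lit 4) (nat_lit 371) (nat_lit 256) (nat_lit 234))))))) (XT.nd (nat_lit 1128) (nat_lit 168) (nat_lit 0) (XT.nd (nat_lit 564) (nat_lit 0) (nat_lit 0) (XT.nd (nat_lit 282) (nat_lit 84) (nat_lit 0) (XT.nd (nat_lit 94) (nat_lit 84) (nat_lit 0) (XT.lf (nat_lit 0) (nat_lit 14007346767) (nat_lit 168) (nat_lit 9889955319) (nat_lit 168) (nat_lit 451993537) (nat_lit 7) (nat_lit 4) (nat_lit 9) (nat_lit 5) (nat_lit 9) (nat_lit 4) (nat_lit 372) (nat_lit 256) (nat_lit 233)) (XT.nd (nat_lit 94) (nat_lit 0) (nat_lit 0) (XT.lf (nat_lit 0) (nat_lit 1388694142) (nat_lit 252) (nat_lit 6896250107) (nat_lit 84) (nat_lit 16737266103) (nat_lit 6) (nat_lit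 5) (nat_lit 9) (nat_lit 5) (nat_lit 7) (nat_lit 4) (nat_lit 373) (nat_lit 256) (nat_lit 232)) (XT.lf (nat_lit 0) (nat_lit 3241207232) (nat_lit 252) (nat_lit 3404141443) (nat_lit 84) (nat_lit 19071714833) (nat_lit 6) (nat_lit 5) (nat_lit 9) (nat_lit 5) (nat_lit 7) (nat_lit 4) (nat_lit 374) (nat_lit 256) (nat_lit 231)))) (XT.nd (nat_lit 94) (nat_lit 0) (nat_lit 0) (XT.lf (nat_lit 0) (nat_lit 145038173) (nat_lit 84) (nat_lit 4972779754) (nat_lit 168) (nat_lit 21316779235) (nat_lit 5) (nat_lit 5) (nat_lit 6) (nat_lit 5) (nat_lit 7) (nat_lit 4) (nat_lit 375) (nat_lit 256) (nat_lit 230)) (XT.nd (nat_lit 94) (nat_lit 0) (nat_lit 0) (XT.lf (nat_lit 0) (nat_lit 3822849538) (nat_lit 84) (nat_lit 3231031296) (nat_lit 168) (nat_lit 20120557526) (nat_lit 5) (nat_lit 5) (nat_lit 6) (nat_lit 5) (nat_lit 7) (nat_lit 4) (nat_lit 376) (nat_lit 256) (nat_lit 229)) (XT.lf (nat_lit 0) (nat_lit 7562724627)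 (nat_lit 84) (nat_lit 1454012066) (nat_lit 168) (nat_lit 18921608402) (nat_lit 5) (nat_lit 5) (nat_lit 6) (nat_lit 5) (nat_lit 7) (nat_lit 4) (nat_lit 377) (nat_lit 256) (nat_lit 228))))) (XT.nd (nat_lit 282) (nat_lit 0) (nat_lit 0) (XT.nd (nat_lit 94) (nat_lit 0) (nat_lit 0) (XT.lf (nat_lit 0) (nat_lit 11011785683) (nat_lit 168) (nat_lit 17362450605) (nat_lit 0) (nat_lit 352682430) (nat_lit 5) (nat_lit 5) (nat_lit 7) (nat_lit 4) (nat_lit 5) (nat_lit 4) (nat_lit 378) (nat_lit 256) (nat_lit 227)) (XT.nd (nat_lit 94) (nat_lit 0) (nat_lit 0) (XT.lf (nat_lit 0) (nat_lit 13052120552) (nat_lit 168) (nat_lit 14320503795) (nat_lit 0) (nat_lit 2167921687) (nat_lit 5) (nat_lit 5) (nat_lit 7) (nat_lit 4) (nat_lit 5) (nat_lit 4) (nat_lit 379) (nat_lit 256) (nat_lit 226)) (XT.lf (nat_lit 0) (nat_lit 15125219126) (nat_lit 168) (nat_lit 11232520647) (nat_lit 0) (nat_lit 4022692801) (nat_lit 5) (nat_lit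 5) (nat_lit 7) (nat_lit 4) (nat_lit 5) (nat_lit 4) (nat_lit 380) (nat_lit 256) (nat_lit 225)))) (XT.nd (nat_lit 94) (nat_lit 0) (nat_lit 0) (XT.lf (nat_lit 0) (nat_lit 17233013750) (nat_lit 168) (nat_lit 8095622836) (nat_lit 0) (nat_lit 5918724613) (nat_lit 5) (nat_lit 5) (nat_lit 7) (nat_lit 4) (nat_lit 5) (nat_lit 4) (nat_lit 381) (nat_lit 256) (nat_lit 224)) (XT.nd (nat_lit 94) (nat_lit 0) (nat_lit 0) (XT.lf (nat_lit 0) (nat_lit 19377469111) (nat_lit 168) (nat_lit 4906886445) (nat_lit 0) (nat_lit 7857784422) (nat_lit 5) (nat_lit 5) (nat_lit 7) (nat_lit 4) (nat_lit 5) (nat_lit 4) (nat_lit 382) (nat_lit 256) (nat_lit 223)) (XT.lf (nat_lit 0) (nat_lit 21560584063) (nat_lit 168) (nat_lit 1663339238) (nat_lit 0) (nat_lit 9841679635) (nat_lit 5) (nat_lit 5) (nat_lit 7) (nat_lit 4) (nat_lit 5) (nat_lit 4) (nat_lit 383) (nat_lit 256) (nat_lit 222)))))) (XT.nd (nat_lit 564) (nat_lit 84)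 (nat_lit 0) (XT.nd (nat_lit 282) (nat_lit 0) (nat_lit 0) (XT.nd (nat_lit 94) (nat_lit 0) (nat_lit 0) (XT.lf (nat_lit 0) (nat_lit 1671723616) (nat_lit 84) (nat_lit 22129253590) (nat_lit 84) (nat_lit 10217119541) (nat_lit 4) (nat_lit 4) (nat_lit 5) (nat_lit 5) (nat_lit 5) (nat_lit 4) (nat_lit 384) (nat_lit 256) (nat_lit 221)) (XT.nd (nat_lit 94) (nat_lit 0) (nat_lit 0) (XT.lf (nat_lit 0) (nat_lit 5103151975) (nat_lit 84) (nat_lit 20998442170) (nat_lit 84) (nat_lit 8898888509) (nat_lit 4) (nat_lit 4) (nat_lit 5) (nat_lit 5) (nat_lit 5) (nat_lit 4) (nat_lit 385) (nat_lit 256) (nat_lit 220)) (XT.lf (nat_lit 0) (nat_lit 8599942622) (nat_lit 84) (nat_lit 19847796859) (nat_lit 84) (nat_lit 7566458898) (nat_lit 4) (nat_lit 4) (nat_lit 5) (nat_lit 5) (nat_lit 5) (nat_lit 4) (nat_lit 386) (nat_lit 256) (nat_lit 219)))) (XT.nd (nat_lit 94) (nat_lit 0) (nat_lit 0) (XT.lf (nat_lit 0) (nat_lit 12165354933)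 (nat_lit 84) (nat_lit 18676245134) (nat_lit 84) (nat_lit 6218588745) (nat_lit 4) (nat_lit 4) (nat_lit 5) (nat_lit 5) (nat_lit 5) (nat_lit 4) (nat_lit 387) (nat_lit 256) (nat_lit 218)) (XT.nd (nat_lit 94) (nat_lit 0) (nat_lit 0) (XT.lf (nat_lit 0) (nat_lit 15802712246) (nat_lit 84) (nat_lit 17482694986) (nat_lit 84) (nat_lit 4854021692) (nat_lit 4) (nat_lit 4) (nat_lit 5) (nat_lit 5) (nat_lit 5) (nat_lit 4) (nat_lit 388) (nat_lit 256) (nat_lit 217)) (XT.lf (nat_lit 0) (nat_lit 19515404959) (nat_lit 84) (nat_lit 16266033901) (nat_lit 84) (nat_lit 3471485822) (nat_lit 4) (nat_lit 4) (nat_lit 5) (nat_lit 5) (nat_lit 5) (nat_lit 4) (nat_lit 389) (nat_lit 256) (nat_lit 216))))) (XT.nd (nat_lit 282) (nat_lit 0) (nat_lit 0) (XT.nd (nat_lit 94) (nat_lit 84) (nat_lit 0) (XT.lf (nat_lit 0) (nat_lit 23306893690) (nat_lit 84) (nat_lit 15025127825) (nat_lit 84) (nat_lit 2069692465) (nat_lit 4) (nat_lit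 4) (nat_lit 5) (nat_lit 5) (nat_lit 5) (nat_lit 4) (nat_lit 390) (nat_lit 256) (nat_lit 215)) (XT.nd (nat_lit 94) (nat_lit 84) (nat_lit 0) (XT.lf (nat_lit 0) (nat_lit 27180712504) (nat_lit 84) (nat_lit 13758820102) (nat_lit 84) (nat_lit 647335004) (nat_lit 4) (nat_lit 4) (nat_lit 5) (nat_lit 5) (nat_lit 5) (nat_lit 4) (nat_lit 391) (nat_lit 256) (nat_lit 214)) (XT.lf (nat_lit 0) (nat_lit 780856340) (nat_lit 168) (nat_lit 11676923521) (nat_lit 84) (nat_lit 30351465327) (nat_lit 3) (nat_lit 5) (nat_lit 5) (nat_lit 5) (nat_lit 4) (nat_lit 4) (nat_lit 392) (nat_lit 256) (nat_lit 213)))) (XT.nd (nat_lit 188) (nat_lit 0) (nat_lit 0) (XT.nd (nat_lit 94) (nat_lit 0) (nat_lit 0) (XT.lf (nat_lit 0) (nat_lit 2218773252) (nat_lit 168) (nat_lit 8903320918) (nat_lit 84) (nat_lit 32947931012) (nat_lit 3) (nat_lit 5) (nat_lit 5) (nat_lit 5) (nat_lit 4) (nat_lit 4) (nat_lit 393) (nat_lit 256) (nat_lit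 212)) (XT.lf (nat_lit 0) (nat_lit 3680798379) (nat_lit 168) (nat_lit 6076340363) (nat_lit 84) (nat_lit 35613443097) (nat_lit 3) (nat_lit 5) (nat_lit 5) (nat_lit 5) (nat_lit 4) (nat_lit 4) (nat_lit 394) (nat_lit 256) (nat_lit 211))) (XT.nd (nat_lit 94) (nat_lit 0) (nat_lit 0) (XT.lf (nat_lit 0) (nat_lit 5168294481) (nat_lit 168) (nat_lit 3193346816) (nat_lit 84) (nat_lit 38350486120) (nat_lit 3) (nat_lit 5) (nat_lit 5) (nat_lit 5) (nat_lit 4) (nat_lit 4) (nat_lit 395) (nat_lit 256) (nat_lit 210)) (XT.lf (nat_lit 0) (nat_lit 6682648060) (nat_lit 168) (nat_lit 251653024) (nat_lit 84) (nat_lit 41161611291) (nat_lit 3) (nat_lit 5) (nat_lit 5) (nat_lit 5) (nat_lit 4) (nat_lit 4) (nat_lit 396) (nat_lit 256) (nat_lit 209))))))))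
noncomputable def xc24 : XT := (XT.nd (nat_lit 49538) (nat_lit 0) (nat_lit 420) (XT.nd (nat_lit 1128) (nat_lit 0) (nat_lit 0) (XT.nd (nat_lit 564) (nat_lit 0) (nat_lit 0) (XT.nd (nat_lit 282) (nat_lit 0) (nat_lit 0) (XT.nd (nat_lit 94) (nat_lit 0) (nat_lit 0) (XT.lf (nat_lit 0) (nat_lit 2808059111) (nat_lit 84) (nat_lit 5445067836) (nat_lit 168) (nat_lit 41269236055) (nat_lit 2) (nat_lit 5) (nat_lit 3) (nat_lit 5) (nat_lit 4) (nat_lit 4) (nat_lit 397) (nat_lit 256) (nat_lit 208)) (XT.nd (nat_lit 94) (nat_lit 0) (nat_lit 0) (XT.lf (nat_lit 0) (nat_lit 5938508135) (nat_lit 84) (nat_lit 3918002746) (nat_lit 168) (nat_lit 41137063224) (nat_lit 2) (nat_lit 5) (nat_lit 3) (nat_lit 5) (nat_lit 4) (nat_lit 4) (nat_lit 398) (nat_lit 256) (nat_lit 207)) (XT.lf (nat_lit 0) (nat_lit 9137437450) (nat_lit 84) (nat_lit 2354309174) (nat_lit 168) (nat_lit 41019249366) (nat_lit 2) (nat_lit 5) (nat_lit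 3) (nat_lit 5) (nat_lit 4) (nat_lit 4) (nat_lit 399) (nat_lit 256) (nat_lit 206)))) (XT.nd (nat_lit 94) (nat_lit 0) (nat_lit 0) (XT.lf (nat_lit 0) (nat_lit 12407828793) (nat_lit 84) (nat_lit 752529592) (nat_lit 168) (nat_lit 40915684665) (nat_lit 2) (nat_lit 5) (nat_lit 3) (nat_lit 5) (nat_lit 4) (nat_lit 4) (nat_lit 400) (nat_lit 256) (nat_lit 205)) (XT.nd (nat_lit 94) (nat_lit 0) (nat_lit 0) (XT.lf (nat_lit 0) (nat_lit 14872718781) (nat_lit 168) (nat_lit 39946260858) (nat_lit 0) (nat_lit 870921100) (nat_lit 2) (nat_lit 5) (nat_lit 4) (nat_lit 4) (nat_lit 2) (nat_lit 4) (nat_lit 401) (nat_lit 256) (nat_lit 204)) (XT.lf (nat_lit 0) (nat_lit 16629471391) (nat_lit 168) (nat_lit 38205140780) (nat_lit 0) (nat_lit 2519490699) (nat_lit 2) (nat_lit 5) (nat_lit 4) (nat_lit 4) (nat_lit 2) (nat_lit 4) (nat_lit 402) (nat_lit 256) (nat_lit 203))))) (XT.nd (nat_lit 282) (nat_lit 0) (nat_lit 0)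 (XT.nd (nat_lit 94) (nat_lit 0) (nat_lit 0) (XT.lf (nat_lit 0) (nat_lit 18424788504) (nat_lit 168) (nat_lit 36435765930) (nat_lit 0) (nat_lit 4209877638) (nat_lit 2) (nat_lit 5) (nat_lit 4) (nat_lit 4) (nat_lit 2) (nat_lit 4) (nat_lit 403) (nat_lit 256) (nat_lit 202)) (XT.nd (nat_lit 94) (nat_lit 0) (nat_lit 0) (XT.lf (nat_lit 0) (nat_lit 20260343545) (nat_lit 168) (nat_lit 34636487067) (nat_lit 0) (nat_lit 5943657533) (nat_lit 2) (nat_lit 5) (nat_lit 4) (nat_lit 4) (nat_lit 2) (nat_lit 4) (nat_lit 404) (nat_lit 256) (nat_lit 201)) (XT.lf (nat_lit 0) (nat_lit 22137847443) (nat_lit 168) (nat_lit 32805627073) (nat_lit 0) (nat_lit 7722446451) (nat_lit 2) (nat_lit 5) (nat_lit 4) (nat_lit 4) (nat_lit 2) (nat_lit 4) (nat_lit 405) (nat_lit 256) (nat_lit 200)))) (XT.nd (nat_lit 94) (nat_lit 0) (nat_lit 0) (XT.lf (nat_lit 0) (nat_lit 24059050229) (nat_lit 168) (nat_lit 30941479396) (nat_lit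 0) (nat_lit 9547902407) (nat_lit 2) (nat_lit 5) (nat_lit 4) (nat_lit 4) (nat_lit 2) (nat_lit 4) (nat_lit 406) (nat_lit 256) (nat_lit 199)) (XT.nd (nat_lit 94) (nat_lit 0) (nat_lit 0) (XT.lf (nat_lit 0) (nat_lit 26025742664) (nat_lit 168) (nat_lit 29042306453) (nat_lit 0) (nat_lit 11421726920) (nat_lit 2) (nat_lit 5) (nat_lit 4) (nat_lit 4) (nat_lit 2) (nat_lit 4) (nat_lit 407) (nat_lit 256) (nat_lit 198)) (XT.lf (nat_lit 0) (nat_lit 28039757913) (nat_lit 168) (nat_lit 27106338019) (nat_lit 0) (nat_lit 13345666588) (nat_lit 2) (nat_lit 5) (nat_lit 4) (nat_lit 4) (nat_lit 2) (nat_lit 4) (nat_lit 408) (nat_lit 256) (nat_lit 197)))))) (XT.nd (nat_lit 564) (nat_lit 0) (nat_lit 0) (XT.nd (nat_lit 282) (nat_lit 0) (nat_lit 0) (XT.nd (nat_lit 94) (nat_lit 0) (nat_lit 0) (XT.lf (nat_lit 0) (nat_lit 30102973249) (nat_lit 168) (nat_lit 25131769566) (nat_lit 0) (nat_lit 15321514726) (nat_lit 2)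 (nat_lit 5) (nat_lit 4) (nat_lit 4) (nat_lit 2) (nat_lit 4) (nat_lit 409) (nat_lit 256) (nat_lit 196)) (XT.nd (nat_lit 94) (nat_lit 0) (nat_lit 0) (XT.lf (nat_lit 0) (nat_lit 32217311803) (nat_lit 168) (nat_lit 23116760590) (nat_lit 0) (nat_lit 17351113031) (nat_lit 2) (nat_lit 5) (nat_lit 4) (nat_lit 4) (nat_lit 2) (nat_lit 4) (nat_lit 410) (nat_lit 256) (nat_lit 195)) (XT.lf (nat_lit 0) (nat_lit 34384744362) (nat_lit 168) (nat_lit 21059432892) (nat_lit 0) (nat_lit 19436353301) (nat_lit 2) (nat_lit 5) (nat_lit 4) (nat_lit 4) (nat_lit 2) (nat_lit 4) (nat_lit 411) (nat_lit 256) (nat_lit 194)))) (XT.nd (nat_lit 94) (nat_lit 0) (nat_lit 0) (XT.lf (nat_lit 0) (nat_lit 36607291199) (nat_lit 168) (nat_lit 18957868828) (nat_lit 0) (nat_lit 21579179199) (nat_lit 2) (nat_lit 5) (nat_lit 4) (nat_lit 4) (nat_lit 2) (nat_lit 4) (nat_lit 412) (nat_lit 256) (nat_lit 193)) (XT.nd (nat_lit 94) (nat_lit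 0) (nat_lit 0) (XT.lf (nat_lit 0) (nat_lit 38887023961) (nat_lit 168) (nat_lit 16810109518) (nat_lit 0) (nat_lit 23781588062) (nat_lit 2) (nat_lit 5) (nat_lit 4) (nat_lit 4) (nat_lit 2) (nat_lit 4) (nat_lit 413) (nat_lit 256) (nat_lit 192)) (XT.lf (nat_lit 0) (nat_lit 41226067598) (nat_lit 168) (nat_lit 14614153026) (nat_lit 0) (nat_lit 26045632767) (nat_lit 2) (nat_lit 5) (nat_lit 4) (nat_lit 4) (nat_lit 2) (nat_lit 4) (nat_lit 414) (nat_lit 256) (nat_lit 191))))) (XT.nd (nat_lit 282) (nat_lit 0) (nat_lit 0) (XT.nd (nat_lit 94) (nat_lit 0) (nat_lit 0) (XT.lf (nat_lit 0) (nat_lit 43626602343) (nat_lit 168) (nat_lit 12367952492) (nat_lit 0) (nat_lit 28373423640) (nat_lit 2) (nat_lit 5) (nat_lit 4) (nat_lit 4) (nat_lit 2) (nat_lit 4) (nat_lit 415) (nat_lit 256) (nat_lit 190)) (XT.nd (nat_lit 94) (nat_lit 0) (nat_lit 0) (XT.lf (nat_lit 0) (nat_lit 46090865746) (nat_lit 168) (nat_lit 10069414220)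 (nat_lit 0) (nat_lit 30767130427) (nat_lit 2) (nat_lit 5) (nat_lit 4) (nat_lit 4) (nat_lit 2) (nat_lit 4) (nat_lit 416) (nat_lit 256) (nat_lit 189)) (XT.lf (nat_lit 0) (nat_lit 48621154759) (nat_lit 168) (nat_lit 7716395733) (nat_lit 0) (nat_lit 33228984312) (nat_lit 2) (nat_lit 5) (nat_lit 4) (nat_lit 4) (nat_lit 2) (nat_lit 4) (nat_lit 417) (nat_lit 256) (nat_lit 188)))) (XT.nd (nat_lit 47376) (nat_lit 0) (nat_lit 1596) (XT.lf (nat_lit 0) (nat_lit 51219827877) (nat_lit 168) (nat_lit 5306703770) (nat_lit 0) (nat_lit 35761280002) (nat_lit 2) (nat_lit 5) (nat_lit 4) (nat_lit 4) (nat_lit 2) (nat_lit 4) (nat_lit 418) (nat_lit 256) (nat_lit 187)) (XT.nd (nat_lit 94) (nat_lit 0) (nat_lit 0) (XT.lf (nat_lit 0) (nat_lit 3281208253) (nat_lit 252) (nat_lit 1624211581) (nat_lit 252) (nat_lit 1624211581) (nat_lit 21) (nat_lit 4) (nat_lit 24) (nat_lit 5) (nat_lit 24) (nat_lit 4) (nat_lit 347)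 (nat_lit 257) (nat_lit 257)) (XT.lf (nat_lit 0) (nat_lit 11312792223) (nat_lit 252) (nat_lit 1337493160) (nat_lit 252) (nat_lit 701925709) (nat_lit 21) (nat_lit 4) (nat_lit 24) (nat_lit 5) (nat_lit 24) (nat_lit 4) (nat_lit 348) (nat_lit 257) (nat_lit 256))))))) (XT.nd (nat_lit 1128) (nat_lit 336) (nat_lit 0) (XT.nd (nat_lit 564) (nat_lit 420) (nat_lit 0) (XT.nd (nat_lit 282) (nat_lit 168) (nat_lit 0) (XT.nd (nat_lit 94) (nat_lit 0) (nat_lit 0) (XT.lf (nat_lit 0) (nat_lit 1851423288) (nat_lit 252) (nat_lit 11166466127) (nat_lit 0) (nat_lit 637044310) (nat_lit 18) (nat_lit 5) (nat_lit 21) (nat_lit 4) (nat_lit 18) (nat_lit 4) (nat_lit 349) (nat_lit 257) (nat_lit 255)) (XT.nd (nat_lit 94) (nat_lit 0) (nat_lit 0) (XT.lf (nat_lit 0) (nat_lit 4440751669) (nat_lit 252) (nat_lit 6880767265) (nat_lit 0) (nat_lit 2646429236) (nat_lit 18) (nat_lit 5) (nat_lit 21) (nat_lit 4) (nat_lit 18) (nat_lit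 4) (nat_lit 350) (nat_lit 257) (nat_lit 254)) (XT.lf (nat_lit 0) (nat_lit 7048488643) (nat_lit 252) (nat_lit 2552670896) (nat_lit 0) (nat_lit 4691660433) (nat_lit 18) (nat_lit 5) (nat_lit 21) (nat_lit 4) (nat_lit 18) (nat_lit 4) (nat_lit 351) (nat_lit 257) (nat_lit 253)))) (XT.nd (nat_lit 94) (nat_lit 0) (nat_lit 0) (XT.lf (nat_lit 0) (nat_lit 1859318338) (nat_lit 168) (nat_lit 7836191222) (nat_lit 168) (nat_lit 4933770601) (nat_lit 16) (nat_lit 4) (nat_lit 18) (nat_lit 5) (nat_lit 18) (nat_lit 4) (nat_lit 352) (nat_lit 257) (nat_lit 252)) (XT.nd (nat_lit 94) (nat_lit 0) (nat_lit 0) (XT.lf (nat_lit 0) (nat_lit 6375343560) (nat_lit 168) (nat_lit 6016831164) (nat_lit 168) (nat_lit 2585222947) (nat_lit 16) (nat_lit 4) (nat_lit 18) (nat_lit 5) (nat_lit 18) (nat_lit 4) (nat_lit 353) (nat_lit 257) (nat_lit 251)) (XT.lf (nat_lit 0) (nat_lit 10947126029) (nat_lit 168) (nat_lit 4168028179)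 (nat_lit 168) (nat_lit 223143923) (nat_lit 16) (nat_lit 4) (nat_lit 18) (nat_lit 5) (nat_lit 18) (nat_lit 4) (nat_lit 354) (nat_lit 257) (nat_lit 250))))) (XT.nd (nat_lit 282) (nat_lit 168) (nat_lit 0) (XT.nd (nat_lit 94) (nat_lit 168) (nat_lit 0) (XT.lf (nat_lit 0) (nat_lit 2111256413) (nat_lit 252) (nat_lit 154765388) (nat_lit 84) (nat_lit 13445633525) (nat_lit 15) (nat_lit 5) (nat_lit 18) (nat_lit 5) (nat_lit 16) (nat_lit 4) (nat_lit 355) (nat_lit 257) (nat_lit 249)) (XT.nd (nat_lit 94) (nat_lit 0) (nat_lit 0) (XT.lf (nat_lit 0) (nat_lit 4215041314) (nat_lit 168) (nat_lit 285521117) (nat_lit 252) (nat_lit 11596547697) (nat_lit 13) (nat_lit 5) (nat_lit 15) (nat_lit 5) (nat_lit 16) (nat_lit 4) (nat_lit 356) (nat_lit 257) (nat_lit 248)) (XT.lf (nat_lit 0) (nat_lit 6928947234) (nat_lit 252) (nat_lit 7869665925) (nat_lit 0) (nat_lit 1697176326) (nat_lit 13) (nat_lit 5) (nat_lit 16) (nat_lit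 4) (nat_lit 13) (nat_lit 4) (nat_lit 357) (nat_lit 257) (nat_lit 247)))) (XT.nd (nat_lit 94) (nat_lit 168) (nat_lit 0) (XT.lf (nat_lit 0) (nat_lit 9383112081) (nat_lit 252) (nat_lit 3814707550) (nat_lit 0) (nat_lit 3710727810) (nat_lit 13) (nat_lit 5) (nat_lit 16) (nat_lit 4) (nat_lit 13) (nat_lit 4) (nat_lit 358) (nat_lit 257) (nat_lit 246)) (XT.nd (nat_lit 94) (nat_lit 0) (nat_lit 0) (XT.lf (nat_lit 0) (nat_lit 295369398) (nat_lit 168) (nat_lit 11570072809) (nat_lit 168) (nat_lit 5470323492) (nat_lit 11) (nat_lit 4) (nat_lit 13) (nat_lit 5) (nat_lit 13) (nat_lit 4) (nat_lit 359) (nat_lit 257) (nat_lit 245)) (XT.lf (nat_lit 0) (nat_lit 4537967215) (nat_lit 168) (nat_lit 9876508352) (nat_lit 168) (nat_lit 3362243956) (nat_lit 11) (nat_lit 4) (nat_lit 13) (nat_lit 5) (nat_lit 13) (nat_lit 4) (nat_lit 360) (nat_lit 257) (nat_lit 244)))))) (XT.nd (nat_lit 564) (nat_lit 168) (nat_lit 0)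 (XT.nd (nat_lit 282) (nat_lit 84) (nat_lit 0) (XT.nd (nat_lit 94) (nat_lit 84) (nat_lit 0) (XT.lf (nat_lit 0) (nat_lit 8838602236) (nat_lit 168) (nat_lit 8155365402) (nat_lit 168) (nat_lit 1239049524) (nat_lit 11) (nat_lit 4) (nat_lit 13) (nat_lit 5) (nat_lit 13) (nat_lit 4) (nat_lit 361) (nat_lit 257) (nat_lit 243)) (XT.nd (nat_lit 94) (nat_lit 0) (nat_lit 0) (XT.lf (nat_lit 0) (nat_lit 883080889) (nat_lit 252) (nat_lit 5512741233) (nat_lit 84) (nat_lit 12308984661) (nat_lit 10) (nat_lit 5) (nat_lit 13) (nat_lit 5) (nat_lit 11) (nat_lit 4) (nat_lit 362) (nat_lit 257) (nat_lit 242)) (XT.lf (nat_lit 0) (nat_lit 2998951526) (nat_lit 252) (nat_lit 1593645255) (nat_lit 84) (nat_lit 14599821863) (nat_lit 10) (nat_lit 5) (nat_lit 13) (nat_lit 5) (nat_lit 11) (nat_lit 4) (nat_lit 363) (nat_lit 257) (nat_lit 241)))) (XT.nd (nat_lit 94) (nat_lit 0) (nat_lit 0) (XT.lf (nat_lit 0) (nat_lit 2427730905)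 (nat_lit 84) (nat_lit 2731851170) (nat_lit 168) (nat_lit 14536359629) (nat_lit 9) (nat_lit 5) (nat_lit 10) (nat_lit 5) (nat_lit 11) (nat_lit 4) (nat_lit 364) (nat_lit 257) (nat_lit 240)) (XT.nd (nat_lit 94) (nat_lit 0) (nat_lit 0) (XT.lf (nat_lit 0) (nat_lit 6540118717) (nat_lit 84) (nat_lit 819473922) (nat_lit 168) (nat_lit 12856481869) (nat_lit 9) (nat_lit 5) (nat_lit 10) (nat_lit 5) (nat_lit 11) (nat_lit 4) (nat_lit 365) (nat_lit 257) (nat_lit 239)) (XT.lf (nat_lit 0) (nat_lit 9596106226) (nat_lit 168) (nat_lit 10050425892) (nat_lit 0) (nat_lit 1106922512) (nat_lit 9) (nat_lit 5) (nat_lit 11) (nat_lit 4) (nat_lit 9) (nat_lit 4) (nat_lit 366) (nat_lit 257) (nat_lit 238))))) (XT.nd (nat_lit 282) (nat_lit 0) (nat_lit 0) (XT.nd (nat_lit 94) (nat_lit 168) (nat_lit 0) (XT.lf (nat_lit 0) (nat_lit 11868502625) (nat_lit 168) (nat_lit 6385536850) (nat_lit 0) (nat_lit 3054627342) (nat_lit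 9) (nat_lit 5) (nat_lit 11) (nat_lit 4) (nat_lit 9) (nat_lit 4) (nat_lit 367) (nat_lit 257) (nat_lit 237)) (XT.nd (nat_lit 94) (nat_lit 168) (nat_lit 0) (XT.lf (nat_lit 0) (nat_lit 14170770664) (nat_lit 168) (nat_lit 2669743323) (nat_lit 0) (nat_lit 5041966605) (nat_lit 9) (nat_lit 5) (nat_lit 11) (nat_lit 4) (nat_lit 9) (nat_lit 4) (nat_lit 368) (nat_lit 257) (nat_lit 236)) (XT.lf (nat_lit 0) (nat_lit 1123045052) (nat_lit 168) (nat_lit 15393151993) (nat_lit 168) (nat_lit 5958888402) (nat_lit 7) (nat_lit 4) (nat_lit 9) (nat_lit 5) (nat_lit 9) (nat_lit 4) (nat_lit 369) (nat_lit 257) (nat_lit 235)))) (XT.nd (nat_lit 94) (nat_lit 0) (nat_lit 0) (XT.lf (nat_lit 0) (nat_lit 5029801182) (nat_lit 168) (nat_lit 13893630396) (nat_lit 168) (nat_lit 4163091800) (nat_lit 7) (nat_lit 4) (nat_lit 9) (nat_lit 5) (nat_lit 9) (nat_lit 4) (nat_lit 370) (nat_lit 257) (nat_lit 234)) (XT.nd (nat_lit 94)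 (nat_lit 0) (nat_lit 0) (XT.lf (nat_lit 0) (nat_lit 8999271173) (nat_lit 168) (nat_lit 12368418132) (nat_lit 168) (nat_lit 2350512895) (nat_lit 7) (nat_lit 4) (nat_lit 9) (nat_lit 5) (nat_lit 9) (nat_lit 4) (nat_lit 371) (nat_lit 257) (nat_lit 233)) (XT.lf (nat_lit 0) (nat_lit 13035154989) (nat_lit 168) (nat_lit 10816093543) (nat_lit 168) (nat_lit 519462176) (nat_lit 7) (nat_lit 4) (nat_lit 9) (nat_lit 5) (nat_lit 9) (nat_lit 4) (nat_lit 372) (nat_lit 257) (nat_lit 232))))))))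
noncomputable def xc25 : XT := (XT.nd (nat_lit 2256) (nat_lit 84) (nat_lit 0) (XT.nd (nat_lit 1128) (nat_lit 84) (nat_lit 0) (XT.nd (nat_lit 564) (nat_lit 84) (nat_lit 0) (XT.nd (nat_lit 282) (nat_lit 84) (nat_lit 0) (XT.nd (nat_lit 94) (nat_lit 0) (nat_lit 0) (XT.lf (nat_lit 0) (nat_lit 1304934950) (nat_lit 252) (nat_lit 7916653904) (nat_lit 84) (nat_lit 15822658699) (nat_lit 6) (nat_lit 5) (nat_lit 9) (nat_lit 5) (nat_lit 7) (nat_lit 4) (nat_lit 373) (nat_lit 257) (nat_lit 231)) (XT.nd (nat_lit 94) (nat_lit 0) (nat_lit 0) (XT.lf (nat_lit 0) (nat_lit 3140328839) (nat_lit 252) (nat_lit 4451185620) (nat_lit 84) (nat_lit 18148169535) (nat_lit 6) (nat_lit 5) (nat_lit 9) (nat_lit 5) (nat_lit 7) (nat_lit 4) (nat_lit 374) (nat_lit 257) (nat_lit 230)) (XT.lf (nat_lit 0) (nat_lit 4998896274) (nat_lit 252) (nat_lit 930767558) (nat_lit 84) (nat_lit 20528164164) (nat_lit 6) (nat_lit 5) (nat_lit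 9) (nat_lit 5) (nat_lit 7) (nat_lit 4) (nat_lit 375) (nat_lit 257) (nat_lit 229)))) (XT.nd (nat_lit 94) (nat_lit 0) (nat_lit 0) (XT.lf (nat_lit 0) (nat_lit 2702327557) (nat_lit 84) (nat_lit 4206849503) (nat_lit 168) (nat_lit 20289340857) (nat_lit 5) (nat_lit 5) (nat_lit 6) (nat_lit 5) (nat_lit 7) (nat_lit 4) (nat_lit 376) (nat_lit 257) (nat_lit 228)) (XT.nd (nat_lit 94) (nat_lit 0) (nat_lit 0) (XT.lf (nat_lit 0) (nat_lit 6417393956) (nat_lit 84) (nat_lit 2438771905) (nat_lit 168) (nat_lit 19106798656) (nat_lit 5) (nat_lit 5) (nat_lit 6) (nat_lit 5) (nat_lit 7) (nat_lit 4) (nat_lit 377) (nat_lit 257) (nat_lit 227)) (XT.lf (nat_lit 0) (nat_lit 10198755979) (nat_lit 84) (nat_lit 633498311) (nat_lit 168) (nat_lit 17919918172) (nat_lit 5) (nat_lit 5) (nat_lit 6) (nat_lit 5) (nat_lit 7) (nat_lit 4) (nat_lit 378) (nat_lit 257) (nat_lit 226))))) (XT.nd (nat_lit 282) (nat_lit 84) (nat_lit 0)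 (XT.nd (nat_lit 94) (nat_lit 0) (nat_lit 0) (XT.lf (nat_lit 0) (nat_lit 12851294105) (nat_lit 168) (nat_lit 15528948961) (nat_lit 0) (nat_lit 1186262004) (nat_lit 5) (nat_lit 5) (nat_lit 7) (nat_lit 4) (nat_lit 5) (nat_lit 4) (nat_lit 379) (nat_lit 257) (nat_lit 225)) (XT.nd (nat_lit 94) (nat_lit 0) (nat_lit 0) (XT.lf (nat_lit 0) (nat_lit 14909833346) (nat_lit 168) (nat_lit 12464014958) (nat_lit 0) (nat_lit 3033038432) (nat_lit 5) (nat_lit 5) (nat_lit 7) (nat_lit 4) (nat_lit 5) (nat_lit 4) (nat_lit 380) (nat_lit 257) (nat_lit 224)) (XT.lf (nat_lit 0) (nat_lit 17003506406) (nat_lit 168) (nat_lit 9349473254) (nat_lit 0) (nat_lit 4921315941) (nat_lit 5) (nat_lit 5) (nat_lit 7) (nat_lit 4) (nat_lit 5) (nat_lit 4) (nat_lit 381) (nat_lit 257) (nat_lit 223)))) (XT.nd (nat_lit 94) (nat_lit 84) (nat_lit 0) (XT.lf (nat_lit 0) (nat_lit 19134264807) (nat_lit 168) (nat_lit 6182420768) (nat_lit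 0) (nat_lit 6852854603) (nat_lit 5) (nat_lit 5) (nat_lit 7) (nat_lit 4) (nat_lit 5) (nat_lit 4) (nat_lit 382) (nat_lit 257) (nat_lit 222)) (XT.nd (nat_lit 94) (nat_lit 84) (nat_lit 0) (XT.lf (nat_lit 0) (nat_lit 21304094640) (nat_lit 168) (nat_lit 2959905477) (nat_lit 0) (nat_lit 8829454815) (nat_lit 5) (nat_lit 5) (nat_lit 7) (nat_lit 4) (nat_lit 5) (nat_lit 4) (nat_lit 383) (nat_lit 257) (nat_lit 221)) (XT.lf (nat_lit 0) (nat_lit 327678329) (nat_lit 84) (nat_lit 23190590693) (nat_lit 84) (nat_lit 10528531255) (nat_lit 4) (nat_lit 4) (nat_lit 5) (nat_lit 5) (nat_lit 5) (nat_lit 4) (nat_lit 384) (nat_lit 257) (nat_lit 220)))))) (XT.nd (nat_lit 564) (nat_lit 84) (nat_lit 0) (XT.nd (nat_lit 282) (nat_lit 0) (nat_lit 0) (XT.nd (nat_lit 94) (nat_lit 0) (nat_lit 0) (XT.lf (nat_lit 0) (nat_lit 3738913684) (nat_lit 84) (nat_lit 22067273740) (nat_lit 84) (nat_lit 9223430003) (nat_lit 4) (nat_lit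 4) (nat_lit 5) (nat_lit 5) (nat_lit 5) (nat_lit 4) (nat_lit 385) (nat_lit 257) (nat_lit 219)) (XT.nd (nat_lit 94) (nat_lit 0) (nat_lit 0) (XT.lf (nat_lit 0) (nat_lit 7216118489) (nat_lit 84) (nat_lit 20923897553) (nat_lit 84) (nat_lit 7903735387) (nat_lit 4) (nat_lit 4) (nat_lit 5) (nat_lit 5) (nat_lit 5) (nat_lit 4) (nat_lit 386) (nat_lit 257) (nat_lit 218)) (XT.lf (nat_lit 0) (nat_lit 10762533863) (nat_lit 84) (nat_lit 19759396385) (nat_lit 84) (nat_lit 6568217315) (nat_lit 4) (nat_lit 4) (nat_lit 5) (nat_lit 5) (nat_lit 5) (nat_lit 4) (nat_lit 387) (nat_lit 257) (nat_lit 217)))) (XT.nd (nat_lit 94) (nat_lit 0) (nat_lit 0) (XT.lf (nat_lit 0) (nat_lit 14381465436) (nat_lit 84) (nat_lit 18572684798) (nat_lit 84) (nat_lit 5215630942) (nat_lit 4) (nat_lit 4) (nat_lit 5) (nat_lit 5) (nat_lit 5) (nat_lit 4) (nat_lit 388) (nat_lit 257) (nat_lit 216)) (XT.nd (nat_lit 94) (nat_lit 0) (nat_lit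 0) (XT.lf (nat_lit 0) (nat_lit 18076286433) (nat_lit 84) (nat_lit 17362656654) (nat_lit 84) (nat_lit 3844715518) (nat_lit 4) (nat_lit 4) (nat_lit 5) (nat_lit 5) (nat_lit 5) (nat_lit 4) (nat_lit 389) (nat_lit 257) (nat_lit 215)) (XT.lf (nat_lit 0) (nat_lit 21850440812) (nat_lit 84) (nat_lit 16128184079) (nat_lit 84) (nat_lit 2454193205) (nat_lit 4) (nat_lit 4) (nat_lit 5) (nat_lit 5) (nat_lit 5) (nat_lit 4) (nat_lit 390) (nat_lit 257) (nat_lit 214))))) (XT.nd (nat_lit 282) (nat_lit 0) (nat_lit 0) (XT.nd (nat_lit 94) (nat_lit 84) (nat_lit 0) (XT.lf (nat_lit 0) (nat_lit 25707446482) (nat_lit 84) (nat_lit 14868116415) (nat_lit 84) (nat_lit 1042767890) (nat_lit 4) (nat_lit 4) (nat_lit 5) (nat_lit 5) (nat_lit 5) (nat_lit 4) (nat_lit 391) (nat_lit 257) (nat_lit 213)) (XT.nd (nat_lit 94) (nat_lit 0) (nat_lit 0) (XT.lf (nat_lit 0) (nat_lit 383000740) (nat_lit 168) (nat_lit 13194280665) (nat_lit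 84) (nat_lit 29263900093) (nat_lit 3) (nat_lit 5) (nat_lit 5) (nat_lit 5) (nat_lit 4) (nat_lit 4) (nat_lit 392) (nat_lit 257) (nat_lit 212)) (XT.lf (nat_lit 0) (nat_lit 1810840248) (nat_lit 168) (nat_lit 10436731104) (nat_lit 84) (nat_lit 31854731097) (nat_lit 3) (nat_lit 5) (nat_lit 5) (nat_lit 5) (nat_lit 4) (nat_lit 4) (nat_lit 393) (nat_lit 257) (nat_lit 211)))) (XT.nd (nat_lit 94) (nat_lit 0) (nat_lit 0) (XT.lf (nat_lit 0) (nat_lit 3263090976) (nat_lit 168) (nat_lit 7625320911) (nat_lit 84) (nat_lit 34514777926) (nat_lit 3) (nat_lit 5) (nat_lit 5) (nat_lit 5) (nat_lit 4) (nat_lit 4) (nat_lit 394) (nat_lit 257) (nat_lit 210)) (XT.nd (nat_lit 94) (nat_lit 0) (nat_lit 0) (XT.lf (nat_lit 0) (nat_lit 4741106575) (nat_lit 168) (nat_lit 4757429558) (nat_lit 84) (nat_lit 37246520020) (nat_lit 3) (nat_lit 5) (nat_lit 5) (nat_lit 5) (nat_lit 4) (nat_lit 4) (nat_lit 395) (nat_lit 257) (nat_lit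 209)) (XT.lf (nat_lit 0) (nat_lit 6246264710) (nat_lit 168) (nat_lit 1830383868) (nat_lit 84) (nat_lit 40052503650) (nat_lit 3) (nat_lit 5) (nat_lit 5) (nat_lit 5) (nat_lit 4) (nat_lit 4) (nat_lit 396) (nat_lit 257) (nat_lit 208))))))) (XT.nd (nat_lit 1128) (nat_lit 0) (nat_lit 0) (XT.nd (nat_lit 564) (nat_lit 0) (nat_lit 0) (XT.nd (nat_lit 282) (nat_lit 0) (nat_lit 0) (XT.nd (nat_lit 94) (nat_lit 0) (nat_lit 0) (XT.lf (nat_lit 0) (nat_lit 1182366520) (nat_lit 84) (nat_lit 6609331048) (nat_lit 168) (nat_lit 41764706989) (nat_lit 2) (nat_lit 5) (nat_lit 3) (nat_lit 5) (nat_lit 4) (nat_lit 4) (nat_lit 397) (nat_lit 257) (nat_lit 207)) (XT.nd (nat_lit 94) (nat_lit 0) (nat_lit 0) (XT.lf (nat_lit 0) (nat_lit 4298751718) (nat_lit 84) (nat_lit 5087539487) (nat_lit 168) (nat_lit 41641621470) (nat_lit 2) (nat_lit 5) (nat_lit 3) (nat_lit 5) (nat_lit 4) (nat_lit 4) (nat_lit 398) (nat_lit 257)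 (nat_lit 206)) (XT.lf (nat_lit 0) (nat_lit 7484040078) (nat_lit 84) (nat_lit 3528960878) (nat_lit 168) (nat_lit 41532621687) (nat_lit 2) (nat_lit 5) (nat_lit 3) (nat_lit 5) (nat_lit 4) (nat_lit 4) (nat_lit 399) (nat_lit 257) (nat_lit 205)))) (XT.nd (nat_lit 94) (nat_lit 0) (nat_lit 0) (XT.lf (nat_lit 0) (nat_lit 10741200620) (nat_lit 84) (nat_lit 1932142464) (nat_lit 168) (nat_lit 41437606041) (nat_lit 2) (nat_lit 5) (nat_lit 3) (nat_lit 5) (nat_lit 4) (nat_lit 4) (nat_lit 400) (nat_lit 257) (nat_lit 204)) (XT.nd (nat_lit 94) (nat_lit 0) (nat_lit 0) (XT.lf (nat_lit 0) (nat_lit 14073269361) (nat_lit 84) (nat_lit 295595842) (nat_lit 168) (nat_lit 41356485967) (nat_lit 2) (nat_lit 5) (nat_lit 3) (nat_lit 5) (nat_lit 4) (nat_lit 4) (nat_lit 401) (nat_lit 257) (nat_lit 203)) (XT.lf (nat_lit 0) (nat_lit 16114859357) (nat_lit 168) (nat_lit 39920693073) (nat_lit 0) (nat_lit 1354356080) (nat_lit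 2) (nat_lit 5) (nat_lit 4) (nat_lit 4) (nat_lit 2) (nat_lit 4) (nat_lit 402) (nat_lit 257) (nat_lit 202))))) (XT.nd (nat_lit 282) (nat_lit 0) (nat_lit 0) (XT.nd (nat_lit 94) (nat_lit 0) (nat_lit 0) (XT.lf (nat_lit 0) (nat_lit 17902585676) (nat_lit 168) (nat_lit 38163601141) (nat_lit 0) (nat_lit 3040307254) (nat_lit 2) (nat_lit 5) (nat_lit 4) (nat_lit 4) (nat_lit 2) (nat_lit 4) (nat_lit 403) (nat_lit 257) (nat_lit 201)) (XT.nd (nat_lit 94) (nat_lit 0) (nat_lit 0) (XT.lf (nat_lit 0) (nat_lit 19730778162) (nat_lit 168) (nat_lit 36376235874) (nat_lit 0) (nat_lit 4769784759) (nat_lit 2) (nat_lit 5) (nat_lit 4) (nat_lit 4) (nat_lit 2) (nat_lit 4) (nat_lit 404) (nat_lit 257) (nat_lit 200)) (XT.lf (nat_lit 0) (nat_lit 21601140882) (nat_lit 168) (nat_lit 34556931260) (nat_lit 0) (nat_lit 6544400650) (nat_lit 2) (nat_lit 5) (nat_lit 4) (nat_lit 4) (nat_lit 2) (nat_lit 4) (nat_lit 405) (nat_lit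 257) (nat_lit 199)))) (XT.nd (nat_lit 94) (nat_lit 0) (nat_lit 0) (XT.lf (nat_lit 0) (nat_lit 23515417210) (nat_lit 168) (nat_lit 32703991516) (nat_lit 0) (nat_lit 8365809054) (nat_lit 2) (nat_lit 5) (nat_lit 4) (nat_lit 4) (nat_lit 2) (nat_lit 4) (nat_lit 406) (nat_lit 257) (nat_lit 198)) (XT.nd (nat_lit 94) (nat_lit 0) (nat_lit 0) (XT.lf (nat_lit 0) (nat_lit 25475391451) (nat_lit 168) (nat_lit 30815689509) (nat_lit 0) (nat_lit 10235707715) (nat_lit 2) (nat_lit 5) (nat_lit 4) (nat_lit 4) (nat_lit 2) (nat_lit 4) (nat_lit 407) (nat_lit 257) (nat_lit 197)) (XT.lf (nat_lit 0) (nat_lit 27482890508) (nat_lit 168) (nat_lit 28890265143) (nat_lit 0) (nat_lit 12155839574) (nat_lit 2) (nat_lit 5) (nat_lit 4) (nat_lit 4) (nat_lit 2) (nat_lit 4) (nat_lit 408) (nat_lit 257) (nat_lit 196)))))) (XT.nd (nat_lit 564) (nat_lit 0) (nat_lit 0) (XT.nd (nat_lit 282) (nat_lit 0) (nat_lit 0) (XT.nd (nat_lit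 94) (nat_lit 0) (nat_lit 0) (XT.lf (nat_lit 0) (nat_lit 29539785580) (nat_lit 168) (nat_lit 26925923721) (nat_lit 0) (nat_lit 14127994396) (nat_lit 2) (nat_lit 5) (nat_lit 4) (nat_lit 4) (nat_lit 2) (nat_lit 4) (nat_lit 409) (nat_lit 257) (nat_lit 195)) (XT.nd (nat_lit 94) (nat_lit 0) (nat_lit 0) (XT.lf (nat_lit 0) (nat_lit 31647993907) (nat_lit 168) (nat_lit 24920834271) (nat_lit 0) (nat_lit 16154010435) (nat_lit 2) (nat_lit 5) (nat_lit 4) (nat_lit 4) (nat_lit 2) (nat_lit 4) (nat_lit 410) (nat_lit 257) (nat_lit 194)) (XT.lf (nat_lit 0) (nat_lit 33809480562) (nat_lit 168) (nat_lit 22873127839) (nat_lit 0) (nat_lit 18235776150) (nat_lit 2) (nat_lit 5) (nat_lit 4) (nat_lit 4) (nat_lit 2) (nat_lit 4) (nat_lit 411) (nat_lit 257) (nat_lit 193)))) (XT.nd (nat_lit 94) (nat_lit 0) (nat_lit 0) (XT.lf (nat_lit 0) (nat_lit 36026260276) (nat_lit 168) (nat_lit 20780895749) (nat_lit 0) (nat_lit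 20375231965) (nat_lit 2) (nat_lit 5) (nat_lit 4) (nat_lit 4) (nat_lit 2) (nat_lit 4) (nat_lit 412) (nat_lit 257) (nat_lit 192)) (XT.nd (nat_lit 94) (nat_lit 0) (nat_lit 0) (XT.lf (nat_lit 0) (nat_lit 38300399320) (nat_lit 168) (nat_lit 18642187821) (nat_lit 0) (nat_lit 22574372078) (nat_lit 2) (nat_lit 5) (nat_lit 4) (nat_lit 4) (nat_lit 2) (nat_lit 4) (nat_lit 413) (nat_lit 257) (nat_lit 191)) (XT.lf (nat_lit 0) (nat_lit 40634017430) (nat_lit 168) (nat_lit 16455010556) (nat_lit 0) (nat_lit 24835246316) (nat_lit 2) (nat_lit 5) (nat_lit 4) (nat_lit 4) (nat_lit 2) (nat_lit 4) (nat_lit 414) (nat_lit 257) (nat_lit 190))))) (XT.nd (nat_lit 47470) (nat_lit 0) (nat_lit 1596) (XT.nd (nat_lit 94) (nat_lit 0) (nat_lit 0) (XT.lf (nat_lit 0) (nat_lit 43029289783) (nat_lit 168) (nat_lit 14217325275) (nat_lit 0) (nat_lit 27159962052) (nat_lit 2) (nat_lit 5) (nat_lit 4) (nat_lit 4) (nat_lit 2) (nat_lit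 4) (nat_lit 415) (nat_lit 257) (nat_lit 189)) (XT.nd (nat_lit 94) (nat_lit 0) (nat_lit 0) (XT.lf (nat_lit 0) (nat_lit 45488449023) (nat_lit 168) (nat_lit 11927046220) (nat_lit 0) (nat_lit 29550686165) (nat_lit 2) (nat_lit 5) (nat_lit 4) (nat_lit 4) (nat_lit 2) (nat_lit 4) (nat_lit 416) (nat_lit 257) (nat_lit 188)) (XT.lf (nat_lit 0) (nat_lit 48013787344) (nat_lit 168) (nat_lit 9582038613) (nat_lit 0) (nat_lit 32009647058) (nat_lit 2) (nat_lit 5) (nat_lit 4) (nat_lit 4) (nat_lit 2) (nat_lit 4) (nat_lit 417) (nat_lit 257) (nat_lit 187)))) (XT.nd (nat_lit 188) (nat_lit 0) (nat_lit 0) (XT.nd (nat_lit 94) (nat_lit 252) (nat_lit 0) (XT.lf (nat_lit 0) (nat_lit 2455147965) (nat_lit 252) (nat_lit 1341810510) (nat_lit 0) (nat_lit 2455147965) (nat_lit 24) (nat_lit 5) (nat_lit 27) (nat_lit 4) (nat_lit 24) (nat_lit 4) (nat_lit 345) (nat_lit 258) (nat_lit 258)) (XT.lf (nat_lit 0) (nat_lit 1864191342)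 (nat_lit 252) (nat_lit 5784216548) (nat_lit 252) (nat_lit 5128946506) (nat_lit 21) (nat_lit 4) (nat_lit 24) (nat_lit 5) (nat_lit 24) (nat_lit 4) (nat_lit 346) (nat_lit 258) (nat_lit 257))) (XT.nd (nat_lit 94) (nat_lit 0) (nat_lit 0) (XT.lf (nat_lit 0) (nat_lit 6516382815) (nat_lit 252) (nat_lit 3917425142) (nat_lit 252) (nat_lit 2626587649) (nat_lit 21) (nat_lit 4) (nat_lit 24) (nat_lit 5) (nat_lit 24) (nat_lit 4) (nat_lit 347) (nat_lit 258) (nat_lit 256)) (XT.lf (nat_lit 0) (nat_lit 11222108975) (nat_lit 252) (nat_lit 2019814187) (nat_lit 252) (nat_lit 112519419) (nat_lit 21) (nat_lit 4) (nat_lit 24) (nat_lit 5) (nat_lit 24) (nat_lit 4) (nat_lit 348) (nat_lit 258) (nat_lit 255))))))))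
noncomputable def xc26 : XT := (XT.nd (nat_lit 2256) (nat_lit 336) (nat_lit 0) (XT.nd (nat_lit 1128) (nat_lit 336) (nat_lit 0) (XT.nd (nat_lit 564) (nat_lit 336) (nat_lit 0) (XT.nd (nat_lit 282) (nat_lit 252) (nat_lit 0) (XT.nd (nat_lit 94) (nat_lit 0) (nat_lit 0) (XT.lf (nat_lit 0) (nat_lit 2349357906) (nat_lit 168) (nat_lit 40880585) (nat_lit 252) (nat_lit 11268065577) (nat_lit 18) (nat_lit 5) (nat_lit 20) (nat_lit 5) (nat_lit 21) (nat_lit 4) (nat_lit 349) (nat_lit 258) (nat_lit 254)) (XT.nd (nat_lit 94) (nat_lit 0) (nat_lit 0) (XT.lf (nat_lit 0) (nat_lit 4948703140) (nat_lit 252) (nat_lit 7067380981) (nat_lit 0) (nat_lit 1956307480) (nat_lit 18) (nat_lit 5) (nat_lit 21) (nat_lit 4) (nat_lit 18) (nat_lit 4) (nat_lit 350) (nat_lit 258) (nat_lit 253)) (XT.lf (nat_lit 0) (nat_lit 7526897736) (nat_lit 252) (nat_lit 2782484632) (nat_lit 0) (nat_lit 3988909664) (nat_lit 18) (nat_lit 5)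 (nat_lit 21) (nat_lit 4) (nat_lit 18) (nat_lit 4) (nat_lit 351) (nat_lit 258) (nat_lit 252)))) (XT.nd (nat_lit 94) (nat_lit 84) (nat_lit 0) (XT.lf (nat_lit 0) (nat_lit 1582016501) (nat_lit 168) (nat_lit 8560497183) (nat_lit 168) (nat_lit 4493321515) (nat_lit 16) (nat_lit 4) (nat_lit 18) (nat_lit 5) (nat_lit 18) (nat_lit 4) (nat_lit 352) (nat_lit 258) (nat_lit 251)) (XT.nd (nat_lit 94) (nat_lit 84) (nat_lit 0) (XT.lf (nat_lit 0) (nat_lit 6056564847) (nat_lit 168) (nat_lit 6754410012) (nat_lit 168) (nat_lit 2173958306) (nat_lit 16) (nat_lit 4) (nat_lit 18) (nat_lit 5) (nat_lit 18) (nat_lit 4) (nat_lit 353) (nat_lit 258) (nat_lit 250)) (XT.lf (nat_lit 0) (nat_lit 156593896) (nat_lit 252) (nat_lit 4760252412) (nat_lit 84) (nat_lit 10429889147) (nat_lit 15) (nat_lit 5) (nat_lit 18) (nat_lit 5) (nat_lit 16) (nat_lit 4) (nat_lit 354) (nat_lit 258) (nat_lit 249))))) (XT.nd (nat_lit 282) (nat_lit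 168) (nat_lit 0) (XT.nd (nat_lit 94) (nat_lit 168) (nat_lit 0) (XT.lf (nat_lit 0) (nat_lit 2459595752) (nat_lit 252) (nat_lit 565729462) (nat_lit 84) (nat_lit 12695629641) (nat_lit 15) (nat_lit 5) (nat_lit 18) (nat_lit 5) (nat_lit 16) (nat_lit 4) (nat_lit 355) (nat_lit 258) (nat_lit 248)) (XT.nd (nat_lit 94) (nat_lit 0) (nat_lit 0) (XT.lf (nat_lit 0) (nat_lit 3756358454) (nat_lit 168) (nat_lit 1061899404) (nat_lit 252) (nat_lit 11289195692) (nat_lit 13) (nat_lit 5) (nat_lit 15) (nat_lit 5) (nat_lit 16) (nat_lit 4) (nat_lit 356) (nat_lit 258) (nat_lit 247)) (XT.lf (nat_lit 0) (nat_lit 7213130900) (nat_lit 252) (nat_lit 8369842626) (nat_lit 0) (nat_lit 924289354) (nat_lit 13) (nat_lit 5) (nat_lit 16) (nat_lit 4) (nat_lit 13) (nat_lit 4) (nat_lit 357) (nat_lit 258) (nat_lit 246)))) (XT.nd (nat_lit 94) (nat_lit 168) (nat_lit 0) (XT.lf (nat_lit 0) (nat_lit 9642261807) (nat_lit 252) (nat_lit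 4352568235) (nat_lit 0) (nat_lit 2926055215) (nat_lit 13) (nat_lit 5) (nat_lit 16) (nat_lit 4) (nat_lit 13) (nat_lit 4) (nat_lit 358) (nat_lit 258) (nat_lit 245)) (XT.nd (nat_lit 94) (nat_lit 168) (nat_lit 0) (XT.lf (nat_lit 0) (nat_lit 12097380611) (nat_lit 252) (nat_lit 284993228) (nat_lit 0) (nat_lit 4966658939) (nat_lit 13) (nat_lit 5) (nat_lit 16) (nat_lit 4) (nat_lit 13) (nat_lit 4) (nat_lit 359) (nat_lit 258) (nat_lit 244)) (XT.lf (nat_lit 0) (nat_lit 3915563682) (nat_lit 168) (nat_lit 10704054932) (nat_lit 168) (nat_lit 3171281778) (nat_lit 11) (nat_lit 4) (nat_lit 13) (nat_lit 5) (nat_lit 13) (nat_lit 4) (nat_lit 360) (nat_lit 258) (nat_lit 243)))))) (XT.nd (nat_lit 564) (nat_lit 168) (nat_lit 0) (XT.nd (nat_lit 282) (nat_lit 84) (nat_lit 0) (XT.nd (nat_lit 94) (nat_lit 84) (nat_lit 0) (XT.lf (nat_lit 0) (nat_lit 8181105725) (nat_lit 168) (nat_lit 8994813831) (nat_lit 168)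 (nat_lit 1072078036) (nat_lit 11) (nat_lit 4) (nat_lit 13) (nat_lit 5) (nat_lit 13) (nat_lit 4) (nat_lit 361) (nat_lit 258) (nat_lit 242)) (XT.nd (nat_lit 94) (nat_lit 0) (nat_lit 0) (XT.lf (nat_lit 0) (nat_lit 1023887758) (nat_lit 252) (nat_lit 6221457042) (nat_lit 84) (nat_lit 11475173738) (nat_lit 10) (nat_lit 5) (nat_lit 13) (nat_lit 5) (nat_lit 11) (nat_lit 4) (nat_lit 362) (nat_lit 258) (nat_lit 241)) (XT.lf (nat_lit 0) (nat_lit 3117643443) (nat_lit 252) (nat_lit 2335903733) (nat_lit 84) (nat_lit 13755342366) (nat_lit 10) (nat_lit 5) (nat_lit 13) (nat_lit 5) (nat_lit 11) (nat_lit 4) (nat_lit 363) (nat_lit 258) (nat_lit 240)))) (XT.nd (nat_lit 94) (nat_lit 0) (nat_lit 0) (XT.lf (nat_lit 0) (nat_lit 1637006993) (nat_lit 84) (nat_lit 3611972919) (nat_lit 168) (nat_lit 14464412172) (nat_lit 9) (nat_lit 5) (nat_lit 10) (nat_lit 5) (nat_lit 11) (nat_lit 4) (nat_lit 364) (nat_lit 258)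 (nat_lit 239)) (XT.nd (nat_lit 94) (nat_lit 0) (nat_lit 0) (XT.lf (nat_lit 0) (nat_lit 5717190072) (nat_lit 84) (nat_lit 1710675883) (nat_lit 168) (nat_lit 12806383012) (nat_lit 9) (nat_lit 5) (nat_lit 10) (nat_lit 5) (nat_lit 11) (nat_lit 4) (nat_lit 365) (nat_lit 258) (nat_lit 238)) (XT.lf (nat_lit 0) (nat_lit 9634942746) (nat_lit 168) (nat_lit 10914520262) (nat_lit 0) (nat_lit 223145761) (nat_lit 9) (nat_lit 5) (nat_lit 11) (nat_lit 4) (nat_lit 9) (nat_lit 4) (nat_lit 366) (nat_lit 258) (nat_lit 237))))) (XT.nd (nat_lit 282) (nat_lit 0) (nat_lit 0) (XT.nd (nat_lit 94) (nat_lit 168) (nat_lit 0) (XT.lf (nat_lit 0) (nat_lit 11887362460) (nat_lit 168) (nat_lit 7280506196) (nat_lit 0) (nat_lit 2160636698) (nat_lit 9) (nat_lit 5) (nat_lit 11) (nat_lit 4) (nat_lit 9) (nat_lit 4) (nat_lit 367) (nat_lit 258) (nat_lit 236)) (XT.nd (nat_lit 94) (nat_lit 168) (nat_lit 0) (XT.lf (nat_lit 0)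 (nat_lit 14170254471) (nat_lit 168) (nat_lit 3594659299) (nat_lit 0) (nat_lit 4138069177) (nat_lit 9) (nat_lit 5) (nat_lit 11) (nat_lit 4) (nat_lit 9) (nat_lit 4) (nat_lit 368) (nat_lit 258) (nat_lit 235)) (XT.lf (nat_lit 0) (nat_lit 149467460) (nat_lit 168) (nat_lit 16337761949) (nat_lit 168) (nat_lit 6009301649) (nat_lit 7) (nat_lit 4) (nat_lit 9) (nat_lit 5) (nat_lit 9) (nat_lit 4) (nat_lit 369) (nat_lit 258) (nat_lit 234)))) (XT.nd (nat_lit 94) (nat_lit 0) (nat_lit 0) (XT.lf (nat_lit 0) (nat_lit 4027471459) (nat_lit 168) (nat_lit 14848478906) (nat_lit 168) (nat_lit 4232651966) (nat_lit 7) (nat_lit 4) (nat_lit 9) (nat_lit 5) (nat_lit 9) (nat_lit 4) (nat_lit 370) (nat_lit 258) (nat_lit 233)) (XT.nd (nat_lit 94) (nat_lit 0) (nat_lit 0) (XT.lf (nat_lit 0) (nat_lit 7969053835) (nat_lit 168) (nat_lit 13333197343) (nat_lit 168) (nat_lit 2438644274) (nat_lit 7) (nat_lit 4) (nat_lit 9)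 (nat_lit 5) (nat_lit 9) (nat_lit 4) (nat_lit 371) (nat_lit 258) (nat_lit 232)) (XT.lf (nat_lit 0) (nat_lit 11977888557) (nat_lit 168) (nat_lit 11790504860) (nat_lit 168) (nat_lit 625606369) (nat_lit 7) (nat_lit 4) (nat_lit 9) (nat_lit 5) (nat_lit 9) (nat_lit 4) (nat_lit 372) (nat_lit 258) (nat_lit 231))))))) (XT.nd (nat_lit 1128) (nat_lit 168) (nat_lit 0) (XT.nd (nat_lit 564) (nat_lit 0) (nat_lit 0) (XT.nd (nat_lit 282) (nat_lit 84) (nat_lit 0) (XT.nd (nat_lit 94) (nat_lit 0) (nat_lit 0) (XT.lf (nat_lit 0) (nat_lit 1183810125) (nat_lit 252) (nat_lit 9022796830) (nat_lit 84) (nat_lit 14861545604) (nat_lit 6) (nat_lit 5) (nat_lit 9) (nat_lit 5) (nat_lit 7) (nat_lit 4) (nat_lit 373) (nat_lit 258) (nat_lit 230)) (XT.nd (nat_lit 94) (nat_lit 0) (nat_lit 0) (XT.lf (nat_lit 0) (nat_lit 3002599551) (nat_lit 252) (nat_lit 5583167905) (nat_lit 84) (nat_lit 17178387290) (nat_lit 6) (nat_lit 5)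 (nat_lit 9) (nat_lit 5) (nat_lit 7) (nat_lit 4) (nat_lit 374) (nat_lit 258) (nat_lit 229)) (XT.lf (nat_lit 0) (nat_lit 4845061785) (nat_lit 252) (nat_lit 2087812268) (nat_lit 84) (nat_lit 19549973432) (nat_lit 6) (nat_lit 5) (nat_lit 9) (nat_lit 5) (nat_lit 7) (nat_lit 4) (nat_lit 375) (nat_lit 258) (nat_lit 228)))) (XT.nd (nat_lit 94) (nat_lit 0) (nat_lit 0) (XT.lf (nat_lit 0) (nat_lit 1496682945) (nat_lit 84) (nat_lit 5231078530) (nat_lit 168) (nat_lit 20496678931) (nat_lit 5) (nat_lit 5) (nat_lit 6) (nat_lit 5) (nat_lit 7) (nat_lit 4) (nat_lit 376) (nat_lit 258) (nat_lit 227)) (XT.nd (nat_lit 94) (nat_lit 0) (nat_lit 0) (XT.lf (nat_lit 0) (nat_lit 5187686600) (nat_lit 84) (nat_lit 3471673708) (nat_lit 168) (nat_lit 19330050332) (nat_lit 5) (nat_lit 5) (nat_lit 6) (nat_lit 5) (nat_lit 7) (nat_lit 4) (nat_lit 377) (nat_lit 258) (nat_lit 226)) (XT.lf (nat_lit 0) (nat_lit 8945709394)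 (nat_lit 84) (nat_lit 1674812118) (nat_lit 168) (nat_lit 18158604961) (nat_lit 5) (nat_lit 5) (nat_lit 6) (nat_lit 5) (nat_lit 7) (nat_lit 4) (nat_lit 378) (nat_lit 258) (nat_lit 225))))) (XT.nd (nat_lit 282) (nat_lit 0) (nat_lit 0) (XT.nd (nat_lit 94) (nat_lit 0) (nat_lit 0) (XT.lf (nat_lit 0) (nat_lit 12614672033) (nat_lit 168) (nat_lit 16821668742) (nat_lit 0) (nat_lit 157933663) (nat_lit 5) (nat_lit 5) (nat_lit 7) (nat_lit 4) (nat_lit 5) (nat_lit 4) (nat_lit 379) (nat_lit 258) (nat_lit 224)) (XT.nd (nat_lit 94) (nat_lit 0) (nat_lit 0) (XT.lf (nat_lit 0) (nat_lit 14659089709) (nat_lit 168) (nat_lit 13779090845) (nat_lit 0) (nat_lit 1996955789) (nat_lit 5) (nat_lit 5) (nat_lit 7) (nat_lit 4) (nat_lit 5) (nat_lit 4) (nat_lit 380) (nat_lit 258) (nat_lit 223)) (XT.lf (nat_lit 0) (nat_lit 16739065810) (nat_lit 168) (nat_lit 10686233046) (nat_lit 0) (nat_lit 3877712150) (nat_lit 5) (nat_lit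 5) (nat_lit 7) (nat_lit 4) (nat_lit 5) (nat_lit 4) (nat_lit 381) (nat_lit 258) (nat_lit 222)))) (XT.nd (nat_lit 94) (nat_lit 0) (nat_lit 0) (XT.lf (nat_lit 0) (nat_lit 18856539091) (nat_lit 168) (nat_lit 7540212477) (nat_lit 0) (nat_lit 5801955811) (nat_lit 5) (nat_lit 5) (nat_lit 7) (nat_lit 4) (nat_lit 5) (nat_lit 4) (nat_lit 382) (nat_lit 258) (nat_lit 221)) (XT.nd (nat_lit 94) (nat_lit 0) (nat_lit 0) (XT.lf (nat_lit 0) (nat_lit 21013483259) (nat_lit 168) (nat_lit 4338096716) (nat_lit 0) (nat_lit 7771480366) (nat_lit 5) (nat_lit 5) (nat_lit 7) (nat_lit 4) (nat_lit 5) (nat_lit 4) (nat_lit 383) (nat_lit 258) (nat_lit 220)) (XT.lf (nat_lit 0) (nat_lit 23211908812) (nat_lit 168) (nat_lit 1076901057) (nat_lit 0) (nat_lit 9788121620) (nat_lit 5) (nat_lit 5) (nat_lit 7) (nat_lit 4) (nat_lit 5) (nat_lit 4) (nat_lit 384) (nat_lit 258) (nat_lit 219)))))) (XT.nd (nat_lit 564) (nat_lit 84)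 (nat_lit 0) (XT.nd (nat_lit 282) (nat_lit 0) (nat_lit 0) (XT.nd (nat_lit 94) (nat_lit 0) (nat_lit 0) (XT.lf (nat_lit 0) (nat_lit 2292605160) (nat_lit 84) (nat_lit 23184002680) (nat_lit 84) (nat_lit 9583897059) (nat_lit 4) (nat_lit 4) (nat_lit 5) (nat_lit 5) (nat_lit 5) (nat_lit 4) (nat_lit 385) (nat_lit 258) (nat_lit 218)) (XT.nd (nat_lit 94) (nat_lit 0) (nat_lit 0) (XT.lf (nat_lit 0) (nat_lit 5750813027) (nat_lit 84) (nat_lit 22047677049) (nat_lit 84) (nat_lit 8276554524) (nat_lit 4) (nat_lit 4) (nat_lit 5) (nat_lit 5) (nat_lit 5) (nat_lit 4) (nat_lit 386) (nat_lit 258) (nat_lit 217)) (XT.lf (nat_lit 0) (nat_lit 9278802662) (nat_lit 84) (nat_lit 20890014442) (nat_lit 84) (nat_lit 6953017131) (nat_lit 4) (nat_lit 4) (nat_lit 5) (nat_lit 5) (nat_lit 5) (nat_lit 4) (nat_lit 387) (nat_lit 258) (nat_lit 216)))) (XT.nd (nat_lit 94) (nat_lit 0) (nat_lit 0) (XT.lf (nat_lit 0) (nat_lit 12879862519)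 (nat_lit 84) (nat_lit 19709935796) (nat_lit 84) (nat_lit 5612051204) (nat_lit 4) (nat_lit 4) (nat_lit 5) (nat_lit 5) (nat_lit 5) (nat_lit 4) (nat_lit 388) (nat_lit 258) (nat_lit 215)) (XT.nd (nat_lit 94) (nat_lit 0) (nat_lit 0) (XT.lf (nat_lit 0) (nat_lit 16557349164) (nat_lit 84) (nat_lit 18506341153) (nat_lit 84) (nat_lit 4252406823) (nat_lit 4) (nat_lit 4) (nat_lit 5) (nat_lit 5) (nat_lit 5) (nat_lit 4) (nat_lit 389) (nat_lit 258) (nat_lit 214)) (XT.lf (nat_lit 0) (nat_lit 20314690400) (nat_lit 84) (nat_lit 17278108638) (nat_lit 84) (nat_lit 2872816657) (nat_lit 4) (nat_lit 4) (nat_lit 5) (nat_lit 5) (nat_lit 5) (nat_lit 4) (nat_lit 390) (nat_lit 258) (nat_lit 213))))) (XT.nd (nat_lit 282) (nat_lit 0) (nat_lit 0) (XT.nd (nat_lit 94) (nat_lit 84) (nat_lit 0) (XT.lf (nat_lit 0) (nat_lit 24155388461) (nat_lit 84) (nat_lit 16024093408) (nat_lit 84) (nat_lit 1471994783) (nat_lit 4) (nat_lit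 4) (nat_lit 5) (nat_lit 5) (nat_lit 5) (nat_lit 4) (nat_lit 391) (nat_lit 258) (nat_lit 212)) (XT.nd (nat_lit 94) (nat_lit 84) (nat_lit 0) (XT.lf (nat_lit 0) (nat_lit 28083023282) (nat_lit 84) (nat_lit 14743126592) (nat_lit 84) (nat_lit 48635488) (nat_lit 4) (nat_lit 4) (nat_lit 5) (nat_lit 5) (nat_lit 5) (nat_lit 4) (nat_lit 392) (nat_lit 258) (nat_lit 211)) (XT.lf (nat_lit 0) (nat_lit 1370409516) (nat_lit 168) (nat_lit 12049300411) (nat_lit 84) (nat_lit 30716542048) (nat_lit 3) (nat_lit 5) (nat_lit 5) (nat_lit 5) (nat_lit 4) (nat_lit 4) (nat_lit 393) (nat_lit 258) (nat_lit 210)))) (XT.nd (nat_lit 188) (nat_lit 0) (nat_lit 0) (XT.nd (nat_lit 94) (nat_lit 0) (nat_lit 0) (XT.lf (nat_lit 0) (nat_lit 2813179741) (nat_lit 168) (nat_lit 9252992412) (nat_lit 84) (nat_lit 33371287948) (nat_lit 3) (nat_lit 5) (nat_lit 5) (nat_lit 5) (nat_lit 4) (nat_lit 4) (nat_lit 394) (nat_lit 258) (nat_lit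 209)) (XT.lf (nat_lit 0) (nat_lit 4281999896) (nat_lit 168) (nat_lit 6399749161) (nat_lit 84) (nat_lit 36097888502) (nat_lit 3) (nat_lit 5) (nat_lit 5) (nat_lit 5) (nat_lit 4) (nat_lit 4) (nat_lit 395) (nat_lit 258) (nat_lit 208))) (XT.nd (nat_lit 94) (nat_lit 0) (nat_lit 0) (XT.lf (nat_lit 0) (nat_lit 5778239075) (nat_lit 168) (nat_lit 3486911136) (nat_lit 84) (nat_lit 38898885187) (nat_lit 3) (nat_lit 5) (nat_lit 5) (nat_lit 5) (nat_lit 4) (nat_lit 4) (nat_lit 396) (nat_lit 258) (nat_lit 207)) (XT.lf (nat_lit 0) (nat_lit 7303291928) (nat_lit 168) (nat_lit 511763268) (nat_lit 84) (nat_lit 41776888825) (nat_lit 3) (nat_lit 5) (nat_lit 5) (nat_lit 5) (nat_lit 4) (nat_lit 4) (nat_lit 397) (nat_lit 258) (nat_lit 206))))))))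
noncomputable def xc27 : XT := (XT.nd (nat_lit 49350) (nat_lit 0) (nat_lit 420) (XT.nd (nat_lit 1128) (nat_lit 0) (nat_lit 0) (XT.nd (nat_lit 564) (nat_lit 0) (nat_lit 0) (XT.nd (nat_lit 282) (nat_lit 0) (nat_lit 0) (XT.nd (nat_lit 94) (nat_lit 0) (nat_lit 0) (XT.lf (nat_lit 0) (nat_lit 2580458072) (nat_lit 84) (nat_lit 6303720358) (nat_lit 168) (nat_lit 42179722409) (nat_lit 2) (nat_lit 5) (nat_lit 3) (nat_lit 5) (nat_lit 4) (nat_lit 4) (nat_lit 398) (nat_lit 258) (nat_lit 205)) (XT.nd (nat_lit 94) (nat_lit 0) (nat_lit 0) (XT.lf (nat_lit 0) (nat_lit 5752515631) (nat_lit 84) (nat_lit 4750102917) (nat_lit 168) (nat_lit 42079271680) (nat_lit 2) (nat_lit 5) (nat_lit 3) (nat_lit 5) (nat_lit 4) (nat_lit 4) (nat_lit 399) (nat_lit 258) (nat_lit 204)) (XT.lf (nat_lit 0) (nat_lit 8996843196) (nat_lit 84) (nat_lit 3158096498) (nat_lit 168) (nat_lit 41992548037) (nat_lit 2) (nat_lit 5) (nat_lit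 3) (nat_lit 5) (nat_lit 4) (nat_lit 4) (nat_lit 400) (nat_lit 258) (nat_lit 203)))) (XT.nd (nat_lit 94) (nat_lit 0) (nat_lit 0) (XT.lf (nat_lit 0) (nat_lit 12316464819) (nat_lit 84) (nat_lit 1526217186) (nat_lit 168) (nat_lit 41919470642) (nat_lit 2) (nat_lit 5) (nat_lit 3) (nat_lit 5) (nat_lit 4) (nat_lit 4) (nat_lit 401) (nat_lit 258) (nat_lit 202)) (XT.nd (nat_lit 94) (nat_lit 0) (nat_lit 0) (XT.lf (nat_lit 0) (nat_lit 15568877448) (nat_lit 168) (nat_lit 41714374093) (nat_lit 0) (nat_lit 144093249) (nat_lit 2) (nat_lit 5) (nat_lit 4) (nat_lit 4) (nat_lit 2) (nat_lit 4) (nat_lit 402) (nat_lit 258) (nat_lit 201)) (XT.lf (nat_lit 0) (nat_lit 17349241212) (nat_lit 168) (nat_lit 39969195758) (nat_lit 0) (nat_lit 1825742033) (nat_lit 2) (nat_lit 5) (nat_lit 4) (nat_lit 4) (nat_lit 2) (nat_lit 4) (nat_lit 403) (nat_lit 258) (nat_lit 200))))) (XT.nd (nat_lit 282) (nat_lit 0) (nat_lit 0)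 (XT.nd (nat_lit 94) (nat_lit 0) (nat_lit 0) (XT.lf (nat_lit 0) (nat_lit 19170292520) (nat_lit 168) (nat_lit 38193385871) (nat_lit 0) (nat_lit 3551046511) (nat_lit 2) (nat_lit 5) (nat_lit 4) (nat_lit 4) (nat_lit 2) (nat_lit 4) (nat_lit 404) (nat_lit 258) (nat_lit 199)) (XT.nd (nat_lit 94) (nat_lit 0) (nat_lit 0) (XT.lf (nat_lit 0) (nat_lit 21033728782) (nat_lit 168) (nat_lit 36385289191) (nat_lit 0) (nat_lit 5321614849) (nat_lit 2) (nat_lit 5) (nat_lit 4) (nat_lit 4) (nat_lit 2) (nat_lit 4) (nat_lit 405) (nat_lit 258) (nat_lit 198)) (XT.lf (nat_lit 0) (nat_lit 22941286915) (nat_lit 168) (nat_lit 34543220382) (nat_lit 0) (nat_lit 7139097402) (nat_lit 2) (nat_lit 5) (nat_lit 4) (nat_lit 4) (nat_lit 2) (nat_lit 4) (nat_lit 406) (nat_lit 258) (nat_lit 197)))) (XT.nd (nat_lit 94) (nat_lit 0) (nat_lit 0) (XT.lf (nat_lit 0) (nat_lit 24894744965) (nat_lit 168) (nat_lit 32665462443) (nat_lit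 0) (nat_lit 9005188254) (nat_lit 2) (nat_lit 5) (nat_lit 4) (nat_lit 4) (nat_lit 2) (nat_lit 4) (nat_lit 407) (nat_lit 258) (nat_lit 196)) (XT.nd (nat_lit 94) (nat_lit 0) (nat_lit 0) (XT.lf (nat_lit 0) (nat_lit 26895923757) (nat_lit 168) (nat_lit 30750265107) (nat_lit 0) (nat_lit 10921626798) (nat_lit 2) (nat_lit 5) (nat_lit 4) (nat_lit 4) (nat_lit 2) (nat_lit 4) (nat_lit 408) (nat_lit 258) (nat_lit 195)) (XT.lf (nat_lit 0) (nat_lit 28946688602) (nat_lit 168) (nat_lit 28795843211) (nat_lit 0) (nat_lit 12890199353) (nat_lit 2) (nat_lit 5) (nat_lit 4) (nat_lit 4) (nat_lit 2) (nat_lit 4) (nat_lit 409) (nat_lit 258) (nat_lit 194)))))) (XT.nd (nat_lit 564) (nat_lit 0) (nat_lit 0) (XT.nd (nat_lit 282) (nat_lit 0) (nat_lit 0) (XT.nd (nat_lit 94) (nat_lit 0) (nat_lit 0) (XT.lf (nat_lit 0) (nat_lit 31048951025) (nat_lit 168) (nat_lit 26800375027) (nat_lit 0) (nat_lit 14912740837) (nat_lit 2)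 (nat_lit 5) (nat_lit 4) (nat_lit 4) (nat_lit 2) (nat_lit 4) (nat_lit 410) (nat_lit 258) (nat_lit 193)) (XT.nd (nat_lit 94) (nat_lit 0) (nat_lit 0) (XT.lf (nat_lit 0) (nat_lit 33204670557) (nat_lit 168) (nat_lit 24762000570) (nat_lit 0) (nat_lit 16991136470) (nat_lit 2) (nat_lit 5) (nat_lit 4) (nat_lit 4) (nat_lit 2) (nat_lit 4) (nat_lit 411) (nat_lit 258) (nat_lit 192)) (XT.lf (nat_lit 0) (nat_lit 35415856553) (nat_lit 168) (nat_lit 22678819862) (nat_lit 0) (nat_lit 19127323535) (nat_lit 2) (nat_lit 5) (nat_lit 4) (nat_lit 4) (nat_lit 2) (nat_lit 4) (nat_lit 412) (nat_lit 258) (nat_lit 191)))) (XT.nd (nat_lit 94) (nat_lit 0) (nat_lit 0) (XT.lf (nat_lit 0) (nat_lit 37684570071) (nat_lit 168) (nat_lit 20548891160) (nat_lit 0) (nat_lit 21323293181) (nat_lit 2) (nat_lit 5) (nat_lit 4) (nat_lit 4) (nat_lit 2) (nat_lit 4) (nat_lit 413) (nat_lit 258) (nat_lit 190)) (XT.nd (nat_lit 94) (nat_lit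 0) (nat_lit 0) (XT.lf (nat_lit 0) (nat_lit 40012925789) (nat_lit 168) (nat_lit 18370229148) (nat_lit 0) (nat_lit 23581092282) (nat_lit 2) (nat_lit 5) (nat_lit 4) (nat_lit 4) (nat_lit 2) (nat_lit 4) (nat_lit 414) (nat_lit 258) (nat_lit 189)) (XT.lf (nat_lit 0) (nat_lit 42403093978) (nat_lit 168) (nat_lit 16140803084) (nat_lit 0) (nat_lit 25902825344) (nat_lit 2) (nat_lit 5) (nat_lit 4) (nat_lit 4) (nat_lit 2) (nat_lit 4) (nat_lit 415) (nat_lit 258) (nat_lit 188))))) (XT.nd (nat_lit 47376) (nat_lit 0) (nat_lit 1596) (XT.nd (nat_lit 47188) (nat_lit 0) (nat_lit 1848) (XT.lf (nat_lit 0) (nat_lit 44857302526) (nat_lit 168) (nat_lit 13858534910) (nat_lit 0) (nat_lit 28290656464) (nat_lit 2) (nat_lit 5) (nat_lit 4) (nat_lit 4) (nat_lit 2) (nat_lit 4) (nat_lit 416) (nat_lit 258) (nat_lit 187)) (XT.nd (nat_lit 94) (nat_lit 0) (nat_lit 0) (XT.lf (nat_lit 0) (nat_lit 114629998) (nat_lit 252) (nat_lit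 5764167365) (nat_lit 0) (nat_lit 114629998) (nat_lit 24) (nat_lit 5) (nat_lit 27) (nat_lit 4) (nat_lit 24) (nat_lit 4) (nat_lit 343) (nat_lit 259) (nat_lit 259)) (XT.lf (nat_lit 0) (nat_lit 2883356225) (nat_lit 252) (nat_lit 7149870989) (nat_lit 0) (nat_lit 2207772812) (nat_lit 24) (nat_lit 5) (nat_lit 27) (nat_lit 4) (nat_lit 24) (nat_lit 4) (nat_lit 344) (nat_lit 259) (nat_lit 258)))) (XT.nd (nat_lit 94) (nat_lit 252) (nat_lit 0) (XT.lf (nat_lit 0) (nat_lit 5553047052) (nat_lit 252) (nat_lit 2730125528) (nat_lit 0) (nat_lit 4222193597) (nat_lit 24) (nat_lit 5) (nat_lit 27) (nat_lit 4) (nat_lit 24) (nat_lit 4) (nat_lit 345) (nat_lit 259) (nat_lit 257)) (XT.nd (nat_lit 94) (nat_lit 0) (nat_lit 0) (XT.lf (nat_lit 0) (nat_lit 1770696913) (nat_lit 252) (nat_lit 6487689526) (nat_lit 252) (nat_lit 4521268621) (nat_lit 21) (nat_lit 4) (nat_lit 24) (nat_lit 5) (nat_lit 24) (nat_lit 4) (nat_lit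 346) (nat_lit 259) (nat_lit 256)) (XT.lf (nat_lit 0) (nat_lit 6378238830) (nat_lit 252) (nat_lit 4634217168) (nat_lit 252) (nat_lit 2051338987) (nat_lit 21) (nat_lit 4) (nat_lit 24) (nat_lit 5) (nat_lit 24) (nat_lit 4) (nat_lit 347) (nat_lit 259) (nat_lit 255))))))) (XT.nd (nat_lit 1128) (nat_lit 504) (nat_lit 0) (XT.nd (nat_lit 564) (nat_lit 252) (nat_lit 0) (XT.nd (nat_lit 282) (nat_lit 168) (nat_lit 0) (XT.nd (nat_lit 94) (nat_lit 168) (nat_lit 0) (XT.lf (nat_lit 0) (nat_lit 422585866) (nat_lit 336) (nat_lit 2322527988) (nat_lit 84) (nat_lit 10613661157) (nat_lit 20) (nat_lit 5) (nat_lit 24) (nat_lit 5) (nat_lit 21) (nat_lit 4) (nat_lit 348) (nat_lit 259) (nat_lit 254)) (XT.nd (nat_lit 94) (nat_lit 0) (nat_lit 0) (XT.lf (nat_lit 0) (nat_lit 2110498967) (nat_lit 168) (nat_lit 780314575) (nat_lit 252) (nat_lit 10772904825) (nat_lit 18) (nat_lit 5) (nat_lit 20) (nat_lit 5) (nat_lit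 21) (nat_lit 4) (nat_lit 349) (nat_lit 259) (nat_lit 253)) (XT.lf (nat_lit 0) (nat_lit 5412400537) (nat_lit 252) (nat_lit 7347518963) (nat_lit 0) (nat_lit 1219142424) (nat_lit 18) (nat_lit 5) (nat_lit 21) (nat_lit 4) (nat_lit 18) (nat_lit 4) (nat_lit 350) (nat_lit 259) (nat_lit 252)))) (XT.nd (nat_lit 94) (nat_lit 168) (nat_lit 0) (XT.lf (nat_lit 0) (nat_lit 7961941032) (nat_lit 252) (nat_lit 3104523702) (nat_lit 0) (nat_lit 3239495322) (nat_lit 18) (nat_lit 5) (nat_lit 21) (nat_lit 4) (nat_lit 18) (nat_lit 4) (nat_lit 351) (nat_lit 259) (nat_lit 251)) (XT.nd (nat_lit 94) (nat_lit 0) (nat_lit 0) (XT.lf (nat_lit 0) (nat_lit 1211878771) (nat_lit 168) (nat_lit 9334213864) (nat_lit 168) (nat_lit 4098492115) (nat_lit 16) (nat_lit 4) (nat_lit 18) (nat_lit 5) (nat_lit 18) (nat_lit 4) (nat_lit 352) (nat_lit 259) (nat_lit 250)) (XT.lf (nat_lit 0) (nat_lit 5646197364) (nat_lit 168) (nat_lit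 7541000493) (nat_lit 168) (nat_lit 1807435836) (nat_lit 16) (nat_lit 4) (nat_lit 18) (nat_lit 5) (nat_lit 18) (nat_lit 4) (nat_lit 353) (nat_lit 259) (nat_lit 249))))) (XT.nd (nat_lit 282) (nat_lit 0) (nat_lit 0) (XT.nd (nat_lit 94) (nat_lit 168) (nat_lit 0) (XT.lf (nat_lit 0) (nat_lit 488829127) (nat_lit 252) (nat_lit 5223626519) (nat_lit 84) (nat_lit 9644798448) (nat_lit 15) (nat_lit 5) (nat_lit 18) (nat_lit 5) (nat_lit 16) (nat_lit 4) (nat_lit 354) (nat_lit 259) (nat_lit 248)) (XT.nd (nat_lit 94) (nat_lit 168) (nat_lit 0) (XT.lf (nat_lit 0) (nat_lit 2765737262) (nat_lit 252) (nat_lit 1067580918) (nat_lit 84) (nat_lit 11899058152) (nat_lit 15) (nat_lit 5) (nat_lit 18) (nat_lit 5) (nat_lit 16) (nat_lit 4) (nat_lit 355) (nat_lit 259) (nat_lit 247)) (XT.lf (nat_lit 0) (nat_lit 3206100102) (nat_lit 168) (nat_lit 1887531496) (nat_lit 252) (nat_lit 11026288338) (nat_lit 13) (nat_lit 5)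 (nat_lit 15) (nat_lit 5) (nat_lit 16) (nat_lit 4) (nat_lit 356) (nat_lit 259) (nat_lit 246)))) (XT.nd (nat_lit 94) (nat_lit 0) (nat_lit 0) (XT.lf (nat_lit 0) (nat_lit 7455280328) (nat_lit 252) (nat_lit 8962060977) (nat_lit 0) (nat_lit 103506285) (nat_lit 13) (nat_lit 5) (nat_lit 16) (nat_lit 4) (nat_lit 13) (nat_lit 4) (nat_lit 357) (nat_lit 259) (nat_lit 245)) (XT.nd (nat_lit 94) (nat_lit 0) (nat_lit 0) (XT.lf (nat_lit 0) (nat_lit 9860130013) (nat_lit 252) (nat_lit 4981337492) (nat_lit 0) (nat_lit 2093840891) (nat_lit 13) (nat_lit 5) (nat_lit 16) (nat_lit 4) (nat_lit 13) (nat_lit 4) (nat_lit 358) (nat_lit 259) (nat_lit 244)) (XT.lf (nat_lit 0) (nat_lit 12291697680) (nat_lit 252) (nat_lit 949214382) (nat_lit 0) (nat_lit 4123357075) (nat_lit 13) (nat_lit 5) (nat_lit 16) (nat_lit 4) (nat_lit 13) (nat_lit 4) (nat_lit 359) (nat_lit 259) (nat_lit 243)))))) (XT.nd (nat_lit 564) (nat_lit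 168) (nat_lit 0) (XT.nd (nat_lit 282) (nat_lit 84) (nat_lit 0) (XT.nd (nat_lit 94) (nat_lit 84) (nat_lit 0) (XT.lf (nat_lit 0) (nat_lit 3202591801) (nat_lit 168) (nat_lit 11581428110) (nat_lit 168) (nat_lit 3023124864) (nat_lit 11) (nat_lit 4) (nat_lit 13) (nat_lit 5) (nat_lit 13) (nat_lit 4) (nat_lit 360) (nat_lit 259) (nat_lit 242)) (XT.nd (nat_lit 94) (nat_lit 84) (nat_lit 0) (XT.lf (nat_lit 0) (nat_lit 7434096036) (nat_lit 168) (nat_lit 9883730994) (nat_lit 168) (nat_lit 947190463) (nat_lit 11) (nat_lit 4) (nat_lit 13) (nat_lit 5) (nat_lit 13) (nat_lit 4) (nat_lit 361) (nat_lit 259) (nat_lit 241)) (XT.lf (nat_lit 0) (nat_lit 1124144173) (nat_lit 252) (nat_lit 7020268200) (nat_lit 84) (nat_lit 10593846802) (nat_lit 10) (nat_lit 5) (nat_lit 13) (nat_lit 5) (nat_lit 11) (nat_lit 4) (nat_lit 362) (nat_lit 259) (nat_lit 240)))) (XT.nd (nat_lit 94) (nat_lit 84) (nat_lit 0) (XT.lf (nat_lit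 0) (nat_lit 3196449856) (nat_lit 252) (nat_lit 3167249001) (nat_lit 84) (nat_lit 12863667636) (nat_lit 10) (nat_lit 5) (nat_lit 13) (nat_lit 5) (nat_lit 11) (nat_lit 4) (nat_lit 363) (nat_lit 259) (nat_lit 239)) (XT.nd (nat_lit 94) (nat_lit 0) (nat_lit 0) (XT.lf (nat_lit 0) (nat_lit 756362828) (nat_lit 84) (nat_lit 4541882353) (nat_lit 168) (nat_lit 14434608851) (nat_lit 9) (nat_lit 5) (nat_lit 10) (nat_lit 5) (nat_lit 11) (nat_lit 4) (nat_lit 364) (nat_lit 259) (nat_lit 238)) (XT.lf (nat_lit 0) (nat_lit 4805309504) (nat_lit 84) (nat_lit 2651332370) (nat_lit 168) (nat_lit 12797771350) (nat_lit 9) (nat_lit 5) (nat_lit 10) (nat_lit 5) (nat_lit 11) (nat_lit 4) (nat_lit 365) (nat_lit 259) (nat_lit 237))))) (XT.nd (nat_lit 282) (nat_lit 168) (nat_lit 0) (XT.nd (nat_lit 94) (nat_lit 0) (nat_lit 0) (XT.lf (nat_lit 0) (nat_lit 8918239933) (nat_lit 84) (nat_lit 723346302) (nat_lit 168) (nat_lit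 11151938015) (nat_lit 9) (nat_lit 5) (nat_lit 10) (nat_lit 5) (nat_lit 11) (nat_lit 4) (nat_lit 366) (nat_lit 259) (nat_lit 236)) (XT.nd (nat_lit 94) (nat_lit 0) (nat_lit 0) (XT.lf (nat_lit 0) (nat_lit 11867454236) (nat_lit 168) (nat_lit 8264041196) (nat_lit 0) (nat_lit 1218811667) (nat_lit 9) (nat_lit 5) (nat_lit 11) (nat_lit 4) (nat_lit 9) (nat_lit 4) (nat_lit 367) (nat_lit 259) (nat_lit 235)) (XT.lf (nat_lit 0) (nat_lit 14131552814) (nat_lit 168) (nat_lit 4607240497) (nat_lit 0) (nat_lit 3186635240) (nat_lit 9) (nat_lit 5) (nat_lit 11) (nat_lit 4) (nat_lit 9) (nat_lit 4) (nat_lit 368) (nat_lit 259) (nat_lit 234)))) (XT.nd (nat_lit 188) (nat_lit 0) (nat_lit 0) (XT.nd (nat_lit 94) (nat_lit 168) (nat_lit 0) (XT.lf (nat_lit 0) (nat_lit 16428816664) (nat_lit 168) (nat_lit 894298013) (nat_lit 0) (nat_lit 5196532449) (nat_lit 9) (nat_lit 5) (nat_lit 11) (nat_lit 4) (nat_lit 9) (nat_lit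 4) (nat_lit 369) (nat_lit 259) (nat_lit 233)) (XT.lf (nat_lit 0) (nat_lit 2937429768) (nat_lit 168) (nat_lit 15853096974) (nat_lit 168) (nat_lit 4342086629) (nat_lit 7) (nat_lit 4) (nat_lit 9) (nat_lit 5) (nat_lit 9) (nat_lit 4) (nat_lit 370) (nat_lit 259) (nat_lit 232))) (XT.nd (nat_lit 94) (nat_lit 0) (nat_lit 0) (XT.lf (nat_lit 0) (nat_lit 6851963052) (nat_lit 168) (nat_lit 14347447517) (nat_lit 168) (nat_lit 2566091751) (nat_lit 7) (nat_lit 4) (nat_lit 9) (nat_lit 5) (nat_lit 9) (nat_lit 4) (nat_lit 371) (nat_lit 259) (nat_lit 231)) (XT.lf (nat_lit 0) (nat_lit 10834561990) (nat_lit 168) (nat_lit 12814097524) (nat_lit 168) (nat_lit 770525053) (nat_lit 7) (nat_lit 4) (nat_lit 9) (nat_lit 5) (nat_lit 9) (nat_lit 4) (nat_lit 372) (nat_lit 259) (nat_lit 230))))))))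
noncomputable def xc28 : XT := (XT.nd (nat_lit 2256) (nat_lit 84) (nat_lit 0) (XT.nd (nat_lit 1128) (nat_lit 168) (nat_lit 0) (XT.nd (nat_lit 564) (nat_lit 0) (nat_lit 0) (XT.nd (nat_lit 282) (nat_lit 84) (nat_lit 0) (XT.nd (nat_lit 94) (nat_lit 0) (nat_lit 0) (XT.lf (nat_lit 0) (nat_lit 1025206767) (nat_lit 252) (nat_lit 10215709926) (nat_lit 84) (nat_lit 13853030959) (nat_lit 6) (nat_lit 5) (nat_lit 9) (nat_lit 5) (nat_lit 7) (nat_lit 4) (nat_lit 373) (nat_lit 259) (nat_lit 229)) (XT.nd (nat_lit 94) (nat_lit 0) (nat_lit 0) (XT.lf (nat_lit 0) (nat_lit 2827890992) (nat_lit 252) (nat_lit 6801143425) (nat_lit 84) (nat_lit 16161464159) (nat_lit 6) (nat_lit 5) (nat_lit 9) (nat_lit 5) (nat_lit 7) (nat_lit 4) (nat_lit 374) (nat_lit 259) (nat_lit 228)) (XT.lf (nat_lit 0) (nat_lit 4654732274) (nat_lit 252) (nat_lit 3330096638) (nat_lit 84) (nat_lit 18524894640) (nat_lit 6) (nat_lit 5) (nat_lit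 9) (nat_lit 5) (nat_lit 7) (nat_lit 4) (nat_lit 375) (nat_lit 259) (nat_lit 227)))) (XT.nd (nat_lit 94) (nat_lit 0) (nat_lit 0) (XT.lf (nat_lit 0) (nat_lit 204791916) (nat_lit 84) (nat_lit 6304673065) (nat_lit 168) (nat_lit 20742765011) (nat_lit 5) (nat_lit 5) (nat_lit 6) (nat_lit 5) (nat_lit 7) (nat_lit 4) (nat_lit 376) (nat_lit 259) (nat_lit 226)) (XT.nd (nat_lit 94) (nat_lit 0) (nat_lit 0) (XT.lf (nat_lit 0) (nat_lit 3872456342) (nat_lit 84) (nat_lit 4553680248) (nat_lit 168) (nat_lit 19591571525) (nat_lit 5) (nat_lit 5) (nat_lit 6) (nat_lit 5) (nat_lit 7) (nat_lit 4) (nat_lit 377) (nat_lit 259) (nat_lit 225)) (XT.lf (nat_lit 0) (nat_lit 7607841670) (nat_lit 84) (nat_lit 2764977731) (nat_lit 168) (nat_lit 18435097166) (nat_lit 5) (nat_lit 5) (nat_lit 6) (nat_lit 5) (nat_lit 7) (nat_lit 4) (nat_lit 378) (nat_lit 259) (nat_lit 224))))) (XT.nd (nat_lit 282) (nat_lit 0) (nat_lit 0)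 (XT.nd (nat_lit 94) (nat_lit 0) (nat_lit 0) (XT.lf (nat_lit 0) (nat_lit 11414429669) (nat_lit 84) (nat_lit 936898256) (nat_lit 168) (nat_lit 17272263978) (nat_lit 5) (nat_lit 5) (nat_lit 6) (nat_lit 5) (nat_lit 7) (nat_lit 4) (nat_lit 379) (nat_lit 259) (nat_lit 223)) (XT.nd (nat_lit 94) (nat_lit 0) (nat_lit 0) (XT.lf (nat_lit 0) (nat_lit 14372754496) (nat_lit 168) (nat_lit 15178974097) (nat_lit 0) (nat_lit 913479134) (nat_lit 5) (nat_lit 5) (nat_lit 7) (nat_lit 4) (nat_lit 5) (nat_lit 4) (nat_lit 380) (nat_lit 259) (nat_lit 222)) (XT.lf (nat_lit 0) (nat_lit 16439445477) (nat_lit 168) (nat_lit 12107148214) (nat_lit 0) (nat_lit 2786940494) (nat_lit 5) (nat_lit 5) (nat_lit 7) (nat_lit 4) (nat_lit 5) (nat_lit 4) (nat_lit 381) (nat_lit 259) (nat_lit 221)))) (XT.nd (nat_lit 94) (nat_lit 0) (nat_lit 0) (XT.lf (nat_lit 0) (nat_lit 18544033093) (nat_lit 168) (nat_lit 8981527175) (nat_lit 0)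 (nat_lit 4704108498) (nat_lit 5) (nat_lit 5) (nat_lit 7) (nat_lit 4) (nat_lit 5) (nat_lit 4) (nat_lit 382) (nat_lit 259) (nat_lit 220)) (XT.nd (nat_lit 94) (nat_lit 0) (nat_lit 0) (XT.lf (nat_lit 0) (nat_lit 20688479042) (nat_lit 168) (nat_lit 5799197574) (nat_lit 0) (nat_lit 6666770146) (nat_lit 5) (nat_lit 5) (nat_lit 7) (nat_lit 4) (nat_lit 5) (nat_lit 4) (nat_lit 383) (nat_lit 259) (nat_lit 219)) (XT.lf (nat_lit 0) (nat_lit 22874782170) (nat_lit 168) (nat_lit 2557193147) (nat_lit 0) (nat_lit 8676754847) (nat_lit 5) (nat_lit 5) (nat_lit 7) (nat_lit 4) (nat_lit 5) (nat_lit 4) (nat_lit 384) (nat_lit 259) (nat_lit 218)))))) (XT.nd (nat_lit 564) (nat_lit 84) (nat_lit 0) (XT.nd (nat_lit 282) (nat_lit 0) (nat_lit 0) (XT.nd (nat_lit 94) (nat_lit 0) (nat_lit 0) (XT.lf (nat_lit 0) (nat_lit 762878292) (nat_lit 84) (nat_lit 24349669897) (nat_lit 84) (nat_lit 9980625669) (nat_lit 4) (nat_lit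 4) (nat_lit 5) (nat_lit 5) (nat_lit 5) (nat_lit 4) (nat_lit 385) (nat_lit 259) (nat_lit 217)) (XT.nd (nat_lit 94) (nat_lit 0) (nat_lit 0) (XT.lf (nat_lit 0) (nat_lit 4202660420) (nat_lit 84) (nat_lit 23220182828) (nat_lit 84) (nat_lit 8685263814) (nat_lit 4) (nat_lit 4) (nat_lit 5) (nat_lit 5) (nat_lit 5) (nat_lit 4) (nat_lit 386) (nat_lit 259) (nat_lit 216)) (XT.lf (nat_lit 0) (nat_lit 7712778338) (nat_lit 84) (nat_lit 22069153161) (nat_lit 84) (nat_lit 7373346867) (nat_lit 4) (nat_lit 4) (nat_lit 5) (nat_lit 5) (nat_lit 5) (nat_lit 4) (nat_lit 387) (nat_lit 259) (nat_lit 215)))) (XT.nd (nat_lit 94) (nat_lit 0) (nat_lit 0) (XT.lf (nat_lit 0) (nat_lit 11296503844) (nat_lit 84) (nat_lit 20895508016) (nat_lit 84) (nat_lit 6043651984) (nat_lit 4) (nat_lit 4) (nat_lit 5) (nat_lit 5) (nat_lit 5) (nat_lit 4) (nat_lit 388) (nat_lit 259) (nat_lit 214)) (XT.nd (nat_lit 94) (nat_lit 0) (nat_lit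 0) (XT.lf (nat_lit 0) (nat_lit 14957177345) (nat_lit 84) (nat_lit 19698153433) (nat_lit 84) (nat_lit 4694939750) (nat_lit 4) (nat_lit 4) (nat_lit 5) (nat_lit 5) (nat_lit 5) (nat_lit 4) (nat_lit 389) (nat_lit 259) (nat_lit 213)) (XT.lf (nat_lit 0) (nat_lit 18698210972) (nat_lit 84) (nat_lit 18475973352) (nat_lit 84) (nat_lit 3325953024) (nat_lit 4) (nat_lit 4) (nat_lit 5) (nat_lit 5) (nat_lit 5) (nat_lit 4) (nat_lit 390) (nat_lit 259) (nat_lit 212))))) (XT.nd (nat_lit 282) (nat_lit 0) (nat_lit 0) (XT.nd (nat_lit 94) (nat_lit 84) (nat_lit 0) (XT.lf (nat_lit 0) (nat_lit 22523091761) (nat_lit 84) (nat_lit 17227828573) (nat_lit 84) (nat_lit 1935415767) (nat_lit 4) (nat_lit 4) (nat_lit 5) (nat_lit 5) (nat_lit 5) (nat_lit 4) (nat_lit 391) (nat_lit 259) (nat_lit 211)) (XT.nd (nat_lit 94) (nat_lit 84) (nat_lit 0) (XT.lf (nat_lit 0) (nat_lit 26435384902) (nat_lit 84) (nat_lit 15952555695) (nat_lit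 84) (nat_lit 522031852) (nat_lit 4) (nat_lit 4) (nat_lit 5) (nat_lit 5) (nat_lit 5) (nat_lit 4) (nat_lit 392) (nat_lit 259) (nat_lit 210)) (XT.lf (nat_lit 0) (nat_lit 897070531) (nat_lit 168) (nat_lit 13742531921) (nat_lit 84) (nat_lit 29532302953) (nat_lit 3) (nat_lit 5) (nat_lit 5) (nat_lit 5) (nat_lit 4) (nat_lit 4) (nat_lit 393) (nat_lit 259) (nat_lit 209)))) (XT.nd (nat_lit 94) (nat_lit 0) (nat_lit 0) (XT.lf (nat_lit 0) (nat_lit 2330645311) (nat_lit 168) (nat_lit 10960872025) (nat_lit 84) (nat_lit 32181907312) (nat_lit 3) (nat_lit 5) (nat_lit 5) (nat_lit 5) (nat_lit 4) (nat_lit 4) (nat_lit 394) (nat_lit 259) (nat_lit 208)) (XT.nd (nat_lit 94) (nat_lit 0) (nat_lit 0) (XT.lf (nat_lit 0) (nat_lit 3790546509) (nat_lit 168) (nat_lit 8121836438) (nat_lit 84) (nat_lit 34903520921) (nat_lit 3) (nat_lit 5) (nat_lit 5) (nat_lit 5) (nat_lit 4) (nat_lit 4) (nat_lit 395) (nat_lit 259) (nat_lit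 207)) (XT.lf (nat_lit 0) (nat_lit 5278134905) (nat_lit 168) (nat_lit 5222778884) (nat_lit 84) (nat_lit 37699680607) (nat_lit 3) (nat_lit 5) (nat_lit 5) (nat_lit 5) (nat_lit 4) (nat_lit 4) (nat_lit 396) (nat_lit 259) (nat_lit 206))))))) (XT.nd (nat_lit 1128) (nat_lit 0) (nat_lit 0) (XT.nd (nat_lit 564) (nat_lit 0) (nat_lit 0) (XT.nd (nat_lit 282) (nat_lit 0) (nat_lit 0) (XT.nd (nat_lit 94) (nat_lit 84) (nat_lit 0) (XT.lf (nat_lit 0) (nat_lit 6794797088) (nat_lit 168) (nat_lit 2260997136) (nat_lit 84) (nat_lit 40572992685) (nat_lit 3) (nat_lit 5) (nat_lit 5) (nat_lit 5) (nat_lit 4) (nat_lit 4) (nat_lit 397) (nat_lit 259) (nat_lit 205)) (XT.nd (nat_lit 94) (nat_lit 0) (nat_lit 0) (XT.lf (nat_lit 0) (nat_lit 782025567) (nat_lit 84) (nat_lit 7567678967) (nat_lit 168) (nat_lit 42751867606) (nat_lit 2) (nat_lit 5) (nat_lit 3) (nat_lit 5) (nat_lit 4) (nat_lit 4) (nat_lit 398) (nat_lit 259)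 (nat_lit 204)) (XT.lf (nat_lit 0) (nat_lit 3941250148) (nat_lit 84) (nat_lit 6018873522) (nat_lit 168) (nat_lit 42659708880) (nat_lit 2) (nat_lit 5) (nat_lit 3) (nat_lit 5) (nat_lit 4) (nat_lit 4) (nat_lit 399) (nat_lit 259) (nat_lit 203)))) (XT.nd (nat_lit 94) (nat_lit 0) (nat_lit 0) (XT.lf (nat_lit 0) (nat_lit 7173130595) (nat_lit 84) (nat_lit 4431534413) (nat_lit 168) (nat_lit 42581027916) (nat_lit 2) (nat_lit 5) (nat_lit 3) (nat_lit 5) (nat_lit 4) (nat_lit 4) (nat_lit 400) (nat_lit 259) (nat_lit 202)) (XT.nd (nat_lit 94) (nat_lit 0) (nat_lit 0) (XT.lf (nat_lit 0) (nat_lit 10480679359) (nat_lit 84) (nat_lit 2804182073) (nat_lit 168) (nat_lit 42515751375) (nat_lit 2) (nat_lit 5) (nat_lit 3) (nat_lit 5) (nat_lit 4) (nat_lit 4) (nat_lit 401) (nat_lit 259) (nat_lit 201)) (XT.lf (nat_lit 0) (nat_lit 13866979423) (nat_lit 84) (nat_lit 1135299641) (nat_lit 168) (nat_lit 42463818411) (nat_lit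 2) (nat_lit 5) (nat_lit 3) (nat_lit 5) (nat_lit 4) (nat_lit 4) (nat_lit 402) (nat_lit 259) (nat_lit 200))))) (XT.nd (nat_lit 282) (nat_lit 0) (nat_lit 0) (XT.nd (nat_lit 94) (nat_lit 0) (nat_lit 0) (XT.lf (nat_lit 0) (nat_lit 16764239337) (nat_lit 168) (nat_lit 41854232785) (nat_lit 0) (nat_lit 565049873) (nat_lit 2) (nat_lit 5) (nat_lit 4) (nat_lit 4) (nat_lit 2) (nat_lit 4) (nat_lit 403) (nat_lit 259) (nat_lit 199)) (XT.nd (nat_lit 94) (nat_lit 0) (nat_lit 0) (XT.lf (nat_lit 0) (nat_lit 18578364186) (nat_lit 168) (nat_lit 40089630831) (nat_lit 0) (nat_lit 2286306799) (nat_lit 2) (nat_lit 5) (nat_lit 4) (nat_lit 4) (nat_lit 2) (nat_lit 4) (nat_lit 404) (nat_lit 259) (nat_lit 198)) (XT.lf (nat_lit 0) (nat_lit 20435082254) (nat_lit 168) (nat_lit 38292405085) (nat_lit 0) (nat_lit 4052949286) (nat_lit 2) (nat_lit 5) (nat_lit 4) (nat_lit 4) (nat_lit 2) (nat_lit 4) (nat_lit 405) (nat_lit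 259) (nat_lit 197)))) (XT.nd (nat_lit 94) (nat_lit 0) (nat_lit 0) (XT.lf (nat_lit 0) (nat_lit 22336124195) (nat_lit 168) (nat_lit 36460880345) (nat_lit 0) (nat_lit 5866624030) (nat_lit 2) (nat_lit 5) (nat_lit 4) (nat_lit 4) (nat_lit 2) (nat_lit 4) (nat_lit 406) (nat_lit 259) (nat_lit 196)) (XT.nd (nat_lit 94) (nat_lit 0) (nat_lit 0) (XT.lf (nat_lit 0) (nat_lit 24283261981) (nat_lit 168) (nat_lit 34593349437) (nat_lit 0) (nat_lit 7729021565) (nat_lit 2) (nat_lit 5) (nat_lit 4) (nat_lit 4) (nat_lit 2) (nat_lit 4) (nat_lit 407) (nat_lit 259) (nat_lit 195)) (XT.lf (nat_lit 0) (nat_lit 26278310547) (nat_lit 168) (nat_lit 32688071627) (nat_lit 0) (nat_lit 9641877843) (nat_lit 2) (nat_lit 5) (nat_lit 4) (nat_lit 4) (nat_lit 2) (nat_lit 4) (nat_lit 408) (nat_lit 259) (nat_lit 194)))))) (XT.nd (nat_lit 564) (nat_lit 0) (nat_lit 0) (XT.nd (nat_lit 282) (nat_lit 0) (nat_lit 0) (XT.nd (nat_lit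 94) (nat_lit 0) (nat_lit 0) (XT.lf (nat_lit 0) (nat_lit 28323129487) (nat_lit 168) (nat_lit 30743270996) (nat_lit 0) (nat_lit 11606975843) (nat_lit 2) (nat_lit 5) (nat_lit 4) (nat_lit 4) (nat_lit 2) (nat_lit 4) (nat_lit 409) (nat_lit 259) (nat_lit 193)) (XT.nd (nat_lit 94) (nat_lit 0) (nat_lit 0) (XT.lf (nat_lit 0) (nat_lit 30419624787) (nat_lit 168) (nat_lit 28757134787) (nat_lit 0) (nat_lit 13626147245) (nat_lit 2) (nat_lit 5) (nat_lit 4) (nat_lit 4) (nat_lit 2) (nat_lit 4) (nat_lit 410) (nat_lit 259) (nat_lit 192)) (XT.lf (nat_lit 0) (nat_lit 32569750601) (nat_lit 168) (nat_lit 26727811712) (nat_lit 0) (nat_lit 15701274127) (nat_lit 2) (nat_lit 5) (nat_lit 4) (nat_lit 4) (nat_lit 2) (nat_lit 4) (nat_lit 411) (nat_lit 259) (nat_lit 191)))) (XT.nd (nat_lit 94) (nat_lit 0) (nat_lit 0) (XT.lf (nat_lit 0) (nat_lit 34775511071) (nat_lit 168) (nat_lit 24653410231) (nat_lit 0) (nat_lit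 17834290725) (nat_lit 2) (nat_lit 5) (nat_lit 4) (nat_lit 4) (nat_lit 2) (nat_lit 4) (nat_lit 412) (nat_lit 259) (nat_lit 190)) (XT.nd (nat_lit 94) (nat_lit 0) (nat_lit 0) (XT.lf (nat_lit 0) (nat_lit 37038962196) (nat_lit 168) (nat_lit 22531996782) (nat_lit 0) (nat_lit 20027185234) (nat_lit 2) (nat_lit 5) (nat_lit 4) (nat_lit 4) (nat_lit 2) (nat_lit 4) (nat_lit 413) (nat_lit 259) (nat_lit 189)) (XT.lf (nat_lit 0) (nat_lit 39362213751) (nat_lit 168) (nat_lit 20361593988) (nat_lit 0) (nat_lit 22282001661) (nat_lit 2) (nat_lit 5) (nat_lit 4) (nat_lit 4) (nat_lit 2) (nat_lit 4) (nat_lit 414) (nat_lit 259) (nat_lit 188))))) (XT.nd (nat_lit 47188) (nat_lit 0) (nat_lit 1848) (XT.nd (nat_lit 94) (nat_lit 0) (nat_lit 0) (XT.lf (nat_lit 0) (nat_lit 41747431248) (nat_lit 168) (nat_lit 18140178804) (nat_lit 0) (nat_lit 24600841731) (nat_lit 2) (nat_lit 5) (nat_lit 4) (nat_lit 4) (nat_lit 2) (nat_lit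 4) (nat_lit 415) (nat_lit 259) (nat_lit 187)) (XT.nd (nat_lit 47000) (nat_lit 0) (nat_lit 2100) (XT.lf (nat_lit 0) (nat_lit 44196837961) (nat_lit 168) (nat_lit 15865680640) (nat_lit 0) (nat_lit 26985866846) (nat_lit 2) (nat_lit 5) (nat_lit 4) (nat_lit 4) (nat_lit 2) (nat_lit 4) (nat_lit 416) (nat_lit 259) (nat_lit 186)) (XT.lf (nat_lit 0) (nat_lit 1483901118) (nat_lit 252) (nat_lit 2133482531) (nat_lit 252) (nat_lit 2133482531) (nat_lit 27) (nat_lit 4) (nat_lit 30) (nat_lit 5) (nat_lit 30) (nat_lit 4) (nat_lit 341) (nat_lit 260) (nat_lit 260)))) (XT.nd (nat_lit 188) (nat_lit 0) (nat_lit 0) (XT.nd (nat_lit 94) (nat_lit 252) (nat_lit 0) (XT.lf (nat_lit 0) (nat_lit 7655018523) (nat_lit 252) (nat_lit 2401621090) (nat_lit 252) (nat_lit 1683502270) (nat_lit 27) (nat_lit 4) (nat_lit 30) (nat_lit 5) (nat_lit 30) (nat_lit 4) (nat_lit 342) (nat_lit 260) (nat_lit 259)) (XT.lf (nat_lit 0) (nat_lit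 406750864) (nat_lit 168) (nat_lit 490046862) (nat_lit 252) (nat_lit 11091095341) (nat_lit 24) (nat_lit 5) (nat_lit 26) (nat_lit 5) (nat_lit 27) (nat_lit 4) (nat_lit 343) (nat_lit 260) (nat_lit 258))) (XT.nd (nat_lit 94) (nat_lit 0) (nat_lit 0) (XT.lf (nat_lit 0) (nat_lit 3513200338) (nat_lit 252) (nat_lit 7244321645) (nat_lit 0) (nat_lit 1485820385) (nat_lit 24) (nat_lit 5) (nat_lit 27) (nat_lit 4) (nat_lit 24) (nat_lit 4) (nat_lit 344) (nat_lit 260) (nat_lit 257)) (XT.lf (nat_lit 0) (nat_lit 6151046071) (nat_lit 252) (nat_lit 2869682400) (nat_lit 0) (nat_lit 3488098666) (nat_lit 24) (nat_lit 5) (nat_lit 27) (nat_lit 4) (nat_lit 24) (nat_lit 4) (nat_lit 345) (nat_lit 260) (nat_lit 256))))))))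
noncomputable def xc29 : XT := (XT.nd (nat_lit 2256) (nat_lit 504) (nat_lit 0) (XT.nd (nat_lit 1128) (nat_lit 336) (nat_lit 0) (XT.nd (nat_lit 564) (nat_lit 420) (nat_lit 0) (XT.nd (nat_lit 282) (nat_lit 168) (nat_lit 0) (XT.nd (nat_lit 94) (nat_lit 84) (nat_lit 0) (XT.lf (nat_lit 0) (nat_lit 1583620910) (nat_lit 252) (nat_lit 7240021153) (nat_lit 252) (nat_lit 3960616473) (nat_lit 21) (nat_lit 4) (nat_lit 24) (nat_lit 5) (nat_lit 24) (nat_lit 4) (nat_lit 346) (nat_lit 260) (nat_lit 255)) (XT.nd (nat_lit 94) (nat_lit 84) (nat_lit 0) (XT.lf (nat_lit 0) (nat_lit 6147855789) (nat_lit 252) (nat_lit 5399467365) (nat_lit 252) (nat_lit 1522140983) (nat_lit 21) (nat_lit 4) (nat_lit 24) (nat_lit 5) (nat_lit 24) (nat_lit 4) (nat_lit 347) (nat_lit 260) (nat_lit 254)) (XT.lf (nat_lit 0) (nat_lit 911228001) (nat_lit 336) (nat_lit 2606565767) (nat_lit 84) (nat_lit 9847530673) (nat_lit 20) (nat_lit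 5) (nat_lit 24) (nat_lit 5) (nat_lit 21) (nat_lit 4) (nat_lit 348) (nat_lit 260) (nat_lit 253)))) (XT.nd (nat_lit 94) (nat_lit 0) (nat_lit 0) (XT.lf (nat_lit 0) (nat_lit 1778317577) (nat_lit 168) (nat_lit 1568847952) (nat_lit 252) (nat_lit 10324216078) (nat_lit 18) (nat_lit 5) (nat_lit 20) (nat_lit 5) (nat_lit 21) (nat_lit 4) (nat_lit 349) (nat_lit 260) (nat_lit 252)) (XT.nd (nat_lit 94) (nat_lit 0) (nat_lit 0) (XT.lf (nat_lit 0) (nat_lit 5832276074) (nat_lit 252) (nat_lit 7721442331) (nat_lit 0) (nat_lit 434246951) (nat_lit 18) (nat_lit 5) (nat_lit 21) (nat_lit 4) (nat_lit 18) (nat_lit 4) (nat_lit 350) (nat_lit 260) (nat_lit 251)) (XT.lf (nat_lit 0) (nat_lit 8354024036) (nat_lit 252) (nat_lit 3519088279) (nat_lit 0) (nat_lit 2442718875) (nat_lit 18) (nat_lit 5) (nat_lit 21) (nat_lit 4) (nat_lit 18) (nat_lit 4) (nat_lit 351) (nat_lit 260) (nat_lit 250))))) (XT.nd (nat_lit 282) (nat_lit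 168) (nat_lit 0) (XT.nd (nat_lit 94) (nat_lit 84) (nat_lit 0) (XT.lf (nat_lit 0) (nat_lit 748560143) (nat_lit 168) (nat_lit 10158062449) (nat_lit 168) (nat_lit 3748914379) (nat_lit 16) (nat_lit 4) (nat_lit 18) (nat_lit 5) (nat_lit 18) (nat_lit 4) (nat_lit 352) (nat_lit 260) (nat_lit 249)) (XT.nd (nat_lit 94) (nat_lit 84) (nat_lit 0) (XT.lf (nat_lit 0) (nat_lit 5143858606) (nat_lit 168) (nat_lit 8377335791) (nat_lit 168) (nat_lit 1485313900) (nat_lit 16) (nat_lit 4) (nat_lit 18) (nat_lit 5) (nat_lit 18) (nat_lit 4) (nat_lit 353) (nat_lit 260) (nat_lit 248)) (XT.lf (nat_lit 0) (nat_lit 778367302) (nat_lit 252) (nat_lit 5779512720) (nat_lit 84) (nat_lit 8812052454) (nat_lit 15) (nat_lit 5) (nat_lit 18) (nat_lit 5) (nat_lit 16) (nat_lit 4) (nat_lit 354) (nat_lit 260) (nat_lit 247)))) (XT.nd (nat_lit 94) (nat_lit 168) (nat_lit 0) (XT.lf (nat_lit 0) (nat_lit 3029966298) (nat_lit 252) (nat_lit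 1660787535) (nat_lit 84) (nat_lit 11055176571) (nat_lit 15) (nat_lit 5) (nat_lit 18) (nat_lit 5) (nat_lit 16) (nat_lit 4) (nat_lit 355) (nat_lit 260) (nat_lit 246)) (XT.nd (nat_lit 94) (nat_lit 0) (nat_lit 0) (XT.lf (nat_lit 0) (nat_lit 2563753359) (nat_lit 168) (nat_lit 2763186971) (nat_lit 252) (nat_lit 10807580578) (nat_lit 13) (nat_lit 5) (nat_lit 15) (nat_lit 5) (nat_lit 16) (nat_lit 4) (nat_lit 356) (nat_lit 260) (nat_lit 245)) (XT.lf (nat_lit 0) (nat_lit 6881688468) (nat_lit 168) (nat_lit 781687191) (nat_lit 252) (nat_lit 8872940229) (nat_lit 13) (nat_lit 5) (nat_lit 15) (nat_lit 5) (nat_lit 16) (nat_lit 4) (nat_lit 357) (nat_lit 260) (nat_lit 244)))))) (XT.nd (nat_lit 564) (nat_lit 84) (nat_lit 0) (XT.nd (nat_lit 282) (nat_lit 84) (nat_lit 0) (XT.nd (nat_lit 94) (nat_lit 168) (nat_lit 0) (XT.lf (nat_lit 0) (nat_lit 10036919775) (nat_lit 252) (nat_lit 5701601399) (nat_lit 0)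 (nat_lit 1213309128) (nat_lit 13) (nat_lit 5) (nat_lit 16) (nat_lit 4) (nat_lit 13) (nat_lit 4) (nat_lit 358) (nat_lit 260) (nat_lit 243)) (XT.nd (nat_lit 94) (nat_lit 168) (nat_lit 0) (XT.lf (nat_lit 0) (nat_lit 12445644438) (nat_lit 252) (nat_lit 1703864222) (nat_lit 0) (nat_lit 3232071150) (nat_lit 13) (nat_lit 5) (nat_lit 16) (nat_lit 4) (nat_lit 13) (nat_lit 4) (nat_lit 359) (nat_lit 260) (nat_lit 242)) (XT.lf (nat_lit 0) (nat_lit 2398387005) (nat_lit 168) (nat_lit 12509445690) (nat_lit 168) (nat_lit 2917635117) (nat_lit 11) (nat_lit 4) (nat_lit 13) (nat_lit 5) (nat_lit 13) (nat_lit 4) (nat_lit 360) (nat_lit 260) (nat_lit 241)))) (XT.nd (nat_lit 94) (nat_lit 84) (nat_lit 0) (XT.lf (nat_lit 0) (nat_lit 6596876880) (nat_lit 168) (nat_lit 10822945455) (nat_lit 168) (nat_lit 864270396) (nat_lit 11) (nat_lit 4) (nat_lit 13) (nat_lit 5) (nat_lit 13) (nat_lit 4) (nat_lit 361) (nat_lit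 260) (nat_lit 240)) (XT.nd (nat_lit 94) (nat_lit 0) (nat_lit 0) (XT.lf (nat_lit 0) (nat_lit 1183943584) (nat_lit 252) (nat_lit 7909919283) (nat_lit 84) (nat_lit 9664182363) (nat_lit 10) (nat_lit 5) (nat_lit 13) (nat_lit 5) (nat_lit 11) (nat_lit 4) (nat_lit 362) (nat_lit 260) (nat_lit 239)) (XT.lf (nat_lit 0) (nat_lit 3235444221) (nat_lit 252) (nat_lit 4088455962) (nat_lit 84) (nat_lit 11923966540) (nat_lit 10) (nat_lit 5) (nat_lit 13) (nat_lit 5) (nat_lit 11) (nat_lit 4) (nat_lit 363) (nat_lit 260) (nat_lit 238))))) (XT.nd (nat_lit 282) (nat_lit 0) (nat_lit 0) (XT.nd (nat_lit 94) (nat_lit 84) (nat_lit 0) (XT.lf (nat_lit 0) (nat_lit 5309556852) (nat_lit 252) (nat_lit 210690217) (nat_lit 84) (nat_lit 14234032494) (nat_lit 10) (nat_lit 5) (nat_lit 13) (nat_lit 5) (nat_lit 11) (nat_lit 4) (nat_lit 364) (nat_lit 260) (nat_lit 237)) (XT.nd (nat_lit 94) (nat_lit 0) (nat_lit 0) (XT.lf (nat_lit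 0) (nat_lit 3803627045) (nat_lit 84) (nat_lit 3642320172) (nat_lit 168) (nat_lit 12830638855) (nat_lit 9) (nat_lit 5) (nat_lit 10) (nat_lit 5) (nat_lit 11) (nat_lit 4) (nat_lit 365) (nat_lit 260) (nat_lit 236)) (XT.lf (nat_lit 0) (nat_lit 7887171256) (nat_lit 84) (nat_lit 1724444591) (nat_lit 168) (nat_lit 11204741960) (nat_lit 9) (nat_lit 5) (nat_lit 10) (nat_lit 5) (nat_lit 11) (nat_lit 4) (nat_lit 366) (nat_lit 260) (nat_lit 235)))) (XT.nd (nat_lit 94) (nat_lit 0) (nat_lit 0) (XT.lf (nat_lit 0) (nat_lit 11808759396) (nat_lit 168) (nat_lit 9337058609) (nat_lit 0) (nat_lit 228274371) (nat_lit 9) (nat_lit 5) (nat_lit 11) (nat_lit 4) (nat_lit 9) (nat_lit 4) (nat_lit 367) (nat_lit 260) (nat_lit 234)) (XT.nd (nat_lit 94) (nat_lit 0) (nat_lit 0) (XT.lf (nat_lit 0) (nat_lit 14054629622) (nat_lit 168) (nat_lit 5708430750) (nat_lit 0) (nat_lit 2186777956) (nat_lit 9) (nat_lit 5) (nat_lit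 11) (nat_lit 4) (nat_lit 9) (nat_lit 4) (nat_lit 368) (nat_lit 260) (nat_lit 233)) (XT.lf (nat_lit 0) (nat_lit 16334213207) (nat_lit 168) (nat_lit 2022814008) (nat_lit 0) (nat_lit 4187635411) (nat_lit 9) (nat_lit 5) (nat_lit 11) (nat_lit 4) (nat_lit 9) (nat_lit 4) (nat_lit 369) (nat_lit 260) (nat_lit 232))))))) (XT.nd (nat_lit 1128) (nat_lit 168) (nat_lit 0) (XT.nd (nat_lit 564) (nat_lit 84) (nat_lit 0) (XT.nd (nat_lit 282) (nat_lit 84) (nat_lit 0) (XT.nd (nat_lit 94) (nat_lit 0) (nat_lit 0) (XT.lf (nat_lit 0) (nat_lit 1758660077) (nat_lit 168) (nat_lit 16908421010) (nat_lit 168) (nat_lit 4491497792) (nat_lit 7) (nat_lit 4) (nat_lit 9) (nat_lit 5) (nat_lit 9) (nat_lit 4) (nat_lit 370) (nat_lit 260) (nat_lit 231)) (XT.nd (nat_lit 94) (nat_lit 0) (nat_lit 0) (XT.lf (nat_lit 0) (nat_lit 5646957577) (nat_lit 168) (nat_lit 15412114043) (nat_lit 168) (nat_lit 2732974121) (nat_lit 7) (nat_lit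 4) (nat_lit 9) (nat_lit 5) (nat_lit 9) (nat_lit 4) (nat_lit 371) (nat_lit 260) (nat_lit 230)) (XT.lf (nat_lit 0) (nat_lit 9604109586) (nat_lit 168) (nat_lit 13887825629) (nat_lit 168) (nat_lit 954353307) (nat_lit 7) (nat_lit 4) (nat_lit 9) (nat_lit 5) (nat_lit 9) (nat_lit 4) (nat_lit 372) (nat_lit 260) (nat_lit 229)))) (XT.nd (nat_lit 94) (nat_lit 0) (nat_lit 0) (XT.lf (nat_lit 0) (nat_lit 828977040) (nat_lit 252) (nat_lit 11496505111) (nat_lit 84) (nat_lit 12796174724) (nat_lit 6) (nat_lit 5) (nat_lit 9) (nat_lit 5) (nat_lit 7) (nat_lit 4) (nat_lit 373) (nat_lit 260) (nat_lit 228)) (XT.nd (nat_lit 94) (nat_lit 0) (nat_lit 0) (XT.lf (nat_lit 0) (nat_lit 2616040313) (nat_lit 252) (nat_lit 8106247461) (nat_lit 84) (nat_lit 15096452262) (nat_lit 6) (nat_lit 5) (nat_lit 9) (nat_lit 5) (nat_lit 7) (nat_lit 4) (nat_lit 374) (nat_lit 260) (nat_lit 227)) (XT.lf (nat_lit 0) (nat_lit 4427730332)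 (nat_lit 252) (nat_lit 4658778607) (nat_lit 84) (nat_lit 17451972306) (nat_lit 6) (nat_lit 5) (nat_lit 9) (nat_lit 5) (nat_lit 7) (nat_lit 4) (nat_lit 375) (nat_lit 260) (nat_lit 226))))) (XT.nd (nat_lit 282) (nat_lit 0) (nat_lit 0) (XT.nd (nat_lit 94) (nat_lit 84) (nat_lit 0) (XT.lf (nat_lit 0) (nat_lit 6265735783) (nat_lit 252) (nat_lit 1150885148) (nat_lit 84) (nat_lit 19864930446) (nat_lit 6) (nat_lit 5) (nat_lit 9) (nat_lit 5) (nat_lit 7) (nat_lit 4) (nat_lit 376) (nat_lit 260) (nat_lit 225)) (XT.nd (nat_lit 94) (nat_lit 0) (nat_lit 0) (XT.lf (nat_lit 0) (nat_lit 2470477251) (nat_lit 84) (nat_lit 5685800068) (nat_lit 168) (nat_lit 19891606000) (nat_lit 5) (nat_lit 5) (nat_lit 6) (nat_lit 5) (nat_lit 7) (nat_lit 4) (nat_lit 377) (nat_lit 260) (nat_lit 224)) (XT.lf (nat_lit 0) (nat_lit 6183905772) (nat_lit 84) (nat_lit 3905011298) (nat_lit 168) (nat_lit 18749652506) (nat_lit 5)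 (nat_lit 5) (nat_lit 6) (nat_lit 5) (nat_lit 7) (nat_lit 4) (nat_lit 378) (nat_lit 260) (nat_lit 223)))) (XT.nd (nat_lit 94) (nat_lit 0) (nat_lit 0) (XT.lf (nat_lit 0) (nat_lit 9969197160) (nat_lit 84) (nat_lit 2084607620) (nat_lit 168) (nat_lit 17600903571) (nat_lit 5) (nat_lit 5) (nat_lit 6) (nat_lit 5) (nat_lit 7) (nat_lit 4) (nat_lit 379) (nat_lit 260) (nat_lit 222)) (XT.nd (nat_lit 94) (nat_lit 0) (nat_lit 0) (XT.lf (nat_lit 0) (nat_lit 13829879703) (nat_lit 84) (nat_lit 222892227) (nat_lit 168) (nat_lit 16444288442) (nat_lit 5) (nat_lit 5) (nat_lit 6) (nat_lit 5) (nat_lit 7) (nat_lit 4) (nat_lit 380) (nat_lit 260) (nat_lit 221)) (XT.lf (nat_lit 0) (nat_lit 16104366128) (nat_lit 168) (nat_lit 13613543198) (nat_lit 0) (nat_lit 1647984257) (nat_lit 5) (nat_lit 5) (nat_lit 7) (nat_lit 4) (nat_lit 5) (nat_lit 4) (nat_lit 381) (nat_lit 260) (nat_lit 220)))))) (XT.nd (nat_lit 564) (nat_lit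 84) (nat_lit 0) (XT.nd (nat_lit 282) (nat_lit 84) (nat_lit 0) (XT.nd (nat_lit 94) (nat_lit 0) (nat_lit 0) (XT.lf (nat_lit 0) (nat_lit 18196455525) (nat_lit 168) (nat_lit 10507708319) (nat_lit 0) (nat_lit 3558289355) (nat_lit 5) (nat_lit 5) (nat_lit 7) (nat_lit 4) (nat_lit 5) (nat_lit 4) (nat_lit 382) (nat_lit 260) (nat_lit 219)) (XT.nd (nat_lit 94) (nat_lit 0) (nat_lit 0) (XT.lf (nat_lit 0) (nat_lit 20328779049) (nat_lit 168) (nat_lit 7344569950) (nat_lit 0) (nat_lit 5514294450) (nat_lit 5) (nat_lit 5) (nat_lit 7) (nat_lit 4) (nat_lit 5) (nat_lit 4) (nat_lit 383) (nat_lit 260) (nat_lit 218)) (XT.lf (nat_lit 0) (nat_lit 22503324249) (nat_lit 168) (nat_lit 4121179714) (nat_lit 0) (nat_lit 7517822746) (nat_lit 5) (nat_lit 5) (nat_lit 7) (nat_lit 4) (nat_lit 5) (nat_lit 4) (nat_lit 384) (nat_lit 260) (nat_lit 217)))) (XT.nd (nat_lit 94) (nat_lit 84) (nat_lit 0) (XT.lf (nat_lit 0) (nat_lit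 24722118028) (nat_lit 168) (nat_lit 834533074) (nat_lit 0) (nat_lit 9570741740) (nat_lit 5) (nat_lit 5) (nat_lit 7) (nat_lit 4) (nat_lit 5) (nat_lit 4) (nat_lit 385) (nat_lit 260) (nat_lit 216)) (XT.nd (nat_lit 94) (nat_lit 0) (nat_lit 0) (XT.lf (nat_lit 0) (nat_lit 2570217625) (nat_lit 84) (nat_lit 24442507787) (nat_lit 84) (nat_lit 9130244218) (nat_lit 4) (nat_lit 4) (nat_lit 5) (nat_lit 5) (nat_lit 5) (nat_lit 4) (nat_lit 386) (nat_lit 260) (nat_lit 215)) (XT.lf (nat_lit 0) (nat_lit 6063001192) (nat_lit 84) (nat_lit 23297911622) (nat_lit 84) (nat_lit 7829598314) (nat_lit 4) (nat_lit 4) (nat_lit 5) (nat_lit 5) (nat_lit 5) (nat_lit 4) (nat_lit 387) (nat_lit 260) (nat_lit 214))))) (XT.nd (nat_lit 282) (nat_lit 84) (nat_lit 0) (XT.nd (nat_lit 94) (nat_lit 0) (nat_lit 0) (XT.lf (nat_lit 0) (nat_lit 9629913554) (nat_lit 84) (nat_lit 22130506537) (nat_lit 84) (nat_lit 6510835578) (nat_lit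 4) (nat_lit 4) (nat_lit 5) (nat_lit 5) (nat_lit 5) (nat_lit 4) (nat_lit 388) (nat_lit 260) (nat_lit 213)) (XT.nd (nat_lit 94) (nat_lit 0) (nat_lit 0) (XT.lf (nat_lit 0) (nat_lit 13274279447) (nat_lit 84) (nat_lit 20939204388) (nat_lit 84) (nat_lit 5172726785) (nat_lit 4) (nat_lit 4) (nat_lit 5) (nat_lit 5) (nat_lit 5) (nat_lit 4) (nat_lit 389) (nat_lit 260) (nat_lit 212)) (XT.lf (nat_lit 0) (nat_lit 16999495802) (nat_lit 84) (nat_lit 19722894757) (nat_lit 84) (nat_lit 3814024676) (nat_lit 4) (nat_lit 4) (nat_lit 5) (nat_lit 5) (nat_lit 5) (nat_lit 4) (nat_lit 390) (nat_lit 260) (nat_lit 211)))) (XT.nd (nat_lit 188) (nat_lit 84) (nat_lit 0) (XT.nd (nat_lit 94) (nat_lit 0) (nat_lit 0) (XT.lf (nat_lit 0) (nat_lit 20809034910) (nat_lit 84) (nat_lit 18480443917) (nat_lit 84) (nat_lit 2433462799) (nat_lit 4) (nat_lit 4) (nat_lit 5) (nat_lit 5) (nat_lit 5) (nat_lit 4) (nat_lit 391) (nat_lit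 260) (nat_lit 210)) (XT.lf (nat_lit 0) (nat_lit 24706447662) (nat_lit 84) (nat_lit 17210693772) (nat_lit 84) (nat_lit 1029754326) (nat_lit 4) (nat_lit 4) (nat_lit 5) (nat_lit 5) (nat_lit 5) (nat_lit 4) (nat_lit 392) (nat_lit 260) (nat_lit 209))) (XT.nd (nat_lit 94) (nat_lit 0) (nat_lit 0) (XT.lf (nat_lit 0) (nat_lit 390382089) (nat_lit 168) (nat_lit 15518003905) (nat_lit 84) (nat_lit 28300909977) (nat_lit 3) (nat_lit 5) (nat_lit 5) (nat_lit 5) (nat_lit 4) (nat_lit 4) (nat_lit 393) (nat_lit 260) (nat_lit 208)) (XT.lf (nat_lit 0) (nat_lit 1815037913) (nat_lit 168) (nat_lit 12750551673) (nat_lit 84) (nat_lit 30945527391) (nat_lit 3) (nat_lit 5) (nat_lit 5) (nat_lit 5) (nat_lit 4) (nat_lit 4) (nat_lit 394) (nat_lit 260) (nat_lit 207))))))))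
noncomputable def xc30 : XT := (XT.nd (nat_lit 48974) (nat_lit 0) (nat_lit 588) (XT.nd (nat_lit 1128) (nat_lit 0) (nat_lit 0) (XT.nd (nat_lit 564) (nat_lit 0) (nat_lit 0) (XT.nd (nat_lit 282) (nat_lit 84) (nat_lit 0) (XT.nd (nat_lit 94) (nat_lit 0) (nat_lit 0) (XT.lf (nat_lit 0) (nat_lit 3266288329) (nat_lit 168) (nat_lit 9925296557) (nat_lit 84) (nat_lit 33662304000) (nat_lit 3) (nat_lit 5) (nat_lit 5) (nat_lit 5) (nat_lit 4) (nat_lit 4) (nat_lit 395) (nat_lit 260) (nat_lit 206)) (XT.nd (nat_lit 94) (nat_lit 0) (nat_lit 0) (XT.lf (nat_lit 0) (nat_lit 4745486053) (nat_lit 168) (nat_lit 7039605123) (nat_lit 84) (nat_lit 36453772127) (nat_lit 3) (nat_lit 5) (nat_lit 5) (nat_lit 5) (nat_lit 4) (nat_lit 4) (nat_lit 396) (nat_lit 260) (nat_lit 205)) (XT.lf (nat_lit 0) (nat_lit 6254009854) (nat_lit 168) (nat_lit 4090787605) (nat_lit 84) (nat_lit 39322533711) (nat_lit 3) (nat_lit 5) (nat_lit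 5) (nat_lit 5) (nat_lit 4) (nat_lit 4) (nat_lit 397) (nat_lit 260) (nat_lit 204)))) (XT.nd (nat_lit 94) (nat_lit 84) (nat_lit 0) (XT.lf (nat_lit 0) (nat_lit 7793265833) (nat_lit 168) (nat_lit 1076095395) (nat_lit 84) (nat_lit 42271262738) (nat_lit 3) (nat_lit 5) (nat_lit 5) (nat_lit 5) (nat_lit 4) (nat_lit 4) (nat_lit 398) (nat_lit 260) (nat_lit 203)) (XT.nd (nat_lit 94) (nat_lit 0) (nat_lit 0) (XT.lf (nat_lit 0) (nat_lit 2048555339) (nat_lit 84) (nat_lit 7336455321) (nat_lit 168) (nat_lit 43274474316) (nat_lit 2) (nat_lit 5) (nat_lit 3) (nat_lit 5) (nat_lit 4) (nat_lit 4) (nat_lit 399) (nat_lit 260) (nat_lit 202)) (XT.lf (nat_lit 0) (nat_lit 5268362927) (nat_lit 84) (nat_lit 5753643185) (nat_lit 168) (nat_lit 43203594205) (nat_lit 2) (nat_lit 5) (nat_lit 3) (nat_lit 5) (nat_lit 4) (nat_lit 4) (nat_lit 400) (nat_lit 260) (nat_lit 201))))) (XT.nd (nat_lit 282) (nat_lit 0) (nat_lit 0)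 (XT.nd (nat_lit 94) (nat_lit 0) (nat_lit 0) (XT.lf (nat_lit 0) (nat_lit 8564201838) (nat_lit 84) (nat_lit 4130681702) (nat_lit 168) (nat_lit 43145883961) (nat_lit 2) (nat_lit 5) (nat_lit 3) (nat_lit 5) (nat_lit 4) (nat_lit 4) (nat_lit 401) (nat_lit 260) (nat_lit 200)) (XT.nd (nat_lit 94) (nat_lit 0) (nat_lit 0) (XT.lf (nat_lit 0) (nat_lit 11939144138) (nat_lit 84) (nat_lit 2466058102) (nat_lit 168) (nat_lit 43101289793) (nat_lit 2) (nat_lit 5) (nat_lit 3) (nat_lit 5) (nat_lit 4) (nat_lit 4) (nat_lit 402) (nat_lit 260) (nat_lit 199)) (XT.lf (nat_lit 0) (nat_lit 15396335629) (nat_lit 84) (nat_lit 758220782) (nat_lit 168) (nat_lit 43069770134) (nat_lit 2) (nat_lit 5) (nat_lit 3) (nat_lit 5) (nat_lit 4) (nat_lit 4) (nat_lit 403) (nat_lit 260) (nat_lit 198)))) (XT.nd (nat_lit 94) (nat_lit 0) (nat_lit 0) (XT.lf (nat_lit 0) (nat_lit 17954441422) (nat_lit 168) (nat_lit 42066738253) (nat_lit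 0) (nat_lit 974386751) (nat_lit 2) (nat_lit 5) (nat_lit 4) (nat_lit 4) (nat_lit 2) (nat_lit 4) (nat_lit 404) (nat_lit 260) (nat_lit 197)) (XT.nd (nat_lit 94) (nat_lit 0) (nat_lit 0) (XT.lf (nat_lit 0) (nat_lit 19804643298) (nat_lit 168) (nat_lit 40280056576) (nat_lit 0) (nat_lit 2737221429) (nat_lit 2) (nat_lit 5) (nat_lit 4) (nat_lit 4) (nat_lit 2) (nat_lit 4) (nat_lit 405) (nat_lit 260) (nat_lit 196)) (XT.lf (nat_lit 0) (nat_lit 21699364975) (nat_lit 168) (nat_lit 38458758866) (nat_lit 0) (nat_lit 4547202857) (nat_lit 2) (nat_lit 5) (nat_lit 4) (nat_lit 4) (nat_lit 2) (nat_lit 4) (nat_lit 406) (nat_lit 260) (nat_lit 195)))))) (XT.nd (nat_lit 564) (nat_lit 0) (nat_lit 0) (XT.nd (nat_lit 282) (nat_lit 0) (nat_lit 0) (XT.nd (nat_lit 94) (nat_lit 0) (nat_lit 0) (XT.lf (nat_lit 0) (nat_lit 23640372533) (nat_lit 168) (nat_lit 36601147484) (nat_lit 0) (nat_lit 6406018127) (nat_lit 2) (nat_lit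 5) (nat_lit 4) (nat_lit 4) (nat_lit 2) (nat_lit 4) (nat_lit 407) (nat_lit 260) (nat_lit 194)) (XT.nd (nat_lit 94) (nat_lit 0) (nat_lit 0) (XT.lf (nat_lit 0) (nat_lit 25629475195) (nat_lit 168) (nat_lit 34705490940) (nat_lit 0) (nat_lit 8315399849) (nat_lit 2) (nat_lit 5) (nat_lit 4) (nat_lit 4) (nat_lit 2) (nat_lit 4) (nat_lit 408) (nat_lit 260) (nat_lit 193)) (XT.lf (nat_lit 0) (nat_lit 27668527012) (nat_lit 168) (nat_lit 32770022284) (nat_lit 0) (nat_lit 10277127768) (nat_lit 2) (nat_lit 5) (nat_lit 4) (nat_lit 4) (nat_lit 2) (nat_lit 4) (nat_lit 409) (nat_lit 260) (nat_lit 192)))) (XT.nd (nat_lit 94) (nat_lit 0) (nat_lit 0) (XT.lf (nat_lit 0) (nat_lit 29759428595) (nat_lit 168) (nat_lit 30792937457) (nat_lit 0) (nat_lit 12293030419) (nat_lit 2) (nat_lit 5) (nat_lit 4) (nat_lit 4) (nat_lit 2) (nat_lit 4) (nat_lit 410) (nat_lit 260) (nat_lit 191)) (XT.nd (nat_lit 94) (nat_lit 0) (nat_lit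 0) (XT.lf (nat_lit 0) (nat_lit 31904128882) (nat_lit 168) (nat_lit 28772393609) (nat_lit 0) (nat_lit 14364986834) (nat_lit 2) (nat_lit 5) (nat_lit 4) (nat_lit 4) (nat_lit 2) (nat_lit 4) (nat_lit 411) (nat_lit 260) (nat_lit 190)) (XT.lf (nat_lit 0) (nat_lit 34104626960) (nat_lit 168) (nat_lit 26706507380) (nat_lit 0) (nat_lit 16494928295) (nat_lit 2) (nat_lit 5) (nat_lit 4) (nat_lit 4) (nat_lit 2) (nat_lit 4) (nat_lit 412) (nat_lit 260) (nat_lit 189))))) (XT.nd (nat_lit 282) (nat_lit 0) (nat_lit 0) (XT.nd (nat_lit 94) (nat_lit 0) (nat_lit 0) (XT.lf (nat_lit 0) (nat_lit 36362973922) (nat_lit 168) (nat_lit 24593353149) (nat_lit 0) (nat_lit 18684840129) (nat_lit 2) (nat_lit 5) (nat_lit 4) (nat_lit 4) (nat_lit 2) (nat_lit 4) (nat_lit 413) (nat_lit 260) (nat_lit 188)) (XT.nd (nat_lit 94) (nat_lit 0) (nat_lit 0) (XT.lf (nat_lit 0) (nat_lit 38681274784) (nat_lit 168) (nat_lit 22430961235)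 (nat_lit 0) (nat_lit 20936763564) (nat_lit 2) (nat_lit 5) (nat_lit 4) (nat_lit 4) (nat_lit 2) (nat_lit 4) (nat_lit 414) (nat_lit 260) (nat_lit 187)) (XT.lf (nat_lit 0) (nat_lit 41061690447) (nat_lit 168) (nat_lit 20217316061) (nat_lit 0) (nat_lit 23252797629) (nat_lit 2) (nat_lit 5) (nat_lit 4) (nat_lit 4) (nat_lit 2) (nat_lit 4) (nat_lit 415) (nat_lit 260) (nat_lit 186)))) (XT.nd (nat_lit 46812) (nat_lit 0) (nat_lit 2352) (XT.lf (nat_lit 0) (nat_lit 43506439706) (nat_lit 168) (nat_lit 17950354279) (nat_lit 0) (nat_lit 25635101109) (nat_lit 2) (nat_lit 5) (nat_lit 4) (nat_lit 4) (nat_lit 2) (nat_lit 4) (nat_lit 416) (nat_lit 260) (nat_lit 185)) (XT.nd (nat_lit 94) (nat_lit 0) (nat_lit 0) (XT.lf (nat_lit 0) (nat_lit 1240056979) (nat_lit 336) (nat_lit 3044950860) (nat_lit 0) (nat_lit 1240056979) (nat_lit 30) (nat_lit 5) (nat_lit 34) (nat_lit 4) (nat_lit 30) (nat_lit 4) (nat_lit 339)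 (nat_lit 261) (nat_lit 261)) (XT.lf (nat_lit 0) (nat_lit 5188119216) (nat_lit 336) (nat_lit 1636476023) (nat_lit 0) (nat_lit 4447738712) (nat_lit 30) (nat_lit 5) (nat_lit 34) (nat_lit 4) (nat_lit 30) (nat_lit 4) (nat_lit 340) (nat_lit 261) (nat_lit 260))))))) (XT.nd (nat_lit 1128) (nat_lit 588) (nat_lit 0) (XT.nd (nat_lit 564) (nat_lit 420) (nat_lit 0) (XT.nd (nat_lit 282) (nat_lit 252) (nat_lit 0) (XT.nd (nat_lit 94) (nat_lit 252) (nat_lit 0) (XT.lf (nat_lit 0) (nat_lit 2921279818) (nat_lit 252) (nat_lit 5020073986) (nat_lit 252) (nat_lit 3561574661) (nat_lit 27) (nat_lit 4) (nat_lit 30) (nat_lit 5) (nat_lit 30) (nat_lit 4) (nat_lit 341) (nat_lit 261) (nat_lit 259)) (XT.nd (nat_lit 94) (nat_lit 252) (nat_lit 0) (XT.lf (nat_lit 0) (nat_lit 7563372516) (nat_lit 252) (nat_lit 3167075717) (nat_lit 252) (nat_lit 1012049894) (nat_lit 27) (nat_lit 4) (nat_lit 30) (nat_lit 5) (nat_lit 30)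 (nat_lit 4) (nat_lit 342) (nat_lit 261) (nat_lit 258)) (XT.lf (nat_lit 0) (nat_lit 258535998) (nat_lit 168) (nat_lit 1262461162) (nat_lit 252) (nat_lit 10470226621) (nat_lit 24) (nat_lit 5) (nat_lit 26) (nat_lit 5) (nat_lit 27) (nat_lit 4) (nat_lit 343) (nat_lit 261) (nat_lit 257)))) (XT.nd (nat_lit 94) (nat_lit 252) (nat_lit 0) (XT.lf (nat_lit 0) (nat_lit 4097892233) (nat_lit 252) (nat_lit 7433310996) (nat_lit 0) (nat_lit 716826008) (nat_lit 24) (nat_lit 5) (nat_lit 27) (nat_lit 4) (nat_lit 24) (nat_lit 4) (nat_lit 344) (nat_lit 261) (nat_lit 256)) (XT.nd (nat_lit 94) (nat_lit 252) (nat_lit 0) (XT.lf (nat_lit 0) (nat_lit 6704850386) (nat_lit 252) (nat_lit 3102421718) (nat_lit 0) (nat_lit 2707326886) (nat_lit 24) (nat_lit 5) (nat_lit 27) (nat_lit 4) (nat_lit 24) (nat_lit 4) (nat_lit 345) (nat_lit 261) (nat_lit 255)) (XT.lf (nat_lit 0) (nat_lit 1302788957) (nat_lit 252) (nat_lit 8041912678)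 (nat_lit 252) (nat_lit 3446467475) (nat_lit 21) (nat_lit 4) (nat_lit 24) (nat_lit 5) (nat_lit 24) (nat_lit 4) (nat_lit 346) (nat_lit 261) (nat_lit 254))))) (XT.nd (nat_lit 282) (nat_lit 168) (nat_lit 0) (XT.nd (nat_lit 94) (nat_lit 252) (nat_lit 0) (XT.lf (nat_lit 0) (nat_lit 5825018950) (nat_lit 252) (nat_lit 6213889028) (nat_lit 252) (nat_lit 1038500370) (nat_lit 21) (nat_lit 4) (nat_lit 24) (nat_lit 5) (nat_lit 24) (nat_lit 4) (nat_lit 347) (nat_lit 261) (nat_lit 253)) (XT.nd (nat_lit 94) (nat_lit 168) (nat_lit 0) (XT.lf (nat_lit 0) (nat_lit 1356129466) (nat_lit 336) (nat_lit 2983595488) (nat_lit 84) (nat_lit 9034406623) (nat_lit 20) (nat_lit 5) (nat_lit 24) (nat_lit 5) (nat_lit 21) (nat_lit 4) (nat_lit 348) (nat_lit 261) (nat_lit 252)) (XT.lf (nat_lit 0) (nat_lit 1352504107) (nat_lit 168) (nat_lit 2407215711) (nat_lit 252) (nat_lit 9921581110) (nat_lit 18) (nat_lit 5) (nat_lit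 20) (nat_lit 5) (nat_lit 21) (nat_lit 4) (nat_lit 349) (nat_lit 261) (nat_lit 251)))) (XT.nd (nat_lit 94) (nat_lit 168) (nat_lit 0) (XT.lf (nat_lit 0) (nat_lit 5805444683) (nat_lit 168) (nat_lit 407317071) (nat_lit 252) (nat_lit 7786223183) (nat_lit 18) (nat_lit 5) (nat_lit 20) (nat_lit 5) (nat_lit 21) (nat_lit 4) (nat_lit 350) (nat_lit 261) (nat_lit 250)) (XT.nd (nat_lit 94) (nat_lit 168) (nat_lit 0) (XT.lf (nat_lit 0) (nat_lit 8703512212) (nat_lit 252) (nat_lit 4026564782) (nat_lit 0) (nat_lit 1597837643) (nat_lit 18) (nat_lit 5) (nat_lit 21) (nat_lit 4) (nat_lit 18) (nat_lit 4) (nat_lit 351) (nat_lit 261) (nat_lit 249)) (XT.lf (nat_lit 0) (nat_lit 191628753) (nat_lit 168) (nat_lit 11032810853) (nat_lit 168) (nat_lit 3444262464) (nat_lit 16) (nat_lit 4) (nat_lit 18) (nat_lit 5) (nat_lit 18) (nat_lit 4) (nat_lit 352) (nat_lit 261) (nat_lit 248)))))) (XT.nd (nat_lit 564) (nat_lit 336)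 (nat_lit 0) (XT.nd (nat_lit 282) (nat_lit 168) (nat_lit 0) (XT.nd (nat_lit 94) (nat_lit 84) (nat_lit 0) (XT.lf (nat_lit 0) (nat_lit 4549080339) (nat_lit 168) (nat_lit 9264195457) (nat_lit 168) (nat_lit 1207292247) (nat_lit 16) (nat_lit 4) (nat_lit 18) (nat_lit 5) (nat_lit 18) (nat_lit 4) (nat_lit 353) (nat_lit 261) (nat_lit 247)) (XT.nd (nat_lit 94) (nat_lit 0) (nat_lit 0) (XT.lf (nat_lit 0) (nat_lit 1025478300) (nat_lit 252) (nat_lit 6428429159) (nat_lit 84) (nat_lit 7930874958) (nat_lit 15) (nat_lit 5) (nat_lit 18) (nat_lit 5) (nat_lit 16) (nat_lit 4) (nat_lit 354) (nat_lit 261) (nat_lit 246)) (XT.lf (nat_lit 0) (nat_lit 3252529150) (nat_lit 252) (nat_lit 2345902245) (nat_lit 84) (nat_lit 10163198312) (nat_lit 15) (nat_lit 5) (nat_lit 18) (nat_lit 5) (nat_lit 16) (nat_lit 4) (nat_lit 355) (nat_lit 261) (nat_lit 245)))) (XT.nd (nat_lit 94) (nat_lit 0) (nat_lit 0) (XT.lf (nat_lit 0)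 (nat_lit 1828719490) (nat_lit 168) (nat_lit 3689682029) (nat_lit 252) (nat_lit 10632868554) (nat_lit 13) (nat_lit 5) (nat_lit 15) (nat_lit 5) (nat_lit 16) (nat_lit 4) (nat_lit 356) (nat_lit 261) (nat_lit 244)) (XT.nd (nat_lit 94) (nat_lit 0) (nat_lit 0) (XT.lf (nat_lit 0) (nat_lit 6111900191) (nat_lit 168) (nat_lit 1719497773) (nat_lit 252) (nat_lit 8722476829) (nat_lit 13) (nat_lit 5) (nat_lit 15) (nat_lit 5) (nat_lit 16) (nat_lit 4) (nat_lit 357) (nat_lit 261) (nat_lit 243)) (XT.lf (nat_lit 0) (nat_lit 10172795879) (nat_lit 252) (nat_lit 6514031318) (nat_lit 0) (nat_lit 283639178) (nat_lit 13) (nat_lit 5) (nat_lit 16) (nat_lit 4) (nat_lit 13) (nat_lit 4) (nat_lit 358) (nat_lit 261) (nat_lit 242))))) (XT.nd (nat_lit 282) (nat_lit 168) (nat_lit 0) (XT.nd (nat_lit 94) (nat_lit 168) (nat_lit 0) (XT.lf (nat_lit 0) (nat_lit 12559364379) (nat_lit 252) (nat_lit 2549646162) (nat_lit 0) (nat_lit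 2291970393) (nat_lit 13) (nat_lit 5) (nat_lit 16) (nat_lit 4) (nat_lit 13) (nat_lit 4) (nat_lit 359) (nat_lit 261) (nat_lit 241)) (XT.nd (nat_lit 94) (nat_lit 0) (nat_lit 0) (XT.lf (nat_lit 0) (nat_lit 1502199693) (nat_lit 168) (nat_lit 13488972681) (nat_lit 168) (nat_lit 2854714209) (nat_lit 11) (nat_lit 4) (nat_lit 13) (nat_lit 5) (nat_lit 13) (nat_lit 4) (nat_lit 360) (nat_lit 261) (nat_lit 240)) (XT.lf (nat_lit 0) (nat_lit 5668667878) (nat_lit 168) (nat_lit 11813332661) (nat_lit 168) (nat_lit 823240546) (nat_lit 11) (nat_lit 4) (nat_lit 13) (nat_lit 5) (nat_lit 13) (nat_lit 4) (nat_lit 361) (nat_lit 261) (nat_lit 239)))) (XT.nd (nat_lit 188) (nat_lit 84) (nat_lit 0) (XT.nd (nat_lit 94) (nat_lit 0) (nat_lit 0) (XT.lf (nat_lit 0) (nat_lit 1203341729) (nat_lit 252) (nat_lit 8891239538) (nat_lit 84) (nat_lit 8685313875) (nat_lit 10) (nat_lit 5) (nat_lit 13) (nat_lit 5) (nat_lit 11)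 (nat_lit 4) (nat_lit 362) (nat_lit 261) (nat_lit 238)) (XT.lf (nat_lit 0) (nat_lit 3234662885) (nat_lit 252) (nat_lit 5100383277) (nat_lit 84) (nat_lit 10935363177) (nat_lit 10) (nat_lit 5) (nat_lit 13) (nat_lit 5) (nat_lit 11) (nat_lit 4) (nat_lit 363) (nat_lit 261) (nat_lit 237))) (XT.nd (nat_lit 94) (nat_lit 84) (nat_lit 0) (XT.lf (nat_lit 0) (nat_lit 5289202788) (nat_lit 252) (nat_lit 1252304302) (nat_lit 84) (nat_lit 13235986962) (nat_lit 10) (nat_lit 5) (nat_lit 13) (nat_lit 5) (nat_lit 11) (nat_lit 4) (nat_lit 364) (nat_lit 261) (nat_lit 236)) (XT.lf (nat_lit 0) (nat_lit 2711209020) (nat_lit 84) (nat_lit 4684562994) (nat_lit 168) (nat_lit 12905016163) (nat_lit 9) (nat_lit 5) (nat_lit 10) (nat_lit 5) (nat_lit 11) (nat_lit 4) (nat_lit 365) (nat_lit 261) (nat_lit 235))))))))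
noncomputable def xc31 : XT := (XT.nd (nat_lit 2256) (nat_lit 168) (nat_lit 0) (XT.nd (nat_lit 1128) (nat_lit 84) (nat_lit 0) (XT.nd (nat_lit 564) (nat_lit 168) (nat_lit 0) (XT.nd (nat_lit 282) (nat_lit 168) (nat_lit 0) (XT.nd (nat_lit 94) (nat_lit 0) (nat_lit 0) (XT.lf (nat_lit 0) (nat_lit 6766250595) (nat_lit 84) (nat_lit 2776493899) (nat_lit 168) (nat_lit 11298456262) (nat_lit 9) (nat_lit 5) (nat_lit 10) (nat_lit 5) (nat_lit 11) (nat_lit 4) (nat_lit 366) (nat_lit 261) (nat_lit 234)) (XT.nd (nat_lit 94) (nat_lit 0) (nat_lit 0) (XT.lf (nat_lit 0) (nat_lit 10890850201) (nat_lit 84) (nat_lit 828592773) (nat_lit 168) (nat_lit 9680185570) (nat_lit 9) (nat_lit 5) (nat_lit 10) (nat_lit 5) (nat_lit 11) (nat_lit 4) (nat_lit 367) (nat_lit 261) (nat_lit 233)) (XT.lf (nat_lit 0) (nat_lit 13939413192) (nat_lit 168) (nat_lit 6899256482) (nat_lit 0) (nat_lit 1137565355) (nat_lit 9) (nat_lit 5)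 (nat_lit 11) (nat_lit 4) (nat_lit 9) (nat_lit 4) (nat_lit 368) (nat_lit 261) (nat_lit 232)))) (XT.nd (nat_lit 94) (nat_lit 168) (nat_lit 0) (XT.lf (nat_lit 0) (nat_lit 16201848121) (nat_lit 168) (nat_lit 3240143855) (nat_lit 0) (nat_lit 3129654861) (nat_lit 9) (nat_lit 5) (nat_lit 11) (nat_lit 4) (nat_lit 9) (nat_lit 4) (nat_lit 369) (nat_lit 261) (nat_lit 231)) (XT.nd (nat_lit 94) (nat_lit 0) (nat_lit 0) (XT.lf (nat_lit 0) (nat_lit 490063648) (nat_lit 168) (nat_lit 18015434686) (nat_lit 168) (nat_lit 4681024723) (nat_lit 7) (nat_lit 4) (nat_lit 9) (nat_lit 5) (nat_lit 9) (nat_lit 4) (nat_lit 370) (nat_lit 261) (nat_lit 230)) (XT.lf (nat_lit 0) (nat_lit 4352914219) (nat_lit 168) (nat_lit 16528189299) (nat_lit 168) (nat_lit 2939446936) (nat_lit 7) (nat_lit 4) (nat_lit 9) (nat_lit 5) (nat_lit 9) (nat_lit 4) (nat_lit 371) (nat_lit 261) (nat_lit 229))))) (XT.nd (nat_lit 282) (nat_lit 84)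 (nat_lit 0) (XT.nd (nat_lit 94) (nat_lit 84) (nat_lit 0) (XT.lf (nat_lit 0) (nat_lit 8285384435) (nat_lit 168) (nat_lit 15012690003) (nat_lit 168) (nat_lit 1177262480) (nat_lit 7) (nat_lit 4) (nat_lit 9) (nat_lit 5) (nat_lit 9) (nat_lit 4) (nat_lit 372) (nat_lit 261) (nat_lit 228)) (XT.nd (nat_lit 94) (nat_lit 0) (nat_lit 0) (XT.lf (nat_lit 0) (nat_lit 594938039) (nat_lit 252) (nat_lit 12866376222) (nat_lit 84) (nat_lit 11689991798) (nat_lit 6) (nat_lit 5) (nat_lit 9) (nat_lit 5) (nat_lit 7) (nat_lit 4) (nat_lit 373) (nat_lit 261) (nat_lit 227)) (XT.lf (nat_lit 0) (nat_lit 2366850049) (nat_lit 252) (nat_lit 9499696505) (nat_lit 84) (nat_lit 13982358898) (nat_lit 6) (nat_lit 5) (nat_lit 9) (nat_lit 5) (nat_lit 7) (nat_lit 4) (nat_lit 374) (nat_lit 261) (nat_lit 226)))) (XT.nd (nat_lit 94) (nat_lit 84) (nat_lit 0) (XT.lf (nat_lit 0) (nat_lit 4163844372) (nat_lit 252) (nat_lit 6075096646)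 (nat_lit 84) (nat_lit 16330206354) (nat_lit 6) (nat_lit 5) (nat_lit 9) (nat_lit 5) (nat_lit 7) (nat_lit 4) (nat_lit 375) (nat_lit 261) (nat_lit 225)) (XT.nd (nat_lit 94) (nat_lit 84) (nat_lit 0) (XT.lf (nat_lit 0) (nat_lit 5987595995) (nat_lit 252) (nat_lit 2589384560) (nat_lit 84) (nat_lit 18735722605) (nat_lit 6) (nat_lit 5) (nat_lit 9) (nat_lit 5) (nat_lit 7) (nat_lit 4) (nat_lit 376) (nat_lit 261) (nat_lit 224)) (XT.lf (nat_lit 0) (nat_lit 980442535) (nat_lit 84) (nat_lit 6869088422) (nat_lit 168) (nat_lit 20230433420) (nat_lit 5) (nat_lit 5) (nat_lit 6) (nat_lit 5) (nat_lit 7) (nat_lit 4) (nat_lit 377) (nat_lit 261) (nat_lit 223)))))) (XT.nd (nat_lit 564) (nat_lit 84) (nat_lit 0) (XT.nd (nat_lit 282) (nat_lit 0) (nat_lit 0) (XT.nd (nat_lit 94) (nat_lit 0) (nat_lit 0) (XT.lf (nat_lit 0) (nat_lit 4672574445) (nat_lit 84) (nat_lit 5095975449) (nat_lit 168) (nat_lit 19102564179) (nat_lit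 5) (nat_lit 5) (nat_lit 6) (nat_lit 5) (nat_lit 7) (nat_lit 4) (nat_lit 378) (nat_lit 261) (nat_lit 222)) (XT.nd (nat_lit 94) (nat_lit 0) (nat_lit 0) (XT.lf (nat_lit 0) (nat_lit 8437209566) (nat_lit 84) (nat_lit 3283016773) (nat_lit 168) (nat_lit 17967476014) (nat_lit 5) (nat_lit 5) (nat_lit 6) (nat_lit 5) (nat_lit 7) (nat_lit 4) (nat_lit 379) (nat_lit 261) (nat_lit 221)) (XT.lf (nat_lit 0) (nat_lit 12277856933) (nat_lit 84) (nat_lit 1428522527) (nat_lit 168) (nat_lit 16824110904) (nat_lit 5) (nat_lit 5) (nat_lit 6) (nat_lit 5) (nat_lit 7) (nat_lit 4) (nat_lit 380) (nat_lit 261) (nat_lit 220)))) (XT.nd (nat_lit 94) (nat_lit 0) (nat_lit 0) (XT.lf (nat_lit 0) (nat_lit 15733515436) (nat_lit 168) (nat_lit 15206822118) (nat_lit 0) (nat_lit 459781815) (nat_lit 5) (nat_lit 5) (nat_lit 7) (nat_lit 4) (nat_lit 5) (nat_lit 4) (nat_lit 381) (nat_lit 261) (nat_lit 219)) (XT.nd (nat_lit 94) (nat_lit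 0) (nat_lit 0) (XT.lf (nat_lit 0) (nat_lit 17813482408) (nat_lit 168) (nat_lit 12120178470) (nat_lit 0) (nat_lit 2363430359) (nat_lit 5) (nat_lit 5) (nat_lit 7) (nat_lit 4) (nat_lit 5) (nat_lit 4) (nat_lit 382) (nat_lit 261) (nat_lit 218)) (XT.lf (nat_lit 0) (nat_lit 19934048003) (nat_lit 168) (nat_lit 8975654292) (nat_lit 0) (nat_lit 4312979050) (nat_lit 5) (nat_lit 5) (nat_lit 7) (nat_lit 4) (nat_lit 5) (nat_lit 4) (nat_lit 383) (nat_lit 261) (nat_lit 217))))) (XT.nd (nat_lit 282) (nat_lit 0) (nat_lit 0) (XT.nd (nat_lit 94) (nat_lit 84) (nat_lit 0) (XT.lf (nat_lit 0) (nat_lit 22097188810) (nat_lit 168) (nat_lit 5770318558) (nat_lit 0) (nat_lit 6310245071) (nat_lit 5) (nat_lit 5) (nat_lit 7) (nat_lit 4) (nat_lit 5) (nat_lit 4) (nat_lit 384) (nat_lit 261) (nat_lit 216)) (XT.nd (nat_lit 94) (nat_lit 84) (nat_lit 0) (XT.lf (nat_lit 0) (nat_lit 24304921103) (nat_lit 168) (nat_lit 2501183559)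 (nat_lit 0) (nat_lit 8357090084) (nat_lit 5) (nat_lit 5) (nat_lit 7) (nat_lit 4) (nat_lit 5) (nat_lit 4) (nat_lit 385) (nat_lit 261) (nat_lit 215)) (XT.lf (nat_lit 0) (nat_lit 851963037) (nat_lit 84) (nat_lit 25715791262) (nat_lit 84) (nat_lit 9611910504) (nat_lit 4) (nat_lit 4) (nat_lit 5) (nat_lit 5) (nat_lit 5) (nat_lit 4) (nat_lit 386) (nat_lit 261) (nat_lit 214)))) (XT.nd (nat_lit 94) (nat_lit 0) (nat_lit 0) (XT.lf (nat_lit 0) (nat_lit 4327933459) (nat_lit 84) (nat_lit 24577435156) (nat_lit 84) (nat_lit 8322196747) (nat_lit 4) (nat_lit 4) (nat_lit 5) (nat_lit 5) (nat_lit 5) (nat_lit 4) (nat_lit 387) (nat_lit 261) (nat_lit 213)) (XT.nd (nat_lit 94) (nat_lit 0) (nat_lit 0) (XT.lf (nat_lit 0) (nat_lit 7878538213) (nat_lit 84) (nat_lit 23416082505) (nat_lit 84) (nat_lit 7014037451) (nat_lit 4) (nat_lit 4) (nat_lit 5) (nat_lit 5) (nat_lit 5) (nat_lit 4) (nat_lit 388) (nat_lit 261)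 (nat_lit 212)) (XT.lf (nat_lit 0) (nat_lit 11507086833) (nat_lit 84) (nat_lit 22230650807) (nat_lit 84) (nat_lit 5686213275) (nat_lit 4) (nat_lit 4) (nat_lit 5) (nat_lit 5) (nat_lit 5) (nat_lit 4) (nat_lit 389) (nat_lit 261) (nat_lit 211))))))) (XT.nd (nat_lit 1128) (nat_lit 0) (nat_lit 0) (XT.nd (nat_lit 564) (nat_lit 84) (nat_lit 0) (XT.nd (nat_lit 282) (nat_lit 84) (nat_lit 0) (XT.nd (nat_lit 94) (nat_lit 0) (nat_lit 0) (XT.lf (nat_lit 0) (nat_lit 15216961508) (nat_lit 84) (nat_lit 21020035115) (nat_lit 84) (nat_lit 4337486546) (nat_lit 4) (nat_lit 4) (nat_lit 5) (nat_lit 5) (nat_lit 5) (nat_lit 4) (nat_lit 390) (nat_lit 261) (nat_lit 210)) (XT.nd (nat_lit 94) (nat_lit 0) (nat_lit 0) (XT.lf (nat_lit 0) (nat_lit 19011620228) (nat_lit 84) (nat_lit 19783107008) (nat_lit 84) (nat_lit 2966600111) (nat_lit 4) (nat_lit 4) (nat_lit 5) (nat_lit 5) (nat_lit 5) (nat_lit 4) (nat_lit 391) (nat_lit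 261) (nat_lit 209)) (XT.lf (nat_lit 0) (nat_lit 22894600013) (nat_lit 84) (nat_lit 18518713539) (nat_lit 84) (nat_lit 1572276160) (nat_lit 4) (nat_lit 4) (nat_lit 5) (nat_lit 5) (nat_lit 5) (nat_lit 4) (nat_lit 392) (nat_lit 261) (nat_lit 208)))) (XT.nd (nat_lit 94) (nat_lit 84) (nat_lit 0) (XT.lf (nat_lit 0) (nat_lit 26869520208) (nat_lit 84) (nat_lit 17225676162) (nat_lit 84) (nat_lit 153215036) (nat_lit 4) (nat_lit 4) (nat_lit 5) (nat_lit 5) (nat_lit 5) (nat_lit 4) (nat_lit 393) (nat_lit 261) (nat_lit 207)) (XT.nd (nat_lit 94) (nat_lit 0) (nat_lit 0) (XT.lf (nat_lit 0) (nat_lit 1265876946) (nat_lit 168) (nat_lit 14623699525) (nat_lit 84) (nat_lit 29660995748) (nat_lit 3) (nat_lit 5) (nat_lit 5) (nat_lit 5) (nat_lit 4) (nat_lit 4) (nat_lit 394) (nat_lit 261) (nat_lit 206)) (XT.lf (nat_lit 0) (nat_lit 2708736690) (nat_lit 168) (nat_lit 11811810530) (nat_lit 84) (nat_lit 32373080797)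 (nat_lit 3) (nat_lit 5) (nat_lit 5) (nat_lit 5) (nat_lit 4) (nat_lit 4) (nat_lit 395) (nat_lit 261) (nat_lit 205))))) (XT.nd (nat_lit 282) (nat_lit 84) (nat_lit 0) (XT.nd (nat_lit 94) (nat_lit 0) (nat_lit 0) (XT.lf (nat_lit 0) (nat_lit 4179796033) (nat_lit 168) (nat_lit 8939083325) (nat_lit 84) (nat_lit 35159998429) (nat_lit 3) (nat_lit 5) (nat_lit 5) (nat_lit 5) (nat_lit 4) (nat_lit 4) (nat_lit 396) (nat_lit 261) (nat_lit 204)) (XT.nd (nat_lit 94) (nat_lit 0) (nat_lit 0) (XT.lf (nat_lit 0) (nat_lit 5680426156) (nat_lit 168) (nat_lit 6002840229) (nat_lit 84) (nat_lit 38024346342) (nat_lit 3) (nat_lit 5) (nat_lit 5) (nat_lit 5) (nat_lit 4) (nat_lit 4) (nat_lit 397) (nat_lit 261) (nat_lit 203)) (XT.lf (nat_lit 0) (nat_lit 7212025803) (nat_lit 168) (nat_lit 3000344355) (nat_lit 84) (nat_lit 40968794408) (nat_lit 3) (nat_lit 5) (nat_lit 5) (nat_lit 5) (nat_lit 4) (nat_lit 4) (nat_lit 398)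 (nat_lit 261) (nat_lit 202)))) (XT.nd (nat_lit 94) (nat_lit 0) (nat_lit 0) (XT.lf (nat_lit 0) (nat_lit 72667014) (nat_lit 84) (nat_lit 8704076437) (nat_lit 168) (nat_lit 43924141012) (nat_lit 2) (nat_lit 5) (nat_lit 3) (nat_lit 5) (nat_lit 4) (nat_lit 4) (nat_lit 399) (nat_lit 261) (nat_lit 201)) (XT.nd (nat_lit 94) (nat_lit 0) (nat_lit 0) (XT.lf (nat_lit 0) (nat_lit 3280764749) (nat_lit 84) (nat_lit 7125655158) (nat_lit 168) (nat_lit 43860827199) (nat_lit 2) (nat_lit 5) (nat_lit 3) (nat_lit 5) (nat_lit 4) (nat_lit 4) (nat_lit 400) (nat_lit 261) (nat_lit 200)) (XT.lf (nat_lit 0) (nat_lit 6565245897) (nat_lit 84) (nat_lit 5506952508) (nat_lit 168) (nat_lit 43810455751) (nat_lit 2) (nat_lit 5) (nat_lit 3) (nat_lit 5) (nat_lit 4) (nat_lit 4) (nat_lit 401) (nat_lit 261) (nat_lit 199)))))) (XT.nd (nat_lit 564) (nat_lit 0) (nat_lit 0) (XT.nd (nat_lit 282) (nat_lit 0) (nat_lit 0) (XT.nd (nat_lit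 94) (nat_lit 0) (nat_lit 0) (XT.lf (nat_lit 0) (nat_lit 9929171939) (nat_lit 84) (nat_lit 3846459686) (nat_lit 168) (nat_lit 43772979716) (nat_lit 2) (nat_lit 5) (nat_lit 3) (nat_lit 5) (nat_lit 4) (nat_lit 4) (nat_lit 402) (nat_lit 261) (nat_lit 198)) (XT.nd (nat_lit 94) (nat_lit 0) (nat_lit 0) (XT.lf (nat_lit 0) (nat_lit 13375678406) (nat_lit 84) (nat_lit 2142628941) (nat_lit 168) (nat_lit 43748364162) (nat_lit 2) (nat_lit 5) (nat_lit 3) (nat_lit 5) (nat_lit 4) (nat_lit 4) (nat_lit 403) (nat_lit 261) (nat_lit 197)) (XT.lf (nat_lit 0) (nat_lit 16907977803) (nat_lit 84) (nat_lit 393872122) (nat_lit 168) (nat_lit 43736586146) (nat_lit 2) (nat_lit 5) (nat_lit 3) (nat_lit 5) (nat_lit 4) (nat_lit 4) (nat_lit 404) (nat_lit 261) (nat_lit 196)))) (XT.nd (nat_lit 94) (nat_lit 0) (nat_lit 0) (XT.lf (nat_lit 0) (nat_lit 19141824277) (nat_lit 168) (nat_lit 42350096363) (nat_lit 0) (nat_lit 1373204884)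 (nat_lit 2) (nat_lit 5) (nat_lit 4) (nat_lit 4) (nat_lit 2) (nat_lit 4) (nat_lit 405) (nat_lit 261) (nat_lit 195)) (XT.nd (nat_lit 94) (nat_lit 0) (nat_lit 0) (XT.lf (nat_lit 0) (nat_lit 21030415728) (nat_lit 168) (nat_lit 40538718178) (nat_lit 0) (nat_lit 3179604046) (nat_lit 2) (nat_lit 5) (nat_lit 4) (nat_lit 4) (nat_lit 2) (nat_lit 4) (nat_lit 406) (nat_lit 261) (nat_lit 194)) (XT.lf (nat_lit 0) (nat_lit 22965477382) (nat_lit 168) (nat_lit 38690728062) (nat_lit 0) (nat_lit 5034944761) (nat_lit 2) (nat_lit 5) (nat_lit 4) (nat_lit 4) (nat_lit 2) (nat_lit 4) (nat_lit 407) (nat_lit 261) (nat_lit 193))))) (XT.nd (nat_lit 282) (nat_lit 0) (nat_lit 0) (XT.nd (nat_lit 94) (nat_lit 0) (nat_lit 0) (XT.lf (nat_lit 0) (nat_lit 24948812921) (nat_lit 168) (nat_lit 36804403493) (nat_lit 0) (nat_lit 6940956401) (nat_lit 2) (nat_lit 5) (nat_lit 4) (nat_lit 4) (nat_lit 2) (nat_lit 4) (nat_lit 408)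 (nat_lit 261) (nat_lit 192)) (XT.nd (nat_lit 94) (nat_lit 0) (nat_lit 0) (XT.lf (nat_lit 0) (nat_lit 26982271020) (nat_lit 168) (nat_lit 34877986219) (nat_lit 0) (nat_lit 8899415569) (nat_lit 2) (nat_lit 5) (nat_lit 4) (nat_lit 4) (nat_lit 2) (nat_lit 4) (nat_lit 409) (nat_lit 261) (nat_lit 191)) (XT.lf (nat_lit 0) (nat_lit 29067747076) (nat_lit 168) (nat_lit 32909680618) (nat_lit 0) (nat_lit 10912147753) (nat_lit 2) (nat_lit 5) (nat_lit 4) (nat_lit 4) (nat_lit 2) (nat_lit 4) (nat_lit 410) (nat_lit 261) (nat_lit 190)))) (XT.nd (nat_lit 188) (nat_lit 0) (nat_lit 0) (XT.nd (nat_lit 94) (nat_lit 0) (nat_lit 0) (XT.lf (nat_lit 0) (nat_lit 31207184971) (nat_lit 168) (nat_lit 30897652023) (nat_lit 0) (nat_lit 12981029031) (nat_lit 2) (nat_lit 5) (nat_lit 4) (nat_lit 4) (nat_lit 2) (nat_lit 4) (nat_lit 411) (nat_lit 261) (nat_lit 189)) (XT.lf (nat_lit 0) (nat_lit 33402578885) (nat_lit 168)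 (nat_lit 28840025012) (nat_lit 0) (nat_lit 15107987817) (nat_lit 2) (nat_lit 5) (nat_lit 4) (nat_lit 4) (nat_lit 2) (nat_lit 4) (nat_lit 412) (nat_lit 261) (nat_lit 188))) (XT.nd (nat_lit 94) (nat_lit 0) (nat_lit 0) (XT.lf (nat_lit 0) (nat_lit 35655975155) (nat_lit 168) (nat_lit 26734881661) (nat_lit 0) (nat_lit 17295006660) (nat_lit 2) (nat_lit 5) (nat_lit 4) (nat_lit 4) (nat_lit 2) (nat_lit 4) (nat_lit 413) (nat_lit 261) (nat_lit 187)) (XT.lf (nat_lit 0) (nat_lit 37969474183) (nat_lit 168) (nat_lit 24580259756) (nat_lit 0) (nat_lit 19544124090) (nat_lit 2) (nat_lit 5) (nat_lit 4) (nat_lit 4) (nat_lit 2) (nat_lit 4) (nat_lit 414) (nat_lit 261) (nat_lit 186))))))))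
noncomputable def xc32 : XT := (XT.nd (nat_lit 48786) (nat_lit 0) (nat_lit 252) (XT.nd (nat_lit 47658) (nat_lit 0) (nat_lit 924) (XT.nd (nat_lit 47094) (nat_lit 0) (nat_lit 1596) (XT.nd (nat_lit 46812) (nat_lit 0) (nat_lit 2352) (XT.nd (nat_lit 94) (nat_lit 0) (nat_lit 0) (XT.lf (nat_lit 0) (nat_lit 40345232392) (nat_lit 168) (nat_lit 22374150965) (nat_lit 0) (nat_lit 21857436520) (nat_lit 2) (nat_lit 5) (nat_lit 4) (nat_lit 4) (nat_lit 2) (nat_lit 4) (nat_lit 415) (nat_lit 261) (nat_lit 185)) (XT.nd (nat_lit 46624) (nat_lit 0) (nat_lit 2688) (XT.lf (nat_lit 0) (nat_lit 42785464237) (nat_lit 168) (nat_lit 20114498961) (nat_lit 0) (nat_lit 24237100199) (nat_lit 2) (nat_lit 5) (nat_lit 4) (nat_lit 4) (nat_lit 2) (nat_lit 4) (nat_lit 416) (nat_lit 261) (nat_lit 184)) (XT.lf (nat_lit 0) (nat_lit 3237235667) (nat_lit 336) (nat_lit 1038611092) (nat_lit 336) (nat_lit 1038611092) (nat_lit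 34) (nat_lit 4) (nat_lit 38) (nat_lit 5) (nat_lit 38) (nat_lit 4) (nat_lit 337) (nat_lit 262) (nat_lit 262)))) (XT.nd (nat_lit 94) (nat_lit 0) (nat_lit 0) (XT.lf (nat_lit 0) (nat_lit 332765711) (nat_lit 252) (nat_lit 218569252) (nat_lit 336) (nat_lit 10285604591) (nat_lit 30) (nat_lit 5) (nat_lit 33) (nat_lit 5) (nat_lit 34) (nat_lit 4) (nat_lit 338) (nat_lit 262) (nat_lit 261)) (XT.nd (nat_lit 94) (nat_lit 0) (nat_lit 0) (XT.lf (nat_lit 0) (nat_lit 3209080460) (nat_lit 336) (nat_lit 6136899954) (nat_lit 0) (nat_lit 1705367657) (nat_lit 30) (nat_lit 5) (nat_lit 34) (nat_lit 4) (nat_lit 30) (nat_lit 4) (nat_lit 339) (nat_lit 262) (nat_lit 260)) (XT.lf (nat_lit 0) (nat_lit 5883753226) (nat_lit 336) (nat_lit 1729059353) (nat_lit 0) (nat_lit 3661921602) (nat_lit 30) (nat_lit 5) (nat_lit 34) (nat_lit 4) (nat_lit 30) (nat_lit 4) (nat_lit 340) (nat_lit 262) (nat_lit 259))))) (XT.nd (nat_lit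 282) (nat_lit 252) (nat_lit 0) (XT.nd (nat_lit 94) (nat_lit 252) (nat_lit 0) (XT.lf (nat_lit 0) (nat_lit 2781669197) (nat_lit 252) (nat_lit 5821603408) (nat_lit 252) (nat_lit 2903245286) (nat_lit 27) (nat_lit 4) (nat_lit 30) (nat_lit 5) (nat_lit 30) (nat_lit 4) (nat_lit 341) (nat_lit 262) (nat_lit 258)) (XT.nd (nat_lit 94) (nat_lit 252) (nat_lit 0) (XT.lf (nat_lit 0) (nat_lit 7379995079) (nat_lit 252) (nat_lit 3980579633) (nat_lit 252) (nat_lit 386638097) (nat_lit 27) (nat_lit 4) (nat_lit 30) (nat_lit 5) (nat_lit 30) (nat_lit 4) (nat_lit 342) (nat_lit 262) (nat_lit 257)) (XT.lf (nat_lit 0) (nat_lit 16130245) (nat_lit 168) (nat_lit 2083988820) (nat_lit 252) (nat_lit 9896802857) (nat_lit 24) (nat_lit 5) (nat_lit 26) (nat_lit 5) (nat_lit 27) (nat_lit 4) (nat_lit 343) (nat_lit 262) (nat_lit 256)))) (XT.nd (nat_lit 94) (nat_lit 252) (nat_lit 0) (XT.lf (nat_lit 0) (nat_lit 4537006766) (nat_lit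 168) (nat_lit 101981807) (nat_lit 252) (nat_lit 7616045064) (nat_lit 24) (nat_lit 5) (nat_lit 26) (nat_lit 5) (nat_lit 27) (nat_lit 4) (nat_lit 344) (nat_lit 262) (nat_lit 255)) (XT.nd (nat_lit 94) (nat_lit 252) (nat_lit 0) (XT.lf (nat_lit 0) (nat_lit 7214976200) (nat_lit 252) (nat_lit 3428560419) (nat_lit 0) (nat_lit 1879150494) (nat_lit 24) (nat_lit 5) (nat_lit 27) (nat_lit 4) (nat_lit 24) (nat_lit 4) (nat_lit 345) (nat_lit 262) (nat_lit 254)) (XT.lf (nat_lit 0) (nat_lit 927939289) (nat_lit 252) (nat_lit 8894111549) (nat_lit 252) (nat_lit 2978342388) (nat_lit 21) (nat_lit 4) (nat_lit 24) (nat_lit 5) (nat_lit 24) (nat_lit 4) (nat_lit 346) (nat_lit 262) (nat_lit 253)))))) (XT.nd (nat_lit 564) (nat_lit 420) (nat_lit 0) (XT.nd (nat_lit 282) (nat_lit 0) (nat_lit 0) (XT.nd (nat_lit 94) (nat_lit 252) (nat_lit 0) (XT.lf (nat_lit 0) (nat_lit 5409427395) (nat_lit 252) (nat_lit 7078241282)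 (nat_lit 252) (nat_lit 599966344) (nat_lit 21) (nat_lit 4) (nat_lit 24) (nat_lit 5) (nat_lit 24) (nat_lit 4) (nat_lit 347) (nat_lit 262) (nat_lit 252)) (XT.nd (nat_lit 94) (nat_lit 168) (nat_lit 0) (XT.lf (nat_lit 0) (nat_lit 1757704955) (nat_lit 336) (nat_lit 3453968584) (nat_lit 84) (nat_lit 8173531089) (nat_lit 20) (nat_lit 5) (nat_lit 24) (nat_lit 5) (nat_lit 21) (nat_lit 4) (nat_lit 348) (nat_lit 262) (nat_lit 251)) (XT.lf (nat_lit 0) (nat_lit 832661656) (nat_lit 168) (nat_lit 3296199299) (nat_lit 252) (nat_lit 9564624623) (nat_lit 18) (nat_lit 5) (nat_lit 20) (nat_lit 5) (nat_lit 21) (nat_lit 4) (nat_lit 349) (nat_lit 262) (nat_lit 250)))) (XT.nd (nat_lit 94) (nat_lit 0) (nat_lit 0) (XT.lf (nat_lit 0) (nat_lit 5247001338) (nat_lit 168) (nat_lit 1308061351) (nat_lit 252) (nat_lit 7457041887) (nat_lit 18) (nat_lit 5) (nat_lit 20) (nat_lit 5) (nat_lit 21) (nat_lit 4) (nat_lit 350)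 (nat_lit 262) (nat_lit 249)) (XT.nd (nat_lit 94) (nat_lit 0) (nat_lit 0) (XT.lf (nat_lit 0) (nat_lit 9010731318) (nat_lit 252) (nat_lit 4627426230) (nat_lit 0) (nat_lit 704064109) (nat_lit 18) (nat_lit 5) (nat_lit 21) (nat_lit 4) (nat_lit 18) (nat_lit 4) (nat_lit 351) (nat_lit 262) (nat_lit 248)) (XT.lf (nat_lit 0) (nat_lit 11504397564) (nat_lit 252) (nat_lit 450177933) (nat_lit 0) (nat_lit 2729375534) (nat_lit 18) (nat_lit 5) (nat_lit 21) (nat_lit 4) (nat_lit 18) (nat_lit 4) (nat_lit 352) (nat_lit 262) (nat_lit 247))))) (XT.nd (nat_lit 282) (nat_lit 168) (nat_lit 0) (XT.nd (nat_lit 94) (nat_lit 84) (nat_lit 0) (XT.lf (nat_lit 0) (nat_lit 3861308170) (nat_lit 168) (nat_lit 10202406139) (nat_lit 168) (nat_lit 973111731) (nat_lit 16) (nat_lit 4) (nat_lit 18) (nat_lit 5) (nat_lit 18) (nat_lit 4) (nat_lit 353) (nat_lit 262) (nat_lit 246)) (XT.nd (nat_lit 94) (nat_lit 0) (nat_lit 0) (XT.lf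 (nat_lit 0) (nat_lit 1230392454) (nat_lit 252) (nat_lit 7170980695) (nat_lit 84) (nat_lit 7000444609) (nat_lit 15) (nat_lit 5) (nat_lit 18) (nat_lit 5) (nat_lit 16) (nat_lit 4) (nat_lit 354) (nat_lit 262) (nat_lit 245)) (XT.lf (nat_lit 0) (nat_lit 3433633269) (nat_lit 252) (nat_lit 3123563645) (nat_lit 84) (nat_lit 9222291957) (nat_lit 15) (nat_lit 5) (nat_lit 18) (nat_lit 5) (nat_lit 16) (nat_lit 4) (nat_lit 355) (nat_lit 262) (nat_lit 244)))) (XT.nd (nat_lit 94) (nat_lit 0) (nat_lit 0) (XT.lf (nat_lit 0) (nat_lit 1000313368) (nat_lit 168) (nat_lit 4667880262) (nat_lit 252) (nat_lit 10501989414) (nat_lit 13) (nat_lit 5) (nat_lit 15) (nat_lit 5) (nat_lit 16) (nat_lit 4) (nat_lit 356) (nat_lit 262) (nat_lit 243)) (XT.nd (nat_lit 94) (nat_lit 0) (nat_lit 0) (XT.lf (nat_lit 0) (nat_lit 5249784652) (nat_lit 168) (nat_lit 2708671296) (nat_lit 252) (nat_lit 8615117210) (nat_lit 13) (nat_lit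 5) (nat_lit 15) (nat_lit 5) (nat_lit 16) (nat_lit 4) (nat_lit 357) (nat_lit 262) (nat_lit 242)) (XT.lf (nat_lit 0) (nat_lit 9564584284) (nat_lit 168) (nat_lit 710347426) (nat_lit 252) (nat_lit 6716083826) (nat_lit 13) (nat_lit 5) (nat_lit 15) (nat_lit 5) (nat_lit 16) (nat_lit 4) (nat_lit 358) (nat_lit 262) (nat_lit 241))))))) (XT.nd (nat_lit 1128) (nat_lit 336) (nat_lit 0) (XT.nd (nat_lit 564) (nat_lit 84) (nat_lit 0) (XT.nd (nat_lit 282) (nat_lit 84) (nat_lit 0) (XT.nd (nat_lit 94) (nat_lit 168) (nat_lit 0) (XT.lf (nat_lit 0) (nat_lit 12632963503) (nat_lit 252) (nat_lit 3487348558) (nat_lit 0) (nat_lit 1302178532) (nat_lit 13) (nat_lit 5) (nat_lit 16) (nat_lit 4) (nat_lit 13) (nat_lit 4) (nat_lit 359) (nat_lit 262) (nat_lit 240)) (XT.nd (nat_lit 94) (nat_lit 0) (nat_lit 0) (XT.lf (nat_lit 0) (nat_lit 513194524) (nat_lit 168) (nat_lit 14520922105) (nat_lit 168) (nat_lit 2834303491)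 (nat_lit 11) (nat_lit 4) (nat_lit 13) (nat_lit 5) (nat_lit 13) (nat_lit 4) (nat_lit 360) (nat_lit 262) (nat_lit 239)) (XT.lf (nat_lit 0) (nat_lit 4648603845) (nat_lit 168) (nat_lit 12855815757) (nat_lit 168) (nat_lit 824062667) (nat_lit 11) (nat_lit 4) (nat_lit 13) (nat_lit 5) (nat_lit 13) (nat_lit 4) (nat_lit 361) (nat_lit 262) (nat_lit 238)))) (XT.nd (nat_lit 94) (nat_lit 0) (nat_lit 0) (XT.lf (nat_lit 0) (nat_lit 1182356689) (nat_lit 252) (nat_lit 9965143659) (nat_lit 84) (nat_lit 7656328932) (nat_lit 10) (nat_lit 5) (nat_lit 13) (nat_lit 5) (nat_lit 11) (nat_lit 4) (nat_lit 362) (nat_lit 262) (nat_lit 237)) (XT.nd (nat_lit 94) (nat_lit 0) (nat_lit 0) (XT.lf (nat_lit 0) (nat_lit 3194105118) (nat_lit 252) (nat_lit 6203974168) (nat_lit 84) (nat_lit 9896936065) (nat_lit 10) (nat_lit 5) (nat_lit 13) (nat_lit 5) (nat_lit 11) (nat_lit 4) (nat_lit 363) (nat_lit 262) (nat_lit 236)) (XT.lf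 (nat_lit 0) (nat_lit 5229660806) (nat_lit 252) (nat_lit 2384689344) (nat_lit 84) (nat_lit 12188401588) (nat_lit 10) (nat_lit 5) (nat_lit 13) (nat_lit 5) (nat_lit 11) (nat_lit 4) (nat_lit 364) (nat_lit 262) (nat_lit 235))))) (XT.nd (nat_lit 282) (nat_lit 0) (nat_lit 0) (XT.nd (nat_lit 94) (nat_lit 0) (nat_lit 0) (XT.lf (nat_lit 0) (nat_lit 1527037183) (nat_lit 84) (nat_lit 5779032317) (nat_lit 168) (nat_lit 13020972602) (nat_lit 9) (nat_lit 5) (nat_lit 10) (nat_lit 5) (nat_lit 11) (nat_lit 4) (nat_lit 365) (nat_lit 262) (nat_lit 234)) (XT.nd (nat_lit 94) (nat_lit 0) (nat_lit 0) (XT.lf (nat_lit 0) (nat_lit 5554433137) (nat_lit 84) (nat_lit 3880474847) (nat_lit 168) (nat_lit 11433168272) (nat_lit 9) (nat_lit 5) (nat_lit 10) (nat_lit 5) (nat_lit 11) (nat_lit 4) (nat_lit 366) (nat_lit 262) (nat_lit 233)) (XT.lf (nat_lit 0) (nat_lit 9652218366) (nat_lit 84) (nat_lit 1941799351) (nat_lit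 168) (nat_lit 9833089210) (nat_lit 9) (nat_lit 5) (nat_lit 10) (nat_lit 5) (nat_lit 11) (nat_lit 4) (nat_lit 367) (nat_lit 262) (nat_lit 232)))) (XT.nd (nat_lit 94) (nat_lit 0) (nat_lit 0) (XT.lf (nat_lit 0) (nat_lit 13785796132) (nat_lit 168) (nat_lit 8180827668) (nat_lit 0) (nat_lit 38019460) (nat_lit 9) (nat_lit 5) (nat_lit 11) (nat_lit 4) (nat_lit 9) (nat_lit 4) (nat_lit 368) (nat_lit 262) (nat_lit 231)) (XT.nd (nat_lit 94) (nat_lit 0) (nat_lit 0) (XT.lf (nat_lit 0) (nat_lit 16031598028) (nat_lit 168) (nat_lit 4547422232) (nat_lit 0) (nat_lit 2021604652) (nat_lit 9) (nat_lit 5) (nat_lit 11) (nat_lit 4) (nat_lit 9) (nat_lit 4) (nat_lit 369) (nat_lit 262) (nat_lit 230)) (XT.lf (nat_lit 0) (nat_lit 18314253838) (nat_lit 168) (nat_lit 852022648) (nat_lit 0) (nat_lit 4049928062) (nat_lit 9) (nat_lit 5) (nat_lit 11) (nat_lit 4) (nat_lit 9) (nat_lit 4) (nat_lit 370) (nat_lit 262) (nat_lit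 229)))))) (XT.nd (nat_lit 564) (nat_lit 84) (nat_lit 0) (XT.nd (nat_lit 282) (nat_lit 0) (nat_lit 0) (XT.nd (nat_lit 94) (nat_lit 84) (nat_lit 0) (XT.lf (nat_lit 0) (nat_lit 2968626795) (nat_lit 168) (nat_lit 17696713587) (nat_lit 168) (nat_lit 3185702650) (nat_lit 7) (nat_lit 4) (nat_lit 9) (nat_lit 5) (nat_lit 9) (nat_lit 4) (nat_lit 371) (nat_lit 262) (nat_lit 228)) (XT.nd (nat_lit 94) (nat_lit 84) (nat_lit 0) (XT.lf (nat_lit 0) (nat_lit 6877157346) (nat_lit 168) (nat_lit 16189739138) (nat_lit 168) (nat_lit 1439460345) (nat_lit 7) (nat_lit 4) (nat_lit 9) (nat_lit 5) (nat_lit 9) (nat_lit 4) (nat_lit 372) (nat_lit 262) (nat_lit 227)) (XT.lf (nat_lit 0) (nat_lit 322871613) (nat_lit 252) (nat_lit 14326600120) (nat_lit 84) (nat_lit 10533451102) (nat_lit 6) (nat_lit 5) (nat_lit 9) (nat_lit 5) (nat_lit 7) (nat_lit 4) (nat_lit 373) (nat_lit 262) (nat_lit 226)))) (XT.nd (nat_lit 94) (nat_lit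 0) (nat_lit 0) (XT.lf (nat_lit 0) (nat_lit 2080087927) (nat_lit 252) (nat_lit 10982789399) (nat_lit 84) (nat_lit 12818145615) (nat_lit 6) (nat_lit 5) (nat_lit 9) (nat_lit 5) (nat_lit 7) (nat_lit 4) (nat_lit 374) (nat_lit 262) (nat_lit 225)) (XT.nd (nat_lit 94) (nat_lit 0) (nat_lit 0) (XT.lf (nat_lit 0) (nat_lit 3862828422) (nat_lit 252) (nat_lit 7580370913) (nat_lit 84) (nat_lit 15158551182) (nat_lit 6) (nat_lit 5) (nat_lit 9) (nat_lit 5) (nat_lit 7) (nat_lit 4) (nat_lit 375) (nat_lit 262) (nat_lit 224)) (XT.lf (nat_lit 0) (nat_lit 5672754801) (nat_lit 252) (nat_lit 4116173251) (nat_lit 84) (nat_lit 17556849306) (nat_lit 6) (nat_lit 5) (nat_lit 9) (nat_lit 5) (nat_lit 7) (nat_lit 4) (nat_lit 376) (nat_lit 262) (nat_lit 223))))) (XT.nd (nat_lit 282) (nat_lit 0) (nat_lit 0) (XT.nd (nat_lit 94) (nat_lit 84) (nat_lit 0) (XT.lf (nat_lit 0) (nat_lit 7511554103) (nat_lit 252) (nat_lit 586967420)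 (nat_lit 84) (nat_lit 20015275452) (nat_lit 6) (nat_lit 5) (nat_lit 9) (nat_lit 5) (nat_lit 7) (nat_lit 4) (nat_lit 377) (nat_lit 262) (nat_lit 222)) (XT.nd (nat_lit 94) (nat_lit 0) (nat_lit 0) (XT.lf (nat_lit 0) (nat_lit 3072438968) (nat_lit 84) (nat_lit 6338980288) (nat_lit 168) (nat_lit 19494161137) (nat_lit 5) (nat_lit 5) (nat_lit 6) (nat_lit 5) (nat_lit 7) (nat_lit 4) (nat_lit 378) (nat_lit 262) (nat_lit 221)) (XT.lf (nat_lit 0) (nat_lit 6817038913) (nat_lit 84) (nat_lit 4533242759) (nat_lit 168) (nat_lit 18372322990) (nat_lit 5) (nat_lit 5) (nat_lit 6) (nat_lit 5) (nat_lit 7) (nat_lit 4) (nat_lit 379) (nat_lit 262) (nat_lit 220)))) (XT.nd (nat_lit 94) (nat_lit 0) (nat_lit 0) (XT.lf (nat_lit 0) (nat_lit 10638253519) (nat_lit 84) (nat_lit 2685752534) (nat_lit 168) (nat_lit 17241809498) (nat_lit 5) (nat_lit 5) (nat_lit 6) (nat_lit 5) (nat_lit 7) (nat_lit 4) (nat_lit 380) (nat_lit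 262) (nat_lit 219)) (XT.nd (nat_lit 94) (nat_lit 0) (nat_lit 0) (XT.lf (nat_lit 0) (nat_lit 14539644558) (nat_lit 84) (nat_lit 794787560) (nat_lit 168) (nat_lit 16101566904) (nat_lit 5) (nat_lit 5) (nat_lit 6) (nat_lit 5) (nat_lit 7) (nat_lit 4) (nat_lit 381) (nat_lit 262) (nat_lit 218)) (XT.lf (nat_lit 0) (nat_lit 17394756771) (nat_lit 168) (nat_lit 13820440618) (nat_lit 0) (nat_lit 1118417776) (nat_lit 5) (nat_lit 5) (nat_lit 7) (nat_lit 4) (nat_lit 5) (nat_lit 4) (nat_lit 382) (nat_lit 262) (nat_lit 217))))))))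
noncomputable def xc33 : XT := (XT.nd (nat_lit 2256) (nat_lit 0) (nat_lit 0) (XT.nd (nat_lit 1128) (nat_lit 84) (nat_lit 0) (XT.nd (nat_lit 564) (nat_lit 84) (nat_lit 0) (XT.nd (nat_lit 282) (nat_lit 84) (nat_lit 0) (XT.nd (nat_lit 94) (nat_lit 0) (nat_lit 0) (XT.lf (nat_lit 0) (nat_lit 19503917974) (nat_lit 168) (nat_lit 10693970942) (nat_lit 0) (nat_lit 3061704193) (nat_lit 5) (nat_lit 5) (nat_lit 7) (nat_lit 4) (nat_lit 5) (nat_lit 4) (nat_lit 383) (nat_lit 262) (nat_lit 216)) (XT.nd (nat_lit 94) (nat_lit 0) (nat_lit 0) (XT.lf (nat_lit 0) (nat_lit 21655997294) (nat_lit 168) (nat_lit 7506146849) (nat_lit 0) (nat_lit 5052896233) (nat_lit 5) (nat_lit 5) (nat_lit 7) (nat_lit 4) (nat_lit 5) (nat_lit 4) (nat_lit 384) (nat_lit 262) (nat_lit 215)) (XT.lf (nat_lit 0) (nat_lit 23853000697) (nat_lit 168) (nat_lit 4253996953) (nat_lit 0) (nat_lit 7093849897) (nat_lit 5) (nat_lit 5) (nat_lit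 7) (nat_lit 4) (nat_lit 5) (nat_lit 4) (nat_lit 385) (nat_lit 262) (nat_lit 214)))) (XT.nd (nat_lit 94) (nat_lit 84) (nat_lit 0) (XT.lf (nat_lit 0) (nat_lit 26096976017) (nat_lit 168) (nat_lit 934489909) (nat_lit 0) (nat_lit 9186467567) (nat_lit 5) (nat_lit 5) (nat_lit 7) (nat_lit 4) (nat_lit 5) (nat_lit 4) (nat_lit 386) (nat_lit 262) (nat_lit 213)) (XT.nd (nat_lit 94) (nat_lit 0) (nat_lit 0) (XT.lf (nat_lit 0) (nat_lit 2505957875) (nat_lit 84) (nat_lit 25908916414) (nat_lit 84) (nat_lit 8851601318) (nat_lit 4) (nat_lit 4) (nat_lit 5) (nat_lit 5) (nat_lit 5) (nat_lit 4) (nat_lit 387) (nat_lit 262) (nat_lit 212)) (XT.lf (nat_lit 0) (nat_lit 6040745356) (nat_lit 84) (nat_lit 24753434214) (nat_lit 84) (nat_lit 7553726640) (nat_lit 4) (nat_lit 4) (nat_lit 5) (nat_lit 5) (nat_lit 5) (nat_lit 4) (nat_lit 388) (nat_lit 262) (nat_lit 211))))) (XT.nd (nat_lit 282) (nat_lit 84) (nat_lit 0) (XT.nd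 (nat_lit 94) (nat_lit 0) (nat_lit 0) (XT.lf (nat_lit 0) (nat_lit 9653952296) (nat_lit 84) (nat_lit 23573696454) (nat_lit 84) (nat_lit 6235877843) (nat_lit 4) (nat_lit 4) (nat_lit 5) (nat_lit 5) (nat_lit 5) (nat_lit 4) (nat_lit 389) (nat_lit 262) (nat_lit 210)) (XT.nd (nat_lit 94) (nat_lit 0) (nat_lit 0) (XT.lf (nat_lit 0) (nat_lit 13348946581) (nat_lit 84) (nat_lit 22368603495) (nat_lit 84) (nat_lit 4896826557) (nat_lit 4) (nat_lit 4) (nat_lit 5) (nat_lit 5) (nat_lit 5) (nat_lit 4) (nat_lit 390) (nat_lit 262) (nat_lit 209)) (XT.lf (nat_lit 0) (nat_lit 17129172335) (nat_lit 84) (nat_lit 21137032064) (nat_lit 84) (nat_lit 3535324643) (nat_lit 4) (nat_lit 4) (nat_lit 5) (nat_lit 5) (nat_lit 5) (nat_lit 4) (nat_lit 391) (nat_lit 262) (nat_lit 208)))) (XT.nd (nat_lit 94) (nat_lit 84) (nat_lit 0) (XT.lf (nat_lit 0) (nat_lit 20998153123) (nat_lit 84) (nat_lit 19877834209) (nat_lit 84) (nat_lit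 2150103040) (nat_lit 4) (nat_lit 4) (nat_lit 5) (nat_lit 5) (nat_lit 5) (nat_lit 4) (nat_lit 392) (nat_lit 262) (nat_lit 207)) (XT.nd (nat_lit 94) (nat_lit 84) (nat_lit 0) (XT.lf (nat_lit 0) (nat_lit 24959495240) (nat_lit 84) (nat_lit 18589836223) (nat_lit 84) (nat_lit 739870577) (nat_lit 4) (nat_lit 4) (nat_lit 5) (nat_lit 5) (nat_lit 5) (nat_lit 4) (nat_lit 393) (nat_lit 262) (nat_lit 206)) (XT.lf (nat_lit 0) (nat_lit 682650535) (nat_lit 168) (nat_lit 16582061552) (nat_lit 84) (nat_lit 28327115065) (nat_lit 3) (nat_lit 5) (nat_lit 5) (nat_lit 5) (nat_lit 4) (nat_lit 4) (nat_lit 394) (nat_lit 262) (nat_lit 205)))))) (XT.nd (nat_lit 564) (nat_lit 0) (nat_lit 0) (XT.nd (nat_lit 282) (nat_lit 84) (nat_lit 0) (XT.nd (nat_lit 94) (nat_lit 0) (nat_lit 0) (XT.lf (nat_lit 0) (nat_lit 2117371898) (nat_lit 168) (nat_lit 13783136786) (nat_lit 84) (nat_lit 31034649620) (nat_lit 3) (nat_lit 5)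 (nat_lit 5) (nat_lit 5) (nat_lit 4) (nat_lit 4) (nat_lit 395) (nat_lit 262) (nat_lit 204)) (XT.nd (nat_lit 94) (nat_lit 0) (nat_lit 0) (XT.lf (nat_lit 0) (nat_lit 3580537563) (nat_lit 168) (nat_lit 10922984004) (nat_lit 84) (nat_lit 33817153581) (nat_lit 3) (nat_lit 5) (nat_lit 5) (nat_lit 5) (nat_lit 4) (nat_lit 4) (nat_lit 396) (nat_lit 262) (nat_lit 203)) (XT.lf (nat_lit 0) (nat_lit 5073511354) (nat_lit 168) (nat_lit 7998937243) (nat_lit 84) (nat_lit 36677220533) (nat_lit 3) (nat_lit 5) (nat_lit 5) (nat_lit 5) (nat_lit 4) (nat_lit 4) (nat_lit 397) (nat_lit 262) (nat_lit 202)))) (XT.nd (nat_lit 94) (nat_lit 84) (nat_lit 0) (XT.lf (nat_lit 0) (nat_lit 6597684880) (nat_lit 168) (nat_lit 5008270987) (nat_lit 84) (nat_lit 39617516357) (nat_lit 3) (nat_lit 5) (nat_lit 5) (nat_lit 5) (nat_lit 4) (nat_lit 4) (nat_lit 398) (nat_lit 262) (nat_lit 201)) (XT.nd (nat_lit 94) (nat_lit 84) (nat_lit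 0) (XT.lf (nat_lit 0) (nat_lit 8154478829) (nat_lit 168) (nat_lit 1948197621) (nat_lit 84) (nat_lit 42640781718) (nat_lit 3) (nat_lit 5) (nat_lit 5) (nat_lit 5) (nat_lit 4) (nat_lit 4) (nat_lit 399) (nat_lit 262) (nat_lit 200)) (XT.lf (nat_lit 0) (nat_lit 1208483411) (nat_lit 84) (nat_lit 8548849191) (nat_lit 168) (nat_lit 44553339509) (nat_lit 2) (nat_lit 5) (nat_lit 3) (nat_lit 5) (nat_lit 4) (nat_lit 4) (nat_lit 400) (nat_lit 262) (nat_lit 199))))) (XT.nd (nat_lit 282) (nat_lit 0) (nat_lit 0) (XT.nd (nat_lit 94) (nat_lit 0) (nat_lit 0) (XT.lf (nat_lit 0) (nat_lit 4481948300) (nat_lit 84) (nat_lit 6934277320) (nat_lit 168) (nat_lit 44510086194) (nat_lit 2) (nat_lit 5) (nat_lit 3) (nat_lit 5) (nat_lit 4) (nat_lit 4) (nat_lit 401) (nat_lit 262) (nat_lit 198)) (XT.nd (nat_lit 94) (nat_lit 0) (nat_lit 0) (XT.lf (nat_lit 0) (nat_lit 7835189319) (nat_lit 84) (nat_lit 5277791073) (nat_lit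 168) (nat_lit 44479514265) (nat_lit 2) (nat_lit 5) (nat_lit 3) (nat_lit 5) (nat_lit 4) (nat_lit 4) (nat_lit 402) (nat_lit 262) (nat_lit 197)) (XT.lf (nat_lit 0) (nat_lit 11271332039) (nat_lit 84) (nat_lit 3577846433) (nat_lit 168) (nat_lit 44461595225) (nat_lit 2) (nat_lit 5) (nat_lit 3) (nat_lit 5) (nat_lit 4) (nat_lit 4) (nat_lit 403) (nat_lit 262) (nat_lit 196)))) (XT.nd (nat_lit 94) (nat_lit 0) (nat_lit 0) (XT.lf (nat_lit 0) (nat_lit 14793579306) (nat_lit 84) (nat_lit 1832858873) (nat_lit 168) (nat_lit 44456312373) (nat_lit 2) (nat_lit 5) (nat_lit 3) (nat_lit 5) (nat_lit 4) (nat_lit 4) (nat_lit 404) (nat_lit 262) (nat_lit 195)) (XT.nd (nat_lit 94) (nat_lit 0) (nat_lit 0) (XT.lf (nat_lit 0) (nat_lit 18405214222) (nat_lit 84) (nat_lit 41201881) (nat_lit 168) (nat_lit 44463660784) (nat_lit 2) (nat_lit 5) (nat_lit 3) (nat_lit 5) (nat_lit 4) (nat_lit 4) (nat_lit 405) (nat_lit 262) (nat_lit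 194)) (XT.lf (nat_lit 0) (nat_lit 20328652923) (nat_lit 168) (nat_lit 42702697020) (nat_lit 0) (nat_lit 1762552851) (nat_lit 2) (nat_lit 5) (nat_lit 4) (nat_lit 4) (nat_lit 2) (nat_lit 4) (nat_lit 406) (nat_lit 262) (nat_lit 193))))))) (XT.nd (nat_lit 47470) (nat_lit 0) (nat_lit 1344) (XT.nd (nat_lit 564) (nat_lit 0) (nat_lit 0) (XT.nd (nat_lit 282) (nat_lit 0) (nat_lit 0) (XT.nd (nat_lit 94) (nat_lit 0) (nat_lit 0) (XT.lf (nat_lit 0) (nat_lit 22257947454) (nat_lit 168) (nat_lit 40864038879) (nat_lit 0) (nat_lit 3614523483) (nat_lit 2) (nat_lit 5) (nat_lit 4) (nat_lit 4) (nat_lit 2) (nat_lit 4) (nat_lit 407) (nat_lit 262) (nat_lit 192)) (XT.nd (nat_lit 94) (nat_lit 0) (nat_lit 0) (XT.lf (nat_lit 0) (nat_lit 24235689275) (nat_lit 168) (nat_lit 38986765692) (nat_lit 0) (nat_lit 5517266372) (nat_lit 2) (nat_lit 5) (nat_lit 4) (nat_lit 4) (nat_lit 2) (nat_lit 4) (nat_lit 408) (nat_lit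 262) (nat_lit 191)) (XT.lf (nat_lit 0) (nat_lit 26263721848) (nat_lit 168) (nat_lit 37069127644) (nat_lit 0) (nat_lit 7472555074) (nat_lit 2) (nat_lit 5) (nat_lit 4) (nat_lit 4) (nat_lit 2) (nat_lit 4) (nat_lit 409) (nat_lit 262) (nat_lit 190)))) (XT.nd (nat_lit 94) (nat_lit 0) (nat_lit 0) (XT.lf (nat_lit 0) (nat_lit 28343935512) (nat_lit 168) (nat_lit 35109337296) (nat_lit 0) (nat_lit 9482212121) (nat_lit 2) (nat_lit 5) (nat_lit 4) (nat_lit 4) (nat_lit 2) (nat_lit 4) (nat_lit 410) (nat_lit 262) (nat_lit 189)) (XT.nd (nat_lit 94) (nat_lit 0) (nat_lit 0) (XT.lf (nat_lit 0) (nat_lit 30478269243) (nat_lit 168) (nat_lit 33105567919) (nat_lit 0) (nat_lit 11548110725) (nat_lit 2) (nat_lit 5) (nat_lit 4) (nat_lit 4) (nat_lit 2) (nat_lit 4) (nat_lit 411) (nat_lit 262) (nat_lit 188)) (XT.lf (nat_lit 0) (nat_lit 32668712465) (nat_lit 168) (nat_lit 31055951788) (nat_lit 0) (nat_lit 13672176519)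 (nat_lit 2) (nat_lit 5) (nat_lit 4) (nat_lit 4) (nat_lit 2) (nat_lit 4) (nat_lit 412) (nat_lit 262) (nat_lit 187))))) (XT.nd (nat_lit 282) (nat_lit 0) (nat_lit 0) (XT.nd (nat_lit 94) (nat_lit 0) (nat_lit 0) (XT.lf (nat_lit 0) (nat_lit 34917306901) (nat_lit 168) (nat_lit 28958578447) (nat_lit 0) (nat_lit 15856389357) (nat_lit 2) (nat_lit 5) (nat_lit 4) (nat_lit 4) (nat_lit 2) (nat_lit 4) (nat_lit 413) (nat_lit 262) (nat_lit 186)) (XT.nd (nat_lit 94) (nat_lit 0) (nat_lit 0) (XT.lf (nat_lit 0) (nat_lit 37226148474) (nat_lit 168) (nat_lit 26811492924) (nat_lit 0) (nat_lit 18102785152) (nat_lit 2) (nat_lit 5) (nat_lit 4) (nat_lit 4) (nat_lit 2) (nat_lit 4) (nat_lit 414) (nat_lit 262) (nat_lit 185)) (XT.lf (nat_lit 0) (nat_lit 39597389269) (nat_lit 168) (nat_lit 24612693911) (nat_lit 0) (nat_lit 20413457780) (nat_lit 2) (nat_lit 5) (nat_lit 4) (nat_lit 4) (nat_lit 2) (nat_lit 4) (nat_lit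 415) (nat_lit 262) (nat_lit 184)))) (XT.nd (nat_lit 46436) (nat_lit 0) (nat_lit 2688) (XT.lf (nat_lit 0) (nat_lit 42033239529) (nat_lit 168) (nat_lit 22360131897) (nat_lit 0) (nat_lit 22790561032) (nat_lit 2) (nat_lit 5) (nat_lit 4) (nat_lit 4) (nat_lit 2) (nat_lit 4) (nat_lit 416) (nat_lit 262) (nat_lit 183)) (XT.nd (nat_lit 94) (nat_lit 336) (nat_lit 0) (XT.lf (nat_lit 0) (nat_lit 1893436783) (nat_lit 336) (nat_lit 1331163119) (nat_lit 0) (nat_lit 1893436783) (nat_lit 38) (nat_lit 5) (nat_lit 42) (nat_lit 4) (nat_lit 38) (nat_lit 4) (nat_lit 335) (nat_lit 263) (nat_lit 263)) (XT.lf (nat_lit 0) (nat_lit 1831648197) (nat_lit 336) (nat_lit 4704521015) (nat_lit 336) (nat_lit 3893128550) (nat_lit 34) (nat_lit 4) (nat_lit 38) (nat_lit 5) (nat_lit 38) (nat_lit 4) (nat_lit 336) (nat_lit 263) (nat_lit 262)))))) (XT.nd (nat_lit 564) (nat_lit 672) (nat_lit 0) (XT.nd (nat_lit 282) (nat_lit 336)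 (nat_lit 0) (XT.nd (nat_lit 94) (nat_lit 336) (nat_lit 0) (XT.lf (nat_lit 0) (nat_lit 6428977230) (nat_lit 336) (nat_lit 2899776781) (nat_lit 336) (nat_lit 1301388716) (nat_lit 34) (nat_lit 4) (nat_lit 38) (nat_lit 5) (nat_lit 38) (nat_lit 4) (nat_lit 337) (nat_lit 263) (nat_lit 261)) (XT.nd (nat_lit 94) (nat_lit 0) (nat_lit 0) (XT.lf (nat_lit 0) (nat_lit 231330344) (nat_lit 252) (nat_lit 1045405602) (nat_lit 336) (nat_lit 9562423973) (nat_lit 30) (nat_lit 5) (nat_lit 33) (nat_lit 5) (nat_lit 34) (nat_lit 4) (nat_lit 338) (nat_lit 263) (nat_lit 260)) (XT.lf (nat_lit 0) (nat_lit 3892946633) (nat_lit 336) (nat_lit 6277938463) (nat_lit 0) (nat_lit 884119408) (nat_lit 30) (nat_lit 5) (nat_lit 34) (nat_lit 4) (nat_lit 30) (nat_lit 4) (nat_lit 339) (nat_lit 263) (nat_lit 259)))) (XT.nd (nat_lit 94) (nat_lit 336) (nat_lit 0) (XT.lf (nat_lit 0) (nat_lit 6535289145) (nat_lit 336) (nat_lit 1914312310)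 (nat_lit 0) (nat_lit 2829935422) (nat_lit 30) (nat_lit 5) (nat_lit 34) (nat_lit 4) (nat_lit 30) (nat_lit 4) (nat_lit 340) (nat_lit 263) (nat_lit 258)) (XT.nd (nat_lit 94) (nat_lit 84) (nat_lit 0) (XT.lf (nat_lit 0) (nat_lit 2548840243) (nat_lit 252) (nat_lit 6672300439) (nat_lit 252) (nat_lit 2291363303) (nat_lit 27) (nat_lit 4) (nat_lit 30) (nat_lit 5) (nat_lit 30) (nat_lit 4) (nat_lit 341) (nat_lit 263) (nat_lit 257)) (XT.lf (nat_lit 0) (nat_lit 189421179) (nat_lit 336) (nat_lit 4651492761) (nat_lit 84) (nat_lit 6913316936) (nat_lit 26) (nat_lit 5) (nat_lit 30) (nat_lit 5) (nat_lit 27) (nat_lit 4) (nat_lit 342) (nat_lit 263) (nat_lit 256))))) (XT.nd (nat_lit 282) (nat_lit 504) (nat_lit 0) (XT.nd (nat_lit 94) (nat_lit 168) (nat_lit 0) (XT.lf (nat_lit 0) (nat_lit 2637884551) (nat_lit 336) (nat_lit 314231104) (nat_lit 84) (nat_lit 9052778523) (nat_lit 26) (nat_lit 5) (nat_lit 30) (nat_lit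 5) (nat_lit 27) (nat_lit 4) (nat_lit 343) (nat_lit 263) (nat_lit 255)) (XT.nd (nat_lit 94) (nat_lit 0) (nat_lit 0) (XT.lf (nat_lit 0) (nat_lit 4158682807) (nat_lit 168) (nat_lit 985046740) (nat_lit 252) (nat_lit 7120423743) (nat_lit 24) (nat_lit 5) (nat_lit 26) (nat_lit 5) (nat_lit 27) (nat_lit 4) (nat_lit 344) (nat_lit 263) (nat_lit 254)) (XT.lf (nat_lit 0) (nat_lit 7681899005) (nat_lit 252) (nat_lit 3848402498) (nat_lit 0) (nat_lit 1002797544) (nat_lit 24) (nat_lit 5) (nat_lit 27) (nat_lit 4) (nat_lit 24) (nat_lit 4) (nat_lit 345) (nat_lit 263) (nat_lit 253)))) (XT.nd (nat_lit 188) (nat_lit 252) (nat_lit 0) (XT.nd (nat_lit 94) (nat_lit 0) (nat_lit 0) (XT.lf (nat_lit 0) (nat_lit 458722509) (nat_lit 252) (nat_lit 9797412106) (nat_lit 252) (nat_lit 2555804868) (nat_lit 21) (nat_lit 4) (nat_lit 24) (nat_lit 5) (nat_lit 24) (nat_lit 4) (nat_lit 346) (nat_lit 263) (nat_lit 252)) (XT.lf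 (nat_lit 0) (nat_lit 4900693749) (nat_lit 252) (nat_lit 7993329794) (nat_lit 252) (nat_lit 206130145) (nat_lit 21) (nat_lit 4) (nat_lit 24) (nat_lit 5) (nat_lit 24) (nat_lit 4) (nat_lit 347) (nat_lit 263) (nat_lit 251))) (XT.nd (nat_lit 94) (nat_lit 168) (nat_lit 0) (XT.lf (nat_lit 0) (nat_lit 2116328781) (nat_lit 336) (nat_lit 4018123490) (nat_lit 84) (nat_lit 7264101645) (nat_lit 20) (nat_lit 5) (nat_lit 24) (nat_lit 5) (nat_lit 21) (nat_lit 4) (nat_lit 348) (nat_lit 263) (nat_lit 250)) (XT.lf (nat_lit 0) (nat_lit 218305674) (nat_lit 168) (nat_lit 4236627342) (nat_lit 252) (nat_lit 9253013896) (nat_lit 18) (nat_lit 5) (nat_lit 20) (nat_lit 5) (nat_lit 21) (nat_lit 4) (nat_lit 349) (nat_lit 263) (nat_lit 249))))))))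
noncomputable def xc34 : XT := (XT.nd (nat_lit 2256) (nat_lit 252) (nat_lit 0) (XT.nd (nat_lit 1128) (nat_lit 420) (nat_lit 0) (XT.nd (nat_lit 564) (nat_lit 336) (nat_lit 0) (XT.nd (nat_lit 282) (nat_lit 252) (nat_lit 0) (XT.nd (nat_lit 94) (nat_lit 0) (nat_lit 0) (XT.lf (nat_lit 0) (nat_lit 4595205111) (nat_lit 168) (nat_lit 2259896465) (nat_lit 252) (nat_lit 7172371208) (nat_lit 18) (nat_lit 5) (nat_lit 20) (nat_lit 5) (nat_lit 21) (nat_lit 4) (nat_lit 350) (nat_lit 263) (nat_lit 248)) (XT.nd (nat_lit 94) (nat_lit 0) (nat_lit 0) (XT.lf (nat_lit 0) (nat_lit 9034033690) (nat_lit 168) (nat_lit 244358088) (nat_lit 252) (nat_lit 5080298665) (nat_lit 18) (nat_lit 5) (nat_lit 20) (nat_lit 5) (nat_lit 21) (nat_lit 4) (nat_lit 351) (nat_lit 263) (nat_lit 247)) (XT.lf (nat_lit 0) (nat_lit 11745036321) (nat_lit 252) (nat_lit 1180953692) (nat_lit 0) (nat_lit 1775361409) (nat_lit 18) (nat_lit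 5) (nat_lit 21) (nat_lit 4) (nat_lit 18) (nat_lit 4) (nat_lit 352) (nat_lit 263) (nat_lit 246)))) (XT.nd (nat_lit 94) (nat_lit 84) (nat_lit 0) (XT.lf (nat_lit 0) (nat_lit 3079901022) (nat_lit 168) (nat_lit 11192842346) (nat_lit 168) (nat_lit 782554072) (nat_lit 16) (nat_lit 4) (nat_lit 18) (nat_lit 5) (nat_lit 18) (nat_lit 4) (nat_lit 353) (nat_lit 263) (nat_lit 245)) (XT.nd (nat_lit 94) (nat_lit 0) (nat_lit 0) (XT.lf (nat_lit 0) (nat_lit 1393300766) (nat_lit 252) (nat_lit 8007859463) (nat_lit 84) (nat_lit 6019894150) (nat_lit 15) (nat_lit 5) (nat_lit 18) (nat_lit 5) (nat_lit 16) (nat_lit 4) (nat_lit 354) (nat_lit 263) (nat_lit 244)) (XT.lf (nat_lit 0) (nat_lit 3573447464) (nat_lit 252) (nat_lit 3994496598) (nat_lit 84) (nat_lit 8231580483) (nat_lit 15) (nat_lit 5) (nat_lit 18) (nat_lit 5) (nat_lit 16) (nat_lit 4) (nat_lit 355) (nat_lit 263) (nat_lit 243))))) (XT.nd (nat_lit 282) (nat_lit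 168) (nat_lit 0) (XT.nd (nat_lit 94) (nat_lit 0) (nat_lit 0) (XT.lf (nat_lit 0) (nat_lit 77762830) (nat_lit 168) (nat_lit 5698693453) (nat_lit 252) (nat_lit 10414821167) (nat_lit 13) (nat_lit 5) (nat_lit 15) (nat_lit 5) (nat_lit 16) (nat_lit 4) (nat_lit 356) (nat_lit 263) (nat_lit 242)) (XT.nd (nat_lit 94) (nat_lit 0) (nat_lit 0) (XT.lf (nat_lit 0) (nat_lit 4294538269) (nat_lit 168) (nat_lit 3750129772) (nat_lit 252) (nat_lit 8550761301) (nat_lit 13) (nat_lit 5) (nat_lit 15) (nat_lit 5) (nat_lit 16) (nat_lit 4) (nat_lit 357) (nat_lit 263) (nat_lit 241)) (XT.lf (nat_lit 0) (nat_lit 8577625151) (nat_lit 168) (nat_lit 1762131107) (nat_lit 252) (nat_lit 6673854335) (nat_lit 13) (nat_lit 5) (nat_lit 15) (nat_lit 5) (nat_lit 16) (nat_lit 4) (nat_lit 358) (nat_lit 263) (nat_lit 240)))) (XT.nd (nat_lit 94) (nat_lit 168) (nat_lit 0) (XT.lf (nat_lit 0) (nat_lit 12666510411) (nat_lit 252) (nat_lit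 4517845447) (nat_lit 0) (nat_lit 261772976) (nat_lit 13) (nat_lit 5) (nat_lit 16) (nat_lit 4) (nat_lit 13) (nat_lit 4) (nat_lit 359) (nat_lit 263) (nat_lit 239)) (XT.nd (nat_lit 94) (nat_lit 168) (nat_lit 0) (XT.lf (nat_lit 0) (nat_lit 15042355499) (nat_lit 252) (nat_lit 558075188) (nat_lit 0) (nat_lit 2292483589) (nat_lit 13) (nat_lit 5) (nat_lit 16) (nat_lit 4) (nat_lit 13) (nat_lit 4) (nat_lit 360) (nat_lit 263) (nat_lit 238)) (XT.lf (nat_lit 0) (nat_lit 3535733972) (nat_lit 168) (nat_lit 13951366445) (nat_lit 168) (nat_lit 866737528) (nat_lit 11) (nat_lit 4) (nat_lit 13) (nat_lit 5) (nat_lit 13) (nat_lit 4) (nat_lit 361) (nat_lit 263) (nat_lit 237)))))) (XT.nd (nat_lit 564) (nat_lit 252) (nat_lit 0) (XT.nd (nat_lit 282) (nat_lit 84) (nat_lit 0) (XT.nd (nat_lit 94) (nat_lit 0) (nat_lit 0) (XT.lf (nat_lit 0) (nat_lit 1120968905) (nat_lit 252) (nat_lit 11132632638) (nat_lit 84) (nat_lit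 6576268412) (nat_lit 10) (nat_lit 5) (nat_lit 13) (nat_lit 5) (nat_lit 11) (nat_lit 4) (nat_lit 362) (nat_lit 263) (nat_lit 236)) (XT.nd (nat_lit 94) (nat_lit 0) (nat_lit 0) (XT.lf (nat_lit 0) (nat_lit 3113733118) (nat_lit 252) (nat_lit 7400257297) (nat_lit 84) (nat_lit 8807717282) (nat_lit 10) (nat_lit 5) (nat_lit 13) (nat_lit 5) (nat_lit 11) (nat_lit 4) (nat_lit 363) (nat_lit 263) (nat_lit 235)) (XT.lf (nat_lit 0) (nat_lit 5130875405) (nat_lit 252) (nat_lit 3608900844) (nat_lit 84) (nat_lit 11090299912) (nat_lit 10) (nat_lit 5) (nat_lit 13) (nat_lit 5) (nat_lit 11) (nat_lit 4) (nat_lit 364) (nat_lit 263) (nat_lit 234)))) (XT.nd (nat_lit 94) (nat_lit 0) (nat_lit 0) (XT.lf (nat_lit 0) (nat_lit 250007761) (nat_lit 84) (nat_lit 6926748299) (nat_lit 168) (nat_lit 13178616255) (nat_lit 9) (nat_lit 5) (nat_lit 10) (nat_lit 5) (nat_lit 11) (nat_lit 4) (nat_lit 365) (nat_lit 263) (nat_lit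 233)) (XT.nd (nat_lit 94) (nat_lit 0) (nat_lit 0) (XT.lf (nat_lit 0) (nat_lit 4250589339) (nat_lit 84) (nat_lit 5037416460) (nat_lit 168) (nat_lit 11609003556) (nat_lit 9) (nat_lit 5) (nat_lit 10) (nat_lit 5) (nat_lit 11) (nat_lit 4) (nat_lit 366) (nat_lit 263) (nat_lit 232)) (XT.lf (nat_lit 0) (nat_lit 8322366444) (nat_lit 84) (nat_lit 3107689200) (nat_lit 168) (nat_lit 10026569140) (nat_lit 9) (nat_lit 5) (nat_lit 10) (nat_lit 5) (nat_lit 11) (nat_lit 4) (nat_lit 367) (nat_lit 263) (nat_lit 231))))) (XT.nd (nat_lit 282) (nat_lit 252) (nat_lit 0) (XT.nd (nat_lit 94) (nat_lit 0) (nat_lit 0) (XT.lf (nat_lit 0) (nat_lit 12469134401) (nat_lit 84) (nat_lit 1135767810) (nat_lit 168) (nat_lit 8429838012) (nat_lit 9) (nat_lit 5) (nat_lit 10) (nat_lit 5) (nat_lit 11) (nat_lit 4) (nat_lit 368) (nat_lit 263) (nat_lit 230)) (XT.nd (nat_lit 94) (nat_lit 0) (nat_lit 0) (XT.lf (nat_lit 0) (nat_lit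 15823304238) (nat_lit 168) (nat_lit 5945867660) (nat_lit 0) (nat_lit 862451963) (nat_lit 9) (nat_lit 5) (nat_lit 11) (nat_lit 4) (nat_lit 9) (nat_lit 4) (nat_lit 369) (nat_lit 263) (nat_lit 229)) (XT.lf (nat_lit 0) (nat_lit 18090312219) (nat_lit 168) (nat_lit 2274652587) (nat_lit 0) (nat_lit 2882774783) (nat_lit 9) (nat_lit 5) (nat_lit 11) (nat_lit 4) (nat_lit 9) (nat_lit 4) (nat_lit 370) (nat_lit 263) (nat_lit 228)))) (XT.nd (nat_lit 94) (nat_lit 84) (nat_lit 0) (XT.lf (nat_lit 0) (nat_lit 1492805003) (nat_lit 168) (nat_lit 18918776092) (nat_lit 168) (nat_lit 3471970800) (nat_lit 7) (nat_lit 4) (nat_lit 9) (nat_lit 5) (nat_lit 9) (nat_lit 4) (nat_lit 371) (nat_lit 263) (nat_lit 227)) (XT.nd (nat_lit 94) (nat_lit 84) (nat_lit 0) (XT.lf (nat_lit 0) (nat_lit 5378115706) (nat_lit 168) (nat_lit 17420070166) (nat_lit 168) (nat_lit 1741191299) (nat_lit 7) (nat_lit 4) (nat_lit 9) (nat_lit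 5) (nat_lit 9) (nat_lit 4) (nat_lit 372) (nat_lit 263) (nat_lit 226)) (XT.lf (nat_lit 0) (nat_lit 12524170) (nat_lit 252) (nat_lit 15878537889) (nat_lit 84) (nat_lit 9325474619) (nat_lit 6) (nat_lit 5) (nat_lit 9) (nat_lit 5) (nat_lit 7) (nat_lit 4) (nat_lit 373) (nat_lit 263) (nat_lit 225))))))) (XT.nd (nat_lit 1128) (nat_lit 168) (nat_lit 0) (XT.nd (nat_lit 564) (nat_lit 0) (nat_lit 0) (XT.nd (nat_lit 282) (nat_lit 84) (nat_lit 0) (XT.nd (nat_lit 94) (nat_lit 0) (nat_lit 0) (XT.lf (nat_lit 0) (nat_lit 1755486656) (nat_lit 252) (nat_lit 12556908540) (nat_lit 84) (nat_lit 11602727244) (nat_lit 6) (nat_lit 5) (nat_lit 9) (nat_lit 5) (nat_lit 7) (nat_lit 4) (nat_lit 374) (nat_lit 263) (nat_lit 224)) (XT.nd (nat_lit 94) (nat_lit 0) (nat_lit 0) (XT.lf (nat_lit 0) (nat_lit 3524401906) (nat_lit 252) (nat_lit 9176004479) (nat_lit 84) (nat_lit 13935914684) (nat_lit 6) (nat_lit 5) (nat_lit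 9) (nat_lit 5) (nat_lit 7) (nat_lit 4) (nat_lit 375) (nat_lit 263) (nat_lit 223)) (XT.lf (nat_lit 0) (nat_lit 5320918735) (nat_lit 252) (nat_lit 5732674350) (nat_lit 84) (nat_lit 16327211715) (nat_lit 6) (nat_lit 5) (nat_lit 9) (nat_lit 5) (nat_lit 7) (nat_lit 4) (nat_lit 376) (nat_lit 263) (nat_lit 222)))) (XT.nd (nat_lit 94) (nat_lit 84) (nat_lit 0) (XT.lf (nat_lit 0) (nat_lit 7146711685) (nat_lit 252) (nat_lit 2223708608) (nat_lit 84) (nat_lit 18778847276) (nat_lit 6) (nat_lit 5) (nat_lit 9) (nat_lit 5) (nat_lit 7) (nat_lit 4) (nat_lit 377) (nat_lit 263) (nat_lit 221)) (XT.nd (nat_lit 94) (nat_lit 0) (nat_lit 0) (XT.lf (nat_lit 0) (nat_lit 1382007848) (nat_lit 84) (nat_lit 7635184426) (nat_lit 168) (nat_lit 19924808388) (nat_lit 5) (nat_lit 5) (nat_lit 6) (nat_lit 5) (nat_lit 7) (nat_lit 4) (nat_lit 378) (nat_lit 263) (nat_lit 220)) (XT.lf (nat_lit 0) (nat_lit 5107175032) (nat_lit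 84) (nat_lit 5836450919) (nat_lit 168) (nat_lit 18815821860) (nat_lit 5) (nat_lit 5) (nat_lit 6) (nat_lit 5) (nat_lit 7) (nat_lit 4) (nat_lit 379) (nat_lit 263) (nat_lit 219))))) (XT.nd (nat_lit 282) (nat_lit 0) (nat_lit 0) (XT.nd (nat_lit 94) (nat_lit 0) (nat_lit 0) (XT.lf (nat_lit 0) (nat_lit 8909541179) (nat_lit 84) (nat_lit 3995754120) (nat_lit 168) (nat_lit 17697773566) (nat_lit 5) (nat_lit 5) (nat_lit 6) (nat_lit 5) (nat_lit 7) (nat_lit 4) (nat_lit 380) (nat_lit 263) (nat_lit 218)) (XT.nd (nat_lit 94) (nat_lit 0) (nat_lit 0) (XT.lf (nat_lit 0) (nat_lit 12792650494) (nat_lit 84) (nat_lit 2111378308) (nat_lit 168) (nat_lit 16569621367) (nat_lit 5) (nat_lit 5) (nat_lit 6) (nat_lit 5) (nat_lit 7) (nat_lit 4) (nat_lit 381) (nat_lit 263) (nat_lit 217)) (XT.lf (nat_lit 0) (nat_lit 16760122439) (nat_lit 84) (nat_lit 181567046) (nat_lit 168) (nat_lit 15430313707) (nat_lit 5) (nat_lit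 5) (nat_lit 6) (nat_lit 5) (nat_lit 7) (nat_lit 4) (nat_lit 382) (nat_lit 263) (nat_lit 216)))) (XT.nd (nat_lit 94) (nat_lit 0) (nat_lit 0) (XT.lf (nat_lit 0) (nat_lit 19037988034) (nat_lit 168) (nat_lit 12501121551) (nat_lit 0) (nat_lit 1759303560) (nat_lit 5) (nat_lit 5) (nat_lit 7) (nat_lit 4) (nat_lit 5) (nat_lit 4) (nat_lit 383) (nat_lit 263) (nat_lit 215)) (XT.nd (nat_lit 94) (nat_lit 0) (nat_lit 0) (XT.lf (nat_lit 0) (nat_lit 21179338464) (nat_lit 168) (nat_lit 9330282561) (nat_lit 0) (nat_lit 3744604251) (nat_lit 5) (nat_lit 5) (nat_lit 7) (nat_lit 4) (nat_lit 5) (nat_lit 4) (nat_lit 384) (nat_lit 263) (nat_lit 214)) (XT.lf (nat_lit 0) (nat_lit 23365935570) (nat_lit 168) (nat_lit 6094607061) (nat_lit 0) (nat_lit 5779843706) (nat_lit 5) (nat_lit 5) (nat_lit 7) (nat_lit 4) (nat_lit 5) (nat_lit 4) (nat_lit 385) (nat_lit 263) (nat_lit 213)))))) (XT.nd (nat_lit 564) (nat_lit 84)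 (nat_lit 0) (XT.nd (nat_lit 282) (nat_lit 0) (nat_lit 0) (XT.nd (nat_lit 94) (nat_lit 84) (nat_lit 0) (XT.lf (nat_lit 0) (nat_lit 25599817491) (nat_lit 168) (nat_lit 2791079064) (nat_lit 0) (nat_lit 7866918982) (nat_lit 5) (nat_lit 5) (nat_lit 7) (nat_lit 4) (nat_lit 5) (nat_lit 4) (nat_lit 386) (nat_lit 263) (nat_lit 212)) (XT.nd (nat_lit 94) (nat_lit 0) (nat_lit 0) (XT.lf (nat_lit 0) (nat_lit 595376167) (nat_lit 84) (nat_lit 27293596476) (nat_lit 84) (nat_lit 9418305489) (nat_lit 4) (nat_lit 4) (nat_lit 5) (nat_lit 5) (nat_lit 5) (nat_lit 4) (nat_lit 387) (nat_lit 263) (nat_lit 211)) (XT.lf (nat_lit 0) (nat_lit 4114821967) (nat_lit 84) (nat_lit 26143808214) (nat_lit 84) (nat_lit 8130406190) (nat_lit 4) (nat_lit 4) (nat_lit 5) (nat_lit 5) (nat_lit 5) (nat_lit 4) (nat_lit 388) (nat_lit 263) (nat_lit 210)))) (XT.nd (nat_lit 94) (nat_lit 0) (nat_lit 0) (XT.lf (nat_lit 0) (nat_lit 7713148518)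 (nat_lit 84) (nat_lit 24969593187) (nat_lit 84) (nat_lit 6822232836) (nat_lit 4) (nat_lit 4) (nat_lit 5) (nat_lit 5) (nat_lit 5) (nat_lit 4) (nat_lit 389) (nat_lit 263) (nat_lit 209)) (XT.nd (nat_lit 94) (nat_lit 0) (nat_lit 0) (XT.lf (nat_lit 0) (nat_lit 11393709838) (nat_lit 84) (nat_lit 23769856905) (nat_lit 84) (nat_lit 5492566071) (nat_lit 4) (nat_lit 4) (nat_lit 5) (nat_lit 5) (nat_lit 5) (nat_lit 4) (nat_lit 390) (nat_lit 263) (nat_lit 208)) (XT.lf (nat_lit 0) (nat_lit 15159936593) (nat_lit 84) (nat_lit 22543481087) (nat_lit 84) (nat_lit 4140166506) (nat_lit 4) (nat_lit 4) (nat_lit 5) (nat_lit 5) (nat_lit 5) (nat_lit 4) (nat_lit 391) (nat_lit 263) (nat_lit 207))))) (XT.nd (nat_lit 282) (nat_lit 0) (nat_lit 0) (XT.nd (nat_lit 94) (nat_lit 84) (nat_lit 0) (XT.lf (nat_lit 0) (nat_lit 19015339304) (nat_lit 84) (nat_lit 21289322623) (nat_lit 84) (nat_lit 2763773563) (nat_lit 4) (nat_lit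 4) (nat_lit 5) (nat_lit 5) (nat_lit 5) (nat_lit 4) (nat_lit 392) (nat_lit 263) (nat_lit 206)) (XT.nd (nat_lit 94) (nat_lit 84) (nat_lit 0) (XT.lf (nat_lit 0) (nat_lit 22963511608) (nat_lit 84) (nat_lit 20006212505) (nat_lit 84) (nat_lit 1362104301) (nat_lit 4) (nat_lit 4) (nat_lit 5) (nat_lit 5) (nat_lit 5) (nat_lit 4) (nat_lit 393) (nat_lit 263) (nat_lit 205)) (XT.lf (nat_lit 0) (nat_lit 64815053) (nat_lit 168) (nat_lit 18627463151) (nat_lit 84) (nat_lit 26942642027) (nat_lit 3) (nat_lit 5) (nat_lit 5) (nat_lit 5) (nat_lit 4) (nat_lit 4) (nat_lit 394) (nat_lit 263) (nat_lit 204)))) (XT.nd (nat_lit 188) (nat_lit 0) (nat_lit 0) (XT.nd (nat_lit 94) (nat_lit 0) (nat_lit 0) (XT.lf (nat_lit 0) (nat_lit 1491642737) (nat_lit 168) (nat_lit 15841112807) (nat_lit 84) (nat_lit 29645762911) (nat_lit 3) (nat_lit 5) (nat_lit 5) (nat_lit 5) (nat_lit 4) (nat_lit 4) (nat_lit 395) (nat_lit 263) (nat_lit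 203)) (XT.lf (nat_lit 0) (nat_lit 2947152071) (nat_lit 168) (nat_lit 12993156361) (nat_lit 84) (nat_lit 32423985911) (nat_lit 3) (nat_lit 5) (nat_lit 5) (nat_lit 5) (nat_lit 4) (nat_lit 4) (nat_lit 396) (nat_lit 263) (nat_lit 202))) (XT.nd (nat_lit 94) (nat_lit 0) (nat_lit 0) (XT.lf (nat_lit 0) (nat_lit 4432699740) (nat_lit 168) (nat_lit 10080939219) (nat_lit 84) (nat_lit 35279900621) (nat_lit 3) (nat_lit 5) (nat_lit 5) (nat_lit 5) (nat_lit 4) (nat_lit 4) (nat_lit 397) (nat_lit 263) (nat_lit 201)) (XT.lf (nat_lit 0) (nat_lit 5949670432) (nat_lit 168) (nat_lit 7101746889) (nat_lit 84) (nat_lit 38216169053) (nat_lit 3) (nat_lit 5) (nat_lit 5) (nat_lit 5) (nat_lit 4) (nat_lit 4) (nat_lit 398) (nat_lit 263) (nat_lit 200))))))))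
noncomputable def xc35 : XT := (XT.nd (nat_lit 48410) (nat_lit 0) (nat_lit 672) (XT.nd (nat_lit 1128) (nat_lit 0) (nat_lit 0) (XT.nd (nat_lit 564) (nat_lit 0) (nat_lit 0) (XT.nd (nat_lit 282) (nat_lit 0) (nat_lit 0) (XT.nd (nat_lit 94) (nat_lit 84) (nat_lit 0) (XT.lf (nat_lit 0) (nat_lit 7499478122) (nat_lit 168) (nat_lit 4052802452) (nat_lit 84) (nat_lit 41235528117) (nat_lit 3) (nat_lit 5) (nat_lit 5) (nat_lit 5) (nat_lit 4) (nat_lit 4) (nat_lit 399) (nat_lit 263) (nat_lit 199)) (XT.nd (nat_lit 94) (nat_lit 84) (nat_lit 0) (XT.lf (nat_lit 0) (nat_lit 9083567393) (nat_lit 168) (nat_lit 931263972) (nat_lit 84) (nat_lit 44340792171) (nat_lit 3) (nat_lit 5) (nat_lit 5) (nat_lit 5) (nat_lit 4) (nat_lit 4) (nat_lit 400) (nat_lit 263) (nat_lit 198)) (XT.lf (nat_lit 0) (nat_lit 2312367196) (nat_lit 84) (nat_lit 8413986554) (nat_lit 168) (nat_lit 45245427420) (nat_lit 2) (nat_lit 5) (nat_lit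 3) (nat_lit 5) (nat_lit 4) (nat_lit 4) (nat_lit 401) (nat_lit 263) (nat_lit 197)))) (XT.nd (nat_lit 94) (nat_lit 0) (nat_lit 0) (XT.lf (nat_lit 0) (nat_lit 5655244468) (nat_lit 84) (nat_lit 6761386413) (nat_lit 168) (nat_lit 45221552004) (nat_lit 2) (nat_lit 5) (nat_lit 3) (nat_lit 5) (nat_lit 4) (nat_lit 4) (nat_lit 402) (nat_lit 263) (nat_lit 196)) (XT.nd (nat_lit 94) (nat_lit 0) (nat_lit 0) (XT.lf (nat_lit 0) (nat_lit 9081335057) (nat_lit 84) (nat_lit 5065211031) (nat_lit 168) (nat_lit 45210128129) (nat_lit 2) (nat_lit 5) (nat_lit 3) (nat_lit 5) (nat_lit 4) (nat_lit 4) (nat_lit 403) (nat_lit 263) (nat_lit 195)) (XT.lf (nat_lit 0) (nat_lit 12593832439) (nat_lit 84) (nat_lit 3323879396) (nat_lit 168) (nat_lit 45211145144) (nat_lit 2) (nat_lit 5) (nat_lit 3) (nat_lit 5) (nat_lit 4) (nat_lit 4) (nat_lit 404) (nat_lit 263) (nat_lit 194))))) (XT.nd (nat_lit 282) (nat_lit 0) (nat_lit 0)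 (XT.nd (nat_lit 94) (nat_lit 0) (nat_lit 0) (XT.lf (nat_lit 0) (nat_lit 16196010630) (nat_lit 84) (nat_lit 1535768403) (nat_lit 168) (nat_lit 45224604000) (nat_lit 2) (nat_lit 5) (nat_lit 3) (nat_lit 5) (nat_lit 4) (nat_lit 4) (nat_lit 405) (nat_lit 263) (nat_lit 193)) (XT.nd (nat_lit 94) (nat_lit 0) (nat_lit 0) (XT.lf (nat_lit 0) (nat_lit 19593422444) (nat_lit 168) (nat_lit 44952712447) (nat_lit 0) (nat_lit 294728431) (nat_lit 2) (nat_lit 5) (nat_lit 4) (nat_lit 4) (nat_lit 2) (nat_lit 4) (nat_lit 406) (nat_lit 263) (nat_lit 192)) (XT.lf (nat_lit 0) (nat_lit 21517123257) (nat_lit 168) (nat_lit 43123105688) (nat_lit 0) (nat_lit 2143430313) (nat_lit 2) (nat_lit 5) (nat_lit 4) (nat_lit 4) (nat_lit 2) (nat_lit 4) (nat_lit 407) (nat_lit 263) (nat_lit 191)))) (XT.nd (nat_lit 94) (nat_lit 0) (nat_lit 0) (XT.lf (nat_lit 0) (nat_lit 23489439552) (nat_lit 168) (nat_lit 41254611727) (nat_lit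 0) (nat_lit 4043002736) (nat_lit 2) (nat_lit 5) (nat_lit 4) (nat_lit 4) (nat_lit 2) (nat_lit 4) (nat_lit 408) (nat_lit 263) (nat_lit 190)) (XT.nd (nat_lit 94) (nat_lit 0) (nat_lit 0) (XT.lf (nat_lit 0) (nat_lit 25512209732) (nat_lit 168) (nat_lit 39345488933) (nat_lit 0) (nat_lit 5995216300) (nat_lit 2) (nat_lit 5) (nat_lit 4) (nat_lit 4) (nat_lit 2) (nat_lit 4) (nat_lit 409) (nat_lit 263) (nat_lit 189)) (XT.lf (nat_lit 0) (nat_lit 27587319233) (nat_lit 168) (nat_lit 37393957802) (nat_lit 0) (nat_lit 8001890672) (nat_lit 2) (nat_lit 5) (nat_lit 4) (nat_lit 4) (nat_lit 2) (nat_lit 4) (nat_lit 410) (nat_lit 263) (nat_lit 188)))))) (XT.nd (nat_lit 46718) (nat_lit 0) (nat_lit 2352) (XT.nd (nat_lit 282) (nat_lit 0) (nat_lit 0) (XT.nd (nat_lit 94) (nat_lit 0) (nat_lit 0) (XT.lf (nat_lit 0) (nat_lit 29716702272) (nat_lit 168) (nat_lit 35398199305) (nat_lit 0) (nat_lit 10064896285) (nat_lit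 2) (nat_lit 5) (nat_lit 4) (nat_lit 4) (nat_lit 2) (nat_lit 4) (nat_lit 411) (nat_lit 263) (nat_lit 187)) (XT.nd (nat_lit 94) (nat_lit 0) (nat_lit 0) (XT.lf (nat_lit 0) (nat_lit 31902343660) (nat_lit 168) (nat_lit 33356353184) (nat_lit 0) (nat_lit 12186156074) (nat_lit 2) (nat_lit 5) (nat_lit 4) (nat_lit 4) (nat_lit 2) (nat_lit 4) (nat_lit 412) (nat_lit 263) (nat_lit 186)) (XT.lf (nat_lit 0) (nat_lit 34146280641) (nat_lit 168) (nat_lit 31266516225) (nat_lit 0) (nat_lit 14367647276) (nat_lit 2) (nat_lit 5) (nat_lit 4) (nat_lit 4) (nat_lit 2) (nat_lit 4) (nat_lit 413) (nat_lit 263) (nat_lit 185)))) (XT.nd (nat_lit 94) (nat_lit 0) (nat_lit 0) (XT.lf (nat_lit 0) (nat_lit 36450604801) (nat_lit 168) (nat_lit 29126740481) (nat_lit 0) (nat_lit 16611403270) (nat_lit 2) (nat_lit 5) (nat_lit 4) (nat_lit 4) (nat_lit 2) (nat_lit 4) (nat_lit 414) (nat_lit 263) (nat_lit 184)) (XT.nd (nat_lit 94)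 (nat_lit 0) (nat_lit 0) (XT.lf (nat_lit 0) (nat_lit 38817464010) (nat_lit 168) (nat_lit 26935031458) (nat_lit 0) (nat_lit 18919515472) (nat_lit 2) (nat_lit 5) (nat_lit 4) (nat_lit 4) (nat_lit 2) (nat_lit 4) (nat_lit 415) (nat_lit 263) (nat_lit 183)) (XT.lf (nat_lit 0) (nat_lit 41249064430) (nat_lit 168) (nat_lit 24689346252) (nat_lit 0) (nat_lit 21294135282) (nat_lit 2) (nat_lit 5) (nat_lit 4) (nat_lit 4) (nat_lit 2) (nat_lit 4) (nat_lit 416) (nat_lit 263) (nat_lit 182))))) (XT.nd (nat_lit 282) (nat_lit 672) (nat_lit 0) (XT.nd (nat_lit 94) (nat_lit 336) (nat_lit 0) (XT.lf (nat_lit 0) (nat_lit 4177801074) (nat_lit 336) (nat_lit 378839620) (nat_lit 336) (nat_lit 378839620) (nat_lit 42) (nat_lit 4) (nat_lit 46) (nat_lit 5) (nat_lit 46) (nat_lit 4) (nat_lit 333) (nat_lit 264) (nat_lit 264)) (XT.nd (nat_lit 94) (nat_lit 0) (nat_lit 0) (XT.lf (nat_lit 0) (nat_lit 1905601290) (nat_lit 336)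 (nat_lit 7075919209) (nat_lit 0) (nat_lit 1069055659) (nat_lit 38) (nat_lit 5) (nat_lit 42) (nat_lit 4) (nat_lit 38) (nat_lit 4) (nat_lit 334) (nat_lit 264) (nat_lit 263)) (XT.lf (nat_lit 0) (nat_lit 4588488230) (nat_lit 336) (nat_lit 2708285640) (nat_lit 0) (nat_lit 2940550135) (nat_lit 38) (nat_lit 5) (nat_lit 42) (nat_lit 4) (nat_lit 38) (nat_lit 4) (nat_lit 335) (nat_lit 264) (nat_lit 262)))) (XT.nd (nat_lit 94) (nat_lit 336) (nat_lit 0) (XT.lf (nat_lit 0) (nat_lit 1739249670) (nat_lit 336) (nat_lit 5563736936) (nat_lit 336) (nat_lit 3128803240) (nat_lit 34) (nat_lit 4) (nat_lit 38) (nat_lit 5) (nat_lit 38) (nat_lit 4) (nat_lit 336) (nat_lit 264) (nat_lit 261)) (XT.nd (nat_lit 94) (nat_lit 336) (nat_lit 0) (XT.lf (nat_lit 0) (nat_lit 6292452510) (nat_lit 336) (nat_lit 3769819212) (nat_lit 336) (nat_lit 571553217) (nat_lit 34) (nat_lit 4) (nat_lit 38) (nat_lit 5) (nat_lit 38) (nat_lit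 4) (nat_lit 337) (nat_lit 264) (nat_lit 260)) (XT.lf (nat_lit 0) (nat_lit 36332685) (nat_lit 252) (nat_lit 1920821023) (nat_lit 336) (nat_lit 8886688580) (nat_lit 30) (nat_lit 5) (nat_lit 33) (nat_lit 5) (nat_lit 34) (nat_lit 4) (nat_lit 338) (nat_lit 264) (nat_lit 259))))))) (XT.nd (nat_lit 1128) (nat_lit 672) (nat_lit 0) (XT.nd (nat_lit 564) (nat_lit 504) (nat_lit 0) (XT.nd (nat_lit 282) (nat_lit 252) (nat_lit 0) (XT.nd (nat_lit 94) (nat_lit 252) (nat_lit 0) (XT.lf (nat_lit 0) (nat_lit 4532349912) (nat_lit 336) (nat_lit 6513148710) (nat_lit 0) (nat_lit 15603725) (nat_lit 30) (nat_lit 5) (nat_lit 34) (nat_lit 4) (nat_lit 30) (nat_lit 4) (nat_lit 339) (nat_lit 264) (nat_lit 258)) (XT.nd (nat_lit 94) (nat_lit 252) (nat_lit 0) (XT.lf (nat_lit 0) (nat_lit 7143334274) (nat_lit 336) (nat_lit 2192407569) (nat_lit 0) (nat_lit 1951004674) (nat_lit 30) (nat_lit 5) (nat_lit 34) (nat_lit 4) (nat_lit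 30) (nat_lit 4) (nat_lit 340) (nat_lit 264) (nat_lit 257)) (XT.lf (nat_lit 0) (nat_lit 2222575934) (nat_lit 252) (nat_lit 7572958017) (nat_lit 252) (nat_lit 1725358375) (nat_lit 27) (nat_lit 4) (nat_lit 30) (nat_lit 5) (nat_lit 30) (nat_lit 4) (nat_lit 341) (nat_lit 264) (nat_lit 256)))) (XT.nd (nat_lit 94) (nat_lit 168) (nat_lit 0) (XT.lf (nat_lit 0) (nat_lit 713678487) (nat_lit 336) (nat_lit 5033686084) (nat_lit 84) (nat_lit 6016148716) (nat_lit 26) (nat_lit 5) (nat_lit 30) (nat_lit 5) (nat_lit 27) (nat_lit 4) (nat_lit 342) (nat_lit 264) (nat_lit 255)) (XT.nd (nat_lit 94) (nat_lit 168) (nat_lit 0) (XT.lf (nat_lit 0) (nat_lit 3132710353) (nat_lit 336) (nat_lit 737089640) (nat_lit 84) (nat_lit 8145412608) (nat_lit 26) (nat_lit 5) (nat_lit 30) (nat_lit 5) (nat_lit 27) (nat_lit 4) (nat_lit 343) (nat_lit 264) (nat_lit 254)) (XT.lf (nat_lit 0) (nat_lit 3686875919) (nat_lit 168) (nat_lit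 1918452485) (nat_lit 252) (nat_lit 6670293263) (nat_lit 24) (nat_lit 5) (nat_lit 26) (nat_lit 5) (nat_lit 27) (nat_lit 4) (nat_lit 344) (nat_lit 264) (nat_lit 253))))) (XT.nd (nat_lit 282) (nat_lit 168) (nat_lit 0) (XT.nd (nat_lit 94) (nat_lit 336) (nat_lit 0) (XT.lf (nat_lit 0) (nat_lit 8106054021) (nat_lit 252) (nat_lit 4362339292) (nat_lit 0) (nat_lit 77451183) (nat_lit 24) (nat_lit 5) (nat_lit 27) (nat_lit 4) (nat_lit 24) (nat_lit 4) (nat_lit 345) (nat_lit 264) (nat_lit 252)) (XT.nd (nat_lit 94) (nat_lit 336) (nat_lit 0) (XT.lf (nat_lit 0) (nat_lit 10648402150) (nat_lit 252) (nat_lit 103177209) (nat_lit 0) (nat_lit 2074206900) (nat_lit 24) (nat_lit 5) (nat_lit 27) (nat_lit 4) (nat_lit 24) (nat_lit 4) (nat_lit 346) (nat_lit 264) (nat_lit 251)) (XT.lf (nat_lit 0) (nat_lit 140486629) (nat_lit 336) (nat_lit 8818054501) (nat_lit 84) (nat_lit 4156390798) (nat_lit 20) (nat_lit 5) (nat_lit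 24) (nat_lit 5) (nat_lit 21) (nat_lit 4) (nat_lit 347) (nat_lit 264) (nat_lit 250)))) (XT.nd (nat_lit 94) (nat_lit 168) (nat_lit 0) (XT.lf (nat_lit 0) (nat_lit 2432335216) (nat_lit 336) (nat_lit 4676586059) (nat_lit 84) (nat_lit 6305270608) (nat_lit 20) (nat_lit 5) (nat_lit 24) (nat_lit 5) (nat_lit 21) (nat_lit 4) (nat_lit 348) (nat_lit 264) (nat_lit 249)) (XT.nd (nat_lit 94) (nat_lit 168) (nat_lit 0) (XT.lf (nat_lit 0) (nat_lit 4743112071) (nat_lit 336) (nat_lit 481241175) (nat_lit 84) (nat_lit 8500194129) (nat_lit 20) (nat_lit 5) (nat_lit 24) (nat_lit 5) (nat_lit 21) (nat_lit 4) (nat_lit 349) (nat_lit 264) (nat_lit 248)) (XT.lf (nat_lit 0) (nat_lit 3849448460) (nat_lit 168) (nat_lit 3263709626) (nat_lit 252) (nat_lit 6931945806) (nat_lit 18) (nat_lit 5) (nat_lit 20) (nat_lit 5) (nat_lit 21) (nat_lit 4) (nat_lit 350) (nat_lit 264) (nat_lit 247)))))) (XT.nd (nat_lit 564) (nat_lit 420)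 (nat_lit 0) (XT.nd (nat_lit 282) (nat_lit 84) (nat_lit 0) (XT.nd (nat_lit 94) (nat_lit 168) (nat_lit 0) (XT.lf (nat_lit 0) (nat_lit 8253054442) (nat_lit 168) (nat_lit 1258902660) (nat_lit 252) (nat_lit 4865217606) (nat_lit 18) (nat_lit 5) (nat_lit 20) (nat_lit 5) (nat_lit 21) (nat_lit 4) (nat_lit 351) (nat_lit 264) (nat_lit 246)) (XT.nd (nat_lit 94) (nat_lit 168) (nat_lit 0) (XT.lf (nat_lit 0) (nat_lit 11944679196) (nat_lit 252) (nat_lit 2005240574) (nat_lit 0) (nat_lit 771058622) (nat_lit 18) (nat_lit 5) (nat_lit 21) (nat_lit 4) (nat_lit 18) (nat_lit 4) (nat_lit 352) (nat_lit 264) (nat_lit 245)) (XT.lf (nat_lit 0) (nat_lit 2204130541) (nat_lit 168) (nat_lit 12236427270) (nat_lit 168) (nat_lit 635441650) (nat_lit 16) (nat_lit 4) (nat_lit 18) (nat_lit 5) (nat_lit 18) (nat_lit 4) (nat_lit 353) (nat_lit 264) (nat_lit 244)))) (XT.nd (nat_lit 94) (nat_lit 0) (nat_lit 0) (XT.lf (nat_lit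 0) (nat_lit 1514355084) (nat_lit 252) (nat_lit 8939845522) (nat_lit 84) (nat_lit 4988309606) (nat_lit 15) (nat_lit 5) (nat_lit 18) (nat_lit 5) (nat_lit 16) (nat_lit 4) (nat_lit 354) (nat_lit 264) (nat_lit 243)) (XT.nd (nat_lit 94) (nat_lit 0) (nat_lit 0) (XT.lf (nat_lit 0) (nat_lit 3672102056) (nat_lit 252) (nat_lit 4959512905) (nat_lit 84) (nat_lit 7190140443) (nat_lit 15) (nat_lit 5) (nat_lit 18) (nat_lit 5) (nat_lit 16) (nat_lit 4) (nat_lit 355) (nat_lit 264) (nat_lit 242)) (XT.lf (nat_lit 0) (nat_lit 5852613246) (nat_lit 252) (nat_lit 920857320) (nat_lit 84) (nat_lit 9440813381) (nat_lit 15) (nat_lit 5) (nat_lit 18) (nat_lit 5) (nat_lit 16) (nat_lit 4) (nat_lit 356) (nat_lit 264) (nat_lit 241))))) (XT.nd (nat_lit 282) (nat_lit 252) (nat_lit 0) (XT.nd (nat_lit 94) (nat_lit 0) (nat_lit 0) (XT.lf (nat_lit 0) (nat_lit 3245270653) (nat_lit 168) (nat_lit 4844843951) (nat_lit 252) (nat_lit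 8529349115) (nat_lit 13) (nat_lit 5) (nat_lit 15) (nat_lit 5) (nat_lit 16) (nat_lit 4) (nat_lit 357) (nat_lit 264) (nat_lit 240)) (XT.nd (nat_lit 94) (nat_lit 0) (nat_lit 0) (XT.lf (nat_lit 0) (nat_lit 7497598320) (nat_lit 168) (nat_lit 2866860032) (nat_lit 252) (nat_lit 6673903273) (nat_lit 13) (nat_lit 5) (nat_lit 15) (nat_lit 5) (nat_lit 16) (nat_lit 4) (nat_lit 358) (nat_lit 264) (nat_lit 239)) (XT.lf (nat_lit 0) (nat_lit 11821154580) (nat_lit 168) (nat_lit 847286984) (nat_lit 252) (nat_lit 4803215567) (nat_lit 13) (nat_lit 5) (nat_lit 15) (nat_lit 5) (nat_lit 16) (nat_lit 4) (nat_lit 359) (nat_lit 264) (nat_lit 238)))) (XT.nd (nat_lit 188) (nat_lit 84) (nat_lit 0) (XT.nd (nat_lit 94) (nat_lit 168) (nat_lit 0) (XT.lf (nat_lit 0) (nat_lit 15016272260) (nat_lit 252) (nat_lit 1711845140) (nat_lit 0) (nat_lit 1191262840) (nat_lit 13) (nat_lit 5) (nat_lit 16) (nat_lit 4) (nat_lit 13)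 (nat_lit 4) (nat_lit 360) (nat_lit 264) (nat_lit 237)) (XT.lf (nat_lit 0) (nat_lit 2329020949) (nat_lit 168) (nat_lit 15101005894) (nat_lit 168) (nat_lit 951304904) (nat_lit 11) (nat_lit 4) (nat_lit 13) (nat_lit 5) (nat_lit 13) (nat_lit 4) (nat_lit 361) (nat_lit 264) (nat_lit 236))) (XT.nd (nat_lit 94) (nat_lit 0) (nat_lit 0) (XT.lf (nat_lit 0) (nat_lit 1019121157) (nat_lit 252) (nat_lit 12394794695) (nat_lit 84) (nat_lit 5444125584) (nat_lit 10) (nat_lit 5) (nat_lit 13) (nat_lit 5) (nat_lit 11) (nat_lit 4) (nat_lit 362) (nat_lit 264) (nat_lit 235)) (XT.lf (nat_lit 0) (nat_lit 2993471969) (nat_lit 252) (nat_lit 8690347726) (nat_lit 84) (nat_lit 7666691562) (nat_lit 10) (nat_lit 5) (nat_lit 13) (nat_lit 5) (nat_lit 11) (nat_lit 4) (nat_lit 363) (nat_lit 264) (nat_lit 234))))))))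
noncomputable def xc36 : XT := (XT.nd (nat_lit 2256) (nat_lit 252) (nat_lit 0) (XT.nd (nat_lit 1128) (nat_lit 84) (nat_lit 0) (XT.nd (nat_lit 564) (nat_lit 252) (nat_lit 0) (XT.nd (nat_lit 282) (nat_lit 0) (nat_lit 0) (XT.nd (nat_lit 94) (nat_lit 84) (nat_lit 0) (XT.lf (nat_lit 0) (nat_lit 4992754507) (nat_lit 252) (nat_lit 4926079897) (nat_lit 84) (nat_lit 9940658389) (nat_lit 10) (nat_lit 5) (nat_lit 13) (nat_lit 5) (nat_lit 11) (nat_lit 4) (nat_lit 364) (nat_lit 264) (nat_lit 233)) (XT.nd (nat_lit 94) (nat_lit 84) (nat_lit 0) (XT.lf (nat_lit 0) (nat_lit 7018832312) (nat_lit 252) (nat_lit 1098482516) (nat_lit 84) (nat_lit 12268145642) (nat_lit 10) (nat_lit 5) (nat_lit 13) (nat_lit 5) (nat_lit 11) (nat_lit 4) (nat_lit 365) (nat_lit 264) (nat_lit 232)) (XT.lf (nat_lit 0) (nat_lit 2853503882) (nat_lit 84) (nat_lit 6248397129) (nat_lit 168) (nat_lit 11826126010) (nat_lit 9) (nat_lit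 5) (nat_lit 10) (nat_lit 5) (nat_lit 11) (nat_lit 4) (nat_lit 366) (nat_lit 264) (nat_lit 231)))) (XT.nd (nat_lit 94) (nat_lit 0) (nat_lit 0) (XT.lf (nat_lit 0) (nat_lit 6900054873) (nat_lit 84) (nat_lit 4327349050) (nat_lit 168) (nat_lit 10260805703) (nat_lit 9) (nat_lit 5) (nat_lit 10) (nat_lit 5) (nat_lit 11) (nat_lit 4) (nat_lit 367) (nat_lit 264) (nat_lit 230)) (XT.nd (nat_lit 94) (nat_lit 0) (nat_lit 0) (XT.lf (nat_lit 0) (nat_lit 11022355211) (nat_lit 84) (nat_lit 2363845877) (nat_lit 168) (nat_lit 8680674099) (nat_lit 9) (nat_lit 5) (nat_lit 10) (nat_lit 5) (nat_lit 11) (nat_lit 4) (nat_lit 368) (nat_lit 264) (nat_lit 229)) (XT.lf (nat_lit 0) (nat_lit 15224247313) (nat_lit 84) (nat_lit 356057419) (nat_lit 168) (nat_lit 7084258351) (nat_lit 9) (nat_lit 5) (nat_lit 10) (nat_lit 5) (nat_lit 11) (nat_lit 4) (nat_lit 369) (nat_lit 264) (nat_lit 228))))) (XT.nd (nat_lit 282) (nat_lit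 84) (nat_lit 0) (XT.nd (nat_lit 94) (nat_lit 168) (nat_lit 0) (XT.lf (nat_lit 0) (nat_lit 17828603247) (nat_lit 168) (nat_lit 3789025897) (nat_lit 0) (nat_lit 1663679135) (nat_lit 9) (nat_lit 5) (nat_lit 11) (nat_lit 4) (nat_lit 9) (nat_lit 4) (nat_lit 370) (nat_lit 264) (nat_lit 227)) (XT.nd (nat_lit 94) (nat_lit 168) (nat_lit 0) (XT.lf (nat_lit 0) (nat_lit 20120342331) (nat_lit 168) (nat_lit 74397021) (nat_lit 0) (nat_lit 3723344644) (nat_lit 9) (nat_lit 5) (nat_lit 11) (nat_lit 4) (nat_lit 9) (nat_lit 4) (nat_lit 371) (nat_lit 264) (nat_lit 226)) (XT.lf (nat_lit 0) (nat_lit 3786862250) (nat_lit 168) (nat_lit 18704829885) (nat_lit 168) (nat_lit 2082736586) (nat_lit 7) (nat_lit 4) (nat_lit 9) (nat_lit 5) (nat_lit 9) (nat_lit 4) (nat_lit 372) (nat_lit 264) (nat_lit 225)))) (XT.nd (nat_lit 94) (nat_lit 84) (nat_lit 0) (XT.lf (nat_lit 0) (nat_lit 7725031563) (nat_lit 168) (nat_lit 17183731269)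 (nat_lit 168) (nat_lit 343310510) (nat_lit 7) (nat_lit 4) (nat_lit 9) (nat_lit 5) (nat_lit 9) (nat_lit 4) (nat_lit 373) (nat_lit 264) (nat_lit 224)) (XT.nd (nat_lit 94) (nat_lit 0) (nat_lit 0) (XT.lf (nat_lit 0) (nat_lit 1392743672) (nat_lit 252) (nat_lit 14223521172) (nat_lit 84) (nat_lit 10334970887) (nat_lit 6) (nat_lit 5) (nat_lit 9) (nat_lit 5) (nat_lit 7) (nat_lit 4) (nat_lit 374) (nat_lit 264) (nat_lit 223)) (XT.lf (nat_lit 0) (nat_lit 3148249374) (nat_lit 252) (nat_lit 10863484644) (nat_lit 84) (nat_lit 12661157235) (nat_lit 6) (nat_lit 5) (nat_lit 9) (nat_lit 5) (nat_lit 7) (nat_lit 4) (nat_lit 375) (nat_lit 264) (nat_lit 222)))))) (XT.nd (nat_lit 564) (nat_lit 0) (nat_lit 0) (XT.nd (nat_lit 282) (nat_lit 84) (nat_lit 0) (XT.nd (nat_lit 94) (nat_lit 0) (nat_lit 0) (XT.lf (nat_lit 0) (nat_lit 4931759851) (nat_lit 252) (nat_lit 7440394604) (nat_lit 84) (nat_lit 15045663681)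 (nat_lit 6) (nat_lit 5) (nat_lit 9) (nat_lit 5) (nat_lit 7) (nat_lit 4) (nat_lit 376) (nat_lit 264) (nat_lit 221)) (XT.nd (nat_lit 94) (nat_lit 0) (nat_lit 0) (XT.lf (nat_lit 0) (nat_lit 6744937522) (nat_lit 252) (nat_lit 3951060374) (nat_lit 84) (nat_lit 17490712835) (nat_lit 6) (nat_lit 5) (nat_lit 9) (nat_lit 5) (nat_lit 7) (nat_lit 4) (nat_lit 377) (nat_lit 264) (nat_lit 220)) (XT.lf (nat_lit 0) (nat_lit 8589472460) (nat_lit 252) (nat_lit 392229529) (nat_lit 84) (nat_lit 19998583740) (nat_lit 6) (nat_lit 5) (nat_lit 9) (nat_lit 5) (nat_lit 7) (nat_lit 4) (nat_lit 378) (nat_lit 264) (nat_lit 219)))) (XT.nd (nat_lit 94) (nat_lit 0) (nat_lit 0) (XT.lf (nat_lit 0) (nat_lit 3306024152) (nat_lit 84) (nat_lit 7193855979) (nat_lit 168) (nat_lit 19298386011) (nat_lit 5) (nat_lit 5) (nat_lit 6) (nat_lit 5) (nat_lit 7) (nat_lit 4) (nat_lit 379) (nat_lit 264) (nat_lit 218)) (XT.nd (nat_lit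 94) (nat_lit 0) (nat_lit 0) (XT.lf (nat_lit 0) (nat_lit 7090108574) (nat_lit 84) (nat_lit 5359748342) (nat_lit 168) (nat_lit 18192428111) (nat_lit 5) (nat_lit 5) (nat_lit 6) (nat_lit 5) (nat_lit 7) (nat_lit 4) (nat_lit 380) (nat_lit 264) (nat_lit 217)) (XT.lf (nat_lit 0) (nat_lit 10955485856) (nat_lit 84) (nat_lit 3481763569) (nat_lit 168) (nat_lit 17076002775) (nat_lit 5) (nat_lit 5) (nat_lit 6) (nat_lit 5) (nat_lit 7) (nat_lit 4) (nat_lit 381) (nat_lit 264) (nat_lit 216))))) (XT.nd (nat_lit 282) (nat_lit 0) (nat_lit 0) (XT.nd (nat_lit 94) (nat_lit 0) (nat_lit 0) (XT.lf (nat_lit 0) (nat_lit 14905758934) (nat_lit 84) (nat_lit 1558151182) (nat_lit 168) (nat_lit 15948069375) (nat_lit 5) (nat_lit 5) (nat_lit 6) (nat_lit 5) (nat_lit 7) (nat_lit 4) (nat_lit 382) (nat_lit 264) (nat_lit 215)) (XT.nd (nat_lit 94) (nat_lit 0) (nat_lit 0) (XT.lf (nat_lit 0) (nat_lit 18535823889) (nat_lit 168)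 (nat_lit 14398790573) (nat_lit 0) (nat_lit 404563178) (nat_lit 5) (nat_lit 5) (nat_lit 7) (nat_lit 4) (nat_lit 5) (nat_lit 4) (nat_lit 383) (nat_lit 264) (nat_lit 214)) (XT.lf (nat_lit 0) (nat_lit 20666768023) (nat_lit 168) (nat_lit 11244425980) (nat_lit 0) (nat_lit 2384149660) (nat_lit 5) (nat_lit 5) (nat_lit 7) (nat_lit 4) (nat_lit 5) (nat_lit 4) (nat_lit 384) (nat_lit 264) (nat_lit 213)))) (XT.nd (nat_lit 94) (nat_lit 0) (nat_lit 0) (XT.lf (nat_lit 0) (nat_lit 22843271729) (nat_lit 168) (nat_lit 8024729526) (nat_lit 0) (nat_lit 4413846721) (nat_lit 5) (nat_lit 5) (nat_lit 7) (nat_lit 4) (nat_lit 5) (nat_lit 4) (nat_lit 385) (nat_lit 264) (nat_lit 212)) (XT.nd (nat_lit 94) (nat_lit 0) (nat_lit 0) (XT.lf (nat_lit 0) (nat_lit 25067363737) (nat_lit 168) (nat_lit 4736700119) (nat_lit 0) (nat_lit 6495546251) (nat_lit 5) (nat_lit 5) (nat_lit 7) (nat_lit 4) (nat_lit 5) (nat_lit 4) (nat_lit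 386) (nat_lit 264) (nat_lit 211)) (XT.lf (nat_lit 0) (nat_lit 27341117133) (nat_lit 168) (nat_lit 1377272970) (nat_lit 0) (nat_lit 8631188610) (nat_lit 5) (nat_lit 5) (nat_lit 7) (nat_lit 4) (nat_lit 5) (nat_lit 4) (nat_lit 387) (nat_lit 264) (nat_lit 210))))))) (XT.nd (nat_lit 1128) (nat_lit 84) (nat_lit 0) (XT.nd (nat_lit 564) (nat_lit 84) (nat_lit 0) (XT.nd (nat_lit 282) (nat_lit 0) (nat_lit 0) (XT.nd (nat_lit 94) (nat_lit 0) (nat_lit 0) (XT.lf (nat_lit 0) (nat_lit 2098972884) (nat_lit 84) (nat_lit 27588500480) (nat_lit 84) (nat_lit 8744613629) (nat_lit 4) (nat_lit 4) (nat_lit 5) (nat_lit 5) (nat_lit 5) (nat_lit 4) (nat_lit 388) (nat_lit 264) (nat_lit 209)) (XT.nd (nat_lit 94) (nat_lit 0) (nat_lit 0) (XT.lf (nat_lit 0) (nat_lit 5682866469) (nat_lit 84) (nat_lit 26419642130) (nat_lit 84) (nat_lit 7445824796) (nat_lit 4) (nat_lit 4) (nat_lit 5) (nat_lit 5) (nat_lit 5) (nat_lit 4)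 (nat_lit 389) (nat_lit 264) (nat_lit 208)) (XT.lf (nat_lit 0) (nat_lit 9349428790) (nat_lit 84) (nat_lit 25225101460) (nat_lit 84) (nat_lit 6125260380) (nat_lit 4) (nat_lit 4) (nat_lit 5) (nat_lit 5) (nat_lit 5) (nat_lit 4) (nat_lit 390) (nat_lit 264) (nat_lit 207)))) (XT.nd (nat_lit 94) (nat_lit 0) (nat_lit 0) (XT.lf (nat_lit 0) (nat_lit 13102077469) (nat_lit 84) (nat_lit 24003765033) (nat_lit 84) (nat_lit 4781689475) (nat_lit 4) (nat_lit 4) (nat_lit 5) (nat_lit 5) (nat_lit 5) (nat_lit 4) (nat_lit 391) (nat_lit 264) (nat_lit 206)) (XT.nd (nat_lit 94) (nat_lit 0) (nat_lit 0) (XT.lf (nat_lit 0) (nat_lit 16944310366) (nat_lit 84) (nat_lit 22754494436) (nat_lit 84) (nat_lit 3413859734) (nat_lit 4) (nat_lit 4) (nat_lit 5) (nat_lit 5) (nat_lit 5) (nat_lit 4) (nat_lit 392) (nat_lit 264) (nat_lit 205)) (XT.lf (nat_lit 0) (nat_lit 20879708846) (nat_lit 84) (nat_lit 21476125218) (nat_lit 84)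 (nat_lit 2020496195) (nat_lit 4) (nat_lit 4) (nat_lit 5) (nat_lit 5) (nat_lit 5) (nat_lit 4) (nat_lit 393) (nat_lit 264) (nat_lit 204))))) (XT.nd (nat_lit 282) (nat_lit 0) (nat_lit 0) (XT.nd (nat_lit 94) (nat_lit 84) (nat_lit 0) (XT.lf (nat_lit 0) (nat_lit 24911941112) (nat_lit 84) (nat_lit 20167465805) (nat_lit 84) (nat_lit 600300098) (nat_lit 4) (nat_lit 4) (nat_lit 5) (nat_lit 5) (nat_lit 5) (nat_lit 4) (nat_lit 394) (nat_lit 264) (nat_lit 203)) (XT.nd (nat_lit 94) (nat_lit 0) (nat_lit 0) (XT.lf (nat_lit 0) (nat_lit 830965963) (nat_lit 168) (nat_lit 17987656844) (nat_lit 84) (nat_lit 28205126082) (nat_lit 3) (nat_lit 5) (nat_lit 5) (nat_lit 5) (nat_lit 4) (nat_lit 4) (nat_lit 395) (nat_lit 264) (nat_lit 202)) (XT.lf (nat_lit 0) (nat_lit 2279049175) (nat_lit 168) (nat_lit 15151530015) (nat_lit 84) (nat_lit 30979196840) (nat_lit 3) (nat_lit 5) (nat_lit 5) (nat_lit 5) (nat_lit 4) (nat_lit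 4) (nat_lit 396) (nat_lit 264) (nat_lit 201)))) (XT.nd (nat_lit 94) (nat_lit 0) (nat_lit 0) (XT.lf (nat_lit 0) (nat_lit 3757394011) (nat_lit 168) (nat_lit 12250786799) (nat_lit 84) (nat_lit 33831084158) (nat_lit 3) (nat_lit 5) (nat_lit 5) (nat_lit 5) (nat_lit 4) (nat_lit 4) (nat_lit 397) (nat_lit 264) (nat_lit 200)) (XT.nd (nat_lit 94) (nat_lit 0) (nat_lit 0) (XT.lf (nat_lit 0) (nat_lit 5267378443) (nat_lit 168) (nat_lit 9282723398) (nat_lit 84) (nat_lit 36763446292) (nat_lit 3) (nat_lit 5) (nat_lit 5) (nat_lit 5) (nat_lit 4) (nat_lit 4) (nat_lit 398) (nat_lit 264) (nat_lit 199)) (XT.lf (nat_lit 0) (nat_lit 6810409935) (nat_lit 168) (nat_lit 6244573267) (nat_lit 84) (nat_lit 39779016513) (nat_lit 3) (nat_lit 5) (nat_lit 5) (nat_lit 5) (nat_lit 4) (nat_lit 4) (nat_lit 399) (nat_lit 264) (nat_lit 198)))))) (XT.nd (nat_lit 564) (nat_lit 0) (nat_lit 0) (XT.nd (nat_lit 282) (nat_lit 0)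 (nat_lit 0) (XT.nd (nat_lit 94) (nat_lit 84) (nat_lit 0) (XT.lf (nat_lit 0) (nat_lit 8387926754) (nat_lit 168) (nat_lit 3133504531) (nat_lit 84) (nat_lit 42880605647) (nat_lit 3) (nat_lit 5) (nat_lit 5) (nat_lit 5) (nat_lit 4) (nat_lit 4) (nat_lit 400) (nat_lit 264) (nat_lit 197)) (XT.nd (nat_lit 94) (nat_lit 0) (nat_lit 0) (XT.lf (nat_lit 0) (nat_lit 54480307) (nat_lit 84) (nat_lit 9947459455) (nat_lit 168) (nat_lit 46017164843) (nat_lit 2) (nat_lit 5) (nat_lit 3) (nat_lit 5) (nat_lit 4) (nat_lit 4) (nat_lit 401) (nat_lit 264) (nat_lit 196)) (XT.lf (nat_lit 0) (nat_lit 3387305448) (nat_lit 84) (nat_lit 8298628572) (nat_lit 168) (nat_lit 45999784591) (nat_lit 2) (nat_lit 5) (nat_lit 3) (nat_lit 5) (nat_lit 4) (nat_lit 4) (nat_lit 402) (nat_lit 264) (nat_lit 195)))) (XT.nd (nat_lit 94) (nat_lit 0) (nat_lit 0) (XT.lf (nat_lit 0) (nat_lit 6803646153) (nat_lit 84) (nat_lit 6606109115)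 (nat_lit 168) (nat_lit 45994660584) (nat_lit 2) (nat_lit 5) (nat_lit 3) (nat_lit 5) (nat_lit 4) (nat_lit 4) (nat_lit 403) (nat_lit 264) (nat_lit 194)) (XT.nd (nat_lit 94) (nat_lit 0) (nat_lit 0) (XT.lf (nat_lit 0) (nat_lit 10306686809) (nat_lit 84) (nat_lit 4868323478) (nat_lit 168) (nat_lit 46001788044) (nat_lit 2) (nat_lit 5) (nat_lit 3) (nat_lit 5) (nat_lit 4) (nat_lit 4) (nat_lit 404) (nat_lit 264) (nat_lit 193)) (XT.lf (nat_lit 0) (nat_lit 13899692618) (nat_lit 84) (nat_lit 3083651864) (nat_lit 168) (nat_lit 46021173615) (nat_lit 2) (nat_lit 5) (nat_lit 3) (nat_lit 5) (nat_lit 4) (nat_lit 4) (nat_lit 405) (nat_lit 264) (nat_lit 192))))) (XT.nd (nat_lit 282) (nat_lit 0) (nat_lit 0) (XT.nd (nat_lit 94) (nat_lit 0) (nat_lit 0) (XT.lf (nat_lit 0) (nat_lit 17586012636) (nat_lit 84) (nat_lit 1250430770) (nat_lit 168) (nat_lit 46052835367) (nat_lit 2) (nat_lit 5) (nat_lit 3) (nat_lit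 5) (nat_lit 4) (nat_lit 4) (nat_lit 406) (nat_lit 264) (nat_lit 191)) (XT.nd (nat_lit 94) (nat_lit 0) (nat_lit 0) (XT.lf (nat_lit 0) (nat_lit 20742314266) (nat_lit 168) (nat_lit 45470034176) (nat_lit 0) (nat_lit 620294037) (nat_lit 2) (nat_lit 5) (nat_lit 4) (nat_lit 4) (nat_lit 2) (nat_lit 4) (nat_lit 407) (nat_lit 264) (nat_lit 190)) (XT.lf (nat_lit 0) (nat_lit 22709368168) (nat_lit 168) (nat_lit 43610055469) (nat_lit 0) (nat_lit 2516791322) (nat_lit 2) (nat_lit 5) (nat_lit 4) (nat_lit 4) (nat_lit 2) (nat_lit 4) (nat_lit 408) (nat_lit 264) (nat_lit 189)))) (XT.nd (nat_lit 94) (nat_lit 0) (nat_lit 0) (XT.lf (nat_lit 0) (nat_lit 24727034185) (nat_lit 168) (nat_lit 41709191892) (nat_lit 0) (nat_lit 4466022212) (nat_lit 2) (nat_lit 5) (nat_lit 4) (nat_lit 4) (nat_lit 2) (nat_lit 4) (nat_lit 409) (nat_lit 264) (nat_lit 188)) (XT.nd (nat_lit 94) (nat_lit 0) (nat_lit 0) (XT.lf (nat_lit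 0) (nat_lit 26797192994) (nat_lit 168) (nat_lit 39765671642) (nat_lit 0) (nat_lit 6469803593) (nat_lit 2) (nat_lit 5) (nat_lit 4) (nat_lit 4) (nat_lit 2) (nat_lit 4) (nat_lit 410) (nat_lit 264) (nat_lit 187)) (XT.lf (nat_lit 0) (nat_lit 28921774199) (nat_lit 168) (nat_lit 37777683154) (nat_lit 0) (nat_lit 8530003200) (nat_lit 2) (nat_lit 5) (nat_lit 4) (nat_lit 4) (nat_lit 2) (nat_lit 4) (nat_lit 411) (nat_lit 264) (nat_lit 186))))))))
noncomputable def xc37 : XT := (XT.nd (nat_lit 48316) (nat_lit 0) (nat_lit 336) (XT.nd (nat_lit 47188) (nat_lit 0) (nat_lit 1344) (XT.nd (nat_lit 46624) (nat_lit 0) (nat_lit 2604) (XT.nd (nat_lit 282) (nat_lit 0) (nat_lit 0) (XT.nd (nat_lit 94) (nat_lit 0) (nat_lit 0) (XT.lf (nat_lit 0) (nat_lit 31102758132) (nat_lit 168) (nat_lit 35743373415) (nat_lit 0) (nat_lit 10648541354) (nat_lit 2) (nat_lit 5) (nat_lit 4) (nat_lit 4) (nat_lit 2) (nat_lit 4) (nat_lit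 412) (nat_lit 264) (nat_lit 185)) (XT.nd (nat_lit 94) (nat_lit 0) (nat_lit 0) (XT.lf (nat_lit 0) (nat_lit 33342177699) (nat_lit 168) (nat_lit 33660846235) (nat_lit 0) (nat_lit 12827392756) (nat_lit 2) (nat_lit 5) (nat_lit 4) (nat_lit 4) (nat_lit 2) (nat_lit 4) (nat_lit 413) (nat_lit 264) (nat_lit 184)) (XT.lf (nat_lit 0) (nat_lit 35642120274) (nat_lit 168) (nat_lit 31528160481) (nat_lit 0) (nat_lit 15068588322) (nat_lit 2) (nat_lit 5) (nat_lit 4) (nat_lit 4) (nat_lit 2) (nat_lit 4) (nat_lit 414) (nat_lit 264) (nat_lit 183)))) (XT.nd (nat_lit 46154) (nat_lit 0) (nat_lit 3360) (XT.lf (nat_lit 0) (nat_lit 38004729644) (nat_lit 168) (nat_lit 29343328265) (nat_lit 0) (nat_lit 17374217082) (nat_lit 2) (nat_lit 5) (nat_lit 4) (nat_lit 4) (nat_lit 2) (nat_lit 4) (nat_lit 415) (nat_lit 264) (nat_lit 182)) (XT.nd (nat_lit 94) (nat_lit 336) (nat_lit 0) (XT.lf (nat_lit 0) (nat_lit 2203925255)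 (nat_lit 420) (nat_lit 357241980) (nat_lit 0) (nat_lit 2203925255) (nat_lit 46) (nat_lit 5) (nat_lit 51) (nat_lit 4) (nat_lit 46) (nat_lit 4) (nat_lit 331) (nat_lit 265) (nat_lit 265)) (XT.lf (nat_lit 0) (nat_lit 3766403271) (nat_lit 336) (nat_lit 3410128984) (nat_lit 336) (nat_lit 2520913604) (nat_lit 42) (nat_lit 4) (nat_lit 46) (nat_lit 5) (nat_lit 46) (nat_lit 4) (nat_lit 332) (nat_lit 265) (nat_lit 264))))) (XT.nd (nat_lit 282) (nat_lit 420) (nat_lit 0) (XT.nd (nat_lit 94) (nat_lit 252) (nat_lit 0) (XT.lf (nat_lit 0) (nat_lit 93432521) (nat_lit 420) (nat_lit 1561932473) (nat_lit 84) (nat_lit 8216827220) (nat_lit 41) (nat_lit 5) (nat_lit 46) (nat_lit 5) (nat_lit 42) (nat_lit 4) (nat_lit 333) (nat_lit 265) (nat_lit 263)) (XT.nd (nat_lit 94) (nat_lit 0) (nat_lit 0) (XT.lf (nat_lit 0) (nat_lit 2697135043) (nat_lit 336) (nat_lit 7169262755) (nat_lit 0) (nat_lit 186718403) (nat_lit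 38) (nat_lit 5) (nat_lit 42) (nat_lit 4) (nat_lit 38) (nat_lit 4) (nat_lit 334) (nat_lit 265) (nat_lit 262)) (XT.lf (nat_lit 0) (nat_lit 5346141317) (nat_lit 336) (nat_lit 2846206687) (nat_lit 0) (nat_lit 2048729077) (nat_lit 38) (nat_lit 5) (nat_lit 42) (nat_lit 4) (nat_lit 38) (nat_lit 4) (nat_lit 335) (nat_lit 265) (nat_lit 261)))) (XT.nd (nat_lit 94) (nat_lit 84) (nat_lit 0) (XT.lf (nat_lit 0) (nat_lit 1554366491) (nat_lit 336) (nat_lit 6471577192) (nat_lit 336) (nat_lit 2410832652) (nat_lit 34) (nat_lit 4) (nat_lit 38) (nat_lit 5) (nat_lit 38) (nat_lit 4) (nat_lit 336) (nat_lit 265) (nat_lit 260)) (XT.nd (nat_lit 94) (nat_lit 0) (nat_lit 0) (XT.lf (nat_lit 0) (nat_lit 110688609) (nat_lit 420) (nat_lit 4576316478) (nat_lit 84) (nat_lit 5952925948) (nat_lit 33) (nat_lit 5) (nat_lit 38) (nat_lit 5) (nat_lit 34) (nat_lit 4) (nat_lit 337) (nat_lit 265) (nat_lit 259)) (XT.lf (nat_lit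 0) (nat_lit 2595726401) (nat_lit 420) (nat_lit 247323543) (nat_lit 84) (nat_lit 8007863461) (nat_lit 33) (nat_lit 5) (nat_lit 38) (nat_lit 5) (nat_lit 34) (nat_lit 4) (nat_lit 338) (nat_lit 265) (nat_lit 258)))))) (XT.nd (nat_lit 564) (nat_lit 504) (nat_lit 0) (XT.nd (nat_lit 282) (nat_lit 252) (nat_lit 0) (XT.nd (nat_lit 94) (nat_lit 252) (nat_lit 0) (XT.lf (nat_lit 0) (nat_lit 4217492872) (nat_lit 252) (nat_lit 919515121) (nat_lit 336) (nat_lit 5932356517) (nat_lit 30) (nat_lit 5) (nat_lit 33) (nat_lit 5) (nat_lit 34) (nat_lit 4) (nat_lit 339) (nat_lit 265) (nat_lit 257)) (XT.nd (nat_lit 94) (nat_lit 252) (nat_lit 0) (XT.lf (nat_lit 0) (nat_lit 7708455375) (nat_lit 336) (nat_lit 2563604345) (nat_lit 0) (nat_lit 1024310102) (nat_lit 30) (nat_lit 5) (nat_lit 34) (nat_lit 4) (nat_lit 30) (nat_lit 4) (nat_lit 340) (nat_lit 265) (nat_lit 256)) (XT.lf (nat_lit 0) (nat_lit 1802572159) (nat_lit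 252) (nat_lit 8524415650) (nat_lit 252) (nat_lit 1204702926) (nat_lit 27) (nat_lit 4) (nat_lit 30) (nat_lit 5) (nat_lit 30) (nat_lit 4) (nat_lit 341) (nat_lit 265) (nat_lit 255)))) (XT.nd (nat_lit 94) (nat_lit 168) (nat_lit 0) (XT.lf (nat_lit 0) (nat_lit 1194412383) (nat_lit 336) (nat_lit 5510318447) (nat_lit 84) (nat_lit 5070456764) (nat_lit 26) (nat_lit 5) (nat_lit 30) (nat_lit 5) (nat_lit 27) (nat_lit 4) (nat_lit 342) (nat_lit 265) (nat_lit 254)) (XT.nd (nat_lit 94) (nat_lit 168) (nat_lit 0) (XT.lf (nat_lit 0) (nat_lit 3584897687) (nat_lit 336) (nat_lit 1253164498) (nat_lit 84) (nat_lit 7189829585) (nat_lit 26) (nat_lit 5) (nat_lit 30) (nat_lit 5) (nat_lit 27) (nat_lit 4) (nat_lit 343) (nat_lit 265) (nat_lit 253)) (XT.lf (nat_lit 0) (nat_lit 3121146328) (nat_lit 168) (nat_lit 2903069075) (nat_lit 252) (nat_lit 6265234055) (nat_lit 24) (nat_lit 5) (nat_lit 26) (nat_lit 5) (nat_lit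 27) (nat_lit 4) (nat_lit 344) (nat_lit 265) (nat_lit 252))))) (XT.nd (nat_lit 282) (nat_lit 168) (nat_lit 0) (XT.nd (nat_lit 94) (nat_lit 336) (nat_lit 0) (XT.lf (nat_lit 0) (nat_lit 7580714815) (nat_lit 168) (nat_lit 916210712) (nat_lit 252) (nat_lit 4063728055) (nat_lit 24) (nat_lit 5) (nat_lit 26) (nat_lit 5) (nat_lit 27) (nat_lit 4) (nat_lit 345) (nat_lit 265) (nat_lit 251)) (XT.nd (nat_lit 94) (nat_lit 336) (nat_lit 0) (XT.lf (nat_lit 0) (nat_lit 11003669800) (nat_lit 252) (nat_lit 749244200) (nat_lit 0) (nat_lit 1088894490) (nat_lit 24) (nat_lit 5) (nat_lit 27) (nat_lit 4) (nat_lit 24) (nat_lit 4) (nat_lit 346) (nat_lit 265) (nat_lit 250)) (XT.lf (nat_lit 0) (nat_lit 439831987) (nat_lit 336) (nat_lit 9534752581) (nat_lit 84) (nat_lit 3157393222) (nat_lit 20) (nat_lit 5) (nat_lit 24) (nat_lit 5) (nat_lit 21) (nat_lit 4) (nat_lit 347) (nat_lit 265) (nat_lit 249)))) (XT.nd (nat_lit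 94) (nat_lit 168) (nat_lit 0) (XT.lf (nat_lit 0) (nat_lit 2706018813) (nat_lit 336) (nat_lit 5429970047) (nat_lit 84) (nat_lit 5296144246) (nat_lit 20) (nat_lit 5) (nat_lit 24) (nat_lit 5) (nat_lit 21) (nat_lit 4) (nat_lit 348) (nat_lit 265) (nat_lit 248)) (XT.nd (nat_lit 94) (nat_lit 168) (nat_lit 0) (XT.lf (nat_lit 0) (nat_lit 4991905501) (nat_lit 336) (nat_lit 1270208003) (nat_lit 84) (nat_lit 7481243534) (nat_lit 20) (nat_lit 5) (nat_lit 24) (nat_lit 5) (nat_lit 21) (nat_lit 4) (nat_lit 349) (nat_lit 265) (nat_lit 247)) (XT.lf (nat_lit 0) (nat_lit 3009036260) (nat_lit 168) (nat_lit 4320436491) (nat_lit 252) (nat_lit 6735541578) (nat_lit 18) (nat_lit 5) (nat_lit 20) (nat_lit 5) (nat_lit 21) (nat_lit 4) (nat_lit 350) (nat_lit 265) (nat_lit 246))))))) (XT.nd (nat_lit 1128) (nat_lit 336) (nat_lit 0) (XT.nd (nat_lit 564) (nat_lit 420) (nat_lit 0) (XT.nd (nat_lit 282) (nat_lit 84) (nat_lit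 0) (XT.nd (nat_lit 94) (nat_lit 168) (nat_lit 0) (XT.lf (nat_lit 0) (nat_lit 7378478716) (nat_lit 168) (nat_lit 2326038266) (nat_lit 252) (nat_lit 4693395670) (nat_lit 18) (nat_lit 5) (nat_lit 20) (nat_lit 5) (nat_lit 21) (nat_lit 4) (nat_lit 351) (nat_lit 265) (nat_lit 245)) (XT.nd (nat_lit 94) (nat_lit 168) (nat_lit 0) (XT.lf (nat_lit 0) (nat_lit 11816074062) (nat_lit 168) (nat_lit 290318208) (nat_lit 252) (nat_lit 2636368687) (nat_lit 18) (nat_lit 5) (nat_lit 20) (nat_lit 5) (nat_lit 21) (nat_lit 4) (nat_lit 352) (nat_lit 265) (nat_lit 244)) (XT.lf (nat_lit 0) (nat_lit 1233180418) (nat_lit 168) (nat_lit 13334133640) (nat_lit 168) (nat_lit 531637340) (nat_lit 16) (nat_lit 4) (nat_lit 18) (nat_lit 5) (nat_lit 18) (nat_lit 4) (nat_lit 353) (nat_lit 265) (nat_lit 243)))) (XT.nd (nat_lit 94) (nat_lit 0) (nat_lit 0) (XT.lf (nat_lit 0) (nat_lit 1593668242) (nat_lit 252) (nat_lit 9967807581)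 (nat_lit 84) (nat_lit 3904729430) (nat_lit 15) (nat_lit 5) (nat_lit 18) (nat_lit 5) (nat_lit 16) (nat_lit 4) (nat_lit 354) (nat_lit 265) (nat_lit 242)) (XT.nd (nat_lit 94) (nat_lit 0) (nat_lit 0) (XT.lf (nat_lit 0) (nat_lit 3729689001) (nat_lit 252) (nat_lit 6019512060) (nat_lit 84) (nat_lit 6097001106) (nat_lit 15) (nat_lit 5) (nat_lit 18) (nat_lit 5) (nat_lit 16) (nat_lit 4) (nat_lit 355) (nat_lit 265) (nat_lit 241)) (XT.lf (nat_lit 0) (nat_lit 5889127239) (nat_lit 252) (nat_lit 2011930285) (nat_lit 84) (nat_lit 8338402307) (nat_lit 15) (nat_lit 5) (nat_lit 18) (nat_lit 5) (nat_lit 16) (nat_lit 4) (nat_lit 356) (nat_lit 265) (nat_lit 240))))) (XT.nd (nat_lit 282) (nat_lit 252) (nat_lit 0) (XT.nd (nat_lit 94) (nat_lit 0) (nat_lit 0) (XT.lf (nat_lit 0) (nat_lit 2101003775) (nat_lit 168) (nat_lit 5993834220) (nat_lit 252) (nat_lit 8550860694) (nat_lit 13) (nat_lit 5) (nat_lit 15) (nat_lit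 5) (nat_lit 16) (nat_lit 4) (nat_lit 357) (nat_lit 265) (nat_lit 239)) (XT.nd (nat_lit 94) (nat_lit 0) (nat_lit 0) (XT.lf (nat_lit 0) (nat_lit 6323497093) (nat_lit 168) (nat_lit 4025563927) (nat_lit 252) (nat_lit 6716230685) (nat_lit 13) (nat_lit 5) (nat_lit 15) (nat_lit 5) (nat_lit 16) (nat_lit 4) (nat_lit 358) (nat_lit 265) (nat_lit 238)) (XT.lf (nat_lit 0) (nat_lit 10618116059) (nat_lit 168) (nat_lit 2015412435) (nat_lit 252) (nat_lit 4865732924) (nat_lit 13) (nat_lit 5) (nat_lit 15) (nat_lit 5) (nat_lit 16) (nat_lit 4) (nat_lit 359) (nat_lit 265) (nat_lit 237)))) (XT.nd (nat_lit 94) (nat_lit 252) (nat_lit 0) (XT.lf (nat_lit 0) (nat_lit 14950751648) (nat_lit 252) (nat_lit 2959530491) (nat_lit 0) (nat_lit 37718359) (nat_lit 13) (nat_lit 5) (nat_lit 16) (nat_lit 4) (nat_lit 13) (nat_lit 4) (nat_lit 360) (nat_lit 265) (nat_lit 236)) (XT.nd (nat_lit 94) (nat_lit 84) (nat_lit 0) (XT.lf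 (nat_lit 0) (nat_lit 1027339993) (nat_lit 168) (nat_lit 16305805687) (nat_lit 168) (nat_lit 1077843622) (nat_lit 11) (nat_lit 4) (nat_lit 13) (nat_lit 5) (nat_lit 13) (nat_lit 4) (nat_lit 361) (nat_lit 265) (nat_lit 235)) (XT.lf (nat_lit 0) (nat_lit 876718511) (nat_lit 252) (nat_lit 13752806298) (nat_lit 84) (nat_lit 4258845173) (nat_lit 10) (nat_lit 5) (nat_lit 13) (nat_lit 5) (nat_lit 11) (nat_lit 4) (nat_lit 362) (nat_lit 265) (nat_lit 234)))))) (XT.nd (nat_lit 564) (nat_lit 252) (nat_lit 0) (XT.nd (nat_lit 282) (nat_lit 84) (nat_lit 0) (XT.nd (nat_lit 94) (nat_lit 0) (nat_lit 0) (XT.lf (nat_lit 0) (nat_lit 2833209575) (nat_lit 252) (nat_lit 10075447954) (nat_lit 84) (nat_lit 6472795348) (nat_lit 10) (nat_lit 5) (nat_lit 13) (nat_lit 5) (nat_lit 11) (nat_lit 4) (nat_lit 363) (nat_lit 265) (nat_lit 233)) (XT.nd (nat_lit 94) (nat_lit 0) (nat_lit 0) (XT.lf (nat_lit 0) (nat_lit 4815169370)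 (nat_lit 252) (nat_lit 6337454251) (nat_lit 84) (nat_lit 8738405432) (nat_lit 10) (nat_lit 5) (nat_lit 13) (nat_lit 5) (nat_lit 11) (nat_lit 4) (nat_lit 364) (nat_lit 265) (nat_lit 232)) (XT.lf (nat_lit 0) (nat_lit 6824445289) (nat_lit 252) (nat_lit 2535340988) (nat_lit 84) (nat_lit 11057787210) (nat_lit 10) (nat_lit 5) (nat_lit 13) (nat_lit 5) (nat_lit 11) (nat_lit 4) (nat_lit 365) (nat_lit 265) (nat_lit 231)))) (XT.nd (nat_lit 94) (nat_lit 0) (nat_lit 0) (XT.lf (nat_lit 0) (nat_lit 1361874538) (nat_lit 84) (nat_lit 7514545615) (nat_lit 168) (nat_lit 12084738016) (nat_lit 9) (nat_lit 5) (nat_lit 10) (nat_lit 5) (nat_lit 11) (nat_lit 4) (nat_lit 366) (nat_lit 265) (nat_lit 230)) (XT.nd (nat_lit 94) (nat_lit 0) (nat_lit 0) (XT.lf (nat_lit 0) (nat_lit 5383957910) (nat_lit 84) (nat_lit 5601915752) (nat_lit 168) (nat_lit 10536017233) (nat_lit 9) (nat_lit 5) (nat_lit 10) (nat_lit 5) (nat_lit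 11) (nat_lit 4) (nat_lit 367) (nat_lit 265) (nat_lit 229)) (XT.lf (nat_lit 0) (nat_lit 9482526320) (nat_lit 84) (nat_lit 3646577677) (nat_lit 168) (nat_lit 8971986040) (nat_lit 9) (nat_lit 5) (nat_lit 10) (nat_lit 5) (nat_lit 11) (nat_lit 4) (nat_lit 368) (nat_lit 265) (nat_lit 228))))) (XT.nd (nat_lit 282) (nat_lit 252) (nat_lit 0) (XT.nd (nat_lit 94) (nat_lit 0) (nat_lit 0) (XT.lf (nat_lit 0) (nat_lit 13661400061) (nat_lit 84) (nat_lit 1646708810) (nat_lit 168) (nat_lit 7391186597) (nat_lit 9) (nat_lit 5) (nat_lit 10) (nat_lit 5) (nat_lit 11) (nat_lit 4) (nat_lit 369) (nat_lit 265) (nat_lit 227)) (XT.nd (nat_lit 94) (nat_lit 0) (nat_lit 0) (XT.lf (nat_lit 0) (nat_lit 17528882984) (nat_lit 168) (nat_lit 5396554133) (nat_lit 0) (nat_lit 391504792) (nat_lit 9) (nat_lit 5) (nat_lit 11) (nat_lit 4) (nat_lit 9) (nat_lit 4) (nat_lit 370) (nat_lit 265) (nat_lit 226)) (XT.lf (nat_lit 0) (nat_lit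 19806343715) (nat_lit 168) (nat_lit 1703993172) (nat_lit 0) (nat_lit 2443869912) (nat_lit 9) (nat_lit 5) (nat_lit 11) (nat_lit 4) (nat_lit 9) (nat_lit 4) (nat_lit 371) (nat_lit 265) (nat_lit 225)))) (XT.nd (nat_lit 188) (nat_lit 84) (nat_lit 0) (XT.nd (nat_lit 94) (nat_lit 0) (nat_lit 0) (XT.lf (nat_lit 0) (nat_lit 2101913762) (nat_lit 168) (nat_lit 20045215825) (nat_lit 168) (nat_lit 2464414563) (nat_lit 7) (nat_lit 4) (nat_lit 9) (nat_lit 5) (nat_lit 9) (nat_lit 4) (nat_lit 372) (nat_lit 265) (nat_lit 224)) (XT.lf (nat_lit 0) (nat_lit 6018895396) (nat_lit 168) (nat_lit 18531662082) (nat_lit 168) (nat_lit 739098006) (nat_lit 7) (nat_lit 4) (nat_lit 9) (nat_lit 5) (nat_lit 9) (nat_lit 4) (nat_lit 373) (nat_lit 265) (nat_lit 223))) (XT.nd (nat_lit 94) (nat_lit 0) (nat_lit 0) (XT.lf (nat_lit 0) (nat_lit 991520862) (nat_lit 252) (nat_lit 15984180754) (nat_lit 84) (nat_lit 9013694864)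 (nat_lit 6) (nat_lit 5) (nat_lit 9) (nat_lit 5) (nat_lit 7) (nat_lit 4) (nat_lit 374) (nat_lit 265) (nat_lit 222)) (XT.lf (nat_lit 0) (nat_lit 2734020212) (nat_lit 252) (nat_lit 12644384314) (nat_lit 84) (nat_lit 11333090626) (nat_lit 6) (nat_lit 5) (nat_lit 9) (nat_lit 5) (nat_lit 7) (nat_lit 4) (nat_lit 375) (nat_lit 265) (nat_lit 221))))))))
noncomputable def xc38 : XT := (XT.nd (nat_lit 2256) (nat_lit 84) (nat_lit 0) (XT.nd (nat_lit 1128) (nat_lit 168) (nat_lit 0) (XT.nd (nat_lit 564) (nat_lit 0) (nat_lit 0) (XT.nd (nat_lit 282) (nat_lit 84) (nat_lit 0) (XT.nd (nat_lit 94) (nat_lit 0) (nat_lit 0) (XT.lf (nat_lit 0) (nat_lit 4504915411) (nat_lit 252) (nat_lit 9240925786) (nat_lit 84) (nat_lit 13711010666) (nat_lit 6) (nat_lit 5) (nat_lit 9) (nat_lit 5) (nat_lit 7) (nat_lit 4) (nat_lit 376) (nat_lit 265) (nat_lit 220)) (XT.nd (nat_lit 94) (nat_lit 0) (nat_lit 0) (XT.lf (nat_lit 0)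 (nat_lit 6305857118) (nat_lit 252) (nat_lit 5770632791) (nat_lit 84) (nat_lit 16149671454) (nat_lit 6) (nat_lit 5) (nat_lit 9) (nat_lit 5) (nat_lit 7) (nat_lit 4) (nat_lit 377) (nat_lit 265) (nat_lit 219)) (XT.lf (nat_lit 0) (nat_lit 8138524002) (nat_lit 252) (nat_lit 2230270650) (nat_lit 84) (nat_lit 18651346076) (nat_lit 6) (nat_lit 5) (nat_lit 9) (nat_lit 5) (nat_lit 7) (nat_lit 4) (nat_lit 378) (nat_lit 265) (nat_lit 218)))) (XT.nd (nat_lit 94) (nat_lit 0) (nat_lit 0) (XT.lf (nat_lit 0) (nat_lit 1411907411) (nat_lit 84) (nat_lit 8606723183) (nat_lit 168) (nat_lit 19820465243) (nat_lit 5) (nat_lit 5) (nat_lit 6) (nat_lit 5) (nat_lit 7) (nat_lit 4) (nat_lit 379) (nat_lit 265) (nat_lit 217)) (XT.nd (nat_lit 94) (nat_lit 0) (nat_lit 0) (XT.lf (nat_lit 0) (nat_lit 5178259800) (nat_lit 84) (nat_lit 6779006586) (nat_lit 168) (nat_lit 18726234206) (nat_lit 5) (nat_lit 5) (nat_lit 6) (nat_lit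 5) (nat_lit 7) (nat_lit 4) (nat_lit 380) (nat_lit 265) (nat_lit 216)) (XT.lf (nat_lit 0) (nat_lit 9026438215) (nat_lit 84) (nat_lit 4907220687) (nat_lit 168) (nat_lit 17621183129) (nat_lit 5) (nat_lit 5) (nat_lit 6) (nat_lit 5) (nat_lit 7) (nat_lit 4) (nat_lit 381) (nat_lit 265) (nat_lit 215))))) (XT.nd (nat_lit 282) (nat_lit 0) (nat_lit 0) (XT.nd (nat_lit 94) (nat_lit 0) (nat_lit 0) (XT.lf (nat_lit 0) (nat_lit 12960029560) (nat_lit 84) (nat_lit 2989620788) (nat_lit 168) (nat_lit 16504281990) (nat_lit 5) (nat_lit 5) (nat_lit 6) (nat_lit 5) (nat_lit 7) (nat_lit 4) (nat_lit 382) (nat_lit 265) (nat_lit 214)) (XT.nd (nat_lit 94) (nat_lit 0) (nat_lit 0) (XT.lf (nat_lit 0) (nat_lit 16982700354) (nat_lit 84) (nat_lit 1024419483) (nat_lit 168) (nat_lit 15374489719) (nat_lit 5) (nat_lit 5) (nat_lit 6) (nat_lit 5) (nat_lit 7) (nat_lit 4) (nat_lit 383) (nat_lit 265) (nat_lit 213)) (XT.lf (nat_lit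 0) (nat_lit 20117808203) (nat_lit 168) (nat_lit 13250361287) (nat_lit 0) (nat_lit 970264374) (nat_lit 5) (nat_lit 5) (nat_lit 7) (nat_lit 4) (nat_lit 5) (nat_lit 4) (nat_lit 384) (nat_lit 265) (nat_lit 212)))) (XT.nd (nat_lit 94) (nat_lit 0) (nat_lit 0) (XT.lf (nat_lit 0) (nat_lit 22284521996) (nat_lit 168) (nat_lit 10046163424) (nat_lit 0) (nat_lit 2994585689) (nat_lit 5) (nat_lit 5) (nat_lit 7) (nat_lit 4) (nat_lit 5) (nat_lit 4) (nat_lit 385) (nat_lit 265) (nat_lit 211)) (XT.nd (nat_lit 94) (nat_lit 0) (nat_lit 0) (XT.lf (nat_lit 0) (nat_lit 24499118452) (nat_lit 168) (nat_lit 6773166596) (nat_lit 0) (nat_lit 5071071110) (nat_lit 5) (nat_lit 5) (nat_lit 7) (nat_lit 4) (nat_lit 5) (nat_lit 4) (nat_lit 386) (nat_lit 265) (nat_lit 210)) (XT.lf (nat_lit 0) (nat_lit 26763661809) (nat_lit 168) (nat_lit 3428320029) (nat_lit 0) (nat_lit 7201656138) (nat_lit 5) (nat_lit 5) (nat_lit 7) (nat_lit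 4) (nat_lit 5) (nat_lit 4) (nat_lit 387) (nat_lit 265) (nat_lit 209)))))) (XT.nd (nat_lit 564) (nat_lit 84) (nat_lit 0) (XT.nd (nat_lit 282) (nat_lit 0) (nat_lit 0) (XT.nd (nat_lit 94) (nat_lit 84) (nat_lit 0) (XT.lf (nat_lit 0) (nat_lit 29080262856) (nat_lit 168) (nat_lit 8505974) (nat_lit 0) (nat_lit 9388326702) (nat_lit 5) (nat_lit 5) (nat_lit 7) (nat_lit 4) (nat_lit 5) (nat_lit 4) (nat_lit 388) (nat_lit 265) (nat_lit 208)) (XT.nd (nat_lit 94) (nat_lit 0) (nat_lit 0) (XT.lf (nat_lit 0) (nat_lit 3561213711) (nat_lit 84) (nat_lit 27925194878) (nat_lit 84) (nat_lit 8107234978) (nat_lit 4) (nat_lit 4) (nat_lit 5) (nat_lit 5) (nat_lit 5) (nat_lit 4) (nat_lit 389) (nat_lit 265) (nat_lit 207)) (XT.lf (nat_lit 0) (nat_lit 7214197956) (nat_lit 84) (nat_lit 26735693600) (nat_lit 84) (nat_lit 6795499221) (nat_lit 4) (nat_lit 4) (nat_lit 5) (nat_lit 5) (nat_lit 5) (nat_lit 4) (nat_lit 390)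 (nat_lit 265) (nat_lit 206)))) (XT.nd (nat_lit 94) (nat_lit 0) (nat_lit 0) (XT.lf (nat_lit 0) (nat_lit 10953676821) (nat_lit 84) (nat_lit 25519245041) (nat_lit 84) (nat_lit 5460491518) (nat_lit 4) (nat_lit 4) (nat_lit 5) (nat_lit 5) (nat_lit 5) (nat_lit 4) (nat_lit 391) (nat_lit 265) (nat_lit 205)) (XT.nd (nat_lit 94) (nat_lit 0) (nat_lit 0) (XT.lf (nat_lit 0) (nat_lit 14783135894) (nat_lit 84) (nat_lit 24274715344) (nat_lit 84) (nat_lit 4100967500) (nat_lit 4) (nat_lit 4) (nat_lit 5) (nat_lit 5) (nat_lit 5) (nat_lit 4) (nat_lit 392) (nat_lit 265) (nat_lit 204)) (XT.lf (nat_lit 0) (nat_lit 18706144632) (nat_lit 84) (nat_lit 23000944476) (nat_lit 84) (nat_lit 2715659949) (nat_lit 4) (nat_lit 4) (nat_lit 5) (nat_lit 5) (nat_lit 5) (nat_lit 4) (nat_lit 393) (nat_lit 265) (nat_lit 203))))) (XT.nd (nat_lit 282) (nat_lit 0) (nat_lit 0) (XT.nd (nat_lit 94) (nat_lit 84) (nat_lit 0) (XT.lf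 (nat_lit 0) (nat_lit 22726359688) (nat_lit 84) (nat_lit 21696745151) (nat_lit 84) (nat_lit 1303277613) (nat_lit 4) (nat_lit 4) (nat_lit 5) (nat_lit 5) (nat_lit 5) (nat_lit 4) (nat_lit 394) (nat_lit 265) (nat_lit 202)) (XT.nd (nat_lit 94) (nat_lit 0) (nat_lit 0) (XT.lf (nat_lit 0) (nat_lit 134725756) (nat_lit 168) (nat_lit 20224769699) (nat_lit 84) (nat_lit 26711396309) (nat_lit 3) (nat_lit 5) (nat_lit 5) (nat_lit 5) (nat_lit 4) (nat_lit 4) (nat_lit 395) (nat_lit 265) (nat_lit 201)) (XT.lf (nat_lit 0) (nat_lit 1575606134) (nat_lit 168) (nat_lit 17400116797) (nat_lit 84) (nat_lit 29481439674) (nat_lit 3) (nat_lit 5) (nat_lit 5) (nat_lit 5) (nat_lit 4) (nat_lit 4) (nat_lit 396) (nat_lit 265) (nat_lit 200)))) (XT.nd (nat_lit 94) (nat_lit 0) (nat_lit 0) (XT.lf (nat_lit 0) (nat_lit 3046964710) (nat_lit 168) (nat_lit 14510502509) (nat_lit 84) (nat_lit 32329420695) (nat_lit 3) (nat_lit 5)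 (nat_lit 5) (nat_lit 5) (nat_lit 4) (nat_lit 4) (nat_lit 397) (nat_lit 265) (nat_lit 199)) (XT.nd (nat_lit 94) (nat_lit 0) (nat_lit 0) (XT.lf (nat_lit 0) (nat_lit 4550172945) (nat_lit 168) (nat_lit 11553233414) (nat_lit 84) (nat_lit 35257993986) (nat_lit 3) (nat_lit 5) (nat_lit 5) (nat_lit 5) (nat_lit 4) (nat_lit 4) (nat_lit 398) (nat_lit 265) (nat_lit 198)) (XT.lf (nat_lit 0) (nat_lit 6086631985) (nat_lit 168) (nat_lit 8525553027) (nat_lit 84) (nat_lit 38269889286) (nat_lit 3) (nat_lit 5) (nat_lit 5) (nat_lit 5) (nat_lit 4) (nat_lit 4) (nat_lit 399) (nat_lit 265) (nat_lit 197))))))) (XT.nd (nat_lit 1128) (nat_lit 0) (nat_lit 0) (XT.nd (nat_lit 564) (nat_lit 0) (nat_lit 0) (XT.nd (nat_lit 282) (nat_lit 0) (nat_lit 0) (XT.nd (nat_lit 94) (nat_lit 84) (nat_lit 0) (XT.lf (nat_lit 0) (nat_lit 7657773972) (nat_lit 168) (nat_lit 5424639232) (nat_lit 84) (nat_lit 41367913996) (nat_lit 3)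 (nat_lit 5) (nat_lit 5) (nat_lit 5) (nat_lit 4) (nat_lit 4) (nat_lit 400) (nat_lit 265) (nat_lit 196)) (XT.nd (nat_lit 94) (nat_lit 84) (nat_lit 0) (XT.lf (nat_lit 0) (nat_lit 9265063375) (nat_lit 168) (nat_lit 2247601652) (nat_lit 84) (nat_lit 44554955800) (nat_lit 3) (nat_lit 5) (nat_lit 5) (nat_lit 5) (nat_lit 4) (nat_lit 4) (nat_lit 401) (nat_lit 265) (nat_lit 195)) (XT.lf (nat_lit 0) (nat_lit 1029258304) (nat_lit 84) (nat_lit 9890950421) (nat_lit 168) (nat_lit 46814937421) (nat_lit 2) (nat_lit 5) (nat_lit 3) (nat_lit 5) (nat_lit 4) (nat_lit 4) (nat_lit 402) (nat_lit 265) (nat_lit 194)))) (XT.nd (nat_lit 94) (nat_lit 0) (nat_lit 0) (XT.lf (nat_lit 0) (nat_lit 4436142283) (nat_lit 84) (nat_lit 8201976963) (nat_lit 168) (nat_lit 46815923857) (nat_lit 2) (nat_lit 5) (nat_lit 3) (nat_lit 5) (nat_lit 4) (nat_lit 4) (nat_lit 403) (nat_lit 265) (nat_lit 193)) (XT.nd (nat_lit 94) (nat_lit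 0) (nat_lit 0) (XT.lf (nat_lit 0) (nat_lit 7930010557) (nat_lit 84) (nat_lit 6467630704) (nat_lit 168) (nat_lit 46828978033) (nat_lit 2) (nat_lit 5) (nat_lit 3) (nat_lit 5) (nat_lit 4) (nat_lit 4) (nat_lit 404) (nat_lit 265) (nat_lit 192)) (XT.lf (nat_lit 0) (nat_lit 11514119777) (nat_lit 84) (nat_lit 4686295053) (nat_lit 168) (nat_lit 46854112116) (nat_lit 2) (nat_lit 5) (nat_lit 3) (nat_lit 5) (nat_lit 4) (nat_lit 4) (nat_lit 405) (nat_lit 265) (nat_lit 191))))) (XT.nd (nat_lit 282) (nat_lit 0) (nat_lit 0) (XT.nd (nat_lit 94) (nat_lit 0) (nat_lit 0) (XT.lf (nat_lit 0) (nat_lit 15191810710) (nat_lit 84) (nat_lit 2856309618) (nat_lit 168) (nat_lit 46891349534) (nat_lit 2) (nat_lit 5) (nat_lit 3) (nat_lit 5) (nat_lit 4) (nat_lit 4) (nat_lit 406) (nat_lit 265) (nat_lit 190)) (XT.nd (nat_lit 94) (nat_lit 0) (nat_lit 0) (XT.lf (nat_lit 0) (nat_lit 18966511347) (nat_lit 84) (nat_lit 975968660)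 (nat_lit 168) (nat_lit 46940724997) (nat_lit 2) (nat_lit 5) (nat_lit 3) (nat_lit 5) (nat_lit 4) (nat_lit 4) (nat_lit 407) (nat_lit 265) (nat_lit 189)) (XT.lf (nat_lit 0) (nat_lit 21894748016) (nat_lit 168) (nat_lit 46055292437) (nat_lit 0) (nat_lit 937209544) (nat_lit 2) (nat_lit 5) (nat_lit 4) (nat_lit 4) (nat_lit 2) (nat_lit 4) (nat_lit 408) (nat_lit 265) (nat_lit 188)))) (XT.nd (nat_lit 94) (nat_lit 0) (nat_lit 0) (XT.lf (nat_lit 0) (nat_lit 23907463341) (nat_lit 168) (nat_lit 44162439740) (nat_lit 0) (nat_lit 2883547442) (nat_lit 2) (nat_lit 5) (nat_lit 4) (nat_lit 4) (nat_lit 2) (nat_lit 4) (nat_lit 409) (nat_lit 265) (nat_lit 187)) (XT.nd (nat_lit 94) (nat_lit 0) (nat_lit 0) (XT.lf (nat_lit 0) (nat_lit 25972820315) (nat_lit 168) (nat_lit 42226689500) (nat_lit 0) (nat_lit 4884522817) (nat_lit 2) (nat_lit 5) (nat_lit 4) (nat_lit 4) (nat_lit 2) (nat_lit 4) (nat_lit 410) (nat_lit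 265) (nat_lit 186)) (XT.lf (nat_lit 0) (nat_lit 28092744066) (nat_lit 168) (nat_lit 40246237394) (nat_lit 0) (nat_lit 6942000789) (nat_lit 2) (nat_lit 5) (nat_lit 4) (nat_lit 4) (nat_lit 2) (nat_lit 4) (nat_lit 411) (nat_lit 265) (nat_lit 185)))))) (XT.nd (nat_lit 46436) (nat_lit 0) (nat_lit 2604) (XT.nd (nat_lit 282) (nat_lit 0) (nat_lit 0) (XT.nd (nat_lit 94) (nat_lit 0) (nat_lit 0) (XT.lf (nat_lit 0) (nat_lit 30269210585) (nat_lit 168) (nat_lit 38219237434) (nat_lit 0) (nat_lit 9057899143) (nat_lit 2) (nat_lit 5) (nat_lit 4) (nat_lit 4) (nat_lit 2) (nat_lit 4) (nat_lit 412) (nat_lit 265) (nat_lit 184)) (XT.nd (nat_lit 94) (nat_lit 0) (nat_lit 0) (XT.lf (nat_lit 0) (nat_lit 32504248567) (nat_lit 168) (nat_lit 36143800244) (nat_lit 0) (nat_lit 11234190117) (nat_lit 2) (nat_lit 5) (nat_lit 4) (nat_lit 4) (nat_lit 2) (nat_lit 4) (nat_lit 413) (nat_lit 265) (nat_lit 183)) (XT.lf (nat_lit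 0) (nat_lit 34799941302) (nat_lit 168) (nat_lit 34017991297) (nat_lit 0) (nat_lit 13472902242) (nat_lit 2) (nat_lit 5) (nat_lit 4) (nat_lit 4) (nat_lit 2) (nat_lit 4) (nat_lit 414) (nat_lit 265) (nat_lit 182)))) (XT.nd (nat_lit 45966) (nat_lit 0) (nat_lit 3696) (XT.lf (nat_lit 0) (nat_lit 37158428616) (nat_lit 168) (nat_lit 31839829119) (nat_lit 0) (nat_lit 15776122233) (nat_lit 2) (nat_lit 5) (nat_lit 4) (nat_lit 4) (nat_lit 2) (nat_lit 4) (nat_lit 415) (nat_lit 265) (nat_lit 181)) (XT.nd (nat_lit 94) (nat_lit 420) (nat_lit 0) (XT.lf (nat_lit 0) (nat_lit 4540365957) (nat_lit 420) (nat_lit 33461776) (nat_lit 420) (nat_lit 33461776) (nat_lit 51) (nat_lit 4) (nat_lit 56) (nat_lit 5) (nat_lit 56) (nat_lit 4) (nat_lit 329) (nat_lit 266) (nat_lit 266)) (XT.lf (nat_lit 0) (nat_lit 2605406251) (nat_lit 420) (nat_lit 5075331601) (nat_lit 0) (nat_lit 1688625194) (nat_lit 46) (nat_lit 5) (nat_lit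 51) (nat_lit 4) (nat_lit 46) (nat_lit 4) (nat_lit 330) (nat_lit 266) (nat_lit 265))))) (XT.nd (nat_lit 282) (nat_lit 672) (nat_lit 0) (XT.nd (nat_lit 94) (nat_lit 420) (nat_lit 0) (XT.lf (nat_lit 0) (nat_lit 5289081227) (nat_lit 420) (nat_lit 759304895) (nat_lit 0) (nat_lit 3483084789) (nat_lit 46) (nat_lit 5) (nat_lit 51) (nat_lit 4) (nat_lit 46) (nat_lit 4) (nat_lit 331) (nat_lit 266) (nat_lit 264)) (XT.nd (nat_lit 94) (nat_lit 84) (nat_lit 0) (XT.lf (nat_lit 0) (nat_lit 3676293565) (nat_lit 336) (nat_lit 4346094090) (nat_lit 336) (nat_lit 1677619108) (nat_lit 42) (nat_lit 4) (nat_lit 46) (nat_lit 5) (nat_lit 46) (nat_lit 4) (nat_lit 332) (nat_lit 266) (nat_lit 263)) (XT.lf (nat_lit 0) (nat_lit 885349067) (nat_lit 420) (nat_lit 1706876657) (nat_lit 84) (nat_lit 7283501849) (nat_lit 41) (nat_lit 5) (nat_lit 46) (nat_lit 5) (nat_lit 42) (nat_lit 4) (nat_lit 333) (nat_lit 266) (nat_lit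 262)))) (XT.nd (nat_lit 188) (nat_lit 420) (nat_lit 0) (XT.nd (nat_lit 94) (nat_lit 0) (nat_lit 0) (XT.lf (nat_lit 0) (nat_lit 2694414411) (nat_lit 252) (nat_lit 757494741) (nat_lit 336) (nat_lit 6606056555) (nat_lit 38) (nat_lit 5) (nat_lit 41) (nat_lit 5) (nat_lit 42) (nat_lit 4) (nat_lit 334) (nat_lit 266) (nat_lit 261)) (XT.lf (nat_lit 0) (nat_lit 6060539040) (nat_lit 336) (nat_lit 3076217934) (nat_lit 0) (nat_lit 1110579119) (nat_lit 38) (nat_lit 5) (nat_lit 42) (nat_lit 4) (nat_lit 38) (nat_lit 4) (nat_lit 335) (nat_lit 266) (nat_lit 260))) (XT.nd (nat_lit 94) (nat_lit 84) (nat_lit 0) (XT.lf (nat_lit 0) (nat_lit 1276826329) (nat_lit 336) (nat_lit 7428887988) (nat_lit 336) (nat_lit 1738547563) (nat_lit 34) (nat_lit 4) (nat_lit 38) (nat_lit 5) (nat_lit 38) (nat_lit 4) (nat_lit 336) (nat_lit 266) (nat_lit 259)) (XT.lf (nat_lit 0) (nat_lit 737635464) (nat_lit 420) (nat_lit 4910321616)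 (nat_lit 84) (nat_lit 5000382370) (nat_lit 33) (nat_lit 5) (nat_lit 38) (nat_lit 5) (nat_lit 34) (nat_lit 4) (nat_lit 337) (nat_lit 266) (nat_lit 258))))))))
noncomputable def xc39 : XT := (XT.nd (nat_lit 2256) (nat_lit 672) (nat_lit 0) (XT.nd (nat_lit 1128) (nat_lit 588) (nat_lit 0) (XT.nd (nat_lit 564) (nat_lit 504) (nat_lit 0) (XT.nd (nat_lit 282) (nat_lit 336) (nat_lit 0) (XT.nd (nat_lit 94) (nat_lit 252) (nat_lit 0) (XT.lf (nat_lit 0) (nat_lit 3191836022) (nat_lit 420) (nat_lit 622366782) (nat_lit 84) (nat_lit 7046214665) (nat_lit 33) (nat_lit 5) (nat_lit 38) (nat_lit 5) (nat_lit 34) (nat_lit 4) (nat_lit 338) (nat_lit 266) (nat_lit 257)) (XT.nd (nat_lit 94) (nat_lit 0) (nat_lit 0) (XT.lf (nat_lit 0) (nat_lit 3794115350) (nat_lit 252) (nat_lit 1904892284) (nat_lit 336) (nat_lit 5381053843) (nat_lit 30) (nat_lit 5) (nat_lit 33) (nat_lit 5) (nat_lit 34) (nat_lit 4) (nat_lit 339)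 (nat_lit 266) (nat_lit 256)) (XT.lf (nat_lit 0) (nat_lit 8231179198) (nat_lit 336) (nat_lit 3028248631) (nat_lit 0) (nat_lit 48987930) (nat_lit 30) (nat_lit 5) (nat_lit 34) (nat_lit 4) (nat_lit 30) (nat_lit 4) (nat_lit 340) (nat_lit 266) (nat_lit 255)))) (XT.nd (nat_lit 94) (nat_lit 84) (nat_lit 0) (XT.lf (nat_lit 0) (nat_lit 1288437429) (nat_lit 252) (nat_lit 9527560195) (nat_lit 252) (nat_lit 728911651) (nat_lit 27) (nat_lit 4) (nat_lit 30) (nat_lit 5) (nat_lit 30) (nat_lit 4) (nat_lit 341) (nat_lit 266) (nat_lit 254)) (XT.nd (nat_lit 94) (nat_lit 0) (nat_lit 0) (XT.lf (nat_lit 0) (nat_lit 1632070962) (nat_lit 336) (nat_lit 6081834121) (nat_lit 84) (nat_lit 4075359596) (nat_lit 26) (nat_lit 5) (nat_lit 30) (nat_lit 5) (nat_lit 27) (nat_lit 4) (nat_lit 342) (nat_lit 266) (nat_lit 253)) (XT.lf (nat_lit 0) (nat_lit 3994868039) (nat_lit 336) (nat_lit 1862936714) (nat_lit 84) (nat_lit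 6185138750) (nat_lit 26) (nat_lit 5) (nat_lit 30) (nat_lit 5) (nat_lit 27) (nat_lit 4) (nat_lit 343) (nat_lit 266) (nat_lit 252))))) (XT.nd (nat_lit 282) (nat_lit 336) (nat_lit 0) (XT.nd (nat_lit 94) (nat_lit 0) (nat_lit 0) (XT.lf (nat_lit 0) (nat_lit 2460966716) (nat_lit 168) (nat_lit 3939814275) (nat_lit 252) (nat_lit 5904868563) (nat_lit 24) (nat_lit 5) (nat_lit 26) (nat_lit 5) (nat_lit 27) (nat_lit 4) (nat_lit 344) (nat_lit 266) (nat_lit 251)) (XT.nd (nat_lit 94) (nat_lit 0) (nat_lit 0) (XT.lf (nat_lit 0) (nat_lit 6883804622) (nat_lit 168) (nat_lit 1963273916) (nat_lit 252) (nat_lit 3730703354) (nat_lit 24) (nat_lit 5) (nat_lit 26) (nat_lit 5) (nat_lit 27) (nat_lit 4) (nat_lit 345) (nat_lit 266) (nat_lit 250)) (XT.lf (nat_lit 0) (nat_lit 11317718128) (nat_lit 252) (nat_lit 1489322901) (nat_lit 0) (nat_lit 53121148) (nat_lit 24) (nat_lit 5) (nat_lit 27) (nat_lit 4) (nat_lit 24)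 (nat_lit 4) (nat_lit 346) (nat_lit 266) (nat_lit 249)))) (XT.nd (nat_lit 94) (nat_lit 0) (nat_lit 0) (XT.lf (nat_lit 0) (nat_lit 696338014) (nat_lit 336) (nat_lit 10348177381) (nat_lit 84) (nat_lit 2106855159) (nat_lit 20) (nat_lit 5) (nat_lit 24) (nat_lit 5) (nat_lit 21) (nat_lit 4) (nat_lit 347) (nat_lit 266) (nat_lit 248)) (XT.nd (nat_lit 94) (nat_lit 0) (nat_lit 0) (XT.lf (nat_lit 0) (nat_lit 2937634673) (nat_lit 336) (nat_lit 6278977687) (nat_lit 84) (nat_lit 4235781949) (nat_lit 20) (nat_lit 5) (nat_lit 24) (nat_lit 5) (nat_lit 21) (nat_lit 4) (nat_lit 348) (nat_lit 266) (nat_lit 247)) (XT.lf (nat_lit 0) (nat_lit 5199379590) (nat_lit 336) (nat_lit 2153728581) (nat_lit 84) (nat_lit 6411352398) (nat_lit 20) (nat_lit 5) (nat_lit 24) (nat_lit 5) (nat_lit 21) (nat_lit 4) (nat_lit 349) (nat_lit 266) (nat_lit 246)))))) (XT.nd (nat_lit 564) (nat_lit 168) (nat_lit 0) (XT.nd (nat_lit 282)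 (nat_lit 252) (nat_lit 0) (XT.nd (nat_lit 94) (nat_lit 0) (nat_lit 0) (XT.lf (nat_lit 0) (nat_lit 2073185160) (nat_lit 168) (nat_lit 5431062041) (nat_lit 252) (nat_lit 6582975455) (nat_lit 18) (nat_lit 5) (nat_lit 20) (nat_lit 5) (nat_lit 21) (nat_lit 4) (nat_lit 350) (nat_lit 266) (nat_lit 245)) (XT.nd (nat_lit 94) (nat_lit 0) (nat_lit 0) (XT.lf (nat_lit 0) (nat_lit 6409491316) (nat_lit 168) (nat_lit 3446759587) (nat_lit 252) (nat_lit 4564672702) (nat_lit 18) (nat_lit 5) (nat_lit 20) (nat_lit 5) (nat_lit 21) (nat_lit 4) (nat_lit 351) (nat_lit 266) (nat_lit 244)) (XT.lf (nat_lit 0) (nat_lit 10814946699) (nat_lit 168) (nat_lit 1420831742) (nat_lit 252) (nat_lit 2530771959) (nat_lit 18) (nat_lit 5) (nat_lit 20) (nat_lit 5) (nat_lit 21) (nat_lit 4) (nat_lit 352) (nat_lit 266) (nat_lit 243)))) (XT.nd (nat_lit 94) (nat_lit 84) (nat_lit 0) (XT.lf (nat_lit 0) (nat_lit 166145626) (nat_lit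 168) (nat_lit 14486984634) (nat_lit 168) (nat_lit 471044386) (nat_lit 16) (nat_lit 4) (nat_lit 18) (nat_lit 5) (nat_lit 18) (nat_lit 4) (nat_lit 353) (nat_lit 266) (nat_lit 242)) (XT.nd (nat_lit 94) (nat_lit 0) (nat_lit 0) (XT.lf (nat_lit 0) (nat_lit 1631314170) (nat_lit 252) (nat_lit 11092703808) (nat_lit 84) (nat_lit 2768143613) (nat_lit 15) (nat_lit 5) (nat_lit 18) (nat_lit 5) (nat_lit 16) (nat_lit 4) (nat_lit 354) (nat_lit 266) (nat_lit 241)) (XT.lf (nat_lit 0) (nat_lit 3746261977) (nat_lit 252) (nat_lit 7175482096) (nat_lit 84) (nat_lit 4951143552) (nat_lit 15) (nat_lit 5) (nat_lit 18) (nat_lit 5) (nat_lit 16) (nat_lit 4) (nat_lit 355) (nat_lit 266) (nat_lit 240))))) (XT.nd (nat_lit 282) (nat_lit 0) (nat_lit 0) (XT.nd (nat_lit 94) (nat_lit 168) (nat_lit 0) (XT.lf (nat_lit 0) (nat_lit 5885260883) (nat_lit 252) (nat_lit 3198039805) (nat_lit 84) (nat_lit 7183551797) (nat_lit 15)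 (nat_lit 5) (nat_lit 18) (nat_lit 5) (nat_lit 16) (nat_lit 4) (nat_lit 356) (nat_lit 266) (nat_lit 239)) (XT.nd (nat_lit 94) (nat_lit 0) (nat_lit 0) (XT.lf (nat_lit 0) (nat_lit 860671060) (nat_lit 168) (nat_lit 7198171560) (nat_lit 252) (nat_lit 8615316089) (nat_lit 13) (nat_lit 5) (nat_lit 15) (nat_lit 5) (nat_lit 16) (nat_lit 4) (nat_lit 357) (nat_lit 266) (nat_lit 238)) (XT.lf (nat_lit 0) (nat_lit 5054227084) (nat_lit 168) (nat_lit 5239322823) (nat_lit 252) (nat_lit 6800876025) (nat_lit 13) (nat_lit 5) (nat_lit 15) (nat_lit 5) (nat_lit 16) (nat_lit 4) (nat_lit 358) (nat_lit 266) (nat_lit 237)))) (XT.nd (nat_lit 94) (nat_lit 0) (nat_lit 0) (XT.lf (nat_lit 0) (nat_lit 9320778841) (nat_lit 168) (nat_lit 3238309601) (nat_lit 252) (nat_lit 4969961140) (nat_lit 13) (nat_lit 5) (nat_lit 15) (nat_lit 5) (nat_lit 16) (nat_lit 4) (nat_lit 359) (nat_lit 266) (nat_lit 236)) (XT.nd (nat_lit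 94) (nat_lit 0) (nat_lit 0) (XT.lf (nat_lit 0) (nat_lit 13664303203) (nat_lit 168) (nat_lit 1193266740) (nat_lit 252) (nat_lit 3120864829) (nat_lit 13) (nat_lit 5) (nat_lit 15) (nat_lit 5) (nat_lit 16) (nat_lit 4) (nat_lit 360) (nat_lit 266) (nat_lit 235)) (XT.lf (nat_lit 0) (nat_lit 17200042254) (nat_lit 252) (nat_lit 363057001) (nat_lit 0) (nat_lit 879625056) (nat_lit 13) (nat_lit 5) (nat_lit 16) (nat_lit 4) (nat_lit 13) (nat_lit 4) (nat_lit 361) (nat_lit 266) (nat_lit 234))))))) (XT.nd (nat_lit 1128) (nat_lit 168) (nat_lit 0) (XT.nd (nat_lit 564) (nat_lit 168) (nat_lit 0) (XT.nd (nat_lit 282) (nat_lit 84) (nat_lit 0) (XT.nd (nat_lit 94) (nat_lit 0) (nat_lit 0) (XT.lf (nat_lit 0) (nat_lit 693628235) (nat_lit 252) (nat_lit 15207933257) (nat_lit 84) (nat_lit 3019322374) (nat_lit 10) (nat_lit 5) (nat_lit 13) (nat_lit 5) (nat_lit 11) (nat_lit 4) (nat_lit 362) (nat_lit 266) (nat_lit 233))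 (XT.nd (nat_lit 94) (nat_lit 0) (nat_lit 0) (XT.lf (nat_lit 0) (nat_lit 2632796555) (nat_lit 252) (nat_lit 11556849039) (nat_lit 84) (nat_lit 5224915805) (nat_lit 10) (nat_lit 5) (nat_lit 13) (nat_lit 5) (nat_lit 11) (nat_lit 4) (nat_lit 363) (nat_lit 266) (nat_lit 232)) (XT.lf (nat_lit 0) (nat_lit 4597954464) (nat_lit 252) (nat_lit 7844339455) (nat_lit 84) (nat_lit 7482420415) (nat_lit 10) (nat_lit 5) (nat_lit 13) (nat_lit 5) (nat_lit 11) (nat_lit 4) (nat_lit 364) (nat_lit 266) (nat_lit 231)))) (XT.nd (nat_lit 94) (nat_lit 84) (nat_lit 0) (XT.lf (nat_lit 0) (nat_lit 6590933696) (nat_lit 252) (nat_lit 4066944057) (nat_lit 84) (nat_lit 9793940434) (nat_lit 10) (nat_lit 5) (nat_lit 13) (nat_lit 5) (nat_lit 11) (nat_lit 4) (nat_lit 365) (nat_lit 266) (nat_lit 230)) (XT.nd (nat_lit 94) (nat_lit 84) (nat_lit 0) (XT.lf (nat_lit 0) (nat_lit 8613591916) (nat_lit 252) (nat_lit 221141917) (nat_lit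 84) (nat_lit 12161630441) (nat_lit 10) (nat_lit 5) (nat_lit 13) (nat_lit 5) (nat_lit 11) (nat_lit 4) (nat_lit 366) (nat_lit 266) (nat_lit 229)) (XT.lf (nat_lit 0) (nat_lit 3772662394) (nat_lit 84) (nat_lit 6932577336) (nat_lit 168) (nat_lit 10852460254) (nat_lit 9) (nat_lit 5) (nat_lit 10) (nat_lit 5) (nat_lit 11) (nat_lit 4) (nat_lit 367) (nat_lit 266) (nat_lit 228))))) (XT.nd (nat_lit 282) (nat_lit 168) (nat_lit 0) (XT.nd (nat_lit 94) (nat_lit 0) (nat_lit 0) (XT.lf (nat_lit 0) (nat_lit 7848212444) (nat_lit 84) (nat_lit 4985158852) (nat_lit 168) (nat_lit 9304045367) (nat_lit 9) (nat_lit 5) (nat_lit 10) (nat_lit 5) (nat_lit 11) (nat_lit 4) (nat_lit 368) (nat_lit 266) (nat_lit 227)) (XT.nd (nat_lit 94) (nat_lit 0) (nat_lit 0) (XT.lf (nat_lit 0) (nat_lit 12004759940) (nat_lit 84) (nat_lit 2992971451) (nat_lit 168) (nat_lit 7738392680) (nat_lit 9) (nat_lit 5) (nat_lit 10) (nat_lit 5)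 (nat_lit 11) (nat_lit 4) (nat_lit 369) (nat_lit 266) (nat_lit 226)) (XT.lf (nat_lit 0) (nat_lit 16246179219) (nat_lit 84) (nat_lit 954158205) (nat_lit 168) (nat_lit 6154042842) (nat_lit 9) (nat_lit 5) (nat_lit 10) (nat_lit 5) (nat_lit 11) (nat_lit 4) (nat_lit 370) (nat_lit 266) (nat_lit 225)))) (XT.nd (nat_lit 94) (nat_lit 168) (nat_lit 0) (XT.lf (nat_lit 0) (nat_lit 19454483756) (nat_lit 168) (nat_lit 3427579098) (nat_lit 0) (nat_lit 1110350194) (nat_lit 9) (nat_lit 5) (nat_lit 11) (nat_lit 4) (nat_lit 9) (nat_lit 4) (nat_lit 371) (nat_lit 266) (nat_lit 224)) (XT.nd (nat_lit 94) (nat_lit 0) (nat_lit 0) (XT.lf (nat_lit 0) (nat_lit 321699696) (nat_lit 168) (nat_lit 21442477368) (nat_lit 168) (nat_lit 2886580992) (nat_lit 7) (nat_lit 4) (nat_lit 9) (nat_lit 5) (nat_lit 9) (nat_lit 4) (nat_lit 372) (nat_lit 266) (nat_lit 223)) (XT.lf (nat_lit 0) (nat_lit 4218130719) (nat_lit 168) (nat_lit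 19936241639) (nat_lit 168) (nat_lit 1174949713) (nat_lit 7) (nat_lit 4) (nat_lit 9) (nat_lit 5) (nat_lit 9) (nat_lit 4) (nat_lit 373) (nat_lit 266) (nat_lit 222)))))) (XT.nd (nat_lit 564) (nat_lit 84) (nat_lit 0) (XT.nd (nat_lit 282) (nat_lit 0) (nat_lit 0) (XT.nd (nat_lit 94) (nat_lit 0) (nat_lit 0) (XT.lf (nat_lit 0) (nat_lit 551444244) (nat_lit 252) (nat_lit 17840528403) (nat_lit 84) (nat_lit 7637667606) (nat_lit 6) (nat_lit 5) (nat_lit 9) (nat_lit 5) (nat_lit 7) (nat_lit 4) (nat_lit 374) (nat_lit 266) (nat_lit 221)) (XT.nd (nat_lit 94) (nat_lit 0) (nat_lit 0) (XT.lf (nat_lit 0) (nat_lit 2281328315) (nat_lit 252) (nat_lit 14520363476) (nat_lit 84) (nat_lit 9950476962) (nat_lit 6) (nat_lit 5) (nat_lit 9) (nat_lit 5) (nat_lit 7) (nat_lit 4) (nat_lit 375) (nat_lit 266) (nat_lit 220)) (XT.lf (nat_lit 0) (nat_lit 4039987551) (nat_lit 252) (nat_lit 11135946182) (nat_lit 84) (nat_lit 12322008634)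 (nat_lit 6) (nat_lit 5) (nat_lit 9) (nat_lit 5) (nat_lit 7) (nat_lit 4) (nat_lit 376) (nat_lit 266) (nat_lit 219)))) (XT.nd (nat_lit 94) (nat_lit 0) (nat_lit 0) (XT.lf (nat_lit 0) (nat_lit 5829061205) (nat_lit 252) (nat_lit 7684121891) (nat_lit 84) (nat_lit 14754473140) (nat_lit 6) (nat_lit 5) (nat_lit 9) (nat_lit 5) (nat_lit 7) (nat_lit 4) (nat_lit 377) (nat_lit 266) (nat_lit 218)) (XT.nd (nat_lit 94) (nat_lit 0) (nat_lit 0) (XT.lf (nat_lit 0) (nat_lit 7650216881) (nat_lit 252) (nat_lit 4161673139) (nat_lit 84) (nat_lit 17250137790) (nat_lit 6) (nat_lit 5) (nat_lit 9) (nat_lit 5) (nat_lit 7) (nat_lit 4) (nat_lit 378) (nat_lit 266) (nat_lit 217)) (XT.lf (nat_lit 0) (nat_lit 9505152089) (nat_lit 252) (nat_lit 565316637) (nat_lit 84) (nat_lit 19811328805) (nat_lit 6) (nat_lit 5) (nat_lit 9) (nat_lit 5) (nat_lit 7) (nat_lit 4) (nat_lit 379) (nat_lit 266) (nat_lit 216))))) (XT.nd (nat_lit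 282) (nat_lit 0) (nat_lit 0) (XT.nd (nat_lit 94) (nat_lit 0) (nat_lit 0) (XT.lf (nat_lit 0) (nat_lit 3172212816) (nat_lit 84) (nat_lit 8254851749) (nat_lit 168) (nat_lit 19299689412) (nat_lit 5) (nat_lit 5) (nat_lit 6) (nat_lit 5) (nat_lit 7) (nat_lit 4) (nat_lit 380) (nat_lit 266) (nat_lit 215)) (XT.nd (nat_lit 94) (nat_lit 0) (nat_lit 0) (XT.lf (nat_lit 0) (nat_lit 7003709497) (nat_lit 84) (nat_lit 6389078338) (nat_lit 168) (nat_lit 18205670595) (nat_lit 5) (nat_lit 5) (nat_lit 6) (nat_lit 5) (nat_lit 7) (nat_lit 4) (nat_lit 381) (nat_lit 266) (nat_lit 214)) (XT.lf (nat_lit 0) (nat_lit 10921120693) (nat_lit 84) (nat_lit 4477310143) (nat_lit 168) (nat_lit 17099470000) (nat_lit 5) (nat_lit 5) (nat_lit 6) (nat_lit 5) (nat_lit 7) (nat_lit 4) (nat_lit 382) (nat_lit 266) (nat_lit 213)))) (XT.nd (nat_lit 188) (nat_lit 0) (nat_lit 0) (XT.nd (nat_lit 94) (nat_lit 0) (nat_lit 0) (XT.lf (nat_lit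 0) (nat_lit 14928097841) (nat_lit 84) (nat_lit 2517765195) (nat_lit 168) (nat_lit 15980056529) (nat_lit 5) (nat_lit 5) (nat_lit 6) (nat_lit 5) (nat_lit 7) (nat_lit 4) (nat_lit 383) (nat_lit 266) (nat_lit 212)) (XT.lf (nat_lit 0) (nat_lit 19028375864) (nat_lit 84) (nat_lit 508616994) (nat_lit 168) (nat_lit 14846386774) (nat_lit 5) (nat_lit 5) (nat_lit 6) (nat_lit 5) (nat_lit 7) (nat_lit 4) (nat_lit 384) (nat_lit 266) (nat_lit 211))) (XT.nd (nat_lit 94) (nat_lit 0) (nat_lit 0) (XT.lf (nat_lit 0) (nat_lit 21689165556) (nat_lit 168) (nat_lit 12160792941) (nat_lit 0) (nat_lit 1520737710) (nat_lit 5) (nat_lit 5) (nat_lit 7) (nat_lit 4) (nat_lit 5) (nat_lit 4) (nat_lit 385) (nat_lit 266) (nat_lit 210)) (XT.lf (nat_lit 0) (nat_lit 23894551973) (nat_lit 168) (nat_lit 8902376696) (nat_lit 0) (nat_lit 3592165799) (nat_lit 5) (nat_lit 5) (nat_lit 7) (nat_lit 4) (nat_lit 5) (nat_lit 4) (nat_lit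 386) (nat_lit 266) (nat_lit 209))))))))
noncomputable def xc40 : XT := (XT.nd (nat_lit 2256) (nat_lit 0) (nat_lit 0) (XT.nd (nat_lit 1128) (nat_lit 84) (nat_lit 0) (XT.nd (nat_lit 564) (nat_lit 84) (nat_lit 0) (XT.nd (nat_lit 282) (nat_lit 0) (nat_lit 0) (XT.nd (nat_lit 94) (nat_lit 84) (nat_lit 0) (XT.lf (nat_lit 0) (nat_lit 26150162216) (nat_lit 168) (nat_lit 5571672303) (nat_lit 0) (nat_lit 5717845559) (nat_lit 5) (nat_lit 5) (nat_lit 7) (nat_lit 4) (nat_lit 5) (nat_lit 4) (nat_lit 387) (nat_lit 266) (nat_lit 208)) (XT.nd (nat_lit 94) (nat_lit 84) (nat_lit 0) (XT.lf (nat_lit 0) (nat_lit 28458098750) (nat_lit 168) (nat_lit 2165575197) (nat_lit 0) (nat_lit 7899758346) (nat_lit 5) (nat_lit 5) (nat_lit 7) (nat_lit 4) (nat_lit 5) (nat_lit 4) (nat_lit 388) (nat_lit 266) (nat_lit 207)) (XT.lf (nat_lit 0) (nat_lit 1346212644) (nat_lit 84) (nat_lit 29487654766) (nat_lit 84) (nat_lit 8807079884)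 (nat_lit 4) (nat_lit 4) (nat_lit 5) (nat_lit 5) (nat_lit 5) (nat_lit 4) (nat_lit 389) (nat_lit 266) (nat_lit 206)))) (XT.nd (nat_lit 94) (nat_lit 0) (nat_lit 0) (XT.lf (nat_lit 0) (nat_lit 4986027075) (nat_lit 84) (nat_lit 28303041355) (nat_lit 84) (nat_lit 7503907328) (nat_lit 4) (nat_lit 4) (nat_lit 5) (nat_lit 5) (nat_lit 5) (nat_lit 4) (nat_lit 390) (nat_lit 266) (nat_lit 205)) (XT.nd (nat_lit 94) (nat_lit 0) (nat_lit 0) (XT.lf (nat_lit 0) (nat_lit 8712732116) (nat_lit 84) (nat_lit 27091333696) (nat_lit 84) (nat_lit 6177205348) (nat_lit 4) (nat_lit 4) (nat_lit 5) (nat_lit 5) (nat_lit 5) (nat_lit 4) (nat_lit 391) (nat_lit 266) (nat_lit 204)) (XT.lf (nat_lit 0) (nat_lit 12529801447) (nat_lit 84) (nat_lit 25851402349) (nat_lit 84) (nat_lit 4825737318) (nat_lit 4) (nat_lit 4) (nat_lit 5) (nat_lit 5) (nat_lit 5) (nat_lit 4) (nat_lit 392) (nat_lit 266) (nat_lit 203))))) (XT.nd (nat_lit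 282) (nat_lit 84) (nat_lit 0) (XT.nd (nat_lit 94) (nat_lit 0) (nat_lit 0) (XT.lf (nat_lit 0) (nat_lit 16440792975) (nat_lit 84) (nat_lit 24582091570) (nat_lit 84) (nat_lit 3448243529) (nat_lit 4) (nat_lit 4) (nat_lit 5) (nat_lit 5) (nat_lit 5) (nat_lit 4) (nat_lit 393) (nat_lit 266) (nat_lit 202)) (XT.nd (nat_lit 94) (nat_lit 0) (nat_lit 0) (XT.lf (nat_lit 0) (nat_lit 20449352155) (nat_lit 84) (nat_lit 23282218227) (nat_lit 84) (nat_lit 2043440011) (nat_lit 4) (nat_lit 4) (nat_lit 5) (nat_lit 5) (nat_lit 5) (nat_lit 4) (nat_lit 394) (nat_lit 266) (nat_lit 201)) (XT.lf (nat_lit 0) (nat_lit 24559215384) (nat_lit 84) (nat_lit 21950570702) (nat_lit 84) (nat_lit 610017341) (nat_lit 4) (nat_lit 4) (nat_lit 5) (nat_lit 5) (nat_lit 5) (nat_lit 4) (nat_lit 395) (nat_lit 266) (nat_lit 200)))) (XT.nd (nat_lit 94) (nat_lit 0) (nat_lit 0) (XT.lf (nat_lit 0) (nat_lit 836167266) (nat_lit 168) (nat_lit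 19741012623) (nat_lit 84) (nat_lit 27929318346) (nat_lit 3) (nat_lit 5) (nat_lit 5) (nat_lit 5) (nat_lit 4) (nat_lit 4) (nat_lit 396) (nat_lit 266) (nat_lit 199)) (XT.nd (nat_lit 94) (nat_lit 0) (nat_lit 0) (XT.lf (nat_lit 0) (nat_lit 2300749644) (nat_lit 168) (nat_lit 16862192642) (nat_lit 84) (nat_lit 30773510524) (nat_lit 3) (nat_lit 5) (nat_lit 5) (nat_lit 5) (nat_lit 4) (nat_lit 4) (nat_lit 397) (nat_lit 266) (nat_lit 198)) (XT.lf (nat_lit 0) (nat_lit 3797385427) (nat_lit 168) (nat_lit 13915393291) (nat_lit 84) (nat_lit 33698408895) (nat_lit 3) (nat_lit 5) (nat_lit 5) (nat_lit 5) (nat_lit 4) (nat_lit 4) (nat_lit 398) (nat_lit 266) (nat_lit 197)))))) (XT.nd (nat_lit 564) (nat_lit 0) (nat_lit 0) (XT.nd (nat_lit 282) (nat_lit 84) (nat_lit 0) (XT.nd (nat_lit 94) (nat_lit 0) (nat_lit 0) (XT.lf (nat_lit 0) (nat_lit 5327469635) (nat_lit 168) (nat_lit 10897867844) (nat_lit 84) (nat_lit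 36706739771) (nat_lit 3) (nat_lit 5) (nat_lit 5) (nat_lit 5) (nat_lit 4) (nat_lit 4) (nat_lit 399) (nat_lit 266) (nat_lit 196)) (XT.nd (nat_lit 94) (nat_lit 0) (nat_lit 0) (XT.lf (nat_lit 0) (nat_lit 6892428468) (nat_lit 168) (nat_lit 7806803651) (nat_lit 84) (nat_lit 39801307233) (nat_lit 3) (nat_lit 5) (nat_lit 5) (nat_lit 5) (nat_lit 4) (nat_lit 4) (nat_lit 400) (nat_lit 266) (nat_lit 195)) (XT.lf (nat_lit 0) (nat_lit 8493720631) (nat_lit 168) (nat_lit 4639319518) (nat_lit 84) (nat_lit 42984995740) (nat_lit 3) (nat_lit 5) (nat_lit 5) (nat_lit 5) (nat_lit 4) (nat_lit 4) (nat_lit 401) (nat_lit 266) (nat_lit 194)))) (XT.nd (nat_lit 94) (nat_lit 84) (nat_lit 0) (XT.lf (nat_lit 0) (nat_lit 10132838697) (nat_lit 168) (nat_lit 1392463016) (nat_lit 84) (nat_lit 46260772825) (nat_lit 3) (nat_lit 5) (nat_lit 5) (nat_lit 5) (nat_lit 4) (nat_lit 4) (nat_lit 402) (nat_lit 266) (nat_lit 193))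 (XT.nd (nat_lit 94) (nat_lit 0) (nat_lit 0) (XT.lf (nat_lit 0) (nat_lit 1976616684) (nat_lit 84) (nat_lit 9854302091) (nat_lit 168) (nat_lit 47674683452) (nat_lit 2) (nat_lit 5) (nat_lit 3) (nat_lit 5) (nat_lit 4) (nat_lit 4) (nat_lit 403) (nat_lit 266) (nat_lit 192)) (XT.lf (nat_lit 0) (nat_lit 5461588371) (nat_lit 84) (nat_lit 8123291796) (nat_lit 168) (nat_lit 47693486140) (nat_lit 2) (nat_lit 5) (nat_lit 3) (nat_lit 5) (nat_lit 4) (nat_lit 4) (nat_lit 404) (nat_lit 266) (nat_lit 191))))) (XT.nd (nat_lit 282) (nat_lit 0) (nat_lit 0) (XT.nd (nat_lit 94) (nat_lit 0) (nat_lit 0) (XT.lf (nat_lit 0) (nat_lit 9037068505) (nat_lit 84) (nat_lit 6345191802) (nat_lit 168) (nat_lit 47724195889) (nat_lit 2) (nat_lit 5) (nat_lit 3) (nat_lit 5) (nat_lit 4) (nat_lit 4) (nat_lit 405) (nat_lit 266) (nat_lit 190)) (XT.nd (nat_lit 94) (nat_lit 0) (nat_lit 0) (XT.lf (nat_lit 0) (nat_lit 12706389810)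 (nat_lit 84) (nat_lit 4518344735) (nat_lit 168) (nat_lit 47766841325) (nat_lit 2) (nat_lit 5) (nat_lit 3) (nat_lit 5) (nat_lit 4) (nat_lit 4) (nat_lit 406) (nat_lit 266) (nat_lit 189)) (XT.lf (nat_lit 0) (nat_lit 16472972476) (nat_lit 84) (nat_lit 2641047782) (nat_lit 168) (nat_lit 47821462198) (nat_lit 2) (nat_lit 5) (nat_lit 3) (nat_lit 5) (nat_lit 4) (nat_lit 4) (nat_lit 407) (nat_lit 266) (nat_lit 188)))) (XT.nd (nat_lit 94) (nat_lit 0) (nat_lit 0) (XT.lf (nat_lit 0) (nat_lit 20340327354) (nat_lit 84) (nat_lit 711551104) (nat_lit 168) (nat_lit 47888109420) (nat_lit 2) (nat_lit 5) (nat_lit 3) (nat_lit 5) (nat_lit 4) (nat_lit 4) (nat_lit 408) (nat_lit 266) (nat_lit 187)) (XT.nd (nat_lit 94) (nat_lit 0) (nat_lit 0) (XT.lf (nat_lit 0) (nat_lit 23052733274) (nat_lit 168) (nat_lit 46707519162) (nat_lit 0) (nat_lit 1246316956) (nat_lit 2) (nat_lit 5) (nat_lit 4) (nat_lit 4) (nat_lit 2)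 (nat_lit 4) (nat_lit 409) (nat_lit 266) (nat_lit 186)) (XT.lf (nat_lit 0) (nat_lit 25113432794) (nat_lit 168) (nat_lit 44779305304) (nat_lit 0) (nat_lit 3244570697) (nat_lit 2) (nat_lit 5) (nat_lit 4) (nat_lit 4) (nat_lit 2) (nat_lit 4) (nat_lit 410) (nat_lit 266) (nat_lit 185))))))) (XT.nd (nat_lit 46812) (nat_lit 0) (nat_lit 1848) (XT.nd (nat_lit 46248) (nat_lit 0) (nat_lit 3276) (XT.nd (nat_lit 282) (nat_lit 0) (nat_lit 0) (XT.nd (nat_lit 94) (nat_lit 0) (nat_lit 0) (XT.lf (nat_lit 0) (nat_lit 27228839131) (nat_lit 168) (nat_lit 42806162977) (nat_lit 0) (nat_lit 5299408868) (nat_lit 2) (nat_lit 5) (nat_lit 4) (nat_lit 4) (nat_lit 2) (nat_lit 4) (nat_lit 411) (nat_lit 266) (nat_lit 184)) (XT.nd (nat_lit 94) (nat_lit 0) (nat_lit 0) (XT.lf (nat_lit 0) (nat_lit 29400924065) (nat_lit 168) (nat_lit 40786253006) (nat_lit 0) (nat_lit 7412746794) (nat_lit 2) (nat_lit 5) (nat_lit 4) (nat_lit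 4) (nat_lit 2) (nat_lit 4) (nat_lit 412) (nat_lit 266) (nat_lit 183)) (XT.lf (nat_lit 0) (nat_lit 31631712207) (nat_lit 168) (nat_lit 38717692624) (nat_lit 0) (nat_lit 9586554327) (nat_lit 2) (nat_lit 5) (nat_lit 4) (nat_lit 4) (nat_lit 2) (nat_lit 4) (nat_lit 413) (nat_lit 266) (nat_lit 182)))) (XT.nd (nat_lit 94) (nat_lit 0) (nat_lit 0) (XT.lf (nat_lit 0) (nat_lit 33923282886) (nat_lit 168) (nat_lit 36598553715) (nat_lit 0) (nat_lit 11822857683) (nat_lit 2) (nat_lit 5) (nat_lit 4) (nat_lit 4) (nat_lit 2) (nat_lit 4) (nat_lit 414) (nat_lit 266) (nat_lit 181)) (XT.nd (nat_lit 45778) (nat_lit 0) (nat_lit 4116) (XT.lf (nat_lit 0) (nat_lit 36277772085) (nat_lit 168) (nat_lit 34426861019) (nat_lit 0) (nat_lit 14123741332) (nat_lit 2) (nat_lit 5) (nat_lit 4) (nat_lit 4) (nat_lit 2) (nat_lit 4) (nat_lit 415) (nat_lit 266) (nat_lit 180)) (XT.lf (nat_lit 0) (nat_lit 96058183) (nat_lit 420)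 (nat_lit 2181994865) (nat_lit 420) (nat_lit 2181994865) (nat_lit 51) (nat_lit 4) (nat_lit 56) (nat_lit 5) (nat_lit 56) (nat_lit 4) (nat_lit 327) (nat_lit 267) (nat_lit 267))))) (XT.nd (nat_lit 282) (nat_lit 420) (nat_lit 0) (XT.nd (nat_lit 94) (nat_lit 420) (nat_lit 0) (XT.lf (nat_lit 0) (nat_lit 4590484055) (nat_lit 420) (nat_lit 2724224770) (nat_lit 420) (nat_lit 1749722261) (nat_lit 51) (nat_lit 4) (nat_lit 56) (nat_lit 5) (nat_lit 56) (nat_lit 4) (nat_lit 328) (nat_lit 267) (nat_lit 266)) (XT.nd (nat_lit 94) (nat_lit 336) (nat_lit 0) (XT.lf (nat_lit 0) (nat_lit 853170318) (nat_lit 504) (nat_lit 186914862) (nat_lit 84) (nat_lit 8175524117) (nat_lit 50) (nat_lit 5) (nat_lit 56) (nat_lit 5) (nat_lit 51) (nat_lit 4) (nat_lit 329) (nat_lit 267) (nat_lit 265)) (XT.lf (nat_lit 0) (nat_lit 3478404779) (nat_lit 420) (nat_lit 5166362918) (nat_lit 0) (nat_lit 727207072) (nat_lit 46) (nat_lit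 5) (nat_lit 51) (nat_lit 4) (nat_lit 46) (nat_lit 4) (nat_lit 330) (nat_lit 267) (nat_lit 264)))) (XT.nd (nat_lit 94) (nat_lit 420) (nat_lit 0) (XT.lf (nat_lit 0) (nat_lit 6127598337) (nat_lit 420) (nat_lit 893809474) (nat_lit 0) (nat_lit 2513922085) (nat_lit 46) (nat_lit 5) (nat_lit 51) (nat_lit 4) (nat_lit 46) (nat_lit 4) (nat_lit 331) (nat_lit 267) (nat_lit 263)) (XT.nd (nat_lit 94) (nat_lit 84) (nat_lit 0) (XT.lf (nat_lit 0) (nat_lit 3495990160) (nat_lit 336) (nat_lit 5329681340) (nat_lit 336) (nat_lit 879459457) (nat_lit 42) (nat_lit 4) (nat_lit 46) (nat_lit 5) (nat_lit 46) (nat_lit 4) (nat_lit 332) (nat_lit 267) (nat_lit 262)) (XT.lf (nat_lit 0) (nat_lit 1634074092) (nat_lit 420) (nat_lit 1942809865) (nat_lit 84) (nat_lit 6304919046) (nat_lit 41) (nat_lit 5) (nat_lit 46) (nat_lit 5) (nat_lit 42) (nat_lit 4) (nat_lit 333) (nat_lit 267) (nat_lit 261)))))) (XT.nd (nat_lit 564) (nat_lit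 504) (nat_lit 0) (XT.nd (nat_lit 282) (nat_lit 336) (nat_lit 0) (XT.nd (nat_lit 94) (nat_lit 336) (nat_lit 0) (XT.lf (nat_lit 0) (nat_lit 2411473327) (nat_lit 252) (nat_lit 1754003420) (nat_lit 336) (nat_lit 5899812109) (nat_lit 38) (nat_lit 5) (nat_lit 41) (nat_lit 5) (nat_lit 42) (nat_lit 4) (nat_lit 334) (nat_lit 267) (nat_lit 260)) (XT.nd (nat_lit 94) (nat_lit 336) (nat_lit 0) (XT.lf (nat_lit 0) (nat_lit 6732347290) (nat_lit 336) (nat_lit 3398533777) (nat_lit 0) (nat_lit 125225809) (nat_lit 38) (nat_lit 5) (nat_lit 42) (nat_lit 4) (nat_lit 38) (nat_lit 4) (nat_lit 335) (nat_lit 267) (nat_lit 259)) (XT.lf (nat_lit 0) (nat_lit 906370489) (nat_lit 336) (nat_lit 8436561635) (nat_lit 336) (nat_lit 1111321333) (nat_lit 34) (nat_lit 4) (nat_lit 38) (nat_lit 5) (nat_lit 38) (nat_lit 4) (nat_lit 336) (nat_lit 267) (nat_lit 258)))) (XT.nd (nat_lit 94) (nat_lit 252) (nat_lit 0) (XT.lf (nat_lit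 0) (nat_lit 1321387250) (nat_lit 420) (nat_lit 5338029295) (nat_lit 84) (nat_lit 3999817243) (nat_lit 33) (nat_lit 5) (nat_lit 38) (nat_lit 5) (nat_lit 34) (nat_lit 4) (nat_lit 337) (nat_lit 267) (nat_lit 257)) (XT.nd (nat_lit 94) (nat_lit 252) (nat_lit 0) (XT.lf (nat_lit 0) (nat_lit 3745677785) (nat_lit 420) (nat_lit 1089878631) (nat_lit 84) (nat_lit 6036818095) (nat_lit 33) (nat_lit 5) (nat_lit 38) (nat_lit 5) (nat_lit 34) (nat_lit 4) (nat_lit 338) (nat_lit 267) (nat_lit 256)) (XT.lf (nat_lit 0) (nat_lit 3277589309) (nat_lit 252) (nat_lit 2941125395) (nat_lit 336) (nat_lit 4874493413) (nat_lit 30) (nat_lit 5) (nat_lit 33) (nat_lit 5) (nat_lit 34) (nat_lit 4) (nat_lit 339) (nat_lit 267) (nat_lit 255))))) (XT.nd (nat_lit 282) (nat_lit 168) (nat_lit 0) (XT.nd (nat_lit 94) (nat_lit 336) (nat_lit 0) (XT.lf (nat_lit 0) (nat_lit 7725935943) (nat_lit 252) (nat_lit 995936853) (nat_lit 336)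 (nat_lit 2600716488) (nat_lit 30) (nat_lit 5) (nat_lit 33) (nat_lit 5) (nat_lit 34) (nat_lit 4) (nat_lit 340) (nat_lit 267) (nat_lit 254)) (XT.nd (nat_lit 94) (nat_lit 84) (nat_lit 0) (XT.lf (nat_lit 0) (nat_lit 679692517) (nat_lit 252) (nat_lit 10583326689) (nat_lit 252) (nat_lit 297541062) (nat_lit 27) (nat_lit 4) (nat_lit 30) (nat_lit 5) (nat_lit 30) (nat_lit 4) (nat_lit 341) (nat_lit 267) (nat_lit 253)) (XT.lf (nat_lit 0) (nat_lit 2027062168) (nat_lit 336) (nat_lit 6748765818) (nat_lit 84) (nat_lit 3029929677) (nat_lit 26) (nat_lit 5) (nat_lit 30) (nat_lit 5) (nat_lit 27) (nat_lit 4) (nat_lit 342) (nat_lit 267) (nat_lit 252)))) (XT.nd (nat_lit 94) (nat_lit 168) (nat_lit 0) (XT.lf (nat_lit 0) (nat_lit 4363003544) (nat_lit 336) (nat_lit 2566974659) (nat_lit 84) (nat_lit 5130403626) (nat_lit 26) (nat_lit 5) (nat_lit 30) (nat_lit 5) (nat_lit 27) (nat_lit 4) (nat_lit 343) (nat_lit 267)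 (nat_lit 251)) (XT.nd (nat_lit 94) (nat_lit 0) (nat_lit 0) (XT.lf (nat_lit 0) (nat_lit 1705721725) (nat_lit 168) (nat_lit 5029654441) (nat_lit 252) (nat_lit 5588860888) (nat_lit 24) (nat_lit 5) (nat_lit 26) (nat_lit 5) (nat_lit 27) (nat_lit 4) (nat_lit 344) (nat_lit 267) (nat_lit 250)) (XT.lf (nat_lit 0) (nat_lit 6092933461) (nat_lit 168) (nat_lit 3063121844) (nat_lit 252) (nat_lit 3441214389) (nat_lit 24) (nat_lit 5) (nat_lit 26) (nat_lit 5) (nat_lit 27) (nat_lit 4) (nat_lit 345) (nat_lit 267) (nat_lit 249))))))))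
noncomputable def xc41 : XT := (XT.nd (nat_lit 2256) (nat_lit 420) (nat_lit 0) (XT.nd (nat_lit 1128) (nat_lit 504) (nat_lit 0) (XT.nd (nat_lit 564) (nat_lit 252) (nat_lit 0) (XT.nd (nat_lit 282) (nat_lit 168) (nat_lit 0) (XT.nd (nat_lit 94) (nat_lit 336) (nat_lit 0) (XT.lf (nat_lit 0) (nat_lit 10545967626) (nat_lit 168) (nat_lit 1055341350) (nat_lit 252) (nat_lit 1279230910) (nat_lit 24) (nat_lit 5) (nat_lit 26) (nat_lit 5) (nat_lit 27) (nat_lit 4) (nat_lit 346) (nat_lit 267) (nat_lit 248)) (XT.nd (nat_lit 94) (nat_lit 0) (nat_lit 0) (XT.lf (nat_lit 0) (nat_lit 910243799) (nat_lit 336) (nat_lit 11259087097) (nat_lit 84) (nat_lit 1003797397) (nat_lit 20) (nat_lit 5) (nat_lit 24) (nat_lit 5) (nat_lit 21) (nat_lit 4) (nat_lit 347) (nat_lit 267) (nat_lit 247)) (XT.lf (nat_lit 0) (nat_lit 3127398686) (nat_lit 336) (nat_lit 7224400342) (nat_lit 84) (nat_lit 3123195348) (nat_lit 20) (nat_lit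 5) (nat_lit 24) (nat_lit 5) (nat_lit 21) (nat_lit 4) (nat_lit 348) (nat_lit 267) (nat_lit 246)))) (XT.nd (nat_lit 94) (nat_lit 168) (nat_lit 0) (XT.lf (nat_lit 0) (nat_lit 5365727724) (nat_lit 336) (nat_lit 3132626443) (nat_lit 84) (nat_lit 5289523469) (nat_lit 20) (nat_lit 5) (nat_lit 24) (nat_lit 5) (nat_lit 21) (nat_lit 4) (nat_lit 349) (nat_lit 267) (nat_lit 245)) (XT.nd (nat_lit 94) (nat_lit 0) (nat_lit 0) (XT.lf (nat_lit 0) (nat_lit 1041022849) (nat_lit 168) (nat_lit 6596621495) (nat_lit 252) (nat_lit 6474105229) (nat_lit 18) (nat_lit 5) (nat_lit 20) (nat_lit 5) (nat_lit 21) (nat_lit 4) (nat_lit 350) (nat_lit 267) (nat_lit 244)) (XT.lf (nat_lit 0) (nat_lit 5345189043) (nat_lit 168) (nat_lit 4622111254) (nat_lit 252) (nat_lit 4478928717) (nat_lit 18) (nat_lit 5) (nat_lit 20) (nat_lit 5) (nat_lit 21) (nat_lit 4) (nat_lit 351) (nat_lit 267) (nat_lit 243))))) (XT.nd (nat_lit 282)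 (nat_lit 0) (nat_lit 0) (XT.nd (nat_lit 94) (nat_lit 252) (nat_lit 0) (XT.lf (nat_lit 0) (nat_lit 9719470845) (nat_lit 168) (nat_lit 2605681190) (nat_lit 252) (nat_lit 2467458858) (nat_lit 18) (nat_lit 5) (nat_lit 20) (nat_lit 5) (nat_lit 21) (nat_lit 4) (nat_lit 352) (nat_lit 267) (nat_lit 242)) (XT.nd (nat_lit 94) (nat_lit 252) (nat_lit 0) (XT.lf (nat_lit 0) (nat_lit 14167945544) (nat_lit 168) (nat_lit 545451780) (nat_lit 252) (nat_lit 437820752) (nat_lit 18) (nat_lit 5) (nat_lit 20) (nat_lit 5) (nat_lit 21) (nat_lit 4) (nat_lit 353) (nat_lit 267) (nat_lit 241)) (XT.lf (nat_lit 0) (nat_lit 1627327956) (nat_lit 252) (nat_lit 12315582724) (nat_lit 84) (nat_lit 1577492737) (nat_lit 15) (nat_lit 5) (nat_lit 18) (nat_lit 5) (nat_lit 16) (nat_lit 4) (nat_lit 354) (nat_lit 267) (nat_lit 240)))) (XT.nd (nat_lit 94) (nat_lit 0) (nat_lit 0) (XT.lf (nat_lit 0) (nat_lit 3721836431) (nat_lit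 252) (nat_lit 8428500497) (nat_lit 84) (nat_lit 3751499721) (nat_lit 15) (nat_lit 5) (nat_lit 18) (nat_lit 5) (nat_lit 16) (nat_lit 4) (nat_lit 355) (nat_lit 267) (nat_lit 239)) (XT.nd (nat_lit 94) (nat_lit 0) (nat_lit 0) (XT.lf (nat_lit 0) (nat_lit 5841010572) (nat_lit 252) (nat_lit 4480291460) (nat_lit 84) (nat_lit 5975185410) (nat_lit 15) (nat_lit 5) (nat_lit 18) (nat_lit 5) (nat_lit 16) (nat_lit 4) (nat_lit 356) (nat_lit 267) (nat_lit 238)) (XT.lf (nat_lit 0) (nat_lit 7986825671) (nat_lit 252) (nat_lit 467275469) (nat_lit 84) (nat_lit 8250622512) (nat_lit 15) (nat_lit 5) (nat_lit 18) (nat_lit 5) (nat_lit 16) (nat_lit 4) (nat_lit 357) (nat_lit 267) (nat_lit 237)))))) (XT.nd (nat_lit 564) (nat_lit 84) (nat_lit 0) (XT.nd (nat_lit 282) (nat_lit 252) (nat_lit 0) (XT.nd (nat_lit 94) (nat_lit 0) (nat_lit 0) (XT.lf (nat_lit 0) (nat_lit 3688605202) (nat_lit 168) (nat_lit 6509268071) (nat_lit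 252) (nat_lit 6927918191) (nat_lit 13) (nat_lit 5) (nat_lit 15) (nat_lit 5) (nat_lit 16) (nat_lit 4) (nat_lit 358) (nat_lit 267) (nat_lit 236)) (XT.nd (nat_lit 94) (nat_lit 0) (nat_lit 0) (XT.lf (nat_lit 0) (nat_lit 7927933670) (nat_lit 168) (nat_lit 4517118350) (nat_lit 252) (nat_lit 5115997366) (nat_lit 13) (nat_lit 5) (nat_lit 15) (nat_lit 5) (nat_lit 16) (nat_lit 4) (nat_lit 359) (nat_lit 267) (nat_lit 235)) (XT.lf (nat_lit 0) (nat_lit 12245053292) (nat_lit 168) (nat_lit 2480672484) (nat_lit 252) (nat_lit 3285324003) (nat_lit 13) (nat_lit 5) (nat_lit 15) (nat_lit 5) (nat_lit 16) (nat_lit 4) (nat_lit 360) (nat_lit 267) (nat_lit 234)))) (XT.nd (nat_lit 94) (nat_lit 252) (nat_lit 0) (XT.lf (nat_lit 0) (nat_lit 16643988074) (nat_lit 168) (nat_lit 398032293) (nat_lit 252) (nat_lit 1434191723) (nat_lit 13) (nat_lit 5) (nat_lit 15) (nat_lit 5) (nat_lit 16) (nat_lit 4) (nat_lit 361) (nat_lit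 267) (nat_lit 233)) (XT.nd (nat_lit 94) (nat_lit 0) (nat_lit 0) (XT.lf (nat_lit 0) (nat_lit 469679667) (nat_lit 252) (nat_lit 16761531902) (nat_lit 84) (nat_lit 1724401822) (nat_lit 10) (nat_lit 5) (nat_lit 13) (nat_lit 5) (nat_lit 11) (nat_lit 4) (nat_lit 362) (nat_lit 267) (nat_lit 232)) (XT.lf (nat_lit 0) (nat_lit 2392046102) (nat_lit 252) (nat_lit 13135931803) (nat_lit 84) (nat_lit 3921889779) (nat_lit 10) (nat_lit 5) (nat_lit 13) (nat_lit 5) (nat_lit 11) (nat_lit 4) (nat_lit 363) (nat_lit 267) (nat_lit 231))))) (XT.nd (nat_lit 282) (nat_lit 84) (nat_lit 0) (XT.nd (nat_lit 94) (nat_lit 0) (nat_lit 0) (XT.lf (nat_lit 0) (nat_lit 4340907324) (nat_lit 252) (nat_lit 9448140083) (nat_lit 84) (nat_lit 6171532629) (nat_lit 10) (nat_lit 5) (nat_lit 13) (nat_lit 5) (nat_lit 11) (nat_lit 4) (nat_lit 364) (nat_lit 267) (nat_lit 230)) (XT.nd (nat_lit 94) (nat_lit 0) (nat_lit 0) (XT.lf (nat_lit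 0) (nat_lit 6318079875) (nat_lit 252) (nat_lit 5694719336) (nat_lit 84) (nat_lit 8475427275) (nat_lit 10) (nat_lit 5) (nat_lit 13) (nat_lit 5) (nat_lit 11) (nat_lit 4) (nat_lit 365) (nat_lit 267) (nat_lit 229)) (XT.lf (nat_lit 0) (nat_lit 8325406688) (nat_lit 252) (nat_lit 1872170979) (nat_lit 84) (nat_lit 10835721188) (nat_lit 10) (nat_lit 5) (nat_lit 13) (nat_lit 5) (nat_lit 11) (nat_lit 4) (nat_lit 366) (nat_lit 267) (nat_lit 228)))) (XT.nd (nat_lit 94) (nat_lit 0) (nat_lit 0) (XT.lf (nat_lit 0) (nat_lit 2064666429) (nat_lit 84) (nat_lit 8320574118) (nat_lit 168) (nat_lit 11210429726) (nat_lit 9) (nat_lit 5) (nat_lit 10) (nat_lit 5) (nat_lit 11) (nat_lit 4) (nat_lit 367) (nat_lit 267) (nat_lit 227)) (XT.nd (nat_lit 94) (nat_lit 0) (nat_lit 0) (XT.lf (nat_lit 0) (nat_lit 6117890232) (nat_lit 84) (nat_lit 6380837099) (nat_lit 168) (nat_lit 9677161595) (nat_lit 9) (nat_lit 5) (nat_lit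 10) (nat_lit 5) (nat_lit 11) (nat_lit 4) (nat_lit 368) (nat_lit 267) (nat_lit 226)) (XT.lf (nat_lit 0) (nat_lit 10252782785) (nat_lit 84) (nat_lit 4396100198) (nat_lit 168) (nat_lit 8126200234) (nat_lit 9) (nat_lit 5) (nat_lit 10) (nat_lit 5) (nat_lit 11) (nat_lit 4) (nat_lit 369) (nat_lit 267) (nat_lit 225))))))) (XT.nd (nat_lit 1128) (nat_lit 84) (nat_lit 0) (XT.nd (nat_lit 564) (nat_lit 84) (nat_lit 0) (XT.nd (nat_lit 282) (nat_lit 252) (nat_lit 0) (XT.nd (nat_lit 94) (nat_lit 0) (nat_lit 0) (XT.lf (nat_lit 0) (nat_lit 14473198240) (nat_lit 84) (nat_lit 2364513432) (nat_lit 168) (nat_lit 6556099983) (nat_lit 9) (nat_lit 5) (nat_lit 10) (nat_lit 5) (nat_lit 11) (nat_lit 4) (nat_lit 370) (nat_lit 267) (nat_lit 224)) (XT.nd (nat_lit 94) (nat_lit 0) (nat_lit 0) (XT.lf (nat_lit 0) (nat_lit 18783070467) (nat_lit 84) (nat_lit 284183148) (nat_lit 168) (nat_lit 4965397344) (nat_lit 9) (nat_lit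 5) (nat_lit 10) (nat_lit 5) (nat_lit 11) (nat_lit 4) (nat_lit 371) (nat_lit 267) (nat_lit 223)) (XT.lf (nat_lit 0) (nat_lit 21357907760) (nat_lit 168) (nat_lit 1524100660) (nat_lit 0) (nat_lit 1809620233) (nat_lit 9) (nat_lit 5) (nat_lit 11) (nat_lit 4) (nat_lit 9) (nat_lit 4) (nat_lit 372) (nat_lit 267) (nat_lit 222)))) (XT.nd (nat_lit 94) (nat_lit 84) (nat_lit 0) (XT.lf (nat_lit 0) (nat_lit 2321059030) (nat_lit 168) (nat_lit 21398779154) (nat_lit 168) (nat_lit 1651271888) (nat_lit 7) (nat_lit 4) (nat_lit 9) (nat_lit 5) (nat_lit 9) (nat_lit 4) (nat_lit 373) (nat_lit 267) (nat_lit 221)) (XT.nd (nat_lit 94) (nat_lit 0) (nat_lit 0) (XT.lf (nat_lit 0) (nat_lit 72103621) (nat_lit 252) (nat_lit 19794294432) (nat_lit 84) (nat_lit 6205606511) (nat_lit 6) (nat_lit 5) (nat_lit 9) (nat_lit 5) (nat_lit 7) (nat_lit 4) (nat_lit 374) (nat_lit 267) (nat_lit 220)) (XT.lf (nat_lit 0) (nat_lit 1789751728)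 (nat_lit 252) (nat_lit 16493170738) (nat_lit 84) (nat_lit 8512027500) (nat_lit 6) (nat_lit 5) (nat_lit 9) (nat_lit 5) (nat_lit 7) (nat_lit 4) (nat_lit 375) (nat_lit 267) (nat_lit 219))))) (XT.nd (nat_lit 282) (nat_lit 84) (nat_lit 0) (XT.nd (nat_lit 94) (nat_lit 0) (nat_lit 0) (XT.lf (nat_lit 0) (nat_lit 3536542909) (nat_lit 252) (nat_lit 13127222149) (nat_lit 84) (nat_lit 10877362891) (nat_lit 6) (nat_lit 5) (nat_lit 9) (nat_lit 5) (nat_lit 7) (nat_lit 4) (nat_lit 376) (nat_lit 267) (nat_lit 218)) (XT.nd (nat_lit 94) (nat_lit 0) (nat_lit 0) (XT.lf (nat_lit 0) (nat_lit 5314105357) (nat_lit 252) (nat_lit 9693311246) (nat_lit 84) (nat_lit 13303817423) (nat_lit 6) (nat_lit 5) (nat_lit 9) (nat_lit 5) (nat_lit 7) (nat_lit 4) (nat_lit 377) (nat_lit 267) (nat_lit 217)) (XT.lf (nat_lit 0) (nat_lit 7124095945) (nat_lit 252) (nat_lit 6188237266) (nat_lit 84) (nat_lit 15793652807) (nat_lit 6)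 (nat_lit 5) (nat_lit 9) (nat_lit 5) (nat_lit 7) (nat_lit 4) (nat_lit 378) (nat_lit 267) (nat_lit 216)))) (XT.nd (nat_lit 94) (nat_lit 84) (nat_lit 0) (XT.lf (nat_lit 0) (nat_lit 8968201775) (nat_lit 252) (nat_lit 2608733112) (nat_lit 84) (nat_lit 18349189831) (nat_lit 6) (nat_lit 5) (nat_lit 9) (nat_lit 5) (nat_lit 7) (nat_lit 4) (nat_lit 379) (nat_lit 267) (nat_lit 215)) (XT.nd (nat_lit 94) (nat_lit 0) (nat_lit 0) (XT.lf (nat_lit 0) (nat_lit 1070097773) (nat_lit 84) (nat_lit 9788659474) (nat_lit 168) (nat_lit 19913328250) (nat_lit 5) (nat_lit 5) (nat_lit 6) (nat_lit 5) (nat_lit 7) (nat_lit 4) (nat_lit 380) (nat_lit 267) (nat_lit 214)) (XT.lf (nat_lit 0) (nat_lit 4885414306) (nat_lit 84) (nat_lit 7928717767) (nat_lit 168) (nat_lit 18830009977) (nat_lit 5) (nat_lit 5) (nat_lit 6) (nat_lit 5) (nat_lit 7) (nat_lit 4) (nat_lit 381) (nat_lit 267) (nat_lit 213)))))) (XT.nd (nat_lit 564)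 (nat_lit 84) (nat_lit 0) (XT.nd (nat_lit 282) (nat_lit 0) (nat_lit 0) (XT.nd (nat_lit 94) (nat_lit 0) (nat_lit 0) (XT.lf (nat_lit 0) (nat_lit 8787131856) (nat_lit 84) (nat_lit 6022605929) (nat_lit 168) (nat_lit 17734188182) (nat_lit 5) (nat_lit 5) (nat_lit 6) (nat_lit 5) (nat_lit 7) (nat_lit 4) (nat_lit 382) (nat_lit 267) (nat_lit 212)) (XT.nd (nat_lit 94) (nat_lit 0) (nat_lit 0) (XT.lf (nat_lit 0) (nat_lit 12778887233) (nat_lit 84) (nat_lit 4068547264) (nat_lit 168) (nat_lit 16624841443) (nat_lit 5) (nat_lit 5) (nat_lit 6) (nat_lit 5) (nat_lit 7) (nat_lit 4) (nat_lit 383) (nat_lit 267) (nat_lit 211)) (XT.lf (nat_lit 0) (nat_lit 16864401171) (nat_lit 84) (nat_lit 2064720385) (nat_lit 168) (nat_lit 15500935734) (nat_lit 5) (nat_lit 5) (nat_lit 6) (nat_lit 5) (nat_lit 7) (nat_lit 4) (nat_lit 384) (nat_lit 267) (nat_lit 210)))) (XT.nd (nat_lit 94) (nat_lit 0) (nat_lit 0) (XT.lf (nat_lit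 0) (nat_lit 21047481798) (nat_lit 84) (nat_lit 9257514) (nat_lit 168) (nat_lit 14361423457) (nat_lit 5) (nat_lit 5) (nat_lit 6) (nat_lit 5) (nat_lit 7) (nat_lit 4) (nat_lit 385) (nat_lit 267) (nat_lit 209)) (XT.nd (nat_lit 94) (nat_lit 0) (nat_lit 0) (XT.lf (nat_lit 0) (nat_lit 23253100781) (nat_lit 168) (nat_lit 11126315065) (nat_lit 0) (nat_lit 2057451824) (nat_lit 5) (nat_lit 5) (nat_lit 7) (nat_lit 4) (nat_lit 5) (nat_lit 4) (nat_lit 386) (nat_lit 267) (nat_lit 208)) (XT.lf (nat_lit 0) (nat_lit 25500046510) (nat_lit 168) (nat_lit 7809327621) (nat_lit 0) (nat_lit 4178373807) (nat_lit 5) (nat_lit 5) (nat_lit 7) (nat_lit 4) (nat_lit 5) (nat_lit 4) (nat_lit 387) (nat_lit 267) (nat_lit 207))))) (XT.nd (nat_lit 282) (nat_lit 0) (nat_lit 0) (XT.nd (nat_lit 94) (nat_lit 84) (nat_lit 0) (XT.lf (nat_lit 0) (nat_lit 27799579055) (nat_lit 168) (nat_lit 4416535025) (nat_lit 0) (nat_lit 6355671873)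 (nat_lit 5) (nat_lit 5) (nat_lit 7) (nat_lit 4) (nat_lit 5) (nat_lit 4) (nat_lit 388) (nat_lit 267) (nat_lit 206)) (XT.nd (nat_lit 94) (nat_lit 84) (nat_lit 0) (XT.lf (nat_lit 0) (nat_lit 30153841819) (nat_lit 168) (nat_lit 944774838) (nat_lit 0) (nat_lit 8591375493) (nat_lit 5) (nat_lit 5) (nat_lit 7) (nat_lit 4) (nat_lit 5) (nat_lit 4) (nat_lit 389) (nat_lit 267) (nat_lit 205)) (XT.lf (nat_lit 0) (nat_lit 2662839260) (nat_lit 84) (nat_lit 29928605658) (nat_lit 84) (nat_lit 8251145011) (nat_lit 4) (nat_lit 4) (nat_lit 5) (nat_lit 5) (nat_lit 5) (nat_lit 4) (nat_lit 390) (nat_lit 267) (nat_lit 204)))) (XT.nd (nat_lit 188) (nat_lit 0) (nat_lit 0) (XT.nd (nat_lit 94) (nat_lit 0) (nat_lit 0) (XT.lf (nat_lit 0) (nat_lit 6377154558) (nat_lit 84) (nat_lit 28721496349) (nat_lit 84) (nat_lit 6932499019) (nat_lit 4) (nat_lit 4) (nat_lit 5) (nat_lit 5) (nat_lit 5) (nat_lit 4) (nat_lit 391) (nat_lit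 267) (nat_lit 203)) (XT.lf (nat_lit 0) (nat_lit 10182206680) (nat_lit 84) (nat_lit 27486025091) (nat_lit 84) (nat_lit 5588844751) (nat_lit 4) (nat_lit 4) (nat_lit 5) (nat_lit 5) (nat_lit 5) (nat_lit 4) (nat_lit 392) (nat_lit 267) (nat_lit 202))) (XT.nd (nat_lit 94) (nat_lit 0) (nat_lit 0) (XT.lf (nat_lit 0) (nat_lit 14081542331) (nat_lit 84) (nat_lit 26221040294) (nat_lit 84) (nat_lit 4218929779) (nat_lit 4) (nat_lit 4) (nat_lit 5) (nat_lit 5) (nat_lit 5) (nat_lit 4) (nat_lit 393) (nat_lit 267) (nat_lit 201)) (XT.lf (nat_lit 0) (nat_lit 18078796102) (nat_lit 84) (nat_lit 24925362861) (nat_lit 84) (nat_lit 2821477200) (nat_lit 4) (nat_lit 4) (nat_lit 5) (nat_lit 5) (nat_lit 5) (nat_lit 4) (nat_lit 394) (nat_lit 267) (nat_lit 200))))))))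
noncomputable def xc42 : XT := (XT.nd (nat_lit 47846) (nat_lit 0) (nat_lit 1344) (XT.nd (nat_lit 1128) (nat_lit 0) (nat_lit 0) (XT.nd (nat_lit 564) (nat_lit 84) (nat_lit 0) (XT.nd (nat_lit 282) (nat_lit 0) (nat_lit 0) (XT.nd (nat_lit 94) (nat_lit 84) (nat_lit 0) (XT.lf (nat_lit 0) (nat_lit 22177693852) (nat_lit 84) (nat_lit 23597785083) (nat_lit 84) (nat_lit 1395184442) (nat_lit 4) (nat_lit 4) (nat_lit 5) (nat_lit 5) (nat_lit 5) (nat_lit 4) (nat_lit 395) (nat_lit 267) (nat_lit 199)) (XT.nd (nat_lit 94) (nat_lit 0) (nat_lit 0) (XT.lf (nat_lit 0) (nat_lit 60043335) (nat_lit 168) (nat_lit 22176399456) (nat_lit 84) (nat_lit 26321386117) (nat_lit 3) (nat_lit 5) (nat_lit 5) (nat_lit 5) (nat_lit 4) (nat_lit 4) (nat_lit 396) (nat_lit 267) (nat_lit 198)) (XT.lf (nat_lit 0) (nat_lit 1518053261) (nat_lit 168) (nat_lit 19308049218) (nat_lit 84) (nat_lit 29161903374) (nat_lit 3) (nat_lit 5) (nat_lit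 5) (nat_lit 5) (nat_lit 4) (nat_lit 4) (nat_lit 397) (nat_lit 267) (nat_lit 197)))) (XT.nd (nat_lit 94) (nat_lit 0) (nat_lit 0) (XT.lf (nat_lit 0) (nat_lit 3008314212) (nat_lit 168) (nat_lit 16371404807) (nat_lit 84) (nat_lit 32083237321) (nat_lit 3) (nat_lit 5) (nat_lit 5) (nat_lit 5) (nat_lit 4) (nat_lit 4) (nat_lit 398) (nat_lit 267) (nat_lit 196)) (XT.nd (nat_lit 94) (nat_lit 0) (nat_lit 0) (XT.lf (nat_lit 0) (nat_lit 4532215267) (nat_lit 168) (nat_lit 13363728963) (nat_lit 84) (nat_lit 35088110949) (nat_lit 3) (nat_lit 5) (nat_lit 5) (nat_lit 5) (nat_lit 4) (nat_lit 4) (nat_lit 399) (nat_lit 267) (nat_lit 195)) (XT.lf (nat_lit 0) (nat_lit 6091176860) (nat_lit 168) (nat_lit 10282218217) (nat_lit 84) (nat_lit 38179325114) (nat_lit 3) (nat_lit 5) (nat_lit 5) (nat_lit 5) (nat_lit 4) (nat_lit 4) (nat_lit 400) (nat_lit 267) (nat_lit 194))))) (XT.nd (nat_lit 282) (nat_lit 84) (nat_lit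 0) (XT.nd (nat_lit 94) (nat_lit 0) (nat_lit 0) (XT.lf (nat_lit 0) (nat_lit 7686652108) (nat_lit 168) (nat_lit 7124000277) (nat_lit 84) (nat_lit 41359761151) (nat_lit 3) (nat_lit 5) (nat_lit 5) (nat_lit 5) (nat_lit 4) (nat_lit 4) (nat_lit 401) (nat_lit 267) (nat_lit 193)) (XT.nd (nat_lit 94) (nat_lit 0) (nat_lit 0) (XT.lf (nat_lit 0) (nat_lit 9320128160) (nat_lit 168) (nat_lit 3886131355) (nat_lit 84) (nat_lit 44632383561) (nat_lit 3) (nat_lit 5) (nat_lit 5) (nat_lit 5) (nat_lit 4) (nat_lit 4) (nat_lit 402) (nat_lit 267) (nat_lit 192)) (XT.lf (nat_lit 0) (nat_lit 10993127588) (nat_lit 168) (nat_lit 565593416) (nat_lit 84) (nat_lit 48000242770) (nat_lit 3) (nat_lit 5) (nat_lit 5) (nat_lit 5) (nat_lit 4) (nat_lit 4) (nat_lit 403) (nat_lit 267) (nat_lit 191)))) (XT.nd (nat_lit 94) (nat_lit 0) (nat_lit 0) (XT.lf (nat_lit 0) (nat_lit 2899119422) (nat_lit 84) (nat_lit 9836850002) (nat_lit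 168) (nat_lit 48596118176) (nat_lit 2) (nat_lit 5) (nat_lit 3) (nat_lit 5) (nat_lit 4) (nat_lit 4) (nat_lit 404) (nat_lit 267) (nat_lit 190)) (XT.nd (nat_lit 94) (nat_lit 0) (nat_lit 0) (XT.lf (nat_lit 0) (nat_lit 6466229929) (nat_lit 84) (nat_lit 8061888377) (nat_lit 168) (nat_lit 48632235944) (nat_lit 2) (nat_lit 5) (nat_lit 3) (nat_lit 5) (nat_lit 4) (nat_lit 4) (nat_lit 405) (nat_lit 267) (nat_lit 189)) (XT.lf (nat_lit 0) (nat_lit 10127433263) (nat_lit 84) (nat_lit 6238085314) (nat_lit 168) (nat_lit 48680126790) (nat_lit 2) (nat_lit 5) (nat_lit 3) (nat_lit 5) (nat_lit 4) (nat_lit 4) (nat_lit 406) (nat_lit 267) (nat_lit 188)))))) (XT.nd (nat_lit 564) (nat_lit 0) (nat_lit 0) (XT.nd (nat_lit 282) (nat_lit 0) (nat_lit 0) (XT.nd (nat_lit 94) (nat_lit 0) (nat_lit 0) (XT.lf (nat_lit 0) (nat_lit 13886142049) (nat_lit 84) (nat_lit 4363740838) (nat_lit 168) (nat_lit 48739835354) (nat_lit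 2) (nat_lit 5) (nat_lit 3) (nat_lit 5) (nat_lit 4) (nat_lit 4) (nat_lit 407) (nat_lit 267) (nat_lit 187)) (XT.nd (nat_lit 94) (nat_lit 0) (nat_lit 0) (XT.lf (nat_lit 0) (nat_lit 17745859798) (nat_lit 84) (nat_lit 2437107863) (nat_lit 168) (nat_lit 48811417291) (nat_lit 2) (nat_lit 5) (nat_lit 3) (nat_lit 5) (nat_lit 4) (nat_lit 4) (nat_lit 408) (nat_lit 267) (nat_lit 186)) (XT.lf (nat_lit 0) (nat_lit 21710184171) (nat_lit 84) (nat_lit 456390566) (nat_lit 168) (nat_lit 48894939323) (nat_lit 2) (nat_lit 5) (nat_lit 3) (nat_lit 5) (nat_lit 4) (nat_lit 4) (nat_lit 409) (nat_lit 267) (nat_lit 185)))) (XT.nd (nat_lit 94) (nat_lit 0) (nat_lit 0) (XT.lf (nat_lit 0) (nat_lit 24218229392) (nat_lit 168) (nat_lit 47425898359) (nat_lit 0) (nat_lit 1548418626) (nat_lit 2) (nat_lit 5) (nat_lit 4) (nat_lit 4) (nat_lit 2) (nat_lit 4) (nat_lit 410) (nat_lit 267) (nat_lit 184)) (XT.nd (nat_lit 94) (nat_lit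 0) (nat_lit 0) (XT.lf (nat_lit 0) (nat_lit 26329254144) (nat_lit 168) (nat_lit 45459846021) (nat_lit 0) (nat_lit 3600696369) (nat_lit 2) (nat_lit 5) (nat_lit 4) (nat_lit 4) (nat_lit 2) (nat_lit 4) (nat_lit 411) (nat_lit 267) (nat_lit 183)) (XT.lf (nat_lit 0) (nat_lit 28497089238) (nat_lit 168) (nat_lit 43446812859) (nat_lit 0) (nat_lit 5711550854) (nat_lit 2) (nat_lit 5) (nat_lit 4) (nat_lit 4) (nat_lit 2) (nat_lit 4) (nat_lit 412) (nat_lit 267) (nat_lit 182))))) (XT.nd (nat_lit 45872) (nat_lit 0) (nat_lit 4116) (XT.nd (nat_lit 94) (nat_lit 0) (nat_lit 0) (XT.lf (nat_lit 0) (nat_lit 30723755324) (nat_lit 168) (nat_lit 41384922513) (nat_lit 0) (nat_lit 7882949618) (nat_lit 2) (nat_lit 5) (nat_lit 4) (nat_lit 4) (nat_lit 2) (nat_lit 4) (nat_lit 413) (nat_lit 267) (nat_lit 181)) (XT.nd (nat_lit 45684) (nat_lit 0) (nat_lit 4536) (XT.lf (nat_lit 0) (nat_lit 33011327888) (nat_lit 168) (nat_lit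 39272253087) (nat_lit 0) (nat_lit 10116916631) (nat_lit 2) (nat_lit 5) (nat_lit 4) (nat_lit 4) (nat_lit 2) (nat_lit 4) (nat_lit 414) (nat_lit 267) (nat_lit 180)) (XT.lf (nat_lit 0) (nat_lit 97298186) (nat_lit 420) (nat_lit 4129530611) (nat_lit 0) (nat_lit 97298186) (nat_lit 56) (nat_lit 5) (nat_lit 61) (nat_lit 4) (nat_lit 56) (nat_lit 4) (nat_lit 325) (nat_lit 268) (nat_lit 268)))) (XT.nd (nat_lit 94) (nat_lit 420) (nat_lit 0) (XT.lf (nat_lit 0) (nat_lit 2854206524) (nat_lit 420) (nat_lit 4077755996) (nat_lit 0) (nat_lit 1849494437) (nat_lit 56) (nat_lit 5) (nat_lit 61) (nat_lit 4) (nat_lit 56) (nat_lit 4) (nat_lit 326) (nat_lit 268) (nat_lit 267)) (XT.nd (nat_lit 94) (nat_lit 0) (nat_lit 0) (XT.lf (nat_lit 0) (nat_lit 147647138) (nat_lit 420) (nat_lit 5376500783) (nat_lit 420) (nat_lit 3397286187) (nat_lit 51) (nat_lit 4) (nat_lit 56) (nat_lit 5) (nat_lit 56) (nat_lit 4) (nat_lit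 327) (nat_lit 268) (nat_lit 266)) (XT.lf (nat_lit 0) (nat_lit 4502882696) (nat_lit 420) (nat_lit 3744300289) (nat_lit 420) (nat_lit 819884424) (nat_lit 51) (nat_lit 4) (nat_lit 56) (nat_lit 5) (nat_lit 56) (nat_lit 4) (nat_lit 328) (nat_lit 268) (nat_lit 265))))))) (XT.nd (nat_lit 1128) (nat_lit 1008) (nat_lit 0) (XT.nd (nat_lit 564) (nat_lit 672) (nat_lit 0) (XT.nd (nat_lit 282) (nat_lit 672) (nat_lit 0) (XT.nd (nat_lit 94) (nat_lit 336) (nat_lit 0) (XT.lf (nat_lit 0) (nat_lit 1729237190) (nat_lit 504) (nat_lit 329116188) (nat_lit 84) (nat_lit 7160876306) (nat_lit 50) (nat_lit 5) (nat_lit 56) (nat_lit 5) (nat_lit 51) (nat_lit 4) (nat_lit 329) (nat_lit 268) (nat_lit 264)) (XT.nd (nat_lit 94) (nat_lit 0) (nat_lit 0) (XT.lf (nat_lit 0) (nat_lit 4025770288) (nat_lit 336) (nat_lit 285496373) (nat_lit 420) (nat_lit 5065846188) (nat_lit 46) (nat_lit 5) (nat_lit 50) (nat_lit 5) (nat_lit 51)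 (nat_lit 4) (nat_lit 330) (nat_lit 268) (nat_lit 263)) (XT.lf (nat_lit 0) (nat_lit 6924183428) (nat_lit 420) (nat_lit 1118123072) (nat_lit 0) (nat_lit 1499459036) (nat_lit 46) (nat_lit 5) (nat_lit 51) (nat_lit 4) (nat_lit 46) (nat_lit 4) (nat_lit 331) (nat_lit 268) (nat_lit 262)))) (XT.nd (nat_lit 94) (nat_lit 336) (nat_lit 0) (XT.lf (nat_lit 0) (nat_lit 3225324995) (nat_lit 336) (nat_lit 6361807540) (nat_lit 336) (nat_lit 125690684) (nat_lit 42) (nat_lit 4) (nat_lit 46) (nat_lit 5) (nat_lit 46) (nat_lit 4) (nat_lit 332) (nat_lit 268) (nat_lit 261)) (XT.nd (nat_lit 94) (nat_lit 252) (nat_lit 0) (XT.lf (nat_lit 0) (nat_lit 2340305486) (nat_lit 420) (nat_lit 2269952014) (nat_lit 84) (nat_lit 5280166672) (nat_lit 41) (nat_lit 5) (nat_lit 46) (nat_lit 5) (nat_lit 42) (nat_lit 4) (nat_lit 333) (nat_lit 268) (nat_lit 260)) (XT.lf (nat_lit 0) (nat_lit 2036715422) (nat_lit 252) (nat_lit 2799897171)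 (nat_lit 336) (nat_lit 5238538486) (nat_lit 38) (nat_lit 5) (nat_lit 41) (nat_lit 5) (nat_lit 42) (nat_lit 4) (nat_lit 334) (nat_lit 268) (nat_lit 259))))) (XT.nd (nat_lit 282) (nat_lit 252) (nat_lit 0) (XT.nd (nat_lit 94) (nat_lit 420) (nat_lit 0) (XT.lf (nat_lit 0) (nat_lit 6444462698) (nat_lit 252) (nat_lit 926924774) (nat_lit 336) (nat_lit 2895725081) (nat_lit 38) (nat_lit 5) (nat_lit 41) (nat_lit 5) (nat_lit 42) (nat_lit 4) (nat_lit 335) (nat_lit 268) (nat_lit 258)) (XT.nd (nat_lit 94) (nat_lit 84) (nat_lit 0) (XT.lf (nat_lit 0) (nat_lit 442653665) (nat_lit 336) (nat_lit 9495537391) (nat_lit 336) (nat_lit 528569321) (nat_lit 34) (nat_lit 4) (nat_lit 38) (nat_lit 5) (nat_lit 38) (nat_lit 4) (nat_lit 336) (nat_lit 268) (nat_lit 257)) (XT.lf (nat_lit 0) (nat_lit 1862488084) (nat_lit 420) (nat_lit 5859838182) (nat_lit 84) (nat_lit 2950297937) (nat_lit 33) (nat_lit 5) (nat_lit 38)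 (nat_lit 5) (nat_lit 34) (nat_lit 4) (nat_lit 337) (nat_lit 268) (nat_lit 256)))) (XT.nd (nat_lit 94) (nat_lit 252) (nat_lit 0) (XT.lf (nat_lit 0) (nat_lit 4257767928) (nat_lit 420) (nat_lit 1650294862) (nat_lit 84) (nat_lit 4978732889) (nat_lit 33) (nat_lit 5) (nat_lit 38) (nat_lit 5) (nat_lit 34) (nat_lit 4) (nat_lit 338) (nat_lit 268) (nat_lit 255)) (XT.nd (nat_lit 94) (nat_lit 0) (nat_lit 0) (XT.lf (nat_lit 0) (nat_lit 2667433293) (nat_lit 252) (nat_lit 4029180329) (nat_lit 336) (nat_lit 4412203058) (nat_lit 30) (nat_lit 5) (nat_lit 33) (nat_lit 5) (nat_lit 34) (nat_lit 4) (nat_lit 339) (nat_lit 268) (nat_lit 254)) (XT.lf (nat_lit 0) (nat_lit 7078712538) (nat_lit 252) (nat_lit 2093399125) (nat_lit 336) (nat_lit 2167067282) (nat_lit 30) (nat_lit 5) (nat_lit 33) (nat_lit 5) (nat_lit 34) (nat_lit 4) (nat_lit 340) (nat_lit 268) (nat_lit 253)))))) (XT.nd (nat_lit 564) (nat_lit 504)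 (nat_lit 0) (XT.nd (nat_lit 282) (nat_lit 168) (nat_lit 0) (XT.nd (nat_lit 94) (nat_lit 252) (nat_lit 0) (XT.lf (nat_lit 0) (nat_lit 89408167) (nat_lit 336) (nat_lit 25799115) (nat_lit 84) (nat_lit 11463379794) (nat_lit 29) (nat_lit 5) (nat_lit 33) (nat_lit 5) (nat_lit 30) (nat_lit 5) (nat_lit 341) (nat_lit 268) (nat_lit 252)) (XT.nd (nat_lit 94) (nat_lit 0) (nat_lit 0) (XT.lf (nat_lit 0) (nat_lit 2379754173) (nat_lit 336) (nat_lit 7511735188) (nat_lit 84) (nat_lit 1933192558) (nat_lit 26) (nat_lit 5) (nat_lit 30) (nat_lit 5) (nat_lit 27) (nat_lit 4) (nat_lit 342) (nat_lit 268) (nat_lit 251)) (XT.lf (nat_lit 0) (nat_lit 4689647343) (nat_lit 336) (nat_lit 3365934571) (nat_lit 84) (nat_lit 4024641089) (nat_lit 26) (nat_lit 5) (nat_lit 30) (nat_lit 5) (nat_lit 27) (nat_lit 4) (nat_lit 343) (nat_lit 268) (nat_lit 250)))) (XT.nd (nat_lit 94) (nat_lit 0) (nat_lit 0) (XT.lf (nat_lit 0) (nat_lit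 854707389) (nat_lit 168) (nat_lit 6173605418) (nat_lit 252) (nat_lit 5316916476) (nat_lit 24) (nat_lit 5) (nat_lit 26) (nat_lit 5) (nat_lit 27) (nat_lit 4) (nat_lit 344) (nat_lit 268) (nat_lit 249)) (XT.nd (nat_lit 94) (nat_lit 0) (nat_lit 0) (XT.lf (nat_lit 0) (nat_lit 5207364159) (nat_lit 168) (nat_lit 4216779671) (nat_lit 252) (nat_lit 3194991327) (nat_lit 24) (nat_lit 5) (nat_lit 26) (nat_lit 5) (nat_lit 27) (nat_lit 4) (nat_lit 345) (nat_lit 268) (nat_lit 248)) (XT.lf (nat_lit 0) (nat_lit 9626882353) (nat_lit 168) (nat_lit 2218414162) (nat_lit 252) (nat_lit 1057955811) (nat_lit 24) (nat_lit 5) (nat_lit 26) (nat_lit 5) (nat_lit 27) (nat_lit 4) (nat_lit 346) (nat_lit 268) (nat_lit 247))))) (XT.nd (nat_lit 282) (nat_lit 168) (nat_lit 0) (XT.nd (nat_lit 94) (nat_lit 0) (nat_lit 0) (XT.lf (nat_lit 0) (nat_lit 927345492) (nat_lit 252) (nat_lit 155950278) (nat_lit 336) (nat_lit 12113927560)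 (nat_lit 20) (nat_lit 5) (nat_lit 23) (nat_lit 5) (nat_lit 24) (nat_lit 5) (nat_lit 347) (nat_lit 268) (nat_lit 246)) (XT.nd (nat_lit 94) (nat_lit 0) (nat_lit 0) (XT.lf (nat_lit 0) (nat_lit 3275487733) (nat_lit 336) (nat_lit 8267119245) (nat_lit 84) (nat_lit 1957347395) (nat_lit 20) (nat_lit 5) (nat_lit 24) (nat_lit 5) (nat_lit 21) (nat_lit 4) (nat_lit 348) (nat_lit 268) (nat_lit 245)) (XT.lf (nat_lit 0) (nat_lit 5491104957) (nat_lit 336) (nat_lit 4207814025) (nat_lit 84) (nat_lit 4114711086) (nat_lit 20) (nat_lit 5) (nat_lit 24) (nat_lit 5) (nat_lit 21) (nat_lit 4) (nat_lit 349) (nat_lit 268) (nat_lit 244)))) (XT.nd (nat_lit 188) (nat_lit 0) (nat_lit 0) (XT.nd (nat_lit 94) (nat_lit 168) (nat_lit 0) (XT.lf (nat_lit 0) (nat_lit 7730665586) (nat_lit 336) (nat_lit 86631435) (nat_lit 84) (nat_lit 6321293732) (nat_lit 20) (nat_lit 5) (nat_lit 24) (nat_lit 5) (nat_lit 21) (nat_lit 4) (nat_lit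 350) (nat_lit 268) (nat_lit 243)) (XT.lf (nat_lit 0) (nat_lit 4184579856) (nat_lit 168) (nat_lit 5853188817) (nat_lit 252) (nat_lit 4436083794) (nat_lit 18) (nat_lit 5) (nat_lit 20) (nat_lit 5) (nat_lit 21) (nat_lit 4) (nat_lit 351) (nat_lit 268) (nat_lit 242))) (XT.nd (nat_lit 94) (nat_lit 0) (nat_lit 0) (XT.lf (nat_lit 0) (nat_lit 8528625401) (nat_lit 168) (nat_lit 3845970957) (nat_lit 252) (nat_lit 2446370369) (nat_lit 18) (nat_lit 5) (nat_lit 20) (nat_lit 5) (nat_lit 21) (nat_lit 4) (nat_lit 352) (nat_lit 268) (nat_lit 241)) (XT.lf (nat_lit 0) (nat_lit 12947772984) (nat_lit 168) (nat_lit 1794676759) (nat_lit 252) (nat_lit 437834527) (nat_lit 18) (nat_lit 5) (nat_lit 20) (nat_lit 5) (nat_lit 21) (nat_lit 4) (nat_lit 353) (nat_lit 268) (nat_lit 240))))))))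
noncomputable def xc43 : XT := (XT.nd (nat_lit 2256) (nat_lit 252) (nat_lit 0) (XT.nd (nat_lit 1128) (nat_lit 336) (nat_lit 0) (XT.nd (nat_lit 564) (nat_lit 252) (nat_lit 0) (XT.nd (nat_lit 282) (nat_lit 168) (nat_lit 0) (XT.nd (nat_lit 94) (nat_lit 0) (nat_lit 0) (XT.lf (nat_lit 0) (nat_lit 1581705886) (nat_lit 252) (nat_lit 13637584180) (nat_lit 84) (nat_lit 331666992) (nat_lit 15) (nat_lit 5) (nat_lit 18) (nat_lit 5) (nat_lit 16) (nat_lit 4) (nat_lit 354) (nat_lit 268) (nat_lit 239)) (XT.nd (nat_lit 94) (nat_lit 0) (nat_lit 0) (XT.lf (nat_lit 0) (nat_lit 3656389596) (nat_lit 252) (nat_lit 9779735207) (nat_lit 84) (nat_lit 2496951420) (nat_lit 15) (nat_lit 5) (nat_lit 18) (nat_lit 5) (nat_lit 16) (nat_lit 4) (nat_lit 355) (nat_lit 268) (nat_lit 238)) (XT.lf (nat_lit 0) (nat_lit 5756335062) (nat_lit 252) (nat_lit 5859880442) (nat_lit 84) (nat_lit 4712176822) (nat_lit 15) (nat_lit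 5) (nat_lit 18) (nat_lit 5) (nat_lit 16) (nat_lit 4) (nat_lit 356) (nat_lit 268) (nat_lit 237)))) (XT.nd (nat_lit 94) (nat_lit 168) (nat_lit 0) (XT.lf (nat_lit 0) (nat_lit 7883499650) (nat_lit 252) (nat_lit 1874366169) (nat_lit 84) (nat_lit 6979408020) (nat_lit 15) (nat_lit 5) (nat_lit 18) (nat_lit 5) (nat_lit 16) (nat_lit 4) (nat_lit 357) (nat_lit 268) (nat_lit 236)) (XT.nd (nat_lit 94) (nat_lit 0) (nat_lit 0) (XT.lf (nat_lit 0) (nat_lit 2225358542) (nat_lit 168) (nat_lit 7836583393) (nat_lit 252) (nat_lit 7097475600) (nat_lit 13) (nat_lit 5) (nat_lit 15) (nat_lit 5) (nat_lit 16) (nat_lit 4) (nat_lit 358) (nat_lit 268) (nat_lit 235)) (XT.lf (nat_lit 0) (nat_lit 6438282270) (nat_lit 168) (nat_lit 5853030667) (nat_lit 252) (nat_lit 5303977723) (nat_lit 13) (nat_lit 5) (nat_lit 15) (nat_lit 5) (nat_lit 16) (nat_lit 4) (nat_lit 359) (nat_lit 268) (nat_lit 234))))) (XT.nd (nat_lit 282)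 (nat_lit 0) (nat_lit 0) (XT.nd (nat_lit 94) (nat_lit 252) (nat_lit 0) (XT.lf (nat_lit 0) (nat_lit 10729791085) (nat_lit 168) (nat_lit 3824923303) (nat_lit 252) (nat_lit 3491173369) (nat_lit 13) (nat_lit 5) (nat_lit 15) (nat_lit 5) (nat_lit 16) (nat_lit 4) (nat_lit 360) (nat_lit 268) (nat_lit 233)) (XT.nd (nat_lit 94) (nat_lit 252) (nat_lit 0) (XT.lf (nat_lit 0) (nat_lit 15103885124) (nat_lit 168) (nat_lit 1750370891) (nat_lit 252) (nat_lit 1657372815) (nat_lit 13) (nat_lit 5) (nat_lit 15) (nat_lit 5) (nat_lit 16) (nat_lit 4) (nat_lit 361) (nat_lit 268) (nat_lit 232)) (XT.lf (nat_lit 0) (nat_lit 204664065) (nat_lit 252) (nat_lit 18415050350) (nat_lit 84) (nat_lit 372876514) (nat_lit 10) (nat_lit 5) (nat_lit 13) (nat_lit 5) (nat_lit 11) (nat_lit 4) (nat_lit 362) (nat_lit 268) (nat_lit 231)))) (XT.nd (nat_lit 94) (nat_lit 0) (nat_lit 0) (XT.lf (nat_lit 0) (nat_lit 2110733813) (nat_lit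 252) (nat_lit 14814168115) (nat_lit 84) (nat_lit 2562502712) (nat_lit 10) (nat_lit 5) (nat_lit 13) (nat_lit 5) (nat_lit 11) (nat_lit 4) (nat_lit 363) (nat_lit 268) (nat_lit 230)) (XT.nd (nat_lit 94) (nat_lit 0) (nat_lit 0) (XT.lf (nat_lit 0) (nat_lit 4043788354) (nat_lit 252) (nat_lit 11150351046) (nat_lit 84) (nat_lit 4804520189) (nat_lit 10) (nat_lit 5) (nat_lit 13) (nat_lit 5) (nat_lit 11) (nat_lit 4) (nat_lit 364) (nat_lit 268) (nat_lit 229)) (XT.lf (nat_lit 0) (nat_lit 6005629498) (nat_lit 252) (nat_lit 7420184082) (nat_lit 84) (nat_lit 7101018741) (nat_lit 10) (nat_lit 5) (nat_lit 13) (nat_lit 5) (nat_lit 11) (nat_lit 4) (nat_lit 365) (nat_lit 268) (nat_lit 228)))))) (XT.nd (nat_lit 564) (nat_lit 252) (nat_lit 0) (XT.nd (nat_lit 282) (nat_lit 0) (nat_lit 0) (XT.nd (nat_lit 94) (nat_lit 84) (nat_lit 0) (XT.lf (nat_lit 0) (nat_lit 7998085887) (nat_lit 252) (nat_lit 3620190317)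 (nat_lit 84) (nat_lit 9454138945) (nat_lit 10) (nat_lit 5) (nat_lit 13) (nat_lit 5) (nat_lit 11) (nat_lit 4) (nat_lit 366) (nat_lit 268) (nat_lit 227)) (XT.nd (nat_lit 94) (nat_lit 0) (nat_lit 0) (XT.lf (nat_lit 0) (nat_lit 258377982) (nat_lit 84) (nat_lit 9767199857) (nat_lit 168) (nat_lit 11610259314) (nat_lit 9) (nat_lit 5) (nat_lit 10) (nat_lit 5) (nat_lit 11) (nat_lit 4) (nat_lit 367) (nat_lit 268) (nat_lit 226)) (XT.lf (nat_lit 0) (nat_lit 4289946843) (nat_lit 84) (nat_lit 7834913338) (nat_lit 168) (nat_lit 10091682508) (nat_lit 9) (nat_lit 5) (nat_lit 10) (nat_lit 5) (nat_lit 11) (nat_lit 4) (nat_lit 368) (nat_lit 268) (nat_lit 225)))) (XT.nd (nat_lit 94) (nat_lit 0) (nat_lit 0) (XT.lf (nat_lit 0) (nat_lit 8403835572) (nat_lit 84) (nat_lit 5857402915) (nat_lit 168) (nat_lit 8554970734) (nat_lit 9) (nat_lit 5) (nat_lit 10) (nat_lit 5) (nat_lit 11) (nat_lit 4) (nat_lit 369) (nat_lit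 268) (nat_lit 224)) (XT.nd (nat_lit 94) (nat_lit 0) (nat_lit 0) (XT.lf (nat_lit 0) (nat_lit 12603878744) (nat_lit 84) (nat_lit 3832825343) (nat_lit 168) (nat_lit 6998691615) (nat_lit 9) (nat_lit 5) (nat_lit 10) (nat_lit 5) (nat_lit 11) (nat_lit 4) (nat_lit 370) (nat_lit 268) (nat_lit 223)) (XT.lf (nat_lit 0) (nat_lit 16893991238) (nat_lit 84) (nat_lit 1759293502) (nat_lit 168) (nat_lit 5421394537) (nat_lit 9) (nat_lit 5) (nat_lit 10) (nat_lit 5) (nat_lit 11) (nat_lit 4) (nat_lit 371) (nat_lit 268) (nat_lit 222))))) (XT.nd (nat_lit 282) (nat_lit 84) (nat_lit 0) (XT.nd (nat_lit 94) (nat_lit 168) (nat_lit 0) (XT.lf (nat_lit 0) (nat_lit 20916668623) (nat_lit 168) (nat_lit 3460106027) (nat_lit 0) (nat_lit 357768893) (nat_lit 9) (nat_lit 5) (nat_lit 11) (nat_lit 4) (nat_lit 9) (nat_lit 4) (nat_lit 372) (nat_lit 268) (nat_lit 221)) (XT.nd (nat_lit 94) (nat_lit 0) (nat_lit 0) (XT.lf (nat_lit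 0) (nat_lit 325912060) (nat_lit 168) (nat_lit 22920637866) (nat_lit 168) (nat_lit 2168508515) (nat_lit 7) (nat_lit 4) (nat_lit 9) (nat_lit 5) (nat_lit 9) (nat_lit 4) (nat_lit 373) (nat_lit 268) (nat_lit 220)) (XT.lf (nat_lit 0) (nat_lit 4264563727) (nat_lit 168) (nat_lit 21395686931) (nat_lit 168) (nat_lit 456137967) (nat_lit 7) (nat_lit 4) (nat_lit 9) (nat_lit 5) (nat_lit 9) (nat_lit 4) (nat_lit 374) (nat_lit 268) (nat_lit 219)))) (XT.nd (nat_lit 94) (nat_lit 0) (nat_lit 0) (XT.lf (nat_lit 0) (nat_lit 1258832249) (nat_lit 252) (nat_lit 18564644964) (nat_lit 84) (nat_lit 7016401456) (nat_lit 6) (nat_lit 5) (nat_lit 9) (nat_lit 5) (nat_lit 7) (nat_lit 4) (nat_lit 375) (nat_lit 268) (nat_lit 218)) (XT.nd (nat_lit 94) (nat_lit 0) (nat_lit 0) (XT.lf (nat_lit 0) (nat_lit 2994112224) (nat_lit 252) (nat_lit 15216609763) (nat_lit 84) (nat_lit 9375726874) (nat_lit 6) (nat_lit 5) (nat_lit 9)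 (nat_lit 5) (nat_lit 7) (nat_lit 4) (nat_lit 376) (nat_lit 268) (nat_lit 217)) (XT.lf (nat_lit 0) (nat_lit 4760509583) (nat_lit 252) (nat_lit 11800073632) (nat_lit 84) (nat_lit 11796352141) (nat_lit 6) (nat_lit 5) (nat_lit 9) (nat_lit 5) (nat_lit 7) (nat_lit 4) (nat_lit 377) (nat_lit 268) (nat_lit 216))))))) (XT.nd (nat_lit 1128) (nat_lit 168) (nat_lit 0) (XT.nd (nat_lit 564) (nat_lit 0) (nat_lit 0) (XT.nd (nat_lit 282) (nat_lit 84) (nat_lit 0) (XT.nd (nat_lit 94) (nat_lit 0) (nat_lit 0) (XT.lf (nat_lit 0) (nat_lit 6559670793) (nat_lit 252) (nat_lit 8311852000) (nat_lit 84) (nat_lit 14280533533) (nat_lit 6) (nat_lit 5) (nat_lit 9) (nat_lit 5) (nat_lit 7) (nat_lit 4) (nat_lit 378) (nat_lit 268) (nat_lit 215)) (XT.nd (nat_lit 94) (nat_lit 0) (nat_lit 0) (XT.lf (nat_lit 0) (nat_lit 8393272861) (nat_lit 252) (nat_lit 4748693480) (nat_lit 84) (nat_lit 16830586567) (nat_lit 6) (nat_lit 5)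 (nat_lit 9) (nat_lit 5) (nat_lit 7) (nat_lit 4) (nat_lit 379) (nat_lit 268) (nat_lit 214)) (XT.lf (nat_lit 0) (nat_lit 10263024896) (nat_lit 252) (nat_lit 1107276834) (nat_lit 84) (nat_lit 19448888162) (nat_lit 6) (nat_lit 5) (nat_lit 9) (nat_lit 5) (nat_lit 7) (nat_lit 4) (nat_lit 380) (nat_lit 268) (nat_lit 213)))) (XT.nd (nat_lit 94) (nat_lit 0) (nat_lit 0) (XT.lf (nat_lit 0) (nat_lit 2669578169) (nat_lit 84) (nat_lit 9527574081) (nat_lit 168) (nat_lit 19494783223) (nat_lit 5) (nat_lit 5) (nat_lit 6) (nat_lit 5) (nat_lit 7) (nat_lit 4) (nat_lit 381) (nat_lit 268) (nat_lit 212)) (XT.nd (nat_lit 94) (nat_lit 0) (nat_lit 0) (XT.lf (nat_lit 0) (nat_lit 6556073948) (nat_lit 84) (nat_lit 7626948525) (nat_lit 168) (nat_lit 18409028160) (nat_lit 5) (nat_lit 5) (nat_lit 6) (nat_lit 5) (nat_lit 7) (nat_lit 4) (nat_lit 382) (nat_lit 268) (nat_lit 211)) (XT.lf (nat_lit 0) (nat_lit 10533065241)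 (nat_lit 84) (nat_lit 5678211182) (nat_lit 168) (nat_lit 17309445468) (nat_lit 5) (nat_lit 5) (nat_lit 6) (nat_lit 5) (nat_lit 7) (nat_lit 4) (nat_lit 383) (nat_lit 268) (nat_lit 210))))) (XT.nd (nat_lit 282) (nat_lit 0) (nat_lit 0) (XT.nd (nat_lit 94) (nat_lit 0) (nat_lit 0) (XT.lf (nat_lit 0) (nat_lit 14604259020) (nat_lit 84) (nat_lit 3679545623) (nat_lit 168) (nat_lit 16195010221) (nat_lit 5) (nat_lit 5) (nat_lit 6) (nat_lit 5) (nat_lit 7) (nat_lit 4) (nat_lit 384) (nat_lit 268) (nat_lit 209)) (XT.nd (nat_lit 94) (nat_lit 0) (nat_lit 0) (XT.lf (nat_lit 0) (nat_lit 18773450064) (nat_lit 84) (nat_lit 1629088883) (nat_lit 168) (nat_lit 15064683649) (nat_lit 5) (nat_lit 5) (nat_lit 6) (nat_lit 5) (nat_lit 7) (nat_lit 4) (nat_lit 385) (nat_lit 268) (nat_lit 208)) (XT.lf (nat_lit 0) (nat_lit 22574166975) (nat_lit 168) (nat_lit 13447054647) (nat_lit 0) (nat_lit 465498670) (nat_lit 5)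 (nat_lit 5) (nat_lit 7) (nat_lit 4) (nat_lit 5) (nat_lit 4) (nat_lit 386) (nat_lit 268) (nat_lit 207)))) (XT.nd (nat_lit 94) (nat_lit 0) (nat_lit 0) (XT.lf (nat_lit 0) (nat_lit 24812708715) (nat_lit 168) (nat_lit 10143371712) (nat_lit 0) (nat_lit 2581805932) (nat_lit 5) (nat_lit 5) (nat_lit 7) (nat_lit 4) (nat_lit 5) (nat_lit 4) (nat_lit 387) (nat_lit 268) (nat_lit 206)) (XT.nd (nat_lit 94) (nat_lit 0) (nat_lit 0) (XT.lf (nat_lit 0) (nat_lit 27104089960) (nat_lit 168) (nat_lit 6763483587) (nat_lit 0) (nat_lit 4754628033) (nat_lit 5) (nat_lit 5) (nat_lit 7) (nat_lit 4) (nat_lit 5) (nat_lit 4) (nat_lit 388) (nat_lit 268) (nat_lit 205)) (XT.lf (nat_lit 0) (nat_lit 29450446517) (nat_lit 168) (nat_lit 3304239860) (nat_lit 0) (nat_lit 6985990270) (nat_lit 5) (nat_lit 5) (nat_lit 7) (nat_lit 4) (nat_lit 5) (nat_lit 4) (nat_lit 389) (nat_lit 268) (nat_lit 204)))))) (XT.nd (nat_lit 564) (nat_lit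 84) (nat_lit 0) (XT.nd (nat_lit 282) (nat_lit 0) (nat_lit 0) (XT.nd (nat_lit 94) (nat_lit 0) (nat_lit 0) (XT.lf (nat_lit 0) (nat_lit 242469055) (nat_lit 84) (nat_lit 31613901705) (nat_lit 84) (nat_lit 9037908774) (nat_lit 4) (nat_lit 4) (nat_lit 5) (nat_lit 5) (nat_lit 5) (nat_lit 4) (nat_lit 390) (nat_lit 268) (nat_lit 203)) (XT.nd (nat_lit 94) (nat_lit 0) (nat_lit 0) (XT.lf (nat_lit 0) (nat_lit 3944767145) (nat_lit 84) (nat_lit 30411252484) (nat_lit 84) (nat_lit 7727076543) (nat_lit 4) (nat_lit 4) (nat_lit 5) (nat_lit 5) (nat_lit 5) (nat_lit 4) (nat_lit 391) (nat_lit 268) (nat_lit 202)) (XT.lf (nat_lit 0) (nat_lit 7738163389) (nat_lit 84) (nat_lit 29180107208) (nat_lit 84) (nat_lit 6391001092) (nat_lit 4) (nat_lit 4) (nat_lit 5) (nat_lit 5) (nat_lit 5) (nat_lit 4) (nat_lit 392) (nat_lit 268) (nat_lit 201)))) (XT.nd (nat_lit 94) (nat_lit 0) (nat_lit 0) (XT.lf (nat_lit 0) (nat_lit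 11626193632) (nat_lit 84) (nat_lit 27919318321) (nat_lit 84) (nat_lit 5028437060) (nat_lit 4) (nat_lit 4) (nat_lit 5) (nat_lit 5) (nat_lit 5) (nat_lit 4) (nat_lit 393) (nat_lit 268) (nat_lit 200)) (XT.nd (nat_lit 94) (nat_lit 0) (nat_lit 0) (XT.lf (nat_lit 0) (nat_lit 15612481923) (nat_lit 84) (nat_lit 26627710634) (nat_lit 84) (nat_lit 3638114393) (nat_lit 4) (nat_lit 4) (nat_lit 5) (nat_lit 5) (nat_lit 5) (nat_lit 4) (nat_lit 394) (nat_lit 268) (nat_lit 199)) (XT.lf (nat_lit 0) (nat_lit 19700743902) (nat_lit 84) (nat_lit 25304080236) (nat_lit 84) (nat_lit 2218737165) (nat_lit 4) (nat_lit 4) (nat_lit 5) (nat_lit 5) (nat_lit 5) (nat_lit 4) (nat_lit 395) (nat_lit 268) (nat_lit 198))))) (XT.nd (nat_lit 282) (nat_lit 0) (nat_lit 0) (XT.nd (nat_lit 94) (nat_lit 84) (nat_lit 0) (XT.lf (nat_lit 0) (nat_lit 23894790257) (nat_lit 84) (nat_lit 23947193362) (nat_lit 84) (nat_lit 768982368) (nat_lit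 4) (nat_lit 4) (nat_lit 5) (nat_lit 5) (nat_lit 5) (nat_lit 4) (nat_lit 396) (nat_lit 268) (nat_lit 197)) (XT.nd (nat_lit 94) (nat_lit 0) (nat_lit 0) (XT.lf (nat_lit 0) (nat_lit 698146007) (nat_lit 168) (nat_lit 21850352032) (nat_lit 84) (nat_lit 27493097058) (nat_lit 3) (nat_lit 5) (nat_lit 5) (nat_lit 5) (nat_lit 4) (nat_lit 4) (nat_lit 397) (nat_lit 268) (nat_lit 196)) (XT.lf (nat_lit 0) (nat_lit 2182223804) (nat_lit 168) (nat_lit 18923557224) (nat_lit 84) (nat_lit 30410973757) (nat_lit 3) (nat_lit 5) (nat_lit 5) (nat_lit 5) (nat_lit 4) (nat_lit 4) (nat_lit 398) (nat_lit 268) (nat_lit 195)))) (XT.nd (nat_lit 188) (nat_lit 0) (nat_lit 0) (XT.nd (nat_lit 94) (nat_lit 0) (nat_lit 0) (XT.lf (nat_lit 0) (nat_lit 3700127619) (nat_lit 168) (nat_lit 15925434826) (nat_lit 84) (nat_lit 33412494088) (nat_lit 3) (nat_lit 5) (nat_lit 5) (nat_lit 5) (nat_lit 4) (nat_lit 4) (nat_lit 399) (nat_lit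 268) (nat_lit 194)) (XT.lf (nat_lit 0) (nat_lit 5253272297) (nat_lit 168) (nat_lit 12853190274) (nat_lit 84) (nat_lit 36500455783) (nat_lit 3) (nat_lit 5) (nat_lit 5) (nat_lit 5) (nat_lit 4) (nat_lit 4) (nat_lit 400) (nat_lit 268) (nat_lit 193))) (XT.nd (nat_lit 94) (nat_lit 0) (nat_lit 0) (XT.lf (nat_lit 0) (nat_lit 6843105532) (nat_lit 168) (nat_lit 9703959913) (nat_lit 84) (nat_lit 39677737146) (nat_lit 3) (nat_lit 5) (nat_lit 5) (nat_lit 5) (nat_lit 4) (nat_lit 4) (nat_lit 401) (nat_lit 268) (nat_lit 192)) (XT.lf (nat_lit 0) (nat_lit 8471109215) (nat_lit 168) (nat_lit 6474808332) (nat_lit 84) (nat_lit 42947299735) (nat_lit 3) (nat_lit 5) (nat_lit 5) (nat_lit 5) (nat_lit 4) (nat_lit 4) (nat_lit 402) (nat_lit 268) (nat_lit 191))))))))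
noncomputable def xc44 : XT := (XT.nd (nat_lit 47752) (nat_lit 0) (nat_lit 924) (XT.nd (nat_lit 46624) (nat_lit 0) (nat_lit 3024) (XT.nd (nat_lit 564) (nat_lit 0) (nat_lit 0) (XT.nd (nat_lit 282) (nat_lit 0) (nat_lit 0) (XT.nd (nat_lit 94) (nat_lit 84) (nat_lit 0) (XT.lf (nat_lit 0) (nat_lit 10138800815) (nat_lit 168) (nat_lit 3162725623) (nat_lit 84) (nat_lit 46312191125) (nat_lit 3) (nat_lit 5) (nat_lit 5) (nat_lit 5) (nat_lit 4) (nat_lit 4) (nat_lit 403) (nat_lit 268) (nat_lit 190)) (XT.nd (nat_lit 94) (nat_lit 0) (nat_lit 0) (XT.lf (nat_lit 0) (nat_lit 240215223) (nat_lit 84) (nat_lit 11609902539) (nat_lit 168) (nat_lit 49537715490) (nat_lit 2) (nat_lit 5) (nat_lit 3) (nat_lit 5) (nat_lit 4) (nat_lit 4) (nat_lit 404) (nat_lit 268) (nat_lit 189)) (XT.lf (nat_lit 0) (nat_lit 3799207759) (nat_lit 84) (nat_lit 9837984918) (nat_lit 168) (nat_lit 49579078668) (nat_lit 2) (nat_lit 5)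 (nat_lit 3) (nat_lit 5) (nat_lit 4) (nat_lit 4) (nat_lit 405) (nat_lit 268) (nat_lit 188)))) (XT.nd (nat_lit 94) (nat_lit 0) (nat_lit 0) (XT.lf (nat_lit 0) (nat_lit 7452537212) (nat_lit 84) (nat_lit 8017134332) (nat_lit 168) (nat_lit 49632057205) (nat_lit 2) (nat_lit 5) (nat_lit 3) (nat_lit 5) (nat_lit 4) (nat_lit 4) (nat_lit 406) (nat_lit 268) (nat_lit 187)) (XT.nd (nat_lit 94) (nat_lit 0) (nat_lit 0) (XT.lf (nat_lit 0) (nat_lit 11203608869) (nat_lit 84) (nat_lit 6145653559) (nat_lit 168) (nat_lit 49696700485) (nat_lit 2) (nat_lit 5) (nat_lit 3) (nat_lit 5) (nat_lit 4) (nat_lit 4) (nat_lit 407) (nat_lit 268) (nat_lit 186)) (XT.lf (nat_lit 0) (nat_lit 15055919121) (nat_lit 84) (nat_lit 4221798182) (nat_lit 168) (nat_lit 49773068761) (nat_lit 2) (nat_lit 5) (nat_lit 3) (nat_lit 5) (nat_lit 4) (nat_lit 4) (nat_lit 408) (nat_lit 268) (nat_lit 185))))) (XT.nd (nat_lit 282) (nat_lit 0)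 (nat_lit 0) (XT.nd (nat_lit 94) (nat_lit 0) (nat_lit 0) (XT.lf (nat_lit 0) (nat_lit 19013058725) (nat_lit 84) (nat_lit 2243774965) (nat_lit 168) (nat_lit 49861233217) (nat_lit 2) (nat_lit 5) (nat_lit 3) (nat_lit 5) (nat_lit 4) (nat_lit 4) (nat_lit 409) (nat_lit 268) (nat_lit 184)) (XT.nd (nat_lit 94) (nat_lit 0) (nat_lit 0) (XT.lf (nat_lit 0) (nat_lit 23078716149) (nat_lit 84) (nat_lit 209740185) (nat_lit 168) (nat_lit 49961276030) (nat_lit 2) (nat_lit 5) (nat_lit 3) (nat_lit 5) (nat_lit 4) (nat_lit 4) (nat_lit 410) (nat_lit 268) (nat_lit 183)) (XT.lf (nat_lit 0) (nat_lit 25393150597) (nat_lit 168) (nat_lit 48209760037) (nat_lit 0) (nat_lit 1844279914) (nat_lit 2) (nat_lit 5) (nat_lit 4) (nat_lit 4) (nat_lit 2) (nat_lit 4) (nat_lit 411) (nat_lit 268) (nat_lit 182)))) (XT.nd (nat_lit 94) (nat_lit 0) (nat_lit 0) (XT.lf (nat_lit 0) (nat_lit 27556863635) (nat_lit 168) (nat_lit 46203396912)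 (nat_lit 0) (nat_lit 3952725629) (nat_lit 2) (nat_lit 5) (nat_lit 4) (nat_lit 4) (nat_lit 2) (nat_lit 4) (nat_lit 412) (nat_lit 268) (nat_lit 181)) (XT.nd (nat_lit 45590) (nat_lit 0) (nat_lit 4956) (XT.lf (nat_lit 0) (nat_lit 29779531607) (nat_lit 168) (nat_lit 44147976049) (nat_lit 0) (nat_lit 6121788051) (nat_lit 2) (nat_lit 5) (nat_lit 4) (nat_lit 4) (nat_lit 2) (nat_lit 4) (nat_lit 413) (nat_lit 268) (nat_lit 180)) (XT.lf (nat_lit 0) (nat_lit 204980495) (nat_lit 420) (nat_lit 1996364935) (nat_lit 420) (nat_lit 1996364935) (nat_lit 61) (nat_lit 4) (nat_lit 66) (nat_lit 5) (nat_lit 66) (nat_lit 4) (nat_lit 323) (nat_lit 269) (nat_lit 269)))))) (XT.nd (nat_lit 564) (nat_lit 1008) (nat_lit 0) (XT.nd (nat_lit 282) (nat_lit 504) (nat_lit 0) (XT.nd (nat_lit 94) (nat_lit 420) (nat_lit 0) (XT.lf (nat_lit 0) (nat_lit 4677247993) (nat_lit 420) (nat_lit 2455034229) (nat_lit 420) (nat_lit 1387064465)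 (nat_lit 61) (nat_lit 4) (nat_lit 66) (nat_lit 5) (nat_lit 66) (nat_lit 4) (nat_lit 324) (nat_lit 269) (nat_lit 268)) (XT.nd (nat_lit 94) (nat_lit 0) (nat_lit 0) (XT.lf (nat_lit 0) (nat_lit 336788545) (nat_lit 336) (nat_lit 864893616) (nat_lit 420) (nat_lit 7447671501) (nat_lit 56) (nat_lit 5) (nat_lit 60) (nat_lit 5) (nat_lit 61) (nat_lit 4) (nat_lit 325) (nat_lit 269) (nat_lit 267)) (XT.lf (nat_lit 0) (nat_lit 3816483339) (nat_lit 420) (nat_lit 4166253310) (nat_lit 0) (nat_lit 801410582) (nat_lit 56) (nat_lit 5) (nat_lit 61) (nat_lit 4) (nat_lit 56) (nat_lit 4) (nat_lit 326) (nat_lit 269) (nat_lit 266)))) (XT.nd (nat_lit 94) (nat_lit 84) (nat_lit 0) (XT.lf (nat_lit 0) (nat_lit 14198006) (nat_lit 420) (nat_lit 6435763111) (nat_lit 420) (nat_lit 2475489084) (nat_lit 51) (nat_lit 4) (nat_lit 56) (nat_lit 5) (nat_lit 56) (nat_lit 4) (nat_lit 327) (nat_lit 269) (nat_lit 265)) (XT.nd (nat_lit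 94) (nat_lit 0) (nat_lit 0) (XT.lf (nat_lit 0) (nat_lit 64822561) (nat_lit 504) (nat_lit 4745400462) (nat_lit 84) (nat_lit 4262099149) (nat_lit 50) (nat_lit 5) (nat_lit 56) (nat_lit 5) (nat_lit 51) (nat_lit 4) (nat_lit 328) (nat_lit 269) (nat_lit 264)) (XT.lf (nat_lit 0) (nat_lit 2563442011) (nat_lit 504) (nat_lit 559919739) (nat_lit 84) (nat_lit 6102102385) (nat_lit 50) (nat_lit 5) (nat_lit 56) (nat_lit 5) (nat_lit 51) (nat_lit 4) (nat_lit 329) (nat_lit 269) (nat_lit 263))))) (XT.nd (nat_lit 282) (nat_lit 252) (nat_lit 0) (XT.nd (nat_lit 94) (nat_lit 420) (nat_lit 0) (XT.lf (nat_lit 0) (nat_lit 3749186184) (nat_lit 336) (nat_lit 1360580035) (nat_lit 420) (nat_lit 4274860921) (nat_lit 46) (nat_lit 5) (nat_lit 50) (nat_lit 5) (nat_lit 51) (nat_lit 4) (nat_lit 330) (nat_lit 269) (nat_lit 262)) (XT.nd (nat_lit 94) (nat_lit 420) (nat_lit 0) (XT.lf (nat_lit 0) (nat_lit 7679578999) (nat_lit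 420) (nat_lit 1432454771) (nat_lit 0) (nat_lit 438750056) (nat_lit 46) (nat_lit 5) (nat_lit 51) (nat_lit 4) (nat_lit 46) (nat_lit 4) (nat_lit 331) (nat_lit 269) (nat_lit 261)) (XT.lf (nat_lit 0) (nat_lit 572615651) (nat_lit 420) (nat_lit 6864842154) (nat_lit 84) (nat_lit 2285453198) (nat_lit 41) (nat_lit 5) (nat_lit 46) (nat_lit 5) (nat_lit 42) (nat_lit 4) (nat_lit 332) (nat_lit 269) (nat_lit 260)))) (XT.nd (nat_lit 94) (nat_lit 252) (nat_lit 0) (XT.lf (nat_lit 0) (nat_lit 3004701531) (nat_lit 420) (nat_lit 2688608032) (nat_lit 84) (nat_lit 4208289548) (nat_lit 41) (nat_lit 5) (nat_lit 46) (nat_lit 5) (nat_lit 42) (nat_lit 4) (nat_lit 333) (nat_lit 269) (nat_lit 259)) (XT.nd (nat_lit 94) (nat_lit 0) (nat_lit 0) (XT.lf (nat_lit 0) (nat_lit 1569791381) (nat_lit 252) (nat_lit 3896150877) (nat_lit 336) (nat_lit 4621619308) (nat_lit 38) (nat_lit 5) (nat_lit 41) (nat_lit 5) (nat_lit 42)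 (nat_lit 4) (nat_lit 334) (nat_lit 269) (nat_lit 258)) (XT.lf (nat_lit 0) (nat_lit 5939071541) (nat_lit 252) (nat_lit 2031744661) (nat_lit 336) (nat_lit 2309777793) (nat_lit 38) (nat_lit 5) (nat_lit 41) (nat_lit 5) (nat_lit 42) (nat_lit 4) (nat_lit 335) (nat_lit 269) (nat_lit 257))))))) (XT.nd (nat_lit 1128) (nat_lit 840) (nat_lit 0) (XT.nd (nat_lit 564) (nat_lit 504) (nat_lit 0) (XT.nd (nat_lit 282) (nat_lit 336) (nat_lit 0) (XT.nd (nat_lit 94) (nat_lit 336) (nat_lit 0) (XT.lf (nat_lit 0) (nat_lit 12462045) (nat_lit 336) (nat_lit 113824523) (nat_lit 84) (nat_lit 10355429657) (nat_lit 37) (nat_lit 5) (nat_lit 41) (nat_lit 5) (nat_lit 38) (nat_lit 5) (nat_lit 336) (nat_lit 269) (nat_lit 256)) (XT.nd (nat_lit 94) (nat_lit 0) (nat_lit 0) (XT.lf (nat_lit 0) (nat_lit 2361442331) (nat_lit 420) (nat_lit 6476234659) (nat_lit 84) (nat_lit 1850846190) (nat_lit 33) (nat_lit 5) (nat_lit 38) (nat_lit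 5) (nat_lit 34) (nat_lit 4) (nat_lit 337) (nat_lit 269) (nat_lit 255)) (XT.lf (nat_lit 0) (nat_lit 4728583773) (nat_lit 420) (nat_lit 2304137840) (nat_lit 84) (nat_lit 3870972800) (nat_lit 33) (nat_lit 5) (nat_lit 38) (nat_lit 5) (nat_lit 34) (nat_lit 4) (nat_lit 338) (nat_lit 269) (nat_lit 254)))) (XT.nd (nat_lit 94) (nat_lit 84) (nat_lit 0) (XT.lf (nat_lit 0) (nat_lit 1963078573) (nat_lit 252) (nat_lit 5170071270) (nat_lit 336) (nat_lit 3993751876) (nat_lit 30) (nat_lit 5) (nat_lit 33) (nat_lit 5) (nat_lit 34) (nat_lit 4) (nat_lit 339) (nat_lit 269) (nat_lit 253)) (XT.nd (nat_lit 94) (nat_lit 84) (nat_lit 0) (XT.lf (nat_lit 0) (nat_lit 6338404967) (nat_lit 252) (nat_lit 3243414545) (nat_lit 336) (nat_lit 1776396070) (nat_lit 30) (nat_lit 5) (nat_lit 33) (nat_lit 5) (nat_lit 34) (nat_lit 4) (nat_lit 340) (nat_lit 269) (nat_lit 252)) (XT.lf (nat_lit 0) (nat_lit 445806415) (nat_lit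 336) (nat_lit 824546344) (nat_lit 84) (nat_lit 10328082083) (nat_lit 29) (nat_lit 5) (nat_lit 33) (nat_lit 5) (nat_lit 30) (nat_lit 5) (nat_lit 341) (nat_lit 269) (nat_lit 251))))) (XT.nd (nat_lit 282) (nat_lit 252) (nat_lit 0) (XT.nd (nat_lit 94) (nat_lit 0) (nat_lit 0) (XT.lf (nat_lit 0) (nat_lit 2690475724) (nat_lit 336) (nat_lit 8371453399) (nat_lit 84) (nat_lit 784125964) (nat_lit 26) (nat_lit 5) (nat_lit 30) (nat_lit 5) (nat_lit 27) (nat_lit 4) (nat_lit 342) (nat_lit 269) (nat_lit 250)) (XT.nd (nat_lit 94) (nat_lit 0) (nat_lit 0) (XT.lf (nat_lit 0) (nat_lit 4975103903) (nat_lit 336) (nat_lit 4260561164) (nat_lit 84) (nat_lit 2866820452) (nat_lit 26) (nat_lit 5) (nat_lit 30) (nat_lit 5) (nat_lit 27) (nat_lit 4) (nat_lit 343) (nat_lit 269) (nat_lit 249)) (XT.lf (nat_lit 0) (nat_lit 7280785237) (nat_lit 336) (nat_lit 90998413) (nat_lit 84) (nat_lit 4996833599) (nat_lit 26) (nat_lit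 5) (nat_lit 30) (nat_lit 5) (nat_lit 27) (nat_lit 4) (nat_lit 344) (nat_lit 269) (nat_lit 248)))) (XT.nd (nat_lit 94) (nat_lit 84) (nat_lit 0) (XT.lf (nat_lit 0) (nat_lit 4226271272) (nat_lit 168) (nat_lit 5425322726) (nat_lit 252) (nat_lit 2991804663) (nat_lit 24) (nat_lit 5) (nat_lit 26) (nat_lit 5) (nat_lit 27) (nat_lit 4) (nat_lit 345) (nat_lit 269) (nat_lit 247)) (XT.nd (nat_lit 94) (nat_lit 84) (nat_lit 0) (XT.lf (nat_lit 0) (nat_lit 8613281249) (nat_lit 168) (nat_lit 3436089114) (nat_lit 252) (nat_lit 878966976) (nat_lit 24) (nat_lit 5) (nat_lit 26) (nat_lit 5) (nat_lit 27) (nat_lit 4) (nat_lit 346) (nat_lit 269) (nat_lit 246)) (XT.lf (nat_lit 0) (nat_lit 1226481619) (nat_lit 252) (nat_lit 163894904) (nat_lit 84) (nat_lit 11832965985) (nat_lit 23) (nat_lit 5) (nat_lit 26) (nat_lit 5) (nat_lit 24) (nat_lit 5) (nat_lit 347) (nat_lit 269) (nat_lit 245)))))) (XT.nd (nat_lit 564)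 (nat_lit 420) (nat_lit 0) (XT.nd (nat_lit 282) (nat_lit 168) (nat_lit 0) (XT.nd (nat_lit 94) (nat_lit 0) (nat_lit 0) (XT.lf (nat_lit 0) (nat_lit 3382039847) (nat_lit 336) (nat_lit 9408106320) (nat_lit 84) (nat_lit 737151398) (nat_lit 20) (nat_lit 5) (nat_lit 24) (nat_lit 5) (nat_lit 21) (nat_lit 4) (nat_lit 348) (nat_lit 269) (nat_lit 244)) (XT.nd (nat_lit 94) (nat_lit 0) (nat_lit 0) (XT.lf (nat_lit 0) (nat_lit 5575628155) (nat_lit 336) (nat_lit 5380293514) (nat_lit 84) (nat_lit 2885820200) (nat_lit 20) (nat_lit 5) (nat_lit 24) (nat_lit 5) (nat_lit 21) (nat_lit 4) (nat_lit 349) (nat_lit 269) (nat_lit 243)) (XT.lf (nat_lit 0) (nat_lit 7793822230) (nat_lit 336) (nat_lit 1289656427) (nat_lit 84) (nat_lit 5083969395) (nat_lit 20) (nat_lit 5) (nat_lit 24) (nat_lit 5) (nat_lit 21) (nat_lit 4) (nat_lit 350) (nat_lit 269) (nat_lit 242)))) (XT.nd (nat_lit 94) (nat_lit 0) (nat_lit 0) (XT.lf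 (nat_lit 0) (nat_lit 2926581946) (nat_lit 168) (nat_lit 7141139770) (nat_lit 252) (nat_lit 4436097996) (nat_lit 18) (nat_lit 5) (nat_lit 20) (nat_lit 5) (nat_lit 21) (nat_lit 4) (nat_lit 351) (nat_lit 269) (nat_lit 241)) (XT.nd (nat_lit 94) (nat_lit 0) (nat_lit 0) (XT.lf (nat_lit 0) (nat_lit 7241300374) (nat_lit 168) (nat_lit 5142857122) (nat_lit 252) (nat_lit 2467486836) (nat_lit 18) (nat_lit 5) (nat_lit 20) (nat_lit 5) (nat_lit 21) (nat_lit 4) (nat_lit 352) (nat_lit 269) (nat_lit 240)) (XT.lf (nat_lit 0) (nat_lit 11632002645) (nat_lit 168) (nat_lit 3100229472) (nat_lit 252) (nat_lit 479418757) (nat_lit 18) (nat_lit 5) (nat_lit 20) (nat_lit 5) (nat_lit 21) (nat_lit 4) (nat_lit 353) (nat_lit 269) (nat_lit 239))))) (XT.nd (nat_lit 282) (nat_lit 168) (nat_lit 0) (XT.nd (nat_lit 94) (nat_lit 0) (nat_lit 0) (XT.lf (nat_lit 0) (nat_lit 513780596) (nat_lit 168) (nat_lit 990450226) (nat_lit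 252) (nat_lit 14079315583) (nat_lit 15) (nat_lit 5) (nat_lit 17) (nat_lit 5) (nat_lit 18) (nat_lit 5) (nat_lit 354) (nat_lit 269) (nat_lit 238)) (XT.nd (nat_lit 94) (nat_lit 0) (nat_lit 0) (XT.lf (nat_lit 0) (nat_lit 3549860469) (nat_lit 252) (nat_lit 11230445719) (nat_lit 84) (nat_lit 1186329278) (nat_lit 15) (nat_lit 5) (nat_lit 18) (nat_lit 5) (nat_lit 16) (nat_lit 4) (nat_lit 355) (nat_lit 269) (nat_lit 237)) (XT.lf (nat_lit 0) (nat_lit 5631155424) (nat_lit 252) (nat_lit 7338092673) (nat_lit 84) (nat_lit 3393348776) (nat_lit 15) (nat_lit 5) (nat_lit 18) (nat_lit 5) (nat_lit 16) (nat_lit 4) (nat_lit 356) (nat_lit 269) (nat_lit 236)))) (XT.nd (nat_lit 188) (nat_lit 0) (nat_lit 0) (XT.nd (nat_lit 94) (nat_lit 168) (nat_lit 0) (XT.lf (nat_lit 0) (nat_lit 7740230285) (nat_lit 252) (nat_lit 3379253199) (nat_lit 84) (nat_lit 5652620803) (nat_lit 15) (nat_lit 5) (nat_lit 18) (nat_lit 5)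 (nat_lit 16) (nat_lit 4) (nat_lit 357) (nat_lit 269) (nat_lit 235)) (XT.lf (nat_lit 0) (nat_lit 663123207) (nat_lit 168) (nat_lit 9222505986) (nat_lit 252) (nat_lit 7309706296) (nat_lit 13) (nat_lit 5) (nat_lit 15) (nat_lit 5) (nat_lit 16) (nat_lit 4) (nat_lit 358) (nat_lit 269) (nat_lit 234))) (XT.nd (nat_lit 94) (nat_lit 0) (nat_lit 0) (XT.lf (nat_lit 0) (nat_lit 4850436128) (nat_lit 168) (nat_lit 7247291762) (nat_lit 252) (nat_lit 5534077428) (nat_lit 13) (nat_lit 5) (nat_lit 15) (nat_lit 5) (nat_lit 16) (nat_lit 4) (nat_lit 359) (nat_lit 269) (nat_lit 233)) (XT.lf (nat_lit 0) (nat_lit 9117104201) (nat_lit 168) (nat_lit 5227272177) (nat_lit 252) (nat_lit 3738604800) (nat_lit 13) (nat_lit 5) (nat_lit 15) (nat_lit 5) (nat_lit 16) (nat_lit 4) (nat_lit 360) (nat_lit 269) (nat_lit 232))))))))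
noncomputable def xc45 : XT := (XT.nd (nat_lit 2256) (nat_lit 252) (nat_lit 0) (XT.nd (nat_lit 1128) (nat_lit 336) (nat_lit 0) (XT.nd (nat_lit 564) (nat_lit 84) (nat_lit 0) (XT.nd (nat_lit 282) (nat_lit 0) (nat_lit 0) (XT.nd (nat_lit 94) (nat_lit 252) (nat_lit 0) (XT.lf (nat_lit 0) (nat_lit 13467104405) (nat_lit 168) (nat_lit 3160564362) (nat_lit 252) (nat_lit 1921614843) (nat_lit 13) (nat_lit 5) (nat_lit 15) (nat_lit 5) (nat_lit 16) (nat_lit 4) (nat_lit 361) (nat_lit 269) (nat_lit 231)) (XT.nd (nat_lit 94) (nat_lit 252) (nat_lit 0) (XT.lf (nat_lit 0) (nat_lit 17904491399) (nat_lit 168) (nat_lit 1045241930) (nat_lit 252) (nat_lit 81413933) (nat_lit 13) (nat_lit 5) (nat_lit 15) (nat_lit 5) (nat_lit 16) (nat_lit 4) (nat_lit 362) (nat_lit 269) (nat_lit 230)) (XT.lf (nat_lit 0) (nat_lit 1788597474) (nat_lit 252) (nat_lit 16593122269) (nat_lit 84) (nat_lit 1145487513) (nat_lit 10) (nat_lit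 5) (nat_lit 13) (nat_lit 5) (nat_lit 11) (nat_lit 4) (nat_lit 363) (nat_lit 269) (nat_lit 229)))) (XT.nd (nat_lit 94) (nat_lit 0) (nat_lit 0) (XT.lf (nat_lit 0) (nat_lit 3706320608) (nat_lit 252) (nat_lit 12952558983) (nat_lit 84) (nat_lit 3380108896) (nat_lit 10) (nat_lit 5) (nat_lit 13) (nat_lit 5) (nat_lit 11) (nat_lit 4) (nat_lit 364) (nat_lit 269) (nat_lit 228)) (XT.nd (nat_lit 94) (nat_lit 0) (nat_lit 0) (XT.lf (nat_lit 0) (nat_lit 5653291328) (nat_lit 252) (nat_lit 9244946610) (nat_lit 84) (nat_lit 5669433739) (nat_lit 10) (nat_lit 5) (nat_lit 13) (nat_lit 5) (nat_lit 11) (nat_lit 4) (nat_lit 365) (nat_lit 269) (nat_lit 227)) (XT.lf (nat_lit 0) (nat_lit 7631324415) (nat_lit 252) (nat_lit 5466829267) (nat_lit 84) (nat_lit 8015595932) (nat_lit 10) (nat_lit 5) (nat_lit 13) (nat_lit 5) (nat_lit 11) (nat_lit 4) (nat_lit 366) (nat_lit 269) (nat_lit 226))))) (XT.nd (nat_lit 282) (nat_lit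 0) (nat_lit 0) (XT.nd (nat_lit 94) (nat_lit 84) (nat_lit 0) (XT.lf (nat_lit 0) (nat_lit 9642263604) (nat_lit 252) (nat_lit 1614685351) (nat_lit 84) (nat_lit 10420782344) (nat_lit 10) (nat_lit 5) (nat_lit 13) (nat_lit 5) (nat_lit 11) (nat_lit 4) (nat_lit 367) (nat_lit 269) (nat_lit 225)) (XT.nd (nat_lit 94) (nat_lit 0) (nat_lit 0) (XT.lf (nat_lit 0) (nat_lit 2362678442) (nat_lit 84) (nat_lit 9348742918) (nat_lit 168) (nat_lit 10547994481) (nat_lit 9) (nat_lit 5) (nat_lit 10) (nat_lit 5) (nat_lit 11) (nat_lit 4) (nat_lit 368) (nat_lit 269) (nat_lit 224)) (XT.lf (nat_lit 0) (nat_lit 6456194888) (nat_lit 84) (nat_lit 7378241690) (nat_lit 168) (nat_lit 9025103840) (nat_lit 9) (nat_lit 5) (nat_lit 10) (nat_lit 5) (nat_lit 11) (nat_lit 4) (nat_lit 369) (nat_lit 269) (nat_lit 223)))) (XT.nd (nat_lit 94) (nat_lit 0) (nat_lit 0) (XT.lf (nat_lit 0) (nat_lit 10636478327) (nat_lit 84) (nat_lit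 5360462560) (nat_lit 168) (nat_lit 7482230282) (nat_lit 9) (nat_lit 5) (nat_lit 10) (nat_lit 5) (nat_lit 11) (nat_lit 4) (nat_lit 370) (nat_lit 269) (nat_lit 222)) (XT.nd (nat_lit 94) (nat_lit 0) (nat_lit 0) (XT.lf (nat_lit 0) (nat_lit 14907425224) (nat_lit 84) (nat_lit 3293524746) (nat_lit 168) (nat_lit 5917935687) (nat_lit 9) (nat_lit 5) (nat_lit 10) (nat_lit 5) (nat_lit 11) (nat_lit 4) (nat_lit 371) (nat_lit 269) (nat_lit 221)) (XT.lf (nat_lit 0) (nat_lit 19273016547) (nat_lit 84) (nat_lit 1175501647) (nat_lit 168) (nat_lit 4330761970) (nat_lit 9) (nat_lit 5) (nat_lit 10) (nat_lit 5) (nat_lit 11) (nat_lit 4) (nat_lit 372) (nat_lit 269) (nat_lit 220)))))) (XT.nd (nat_lit 564) (nat_lit 84) (nat_lit 0) (XT.nd (nat_lit 282) (nat_lit 0) (nat_lit 0) (XT.nd (nat_lit 94) (nat_lit 252) (nat_lit 0) (XT.lf (nat_lit 0) (nat_lit 22751616814) (nat_lit 168) (nat_lit 1733525046) (nat_lit 0) (nat_lit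 975522219) (nat_lit 9) (nat_lit 5) (nat_lit 11) (nat_lit 4) (nat_lit 9) (nat_lit 4) (nat_lit 373) (nat_lit 269) (nat_lit 219)) (XT.nd (nat_lit 94) (nat_lit 84) (nat_lit 0) (XT.lf (nat_lit 0) (nat_lit 2151293576) (nat_lit 168) (nat_lit 22984762143) (nat_lit 168) (nat_lit 1026883249) (nat_lit 7) (nat_lit 4) (nat_lit 9) (nat_lit 5) (nat_lit 9) (nat_lit 4) (nat_lit 374) (nat_lit 269) (nat_lit 218)) (XT.lf (nat_lit 0) (nat_lit 688075006) (nat_lit 252) (nat_lit 20736716983) (nat_lit 84) (nat_lit 5462204750) (nat_lit 6) (nat_lit 5) (nat_lit 9) (nat_lit 5) (nat_lit 7) (nat_lit 4) (nat_lit 375) (nat_lit 269) (nat_lit 217)))) (XT.nd (nat_lit 94) (nat_lit 0) (nat_lit 0) (XT.lf (nat_lit 0) (nat_lit 2412189892) (nat_lit 252) (nat_lit 17406056554) (nat_lit 84) (nat_lit 7815700902) (nat_lit 6) (nat_lit 5) (nat_lit 9) (nat_lit 5) (nat_lit 7) (nat_lit 4) (nat_lit 376) (nat_lit 269) (nat_lit 216)) (XT.nd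 (nat_lit 94) (nat_lit 0) (nat_lit 0) (XT.lf (nat_lit 0) (nat_lit 4167757873) (nat_lit 252) (nat_lit 14006372771) (nat_lit 84) (nat_lit 10230672176) (nat_lit 6) (nat_lit 5) (nat_lit 9) (nat_lit 5) (nat_lit 7) (nat_lit 4) (nat_lit 377) (nat_lit 269) (nat_lit 215)) (XT.lf (nat_lit 0) (nat_lit 5956415322) (nat_lit 252) (nat_lit 10534496773) (nat_lit 84) (nat_lit 12709369580) (nat_lit 6) (nat_lit 5) (nat_lit 9) (nat_lit 5) (nat_lit 7) (nat_lit 4) (nat_lit 378) (nat_lit 269) (nat_lit 214))))) (XT.nd (nat_lit 282) (nat_lit 0) (nat_lit 0) (XT.nd (nat_lit 94) (nat_lit 84) (nat_lit 0) (XT.lf (nat_lit 0) (nat_lit 7779829454) (nat_lit 252) (nat_lit 6987192408) (nat_lit 84) (nat_lit 15254103518) (nat_lit 6) (nat_lit 5) (nat_lit 9) (nat_lit 5) (nat_lit 7) (nat_lit 4) (nat_lit 379) (nat_lit 269) (nat_lit 213)) (XT.nd (nat_lit 94) (nat_lit 84) (nat_lit 0) (XT.lf (nat_lit 0) (nat_lit 9639699884) (nat_lit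 252) (nat_lit 3361153216) (nat_lit 84) (nat_lit 17867245950) (nat_lit 6) (nat_lit 5) (nat_lit 9) (nat_lit 5) (nat_lit 7) (nat_lit 4) (nat_lit 380) (nat_lit 269) (nat_lit 212)) (XT.lf (nat_lit 0) (nat_lit 354135695) (nat_lit 84) (nat_lit 11187137580) (nat_lit 168) (nat_lit 20200609972) (nat_lit 5) (nat_lit 5) (nat_lit 6) (nat_lit 5) (nat_lit 7) (nat_lit 4) (nat_lit 381) (nat_lit 269) (nat_lit 211)))) (XT.nd (nat_lit 94) (nat_lit 0) (nat_lit 0) (XT.lf (nat_lit 0) (nat_lit 4225867390) (nat_lit 84) (nat_lit 9291833346) (nat_lit 168) (nat_lit 19124618955) (nat_lit 5) (nat_lit 5) (nat_lit 6) (nat_lit 5) (nat_lit 7) (nat_lit 4) (nat_lit 382) (nat_lit 269) (nat_lit 210)) (XT.nd (nat_lit 94) (nat_lit 0) (nat_lit 0) (XT.lf (nat_lit 0) (nat_lit 8188538523) (nat_lit 84) (nat_lit 7348257323) (nat_lit 168) (nat_lit 18034506726) (nat_lit 5) (nat_lit 5) (nat_lit 6) (nat_lit 5) (nat_lit 7) (nat_lit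 4) (nat_lit 383) (nat_lit 269) (nat_lit 209)) (XT.lf (nat_lit 0) (nat_lit 12245842720) (nat_lit 84) (nat_lit 5354597895) (nat_lit 168) (nat_lit 16929257184) (nat_lit 5) (nat_lit 5) (nat_lit 6) (nat_lit 5) (nat_lit 7) (nat_lit 4) (nat_lit 384) (nat_lit 269) (nat_lit 208))))))) (XT.nd (nat_lit 1128) (nat_lit 168) (nat_lit 0) (XT.nd (nat_lit 564) (nat_lit 84) (nat_lit 0) (XT.nd (nat_lit 282) (nat_lit 0) (nat_lit 0) (XT.nd (nat_lit 94) (nat_lit 0) (nat_lit 0) (XT.lf (nat_lit 0) (nat_lit 16401561812) (nat_lit 84) (nat_lit 3308996761) (nat_lit 168) (nat_lit 15807840123) (nat_lit 5) (nat_lit 5) (nat_lit 6) (nat_lit 5) (nat_lit 7) (nat_lit 4) (nat_lit 385) (nat_lit 269) (nat_lit 207)) (XT.nd (nat_lit 94) (nat_lit 0) (nat_lit 0) (XT.lf (nat_lit 0) (nat_lit 20659569366) (nat_lit 84) (nat_lit 1209547209) (nat_lit 168) (nat_lit 14669210263) (nat_lit 5) (nat_lit 5) (nat_lit 6) (nat_lit 5) (nat_lit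 7) (nat_lit 4) (nat_lit 386) (nat_lit 269) (nat_lit 206)) (XT.lf (nat_lit 0) (nat_lit 24087508158) (nat_lit 168) (nat_lit 12575980150) (nat_lit 0) (nat_lit 926653767) (nat_lit 5) (nat_lit 5) (nat_lit 7) (nat_lit 4) (nat_lit 5) (nat_lit 4) (nat_lit 387) (nat_lit 269) (nat_lit 205)))) (XT.nd (nat_lit 94) (nat_lit 0) (nat_lit 0) (XT.lf (nat_lit 0) (nat_lit 26370983196) (nat_lit 168) (nat_lit 9208608485) (nat_lit 0) (nat_lit 3095134485) (nat_lit 5) (nat_lit 5) (nat_lit 7) (nat_lit 4) (nat_lit 5) (nat_lit 4) (nat_lit 388) (nat_lit 269) (nat_lit 204)) (XT.nd (nat_lit 94) (nat_lit 0) (nat_lit 0) (XT.lf (nat_lit 0) (nat_lit 28709671270) (nat_lit 168) (nat_lit 5761504875) (nat_lit 0) (nat_lit 5322285875) (nat_lit 5) (nat_lit 5) (nat_lit 7) (nat_lit 4) (nat_lit 5) (nat_lit 4) (nat_lit 389) (nat_lit 269) (nat_lit 203)) (XT.lf (nat_lit 0) (nat_lit 31105752281) (nat_lit 168) (nat_lit 2231456259)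 (nat_lit 0) (nat_lit 7610183876) (nat_lit 5) (nat_lit 5) (nat_lit 7) (nat_lit 4) (nat_lit 5) (nat_lit 4) (nat_lit 390) (nat_lit 269) (nat_lit 202))))) (XT.nd (nat_lit 282) (nat_lit 0) (nat_lit 0) (XT.nd (nat_lit 94) (nat_lit 0) (nat_lit 0) (XT.lf (nat_lit 0) (nat_lit 1413302635) (nat_lit 84) (nat_lit 32162177130) (nat_lit 84) (nat_lit 8561678549) (nat_lit 4) (nat_lit 4) (nat_lit 5) (nat_lit 5) (nat_lit 5) (nat_lit 4) (nat_lit 391) (nat_lit 269) (nat_lit 201)) (XT.nd (nat_lit 94) (nat_lit 0) (nat_lit 0) (XT.lf (nat_lit 0) (nat_lit 5195393471) (nat_lit 84) (nat_lit 30935227763) (nat_lit 84) (nat_lit 7232954038) (nat_lit 4) (nat_lit 4) (nat_lit 5) (nat_lit 5) (nat_lit 5) (nat_lit 4) (nat_lit 392) (nat_lit 269) (nat_lit 200)) (XT.lf (nat_lit 0) (nat_lit 9072458234) (nat_lit 84) (nat_lit 29678508623) (nat_lit 84) (nat_lit 5877519917) (nat_lit 4) (nat_lit 4) (nat_lit 5) (nat_lit 5) (nat_lit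 5) (nat_lit 4) (nat_lit 393) (nat_lit 269) (nat_lit 199)))) (XT.nd (nat_lit 94) (nat_lit 0) (nat_lit 0) (XT.lf (nat_lit 0) (nat_lit 13048110755) (nat_lit 84) (nat_lit 28390848315) (nat_lit 84) (nat_lit 4494112780) (nat_lit 4) (nat_lit 4) (nat_lit 5) (nat_lit 5) (nat_lit 5) (nat_lit 4) (nat_lit 394) (nat_lit 269) (nat_lit 198)) (XT.nd (nat_lit 94) (nat_lit 0) (nat_lit 0) (XT.lf (nat_lit 0) (nat_lit 17126056759) (nat_lit 84) (nat_lit 27071046605) (nat_lit 84) (nat_lit 3081443147) (nat_lit 4) (nat_lit 4) (nat_lit 5) (nat_lit 5) (nat_lit 5) (nat_lit 4) (nat_lit 395) (nat_lit 269) (nat_lit 197)) (XT.lf (nat_lit 0) (nat_lit 21310097318) (nat_lit 84) (nat_lit 25717873300) (nat_lit 84) (nat_lit 1638194261) (nat_lit 4) (nat_lit 4) (nat_lit 5) (nat_lit 5) (nat_lit 5) (nat_lit 4) (nat_lit 396) (nat_lit 269) (nat_lit 196)))))) (XT.nd (nat_lit 564) (nat_lit 84) (nat_lit 0) (XT.nd (nat_lit 282)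 (nat_lit 0) (nat_lit 0) (XT.nd (nat_lit 94) (nat_lit 84) (nat_lit 0) (XT.lf (nat_lit 0) (nat_lit 25604132397) (nat_lit 84) (nat_lit 24330067100) (nat_lit 84) (nat_lit 163020864) (nat_lit 4) (nat_lit 4) (nat_lit 5) (nat_lit 5) (nat_lit 5) (nat_lit 4) (nat_lit 397) (nat_lit 269) (nat_lit 195)) (XT.nd (nat_lit 94) (nat_lit 0) (nat_lit 0) (XT.lf (nat_lit 0) (nat_lit 1318344199) (nat_lit 168) (nat_lit 21574229415) (nat_lit 84) (nat_lit 28680059477) (nat_lit 3) (nat_lit 5) (nat_lit 5) (nat_lit 5) (nat_lit 4) (nat_lit 4) (nat_lit 398) (nat_lit 269) (nat_lit 194)) (XT.lf (nat_lit 0) (nat_lit 2830431099) (nat_lit 168) (nat_lit 18585373211) (nat_lit 84) (nat_lit 31678327338) (nat_lit 3) (nat_lit 5) (nat_lit 5) (nat_lit 5) (nat_lit 4) (nat_lit 4) (nat_lit 399) (nat_lit 269) (nat_lit 193)))) (XT.nd (nat_lit 94) (nat_lit 0) (nat_lit 0) (XT.lf (nat_lit 0) (nat_lit 4377933764) (nat_lit 168) (nat_lit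 15522116238) (nat_lit 84) (nat_lit 34763134358) (nat_lit 3) (nat_lit 5) (nat_lit 5) (nat_lit 5) (nat_lit 4) (nat_lit 4) (nat_lit 400) (nat_lit 269) (nat_lit 192)) (XT.nd (nat_lit 94) (nat_lit 0) (nat_lit 0) (XT.lf (nat_lit 0) (nat_lit 5962294629) (nat_lit 168) (nat_lit 12381603219) (nat_lit 84) (nat_lit 37937355900) (nat_lit 3) (nat_lit 5) (nat_lit 5) (nat_lit 5) (nat_lit 4) (nat_lit 4) (nat_lit 401) (nat_lit 269) (nat_lit 191)) (XT.lf (nat_lit 0) (nat_lit 7584990485) (nat_lit 168) (nat_lit 9160906867) (nat_lit 84) (nat_lit 41203950671) (nat_lit 3) (nat_lit 5) (nat_lit 5) (nat_lit 5) (nat_lit 4) (nat_lit 4) (nat_lit 402) (nat_lit 269) (nat_lit 190))))) (XT.nd (nat_lit 282) (nat_lit 0) (nat_lit 0) (XT.nd (nat_lit 94) (nat_lit 84) (nat_lit 0) (XT.lf (nat_lit 0) (nat_lit 9247533855) (nat_lit 168) (nat_lit 5857025156) (nat_lit 84) (nat_lit 44565963479) (nat_lit 3) (nat_lit 5) (nat_lit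 5) (nat_lit 5) (nat_lit 4) (nat_lit 4) (nat_lit 403) (nat_lit 269) (nat_lit 189)) (XT.nd (nat_lit 94) (nat_lit 84) (nat_lit 0) (XT.lf (nat_lit 0) (nat_lit 10951474401) (nat_lit 168) (nat_lit 2466878523) (nat_lit 84) (nat_lit 48026528073) (nat_lit 3) (nat_lit 5) (nat_lit 5) (nat_lit 5) (nat_lit 4) (nat_lit 4) (nat_lit 404) (nat_lit 269) (nat_lit 188)) (XT.lf (nat_lit 0) (nat_lit 1033516050) (nat_lit 84) (nat_lit 11675136933) (nat_lit 168) (nat_lit 50565606618) (nat_lit 2) (nat_lit 5) (nat_lit 3) (nat_lit 5) (nat_lit 4) (nat_lit 4) (nat_lit 405) (nat_lit 269) (nat_lit 187)))) (XT.nd (nat_lit 188) (nat_lit 0) (nat_lit 0) (XT.nd (nat_lit 94) (nat_lit 0) (nat_lit 0) (XT.lf (nat_lit 0) (nat_lit 4679208374) (nat_lit 84) (nat_lit 9857150051) (nat_lit 168) (nat_lit 50623519871) (nat_lit 2) (nat_lit 5) (nat_lit 3) (nat_lit 5) (nat_lit 4) (nat_lit 4) (nat_lit 406) (nat_lit 269) (nat_lit 186))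 (XT.lf (nat_lit 0) (nat_lit 8422872534) (nat_lit 84) (nat_lit 7988446874) (nat_lit 168) (nat_lit 50692949490) (nat_lit 2) (nat_lit 5) (nat_lit 3) (nat_lit 5) (nat_lit 4) (nat_lit 4) (nat_lit 407) (nat_lit 269) (nat_lit 185))) (XT.nd (nat_lit 94) (nat_lit 0) (nat_lit 0) (XT.lf (nat_lit 0) (nat_lit 12267998017) (nat_lit 84) (nat_lit 6067285578) (nat_lit 168) (nat_lit 50773960190) (nat_lit 2) (nat_lit 5) (nat_lit 3) (nat_lit 5) (nat_lit 4) (nat_lit 4) (nat_lit 408) (nat_lit 269) (nat_lit 184)) (XT.lf (nat_lit 0) (nat_lit 16218168882) (nat_lit 84) (nat_lit 4091875436) (nat_lit 168) (nat_lit 50866627481) (nat_lit 2) (nat_lit 5) (nat_lit 3) (nat_lit 5) (nat_lit 4) (nat_lit 4) (nat_lit 409) (nat_lit 269) (nat_lit 183))))))))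
noncomputable def xc46 : XT := (XT.nd (nat_lit 47564) (nat_lit 0) (nat_lit 672) (XT.nd (nat_lit 46436) (nat_lit 0) (nat_lit 2352) (XT.nd (nat_lit 45872) (nat_lit 0) (nat_lit 4032) (XT.nd (nat_lit 282) (nat_lit 0) (nat_lit 0) (XT.nd (nat_lit 94) (nat_lit 0) (nat_lit 0) (XT.lf (nat_lit 0) (nat_lit 20277067103) (nat_lit 84) (nat_lit 2060375162) (nat_lit 168) (nat_lit 50971037739) (nat_lit 2) (nat_lit 5) (nat_lit 3) (nat_lit 5) (nat_lit 4) (nat_lit 4) (nat_lit 410) (nat_lit 269) (nat_lit 182)) (XT.nd (nat_lit 94) (nat_lit 0) (nat_lit 0) (XT.lf (nat_lit 0) (nat_lit 24419655945) (nat_lit 168) (nat_lit 51058468233) (nat_lit 0) (nat_lit 28522338) (nat_lit 2) (nat_lit 5) (nat_lit 4) (nat_lit 4) (nat_lit 2) (nat_lit 4) (nat_lit 411) (nat_lit 269) (nat_lit 181)) (XT.lf (nat_lit 0) (nat_lit 26579370868) (nat_lit 168) (nat_lit 49058574590) (nat_lit 0) (nat_lit 2134631711) (nat_lit 2) (nat_lit 5)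 (nat_lit 4) (nat_lit 4) (nat_lit 2) (nat_lit 4) (nat_lit 412) (nat_lit 269) (nat_lit 180)))) (XT.nd (nat_lit 45402) (nat_lit 0) (nat_lit 5376) (XT.lf (nat_lit 0) (nat_lit 28798160940) (nat_lit 168) (nat_lit 47009428687) (nat_lit 0) (nat_lit 4301428039) (nat_lit 2) (nat_lit 5) (nat_lit 4) (nat_lit 4) (nat_lit 2) (nat_lit 4) (nat_lit 413) (nat_lit 269) (nat_lit 179)) (XT.nd (nat_lit 94) (nat_lit 0) (nat_lit 0) (XT.lf (nat_lit 0) (nat_lit 92350841) (nat_lit 504) (nat_lit 3896761229) (nat_lit 0) (nat_lit 92350841) (nat_lit 66) (nat_lit 5) (nat_lit 72) (nat_lit 4) (nat_lit 66) (nat_lit 4) (nat_lit 321) (nat_lit 270) (nat_lit 270)) (XT.lf (nat_lit 0) (nat_lit 2820407400) (nat_lit 504) (nat_lit 3737029117) (nat_lit 0) (nat_lit 1719330572) (nat_lit 66) (nat_lit 5) (nat_lit 72) (nat_lit 4) (nat_lit 66) (nat_lit 4) (nat_lit 322) (nat_lit 270) (nat_lit 269))))) (XT.nd (nat_lit 282) (nat_lit 504)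 (nat_lit 0) (XT.nd (nat_lit 94) (nat_lit 420) (nat_lit 0) (XT.lf (nat_lit 0) (nat_lit 366887208) (nat_lit 420) (nat_lit 5099480177) (nat_lit 420) (nat_lit 2930433585) (nat_lit 61) (nat_lit 4) (nat_lit 66) (nat_lit 5) (nat_lit 66) (nat_lit 4) (nat_lit 323) (nat_lit 270) (nat_lit 268)) (XT.nd (nat_lit 94) (nat_lit 420) (nat_lit 0) (XT.lf (nat_lit 0) (nat_lit 4592395565) (nat_lit 420) (nat_lit 3567287427) (nat_lit 420) (nat_lit 362382674) (nat_lit 61) (nat_lit 4) (nat_lit 66) (nat_lit 5) (nat_lit 66) (nat_lit 4) (nat_lit 324) (nat_lit 270) (nat_lit 267)) (XT.lf (nat_lit 0) (nat_lit 194731010) (nat_lit 336) (nat_lit 1973830215) (nat_lit 420) (nat_lit 6484549693) (nat_lit 56) (nat_lit 5) (nat_lit 60) (nat_lit 5) (nat_lit 61) (nat_lit 4) (nat_lit 325) (nat_lit 270) (nat_lit 266)))) (XT.nd (nat_lit 94) (nat_lit 504) (nat_lit 0) (XT.lf (nat_lit 0) (nat_lit 4443162191) (nat_lit 336) (nat_lit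 297005972) (nat_lit 420) (nat_lit 4049270792) (nat_lit 56) (nat_lit 5) (nat_lit 60) (nat_lit 5) (nat_lit 61) (nat_lit 4) (nat_lit 326) (nat_lit 270) (nat_lit 265)) (XT.nd (nat_lit 94) (nat_lit 504) (nat_lit 0) (XT.lf (nat_lit 0) (nat_lit 7336475550) (nat_lit 420) (nat_lit 204157522) (nat_lit 0) (nat_lit 1391450702) (nat_lit 56) (nat_lit 5) (nat_lit 61) (nat_lit 4) (nat_lit 56) (nat_lit 4) (nat_lit 327) (nat_lit 270) (nat_lit 264)) (XT.lf (nat_lit 0) (nat_lit 890904410) (nat_lit 504) (nat_lit 5024813371) (nat_lit 84) (nat_lit 3164263932) (nat_lit 50) (nat_lit 5) (nat_lit 56) (nat_lit 5) (nat_lit 51) (nat_lit 4) (nat_lit 328) (nat_lit 270) (nat_lit 263)))))) (XT.nd (nat_lit 564) (nat_lit 672) (nat_lit 0) (XT.nd (nat_lit 282) (nat_lit 672) (nat_lit 0) (XT.nd (nat_lit 94) (nat_lit 336) (nat_lit 0) (XT.lf (nat_lit 0) (nat_lit 3356562346) (nat_lit 504) (nat_lit 879540648) (nat_lit 84) (nat_lit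 4998215466) (nat_lit 50) (nat_lit 5) (nat_lit 56) (nat_lit 5) (nat_lit 51) (nat_lit 4) (nat_lit 329) (nat_lit 270) (nat_lit 262)) (XT.nd (nat_lit 94) (nat_lit 0) (nat_lit 0) (XT.lf (nat_lit 0) (nat_lit 3383192284) (nat_lit 336) (nat_lit 2484093136) (nat_lit 420) (nat_lit 3527467459) (nat_lit 46) (nat_lit 5) (nat_lit 50) (nat_lit 5) (nat_lit 51) (nat_lit 4) (nat_lit 330) (nat_lit 270) (nat_lit 261)) (XT.lf (nat_lit 0) (nat_lit 7718310606) (nat_lit 336) (nat_lit 682953536) (nat_lit 420) (nat_lit 1160919009) (nat_lit 46) (nat_lit 5) (nat_lit 50) (nat_lit 5) (nat_lit 51) (nat_lit 4) (nat_lit 331) (nat_lit 270) (nat_lit 260)))) (XT.nd (nat_lit 94) (nat_lit 252) (nat_lit 0) (XT.lf (nat_lit 0) (nat_lit 1226230071) (nat_lit 420) (nat_lit 7336541729) (nat_lit 84) (nat_lit 1172786374) (nat_lit 41) (nat_lit 5) (nat_lit 46) (nat_lit 5) (nat_lit 42) (nat_lit 4) (nat_lit 332) (nat_lit 270) (nat_lit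 259)) (XT.nd (nat_lit 94) (nat_lit 252) (nat_lit 0) (XT.lf (nat_lit 0) (nat_lit 3627881514) (nat_lit 420) (nat_lit 3199168151) (nat_lit 84) (nat_lit 3088288573) (nat_lit 41) (nat_lit 5) (nat_lit 46) (nat_lit 5) (nat_lit 42) (nat_lit 4) (nat_lit 333) (nat_lit 270) (nat_lit 258)) (XT.lf (nat_lit 0) (nat_lit 1010265982) (nat_lit 252) (nat_lit 5043786361) (nat_lit 336) (nat_lit 4048479542) (nat_lit 38) (nat_lit 5) (nat_lit 41) (nat_lit 5) (nat_lit 42) (nat_lit 4) (nat_lit 334) (nat_lit 270) (nat_lit 257))))) (XT.nd (nat_lit 282) (nat_lit 252) (nat_lit 0) (XT.nd (nat_lit 94) (nat_lit 420) (nat_lit 0) (XT.lf (nat_lit 0) (nat_lit 5342235652) (nat_lit 252) (nat_lit 3187688758) (nat_lit 336) (nat_lit 1766678656) (nat_lit 38) (nat_lit 5) (nat_lit 41) (nat_lit 5) (nat_lit 42) (nat_lit 4) (nat_lit 335) (nat_lit 270) (nat_lit 256)) (XT.nd (nat_lit 94) (nat_lit 336) (nat_lit 0) (XT.lf (nat_lit 0)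 (nat_lit 516068626) (nat_lit 336) (nat_lit 768964211) (nat_lit 84) (nat_lit 9213541924) (nat_lit 37) (nat_lit 5) (nat_lit 41) (nat_lit 5) (nat_lit 38) (nat_lit 5) (nat_lit 336) (nat_lit 270) (nat_lit 255)) (XT.lf (nat_lit 0) (nat_lit 2818715066) (nat_lit 420) (nat_lit 7187793271) (nat_lit 84) (nat_lit 700437197) (nat_lit 33) (nat_lit 5) (nat_lit 38) (nat_lit 5) (nat_lit 34) (nat_lit 4) (nat_lit 337) (nat_lit 270) (nat_lit 254)))) (XT.nd (nat_lit 94) (nat_lit 252) (nat_lit 0) (XT.lf (nat_lit 0) (nat_lit 5158564170) (nat_lit 420) (nat_lit 3052017015) (nat_lit 84) (nat_lit 2712505280) (nat_lit 33) (nat_lit 5) (nat_lit 38) (nat_lit 5) (nat_lit 34) (nat_lit 4) (nat_lit 338) (nat_lit 270) (nat_lit 253)) (XT.nd (nat_lit 94) (nat_lit 0) (nat_lit 0) (XT.lf (nat_lit 0) (nat_lit 1163868617) (nat_lit 252) (nat_lit 6364861646) (nat_lit 336) (nat_lit 3618749826) (nat_lit 30) (nat_lit 5) (nat_lit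 33) (nat_lit 5) (nat_lit 34) (nat_lit 4) (nat_lit 339) (nat_lit 270) (nat_lit 252)) (XT.lf (nat_lit 0) (nat_lit 5504323186) (nat_lit 252) (nat_lit 4447055046) (nat_lit 336) (nat_lit 1428338705) (nat_lit 30) (nat_lit 5) (nat_lit 33) (nat_lit 5) (nat_lit 34) (nat_lit 4) (nat_lit 340) (nat_lit 270) (nat_lit 251))))))) (XT.nd (nat_lit 1128) (nat_lit 672) (nat_lit 0) (XT.nd (nat_lit 564) (nat_lit 504) (nat_lit 0) (XT.nd (nat_lit 282) (nat_lit 168) (nat_lit 0) (XT.nd (nat_lit 94) (nat_lit 252) (nat_lit 0) (XT.lf (nat_lit 0) (nat_lit 761243237) (nat_lit 336) (nat_lit 1718041530) (nat_lit 84) (nat_lit 9141447665) (nat_lit 29) (nat_lit 5) (nat_lit 33) (nat_lit 5) (nat_lit 30) (nat_lit 5) (nat_lit 341) (nat_lit 270) (nat_lit 250)) (XT.nd (nat_lit 94) (nat_lit 0) (nat_lit 0) (XT.lf (nat_lit 0) (nat_lit 2536808668) (nat_lit 252) (nat_lit 426943106) (nat_lit 336) (nat_lit 8906014021) (nat_lit 26)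 (nat_lit 5) (nat_lit 29) (nat_lit 5) (nat_lit 30) (nat_lit 5) (nat_lit 342) (nat_lit 270) (nat_lit 249)) (XT.lf (nat_lit 0) (nat_lit 5219639298) (nat_lit 336) (nat_lit 5251688324) (nat_lit 84) (nat_lit 1655862506) (nat_lit 26) (nat_lit 5) (nat_lit 30) (nat_lit 5) (nat_lit 27) (nat_lit 4) (nat_lit 343) (nat_lit 270) (nat_lit 248)))) (XT.nd (nat_lit 94) (nat_lit 168) (nat_lit 0) (XT.lf (nat_lit 0) (nat_lit 7501552130) (nat_lit 336) (nat_lit 1114966271) (nat_lit 84) (nat_lit 3777640127) (nat_lit 26) (nat_lit 5) (nat_lit 30) (nat_lit 5) (nat_lit 27) (nat_lit 4) (nat_lit 344) (nat_lit 270) (nat_lit 247)) (XT.nd (nat_lit 94) (nat_lit 0) (nat_lit 0) (XT.lf (nat_lit 0) (nat_lit 3148740318) (nat_lit 168) (nat_lit 6689877499) (nat_lit 252) (nat_lit 2831465003) (nat_lit 24) (nat_lit 5) (nat_lit 26) (nat_lit 5) (nat_lit 27) (nat_lit 4) (nat_lit 345) (nat_lit 270) (nat_lit 246)) (XT.lf (nat_lit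 0) (nat_lit 7504219533) (nat_lit 168) (nat_lit 4709501206) (nat_lit 252) (nat_lit 742097568) (nat_lit 24) (nat_lit 5) (nat_lit 26) (nat_lit 5) (nat_lit 27) (nat_lit 4) (nat_lit 346) (nat_lit 270) (nat_lit 245))))) (XT.nd (nat_lit 282) (nat_lit 168) (nat_lit 0) (XT.nd (nat_lit 94) (nat_lit 252) (nat_lit 0) (XT.lf (nat_lit 0) (nat_lit 1338287517) (nat_lit 252) (nat_lit 1332925073) (nat_lit 84) (nat_lit 10580348648) (nat_lit 23) (nat_lit 5) (nat_lit 26) (nat_lit 5) (nat_lit 24) (nat_lit 5) (nat_lit 347) (nat_lit 270) (nat_lit 244)) (XT.nd (nat_lit 94) (nat_lit 0) (nat_lit 0) (XT.lf (nat_lit 0) (nat_lit 2903003205) (nat_lit 252) (nat_lit 549603274) (nat_lit 336) (nat_lit 10104273945) (nat_lit 20) (nat_lit 5) (nat_lit 23) (nat_lit 5) (nat_lit 24) (nat_lit 5) (nat_lit 348) (nat_lit 270) (nat_lit 243)) (XT.lf (nat_lit 0) (nat_lit 5619376101) (nat_lit 336) (nat_lit 6651157783) (nat_lit 84)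 (nat_lit 1601705356) (nat_lit 20) (nat_lit 5) (nat_lit 24) (nat_lit 5) (nat_lit 21) (nat_lit 4) (nat_lit 349) (nat_lit 270) (nat_lit 242)))) (XT.nd (nat_lit 94) (nat_lit 168) (nat_lit 0) (XT.lf (nat_lit 0) (nat_lit 7816846070) (nat_lit 336) (nat_lit 2590147760) (nat_lit 84) (nat_lit 3791674676) (nat_lit 20) (nat_lit 5) (nat_lit 24) (nat_lit 5) (nat_lit 21) (nat_lit 4) (nat_lit 350) (nat_lit 270) (nat_lit 241)) (XT.nd (nat_lit 94) (nat_lit 0) (nat_lit 0) (XT.lf (nat_lit 0) (nat_lit 1570022727) (nat_lit 168) (nat_lit 8487164617) (nat_lit 252) (nat_lit 4478971337) (nat_lit 18) (nat_lit 5) (nat_lit 20) (nat_lit 5) (nat_lit 21) (nat_lit 4) (nat_lit 351) (nat_lit 270) (nat_lit 240)) (XT.lf (nat_lit 0) (nat_lit 5856295843) (nat_lit 168) (nat_lit 6497548518) (nat_lit 252) (nat_lit 2530827940) (nat_lit 18) (nat_lit 5) (nat_lit 20) (nat_lit 5) (nat_lit 21) (nat_lit 4) (nat_lit 352) (nat_lit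 270) (nat_lit 239)))))) (XT.nd (nat_lit 564) (nat_lit 420) (nat_lit 0) (XT.nd (nat_lit 282) (nat_lit 0) (nat_lit 0) (XT.nd (nat_lit 94) (nat_lit 252) (nat_lit 0) (XT.lf (nat_lit 0) (nat_lit 10219408093) (nat_lit 168) (nat_lit 4463326832) (nat_lit 252) (nat_lit 562612202) (nat_lit 18) (nat_lit 5) (nat_lit 20) (nat_lit 5) (nat_lit 21) (nat_lit 4) (nat_lit 353) (nat_lit 270) (nat_lit 238)) (XT.nd (nat_lit 94) (nat_lit 168) (nat_lit 0) (XT.lf (nat_lit 0) (nat_lit 1398749304) (nat_lit 252) (nat_lit 969254074) (nat_lit 84) (nat_lit 13250076976) (nat_lit 17) (nat_lit 5) (nat_lit 20) (nat_lit 5) (nat_lit 18) (nat_lit 5) (nat_lit 354) (nat_lit 270) (nat_lit 237)) (XT.lf (nat_lit 0) (nat_lit 3218666002) (nat_lit 168) (nat_lit 185322169) (nat_lit 252) (nat_lit 12598500496) (nat_lit 15) (nat_lit 5) (nat_lit 17) (nat_lit 5) (nat_lit 18) (nat_lit 5) (nat_lit 355) (nat_lit 270) (nat_lit 236)))) (XT.nd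 (nat_lit 94) (nat_lit 0) (nat_lit 0) (XT.lf (nat_lit 0) (nat_lit 5465354980) (nat_lit 252) (nat_lit 8916306000) (nat_lit 84) (nat_lit 2017471986) (nat_lit 15) (nat_lit 5) (nat_lit 18) (nat_lit 5) (nat_lit 16) (nat_lit 4) (nat_lit 356) (nat_lit 270) (nat_lit 235)) (XT.nd (nat_lit 94) (nat_lit 0) (nat_lit 0) (XT.lf (nat_lit 0) (nat_lit 7556884033) (nat_lit 252) (nat_lit 4983339271) (nat_lit 84) (nat_lit 4269024159) (nat_lit 15) (nat_lit 5) (nat_lit 18) (nat_lit 5) (nat_lit 16) (nat_lit 4) (nat_lit 357) (nat_lit 270) (nat_lit 234)) (XT.lf (nat_lit 0) (nat_lit 9678686435) (nat_lit 252) (nat_lit 979418124) (nat_lit 84) (nat_lit 6575166860) (nat_lit 15) (nat_lit 5) (nat_lit 18) (nat_lit 5) (nat_lit 16) (nat_lit 4) (nat_lit 358) (nat_lit 270) (nat_lit 233))))) (XT.nd (nat_lit 282) (nat_lit 252) (nat_lit 0) (XT.nd (nat_lit 94) (nat_lit 0) (nat_lit 0) (XT.lf (nat_lit 0) (nat_lit 3162915207)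 (nat_lit 168) (nat_lit 8701201231) (nat_lit 252) (nat_lit 5806510959) (nat_lit 13) (nat_lit 5) (nat_lit 15) (nat_lit 5) (nat_lit 16) (nat_lit 4) (nat_lit 359) (nat_lit 270) (nat_lit 232)) (XT.nd (nat_lit 94) (nat_lit 0) (nat_lit 0) (XT.lf (nat_lit 0) (nat_lit 7405489445) (nat_lit 168) (nat_lit 6689026244) (nat_lit 252) (nat_lit 4027848928) (nat_lit 13) (nat_lit 5) (nat_lit 15) (nat_lit 5) (nat_lit 16) (nat_lit 4) (nat_lit 360) (nat_lit 270) (nat_lit 231)) (XT.lf (nat_lit 0) (nat_lit 11732120267) (nat_lit 168) (nat_lit 4629927156) (nat_lit 252) (nat_lit 2227164109) (nat_lit 13) (nat_lit 5) (nat_lit 15) (nat_lit 5) (nat_lit 16) (nat_lit 4) (nat_lit 361) (nat_lit 270) (nat_lit 230)))) (XT.nd (nat_lit 188) (nat_lit 0) (nat_lit 0) (XT.nd (nat_lit 94) (nat_lit 252) (nat_lit 0) (XT.lf (nat_lit 0) (nat_lit 16146840545) (nat_lit 168) (nat_lit 2521984672) (nat_lit 252) (nat_lit 402778075) (nat_lit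 13) (nat_lit 5) (nat_lit 15) (nat_lit 5) (nat_lit 16) (nat_lit 4) (nat_lit 362) (nat_lit 270) (nat_lit 229)) (XT.lf (nat_lit 0) (nat_lit 1091410700) (nat_lit 168) (nat_lit 337271899) (nat_lit 252) (nat_lit 18140526314) (nat_lit 10) (nat_lit 5) (nat_lit 12) (nat_lit 5) (nat_lit 13) (nat_lit 5) (nat_lit 363) (nat_lit 270) (nat_lit 228))) (XT.nd (nat_lit 94) (nat_lit 0) (nat_lit 0) (XT.lf (nat_lit 0) (nat_lit 3328189531) (nat_lit 252) (nat_lit 14856443741) (nat_lit 84) (nat_lit 1896971051) (nat_lit 10) (nat_lit 5) (nat_lit 13) (nat_lit 5) (nat_lit 11) (nat_lit 4) (nat_lit 364) (nat_lit 270) (nat_lit 227)) (XT.lf (nat_lit 0) (nat_lit 5260736950) (nat_lit 252) (nat_lit 11170707790) (nat_lit 84) (nat_lit 4179337883) (nat_lit 10) (nat_lit 5) (nat_lit 13) (nat_lit 5) (nat_lit 11) (nat_lit 4) (nat_lit 365) (nat_lit 270) (nat_lit 226))))))))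
noncomputable def xc47 : XT := (XT.nd (nat_lit 2256) (nat_lit 252) (nat_lit 0) (XT.nd (nat_lit 1128) (nat_lit 84) (nat_lit 0) (XT.nd (nat_lit 564) (nat_lit 252) (nat_lit 0) (XT.nd (nat_lit 282) (nat_lit 0) (nat_lit 0) (XT.nd (nat_lit 94) (nat_lit 84) (nat_lit 0) (XT.lf (nat_lit 0) (nat_lit 7224780414) (nat_lit 252) (nat_lit 7413809090) (nat_lit 84) (nat_lit 6518751278) (nat_lit 10) (nat_lit 5) (nat_lit 13) (nat_lit 5) (nat_lit 11) (nat_lit 4) (nat_lit 366) (nat_lit 270) (nat_lit 225)) (XT.nd (nat_lit 94) (nat_lit 84) (nat_lit 0) (XT.lf (nat_lit 0) (nat_lit 9222150617) (nat_lit 252) (nat_lit 3582245818) (nat_lit 84) (nat_lit 8917391814) (nat_lit 10) (nat_lit 5) (nat_lit 13) (nat_lit 5) (nat_lit 11) (nat_lit 4) (nat_lit 367) (nat_lit 270) (nat_lit 224)) (XT.lf (nat_lit 0) (nat_lit 334288613) (nat_lit 84) (nat_lit 10923736889) (nat_lit 168) (nat_lit 11046522847) (nat_lit 9) (nat_lit 5)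 (nat_lit 10) (nat_lit 5) (nat_lit 11) (nat_lit 4) (nat_lit 368) (nat_lit 270) (nat_lit 223)))) (XT.nd (nat_lit 94) (nat_lit 0) (nat_lit 0) (XT.lf (nat_lit 0) (nat_lit 4408045327) (nat_lit 84) (nat_lit 8960034103) (nat_lit 168) (nat_lit 9537037766) (nat_lit 9) (nat_lit 5) (nat_lit 10) (nat_lit 5) (nat_lit 11) (nat_lit 4) (nat_lit 369) (nat_lit 270) (nat_lit 222)) (XT.nd (nat_lit 94) (nat_lit 0) (nat_lit 0) (XT.lf (nat_lit 0) (nat_lit 8569163168) (nat_lit 84) (nat_lit 6948849000) (nat_lit 168) (nat_lit 8007166691) (nat_lit 9) (nat_lit 5) (nat_lit 10) (nat_lit 5) (nat_lit 11) (nat_lit 4) (nat_lit 370) (nat_lit 270) (nat_lit 221)) (XT.lf (nat_lit 0) (nat_lit 12821520736) (nat_lit 84) (nat_lit 4888306945) (nat_lit 168) (nat_lit 6455483622) (nat_lit 9) (nat_lit 5) (nat_lit 10) (nat_lit 5) (nat_lit 11) (nat_lit 4) (nat_lit 371) (nat_lit 270) (nat_lit 220))))) (XT.nd (nat_lit 282) (nat_lit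 252) (nat_lit 0) (XT.nd (nat_lit 94) (nat_lit 0) (nat_lit 0) (XT.lf (nat_lit 0) (nat_lit 17169081672) (nat_lit 84) (nat_lit 2776487298) (nat_lit 168) (nat_lit 4880542229) (nat_lit 9) (nat_lit 5) (nat_lit 10) (nat_lit 5) (nat_lit 11) (nat_lit 4) (nat_lit 372) (nat_lit 270) (nat_lit 219)) (XT.nd (nat_lit 94) (nat_lit 0) (nat_lit 0) (XT.lf (nat_lit 0) (nat_lit 21615898359) (nat_lit 84) (nat_lit 611421620) (nat_lit 168) (nat_lit 3280874500) (nat_lit 9) (nat_lit 5) (nat_lit 10) (nat_lit 5) (nat_lit 11) (nat_lit 4) (nat_lit 373) (nat_lit 270) (nat_lit 218)) (XT.lf (nat_lit 0) (nat_lit 24573168108) (nat_lit 168) (nat_lit 62041790) (nat_lit 0) (nat_lit 1576492241) (nat_lit 9) (nat_lit 5) (nat_lit 11) (nat_lit 4) (nat_lit 9) (nat_lit 4) (nat_lit 374) (nat_lit 270) (nat_lit 217)))) (XT.nd (nat_lit 94) (nat_lit 0) (nat_lit 0) (XT.lf (nat_lit 0) (nat_lit 76947993) (nat_lit 252) (nat_lit 23011411396)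 (nat_lit 84) (nat_lit 3847988707) (nat_lit 6) (nat_lit 5) (nat_lit 9) (nat_lit 5) (nat_lit 7) (nat_lit 4) (nat_lit 375) (nat_lit 270) (nat_lit 216)) (XT.nd (nat_lit 94) (nat_lit 0) (nat_lit 0) (XT.lf (nat_lit 0) (nat_lit 1790233501) (nat_lit 252) (nat_lit 19697603315) (nat_lit 84) (nat_lit 6195830866) (nat_lit 6) (nat_lit 5) (nat_lit 9) (nat_lit 5) (nat_lit 7) (nat_lit 4) (nat_lit 376) (nat_lit 270) (nat_lit 215)) (XT.lf (nat_lit 0) (nat_lit 3535297721) (nat_lit 252) (nat_lit 16314265166) (nat_lit 84) (nat_lit 8605318153) (nat_lit 6) (nat_lit 5) (nat_lit 9) (nat_lit 5) (nat_lit 7) (nat_lit 4) (nat_lit 377) (nat_lit 270) (nat_lit 214)))))) (XT.nd (nat_lit 564) (nat_lit 0) (nat_lit 0) (XT.nd (nat_lit 282) (nat_lit 84) (nat_lit 0) (XT.nd (nat_lit 94) (nat_lit 0) (nat_lit 0) (XT.lf (nat_lit 0) (nat_lit 5313767234) (nat_lit 252) (nat_lit 12858243323) (nat_lit 84) (nat_lit 11078696460) (nat_lit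 6) (nat_lit 5) (nat_lit 9) (nat_lit 5) (nat_lit 7) (nat_lit 4) (nat_lit 378) (nat_lit 270) (nat_lit 213)) (XT.nd (nat_lit 94) (nat_lit 0) (nat_lit 0) (XT.lf (nat_lit 0) (nat_lit 7127299761) (nat_lit 252) (nat_lit 9326316411) (nat_lit 84) (nat_lit 13618271236) (nat_lit 6) (nat_lit 5) (nat_lit 9) (nat_lit 5) (nat_lit 7) (nat_lit 4) (nat_lit 379) (nat_lit 270) (nat_lit 212)) (XT.lf (nat_lit 0) (nat_lit 8977585704) (nat_lit 252) (nat_lit 5715192306) (nat_lit 84) (nat_lit 16226409631) (nat_lit 6) (nat_lit 5) (nat_lit 9) (nat_lit 5) (nat_lit 7) (nat_lit 4) (nat_lit 380) (nat_lit 270) (nat_lit 211)))) (XT.nd (nat_lit 94) (nat_lit 84) (nat_lit 0) (XT.lf (nat_lit 0) (nat_lit 10866349724) (nat_lit 252) (nat_lit 2021505060) (nat_lit 84) (nat_lit 18905542702) (nat_lit 6) (nat_lit 5) (nat_lit 9) (nat_lit 5) (nat_lit 7) (nat_lit 4) (nat_lit 381) (nat_lit 270) (nat_lit 210)) (XT.nd (nat_lit 94) (nat_lit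 0) (nat_lit 0) (XT.lf (nat_lit 0) (nat_lit 1794340184) (nat_lit 84) (nat_lit 11018812238) (nat_lit 168) (nat_lit 19881627574) (nat_lit 5) (nat_lit 5) (nat_lit 6) (nat_lit 5) (nat_lit 7) (nat_lit 4) (nat_lit 382) (nat_lit 270) (nat_lit 209)) (XT.lf (nat_lit 0) (nat_lit 5743121735) (nat_lit 84) (nat_lit 9080242346) (nat_lit 168) (nat_lit 18800701050) (nat_lit 5) (nat_lit 5) (nat_lit 6) (nat_lit 5) (nat_lit 7) (nat_lit 4) (nat_lit 383) (nat_lit 270) (nat_lit 208))))) (XT.nd (nat_lit 282) (nat_lit 0) (nat_lit 0) (XT.nd (nat_lit 94) (nat_lit 0) (nat_lit 0) (XT.lf (nat_lit 0) (nat_lit 9786953980) (nat_lit 84) (nat_lit 7091438524) (nat_lit 168) (nat_lit 17704361019) (nat_lit 5) (nat_lit 5) (nat_lit 6) (nat_lit 5) (nat_lit 7) (nat_lit 4) (nat_lit 384) (nat_lit 270) (nat_lit 207)) (XT.nd (nat_lit 94) (nat_lit 0) (nat_lit 0) (XT.lf (nat_lit 0) (nat_lit 13929606194) (nat_lit 84) (nat_lit 5050547000)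 (nat_lit 168) (nat_lit 16591585578) (nat_lit 5) (nat_lit 5) (nat_lit 6) (nat_lit 5) (nat_lit 7) (nat_lit 4) (nat_lit 385) (nat_lit 270) (nat_lit 206)) (XT.lf (nat_lit 0) (nat_lit 18174939763) (nat_lit 84) (nat_lit 2955665448) (nat_lit 168) (nat_lit 15461337503) (nat_lit 5) (nat_lit 5) (nat_lit 6) (nat_lit 5) (nat_lit 7) (nat_lit 4) (nat_lit 386) (nat_lit 270) (nat_lit 205)))) (XT.nd (nat_lit 94) (nat_lit 0) (nat_lit 0) (XT.lf (nat_lit 0) (nat_lit 22526911782) (nat_lit 84) (nat_lit 804841220) (nat_lit 168) (nat_lit 14312563285) (nat_lit 5) (nat_lit 5) (nat_lit 6) (nat_lit 5) (nat_lit 7) (nat_lit 4) (nat_lit 387) (nat_lit 270) (nat_lit 204)) (XT.nd (nat_lit 94) (nat_lit 0) (nat_lit 0) (XT.lf (nat_lit 0) (nat_lit 25599575433) (nat_lit 168) (nat_lit 11754188832) (nat_lit 0) (nat_lit 1375644407) (nat_lit 5) (nat_lit 5) (nat_lit 7) (nat_lit 4) (nat_lit 5) (nat_lit 4) (nat_lit 388) (nat_lit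 270) (nat_lit 203)) (XT.lf (nat_lit 0) (nat_lit 27930825597) (nat_lit 168) (nat_lit 8318860312) (nat_lit 0) (nat_lit 3598711561) (nat_lit 5) (nat_lit 5) (nat_lit 7) (nat_lit 4) (nat_lit 5) (nat_lit 4) (nat_lit 389) (nat_lit 270) (nat_lit 202))))))) (XT.nd (nat_lit 1128) (nat_lit 84) (nat_lit 0) (XT.nd (nat_lit 564) (nat_lit 84) (nat_lit 0) (XT.nd (nat_lit 282) (nat_lit 0) (nat_lit 0) (XT.nd (nat_lit 94) (nat_lit 84) (nat_lit 0) (XT.lf (nat_lit 0) (nat_lit 30319692342) (nat_lit 168) (nat_lit 4800232732) (nat_lit 0) (nat_lit 5882648131) (nat_lit 5) (nat_lit 5) (nat_lit 7) (nat_lit 4) (nat_lit 5) (nat_lit 4) (nat_lit 390) (nat_lit 270) (nat_lit 201)) (XT.nd (nat_lit 94) (nat_lit 84) (nat_lit 0) (XT.lf (nat_lit 0) (nat_lit 32768402341) (nat_lit 168) (nat_lit 1195026366) (nat_lit 0) (nat_lit 8229582985) (nat_lit 5) (nat_lit 5) (nat_lit 7) (nat_lit 4) (nat_lit 5) (nat_lit 4) (nat_lit 391)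 (nat_lit 270) (nat_lit 200)) (XT.lf (nat_lit 0) (nat_lit 2551526797) (nat_lit 84) (nat_lit 32753022712) (nat_lit 84) (nat_lit 8115488375) (nat_lit 4) (nat_lit 4) (nat_lit 5) (nat_lit 5) (nat_lit 5) (nat_lit 4) (nat_lit 392) (nat_lit 270) (nat_lit 199)))) (XT.nd (nat_lit 94) (nat_lit 0) (nat_lit 0) (XT.lf (nat_lit 0) (nat_lit 6417955789) (nat_lit 84) (nat_lit 31500250950) (nat_lit 84) (nat_lit 6766969784) (nat_lit 4) (nat_lit 4) (nat_lit 5) (nat_lit 5) (nat_lit 5) (nat_lit 4) (nat_lit 393) (nat_lit 270) (nat_lit 198)) (XT.nd (nat_lit 94) (nat_lit 0) (nat_lit 0) (XT.lf (nat_lit 0) (nat_lit 10383292336) (nat_lit 84) (nat_lit 30216419331) (nat_lit 84) (nat_lit 5390270242) (nat_lit 4) (nat_lit 4) (nat_lit 5) (nat_lit 5) (nat_lit 5) (nat_lit 4) (nat_lit 394) (nat_lit 270) (nat_lit 197)) (XT.lf (nat_lit 0) (nat_lit 14451232544) (nat_lit 84) (nat_lit 28900331190) (nat_lit 84) (nat_lit 3984106520)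 (nat_lit 4) (nat_lit 4) (nat_lit 5) (nat_lit 5) (nat_lit 5) (nat_lit 4) (nat_lit 395) (nat_lit 270) (nat_lit 196))))) (XT.nd (nat_lit 282) (nat_lit 0) (nat_lit 0) (XT.nd (nat_lit 94) (nat_lit 84) (nat_lit 0) (XT.lf (nat_lit 0) (nat_lit 18625568161) (nat_lit 84) (nat_lit 27550759794) (nat_lit 84) (nat_lit 2547167927) (nat_lit 4) (nat_lit 4) (nat_lit 5) (nat_lit 5) (nat_lit 5) (nat_lit 4) (nat_lit 396) (nat_lit 270) (nat_lit 195)) (XT.nd (nat_lit 94) (nat_lit 84) (nat_lit 0) (XT.lf (nat_lit 0) (nat_lit 22910190105) (nat_lit 84) (nat_lit 26166447202) (nat_lit 84) (nat_lit 1078115085) (nat_lit 4) (nat_lit 4) (nat_lit 5) (nat_lit 5) (nat_lit 5) (nat_lit 4) (nat_lit 397) (nat_lit 270) (nat_lit 194)) (XT.lf (nat_lit 0) (nat_lit 415870172) (nat_lit 168) (nat_lit 24325892084) (nat_lit 84) (nat_lit 26888881087) (nat_lit 3) (nat_lit 5) (nat_lit 5) (nat_lit 5) (nat_lit 4) (nat_lit 4) (nat_lit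 398) (nat_lit 270) (nat_lit 193)))) (XT.nd (nat_lit 94) (nat_lit 0) (nat_lit 0) (XT.lf (nat_lit 0) (nat_lit 1922315059) (nat_lit 168) (nat_lit 21346023459) (nat_lit 84) (nat_lit 29883994274) (nat_lit 3) (nat_lit 5) (nat_lit 5) (nat_lit 5) (nat_lit 4) (nat_lit 4) (nat_lit 399) (nat_lit 270) (nat_lit 192)) (XT.nd (nat_lit 94) (nat_lit 0) (nat_lit 0) (XT.lf (nat_lit 0) (nat_lit 3464345354) (nat_lit 168) (nat_lit 18291483827) (nat_lit 84) (nat_lit 32965741473) (nat_lit 3) (nat_lit 5) (nat_lit 5) (nat_lit 5) (nat_lit 4) (nat_lit 4) (nat_lit 400) (nat_lit 270) (nat_lit 191)) (XT.lf (nat_lit 0) (nat_lit 5043398393) (nat_lit 168) (nat_lit 15159426038) (nat_lit 84) (nat_lit 36136995197) (nat_lit 3) (nat_lit 5) (nat_lit 5) (nat_lit 5) (nat_lit 4) (nat_lit 4) (nat_lit 401) (nat_lit 270) (nat_lit 190)))))) (XT.nd (nat_lit 564) (nat_lit 0) (nat_lit 0) (XT.nd (nat_lit 282) (nat_lit 84) (nat_lit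 0) (XT.nd (nat_lit 94) (nat_lit 0) (nat_lit 0) (XT.lf (nat_lit 0) (nat_lit 6660946017) (nat_lit 168) (nat_lit 11946930684) (nat_lit 84) (nat_lit 39400711385) (nat_lit 3) (nat_lit 5) (nat_lit 5) (nat_lit 5) (nat_lit 4) (nat_lit 4) (nat_lit 402) (nat_lit 270) (nat_lit 189)) (XT.nd (nat_lit 94) (nat_lit 0) (nat_lit 0) (XT.lf (nat_lit 0) (nat_lit 8318495951) (nat_lit 168) (nat_lit 8651003385) (nat_lit 84) (nat_lit 42759932164) (nat_lit 3) (nat_lit 5) (nat_lit 5) (nat_lit 5) (nat_lit 4) (nat_lit 4) (nat_lit 403) (nat_lit 270) (nat_lit 188)) (XT.lf (nat_lit 0) (nat_lit 10017593205) (nat_lit 168) (nat_lit 5268571991) (nat_lit 84) (nat_lit 46217788679) (nat_lit 3) (nat_lit 5) (nat_lit 5) (nat_lit 5) (nat_lit 4) (nat_lit 4) (nat_lit 404) (nat_lit 270) (nat_lit 187)))) (XT.nd (nat_lit 94) (nat_lit 84) (nat_lit 0) (XT.lf (nat_lit 0) (nat_lit 11759821515) (nat_lit 168) (nat_lit 1796483720) (nat_lit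 84) (nat_lit 49777504015) (nat_lit 3) (nat_lit 5) (nat_lit 5) (nat_lit 5) (nat_lit 4) (nat_lit 4) (nat_lit 405) (nat_lit 270) (nat_lit 186)) (XT.nd (nat_lit 94) (nat_lit 0) (nat_lit 0) (XT.lf (nat_lit 0) (nat_lit 1804861716) (nat_lit 84) (nat_lit 11759847556) (nat_lit 168) (nat_lit 51655438934) (nat_lit 2) (nat_lit 5) (nat_lit 3) (nat_lit 5) (nat_lit 4) (nat_lit 4) (nat_lit 406) (nat_lit 270) (nat_lit 185)) (XT.lf (nat_lit 0) (nat_lit 5541341107) (nat_lit 84) (nat_lit 9893838460) (nat_lit 168) (nat_lit 51729510977) (nat_lit 2) (nat_lit 5) (nat_lit 3) (nat_lit 5) (nat_lit 4) (nat_lit 4) (nat_lit 407) (nat_lit 270) (nat_lit 184))))) (XT.nd (nat_lit 282) (nat_lit 0) (nat_lit 0) (XT.nd (nat_lit 94) (nat_lit 0) (nat_lit 0) (XT.lf (nat_lit 0) (nat_lit 9379497851) (nat_lit 84) (nat_lit 7975290239) (nat_lit 168) (nat_lit 51815024512) (nat_lit 2) (nat_lit 5) (nat_lit 3) (nat_lit 5) (nat_lit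 4) (nat_lit 4) (nat_lit 408) (nat_lit 270) (nat_lit 183)) (XT.nd (nat_lit 94) (nat_lit 0) (nat_lit 0) (XT.lf (nat_lit 0) (nat_lit 13322909514) (nat_lit 84) (nat_lit 6002414603) (nat_lit 168) (nat_lit 51912059249) (nat_lit 2) (nat_lit 5) (nat_lit 3) (nat_lit 5) (nat_lit 4) (nat_lit 4) (nat_lit 409) (nat_lit 270) (nat_lit 182)) (XT.lf (nat_lit 0) (nat_lit 17375251767) (nat_lit 84) (nat_lit 3973372627) (nat_lit 168) (nat_lit 52020705632) (nat_lit 2) (nat_lit 5) (nat_lit 3) (nat_lit 5) (nat_lit 4) (nat_lit 4) (nat_lit 410) (nat_lit 270) (nat_lit 181)))) (XT.nd (nat_lit 45402) (nat_lit 0) (nat_lit 5880) (XT.nd (nat_lit 94) (nat_lit 0) (nat_lit 0) (XT.lf (nat_lit 0) (nat_lit 21540301818) (nat_lit 84) (nat_lit 1886273031) (nat_lit 168) (nat_lit 52141064933) (nat_lit 2) (nat_lit 5) (nat_lit 3) (nat_lit 5) (nat_lit 4) (nat_lit 4) (nat_lit 411) (nat_lit 270) (nat_lit 180)) (XT.lf (nat_lit 0)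 (nat_lit 25563699811) (nat_lit 168) (nat_lit 52015007219) (nat_lit 0) (nat_lit 255574445) (nat_lit 2) (nat_lit 5) (nat_lit 4) (nat_lit 4) (nat_lit 2) (nat_lit 4) (nat_lit 412) (nat_lit 270) (nat_lit 179))) (XT.nd (nat_lit 94) (nat_lit 0) (nat_lit 0) (XT.lf (nat_lit 0) (nat_lit 111059731) (nat_lit 504) (nat_lit 1931335833) (nat_lit 504) (nat_lit 1931335833) (nat_lit 72) (nat_lit 4) (nat_lit 78) (nat_lit 5) (nat_lit 78) (nat_lit 4) (nat_lit 319) (nat_lit 271) (nat_lit 271)) (XT.lf (nat_lit 0) (nat_lit 4332529475) (nat_lit 504) (nat_lit 2445416216) (nat_lit 504) (nat_lit 1275014490) (nat_lit 72) (nat_lit 4) (nat_lit 78) (nat_lit 5) (nat_lit 78) (nat_lit 4) (nat_lit 320) (nat_lit 271) (nat_lit 270))))))))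
noncomputable def xc48 : XT := (XT.nd (nat_lit 2256) (nat_lit 1344) (nat_lit 0) (XT.nd (nat_lit 1128) (nat_lit 1260) (nat_lit 0) (XT.nd (nat_lit 564) (nat_lit 1260) (nat_lit 0) (XT.nd (nat_lit 282) (nat_lit 420) (nat_lit 0) (XT.nd (nat_lit 94) (nat_lit 420) (nat_lit 0) (XT.lf (nat_lit 0) (nat_lit 317335446) (nat_lit 420) (nat_lit 974120673) (nat_lit 504) (nat_lit 6872579510) (nat_lit 66) (nat_lit 5) (nat_lit 71) (nat_lit 5) (nat_lit 72) (nat_lit 4) (nat_lit 321) (nat_lit 271) (nat_lit 269)) (XT.nd (nat_lit 94) (nat_lit 420) (nat_lit 0) (XT.lf (nat_lit 0) (nat_lit 3880525434) (nat_lit 504) (nat_lit 3822749387) (nat_lit 0) (nat_lit 576268633) (nat_lit 66) (nat_lit 5) (nat_lit 72) (nat_lit 4) (nat_lit 66) (nat_lit 4) (nat_lit 322) (nat_lit 271) (nat_lit 268)) (XT.lf (nat_lit 0) (nat_lit 237625709) (nat_lit 420) (nat_lit 6251716115) (nat_lit 420) (nat_lit 1911601153) (nat_lit 61) (nat_lit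 4) (nat_lit 66) (nat_lit 5) (nat_lit 66) (nat_lit 4) (nat_lit 323) (nat_lit 271) (nat_lit 267)))) (XT.nd (nat_lit 94) (nat_lit 336) (nat_lit 0) (XT.lf (nat_lit 0) (nat_lit 607475314) (nat_lit 504) (nat_lit 4111044685) (nat_lit 84) (nat_lit 3808795505) (nat_lit 60) (nat_lit 5) (nat_lit 66) (nat_lit 5) (nat_lit 61) (nat_lit 4) (nat_lit 324) (nat_lit 271) (nat_lit 266)) (XT.nd (nat_lit 94) (nat_lit 336) (nat_lit 0) (XT.lf (nat_lit 0) (nat_lit 3094512692) (nat_lit 504) (nat_lit 34374278) (nat_lit 84) (nat_lit 5530692554) (nat_lit 60) (nat_lit 5) (nat_lit 66) (nat_lit 5) (nat_lit 61) (nat_lit 4) (nat_lit 325) (nat_lit 271) (nat_lit 265)) (XT.lf (nat_lit 0) (nat_lit 4173544782) (nat_lit 336) (nat_lit 1458200963) (nat_lit 420) (nat_lit 3165416975) (nat_lit 56) (nat_lit 5) (nat_lit 60) (nat_lit 5) (nat_lit 61) (nat_lit 4) (nat_lit 326) (nat_lit 271) (nat_lit 264))))) (XT.nd (nat_lit 282) (nat_lit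 756) (nat_lit 0) (XT.nd (nat_lit 94) (nat_lit 504) (nat_lit 0) (XT.lf (nat_lit 0) (nat_lit 8183475536) (nat_lit 420) (nat_lit 509739296) (nat_lit 0) (nat_lit 248158480) (nat_lit 56) (nat_lit 5) (nat_lit 61) (nat_lit 4) (nat_lit 56) (nat_lit 4) (nat_lit 327) (nat_lit 271) (nat_lit 263)) (XT.nd (nat_lit 94) (nat_lit 0) (nat_lit 0) (XT.lf (nat_lit 0) (nat_lit 1675649961) (nat_lit 504) (nat_lit 5394550528) (nat_lit 84) (nat_lit 2020104818) (nat_lit 50) (nat_lit 5) (nat_lit 56) (nat_lit 5) (nat_lit 51) (nat_lit 4) (nat_lit 328) (nat_lit 271) (nat_lit 262)) (XT.lf (nat_lit 0) (nat_lit 4109337467) (nat_lit 504) (nat_lit 1288276835) (nat_lit 84) (nat_lit 3848186612) (nat_lit 50) (nat_lit 5) (nat_lit 56) (nat_lit 5) (nat_lit 51) (nat_lit 4) (nat_lit 329) (nat_lit 271) (nat_lit 261)))) (XT.nd (nat_lit 94) (nat_lit 420) (nat_lit 0) (XT.lf (nat_lit 0) (nat_lit 2927447442) (nat_lit 336) (nat_lit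 3657082906) (nat_lit 420) (nat_lit 2822969153) (nat_lit 46) (nat_lit 5) (nat_lit 50) (nat_lit 5) (nat_lit 51) (nat_lit 4) (nat_lit 330) (nat_lit 271) (nat_lit 260)) (XT.nd (nat_lit 94) (nat_lit 420) (nat_lit 0) (XT.lf (nat_lit 0) (nat_lit 7225122311) (nat_lit 336) (nat_lit 1862938549) (nat_lit 420) (nat_lit 487970647) (nat_lit 46) (nat_lit 5) (nat_lit 50) (nat_lit 5) (nat_lit 51) (nat_lit 4) (nat_lit 331) (nat_lit 271) (nat_lit 259)) (XT.lf (nat_lit 0) (nat_lit 1838294197) (nat_lit 420) (nat_lit 7901789757) (nat_lit 84) (nat_lit 10731218) (nat_lit 41) (nat_lit 5) (nat_lit 46) (nat_lit 5) (nat_lit 42) (nat_lit 4) (nat_lit 332) (nat_lit 271) (nat_lit 258)))))) (XT.nd (nat_lit 564) (nat_lit 588) (nat_lit 0) (XT.nd (nat_lit 282) (nat_lit 420) (nat_lit 0) (XT.nd (nat_lit 94) (nat_lit 252) (nat_lit 0) (XT.lf (nat_lit 0) (nat_lit 4210426304) (nat_lit 420) (nat_lit 3802108267) (nat_lit 84)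 (nat_lit 1919119789) (nat_lit 41) (nat_lit 5) (nat_lit 46) (nat_lit 5) (nat_lit 42) (nat_lit 4) (nat_lit 333) (nat_lit 271) (nat_lit 257)) (XT.nd (nat_lit 94) (nat_lit 0) (nat_lit 0) (XT.lf (nat_lit 0) (nat_lit 357617690) (nat_lit 252) (nat_lit 6243873339) (nat_lit 336) (nat_lit 3518584962) (nat_lit 38) (nat_lit 5) (nat_lit 41) (nat_lit 5) (nat_lit 42) (nat_lit 4) (nat_lit 334) (nat_lit 271) (nat_lit 256)) (XT.lf (nat_lit 0) (nat_lit 4653398717) (nat_lit 252) (nat_lit 4395834528) (nat_lit 336) (nat_lit 1265921448) (nat_lit 38) (nat_lit 5) (nat_lit 41) (nat_lit 5) (nat_lit 42) (nat_lit 4) (nat_lit 335) (nat_lit 271) (nat_lit 255)))) (XT.nd (nat_lit 94) (nat_lit 336) (nat_lit 0) (XT.lf (nat_lit 0) (nat_lit 979044823) (nat_lit 336) (nat_lit 1517117742) (nat_lit 84) (nat_lit 8021795744) (nat_lit 37) (nat_lit 5) (nat_lit 41) (nat_lit 5) (nat_lit 38) (nat_lit 5) (nat_lit 336) (nat_lit 271)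 (nat_lit 254)) (XT.nd (nat_lit 94) (nat_lit 0) (nat_lit 0) (XT.lf (nat_lit 0) (nat_lit 2727491309) (nat_lit 336) (nat_lit 512323520) (nat_lit 420) (nat_lit 7487936057) (nat_lit 33) (nat_lit 5) (nat_lit 37) (nat_lit 5) (nat_lit 38) (nat_lit 5) (nat_lit 337) (nat_lit 271) (nat_lit 253)) (XT.lf (nat_lit 0) (nat_lit 5548109906) (nat_lit 420) (nat_lit 3894629491) (nat_lit 84) (nat_lit 1502250515) (nat_lit 33) (nat_lit 5) (nat_lit 38) (nat_lit 5) (nat_lit 34) (nat_lit 4) (nat_lit 338) (nat_lit 271) (nat_lit 252))))) (XT.nd (nat_lit 282) (nat_lit 252) (nat_lit 0) (XT.nd (nat_lit 94) (nat_lit 84) (nat_lit 0) (XT.lf (nat_lit 0) (nat_lit 269058476) (nat_lit 252) (nat_lit 7614665128) (nat_lit 336) (nat_lit 3286847367) (nat_lit 30) (nat_lit 5) (nat_lit 33) (nat_lit 5) (nat_lit 34) (nat_lit 4) (nat_lit 339) (nat_lit 271) (nat_lit 251)) (XT.nd (nat_lit 94) (nat_lit 84) (nat_lit 0) (XT.lf (nat_lit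 0) (nat_lit 4575689744) (nat_lit 252) (nat_lit 5705442548) (nat_lit 336) (nat_lit 1122570762) (nat_lit 30) (nat_lit 5) (nat_lit 33) (nat_lit 5) (nat_lit 34) (nat_lit 4) (nat_lit 340) (nat_lit 271) (nat_lit 250)) (XT.lf (nat_lit 0) (nat_lit 1036012653) (nat_lit 336) (nat_lit 2707117504) (nat_lit 84) (nat_lit 7902370471) (nat_lit 29) (nat_lit 5) (nat_lit 33) (nat_lit 5) (nat_lit 30) (nat_lit 5) (nat_lit 341) (nat_lit 271) (nat_lit 249)))) (XT.nd (nat_lit 94) (nat_lit 0) (nat_lit 0) (XT.lf (nat_lit 0) (nat_lit 1494310484) (nat_lit 252) (nat_lit 1709777836) (nat_lit 336) (nat_lit 8691616032) (nat_lit 26) (nat_lit 5) (nat_lit 29) (nat_lit 5) (nat_lit 30) (nat_lit 5) (nat_lit 342) (nat_lit 271) (nat_lit 248)) (XT.nd (nat_lit 94) (nat_lit 0) (nat_lit 0) (XT.lf (nat_lit 0) (nat_lit 5423481462) (nat_lit 336) (nat_lit 6340239885) (nat_lit 84) (nat_lit 390638511) (nat_lit 26) (nat_lit 5) (nat_lit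 30) (nat_lit 5) (nat_lit 27) (nat_lit 4) (nat_lit 343) (nat_lit 271) (nat_lit 247)) (XT.lf (nat_lit 0) (nat_lit 7682340460) (nat_lit 336) (nat_lit 2235371080) (nat_lit 84) (nat_lit 2504428231) (nat_lit 26) (nat_lit 5) (nat_lit 30) (nat_lit 5) (nat_lit 27) (nat_lit 4) (nat_lit 344) (nat_lit 271) (nat_lit 246))))))) (XT.nd (nat_lit 1128) (nat_lit 420) (nat_lit 0) (XT.nd (nat_lit 564) (nat_lit 420) (nat_lit 0) (XT.nd (nat_lit 282) (nat_lit 252) (nat_lit 0) (XT.nd (nat_lit 94) (nat_lit 84) (nat_lit 0) (XT.lf (nat_lit 0) (nat_lit 1973766926) (nat_lit 168) (nat_lit 8011622686) (nat_lit 252) (nat_lit 2713822896) (nat_lit 24) (nat_lit 5) (nat_lit 26) (nat_lit 5) (nat_lit 27) (nat_lit 4) (nat_lit 345) (nat_lit 271) (nat_lit 245)) (XT.nd (nat_lit 94) (nat_lit 84) (nat_lit 0) (XT.lf (nat_lit 0) (nat_lit 6298663442) (nat_lit 168) (nat_lit 6039837392) (nat_lit 252) (nat_lit 647220012) (nat_lit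 24) (nat_lit 5) (nat_lit 26) (nat_lit 5) (nat_lit 27) (nat_lit 4) (nat_lit 346) (nat_lit 271) (nat_lit 244)) (XT.lf (nat_lit 0) (nat_lit 1409618297) (nat_lit 252) (nat_lit 2599518617) (nat_lit 84) (nat_lit 9273054088) (nat_lit 23) (nat_lit 5) (nat_lit 26) (nat_lit 5) (nat_lit 24) (nat_lit 5) (nat_lit 347) (nat_lit 271) (nat_lit 243)))) (XT.nd (nat_lit 94) (nat_lit 0) (nat_lit 0) (XT.lf (nat_lit 0) (nat_lit 1580477867) (nat_lit 252) (nat_lit 1909355098) (nat_lit 336) (nat_lit 10098817592) (nat_lit 20) (nat_lit 5) (nat_lit 23) (nat_lit 5) (nat_lit 24) (nat_lit 5) (nat_lit 348) (nat_lit 271) (nat_lit 242)) (XT.nd (nat_lit 94) (nat_lit 0) (nat_lit 0) (XT.lf (nat_lit 0) (nat_lit 5622389574) (nat_lit 336) (nat_lit 8021591412) (nat_lit 84) (nat_lit 261169626) (nat_lit 20) (nat_lit 5) (nat_lit 24) (nat_lit 5) (nat_lit 21) (nat_lit 4) (nat_lit 349) (nat_lit 271) (nat_lit 241)) (XT.lf (nat_lit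 0) (nat_lit 7799758567) (nat_lit 336) (nat_lit 3989317629) (nat_lit 84) (nat_lit 2443205022) (nat_lit 20) (nat_lit 5) (nat_lit 24) (nat_lit 5) (nat_lit 21) (nat_lit 4) (nat_lit 350) (nat_lit 271) (nat_lit 240))))) (XT.nd (nat_lit 282) (nat_lit 252) (nat_lit 0) (XT.nd (nat_lit 94) (nat_lit 0) (nat_lit 0) (XT.lf (nat_lit 0) (nat_lit 113637744) (nat_lit 168) (nat_lit 9892517996) (nat_lit 252) (nat_lit 4564743779) (nat_lit 18) (nat_lit 5) (nat_lit 20) (nat_lit 5) (nat_lit 21) (nat_lit 4) (nat_lit 351) (nat_lit 271) (nat_lit 239)) (XT.nd (nat_lit 94) (nat_lit 0) (nat_lit 0) (XT.lf (nat_lit 0) (nat_lit 4372320839) (nat_lit 168) (nat_lit 7911307861) (nat_lit 252) (nat_lit 2636452723) (nat_lit 18) (nat_lit 5) (nat_lit 20) (nat_lit 5) (nat_lit 21) (nat_lit 4) (nat_lit 352) (nat_lit 271) (nat_lit 238)) (XT.lf (nat_lit 0) (nat_lit 8708672642) (nat_lit 168) (nat_lit 5885239389) (nat_lit 252) (nat_lit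 687492408) (nat_lit 18) (nat_lit 5) (nat_lit 20) (nat_lit 5) (nat_lit 21) (nat_lit 4) (nat_lit 353) (nat_lit 271) (nat_lit 237)))) (XT.nd (nat_lit 94) (nat_lit 168) (nat_lit 0) (XT.lf (nat_lit 0) (nat_lit 1258084992) (nat_lit 252) (nat_lit 2541207254) (nat_lit 84) (nat_lit 11855518266) (nat_lit 17) (nat_lit 5) (nat_lit 20) (nat_lit 5) (nat_lit 18) (nat_lit 5) (nat_lit 354) (nat_lit 271) (nat_lit 236)) (XT.nd (nat_lit 94) (nat_lit 0) (nat_lit 0) (XT.lf (nat_lit 0) (nat_lit 1588258265) (nat_lit 168) (nat_lit 1641141832) (nat_lit 252) (nat_lit 12810935486) (nat_lit 15) (nat_lit 5) (nat_lit 17) (nat_lit 5) (nat_lit 18) (nat_lit 5) (nat_lit 355) (nat_lit 271) (nat_lit 235)) (XT.lf (nat_lit 0) (nat_lit 5258779186) (nat_lit 252) (nat_lit 10595991485) (nat_lit 84) (nat_lit 583263991) (nat_lit 15) (nat_lit 5) (nat_lit 18) (nat_lit 5) (nat_lit 16) (nat_lit 4) (nat_lit 356) (nat_lit 271) (nat_lit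 234)))))) (XT.nd (nat_lit 564) (nat_lit 252) (nat_lit 0) (XT.nd (nat_lit 282) (nat_lit 0) (nat_lit 0) (XT.nd (nat_lit 94) (nat_lit 168) (nat_lit 0) (XT.lf (nat_lit 0) (nat_lit 7333289996) (nat_lit 252) (nat_lit 6688119562) (nat_lit 84) (nat_lit 2827328430) (nat_lit 15) (nat_lit 5) (nat_lit 18) (nat_lit 5) (nat_lit 16) (nat_lit 4) (nat_lit 357) (nat_lit 271) (nat_lit 233)) (XT.nd (nat_lit 94) (nat_lit 168) (nat_lit 0) (XT.lf (nat_lit 0) (nat_lit 9438585858) (nat_lit 252) (nat_lit 2708538672) (nat_lit 84) (nat_lit 5126208537) (nat_lit 15) (nat_lit 5) (nat_lit 18) (nat_lit 5) (nat_lit 16) (nat_lit 4) (nat_lit 358) (nat_lit 271) (nat_lit 232)) (XT.lf (nat_lit 0) (nat_lit 1374146560) (nat_lit 168) (nat_lit 10216114271) (nat_lit 252) (nat_lit 6121532253) (nat_lit 13) (nat_lit 5) (nat_lit 15) (nat_lit 5) (nat_lit 16) (nat_lit 4) (nat_lit 359) (nat_lit 271) (nat_lit 231)))) (XT.nd (nat_lit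 94) (nat_lit 0) (nat_lit 0) (XT.lf (nat_lit 0) (nat_lit 5593351415) (nat_lit 168) (nat_lit 8211548011) (nat_lit 252) (nat_lit 4359175360) (nat_lit 13) (nat_lit 5) (nat_lit 15) (nat_lit 5) (nat_lit 16) (nat_lit 4) (nat_lit 360) (nat_lit 271) (nat_lit 230)) (XT.nd (nat_lit 94) (nat_lit 0) (nat_lit 0) (XT.lf (nat_lit 0) (nat_lit 9897315521) (nat_lit 168) (nat_lit 6159828872) (nat_lit 252) (nat_lit 2574305417) (nat_lit 13) (nat_lit 5) (nat_lit 15) (nat_lit 5) (nat_lit 16) (nat_lit 4) (nat_lit 361) (nat_lit 271) (nat_lit 229)) (XT.lf (nat_lit 0) (nat_lit 14290050624) (nat_lit 168) (nat_lit 4059044437) (nat_lit 252) (nat_lit 765258740) (nat_lit 13) (nat_lit 5) (nat_lit 15) (nat_lit 5) (nat_lit 16) (nat_lit 4) (nat_lit 362) (nat_lit 271) (nat_lit 228))))) (XT.nd (nat_lit 282) (nat_lit 0) (nat_lit 0) (XT.nd (nat_lit 94) (nat_lit 168) (nat_lit 0) (XT.lf (nat_lit 0) (nat_lit 1048099810) (nat_lit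 252) (nat_lit 848196732) (nat_lit 84) (nat_lit 17716611391) (nat_lit 12) (nat_lit 5) (nat_lit 15) (nat_lit 5) (nat_lit 13) (nat_lit 5) (nat_lit 363) (nat_lit 271) (nat_lit 227)) (XT.nd (nat_lit 94) (nat_lit 0) (nat_lit 0) (XT.lf (nat_lit 0) (nat_lit 2909042665) (nat_lit 252) (nat_lit 16863779938) (nat_lit 84) (nat_lit 353724212) (nat_lit 10) (nat_lit 5) (nat_lit 13) (nat_lit 5) (nat_lit 11) (nat_lit 4) (nat_lit 364) (nat_lit 271) (nat_lit 226)) (XT.lf (nat_lit 0) (nat_lit 4827600461) (nat_lit 252) (nat_lit 13199262631) (nat_lit 84) (nat_lit 2629342246) (nat_lit 10) (nat_lit 5) (nat_lit 13) (nat_lit 5) (nat_lit 11) (nat_lit 4) (nat_lit 365) (nat_lit 271) (nat_lit 225)))) (XT.nd (nat_lit 94) (nat_lit 0) (nat_lit 0) (XT.lf (nat_lit 0) (nat_lit 6778074940) (nat_lit 252) (nat_lit 9462944575) (nat_lit 84) (nat_lit 4962209765) (nat_lit 10) (nat_lit 5) (nat_lit 13) (nat_lit 5) (nat_lit 11)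 (nat_lit 4) (nat_lit 366) (nat_lit 271) (nat_lit 224)) (XT.nd (nat_lit 94) (nat_lit 0) (nat_lit 0) (XT.lf (nat_lit 0) (nat_lit 8762284150) (nat_lit 252) (nat_lit 5651343131) (nat_lit 84) (nat_lit 7354501246) (nat_lit 10) (nat_lit 5) (nat_lit 13) (nat_lit 5) (nat_lit 11) (nat_lit 4) (nat_lit 367) (nat_lit 271) (nat_lit 223)) (XT.lf (nat_lit 0) (nat_lit 10782077580) (nat_lit 252) (nat_lit 1760905486) (nat_lit 84) (nat_lit 9808446556) (nat_lit 10) (nat_lit 5) (nat_lit 13) (nat_lit 5) (nat_lit 11) (nat_lit 4) (nat_lit 368) (nat_lit 271) (nat_lit 222))))))))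
noncomputable def xc49 : XT := (XT.nd (nat_lit 2256) (nat_lit 252) (nat_lit 0) (XT.nd (nat_lit 1128) (nat_lit 84) (nat_lit 0) (XT.nd (nat_lit 564) (nat_lit 252) (nat_lit 0) (XT.nd (nat_lit 282) (nat_lit 0) (nat_lit 0) (XT.nd (nat_lit 94) (nat_lit 0) (nat_lit 0) (XT.lf (nat_lit 0) (nat_lit 2257477800) (nat_lit 84) (nat_lit 10604254550) (nat_lit 168) (nat_lit 10091249687) (nat_lit 9) (nat_lit 5) (nat_lit 10) (nat_lit 5) (nat_lit 11) (nat_lit 4) (nat_lit 369) (nat_lit 271) (nat_lit 221)) (XT.nd (nat_lit 94) (nat_lit 0) (nat_lit 0) (XT.lf (nat_lit 0) (nat_lit 6400006312) (nat_lit 84) (nat_lit 8599465206) (nat_lit 168) (nat_lit 8573990138) (nat_lit 9) (nat_lit 5) (nat_lit 10) (nat_lit 5) (nat_lit 11) (nat_lit 4) (nat_lit 370) (nat_lit 271) (nat_lit 220)) (XT.lf (nat_lit 0) (nat_lit 10634333493) (nat_lit 84) (nat_lit 6545126603) (nat_lit 168) (nat_lit 7034539393) (nat_lit 9) (nat_lit 5)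 (nat_lit 10) (nat_lit 5) (nat_lit 11) (nat_lit 4) (nat_lit 371) (nat_lit 271) (nat_lit 219)))) (XT.nd (nat_lit 94) (nat_lit 0) (nat_lit 0) (XT.lf (nat_lit 0) (nat_lit 14964406177) (nat_lit 84) (nat_lit 4439323883) (nat_lit 168) (nat_lit 5471462524) (nat_lit 9) (nat_lit 5) (nat_lit 10) (nat_lit 5) (nat_lit 11) (nat_lit 4) (nat_lit 372) (nat_lit 271) (nat_lit 218)) (XT.nd (nat_lit 94) (nat_lit 0) (nat_lit 0) (XT.lf (nat_lit 0) (nat_lit 19394260448) (nat_lit 84) (nat_lit 2280094216) (nat_lit 168) (nat_lit 3883302577) (nat_lit 9) (nat_lit 5) (nat_lit 10) (nat_lit 5) (nat_lit 11) (nat_lit 4) (nat_lit 373) (nat_lit 271) (nat_lit 217)) (XT.lf (nat_lit 0) (nat_lit 23928025392) (nat_lit 84) (nat_lit 65424975) (nat_lit 168) (nat_lit 2268579222) (nat_lit 9) (nat_lit 5) (nat_lit 10) (nat_lit 5) (nat_lit 11) (nat_lit 4) (nat_lit 374) (nat_lit 271) (nat_lit 216))))) (XT.nd (nat_lit 282) (nat_lit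 0) (nat_lit 0) (XT.nd (nat_lit 94) (nat_lit 84) (nat_lit 0) (XT.lf (nat_lit 0) (nat_lit 1591127228) (nat_lit 168) (nat_lit 24809726975) (nat_lit 168) (nat_lit 586944037) (nat_lit 7) (nat_lit 4) (nat_lit 9) (nat_lit 5) (nat_lit 9) (nat_lit 4) (nat_lit 375) (nat_lit 271) (nat_lit 215)) (XT.nd (nat_lit 94) (nat_lit 0) (nat_lit 0) (XT.lf (nat_lit 0) (nat_lit 1127663323) (nat_lit 252) (nat_lit 22093386008) (nat_lit 84) (nat_lit 4514606880) (nat_lit 6) (nat_lit 5) (nat_lit 9) (nat_lit 5) (nat_lit 7) (nat_lit 4) (nat_lit 376) (nat_lit 271) (nat_lit 214)) (XT.lf (nat_lit 0) (nat_lit 2862539607) (nat_lit 252) (nat_lit 18725902014) (nat_lit 84) (nat_lit 6918775070) (nat_lit 6) (nat_lit 5) (nat_lit 9) (nat_lit 5) (nat_lit 7) (nat_lit 4) (nat_lit 377) (nat_lit 271) (nat_lit 213)))) (XT.nd (nat_lit 94) (nat_lit 0) (nat_lit 0) (XT.lf (nat_lit 0) (nat_lit 4631127514) (nat_lit 252) (nat_lit 15285257624)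 (nat_lit 84) (nat_lit 9386994215) (nat_lit 6) (nat_lit 5) (nat_lit 9) (nat_lit 5) (nat_lit 7) (nat_lit 4) (nat_lit 378) (nat_lit 271) (nat_lit 212)) (XT.nd (nat_lit 94) (nat_lit 0) (nat_lit 0) (XT.lf (nat_lit 0) (nat_lit 6435075555) (nat_lit 252) (nat_lit 11768245799) (nat_lit 84) (nat_lit 11921564953) (nat_lit 6) (nat_lit 5) (nat_lit 9) (nat_lit 5) (nat_lit 7) (nat_lit 4) (nat_lit 379) (nat_lit 271) (nat_lit 211)) (XT.lf (nat_lit 0) (nat_lit 8276065197) (nat_lit 252) (nat_lit 8171588314) (nat_lit 84) (nat_lit 14524849771) (nat_lit 6) (nat_lit 5) (nat_lit 9) (nat_lit 5) (nat_lit 7) (nat_lit 4) (nat_lit 380) (nat_lit 271) (nat_lit 210)))))) (XT.nd (nat_lit 564) (nat_lit 0) (nat_lit 0) (XT.nd (nat_lit 282) (nat_lit 0) (nat_lit 0) (XT.nd (nat_lit 94) (nat_lit 84) (nat_lit 0) (XT.lf (nat_lit 0) (nat_lit 10155812435) (nat_lit 252) (nat_lit 4491932709) (nat_lit 84) (nat_lit 17199275203)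 (nat_lit 6) (nat_lit 5) (nat_lit 9) (nat_lit 5) (nat_lit 7) (nat_lit 4) (nat_lit 381) (nat_lit 271) (nat_lit 209)) (XT.nd (nat_lit 94) (nat_lit 84) (nat_lit 0) (XT.lf (nat_lit 0) (nat_lit 12076069392) (nat_lit 252) (nat_lit 725849158) (nat_lit 84) (nat_lit 19947334093) (nat_lit 6) (nat_lit 5) (nat_lit 9) (nat_lit 5) (nat_lit 7) (nat_lit 4) (nat_lit 382) (nat_lit 271) (nat_lit 208)) (XT.lf (nat_lit 0) (nat_lit 3194535493) (nat_lit 84) (nat_lit 10875780642) (nat_lit 168) (nat_lit 19608742614) (nat_lit 5) (nat_lit 5) (nat_lit 6) (nat_lit 5) (nat_lit 7) (nat_lit 4) (nat_lit 383) (nat_lit 271) (nat_lit 207)))) (XT.nd (nat_lit 94) (nat_lit 0) (nat_lit 0) (XT.lf (nat_lit 0) (nat_lit 7225300859) (nat_lit 84) (nat_lit 8891686429) (nat_lit 168) (nat_lit 18521044203) (nat_lit 5) (nat_lit 5) (nat_lit 6) (nat_lit 5) (nat_lit 7) (nat_lit 4) (nat_lit 384) (nat_lit 271) (nat_lit 206)) (XT.nd (nat_lit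 94) (nat_lit 0) (nat_lit 0) (XT.lf (nat_lit 0) (nat_lit 11355279088) (nat_lit 84) (nat_lit 6855362906) (nat_lit 168) (nat_lit 17416650547) (nat_lit 5) (nat_lit 5) (nat_lit 6) (nat_lit 5) (nat_lit 7) (nat_lit 4) (nat_lit 385) (nat_lit 271) (nat_lit 205)) (XT.lf (nat_lit 0) (nat_lit 15588319752) (nat_lit 84) (nat_lit 4764912005) (nat_lit 168) (nat_lit 16294532234) (nat_lit 5) (nat_lit 5) (nat_lit 6) (nat_lit 5) (nat_lit 7) (nat_lit 4) (nat_lit 386) (nat_lit 271) (nat_lit 204))))) (XT.nd (nat_lit 282) (nat_lit 0) (nat_lit 0) (XT.nd (nat_lit 94) (nat_lit 0) (nat_lit 0) (XT.lf (nat_lit 0) (nat_lit 19928368488) (nat_lit 84) (nat_lit 2618385207) (nat_lit 168) (nat_lit 15153643334) (nat_lit 5) (nat_lit 5) (nat_lit 6) (nat_lit 5) (nat_lit 7) (nat_lit 4) (nat_lit 387) (nat_lit 271) (nat_lit 203)) (XT.nd (nat_lit 94) (nat_lit 0) (nat_lit 0) (XT.lf (nat_lit 0) (nat_lit 24379470676) (nat_lit 84)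 (nat_lit 413781725) (nat_lit 168) (nat_lit 13992920417) (nat_lit 5) (nat_lit 5) (nat_lit 6) (nat_lit 5) (nat_lit 7) (nat_lit 4) (nat_lit 388) (nat_lit 271) (nat_lit 202)) (XT.lf (nat_lit 0) (nat_lit 27113183534) (nat_lit 168) (nat_lit 10978689892) (nat_lit 0) (nat_lit 1813660778) (nat_lit 5) (nat_lit 5) (nat_lit 7) (nat_lit 4) (nat_lit 5) (nat_lit 4) (nat_lit 389) (nat_lit 271) (nat_lit 201)))) (XT.nd (nat_lit 94) (nat_lit 0) (nat_lit 0) (XT.lf (nat_lit 0) (nat_lit 29495052930) (nat_lit 168) (nat_lit 7471139943) (nat_lit 0) (nat_lit 4093755028) (nat_lit 5) (nat_lit 5) (nat_lit 7) (nat_lit 4) (nat_lit 5) (nat_lit 4) (nat_lit 390) (nat_lit 271) (nat_lit 200)) (XT.nd (nat_lit 94) (nat_lit 0) (nat_lit 0) (XT.lf (nat_lit 0) (nat_lit 31936975975) (nat_lit 168) (nat_lit 3876678126) (nat_lit 0) (nat_lit 6436963093) (nat_lit 5) (nat_lit 5) (nat_lit 7) (nat_lit 4) (nat_lit 5) (nat_lit 4) (nat_lit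 391) (nat_lit 271) (nat_lit 199)) (XT.lf (nat_lit 0) (nat_lit 34441228798) (nat_lit 168) (nat_lit 191954025) (nat_lit 0) (nat_lit 8845469087) (nat_lit 5) (nat_lit 5) (nat_lit 7) (nat_lit 4) (nat_lit 5) (nat_lit 4) (nat_lit 392) (nat_lit 271) (nat_lit 198))))))) (XT.nd (nat_lit 1128) (nat_lit 84) (nat_lit 0) (XT.nd (nat_lit 564) (nat_lit 84) (nat_lit 0) (XT.nd (nat_lit 282) (nat_lit 0) (nat_lit 0) (XT.nd (nat_lit 94) (nat_lit 0) (nat_lit 0) (XT.lf (nat_lit 0) (nat_lit 3660212024) (nat_lit 84) (nat_lit 33386243357) (nat_lit 84) (nat_lit 7697615722) (nat_lit 4) (nat_lit 4) (nat_lit 5) (nat_lit 5) (nat_lit 5) (nat_lit 4) (nat_lit 393) (nat_lit 271) (nat_lit 197)) (XT.nd (nat_lit 94) (nat_lit 0) (nat_lit 0) (XT.lf (nat_lit 0) (nat_lit 7615542774) (nat_lit 84) (nat_lit 32106125307) (nat_lit 84) (nat_lit 6327422092) (nat_lit 4) (nat_lit 4) (nat_lit 5) (nat_lit 5) (nat_lit 5) (nat_lit 4) (nat_lit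 394) (nat_lit 271) (nat_lit 196)) (XT.lf (nat_lit 0) (nat_lit 11673778040) (nat_lit 84) (nat_lit 30793639075) (nat_lit 84) (nat_lit 4927568662) (nat_lit 4) (nat_lit 4) (nat_lit 5) (nat_lit 5) (nat_lit 5) (nat_lit 4) (nat_lit 395) (nat_lit 271) (nat_lit 195)))) (XT.nd (nat_lit 94) (nat_lit 0) (nat_lit 0) (XT.lf (nat_lit 0) (nat_lit 15838700522) (nat_lit 84) (nat_lit 29447561286) (nat_lit 84) (nat_lit 3496750624) (nat_lit 4) (nat_lit 4) (nat_lit 5) (nat_lit 5) (nat_lit 5) (nat_lit 4) (nat_lit 396) (nat_lit 271) (nat_lit 194)) (XT.nd (nat_lit 94) (nat_lit 0) (nat_lit 0) (XT.lf (nat_lit 0) (nat_lit 20114192364) (nat_lit 84) (nat_lit 28066637256) (nat_lit 84) (nat_lit 2033634305) (nat_lit 4) (nat_lit 4) (nat_lit 5) (nat_lit 5) (nat_lit 5) (nat_lit 4) (nat_lit 397) (nat_lit 271) (nat_lit 193)) (XT.lf (nat_lit 0) (nat_lit 24504238772) (nat_lit 84) (nat_lit 26649579818) (nat_lit 84) (nat_lit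 536855928) (nat_lit 4) (nat_lit 4) (nat_lit 5) (nat_lit 5) (nat_lit 5) (nat_lit 4) (nat_lit 398) (nat_lit 271) (nat_lit 192))))) (XT.nd (nat_lit 282) (nat_lit 0) (nat_lit 0) (XT.nd (nat_lit 94) (nat_lit 0) (nat_lit 0) (XT.lf (nat_lit 0) (nat_lit 974933039) (nat_lit 168) (nat_lit 24209958785) (nat_lit 84) (nat_lit 28027822389) (nat_lit 3) (nat_lit 5) (nat_lit 5) (nat_lit 5) (nat_lit 4) (nat_lit 4) (nat_lit 399) (nat_lit 271) (nat_lit 191)) (XT.nd (nat_lit 94) (nat_lit 0) (nat_lit 0) (XT.lf (nat_lit 0) (nat_lit 2511655508) (nat_lit 168) (nat_lit 21163874383) (nat_lit 84) (nat_lit 31106601770) (nat_lit 3) (nat_lit 5) (nat_lit 5) (nat_lit 5) (nat_lit 4) (nat_lit 4) (nat_lit 400) (nat_lit 271) (nat_lit 190)) (XT.lf (nat_lit 0) (nat_lit 4085560315) (nat_lit 168) (nat_lit 18040017592) (nat_lit 84) (nat_lit 34274976911) (nat_lit 3) (nat_lit 5) (nat_lit 5) (nat_lit 5) (nat_lit 4) (nat_lit 4)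 (nat_lit 401) (nat_lit 271) (nat_lit 189)))) (XT.nd (nat_lit 94) (nat_lit 0) (nat_lit 0) (XT.lf (nat_lit 0) (nat_lit 5698114504) (nat_lit 168) (nat_lit 14835476650) (nat_lit 84) (nat_lit 37535901071) (nat_lit 3) (nat_lit 5) (nat_lit 5) (nat_lit 5) (nat_lit 4) (nat_lit 4) (nat_lit 402) (nat_lit 271) (nat_lit 188)) (XT.nd (nat_lit 94) (nat_lit 0) (nat_lit 0) (XT.lf (nat_lit 0) (nat_lit 7350821145) (nat_lit 168) (nat_lit 11547264590) (nat_lit 84) (nat_lit 40892413771) (nat_lit 3) (nat_lit 5) (nat_lit 5) (nat_lit 5) (nat_lit 4) (nat_lit 4) (nat_lit 403) (nat_lit 271) (nat_lit 187)) (XT.lf (nat_lit 0) (nat_lit 9045220733) (nat_lit 168) (nat_lit 8172316454) (nat_lit 84) (nat_lit 44347643633) (nat_lit 3) (nat_lit 5) (nat_lit 5) (nat_lit 5) (nat_lit 4) (nat_lit 4) (nat_lit 404) (nat_lit 271) (nat_lit 186)))))) (XT.nd (nat_lit 564) (nat_lit 0) (nat_lit 0) (XT.nd (nat_lit 282) (nat_lit 0) (nat_lit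 0) (XT.nd (nat_lit 94) (nat_lit 84) (nat_lit 0) (XT.lf (nat_lit 0) (nat_lit 10782892627) (nat_lit 168) (nat_lit 4707486436) (nat_lit 84) (nat_lit 47904811294) (nat_lit 3) (nat_lit 5) (nat_lit 5) (nat_lit 5) (nat_lit 4) (nat_lit 4) (nat_lit 405) (nat_lit 271) (nat_lit 185)) (XT.nd (nat_lit 94) (nat_lit 84) (nat_lit 0) (XT.lf (nat_lit 0) (nat_lit 12565456518) (nat_lit 168) (nat_lit 1149544952) (nat_lit 84) (nat_lit 51567232407) (nat_lit 3) (nat_lit 5) (nat_lit 5) (nat_lit 5) (nat_lit 4) (nat_lit 4) (nat_lit 406) (nat_lit 271) (nat_lit 184)) (XT.lf (nat_lit 0) (nat_lit 2556328698) (nat_lit 84) (nat_lit 11863604341) (nat_lit 168) (nat_lit 52807351129) (nat_lit 2) (nat_lit 5) (nat_lit 3) (nat_lit 5) (nat_lit 4) (nat_lit 4) (nat_lit 407) (nat_lit 271) (nat_lit 183)))) (XT.nd (nat_lit 94) (nat_lit 0) (nat_lit 0) (XT.lf (nat_lit 0) (nat_lit 6387726239) (nat_lit 84) (nat_lit 9947590626) (nat_lit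 168) (nat_lit 52897232110) (nat_lit 2) (nat_lit 5) (nat_lit 3) (nat_lit 5) (nat_lit 4) (nat_lit 4) (nat_lit 408) (nat_lit 271) (nat_lit 182)) (XT.nd (nat_lit 94) (nat_lit 0) (nat_lit 0) (XT.lf (nat_lit 0) (nat_lit 10324581934) (nat_lit 84) (nat_lit 7977173289) (nat_lit 168) (nat_lit 52998502972) (nat_lit 2) (nat_lit 5) (nat_lit 3) (nat_lit 5) (nat_lit 4) (nat_lit 4) (nat_lit 409) (nat_lit 271) (nat_lit 181)) (XT.lf (nat_lit 0) (nat_lit 14370565343) (nat_lit 84) (nat_lit 5950515695) (nat_lit 168) (nat_lit 53111258109) (nat_lit 2) (nat_lit 5) (nat_lit 3) (nat_lit 5) (nat_lit 4) (nat_lit 4) (nat_lit 410) (nat_lit 271) (nat_lit 180))))) (XT.nd (nat_lit 45308) (nat_lit 0) (nat_lit 5376) (XT.nd (nat_lit 94) (nat_lit 0) (nat_lit 0) (XT.lf (nat_lit 0) (nat_lit 18529447748) (nat_lit 84) (nat_lit 3865728788) (nat_lit 168) (nat_lit 53235602622) (nat_lit 2) (nat_lit 5) (nat_lit 3) (nat_lit 5)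 (nat_lit 4) (nat_lit 4) (nat_lit 411) (nat_lit 271) (nat_lit 179)) (XT.nd (nat_lit 45120) (nat_lit 0) (nat_lit 6384) (XT.lf (nat_lit 0) (nat_lit 22805105661) (nat_lit 84) (nat_lit 1720869327) (nat_lit 168) (nat_lit 53371652413) (nat_lit 2) (nat_lit 5) (nat_lit 3) (nat_lit 5) (nat_lit 4) (nat_lit 4) (nat_lit 412) (nat_lit 271) (nat_lit 178)) (XT.lf (nat_lit 0) (nat_lit 18470080) (nat_lit 588) (nat_lit 3838280085) (nat_lit 0) (nat_lit 18470080) (nat_lit 78) (nat_lit 5) (nat_lit 85) (nat_lit 4) (nat_lit 78) (nat_lit 4) (nat_lit 317) (nat_lit 272) (nat_lit 272)))) (XT.nd (nat_lit 188) (nat_lit 504) (nat_lit 0) (XT.nd (nat_lit 94) (nat_lit 504) (nat_lit 0) (XT.lf (nat_lit 0) (nat_lit 2642204251) (nat_lit 588) (nat_lit 3769039825) (nat_lit 0) (nat_lit 1435520072) (nat_lit 78) (nat_lit 5) (nat_lit 85) (nat_lit 4) (nat_lit 78) (nat_lit 4) (nat_lit 318) (nat_lit 272) (nat_lit 271)) (XT.lf (nat_lit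 0) (nat_lit 180574964) (nat_lit 504) (nat_lit 5072699978) (nat_lit 504) (nat_lit 2695614074) (nat_lit 72) (nat_lit 4) (nat_lit 78) (nat_lit 5) (nat_lit 78) (nat_lit 4) (nat_lit 319) (nat_lit 272) (nat_lit 270))) (XT.nd (nat_lit 94) (nat_lit 504) (nat_lit 0) (XT.lf (nat_lit 0) (nat_lit 4250689634) (nat_lit 504) (nat_lit 3658688111) (nat_lit 504) (nat_lit 146391998) (nat_lit 72) (nat_lit 4) (nat_lit 78) (nat_lit 5) (nat_lit 78) (nat_lit 4) (nat_lit 320) (nat_lit 272) (nat_lit 269)) (XT.lf (nat_lit 0) (nat_lit 178639889) (nat_lit 420) (nat_lit 2180795280) (nat_lit 504) (nat_lit 5808458805) (nat_lit 66) (nat_lit 5) (nat_lit 71) (nat_lit 5) (nat_lit 72) (nat_lit 4) (nat_lit 321) (nat_lit 272) (nat_lit 268))))))))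
noncomputable def xc50 : XT := (XT.nd (nat_lit 2256) (nat_lit 1260) (nat_lit 0) (XT.nd (nat_lit 1128) (nat_lit 1428) (nat_lit 0) (XT.nd (nat_lit 564) (nat_lit 1176) (nat_lit 0) (XT.nd (nat_lit 282) (nat_lit 420) (nat_lit 0) (XT.nd (nat_lit 94) (nat_lit 504) (nat_lit 0) (XT.lf (nat_lit 0) (nat_lit 4284463425) (nat_lit 420) (nat_lit 622383512) (nat_lit 504) (nat_lit 3378060435) (nat_lit 66) (nat_lit 5) (nat_lit 71) (nat_lit 5) (nat_lit 72) (nat_lit 4) (nat_lit 322) (nat_lit 272) (nat_lit 267)) (XT.nd (nat_lit 94) (nat_lit 84) (nat_lit 0) (XT.lf (nat_lit 0) (nat_lit 22056008) (nat_lit 420) (nat_lit 7450511688) (nat_lit 420) (nat_lit 935282914) (nat_lit 61) (nat_lit 4) (nat_lit 66) (nat_lit 5) (nat_lit 66) (nat_lit 4) (nat_lit 323) (nat_lit 272) (nat_lit 266)) (XT.lf (nat_lit 0) (nat_lit 1529449353) (nat_lit 504) (nat_lit 4383419646) (nat_lit 84) (nat_lit 2622324223) (nat_lit 60) (nat_lit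 5) (nat_lit 66) (nat_lit 5) (nat_lit 61) (nat_lit 4) (nat_lit 324) (nat_lit 272) (nat_lit 265)))) (XT.nd (nat_lit 94) (nat_lit 420) (nat_lit 0) (XT.lf (nat_lit 0) (nat_lit 3982855729) (nat_lit 504) (nat_lit 345752565) (nat_lit 84) (nat_lit 4340081077) (nat_lit 60) (nat_lit 5) (nat_lit 66) (nat_lit 5) (nat_lit 61) (nat_lit 4) (nat_lit 325) (nat_lit 272) (nat_lit 264)) (XT.nd (nat_lit 94) (nat_lit 84) (nat_lit 0) (XT.lf (nat_lit 0) (nat_lit 3817155466) (nat_lit 336) (nat_lit 2666778101) (nat_lit 420) (nat_lit 2323643680) (nat_lit 56) (nat_lit 5) (nat_lit 60) (nat_lit 5) (nat_lit 61) (nat_lit 4) (nat_lit 326) (nat_lit 272) (nat_lit 263)) (XT.lf (nat_lit 0) (nat_lit 47134931) (nat_lit 420) (nat_lit 913126198) (nat_lit 84) (nat_lit 7992760466) (nat_lit 55) (nat_lit 5) (nat_lit 60) (nat_lit 5) (nat_lit 56) (nat_lit 5) (nat_lit 327) (nat_lit 272) (nat_lit 262))))) (XT.nd (nat_lit 282) (nat_lit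 420) (nat_lit 0) (XT.nd (nat_lit 94) (nat_lit 336) (nat_lit 0) (XT.lf (nat_lit 0) (nat_lit 2419790680) (nat_lit 504) (nat_lit 5854956567) (nat_lit 84) (nat_lit 828555330) (nat_lit 50) (nat_lit 5) (nat_lit 56) (nat_lit 5) (nat_lit 51) (nat_lit 4) (nat_lit 328) (nat_lit 272) (nat_lit 261)) (XT.nd (nat_lit 94) (nat_lit 336) (nat_lit 0) (XT.lf (nat_lit 0) (nat_lit 4822469039) (nat_lit 504) (nat_lit 1786509286) (nat_lit 84) (nat_lit 2650943875) (nat_lit 50) (nat_lit 5) (nat_lit 56) (nat_lit 5) (nat_lit 51) (nat_lit 4) (nat_lit 329) (nat_lit 272) (nat_lit 260)) (XT.lf (nat_lit 0) (nat_lit 2381526857) (nat_lit 336) (nat_lit 4880642695) (nat_lit 420) (nat_lit 2160709336) (nat_lit 46) (nat_lit 5) (nat_lit 50) (nat_lit 5) (nat_lit 51) (nat_lit 4) (nat_lit 330) (nat_lit 272) (nat_lit 259)))) (XT.nd (nat_lit 94) (nat_lit 336) (nat_lit 0) (XT.lf (nat_lit 0) (nat_lit 140792875) (nat_lit 420) (nat_lit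 2951020784) (nat_lit 84) (nat_lit 6500621656) (nat_lit 45) (nat_lit 5) (nat_lit 50) (nat_lit 5) (nat_lit 46) (nat_lit 5) (nat_lit 331) (nat_lit 272) (nat_lit 258)) (XT.nd (nat_lit 94) (nat_lit 0) (nat_lit 0) (XT.lf (nat_lit 0) (nat_lit 1195038834) (nat_lit 336) (nat_lit 1226506804) (nat_lit 420) (nat_lit 7346773401) (nat_lit 41) (nat_lit 5) (nat_lit 45) (nat_lit 5) (nat_lit 46) (nat_lit 5) (nat_lit 332) (nat_lit 272) (nat_lit 257)) (XT.lf (nat_lit 0) (nat_lit 4752878894) (nat_lit 420) (nat_lit 4497990384) (nat_lit 84) (nat_lit 699693409) (nat_lit 41) (nat_lit 5) (nat_lit 46) (nat_lit 5) (nat_lit 42) (nat_lit 4) (nat_lit 333) (nat_lit 272) (nat_lit 256)))))) (XT.nd (nat_lit 564) (nat_lit 756) (nat_lit 0) (XT.nd (nat_lit 282) (nat_lit 336) (nat_lit 0) (XT.nd (nat_lit 94) (nat_lit 336) (nat_lit 0) (XT.lf (nat_lit 0) (nat_lit 7112625152) (nat_lit 420) (nat_lit 380929147) (nat_lit 84) (nat_lit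 2646536385) (nat_lit 41) (nat_lit 5) (nat_lit 46) (nat_lit 5) (nat_lit 42) (nat_lit 4) (nat_lit 334) (nat_lit 272) (nat_lit 255)) (XT.nd (nat_lit 94) (nat_lit 84) (nat_lit 0) (XT.lf (nat_lit 0) (nat_lit 3871918668) (nat_lit 252) (nat_lit 5657308087) (nat_lit 336) (nat_lit 807039408) (nat_lit 38) (nat_lit 5) (nat_lit 41) (nat_lit 5) (nat_lit 42) (nat_lit 4) (nat_lit 335) (nat_lit 272) (nat_lit 254)) (XT.lf (nat_lit 0) (nat_lit 1401822178) (nat_lit 336) (nat_lit 2358982473) (nat_lit 84) (nat_lit 6779080284) (nat_lit 37) (nat_lit 5) (nat_lit 41) (nat_lit 5) (nat_lit 38) (nat_lit 5) (nat_lit 336) (nat_lit 272) (nat_lit 253)))) (XT.nd (nat_lit 94) (nat_lit 0) (nat_lit 0) (XT.lf (nat_lit 0) (nat_lit 1833946588) (nat_lit 336) (nat_lit 1793729889) (nat_lit 420) (nat_lit 7123203341) (nat_lit 33) (nat_lit 5) (nat_lit 37) (nat_lit 5) (nat_lit 38) (nat_lit 5) (nat_lit 337) (nat_lit 272) (nat_lit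 252)) (XT.nd (nat_lit 94) (nat_lit 0) (nat_lit 0) (XT.lf (nat_lit 0) (nat_lit 5897584077) (nat_lit 420) (nat_lit 4832760669) (nat_lit 84) (nat_lit 239080422) (nat_lit 33) (nat_lit 5) (nat_lit 38) (nat_lit 5) (nat_lit 34) (nat_lit 4) (nat_lit 338) (nat_lit 272) (nat_lit 251)) (XT.lf (nat_lit 0) (nat_lit 8205624933) (nat_lit 420) (nat_lit 707635467) (nat_lit 84) (nat_lit 2282713402) (nat_lit 33) (nat_lit 5) (nat_lit 38) (nat_lit 5) (nat_lit 34) (nat_lit 4) (nat_lit 339) (nat_lit 272) (nat_lit 250))))) (XT.nd (nat_lit 282) (nat_lit 168) (nat_lit 0) (XT.nd (nat_lit 94) (nat_lit 336) (nat_lit 0) (XT.lf (nat_lit 0) (nat_lit 3551639056) (nat_lit 252) (nat_lit 7019750000) (nat_lit 336) (nat_lit 858807231) (nat_lit 30) (nat_lit 5) (nat_lit 33) (nat_lit 5) (nat_lit 34) (nat_lit 4) (nat_lit 340) (nat_lit 272) (nat_lit 249)) (XT.nd (nat_lit 94) (nat_lit 252) (nat_lit 0) (XT.lf (nat_lit 0) (nat_lit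 1270370777) (nat_lit 336) (nat_lit 3792696188) (nat_lit 84) (nat_lit 6609695552) (nat_lit 29) (nat_lit 5) (nat_lit 33) (nat_lit 5) (nat_lit 30) (nat_lit 5) (nat_lit 341) (nat_lit 272) (nat_lit 248)) (XT.lf (nat_lit 0) (nat_lit 354320085) (nat_lit 252) (nat_lit 3049450724) (nat_lit 336) (nat_lit 8520370222) (nat_lit 26) (nat_lit 5) (nat_lit 29) (nat_lit 5) (nat_lit 30) (nat_lit 5) (nat_lit 342) (nat_lit 272) (nat_lit 247)))) (XT.nd (nat_lit 94) (nat_lit 168) (nat_lit 0) (XT.lf (nat_lit 0) (nat_lit 4647081928) (nat_lit 252) (nat_lit 949154195) (nat_lit 336) (nat_lit 6587492022) (nat_lit 26) (nat_lit 5) (nat_lit 29) (nat_lit 5) (nat_lit 30) (nat_lit 5) (nat_lit 343) (nat_lit 272) (nat_lit 246)) (XT.nd (nat_lit 94) (nat_lit 168) (nat_lit 0) (XT.lf (nat_lit 0) (nat_lit 7823318741) (nat_lit 336) (nat_lit 3453257173) (nat_lit 84) (nat_lit 1176011144) (nat_lit 26) (nat_lit 5) (nat_lit 30)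 (nat_lit 5) (nat_lit 27) (nat_lit 4) (nat_lit 344) (nat_lit 272) (nat_lit 245)) (XT.lf (nat_lit 0) (nat_lit 700255898) (nat_lit 168) (nat_lit 9391790292) (nat_lit 252) (nat_lit 2638768687) (nat_lit 24) (nat_lit 5) (nat_lit 26) (nat_lit 5) (nat_lit 27) (nat_lit 4) (nat_lit 345) (nat_lit 272) (nat_lit 244))))))) (XT.nd (nat_lit 1128) (nat_lit 504) (nat_lit 0) (XT.nd (nat_lit 564) (nat_lit 420) (nat_lit 0) (XT.nd (nat_lit 282) (nat_lit 0) (nat_lit 0) (XT.nd (nat_lit 94) (nat_lit 336) (nat_lit 0) (XT.lf (nat_lit 0) (nat_lit 4995489273) (nat_lit 168) (nat_lit 7428337684) (nat_lit 252) (nat_lit 594245871) (nat_lit 24) (nat_lit 5) (nat_lit 26) (nat_lit 5) (nat_lit 27) (nat_lit 4) (nat_lit 346) (nat_lit 272) (nat_lit 243)) (XT.nd (nat_lit 94) (nat_lit 252) (nat_lit 0) (XT.lf (nat_lit 0) (nat_lit 1440540448) (nat_lit 252) (nat_lit 3964856135) (nat_lit 84) (nat_lit 7909863771) (nat_lit 23) (nat_lit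 5) (nat_lit 26) (nat_lit 5) (nat_lit 24) (nat_lit 5) (nat_lit 347) (nat_lit 272) (nat_lit 242)) (XT.lf (nat_lit 0) (nat_lit 158076847) (nat_lit 252) (nat_lit 3328214160) (nat_lit 336) (nat_lit 10136577923) (nat_lit 20) (nat_lit 5) (nat_lit 23) (nat_lit 5) (nat_lit 24) (nat_lit 5) (nat_lit 348) (nat_lit 272) (nat_lit 241)))) (XT.nd (nat_lit 94) (nat_lit 0) (nat_lit 0) (XT.lf (nat_lit 0) (nat_lit 4435766543) (nat_lit 252) (nat_lit 1160416313) (nat_lit 336) (nat_lit 8343966948) (nat_lit 20) (nat_lit 5) (nat_lit 23) (nat_lit 5) (nat_lit 24) (nat_lit 5) (nat_lit 349) (nat_lit 272) (nat_lit 240)) (XT.nd (nat_lit 94) (nat_lit 0) (nat_lit 0) (XT.lf (nat_lit 0) (nat_lit 7742543793) (nat_lit 336) (nat_lit 5488470207) (nat_lit 84) (nat_lit 1037303517) (nat_lit 20) (nat_lit 5) (nat_lit 24) (nat_lit 5) (nat_lit 21) (nat_lit 4) (nat_lit 350) (nat_lit 272) (nat_lit 239)) (XT.lf (nat_lit 0) (nat_lit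 9928903305) (nat_lit 336) (nat_lit 1414838524) (nat_lit 84) (nat_lit 3263888735) (nat_lit 20) (nat_lit 5) (nat_lit 24) (nat_lit 5) (nat_lit 21) (nat_lit 4) (nat_lit 351) (nat_lit 272) (nat_lit 238))))) (XT.nd (nat_lit 282) (nat_lit 168) (nat_lit 0) (XT.nd (nat_lit 94) (nat_lit 84) (nat_lit 0) (XT.lf (nat_lit 0) (nat_lit 2787992141) (nat_lit 168) (nat_lit 9385452921) (nat_lit 252) (nat_lit 2784459638) (nat_lit 18) (nat_lit 5) (nat_lit 20) (nat_lit 5) (nat_lit 21) (nat_lit 4) (nat_lit 352) (nat_lit 272) (nat_lit 237)) (XT.nd (nat_lit 94) (nat_lit 84) (nat_lit 0) (XT.lf (nat_lit 0) (nat_lit 7098388127) (nat_lit 168) (nat_lit 7367292514) (nat_lit 252) (nat_lit 854175776) (nat_lit 18) (nat_lit 5) (nat_lit 20) (nat_lit 5) (nat_lit 21) (nat_lit 4) (nat_lit 353) (nat_lit 272) (nat_lit 236)) (XT.lf (nat_lit 0) (nat_lit 1077010007) (nat_lit 252) (nat_lit 4213895702) (nat_lit 84) (nat_lit 10403023408)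 (nat_lit 17) (nat_lit 5) (nat_lit 20) (nat_lit 5) (nat_lit 18) (nat_lit 5) (nat_lit 354) (nat_lit 272) (nat_lit 235)))) (XT.nd (nat_lit 94) (nat_lit 168) (nat_lit 0) (XT.lf (nat_lit 0) (nat_lit 3015353179) (nat_lit 252) (nat_lit 141265618) (nat_lit 84) (nat_lit 12923920681) (nat_lit 17) (nat_lit 5) (nat_lit 20) (nat_lit 5) (nat_lit 18) (nat_lit 5) (nat_lit 355) (nat_lit 272) (nat_lit 234)) (XT.nd (nat_lit 94) (nat_lit 0) (nat_lit 0) (XT.lf (nat_lit 0) (nat_lit 4091118528) (nat_lit 168) (nat_lit 929336091) (nat_lit 252) (nat_lit 11458597807) (nat_lit 15) (nat_lit 5) (nat_lit 17) (nat_lit 5) (nat_lit 18) (nat_lit 5) (nat_lit 356) (nat_lit 272) (nat_lit 233)) (XT.lf (nat_lit 0) (nat_lit 7069239760) (nat_lit 252) (nat_lit 8495183104) (nat_lit 84) (nat_lit 1326189803) (nat_lit 15) (nat_lit 5) (nat_lit 18) (nat_lit 5) (nat_lit 16) (nat_lit 4) (nat_lit 357) (nat_lit 272) (nat_lit 232))))))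 (XT.nd (nat_lit 564) (nat_lit 252) (nat_lit 0) (XT.nd (nat_lit 282) (nat_lit 84) (nat_lit 0) (XT.nd (nat_lit 94) (nat_lit 168) (nat_lit 0) (XT.lf (nat_lit 0) (nat_lit 9158525399) (nat_lit 252) (nat_lit 4539210612) (nat_lit 84) (nat_lit 3618025687) (nat_lit 15) (nat_lit 5) (nat_lit 18) (nat_lit 5) (nat_lit 16) (nat_lit 4) (nat_lit 358) (nat_lit 272) (nat_lit 231)) (XT.nd (nat_lit 94) (nat_lit 168) (nat_lit 0) (XT.lf (nat_lit 0) (nat_lit 11281039841) (nat_lit 252) (nat_lit 507109912) (nat_lit 84) (nat_lit 5967031842) (nat_lit 15) (nat_lit 5) (nat_lit 18) (nat_lit 5) (nat_lit 16) (nat_lit 4) (nat_lit 359) (nat_lit 272) (nat_lit 230)) (XT.lf (nat_lit 0) (nat_lit 3679001007) (nat_lit 168) (nat_lit 9796256628) (nat_lit 252) (nat_lit 4732892925) (nat_lit 13) (nat_lit 5) (nat_lit 15) (nat_lit 5) (nat_lit 16) (nat_lit 4) (nat_lit 360) (nat_lit 272) (nat_lit 229)))) (XT.nd (nat_lit 94) (nat_lit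 84) (nat_lit 0) (XT.lf (nat_lit 0) (nat_lit 7960979938) (nat_lit 168) (nat_lit 7751695538) (nat_lit 252) (nat_lit 2963362339) (nat_lit 13) (nat_lit 5) (nat_lit 15) (nat_lit 5) (nat_lit 16) (nat_lit 4) (nat_lit 361) (nat_lit 272) (nat_lit 228)) (XT.nd (nat_lit 94) (nat_lit 84) (nat_lit 0) (XT.lf (nat_lit 0) (nat_lit 12332390915) (nat_lit 168) (nat_lit 5657853925) (nat_lit 252) (nat_lit 1169193796) (nat_lit 13) (nat_lit 5) (nat_lit 15) (nat_lit 5) (nat_lit 16) (nat_lit 4) (nat_lit 362) (nat_lit 272) (nat_lit 227)) (XT.lf (nat_lit 0) (nat_lit 638163113) (nat_lit 252) (nat_lit 2867955880) (nat_lit 84) (nat_lit 16152484322) (nat_lit 12) (nat_lit 5) (nat_lit 15) (nat_lit 5) (nat_lit 13) (nat_lit 5) (nat_lit 363) (nat_lit 272) (nat_lit 226))))) (XT.nd (nat_lit 282) (nat_lit 84) (nat_lit 0) (XT.nd (nat_lit 94) (nat_lit 0) (nat_lit 0) (XT.lf (nat_lit 0) (nat_lit 1184360629) (nat_lit 168) (nat_lit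 1276794654) (nat_lit 252) (nat_lit 17712309931) (nat_lit 10) (nat_lit 5) (nat_lit 12) (nat_lit 5) (nat_lit 13) (nat_lit 5) (nat_lit 364) (nat_lit 272) (nat_lit 225)) (XT.nd (nat_lit 94) (nat_lit 0) (nat_lit 0) (XT.lf (nat_lit 0) (nat_lit 4353478133) (nat_lit 252) (nat_lit 15332501961) (nat_lit 84) (nat_lit 1018002070) (nat_lit 10) (nat_lit 5) (nat_lit 13) (nat_lit 5) (nat_lit 11) (nat_lit 4) (nat_lit 365) (nat_lit 272) (nat_lit 224)) (XT.lf (nat_lit 0) (nat_lit 6290791618) (nat_lit 252) (nat_lit 11616145732) (nat_lit 84) (nat_lit 3344520534) (nat_lit 10) (nat_lit 5) (nat_lit 13) (nat_lit 5) (nat_lit 11) (nat_lit 4) (nat_lit 366) (nat_lit 272) (nat_lit 223)))) (XT.nd (nat_lit 188) (nat_lit 84) (nat_lit 0) (XT.nd (nat_lit 94) (nat_lit 0) (nat_lit 0) (XT.lf (nat_lit 0) (nat_lit 8262235557) (nat_lit 252) (nat_lit 7823905905) (nat_lit 84) (nat_lit 5730653863) (nat_lit 10) (nat_lit 5) (nat_lit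 13) (nat_lit 5) (nat_lit 11) (nat_lit 4) (nat_lit 367) (nat_lit 272) (nat_lit 222)) (XT.lf (nat_lit 0) (nat_lit 10269647542) (nat_lit 252) (nat_lit 3952247715) (nat_lit 84) (nat_lit 8178626183) (nat_lit 10) (nat_lit 5) (nat_lit 13) (nat_lit 5) (nat_lit 11) (nat_lit 4) (nat_lit 368) (nat_lit 272) (nat_lit 221))) (XT.nd (nat_lit 94) (nat_lit 0) (nat_lit 0) (XT.lf (nat_lit 0) (nat_lit 2487752) (nat_lit 84) (nat_lit 12312435618) (nat_lit 168) (nat_lit 10688256187) (nat_lit 9) (nat_lit 5) (nat_lit 10) (nat_lit 5) (nat_lit 11) (nat_lit 4) (nat_lit 369) (nat_lit 272) (nat_lit 220)) (XT.lf (nat_lit 0) (nat_lit 4126985877) (nat_lit 84) (nat_lit 10313849726) (nat_lit 168) (nat_lit 9183228962) (nat_lit 9) (nat_lit 5) (nat_lit 10) (nat_lit 5) (nat_lit 11) (nat_lit 4) (nat_lit 370) (nat_lit 272) (nat_lit 219))))))))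
noncomputable def xc51 : XT := (XT.nd (nat_lit 2256) (nat_lit 168) (nat_lit 0) (XT.nd (nat_lit 1128) (nat_lit 168) (nat_lit 0) (XT.nd (nat_lit 564) (nat_lit 0) (nat_lit 0) (XT.nd (nat_lit 282) (nat_lit 252) (nat_lit 0) (XT.nd (nat_lit 94) (nat_lit 0) (nat_lit 0) (XT.lf (nat_lit 0) (nat_lit 8343824807) (nat_lit 84) (nat_lit 8265528050) (nat_lit 168) (nat_lit 7655642741) (nat_lit 9) (nat_lit 5) (nat_lit 10) (nat_lit 5) (nat_lit 11) (nat_lit 4) (nat_lit 371) (nat_lit 272) (nat_lit 218)) (XT.nd (nat_lit 94) (nat_lit 0) (nat_lit 0) (XT.lf (nat_lit 0) (nat_lit 12656935075) (nat_lit 84) (nat_lit 6165561340) (nat_lit 168) (nat_lit 6104073654) (nat_lit 9) (nat_lit 5) (nat_lit 10) (nat_lit 5) (nat_lit 11) (nat_lit 4) (nat_lit 372) (nat_lit 272) (nat_lit 217)) (XT.lf (nat_lit 0) (nat_lit 17070336953) (nat_lit 84) (nat_lit 4011992208) (nat_lit 168) (nat_lit 4527075475) (nat_lit 9) (nat_lit 5)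 (nat_lit 10) (nat_lit 5) (nat_lit 11) (nat_lit 4) (nat_lit 373) (nat_lit 272) (nat_lit 216)))) (XT.nd (nat_lit 94) (nat_lit 252) (nat_lit 0) (XT.lf (nat_lit 0) (nat_lit 21588144194) (nat_lit 84) (nat_lit 1802813300) (nat_lit 168) (nat_lit 2923178277) (nat_lit 9) (nat_lit 5) (nat_lit 10) (nat_lit 5) (nat_lit 11) (nat_lit 4) (nat_lit 374) (nat_lit 272) (nat_lit 215)) (XT.nd (nat_lit 94) (nat_lit 252) (nat_lit 0) (XT.lf (nat_lit 0) (nat_lit 25755136580) (nat_lit 168) (nat_lit 831455772) (nat_lit 0) (nat_lit 454685305) (nat_lit 9) (nat_lit 5) (nat_lit 11) (nat_lit 4) (nat_lit 9) (nat_lit 4) (nat_lit 375) (nat_lit 272) (nat_lit 214)) (XT.lf (nat_lit 0) (nat_lit 423861772) (nat_lit 252) (nat_lit 24595637753) (nat_lit 84) (nat_lit 2770461865) (nat_lit 6) (nat_lit 5) (nat_lit 9) (nat_lit 5) (nat_lit 7) (nat_lit 4) (nat_lit 376) (nat_lit 272) (nat_lit 213))))) (XT.nd (nat_lit 282) (nat_lit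 0) (nat_lit 0) (XT.nd (nat_lit 94) (nat_lit 0) (nat_lit 0) (XT.lf (nat_lit 0) (nat_lit 2148856450) (nat_lit 252) (nat_lit 21243531212) (nat_lit 84) (nat_lit 5169470892) (nat_lit 6) (nat_lit 5) (nat_lit 9) (nat_lit 5) (nat_lit 7) (nat_lit 4) (nat_lit 377) (nat_lit 272) (nat_lit 212)) (XT.nd (nat_lit 94) (nat_lit 0) (nat_lit 0) (XT.lf (nat_lit 0) (nat_lit 3907859871) (nat_lit 252) (nat_lit 17817801909) (nat_lit 84) (nat_lit 7632686000) (nat_lit 6) (nat_lit 5) (nat_lit 9) (nat_lit 5) (nat_lit 7) (nat_lit 4) (nat_lit 378) (nat_lit 272) (nat_lit 211)) (XT.lf (nat_lit 0) (nat_lit 5702511610) (nat_lit 252) (nat_lit 14315256705) (nat_lit 84) (nat_lit 10162403162) (nat_lit 6) (nat_lit 5) (nat_lit 9) (nat_lit 5) (nat_lit 7) (nat_lit 4) (nat_lit 379) (nat_lit 272) (nat_lit 210)))) (XT.nd (nat_lit 94) (nat_lit 0) (nat_lit 0) (XT.lf (nat_lit 0) (nat_lit 7534484471) (nat_lit 252) (nat_lit 10732630861)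 (nat_lit 84) (nat_lit 12760980341) (nat_lit 6) (nat_lit 5) (nat_lit 9) (nat_lit 5) (nat_lit 7) (nat_lit 4) (nat_lit 380) (nat_lit 272) (nat_lit 209)) (XT.nd (nat_lit 94) (nat_lit 0) (nat_lit 0) (XT.lf (nat_lit 0) (nat_lit 9405486045) (nat_lit 252) (nat_lit 7066584993) (nat_lit 84) (nat_lit 15430839682) (nat_lit 6) (nat_lit 5) (nat_lit 9) (nat_lit 5) (nat_lit 7) (nat_lit 4) (nat_lit 381) (nat_lit 272) (nat_lit 208)) (XT.lf (nat_lit 0) (nat_lit 11317260300) (nat_lit 252) (nat_lit 3313701964) (nat_lit 84) (nat_lit 18174469774) (nat_lit 6) (nat_lit 5) (nat_lit 9) (nat_lit 5) (nat_lit 7) (nat_lit 4) (nat_lit 382) (nat_lit 272) (nat_lit 207)))))) (XT.nd (nat_lit 564) (nat_lit 84) (nat_lit 0) (XT.nd (nat_lit 282) (nat_lit 0) (nat_lit 0) (XT.nd (nat_lit 94) (nat_lit 0) (nat_lit 0) (XT.lf (nat_lit 0) (nat_lit 540404246) (nat_lit 84) (nat_lit 12736545840) (nat_lit 168) (nat_lit 20459384597)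 (nat_lit 5) (nat_lit 5) (nat_lit 6) (nat_lit 5) (nat_lit 7) (nat_lit 4) (nat_lit 383) (nat_lit 272) (nat_lit 206)) (XT.nd (nat_lit 94) (nat_lit 0) (nat_lit 0) (XT.lf (nat_lit 0) (nat_lit 4558495628) (nat_lit 84) (nat_lit 10757019629) (nat_lit 168) (nat_lit 19380067971) (nat_lit 5) (nat_lit 5) (nat_lit 6) (nat_lit 5) (nat_lit 7) (nat_lit 4) (nat_lit 384) (nat_lit 272) (nat_lit 205)) (XT.lf (nat_lit 0) (nat_lit 8676180951) (nat_lit 84) (nat_lit 8725126756) (nat_lit 168) (nat_lit 18283804077) (nat_lit 5) (nat_lit 5) (nat_lit 6) (nat_lit 5) (nat_lit 7) (nat_lit 4) (nat_lit 385) (nat_lit 272) (nat_lit 204)))) (XT.nd (nat_lit 94) (nat_lit 0) (nat_lit 0) (XT.lf (nat_lit 0) (nat_lit 12897298332) (nat_lit 84) (nat_lit 6638973286) (nat_lit 168) (nat_lit 17169571082) (nat_lit 5) (nat_lit 5) (nat_lit 6) (nat_lit 5) (nat_lit 7) (nat_lit 4) (nat_lit 386) (nat_lit 272) (nat_lit 203)) (XT.nd (nat_lit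 94) (nat_lit 0) (nat_lit 0) (XT.lf (nat_lit 0) (nat_lit 17225782293) (nat_lit 84) (nat_lit 4496614703) (nat_lit 168) (nat_lit 16036330404) (nat_lit 5) (nat_lit 5) (nat_lit 6) (nat_lit 5) (nat_lit 7) (nat_lit 4) (nat_lit 387) (nat_lit 272) (nat_lit 202)) (XT.lf (nat_lit 0) (nat_lit 21665667435) (nat_lit 84) (nat_lit 2296054107) (nat_lit 168) (nat_lit 14883025744) (nat_lit 5) (nat_lit 5) (nat_lit 6) (nat_lit 5) (nat_lit 7) (nat_lit 4) (nat_lit 388) (nat_lit 272) (nat_lit 201))))) (XT.nd (nat_lit 282) (nat_lit 84) (nat_lit 0) (XT.nd (nat_lit 94) (nat_lit 0) (nat_lit 0) (XT.lf (nat_lit 0) (nat_lit 26221092195) (nat_lit 84) (nat_lit 35240344) (nat_lit 168) (nat_lit 13708582101) (nat_lit 5) (nat_lit 5) (nat_lit 6) (nat_lit 5) (nat_lit 7) (nat_lit 4) (nat_lit 389) (nat_lit 272) (nat_lit 200)) (XT.nd (nat_lit 94) (nat_lit 0) (nat_lit 0) (XT.lf (nat_lit 0) (nat_lit 28631065394) (nat_lit 168)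 (nat_lit 10246667458) (nat_lit 0) (nat_lit 2241837132) (nat_lit 5) (nat_lit 5) (nat_lit 7) (nat_lit 4) (nat_lit 5) (nat_lit 4) (nat_lit 390) (nat_lit 272) (nat_lit 199)) (XT.lf (nat_lit 0) (nat_lit 31066405555) (nat_lit 168) (nat_lit 6662627123) (nat_lit 0) (nat_lit 4581430464) (nat_lit 5) (nat_lit 5) (nat_lit 7) (nat_lit 4) (nat_lit 5) (nat_lit 4) (nat_lit 391) (nat_lit 272) (nat_lit 198)))) (XT.nd (nat_lit 94) (nat_lit 84) (nat_lit 0) (XT.lf (nat_lit 0) (nat_lit 33564273428) (nat_lit 168) (nat_lit 2988011153) (nat_lit 0) (nat_lit 6986430414) (nat_lit 5) (nat_lit 5) (nat_lit 7) (nat_lit 4) (nat_lit 5) (nat_lit 4) (nat_lit 392) (nat_lit 272) (nat_lit 197)) (XT.nd (nat_lit 94) (nat_lit 0) (nat_lit 0) (XT.lf (nat_lit 0) (nat_lit 796656430) (nat_lit 84) (nat_lit 35338243786) (nat_lit 84) (nat_lit 8670325191) (nat_lit 4) (nat_lit 4) (nat_lit 5) (nat_lit 5) (nat_lit 5) (nat_lit 4) (nat_lit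 393) (nat_lit 272) (nat_lit 196)) (XT.lf (nat_lit 0) (nat_lit 4742282239) (nat_lit 84) (nat_lit 34061727645) (nat_lit 84) (nat_lit 7306441853) (nat_lit 4) (nat_lit 4) (nat_lit 5) (nat_lit 5) (nat_lit 5) (nat_lit 4) (nat_lit 394) (nat_lit 272) (nat_lit 195))))))) (XT.nd (nat_lit 1128) (nat_lit 84) (nat_lit 0) (XT.nd (nat_lit 564) (nat_lit 0) (nat_lit 0) (XT.nd (nat_lit 282) (nat_lit 84) (nat_lit 0) (XT.nd (nat_lit 94) (nat_lit 0) (nat_lit 0) (XT.lf (nat_lit 0) (nat_lit 8791104370) (nat_lit 84) (nat_lit 32752735021) (nat_lit 84) (nat_lit 5912708979) (nat_lit 4) (nat_lit 4) (nat_lit 5) (nat_lit 5) (nat_lit 5) (nat_lit 4) (nat_lit 395) (nat_lit 272) (nat_lit 194)) (XT.nd (nat_lit 94) (nat_lit 0) (nat_lit 0) (XT.lf (nat_lit 0) (nat_lit 12946896750) (nat_lit 84) (nat_lit 31410045794) (nat_lit 84) (nat_lit 4487827464) (nat_lit 4) (nat_lit 4) (nat_lit 5) (nat_lit 5) (nat_lit 5) (nat_lit 4)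 (nat_lit 396) (nat_lit 272) (nat_lit 193)) (XT.lf (nat_lit 0) (nat_lit 17213533012) (nat_lit 84) (nat_lit 30032408439) (nat_lit 84) (nat_lit 3030469169) (nat_lit 4) (nat_lit 4) (nat_lit 5) (nat_lit 5) (nat_lit 5) (nat_lit 4) (nat_lit 397) (nat_lit 272) (nat_lit 192)))) (XT.nd (nat_lit 94) (nat_lit 84) (nat_lit 0) (XT.lf (nat_lit 0) (nat_lit 21594990110) (nat_lit 84) (nat_lit 28618538853) (nat_lit 84) (nat_lit 1539275684) (nat_lit 4) (nat_lit 4) (nat_lit 5) (nat_lit 5) (nat_lit 5) (nat_lit 4) (nat_lit 398) (nat_lit 272) (nat_lit 191)) (XT.nd (nat_lit 94) (nat_lit 84) (nat_lit 0) (XT.lf (nat_lit 0) (nat_lit 26095352020) (nat_lit 84) (nat_lit 27167119161) (nat_lit 84) (nat_lit 12857060) (nat_lit 4) (nat_lit 4) (nat_lit 5) (nat_lit 5) (nat_lit 5) (nat_lit 4) (nat_lit 399) (nat_lit 272) (nat_lit 190)) (XT.lf (nat_lit 0) (nat_lit 1518976217) (nat_lit 168) (nat_lit 24141965273) (nat_lit 84)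 (nat_lit 29183982335) (nat_lit 3) (nat_lit 5) (nat_lit 5) (nat_lit 5) (nat_lit 4) (nat_lit 4) (nat_lit 400) (nat_lit 272) (nat_lit 189))))) (XT.nd (nat_lit 282) (nat_lit 0) (nat_lit 0) (XT.nd (nat_lit 94) (nat_lit 0) (nat_lit 0) (XT.lf (nat_lit 0) (nat_lit 3087887589) (nat_lit 168) (nat_lit 21026062894) (nat_lit 84) (nat_lit 32349565448) (nat_lit 3) (nat_lit 5) (nat_lit 5) (nat_lit 5) (nat_lit 4) (nat_lit 4) (nat_lit 401) (nat_lit 272) (nat_lit 188)) (XT.nd (nat_lit 94) (nat_lit 0) (nat_lit 0) (XT.lf (nat_lit 0) (nat_lit 4695598485) (nat_lit 168) (nat_lit 17829237191) (nat_lit 84) (nat_lit 35607781528) (nat_lit 3) (nat_lit 5) (nat_lit 5) (nat_lit 5) (nat_lit 4) (nat_lit 4) (nat_lit 402) (nat_lit 272) (nat_lit 187)) (XT.lf (nat_lit 0) (nat_lit 6343607461) (nat_lit 168) (nat_lit 14548508390) (nat_lit 84) (nat_lit 38961667576) (nat_lit 3) (nat_lit 5) (nat_lit 5) (nat_lit 5) (nat_lit 4)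 (nat_lit 4) (nat_lit 403) (nat_lit 272) (nat_lit 186)))) (XT.nd (nat_lit 94) (nat_lit 0) (nat_lit 0) (XT.lf (nat_lit 0) (nat_lit 8033450633) (nat_lit 168) (nat_lit 11180818506) (nat_lit 84) (nat_lit 42414349764) (nat_lit 3) (nat_lit 5) (nat_lit 5) (nat_lit 5) (nat_lit 4) (nat_lit 4) (nat_lit 404) (nat_lit 272) (nat_lit 185)) (XT.nd (nat_lit 94) (nat_lit 0) (nat_lit 0) (XT.lf (nat_lit 0) (nat_lit 9766703112) (nat_lit 168) (nat_lit 7723028500) (nat_lit 84) (nat_lit 45969046353) (nat_lit 3) (nat_lit 5) (nat_lit 5) (nat_lit 5) (nat_lit 4) (nat_lit 4) (nat_lit 405) (nat_lit 272) (nat_lit 184)) (XT.lf (nat_lit 0) (nat_lit 11544980470) (nat_lit 168) (nat_lit 4171915350) (nat_lit 84) (nat_lit 49629070694) (nat_lit 3) (nat_lit 5) (nat_lit 5) (nat_lit 5) (nat_lit 4) (nat_lit 4) (nat_lit 406) (nat_lit 272) (nat_lit 183)))))) (XT.nd (nat_lit 45402) (nat_lit 0) (nat_lit 5796) (XT.nd (nat_lit 282)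 (nat_lit 0) (nat_lit 0) (XT.nd (nat_lit 94) (nat_lit 84) (nat_lit 0) (XT.lf (nat_lit 0) (nat_lit 13369940250) (nat_lit 168) (nat_lit 524169045) (nat_lit 84) (nat_lit 53397834312) (nat_lit 3) (nat_lit 5) (nat_lit 5) (nat_lit 5) (nat_lit 4) (nat_lit 4) (nat_lit 407) (nat_lit 272) (nat_lit 182)) (XT.nd (nat_lit 94) (nat_lit 0) (nat_lit 0) (XT.lf (nat_lit 0) (nat_lit 3289894537) (nat_lit 84) (nat_lit 11986025128) (nat_lit 168) (nat_lit 54021591713) (nat_lit 2) (nat_lit 5) (nat_lit 3) (nat_lit 5) (nat_lit 4) (nat_lit 4) (nat_lit 408) (nat_lit 272) (nat_lit 181)) (XT.lf (nat_lit 0) (nat_lit 7220391387) (nat_lit 84) (nat_lit 10017992174) (nat_lit 168) (nat_lit 54126971329) (nat_lit 2) (nat_lit 5) (nat_lit 3) (nat_lit 5) (nat_lit 4) (nat_lit 4) (nat_lit 409) (nat_lit 272) (nat_lit 180)))) (XT.nd (nat_lit 94) (nat_lit 0) (nat_lit 0) (XT.lf (nat_lit 0) (nat_lit 11260207150) (nat_lit 84) (nat_lit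 7993647270) (nat_lit 168) (nat_lit 54243711679) (nat_lit 2) (nat_lit 5) (nat_lit 3) (nat_lit 5) (nat_lit 4) (nat_lit 4) (nat_lit 410) (nat_lit 272) (nat_lit 179)) (XT.nd (nat_lit 94) (nat_lit 0) (nat_lit 0) (XT.lf (nat_lit 0) (nat_lit 15413107356) (nat_lit 84) (nat_lit 5911103514) (nat_lit 168) (nat_lit 54371921577) (nat_lit 2) (nat_lit 5) (nat_lit 3) (nat_lit 5) (nat_lit 4) (nat_lit 4) (nat_lit 411) (nat_lit 272) (nat_lit 178)) (XT.lf (nat_lit 0) (nat_lit 19682962943) (nat_lit 84) (nat_lit 3768419758) (nat_lit 168) (nat_lit 54511720529) (nat_lit 2) (nat_lit 5) (nat_lit 3) (nat_lit 5) (nat_lit 4) (nat_lit 4) (nat_lit 412) (nat_lit 272) (nat_lit 177))))) (XT.nd (nat_lit 282) (nat_lit 588) (nat_lit 0) (XT.nd (nat_lit 94) (nat_lit 1176) (nat_lit 0) (XT.lf (nat_lit 0) (nat_lit 1861156773) (nat_lit 1092) (nat_lit 62017432) (nat_lit 0) (nat_lit 1861156773) (nat_lit 92) (nat_lit 5) (nat_lit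 105) (nat_lit 4) (nat_lit 92) (nat_lit 4) (nat_lit 315) (nat_lit 273) (nat_lit 273)) (XT.nd (nat_lit 94) (nat_lit 588) (nat_lit 0) (XT.lf (nat_lit 0) (nat_lit 3807472987) (nat_lit 588) (nat_lit 2566332195) (nat_lit 588) (nat_lit 1283673974) (nat_lit 85) (nat_lit 4) (nat_lit 92) (nat_lit 5) (nat_lit 92) (nat_lit 4) (nat_lit 316) (nat_lit 273) (nat_lit 272)) (XT.lf (nat_lit 0) (nat_lit 20751798) (nat_lit 504) (nat_lit 1233557117) (nat_lit 588) (nat_lit 6497209493) (nat_lit 78) (nat_lit 5) (nat_lit 84) (nat_lit 5) (nat_lit 85) (nat_lit 4) (nat_lit 317) (nat_lit 273) (nat_lit 271)))) (XT.nd (nat_lit 188) (nat_lit 84) (nat_lit 0) (XT.nd (nat_lit 94) (nat_lit 504) (nat_lit 0) (XT.lf (nat_lit 0) (nat_lit 3809547728) (nat_lit 588) (nat_lit 3851716695) (nat_lit 0) (nat_lit 188370435) (nat_lit 78) (nat_lit 5) (nat_lit 85) (nat_lit 4) (nat_lit 78) (nat_lit 4) (nat_lit 318) (nat_lit 273) (nat_lit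 270)) (XT.lf (nat_lit 0) (nat_lit 55902745) (nat_lit 504) (nat_lit 6326826884) (nat_lit 504) (nat_lit 1570439383) (nat_lit 72) (nat_lit 4) (nat_lit 78) (nat_lit 5) (nat_lit 78) (nat_lit 4) (nat_lit 319) (nat_lit 273) (nat_lit 269))) (XT.nd (nat_lit 94) (nat_lit 0) (nat_lit 0) (XT.lf (nat_lit 0) (nat_lit 922534064) (nat_lit 588) (nat_lit 3983797644) (nat_lit 84) (nat_lit 3154770241) (nat_lit 71) (nat_lit 5) (nat_lit 78) (nat_lit 5) (nat_lit 72) (nat_lit 4) (nat_lit 320) (nat_lit 273) (nat_lit 268)) (XT.lf (nat_lit 0) (nat_lit 3388209620) (nat_lit 588) (nat_lit 43980352) (nat_lit 84) (nat_lit 4742358645) (nat_lit 71) (nat_lit 5) (nat_lit 78) (nat_lit 5) (nat_lit 72) (nat_lit 4) (nat_lit 321) (nat_lit 273) (nat_lit 267))))))))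
noncomputable def xc52 : XT := (XT.nd (nat_lit 2256) (nat_lit 1428) (nat_lit 0) (XT.nd (nat_lit 1128) (nat_lit 1260) (nat_lit 0) (XT.nd (nat_lit 564) (nat_lit 1176) (nat_lit 0) (XT.nd (nat_lit 282) (nat_lit 420) (nat_lit 0) (XT.nd (nat_lit 94) (nat_lit 504) (nat_lit 0) (XT.lf (nat_lit 0) (nat_lit 4022480906) (nat_lit 420) (nat_lit 1877949010) (nat_lit 504) (nat_lit 2392430786) (nat_lit 66) (nat_lit 5) (nat_lit 71) (nat_lit 5) (nat_lit 72) (nat_lit 4) (nat_lit 322) (nat_lit 273) (nat_lit 266)) (XT.nd (nat_lit 94) (nat_lit 420) (nat_lit 0) (XT.lf (nat_lit 0) (nat_lit 5078641) (nat_lit 504) (nat_lit 277233504) (nat_lit 84) (nat_lit 8135043623) (nat_lit 65) (nat_lit 5) (nat_lit 71) (nat_lit 5) (nat_lit 66) (nat_lit 5) (nat_lit 323) (nat_lit 273) (nat_lit 265)) (XT.lf (nat_lit 0) (nat_lit 2411700022) (nat_lit 504) (nat_lit 4743453986) (nat_lit 84) (nat_lit 1390663596) (nat_lit 60) (nat_lit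 5) (nat_lit 66) (nat_lit 5) (nat_lit 61) (nat_lit 4) (nat_lit 324) (nat_lit 273) (nat_lit 264)))) (XT.nd (nat_lit 94) (nat_lit 420) (nat_lit 0) (XT.lf (nat_lit 0) (nat_lit 4832486610) (nat_lit 504) (nat_lit 743617483) (nat_lit 84) (nat_lit 3104404743) (nat_lit 60) (nat_lit 5) (nat_lit 66) (nat_lit 5) (nat_lit 61) (nat_lit 4) (nat_lit 325) (nat_lit 273) (nat_lit 263)) (XT.nd (nat_lit 94) (nat_lit 84) (nat_lit 0) (XT.lf (nat_lit 0) (nat_lit 3373662052) (nat_lit 336) (nat_lit 3923863905) (nat_lit 420) (nat_lit 1523166287) (nat_lit 56) (nat_lit 5) (nat_lit 60) (nat_lit 5) (nat_lit 61) (nat_lit 4) (nat_lit 326) (nat_lit 273) (nat_lit 262)) (XT.lf (nat_lit 0) (nat_lit 799949471) (nat_lit 420) (nat_lit 1414813252) (nat_lit 84) (nat_lit 6752273064) (nat_lit 55) (nat_lit 5) (nat_lit 60) (nat_lit 5) (nat_lit 56) (nat_lit 5) (nat_lit 327) (nat_lit 273) (nat_lit 261))))) (XT.nd (nat_lit 282) (nat_lit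 420) (nat_lit 0) (XT.nd (nat_lit 94) (nat_lit 336) (nat_lit 0) (XT.lf (nat_lit 0) (nat_lit 2708229838) (nat_lit 420) (nat_lit 419956365) (nat_lit 504) (nat_lit 5990670289) (nat_lit 50) (nat_lit 5) (nat_lit 55) (nat_lit 5) (nat_lit 56) (nat_lit 5) (nat_lit 328) (nat_lit 273) (nat_lit 260)) (XT.nd (nat_lit 94) (nat_lit 336) (nat_lit 0) (XT.lf (nat_lit 0) (nat_lit 5496621775) (nat_lit 504) (nat_lit 2374702404) (nat_lit 84) (nat_lit 1405371300) (nat_lit 50) (nat_lit 5) (nat_lit 56) (nat_lit 5) (nat_lit 51) (nat_lit 4) (nat_lit 329) (nat_lit 273) (nat_lit 259)) (XT.lf (nat_lit 0) (nat_lit 1744921674) (nat_lit 336) (nat_lit 6155912990) (nat_lit 420) (nat_lit 1540070713) (nat_lit 46) (nat_lit 5) (nat_lit 50) (nat_lit 5) (nat_lit 51) (nat_lit 4) (nat_lit 330) (nat_lit 273) (nat_lit 258)))) (XT.nd (nat_lit 94) (nat_lit 336) (nat_lit 0) (XT.lf (nat_lit 0) (nat_lit 719843835) (nat_lit 420) (nat_lit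 3647776915) (nat_lit 84) (nat_lit 5243695795) (nat_lit 45) (nat_lit 5) (nat_lit 50) (nat_lit 5) (nat_lit 46) (nat_lit 5) (nat_lit 331) (nat_lit 273) (nat_lit 257)) (XT.nd (nat_lit 94) (nat_lit 0) (nat_lit 0) (XT.lf (nat_lit 0) (nat_lit 448352460) (nat_lit 336) (nat_lit 2516628210) (nat_lit 420) (nat_lit 6823463388) (nat_lit 41) (nat_lit 5) (nat_lit 45) (nat_lit 5) (nat_lit 46) (nat_lit 5) (nat_lit 332) (nat_lit 273) (nat_lit 256)) (XT.lf (nat_lit 0) (nat_lit 4678656308) (nat_lit 336) (nat_lit 582870748) (nat_lit 420) (nat_lit 4710374537) (nat_lit 41) (nat_lit 5) (nat_lit 45) (nat_lit 5) (nat_lit 46) (nat_lit 5) (nat_lit 333) (nat_lit 273) (nat_lit 255)))))) (XT.nd (nat_lit 564) (nat_lit 588) (nat_lit 0) (XT.nd (nat_lit 282) (nat_lit 336) (nat_lit 0) (XT.nd (nat_lit 94) (nat_lit 336) (nat_lit 0) (XT.lf (nat_lit 0) (nat_lit 7588555319) (nat_lit 420) (nat_lit 1204795228) (nat_lit 84)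 (nat_lit 1369224721) (nat_lit 41) (nat_lit 5) (nat_lit 46) (nat_lit 5) (nat_lit 42) (nat_lit 4) (nat_lit 334) (nat_lit 273) (nat_lit 254)) (XT.nd (nat_lit 94) (nat_lit 84) (nat_lit 0) (XT.lf (nat_lit 0) (nat_lit 2997067084) (nat_lit 252) (nat_lit 6973285263) (nat_lit 336) (nat_lit 389604812) (nat_lit 38) (nat_lit 5) (nat_lit 41) (nat_lit 5) (nat_lit 42) (nat_lit 4) (nat_lit 335) (nat_lit 273) (nat_lit 253)) (XT.lf (nat_lit 0) (nat_lit 1784794764) (nat_lit 336) (nat_lit 3295343110) (nat_lit 84) (nat_lit 5484237203) (nat_lit 37) (nat_lit 5) (nat_lit 41) (nat_lit 5) (nat_lit 38) (nat_lit 5) (nat_lit 336) (nat_lit 273) (nat_lit 252)))) (XT.nd (nat_lit 94) (nat_lit 0) (nat_lit 0) (XT.lf (nat_lit 0) (nat_lit 844996350) (nat_lit 336) (nat_lit 3130573889) (nat_lit 420) (nat_lit 6801003478) (nat_lit 33) (nat_lit 5) (nat_lit 37) (nat_lit 5) (nat_lit 38) (nat_lit 5) (nat_lit 337) (nat_lit 273)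 (nat_lit 251)) (XT.nd (nat_lit 94) (nat_lit 0) (nat_lit 0) (XT.lf (nat_lit 0) (nat_lit 5117876012) (nat_lit 336) (nat_lit 1100352047) (nat_lit 420) (nat_lit 4777848566) (nat_lit 33) (nat_lit 5) (nat_lit 37) (nat_lit 5) (nat_lit 38) (nat_lit 5) (nat_lit 338) (nat_lit 273) (nat_lit 250)) (XT.lf (nat_lit 0) (nat_lit 8491198340) (nat_lit 420) (nat_lit 1774305116) (nat_lit 84) (nat_lit 958318414) (nat_lit 33) (nat_lit 5) (nat_lit 38) (nat_lit 5) (nat_lit 34) (nat_lit 4) (nat_lit 339) (nat_lit 273) (nat_lit 249))))) (XT.nd (nat_lit 282) (nat_lit 252) (nat_lit 0) (XT.nd (nat_lit 94) (nat_lit 84) (nat_lit 0) (XT.lf (nat_lit 0) (nat_lit 2431216601) (nat_lit 252) (nat_lit 8391202474) (nat_lit 336) (nat_lit 636802259) (nat_lit 30) (nat_lit 5) (nat_lit 33) (nat_lit 5) (nat_lit 34) (nat_lit 4) (nat_lit 340) (nat_lit 273) (nat_lit 248)) (XT.nd (nat_lit 94) (nat_lit 0) (nat_lit 0) (XT.lf (nat_lit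 0) (nat_lit 1464536055) (nat_lit 336) (nat_lit 4975789455) (nat_lit 84) (nat_lit 5262217999) (nat_lit 29) (nat_lit 5) (nat_lit 33) (nat_lit 5) (nat_lit 30) (nat_lit 5) (nat_lit 341) (nat_lit 273) (nat_lit 247)) (XT.lf (nat_lit 0) (nat_lit 3571756990) (nat_lit 336) (nat_lit 866409951) (nat_lit 84) (nat_lit 7516663479) (nat_lit 29) (nat_lit 5) (nat_lit 33) (nat_lit 5) (nat_lit 30) (nat_lit 5) (nat_lit 342) (nat_lit 273) (nat_lit 246)))) (XT.nd (nat_lit 94) (nat_lit 0) (nat_lit 0) (XT.lf (nat_lit 0) (nat_lit 3378347479) (nat_lit 252) (nat_lit 2354820987) (nat_lit 336) (nat_lit 6482305669) (nat_lit 26) (nat_lit 5) (nat_lit 29) (nat_lit 5) (nat_lit 30) (nat_lit 5) (nat_lit 343) (nat_lit 273) (nat_lit 245)) (XT.nd (nat_lit 94) (nat_lit 0) (nat_lit 0) (XT.lf (nat_lit 0) (nat_lit 7713589064) (nat_lit 252) (nat_lit 213143728) (nat_lit 336) (nat_lit 4558730433) (nat_lit 26) (nat_lit 5) (nat_lit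 29) (nat_lit 5) (nat_lit 30) (nat_lit 5) (nat_lit 344) (nat_lit 273) (nat_lit 244)) (XT.lf (nat_lit 0) (nat_lit 10165363010) (nat_lit 336) (nat_lit 659420768) (nat_lit 84) (nat_lit 1939928647) (nat_lit 26) (nat_lit 5) (nat_lit 30) (nat_lit 5) (nat_lit 27) (nat_lit 4) (nat_lit 345) (nat_lit 273) (nat_lit 243))))))) (XT.nd (nat_lit 1128) (nat_lit 504) (nat_lit 0) (XT.nd (nat_lit 564) (nat_lit 420) (nat_lit 0) (XT.nd (nat_lit 282) (nat_lit 252) (nat_lit 0) (XT.nd (nat_lit 94) (nat_lit 84) (nat_lit 0) (XT.lf (nat_lit 0) (nat_lit 3593482329) (nat_lit 168) (nat_lit 8876296311) (nat_lit 252) (nat_lit 583125769) (nat_lit 24) (nat_lit 5) (nat_lit 26) (nat_lit 5) (nat_lit 27) (nat_lit 4) (nat_lit 346) (nat_lit 273) (nat_lit 242)) (XT.nd (nat_lit 94) (nat_lit 0) (nat_lit 0) (XT.lf (nat_lit 0) (nat_lit 1431082791) (nat_lit 252) (nat_lit 5430210263) (nat_lit 84) (nat_lit 6489507060) (nat_lit 23)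 (nat_lit 5) (nat_lit 26) (nat_lit 5) (nat_lit 24) (nat_lit 5) (nat_lit 347) (nat_lit 273) (nat_lit 241)) (XT.lf (nat_lit 0) (nat_lit 3455523488) (nat_lit 252) (nat_lit 1338013380) (nat_lit 84) (nat_lit 8865610638) (nat_lit 23) (nat_lit 5) (nat_lit 26) (nat_lit 5) (nat_lit 24) (nat_lit 5) (nat_lit 348) (nat_lit 273) (nat_lit 240)))) (XT.nd (nat_lit 94) (nat_lit 0) (nat_lit 0) (XT.lf (nat_lit 0) (nat_lit 2884891741) (nat_lit 252) (nat_lit 2647558737) (nat_lit 336) (nat_lit 8445075670) (nat_lit 20) (nat_lit 5) (nat_lit 23) (nat_lit 5) (nat_lit 24) (nat_lit 5) (nat_lit 349) (nat_lit 273) (nat_lit 239)) (XT.nd (nat_lit 94) (nat_lit 0) (nat_lit 0) (XT.lf (nat_lit 0) (nat_lit 7213347577) (nat_lit 252) (nat_lit 436127277) (nat_lit 336) (nat_lit 6657202020) (nat_lit 20) (nat_lit 5) (nat_lit 23) (nat_lit 5) (nat_lit 24) (nat_lit 5) (nat_lit 350) (nat_lit 273) (nat_lit 238)) (XT.lf (nat_lit 0)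 (nat_lit 9813166164) (nat_lit 336) (nat_lit 3041592462) (nat_lit 84) (nat_lit 1792005374) (nat_lit 20) (nat_lit 5) (nat_lit 24) (nat_lit 5) (nat_lit 21) (nat_lit 4) (nat_lit 351) (nat_lit 273) (nat_lit 237))))) (XT.nd (nat_lit 282) (nat_lit 168) (nat_lit 0) (XT.nd (nat_lit 94) (nat_lit 84) (nat_lit 0) (XT.lf (nat_lit 0) (nat_lit 1101832989) (nat_lit 168) (nat_lit 10921357757) (nat_lit 252) (nat_lit 2974986643) (nat_lit 18) (nat_lit 5) (nat_lit 20) (nat_lit 5) (nat_lit 21) (nat_lit 4) (nat_lit 352) (nat_lit 273) (nat_lit 236)) (XT.nd (nat_lit 94) (nat_lit 84) (nat_lit 0) (XT.lf (nat_lit 0) (nat_lit 5387053594) (nat_lit 168) (nat_lit 8910867636) (nat_lit 252) (nat_lit 1062817672) (nat_lit 18) (nat_lit 5) (nat_lit 20) (nat_lit 5) (nat_lit 21) (nat_lit 4) (nat_lit 353) (nat_lit 273) (nat_lit 235)) (XT.lf (nat_lit 0) (nat_lit 855355566) (nat_lit 252) (nat_lit 5988878537) (nat_lit 84) (nat_lit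 8891238524) (nat_lit 17) (nat_lit 5) (nat_lit 20) (nat_lit 5) (nat_lit 18) (nat_lit 5) (nat_lit 354) (nat_lit 273) (nat_lit 234)))) (XT.nd (nat_lit 94) (nat_lit 168) (nat_lit 0) (XT.lf (nat_lit 0) (nat_lit 2777000180) (nat_lit 252) (nat_lit 1940337272) (nat_lit 84) (nat_lit 11405324456) (nat_lit 17) (nat_lit 5) (nat_lit 20) (nat_lit 5) (nat_lit 18) (nat_lit 5) (nat_lit 355) (nat_lit 273) (nat_lit 233)) (XT.nd (nat_lit 94) (nat_lit 0) (nat_lit 0) (XT.lf (nat_lit 0) (nat_lit 2231209330) (nat_lit 168) (nat_lit 2516245293) (nat_lit 252) (nat_lit 11774853711) (nat_lit 15) (nat_lit 5) (nat_lit 17) (nat_lit 5) (nat_lit 18) (nat_lit 5) (nat_lit 356) (nat_lit 273) (nat_lit 232)) (XT.lf (nat_lit 0) (nat_lit 6526235094) (nat_lit 168) (nat_lit 240639282) (nat_lit 252) (nat_lit 10167962160) (nat_lit 15) (nat_lit 5) (nat_lit 17) (nat_lit 5) (nat_lit 18) (nat_lit 5) (nat_lit 357) (nat_lit 273) (nat_lit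 231)))))) (XT.nd (nat_lit 564) (nat_lit 252) (nat_lit 0) (XT.nd (nat_lit 282) (nat_lit 84) (nat_lit 0) (XT.nd (nat_lit 94) (nat_lit 168) (nat_lit 0) (XT.lf (nat_lit 0) (nat_lit 8838244015) (nat_lit 252) (nat_lit 6473140321) (nat_lit 84) (nat_lit 2049212528) (nat_lit 15) (nat_lit 5) (nat_lit 18) (nat_lit 5) (nat_lit 16) (nat_lit 4) (nat_lit 358) (nat_lit 273) (nat_lit 230)) (XT.nd (nat_lit 94) (nat_lit 168) (nat_lit 0) (XT.lf (nat_lit 0) (nat_lit 10945696546) (nat_lit 252) (nat_lit 2463249653) (nat_lit 84) (nat_lit 4391591700) (nat_lit 15) (nat_lit 5) (nat_lit 18) (nat_lit 5) (nat_lit 16) (nat_lit 4) (nat_lit 359) (nat_lit 273) (nat_lit 229)) (XT.lf (nat_lit 0) (nat_lit 1660653846) (nat_lit 168) (nat_lit 11444629210) (nat_lit 252) (nat_lit 5149349968) (nat_lit 13) (nat_lit 5) (nat_lit 15) (nat_lit 5) (nat_lit 16) (nat_lit 4) (nat_lit 360) (nat_lit 273) (nat_lit 228)))) (XT.nd (nat_lit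 94) (nat_lit 84) (nat_lit 0) (XT.lf (nat_lit 0) (nat_lit 5921308650) (nat_lit 168) (nat_lit 9407010942) (nat_lit 252) (nat_lit 3394697516) (nat_lit 13) (nat_lit 5) (nat_lit 15) (nat_lit 5) (nat_lit 16) (nat_lit 4) (nat_lit 361) (nat_lit 273) (nat_lit 227)) (XT.nd (nat_lit 94) (nat_lit 84) (nat_lit 0) (XT.lf (nat_lit 0) (nat_lit 10272036672) (nat_lit 168) (nat_lit 7319903394) (nat_lit 252) (nat_lit 1614959754) (nat_lit 13) (nat_lit 5) (nat_lit 15) (nat_lit 5) (nat_lit 16) (nat_lit 4) (nat_lit 362) (nat_lit 273) (nat_lit 226)) (XT.lf (nat_lit 0) (nat_lit 187663475) (nat_lit 252) (nat_lit 4991738866) (nat_lit 84) (nat_lit 14527270947) (nat_lit 12) (nat_lit 5) (nat_lit 15) (nat_lit 5) (nat_lit 13) (nat_lit 5) (nat_lit 363) (nat_lit 273) (nat_lit 225))))) (XT.nd (nat_lit 282) (nat_lit 84) (nat_lit 0) (XT.nd (nat_lit 94) (nat_lit 168) (nat_lit 0) (XT.lf (nat_lit 0) (nat_lit 1985604147) (nat_lit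 252) (nat_lit 983061123) (nat_lit 84) (nat_lit 17253691657) (nat_lit 12) (nat_lit 5) (nat_lit 15) (nat_lit 5) (nat_lit 13) (nat_lit 5) (nat_lit 364) (nat_lit 273) (nat_lit 224)) (XT.nd (nat_lit 94) (nat_lit 0) (nat_lit 0) (XT.lf (nat_lit 0) (nat_lit 3174894231) (nat_lit 168) (nat_lit 669677082) (nat_lit 252) (nat_lit 16909380378) (nat_lit 10) (nat_lit 5) (nat_lit 12) (nat_lit 5) (nat_lit 13) (nat_lit 5) (nat_lit 365) (nat_lit 273) (nat_lit 223)) (XT.lf (nat_lit 0) (nat_lit 5762476249) (nat_lit 252) (nat_lit 13875419569) (nat_lit 84) (nat_lit 1664175730) (nat_lit 10) (nat_lit 5) (nat_lit 13) (nat_lit 5) (nat_lit 11) (nat_lit 4) (nat_lit 366) (nat_lit 273) (nat_lit 222)))) (XT.nd (nat_lit 188) (nat_lit 84) (nat_lit 0) (XT.nd (nat_lit 94) (nat_lit 0) (nat_lit 0) (XT.lf (nat_lit 0) (nat_lit 7721538742) (nat_lit 252) (nat_lit 10101959197) (nat_lit 84) (nat_lit 4044336069) (nat_lit 10) (nat_lit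 5) (nat_lit 13) (nat_lit 5) (nat_lit 11) (nat_lit 4) (nat_lit 367) (nat_lit 273) (nat_lit 221)) (XT.lf (nat_lit 0) (nat_lit 9716941565) (nat_lit 252) (nat_lit 6248515802) (nat_lit 84) (nat_lit 6486514994) (nat_lit 10) (nat_lit 5) (nat_lit 13) (nat_lit 5) (nat_lit 11) (nat_lit 4) (nat_lit 368) (nat_lit 273) (nat_lit 220))) (XT.nd (nat_lit 94) (nat_lit 84) (nat_lit 0) (XT.lf (nat_lit 0) (nat_lit 11750544643) (nat_lit 252) (nat_lit 2311497572) (nat_lit 84) (nat_lit 8992988872) (nat_lit 10) (nat_lit 5) (nat_lit 13) (nat_lit 5) (nat_lit 11) (nat_lit 4) (nat_lit 369) (nat_lit 273) (nat_lit 219)) (XT.lf (nat_lit 0) (nat_lit 1747983171) (nat_lit 84) (nat_lit 12093600544) (nat_lit 168) (nat_lit 9835451037) (nat_lit 9) (nat_lit 5) (nat_lit 10) (nat_lit 5) (nat_lit 11) (nat_lit 4) (nat_lit 370) (nat_lit 273) (nat_lit 218))))))))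
noncomputable def xc53 : XT := (XT.nd (nat_lit 2256) (nat_lit 168) (nat_lit 0) (XT.nd (nat_lit 1128) (nat_lit 168) (nat_lit 0) (XT.nd (nat_lit 564) (nat_lit 84) (nat_lit 0) (XT.nd (nat_lit 282) (nat_lit 168) (nat_lit 0) (XT.nd (nat_lit 94) (nat_lit 0) (nat_lit 0) (XT.lf (nat_lit 0) (nat_lit 5947859684) (nat_lit 84) (nat_lit 10051114879) (nat_lit 168) (nat_lit 8319372599) (nat_lit 9) (nat_lit 5) (nat_lit 10) (nat_lit 5) (nat_lit 11) (nat_lit 4) (nat_lit 371) (nat_lit 273) (nat_lit 217)) (XT.nd (nat_lit 94) (nat_lit 0) (nat_lit 0) (XT.lf (nat_lit 0) (nat_lit 10244517560) (nat_lit 84) (nat_lit 7956808704) (nat_lit 168) (nat_lit 6778965279) (nat_lit 9) (nat_lit 5) (nat_lit 10) (nat_lit 5) (nat_lit 11) (nat_lit 4) (nat_lit 372) (nat_lit 273) (nat_lit 216)) (XT.lf (nat_lit 0) (nat_lit 14641961735) (nat_lit 84) (nat_lit 5808729905) (nat_lit 168) (nat_lit 5212793257) (nat_lit 9) (nat_lit 5)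 (nat_lit 10) (nat_lit 5) (nat_lit 11) (nat_lit 4) (nat_lit 373) (nat_lit 273) (nat_lit 215)))) (XT.nd (nat_lit 94) (nat_lit 168) (nat_lit 0) (XT.lf (nat_lit 0) (nat_lit 19144291087) (nat_lit 84) (nat_lit 3604876249) (nat_lit 168) (nat_lit 3619396697) (nat_lit 9) (nat_lit 5) (nat_lit 10) (nat_lit 5) (nat_lit 11) (nat_lit 4) (nat_lit 374) (nat_lit 273) (nat_lit 214)) (XT.nd (nat_lit 94) (nat_lit 168) (nat_lit 0) (XT.lf (nat_lit 0) (nat_lit 23755702259) (nat_lit 84) (nat_lit 1343193512) (nat_lit 168) (nat_lit 1997290385) (nat_lit 9) (nat_lit 5) (nat_lit 10) (nat_lit 5) (nat_lit 11) (nat_lit 4) (nat_lit 375) (nat_lit 273) (nat_lit 213)) (XT.lf (nat_lit 0) (nat_lit 636583712) (nat_lit 168) (nat_lit 26881504528) (nat_lit 168) (nat_lit 328444594) (nat_lit 7) (nat_lit 4) (nat_lit 9) (nat_lit 5) (nat_lit 9) (nat_lit 4) (nat_lit 376) (nat_lit 273) (nat_lit 212))))) (XT.nd (nat_lit 282) (nat_lit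 0) (nat_lit 0) (XT.nd (nat_lit 94) (nat_lit 0) (nat_lit 0) (XT.lf (nat_lit 0) (nat_lit 1393583024) (nat_lit 252) (nat_lit 23869499457) (nat_lit 84) (nat_lit 3355775086) (nat_lit 6) (nat_lit 5) (nat_lit 9) (nat_lit 5) (nat_lit 7) (nat_lit 4) (nat_lit 377) (nat_lit 273) (nat_lit 211)) (XT.nd (nat_lit 94) (nat_lit 0) (nat_lit 0) (XT.lf (nat_lit 0) (nat_lit 3143290143) (nat_lit 252) (nat_lit 20458236775) (nat_lit 84) (nat_lit 5814136617) (nat_lit 6) (nat_lit 5) (nat_lit 9) (nat_lit 5) (nat_lit 7) (nat_lit 4) (nat_lit 378) (nat_lit 273) (nat_lit 210)) (XT.lf (nat_lit 0) (nat_lit 4928925102) (nat_lit 252) (nat_lit 16969723210) (nat_lit 84) (nat_lit 8339146140) (nat_lit 6) (nat_lit 5) (nat_lit 9) (nat_lit 5) (nat_lit 7) (nat_lit 4) (nat_lit 379) (nat_lit 273) (nat_lit 209)))) (XT.nd (nat_lit 94) (nat_lit 0) (nat_lit 0) (XT.lf (nat_lit 0) (nat_lit 6752152297) (nat_lit 252) (nat_lit 13400707104)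 (nat_lit 84) (nat_lit 10933157228) (nat_lit 6) (nat_lit 5) (nat_lit 9) (nat_lit 5) (nat_lit 7) (nat_lit 4) (nat_lit 380) (nat_lit 273) (nat_lit 208)) (XT.nd (nat_lit 94) (nat_lit 0) (nat_lit 0) (XT.lf (nat_lit 0) (nat_lit 8614671169) (nat_lit 252) (nat_lit 9747861759) (nat_lit 84) (nat_lit 13598587771) (nat_lit 6) (nat_lit 5) (nat_lit 9) (nat_lit 5) (nat_lit 7) (nat_lit 4) (nat_lit 381) (nat_lit 273) (nat_lit 207)) (XT.lf (nat_lit 0) (nat_lit 10518217779) (nat_lit 252) (nat_lit 6007782340) (nat_lit 84) (nat_lit 16337922229) (nat_lit 6) (nat_lit 5) (nat_lit 9) (nat_lit 5) (nat_lit 7) (nat_lit 4) (nat_lit 382) (nat_lit 273) (nat_lit 206)))))) (XT.nd (nat_lit 564) (nat_lit 84) (nat_lit 0) (XT.nd (nat_lit 282) (nat_lit 0) (nat_lit 0) (XT.nd (nat_lit 94) (nat_lit 84) (nat_lit 0) (XT.lf (nat_lit 0) (nat_lit 12464566433) (nat_lit 252) (nat_lit 2176982702) (nat_lit 84) (nat_lit 19153713950)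 (nat_lit 6) (nat_lit 5) (nat_lit 9) (nat_lit 5) (nat_lit 7) (nat_lit 4) (nat_lit 383) (nat_lit 273) (nat_lit 205)) (XT.nd (nat_lit 94) (nat_lit 0) (nat_lit 0) (XT.lf (nat_lit 0) (nat_lit 1784052544) (nat_lit 84) (nat_lit 12689176809) (nat_lit 168) (nat_lit 20282233023) (nat_lit 5) (nat_lit 5) (nat_lit 6) (nat_lit 5) (nat_lit 7) (nat_lit 4) (nat_lit 384) (nat_lit 273) (nat_lit 204)) (XT.lf (nat_lit 0) (nat_lit 5889814584) (nat_lit 84) (nat_lit 10661581367) (nat_lit 168) (nat_lit 19193854447) (nat_lit 5) (nat_lit 5) (nat_lit 6) (nat_lit 5) (nat_lit 7) (nat_lit 4) (nat_lit 385) (nat_lit 273) (nat_lit 203)))) (XT.nd (nat_lit 94) (nat_lit 0) (nat_lit 0) (XT.lf (nat_lit 0) (nat_lit 10099367190) (nat_lit 84) (nat_lit 8579596112) (nat_lit 168) (nat_lit 18087269674) (nat_lit 5) (nat_lit 5) (nat_lit 6) (nat_lit 5) (nat_lit 7) (nat_lit 4) (nat_lit 386) (nat_lit 273) (nat_lit 202)) (XT.nd (nat_lit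 94) (nat_lit 0) (nat_lit 0) (XT.lf (nat_lit 0) (nat_lit 14416634104) (nat_lit 84) (nat_lit 6441280416) (nat_lit 168) (nat_lit 16961447253) (nat_lit 5) (nat_lit 5) (nat_lit 6) (nat_lit 5) (nat_lit 7) (nat_lit 4) (nat_lit 387) (nat_lit 273) (nat_lit 201)) (XT.lf (nat_lit 0) (nat_lit 18845639472) (nat_lit 84) (nat_lit 4244641145) (nat_lit 168) (nat_lit 15815337798) (nat_lit 5) (nat_lit 5) (nat_lit 6) (nat_lit 5) (nat_lit 7) (nat_lit 4) (nat_lit 388) (nat_lit 273) (nat_lit 200))))) (XT.nd (nat_lit 282) (nat_lit 84) (nat_lit 0) (XT.nd (nat_lit 94) (nat_lit 0) (nat_lit 0) (XT.lf (nat_lit 0) (nat_lit 23390511591) (nat_lit 84) (nat_lit 1987630801) (nat_lit 168) (nat_lit 14647873016) (nat_lit 5) (nat_lit 5) (nat_lit 6) (nat_lit 5) (nat_lit 7) (nat_lit 4) (nat_lit 389) (nat_lit 273) (nat_lit 199)) (XT.nd (nat_lit 94) (nat_lit 0) (nat_lit 0) (XT.lf (nat_lit 0) (nat_lit 27726924407) (nat_lit 168)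 (nat_lit 13129402357) (nat_lit 0) (nat_lit 325168259) (nat_lit 5) (nat_lit 5) (nat_lit 7) (nat_lit 4) (nat_lit 5) (nat_lit 4) (nat_lit 390) (nat_lit 273) (nat_lit 198)) (XT.lf (nat_lit 0) (nat_lit 30155879619) (nat_lit 168) (nat_lit 9555470154) (nat_lit 0) (nat_lit 2661255547) (nat_lit 5) (nat_lit 5) (nat_lit 7) (nat_lit 4) (nat_lit 5) (nat_lit 4) (nat_lit 391) (nat_lit 273) (nat_lit 197)))) (XT.nd (nat_lit 94) (nat_lit 84) (nat_lit 0) (XT.lf (nat_lit 0) (nat_lit 32647554523) (nat_lit 168) (nat_lit 5890658385) (nat_lit 0) (nat_lit 5062854871) (nat_lit 5) (nat_lit 5) (nat_lit 7) (nat_lit 4) (nat_lit 5) (nat_lit 4) (nat_lit 392) (nat_lit 273) (nat_lit 196)) (XT.nd (nat_lit 94) (nat_lit 84) (nat_lit 0) (XT.lf (nat_lit 0) (nat_lit 35204271623) (nat_lit 168) (nat_lit 2131551062) (nat_lit 0) (nat_lit 7532204773) (nat_lit 5) (nat_lit 5) (nat_lit 7) (nat_lit 4) (nat_lit 5) (nat_lit 4) (nat_lit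 393) (nat_lit 273) (nat_lit 195)) (XT.lf (nat_lit 0) (nat_lit 1760832549) (nat_lit 84) (nat_lit 36085049173) (nat_lit 84) (nat_lit 8328242074) (nat_lit 4) (nat_lit 4) (nat_lit 5) (nat_lit 5) (nat_lit 5) (nat_lit 4) (nat_lit 394) (nat_lit 273) (nat_lit 194))))))) (XT.nd (nat_lit 1128) (nat_lit 84) (nat_lit 0) (XT.nd (nat_lit 564) (nat_lit 0) (nat_lit 0) (XT.nd (nat_lit 282) (nat_lit 84) (nat_lit 0) (XT.nd (nat_lit 94) (nat_lit 0) (nat_lit 0) (XT.lf (nat_lit 0) (nat_lit 5800524578) (nat_lit 84) (nat_lit 34779445110) (nat_lit 84) (nat_lit 6940445723) (nat_lit 4) (nat_lit 4) (nat_lit 5) (nat_lit 5) (nat_lit 5) (nat_lit 4) (nat_lit 395) (nat_lit 273) (nat_lit 193)) (XT.nd (nat_lit 94) (nat_lit 0) (nat_lit 0) (XT.lf (nat_lit 0) (nat_lit 9947461379) (nat_lit 84) (nat_lit 33440042559) (nat_lit 84) (nat_lit 5521322232) (nat_lit 4) (nat_lit 4) (nat_lit 5) (nat_lit 5) (nat_lit 5) (nat_lit 4)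 (nat_lit 396) (nat_lit 273) (nat_lit 192)) (XT.lf (nat_lit 0) (nat_lit 14205508332) (nat_lit 84) (nat_lit 32065593056) (nat_lit 84) (nat_lit 4069548830) (nat_lit 4) (nat_lit 4) (nat_lit 5) (nat_lit 5) (nat_lit 5) (nat_lit 4) (nat_lit 397) (nat_lit 273) (nat_lit 191)))) (XT.nd (nat_lit 94) (nat_lit 84) (nat_lit 0) (XT.lf (nat_lit 0) (nat_lit 18578634381) (nat_lit 84) (nat_lit 30654815469) (nat_lit 84) (nat_lit 2583772311) (nat_lit 4) (nat_lit 4) (nat_lit 5) (nat_lit 5) (nat_lit 5) (nat_lit 4) (nat_lit 398) (nat_lit 273) (nat_lit 190)) (XT.nd (nat_lit 94) (nat_lit 84) (nat_lit 0) (XT.lf (nat_lit 0) (nat_lit 23070915740) (nat_lit 84) (nat_lit 29206394807) (nat_lit 84) (nat_lit 1062607777) (nat_lit 4) (nat_lit 4) (nat_lit 5) (nat_lit 5) (nat_lit 5) (nat_lit 4) (nat_lit 399) (nat_lit 273) (nat_lit 189)) (XT.lf (nat_lit 0) (nat_lit 485382202) (nat_lit 168) (nat_lit 27228532392) (nat_lit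 84) (nat_lit 27196091087) (nat_lit 3) (nat_lit 5) (nat_lit 5) (nat_lit 5) (nat_lit 4) (nat_lit 4) (nat_lit 400) (nat_lit 273) (nat_lit 188))))) (XT.nd (nat_lit 282) (nat_lit 0) (nat_lit 0) (XT.nd (nat_lit 94) (nat_lit 0) (nat_lit 0) (XT.lf (nat_lit 0) (nat_lit 2049450281) (nat_lit 168) (nat_lit 24120345251) (nat_lit 84) (nat_lit 30358966120) (nat_lit 3) (nat_lit 5) (nat_lit 5) (nat_lit 5) (nat_lit 4) (nat_lit 4) (nat_lit 401) (nat_lit 273) (nat_lit 187)) (XT.nd (nat_lit 94) (nat_lit 0) (nat_lit 0) (XT.lf (nat_lit 0) (nat_lit 3652463512) (nat_lit 168) (nat_lit 20931002807) (nat_lit 84) (nat_lit 33614555548) (nat_lit 3) (nat_lit 5) (nat_lit 5) (nat_lit 5) (nat_lit 4) (nat_lit 4) (nat_lit 402) (nat_lit 273) (nat_lit 186)) (XT.lf (nat_lit 0) (nat_lit 5295916071) (nat_lit 168) (nat_lit 17657532258) (nat_lit 84) (nat_lit 36965893921) (nat_lit 3) (nat_lit 5) (nat_lit 5) (nat_lit 5) (nat_lit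 4) (nat_lit 4) (nat_lit 403) (nat_lit 273) (nat_lit 185)))) (XT.nd (nat_lit 94) (nat_lit 0) (nat_lit 0) (XT.lf (nat_lit 0) (nat_lit 6981339828) (nat_lit 168) (nat_lit 14296882386) (nat_lit 84) (nat_lit 40416105038) (nat_lit 3) (nat_lit 5) (nat_lit 5) (nat_lit 5) (nat_lit 4) (nat_lit 4) (nat_lit 404) (nat_lit 273) (nat_lit 184)) (XT.nd (nat_lit 94) (nat_lit 0) (nat_lit 0) (XT.lf (nat_lit 0) (nat_lit 8710305775) (nat_lit 168) (nat_lit 10845920714) (nat_lit 84) (nat_lit 43968404855) (nat_lit 3) (nat_lit 5) (nat_lit 5) (nat_lit 5) (nat_lit 4) (nat_lit 4) (nat_lit 405) (nat_lit 273) (nat_lit 183)) (XT.lf (nat_lit 0) (nat_lit 10484425488) (nat_lit 168) (nat_lit 7301430584) (nat_lit 84) (nat_lit 47626104490) (nat_lit 3) (nat_lit 5) (nat_lit 5) (nat_lit 5) (nat_lit 4) (nat_lit 4) (nat_lit 406) (nat_lit 273) (nat_lit 182)))))) (XT.nd (nat_lit 45214) (nat_lit 0) (nat_lit 6384) (XT.nd (nat_lit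 282) (nat_lit 0) (nat_lit 0) (XT.nd (nat_lit 94) (nat_lit 84) (nat_lit 0) (XT.lf (nat_lit 0) (nat_lit 12305352635) (nat_lit 168) (nat_lit 3660108159) (nat_lit 84) (nat_lit 51392613302) (nat_lit 3) (nat_lit 5) (nat_lit 5) (nat_lit 5) (nat_lit 4) (nat_lit 4) (nat_lit 407) (nat_lit 273) (nat_lit 181)) (XT.nd (nat_lit 94) (nat_lit 0) (nat_lit 0) (XT.lf (nat_lit 0) (nat_lit 83115239) (nat_lit 84) (nat_lit 14092493782) (nat_lit 168) (nat_lit 55189151344) (nat_lit 2) (nat_lit 5) (nat_lit 3) (nat_lit 5) (nat_lit 4) (nat_lit 4) (nat_lit 408) (nat_lit 273) (nat_lit 180)) (XT.lf (nat_lit 0) (nat_lit 4007444443) (nat_lit 84) (nat_lit 12126773516) (nat_lit 168) (nat_lit 55298516172) (nat_lit 2) (nat_lit 5) (nat_lit 3) (nat_lit 5) (nat_lit 4) (nat_lit 4) (nat_lit 409) (nat_lit 273) (nat_lit 179)))) (XT.nd (nat_lit 94) (nat_lit 0) (nat_lit 0) (XT.lf (nat_lit 0) (nat_lit 8041278007) (nat_lit 84) (nat_lit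 10104671764) (nat_lit 168) (nat_lit 55419121907) (nat_lit 2) (nat_lit 5) (nat_lit 3) (nat_lit 5) (nat_lit 4) (nat_lit 4) (nat_lit 410) (nat_lit 273) (nat_lit 178)) (XT.nd (nat_lit 94) (nat_lit 0) (nat_lit 0) (XT.lf (nat_lit 0) (nat_lit 12188375887) (nat_lit 84) (nat_lit 8024303712) (nat_lit 168) (nat_lit 55551080967) (nat_lit 2) (nat_lit 5) (nat_lit 3) (nat_lit 5) (nat_lit 4) (nat_lit 4) (nat_lit 411) (nat_lit 273) (nat_lit 177)) (XT.lf (nat_lit 0) (nat_lit 16452603611) (nat_lit 84) (nat_lit 5883730242) (nat_lit 168) (nat_lit 55694516350) (nat_lit 2) (nat_lit 5) (nat_lit 3) (nat_lit 5) (nat_lit 4) (nat_lit 4) (nat_lit 412) (nat_lit 273) (nat_lit 176))))) (XT.nd (nat_lit 282) (nat_lit 1176) (nat_lit 0) (XT.nd (nat_lit 94) (nat_lit 1092) (nat_lit 0) (XT.lf (nat_lit 0) (nat_lit 3565152425) (nat_lit 924) (nat_lit 68348262) (nat_lit 924) (nat_lit 68348262) (nat_lit 105) (nat_lit 4) (nat_lit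 116) (nat_lit 5) (nat_lit 116) (nat_lit 4) (nat_lit 313) (nat_lit 274) (nat_lit 274)) (XT.nd (nat_lit 94) (nat_lit 0) (nat_lit 0) (XT.lf (nat_lit 0) (nat_lit 2433401981) (nat_lit 1092) (nat_lit 3939880962) (nat_lit 0) (nat_lit 1110981355) (nat_lit 92) (nat_lit 5) (nat_lit 105) (nat_lit 4) (nat_lit 92) (nat_lit 4) (nat_lit 314) (nat_lit 274) (nat_lit 273)) (XT.lf (nat_lit 0) (nat_lit 5006052510) (nat_lit 1092) (nat_lit 163100137) (nat_lit 0) (nat_lit 2400973662) (nat_lit 92) (nat_lit 5) (nat_lit 105) (nat_lit 4) (nat_lit 92) (nat_lit 4) (nat_lit 315) (nat_lit 274) (nat_lit 272)))) (XT.nd (nat_lit 188) (nat_lit 504) (nat_lit 0) (XT.nd (nat_lit 94) (nat_lit 84) (nat_lit 0) (XT.lf (nat_lit 0) (nat_lit 3728934680) (nat_lit 588) (nat_lit 3890311772) (nat_lit 588) (nat_lit 41141536) (nat_lit 85) (nat_lit 4) (nat_lit 92) (nat_lit 5) (nat_lit 92) (nat_lit 4) (nat_lit 316) (nat_lit 274) (nat_lit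 271)) (XT.lf (nat_lit 0) (nat_lit 2434218197) (nat_lit 672) (nat_lit 111957254) (nat_lit 84) (nat_lit 5209276945) (nat_lit 84) (nat_lit 5) (nat_lit 92) (nat_lit 5) (nat_lit 85) (nat_lit 4) (nat_lit 317) (nat_lit 274) (nat_lit 270))) (XT.nd (nat_lit 94) (nat_lit 0) (nat_lit 0) (XT.lf (nat_lit 0) (nat_lit 3826745462) (nat_lit 504) (nat_lit 1123033761) (nat_lit 588) (nat_lit 2905254371) (nat_lit 78) (nat_lit 5) (nat_lit 84) (nat_lit 5) (nat_lit 85) (nat_lit 4) (nat_lit 318) (nat_lit 274) (nat_lit 269)) (XT.lf (nat_lit 0) (nat_lit 7475715952) (nat_lit 588) (nat_lit 148950669) (nat_lit 0) (nat_lit 335593402) (nat_lit 78) (nat_lit 5) (nat_lit 85) (nat_lit 4) (nat_lit 78) (nat_lit 4) (nat_lit 319) (nat_lit 274) (nat_lit 268))))))))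
noncomputable def xc54 : XT := (XT.nd (nat_lit 2256) (nat_lit 1344) (nat_lit 0) (XT.nd (nat_lit 1128) (nat_lit 1596) (nat_lit 0) (XT.nd (nat_lit 564) (nat_lit 1260) (nat_lit 0) (XT.nd (nat_lit 282) (nat_lit 504) (nat_lit 0) (XT.nd (nat_lit 94) (nat_lit 420) (nat_lit 0) (XT.lf (nat_lit 0) (nat_lit 1949597580) (nat_lit 588) (nat_lit 4248459627) (nat_lit 84) (nat_lit 1871161561) (nat_lit 71) (nat_lit 5) (nat_lit 78) (nat_lit 5) (nat_lit 72) (nat_lit 4) (nat_lit 320) (nat_lit 274) (nat_lit 267)) (XT.nd (nat_lit 94) (nat_lit 420) (nat_lit 0) (XT.lf (nat_lit 0) (nat_lit 4380908434) (nat_lit 588) (nat_lit 346325444) (nat_lit 84) (nat_lit 3456704615) (nat_lit 71) (nat_lit 5) (nat_lit 78) (nat_lit 5) (nat_lit 72) (nat_lit 4) (nat_lit 321) (nat_lit 274) (nat_lit 266)) (XT.lf (nat_lit 0) (nat_lit 3676617378) (nat_lit 420) (nat_lit 3179748914) (nat_lit 504) (nat_lit 1447225425) (nat_lit 66) (nat_lit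 5) (nat_lit 71) (nat_lit 5) (nat_lit 72) (nat_lit 4) (nat_lit 322) (nat_lit 274) (nat_lit 265)))) (XT.nd (nat_lit 94) (nat_lit 420) (nat_lit 0) (XT.lf (nat_lit 0) (nat_lit 898026257) (nat_lit 504) (nat_lit 680257138) (nat_lit 84) (nat_lit 6850731917) (nat_lit 65) (nat_lit 5) (nat_lit 71) (nat_lit 5) (nat_lit 66) (nat_lit 5) (nat_lit 323) (nat_lit 274) (nat_lit 264)) (XT.nd (nat_lit 94) (nat_lit 0) (nat_lit 0) (XT.lf (nat_lit 0) (nat_lit 3255049671) (nat_lit 504) (nat_lit 5191483294) (nat_lit 84) (nat_lit 112665588) (nat_lit 60) (nat_lit 5) (nat_lit 66) (nat_lit 5) (nat_lit 61) (nat_lit 4) (nat_lit 324) (nat_lit 274) (nat_lit 263)) (XT.lf (nat_lit 0) (nat_lit 5644197278) (nat_lit 504) (nat_lit 1228339884) (nat_lit 84) (nat_lit 1822511771) (nat_lit 60) (nat_lit 5) (nat_lit 66) (nat_lit 5) (nat_lit 61) (nat_lit 4) (nat_lit 325) (nat_lit 274) (nat_lit 262))))) (XT.nd (nat_lit 282) (nat_lit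 420) (nat_lit 0) (XT.nd (nat_lit 94) (nat_lit 504) (nat_lit 0) (XT.lf (nat_lit 0) (nat_lit 2842651157) (nat_lit 336) (nat_lit 5230630113) (nat_lit 420) (nat_lit 763238665) (nat_lit 56) (nat_lit 5) (nat_lit 60) (nat_lit 5) (nat_lit 61) (nat_lit 4) (nat_lit 326) (nat_lit 274) (nat_lit 261)) (XT.nd (nat_lit 94) (nat_lit 420) (nat_lit 0) (XT.lf (nat_lit 0) (nat_lit 1513979418) (nat_lit 420) (nat_lit 2005211567) (nat_lit 84) (nat_lit 5464549721) (nat_lit 55) (nat_lit 5) (nat_lit 60) (nat_lit 5) (nat_lit 56) (nat_lit 5) (nat_lit 327) (nat_lit 274) (nat_lit 260)) (XT.lf (nat_lit 0) (nat_lit 2070035251) (nat_lit 420) (nat_lit 1736182784) (nat_lit 504) (nat_lit 5330617155) (nat_lit 50) (nat_lit 5) (nat_lit 55) (nat_lit 5) (nat_lit 56) (nat_lit 5) (nat_lit 328) (nat_lit 274) (nat_lit 259)))) (XT.nd (nat_lit 94) (nat_lit 420) (nat_lit 0) (XT.lf (nat_lit 0) (nat_lit 6132424056) (nat_lit 504) (nat_lit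 3053404449) (nat_lit 84) (nat_lit 110307882) (nat_lit 50) (nat_lit 5) (nat_lit 56) (nat_lit 5) (nat_lit 51) (nat_lit 4) (nat_lit 329) (nat_lit 274) (nat_lit 258)) (XT.nd (nat_lit 94) (nat_lit 84) (nat_lit 0) (XT.lf (nat_lit 0) (nat_lit 1017038511) (nat_lit 336) (nat_lit 7484082475) (nat_lit 420) (nat_lit 960474783) (nat_lit 46) (nat_lit 5) (nat_lit 50) (nat_lit 5) (nat_lit 51) (nat_lit 4) (nat_lit 330) (nat_lit 274) (nat_lit 257)) (XT.lf (nat_lit 0) (nat_lit 1259553491) (nat_lit 420) (nat_lit 4436986311) (nat_lit 84) (nat_lit 3936303061) (nat_lit 45) (nat_lit 5) (nat_lit 50) (nat_lit 5) (nat_lit 46) (nat_lit 5) (nat_lit 331) (nat_lit 274) (nat_lit 256)))))) (XT.nd (nat_lit 564) (nat_lit 924) (nat_lit 0) (XT.nd (nat_lit 282) (nat_lit 336) (nat_lit 0) (XT.nd (nat_lit 94) (nat_lit 336) (nat_lit 0) (XT.lf (nat_lit 0) (nat_lit 3472882083) (nat_lit 420) (nat_lit 383727460) (nat_lit 84) (nat_lit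 5954482382) (nat_lit 45) (nat_lit 5) (nat_lit 50) (nat_lit 5) (nat_lit 46) (nat_lit 5) (nat_lit 332) (nat_lit 274) (nat_lit 255)) (XT.nd (nat_lit 94) (nat_lit 0) (nat_lit 0) (XT.lf (nat_lit 0) (nat_lit 3805191512) (nat_lit 336) (nat_lit 1933481931) (nat_lit 420) (nat_lit 4256960842) (nat_lit 41) (nat_lit 5) (nat_lit 45) (nat_lit 5) (nat_lit 46) (nat_lit 5) (nat_lit 333) (nat_lit 274) (nat_lit 254)) (XT.lf (nat_lit 0) (nat_lit 8026177537) (nat_lit 420) (nat_lit 2121953680) (nat_lit 84) (nat_lit 39529462) (nat_lit 41) (nat_lit 5) (nat_lit 46) (nat_lit 5) (nat_lit 42) (nat_lit 4) (nat_lit 334) (nat_lit 274) (nat_lit 253)))) (XT.nd (nat_lit 94) (nat_lit 84) (nat_lit 0) (XT.lf (nat_lit 0) (nat_lit 2028028511) (nat_lit 252) (nat_lit 8344992682) (nat_lit 336) (nat_lit 13228566) (nat_lit 38) (nat_lit 5) (nat_lit 41) (nat_lit 5) (nat_lit 42) (nat_lit 4) (nat_lit 335) (nat_lit 274) (nat_lit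 252)) (XT.nd (nat_lit 94) (nat_lit 0) (nat_lit 0) (XT.lf (nat_lit 0) (nat_lit 2128319552) (nat_lit 336) (nat_lit 4327072440) (nat_lit 84) (nat_lit 4136059571) (nat_lit 37) (nat_lit 5) (nat_lit 41) (nat_lit 5) (nat_lit 38) (nat_lit 5) (nat_lit 336) (nat_lit 274) (nat_lit 251)) (XT.lf (nat_lit 0) (nat_lit 4286204009) (nat_lit 336) (nat_lit 235440079) (nat_lit 84) (nat_lit 6283138553) (nat_lit 37) (nat_lit 5) (nat_lit 41) (nat_lit 5) (nat_lit 38) (nat_lit 5) (nat_lit 337) (nat_lit 274) (nat_lit 250))))) (XT.nd (nat_lit 282) (nat_lit 336) (nat_lit 0) (XT.nd (nat_lit 94) (nat_lit 252) (nat_lit 0) (XT.lf (nat_lit 0) (nat_lit 4001236900) (nat_lit 336) (nat_lit 2501158568) (nat_lit 420) (nat_lit 4522819961) (nat_lit 33) (nat_lit 5) (nat_lit 37) (nat_lit 5) (nat_lit 38) (nat_lit 5) (nat_lit 338) (nat_lit 274) (nat_lit 249)) (XT.nd (nat_lit 94) (nat_lit 252) (nat_lit 0) (XT.lf (nat_lit 0) (nat_lit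 8312461947) (nat_lit 336) (nat_lit 429843066) (nat_lit 420) (nat_lit 2511786678) (nat_lit 33) (nat_lit 5) (nat_lit 37) (nat_lit 5) (nat_lit 38) (nat_lit 5) (nat_lit 339) (nat_lit 274) (nat_lit 248)) (XT.lf (nat_lit 0) (nat_lit 1213378028) (nat_lit 252) (nat_lit 9821078307) (nat_lit 336) (nat_lit 456348914) (nat_lit 30) (nat_lit 5) (nat_lit 33) (nat_lit 5) (nat_lit 34) (nat_lit 4) (nat_lit 340) (nat_lit 274) (nat_lit 247)))) (XT.nd (nat_lit 94) (nat_lit 252) (nat_lit 0) (XT.lf (nat_lit 0) (nat_lit 1618689469) (nat_lit 336) (nat_lit 6257500073) (nat_lit 84) (nat_lit 3858681822) (nat_lit 29) (nat_lit 5) (nat_lit 33) (nat_lit 5) (nat_lit 30) (nat_lit 5) (nat_lit 341) (nat_lit 274) (nat_lit 246)) (XT.nd (nat_lit 94) (nat_lit 252) (nat_lit 0) (XT.lf (nat_lit 0) (nat_lit 3703927670) (nat_lit 336) (nat_lit 2177701568) (nat_lit 84) (nat_lit 6106304434) (nat_lit 29) (nat_lit 5) (nat_lit 33)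 (nat_lit 5) (nat_lit 30) (nat_lit 5) (nat_lit 342) (nat_lit 274) (nat_lit 245)) (XT.lf (nat_lit 0) (nat_lit 2010811499) (nat_lit 252) (nat_lit 3819639762) (nat_lit 336) (nat_lit 6419298759) (nat_lit 26) (nat_lit 5) (nat_lit 29) (nat_lit 5) (nat_lit 30) (nat_lit 5) (nat_lit 343) (nat_lit 274) (nat_lit 244))))))) (XT.nd (nat_lit 1128) (nat_lit 588) (nat_lit 0) (XT.nd (nat_lit 564) (nat_lit 252) (nat_lit 0) (XT.nd (nat_lit 282) (nat_lit 336) (nat_lit 0) (XT.nd (nat_lit 94) (nat_lit 168) (nat_lit 0) (XT.lf (nat_lit 0) (nat_lit 6317651999) (nat_lit 252) (nat_lit 1685401186) (nat_lit 336) (nat_lit 4517424127) (nat_lit 26) (nat_lit 5) (nat_lit 29) (nat_lit 5) (nat_lit 30) (nat_lit 5) (nat_lit 344) (nat_lit 274) (nat_lit 243)) (XT.nd (nat_lit 94) (nat_lit 168) (nat_lit 0) (XT.lf (nat_lit 0) (nat_lit 10206674748) (nat_lit 336) (nat_lit 2103958502) (nat_lit 84) (nat_lit 490264244) (nat_lit 26)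 (nat_lit 5) (nat_lit 30) (nat_lit 5) (nat_lit 27) (nat_lit 4) (nat_lit 345) (nat_lit 274) (nat_lit 242)) (XT.lf (nat_lit 0) (nat_lit 2091335794) (nat_lit 168) (nat_lit 10385062920) (nat_lit 252) (nat_lit 613849339) (nat_lit 24) (nat_lit 5) (nat_lit 26) (nat_lit 5) (nat_lit 27) (nat_lit 4) (nat_lit 346) (nat_lit 274) (nat_lit 241)))) (XT.nd (nat_lit 94) (nat_lit 252) (nat_lit 0) (XT.lf (nat_lit 0) (nat_lit 1381236511) (nat_lit 252) (nat_lit 6996946865) (nat_lit 84) (nat_lit 5010660034) (nat_lit 23) (nat_lit 5) (nat_lit 26) (nat_lit 5) (nat_lit 24) (nat_lit 5) (nat_lit 347) (nat_lit 274) (nat_lit 240)) (XT.nd (nat_lit 94) (nat_lit 252) (nat_lit 0) (XT.lf (nat_lit 0) (nat_lit 3386529079) (nat_lit 252) (nat_lit 2931472780) (nat_lit 84) (nat_lit 7379858394) (nat_lit 23) (nat_lit 5) (nat_lit 26) (nat_lit 5) (nat_lit 24) (nat_lit 5) (nat_lit 348) (nat_lit 274) (nat_lit 239)) (XT.lf (nat_lit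 0) (nat_lit 1232215295) (nat_lit 252) (nat_lit 4196273635) (nat_lit 336) (nat_lit 8588907525) (nat_lit 20) (nat_lit 5) (nat_lit 23) (nat_lit 5) (nat_lit 24) (nat_lit 5) (nat_lit 349) (nat_lit 274) (nat_lit 238))))) (XT.nd (nat_lit 282) (nat_lit 252) (nat_lit 0) (XT.nd (nat_lit 94) (nat_lit 0) (nat_lit 0) (XT.lf (nat_lit 0) (nat_lit 5535014240) (nat_lit 252) (nat_lit 1992230593) (nat_lit 336) (nat_lit 6819940035) (nat_lit 20) (nat_lit 5) (nat_lit 23) (nat_lit 5) (nat_lit 24) (nat_lit 5) (nat_lit 350) (nat_lit 274) (nat_lit 237)) (XT.nd (nat_lit 94) (nat_lit 0) (nat_lit 0) (XT.lf (nat_lit 0) (nat_lit 9657709138) (nat_lit 336) (nat_lit 4770429921) (nat_lit 84) (nat_lit 260232193) (nat_lit 20) (nat_lit 5) (nat_lit 24) (nat_lit 5) (nat_lit 21) (nat_lit 4) (nat_lit 351) (nat_lit 274) (nat_lit 236)) (XT.lf (nat_lit 0) (nat_lit 11839548049) (nat_lit 336) (nat_lit 673872100) (nat_lit 84) (nat_lit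 2527305386) (nat_lit 20) (nat_lit 5) (nat_lit 24) (nat_lit 5) (nat_lit 21) (nat_lit 4) (nat_lit 352) (nat_lit 274) (nat_lit 235)))) (XT.nd (nat_lit 94) (nat_lit 84) (nat_lit 0) (XT.lf (nat_lit 0) (nat_lit 3573073902) (nat_lit 168) (nat_lit 10517403527) (nat_lit 252) (nat_lit 1313612572) (nat_lit 18) (nat_lit 5) (nat_lit 20) (nat_lit 5) (nat_lit 21) (nat_lit 4) (nat_lit 353) (nat_lit 274) (nat_lit 234)) (XT.nd (nat_lit 94) (nat_lit 0) (nat_lit 0) (XT.lf (nat_lit 0) (nat_lit 592915065) (nat_lit 252) (nat_lit 7867810232) (nat_lit 84) (nat_lit 7318754474) (nat_lit 17) (nat_lit 5) (nat_lit 20) (nat_lit 5) (nat_lit 18) (nat_lit 5) (nat_lit 354) (nat_lit 274) (nat_lit 233)) (XT.lf (nat_lit 0) (nat_lit 2498363211) (nat_lit 252) (nat_lit 3842633485) (nat_lit 84) (nat_lit 9826233865) (nat_lit 17) (nat_lit 5) (nat_lit 20) (nat_lit 5) (nat_lit 18) (nat_lit 5) (nat_lit 355) (nat_lit 274) (nat_lit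 232)))))) (XT.nd (nat_lit 564) (nat_lit 252) (nat_lit 0) (XT.nd (nat_lit 282) (nat_lit 168) (nat_lit 0) (XT.nd (nat_lit 94) (nat_lit 0) (nat_lit 0) (XT.lf (nat_lit 0) (nat_lit 266670032) (nat_lit 168) (nat_lit 4166949675) (nat_lit 252) (nat_lit 12134406051) (nat_lit 15) (nat_lit 5) (nat_lit 17) (nat_lit 5) (nat_lit 18) (nat_lit 5) (nat_lit 356) (nat_lit 274) (nat_lit 231)) (XT.nd (nat_lit 94) (nat_lit 0) (nat_lit 0) (XT.lf (nat_lit 0) (nat_lit 4539263232) (nat_lit 168) (nat_lit 1898316571) (nat_lit 252) (nat_lit 10543509308) (nat_lit 15) (nat_lit 5) (nat_lit 17) (nat_lit 5) (nat_lit 18) (nat_lit 5) (nat_lit 357) (nat_lit 274) (nat_lit 230)) (XT.lf (nat_lit 0) (nat_lit 8477443167) (nat_lit 252) (nat_lit 8512130426) (nat_lit 84) (nat_lit 418306760) (nat_lit 15) (nat_lit 5) (nat_lit 18) (nat_lit 5) (nat_lit 16) (nat_lit 4) (nat_lit 358) (nat_lit 274) (nat_lit 229)))) (XT.nd (nat_lit 94)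 (nat_lit 168) (nat_lit 0) (XT.lf (nat_lit 0) (nat_lit 10570286668) (nat_lit 252) (nat_lit 4523781980) (nat_lit 84) (nat_lit 2754258210) (nat_lit 15) (nat_lit 5) (nat_lit 18) (nat_lit 5) (nat_lit 16) (nat_lit 4) (nat_lit 359) (nat_lit 274) (nat_lit 228)) (XT.nd (nat_lit 94) (nat_lit 168) (nat_lit 0) (XT.lf (nat_lit 0) (nat_lit 12699229520) (nat_lit 252) (nat_lit 454231448) (nat_lit 84) (nat_lit 5149961977) (nat_lit 15) (nat_lit 5) (nat_lit 18) (nat_lit 5) (nat_lit 16) (nat_lit 4) (nat_lit 360) (nat_lit 274) (nat_lit 227)) (XT.lf (nat_lit 0) (nat_lit 3776400471) (nat_lit 168) (nat_lit 11127318009) (nat_lit 252) (nat_lit 3868712999) (nat_lit 13) (nat_lit 5) (nat_lit 15) (nat_lit 5) (nat_lit 16) (nat_lit 4) (nat_lit 361) (nat_lit 274) (nat_lit 226))))) (XT.nd (nat_lit 282) (nat_lit 168) (nat_lit 0) (XT.nd (nat_lit 94) (nat_lit 84) (nat_lit 0) (XT.lf (nat_lit 0) (nat_lit 8107067429) (nat_lit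 168) (nat_lit 9046742048) (nat_lit 252) (nat_lit 2102972114) (nat_lit 13) (nat_lit 5) (nat_lit 15) (nat_lit 5) (nat_lit 16) (nat_lit 4) (nat_lit 362) (nat_lit 274) (nat_lit 225)) (XT.nd (nat_lit 94) (nat_lit 84) (nat_lit 0) (XT.lf (nat_lit 0) (nat_lit 12532466133) (nat_lit 168) (nat_lit 6914535013) (nat_lit 252) (nat_lit 310066158) (nat_lit 13) (nat_lit 5) (nat_lit 15) (nat_lit 5) (nat_lit 16) (nat_lit 4) (nat_lit 363) (nat_lit 274) (nat_lit 224)) (XT.lf (nat_lit 0) (nat_lit 1481219139) (nat_lit 252) (nat_lit 3232029435) (nat_lit 84) (nat_lit 15560041488) (nat_lit 12) (nat_lit 5) (nat_lit 15) (nat_lit 5) (nat_lit 13) (nat_lit 5) (nat_lit 364) (nat_lit 274) (nat_lit 223)))) (XT.nd (nat_lit 188) (nat_lit 0) (nat_lit 0) (XT.nd (nat_lit 94) (nat_lit 0) (nat_lit 0) (XT.lf (nat_lit 0) (nat_lit 860694817) (nat_lit 168) (nat_lit 2444019779) (nat_lit 252) (nat_lit 17501312324) (nat_lit 10)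 (nat_lit 5) (nat_lit 12) (nat_lit 5) (nat_lit 13) (nat_lit 5) (nat_lit 365) (nat_lit 274) (nat_lit 222)) (XT.lf (nat_lit 0) (nat_lit 5111406365) (nat_lit 168) (nat_lit 82043907) (nat_lit 252) (nat_lit 16161641945) (nat_lit 10) (nat_lit 5) (nat_lit 12) (nat_lit 5) (nat_lit 13) (nat_lit 5) (nat_lit 366) (nat_lit 274) (nat_lit 221))) (XT.nd (nat_lit 94) (nat_lit 0) (nat_lit 0) (XT.lf (nat_lit 0) (nat_lit 7139689718) (nat_lit 252) (nat_lit 12487626390) (nat_lit 84) (nat_lit 2293976039) (nat_lit 10) (nat_lit 5) (nat_lit 13) (nat_lit 5) (nat_lit 11) (nat_lit 4) (nat_lit 367) (nat_lit 274) (nat_lit 220)) (XT.lf (nat_lit 0) (nat_lit 9123444470) (nat_lit 252) (nat_lit 8651850110) (nat_lit 84) (nat_lit 4730535764) (nat_lit 10) (nat_lit 5) (nat_lit 13) (nat_lit 5) (nat_lit 11) (nat_lit 4) (nat_lit 368) (nat_lit 274) (nat_lit 219))))))))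
noncomputable def xc55 : XT := (XT.nd (nat_lit 2256) (nat_lit 252) (nat_lit 0) (XT.nd (nat_lit 1128) (nat_lit 84) (nat_lit 0) (XT.nd (nat_lit 564) (nat_lit 252) (nat_lit 0) (XT.nd (nat_lit 282) (nat_lit 0) (nat_lit 0) (XT.nd (nat_lit 94) (nat_lit 84) (nat_lit 0) (XT.lf (nat_lit 0) (nat_lit 11145749709) (nat_lit 252) (nat_lit 4731967782) (nat_lit 84) (nat_lit 7231559401) (nat_lit 10) (nat_lit 5) (nat_lit 13) (nat_lit 5) (nat_lit 11) (nat_lit 4) (nat_lit 369) (nat_lit 274) (nat_lit 218)) (XT.nd (nat_lit 94) (nat_lit 84) (nat_lit 0) (XT.lf (nat_lit 0) (nat_lit 13208490436) (nat_lit 252) (nat_lit 724325665) (nat_lit 84) (nat_lit 9799378163) (nat_lit 10) (nat_lit 5) (nat_lit 13) (nat_lit 5) (nat_lit 11) (nat_lit 4) (nat_lit 370) (nat_lit 274) (nat_lit 217)) (XT.lf (nat_lit 0) (nat_lit 3444204834) (nat_lit 84) (nat_lit 11903551445) (nat_lit 168) (nat_lit 9026347633) (nat_lit 9) (nat_lit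 5) (nat_lit 10) (nat_lit 5) (nat_lit 11) (nat_lit 4) (nat_lit 371) (nat_lit 274) (nat_lit 216)))) (XT.nd (nat_lit 94) (nat_lit 0) (nat_lit 0) (XT.lf (nat_lit 0) (nat_lit 7724905006) (nat_lit 84) (nat_lit 9814735604) (nat_lit 168) (nat_lit 7496766470) (nat_lit 9) (nat_lit 5) (nat_lit 10) (nat_lit 5) (nat_lit 11) (nat_lit 4) (nat_lit 372) (nat_lit 274) (nat_lit 215)) (XT.nd (nat_lit 94) (nat_lit 0) (nat_lit 0) (XT.lf (nat_lit 0) (nat_lit 12106871293) (nat_lit 84) (nat_lit 7671982056) (nat_lit 168) (nat_lit 5941095085) (nat_lit 9) (nat_lit 5) (nat_lit 10) (nat_lit 5) (nat_lit 11) (nat_lit 4) (nat_lit 373) (nat_lit 274) (nat_lit 214)) (XT.lf (nat_lit 0) (nat_lit 16594188144) (nat_lit 84) (nat_lit 5473293532) (nat_lit 168) (nat_lit 4357883429) (nat_lit 9) (nat_lit 5) (nat_lit 10) (nat_lit 5) (nat_lit 11) (nat_lit 4) (nat_lit 374) (nat_lit 274) (nat_lit 213))))) (XT.nd (nat_lit 282) (nat_lit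 0) (nat_lit 0) (XT.nd (nat_lit 94) (nat_lit 252) (nat_lit 0) (XT.lf (nat_lit 0) (nat_lit 21191038209) (nat_lit 84) (nat_lit 3216620622) (nat_lit 168) (nat_lit 2745655784) (nat_lit 9) (nat_lit 5) (nat_lit 10) (nat_lit 5) (nat_lit 11) (nat_lit 4) (nat_lit 375) (nat_lit 274) (nat_lit 212)) (XT.nd (nat_lit 94) (nat_lit 252) (nat_lit 0) (XT.lf (nat_lit 0) (nat_lit 25901706234) (nat_lit 84) (nat_lit 899859873) (nat_lit 168) (nat_lit 1102909383) (nat_lit 9) (nat_lit 5) (nat_lit 10) (nat_lit 5) (nat_lit 11) (nat_lit 4) (nat_lit 376) (nat_lit 274) (nat_lit 211)) (XT.lf (nat_lit 0) (nat_lit 596015333) (nat_lit 252) (nat_lit 26606254424) (nat_lit 84) (nat_lit 1475997095) (nat_lit 6) (nat_lit 5) (nat_lit 9) (nat_lit 5) (nat_lit 7) (nat_lit 4) (nat_lit 377) (nat_lit 274) (nat_lit 210)))) (XT.nd (nat_lit 94) (nat_lit 0) (nat_lit 0) (XT.lf (nat_lit 0) (nat_lit 2336705672) (nat_lit 252) (nat_lit 23209023382)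 (nat_lit 84) (nat_lit 3929650987) (nat_lit 6) (nat_lit 5) (nat_lit 9) (nat_lit 5) (nat_lit 7) (nat_lit 4) (nat_lit 378) (nat_lit 274) (nat_lit 209)) (XT.nd (nat_lit 94) (nat_lit 0) (nat_lit 0) (XT.lf (nat_lit 0) (nat_lit 4113594965) (nat_lit 252) (nat_lit 19734119556) (nat_lit 84) (nat_lit 6450094420) (nat_lit 6) (nat_lit 5) (nat_lit 9) (nat_lit 5) (nat_lit 7) (nat_lit 4) (nat_lit 379) (nat_lit 274) (nat_lit 208)) (XT.lf (nat_lit 0) (nat_lit 5928339459) (nat_lit 252) (nat_lit 16178303972) (nat_lit 84) (nat_lit 9039676709) (nat_lit 6) (nat_lit 5) (nat_lit 9) (nat_lit 5) (nat_lit 7) (nat_lit 4) (nat_lit 380) (nat_lit 274) (nat_lit 207)))))) (XT.nd (nat_lit 564) (nat_lit 0) (nat_lit 0) (XT.nd (nat_lit 282) (nat_lit 84) (nat_lit 0) (XT.nd (nat_lit 94) (nat_lit 0) (nat_lit 0) (XT.lf (nat_lit 0) (nat_lit 7782630686) (nat_lit 252) (nat_lit 12538262236) (nat_lit 84) (nat_lit 11700811619) (nat_lit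 6) (nat_lit 5) (nat_lit 9) (nat_lit 5) (nat_lit 7) (nat_lit 4) (nat_lit 381) (nat_lit 274) (nat_lit 206)) (XT.nd (nat_lit 94) (nat_lit 0) (nat_lit 0) (XT.lf (nat_lit 0) (nat_lit 9678197039) (nat_lit 252) (nat_lit 8810601450) (nat_lit 84) (nat_lit 14435979605) (nat_lit 6) (nat_lit 5) (nat_lit 9) (nat_lit 5) (nat_lit 7) (nat_lit 4) (nat_lit 382) (nat_lit 274) (nat_lit 205)) (XT.lf (nat_lit 0) (nat_lit 11616805386) (nat_lit 252) (nat_lit 4991847042) (nat_lit 84) (nat_lit 17247730130) (nat_lit 6) (nat_lit 5) (nat_lit 9) (nat_lit 5) (nat_lit 7) (nat_lit 4) (nat_lit 383) (nat_lit 274) (nat_lit 204)))) (XT.nd (nat_lit 94) (nat_lit 84) (nat_lit 0) (XT.lf (nat_lit 0) (nat_lit 13600262712) (nat_lit 252) (nat_lit 1078439534) (nat_lit 84) (nat_lit 20138684040) (nat_lit 6) (nat_lit 5) (nat_lit 9) (nat_lit 5) (nat_lit 7) (nat_lit 4) (nat_lit 384) (nat_lit 274) (nat_lit 203)) (XT.nd (nat_lit 94)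 (nat_lit 0) (nat_lit 0) (XT.lf (nat_lit 0) (nat_lit 2993582802) (nat_lit 84) (nat_lit 12666531717) (nat_lit 168) (nat_lit 20147649918) (nat_lit 5) (nat_lit 5) (nat_lit 6) (nat_lit 5) (nat_lit 7) (nat_lit 4) (nat_lit 385) (nat_lit 274) (nat_lit 202)) (XT.lf (nat_lit 0) (nat_lit 7191918360) (nat_lit 84) (nat_lit 10588589348) (nat_lit 168) (nat_lit 19048483402) (nat_lit 5) (nat_lit 5) (nat_lit 6) (nat_lit 5) (nat_lit 7) (nat_lit 4) (nat_lit 386) (nat_lit 274) (nat_lit 201))))) (XT.nd (nat_lit 282) (nat_lit 0) (nat_lit 0) (XT.nd (nat_lit 94) (nat_lit 0) (nat_lit 0) (XT.lf (nat_lit 0) (nat_lit 11498305501) (nat_lit 84) (nat_lit 8454194977) (nat_lit 168) (nat_lit 17929856185) (nat_lit 5) (nat_lit 5) (nat_lit 6) (nat_lit 5) (nat_lit 7) (nat_lit 4) (nat_lit 387) (nat_lit 274) (nat_lit 200)) (XT.nd (nat_lit 94) (nat_lit 0) (nat_lit 0) (XT.lf (nat_lit 0) (nat_lit 15916758227) (nat_lit 84) (nat_lit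 6261359125) (nat_lit 168) (nat_lit 16790725591) (nat_lit 5) (nat_lit 5) (nat_lit 6) (nat_lit 5) (nat_lit 7) (nat_lit 4) (nat_lit 388) (nat_lit 274) (nat_lit 199)) (XT.lf (nat_lit 0) (nat_lit 20451394999) (nat_lit 84) (nat_lit 4008037840) (nat_lit 168) (nat_lit 15630029830) (nat_lit 5) (nat_lit 5) (nat_lit 6) (nat_lit 5) (nat_lit 7) (nat_lit 4) (nat_lit 389) (nat_lit 274) (nat_lit 198)))) (XT.nd (nat_lit 94) (nat_lit 0) (nat_lit 0) (XT.lf (nat_lit 0) (nat_lit 25106442575) (nat_lit 84) (nat_lit 1692130788) (nat_lit 168) (nat_lit 14446687012) (nat_lit 5) (nat_lit 5) (nat_lit 6) (nat_lit 5) (nat_lit 7) (nat_lit 4) (nat_lit 390) (nat_lit 274) (nat_lit 197)) (XT.nd (nat_lit 94) (nat_lit 0) (nat_lit 0) (XT.lf (nat_lit 0) (nat_lit 29204549460) (nat_lit 168) (nat_lit 12557903651) (nat_lit 0) (nat_lit 674648538) (nat_lit 5) (nat_lit 5) (nat_lit 7) (nat_lit 4) (nat_lit 5) (nat_lit 4) (nat_lit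 391) (nat_lit 274) (nat_lit 196)) (XT.lf (nat_lit 0) (nat_lit 31690217605) (nat_lit 168) (nat_lit 8902601292) (nat_lit 0) (nat_lit 3072949486) (nat_lit 5) (nat_lit 5) (nat_lit 7) (nat_lit 4) (nat_lit 5) (nat_lit 4) (nat_lit 392) (nat_lit 274) (nat_lit 195))))))) (XT.nd (nat_lit 1128) (nat_lit 84) (nat_lit 0) (XT.nd (nat_lit 564) (nat_lit 84) (nat_lit 0) (XT.nd (nat_lit 282) (nat_lit 0) (nat_lit 0) (XT.nd (nat_lit 94) (nat_lit 84) (nat_lit 0) (XT.lf (nat_lit 0) (nat_lit 34241108557) (nat_lit 168) (nat_lit 5152717449) (nat_lit 0) (nat_lit 5539100188) (nat_lit 5) (nat_lit 5) (nat_lit 7) (nat_lit 4) (nat_lit 5) (nat_lit 4) (nat_lit 393) (nat_lit 274) (nat_lit 194)) (XT.nd (nat_lit 94) (nat_lit 84) (nat_lit 0) (XT.lf (nat_lit 0) (nat_lit 36859600011) (nat_lit 168) (nat_lit 1304756840) (nat_lit 0) (nat_lit 8075399354) (nat_lit 5) (nat_lit 5) (nat_lit 7) (nat_lit 4) (nat_lit 5) (nat_lit 4)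 (nat_lit 394) (nat_lit 274) (nat_lit 193)) (XT.lf (nat_lit 0) (nat_lit 2699251132) (nat_lit 84) (nat_lit 36875658450) (nat_lit 84) (nat_lit 8011736853) (nat_lit 4) (nat_lit 4) (nat_lit 5) (nat_lit 5) (nat_lit 5) (nat_lit 4) (nat_lit 395) (nat_lit 274) (nat_lit 192)))) (XT.nd (nat_lit 94) (nat_lit 0) (nat_lit 0) (XT.lf (nat_lit 0) (nat_lit 6837598623) (nat_lit 84) (nat_lit 35539443751) (nat_lit 84) (nat_lit 6598198255) (nat_lit 4) (nat_lit 4) (nat_lit 5) (nat_lit 5) (nat_lit 5) (nat_lit 4) (nat_lit 396) (nat_lit 274) (nat_lit 191)) (XT.nd (nat_lit 94) (nat_lit 0) (nat_lit 0) (XT.lf (nat_lit 0) (nat_lit 11087314527) (nat_lit 84) (nat_lit 34168086247) (nat_lit 84) (nat_lit 5151841820) (nat_lit 4) (nat_lit 4) (nat_lit 5) (nat_lit 5) (nat_lit 5) (nat_lit 4) (nat_lit 397) (nat_lit 274) (nat_lit 190)) (XT.lf (nat_lit 0) (nat_lit 15452360027) (nat_lit 84) (nat_lit 32760307690) (nat_lit 84)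 (nat_lit 3671319391) (nat_lit 4) (nat_lit 4) (nat_lit 5) (nat_lit 5) (nat_lit 5) (nat_lit 4) (nat_lit 398) (nat_lit 274) (nat_lit 189))))) (XT.nd (nat_lit 282) (nat_lit 0) (nat_lit 0) (XT.nd (nat_lit 94) (nat_lit 84) (nat_lit 0) (XT.lf (nat_lit 0) (nat_lit 19936803800) (nat_lit 84) (nat_lit 31314795883) (nat_lit 84) (nat_lit 2155250967) (nat_lit 4) (nat_lit 4) (nat_lit 5) (nat_lit 5) (nat_lit 5) (nat_lit 4) (nat_lit 399) (nat_lit 274) (nat_lit 188)) (XT.nd (nat_lit 94) (nat_lit 84) (nat_lit 0) (XT.lf (nat_lit 0) (nat_lit 24544825818) (nat_lit 84) (nat_lit 29830203458) (nat_lit 84) (nat_lit 602223414) (nat_lit 4) (nat_lit 4) (nat_lit 5) (nat_lit 5) (nat_lit 5) (nat_lit 4) (nat_lit 400) (nat_lit 274) (nat_lit 187)) (XT.lf (nat_lit 0) (nat_lit 969280458) (nat_lit 168) (nat_lit 27325748859) (nat_lit 84) (nat_lit 28301323483) (nat_lit 3) (nat_lit 5) (nat_lit 5) (nat_lit 5) (nat_lit 4) (nat_lit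 4) (nat_lit 401) (nat_lit 274) (nat_lit 186)))) (XT.nd (nat_lit 94) (nat_lit 0) (nat_lit 0) (XT.lf (nat_lit 0) (nat_lit 2567737272) (nat_lit 168) (nat_lit 24143664668) (nat_lit 84) (nat_lit 31554365236) (nat_lit 3) (nat_lit 5) (nat_lit 5) (nat_lit 5) (nat_lit 4) (nat_lit 4) (nat_lit 402) (nat_lit 274) (nat_lit 185)) (XT.nd (nat_lit 94) (nat_lit 0) (nat_lit 0) (XT.lf (nat_lit 0) (nat_lit 4206770416) (nat_lit 168) (nat_lit 20877234130) (nat_lit 84) (nat_lit 34903232537) (nat_lit 3) (nat_lit 5) (nat_lit 5) (nat_lit 5) (nat_lit 4) (nat_lit 4) (nat_lit 403) (nat_lit 274) (nat_lit 184)) (XT.lf (nat_lit 0) (nat_lit 5887907641) (nat_lit 168) (nat_lit 17523412592) (nat_lit 84) (nat_lit 38351046882) (nat_lit 3) (nat_lit 5) (nat_lit 5) (nat_lit 5) (nat_lit 4) (nat_lit 4) (nat_lit 404) (nat_lit 274) (nat_lit 183)))))) (XT.nd (nat_lit 564) (nat_lit 0) (nat_lit 0) (XT.nd (nat_lit 282) (nat_lit 84)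 (nat_lit 0) (XT.nd (nat_lit 94) (nat_lit 0) (nat_lit 0) (XT.lf (nat_lit 0) (nat_lit 7612715943) (nat_lit 168) (nat_lit 14079073940) (nat_lit 84) (nat_lit 41901021994) (nat_lit 3) (nat_lit 5) (nat_lit 5) (nat_lit 5) (nat_lit 4) (nat_lit 4) (nat_lit 405) (nat_lit 274) (nat_lit 182)) (XT.nd (nat_lit 94) (nat_lit 0) (nat_lit 0) (XT.lf (nat_lit 0) (nat_lit 9382803023) (nat_lit 168) (nat_lit 10541007690) (nat_lit 84) (nat_lit 45556466823) (nat_lit 3) (nat_lit 5) (nat_lit 5) (nat_lit 5) (nat_lit 4) (nat_lit 4) (nat_lit 406) (nat_lit 274) (nat_lit 181)) (XT.lf (nat_lit 0) (nat_lit 11199818789) (nat_lit 168) (nat_lit 6905915992) (nat_lit 84) (nat_lit 49320788624) (nat_lit 3) (nat_lit 5) (nat_lit 5) (nat_lit 5) (nat_lit 4) (nat_lit 4) (nat_lit 407) (nat_lit 274) (nat_lit 180)))) (XT.nd (nat_lit 94) (nat_lit 84) (nat_lit 0) (XT.lf (nat_lit 0) (nat_lit 13065456888) (nat_lit 168) (nat_lit 3170410562)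 (nat_lit 84) (nat_lit 53197496142) (nat_lit 3) (nat_lit 5) (nat_lit 5) (nat_lit 5) (nat_lit 4) (nat_lit 4) (nat_lit 408) (nat_lit 274) (nat_lit 179)) (XT.nd (nat_lit 94) (nat_lit 0) (nat_lit 0) (XT.lf (nat_lit 0) (nat_lit 682746299) (nat_lit 84) (nat_lit 14305482921) (nat_lit 168) (nat_lit 56514229502) (nat_lit 2) (nat_lit 5) (nat_lit 3) (nat_lit 5) (nat_lit 4) (nat_lit 4) (nat_lit 409) (nat_lit 274) (nat_lit 178)) (XT.lf (nat_lit 0) (nat_lit 4710777536) (nat_lit 84) (nat_lit 12285556873) (nat_lit 168) (nat_lit 56638584399) (nat_lit 2) (nat_lit 5) (nat_lit 3) (nat_lit 5) (nat_lit 4) (nat_lit 4) (nat_lit 410) (nat_lit 274) (nat_lit 177))))) (XT.nd (nat_lit 44744) (nat_lit 0) (nat_lit 7560) (XT.nd (nat_lit 94) (nat_lit 0) (nat_lit 0) (XT.lf (nat_lit 0) (nat_lit 8852247553) (nat_lit 84) (nat_lit 10207299108) (nat_lit 168) (nat_lit 56774179890) (nat_lit 2) (nat_lit 5) (nat_lit 3) (nat_lit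 5) (nat_lit 4) (nat_lit 4) (nat_lit 411) (nat_lit 274) (nat_lit 176)) (XT.nd (nat_lit 44556) (nat_lit 0) (nat_lit 9576) (XT.lf (nat_lit 0) (nat_lit 13111016633) (nat_lit 84) (nat_lit 8068772471) (nat_lit 168) (nat_lit 56921142366) (nat_lit 2) (nat_lit 5) (nat_lit 3) (nat_lit 5) (nat_lit 4) (nat_lit 4) (nat_lit 412) (nat_lit 274) (nat_lit 175)) (XT.lf (nat_lit 0) (nat_lit 1706877728) (nat_lit 924) (nat_lit 212589925) (nat_lit 0) (nat_lit 1706877728) (nat_lit 116) (nat_lit 5) (nat_lit 127) (nat_lit 4) (nat_lit 116) (nat_lit 4) (nat_lit 311) (nat_lit 275) (nat_lit 275)))) (XT.nd (nat_lit 188) (nat_lit 1008) (nat_lit 0) (XT.nd (nat_lit 94) (nat_lit 84) (nat_lit 0) (XT.lf (nat_lit 0) (nat_lit 3309188902) (nat_lit 924) (nat_lit 2711424023) (nat_lit 924) (nat_lit 1305742472) (nat_lit 105) (nat_lit 4) (nat_lit 116) (nat_lit 5) (nat_lit 116) (nat_lit 4) (nat_lit 312) (nat_lit 275) (nat_lit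 274)) (XT.lf (nat_lit 0) (nat_lit 1203910186) (nat_lit 1008) (nat_lit 323955628) (nat_lit 84) (nat_lit 5876940022) (nat_lit 104) (nat_lit 5) (nat_lit 116) (nat_lit 5) (nat_lit 105) (nat_lit 4) (nat_lit 313) (nat_lit 275) (nat_lit 273))) (XT.nd (nat_lit 94) (nat_lit 0) (nat_lit 0) (XT.lf (nat_lit 0) (nat_lit 3465403886) (nat_lit 1008) (nat_lit 255384754) (nat_lit 1092) (nat_lit 3766371225) (nat_lit 92) (nat_lit 5) (nat_lit 104) (nat_lit 5) (nat_lit 105) (nat_lit 4) (nat_lit 314) (nat_lit 275) (nat_lit 272)) (XT.lf (nat_lit 0) (nat_lit 6253387135) (nat_lit 1092) (nat_lit 280332369) (nat_lit 0) (nat_lit 1040801234) (nat_lit 92) (nat_lit 5) (nat_lit 105) (nat_lit 4) (nat_lit 92) (nat_lit 4) (nat_lit 315) (nat_lit 275) (nat_lit 271))))))))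
noncomputable def xc56 : XT := (XT.nd (nat_lit 2256) (nat_lit 1680) (nat_lit 0) (XT.nd (nat_lit 1128) (nat_lit 1848) (nat_lit 0) (XT.nd (nat_lit 564) (nat_lit 1344) (nat_lit 0) (XT.nd (nat_lit 282) (nat_lit 588) (nat_lit 0) (XT.nd (nat_lit 94) (nat_lit 504) (nat_lit 0) (XT.lf (nat_lit 0) (nat_lit 1139003050) (nat_lit 672) (nat_lit 4105954885) (nat_lit 84) (nat_lit 2420892953) (nat_lit 84) (nat_lit 5) (nat_lit 92) (nat_lit 5) (nat_lit 85) (nat_lit 4) (nat_lit 316) (nat_lit 275) (nat_lit 270)) (XT.nd (nat_lit 94) (nat_lit 504) (nat_lit 0) (XT.lf (nat_lit 0) (nat_lit 3577274867) (nat_lit 672) (nat_lit 324226550) (nat_lit 84) (nat_lit 3860759993) (nat_lit 84) (nat_lit 5) (nat_lit 92) (nat_lit 5) (nat_lit 85) (nat_lit 4) (nat_lit 317) (nat_lit 275) (nat_lit 269)) (XT.lf (nat_lit 0) (nat_lit 3573130117) (nat_lit 504) (nat_lit 2482021104) (nat_lit 588) (nat_lit 1808087285) (nat_lit 78) (nat_lit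 5) (nat_lit 84) (nat_lit 5) (nat_lit 85) (nat_lit 4) (nat_lit 318) (nat_lit 275) (nat_lit 268)))) (XT.nd (nat_lit 94) (nat_lit 504) (nat_lit 0) (XT.lf (nat_lit 0) (nat_lit 561811641) (nat_lit 588) (nat_lit 450219901) (nat_lit 84) (nat_lit 6957651709) (nat_lit 77) (nat_lit 5) (nat_lit 84) (nat_lit 5) (nat_lit 78) (nat_lit 5) (nat_lit 319) (nat_lit 275) (nat_lit 267)) (XT.nd (nat_lit 94) (nat_lit 0) (nat_lit 0) (XT.lf (nat_lit 0) (nat_lit 2938705355) (nat_lit 588) (nat_lit 4597860525) (nat_lit 84) (nat_lit 543606907) (nat_lit 71) (nat_lit 5) (nat_lit 78) (nat_lit 5) (nat_lit 72) (nat_lit 4) (nat_lit 320) (nat_lit 275) (nat_lit 266)) (XT.lf (nat_lit 0) (nat_lit 5336684780) (nat_lit 588) (nat_lit 732276399) (nat_lit 84) (nat_lit 2127166111) (nat_lit 71) (nat_lit 5) (nat_lit 78) (nat_lit 5) (nat_lit 72) (nat_lit 4) (nat_lit 321) (nat_lit 275) (nat_lit 265))))) (XT.nd (nat_lit 282) (nat_lit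 420) (nat_lit 0) (XT.nd (nat_lit 94) (nat_lit 504) (nat_lit 0) (XT.lf (nat_lit 0) (nat_lit 3246550460) (nat_lit 420) (nat_lit 4528996638) (nat_lit 504) (nat_lit 541563322) (nat_lit 66) (nat_lit 5) (nat_lit 71) (nat_lit 5) (nat_lit 72) (nat_lit 4) (nat_lit 322) (nat_lit 275) (nat_lit 264)) (XT.nd (nat_lit 94) (nat_lit 420) (nat_lit 0) (XT.lf (nat_lit 0) (nat_lit 1753225998) (nat_lit 504) (nat_lit 1168765483) (nat_lit 84) (nat_lit 5521446563) (nat_lit 65) (nat_lit 5) (nat_lit 71) (nat_lit 5) (nat_lit 66) (nat_lit 5) (nat_lit 323) (nat_lit 275) (nat_lit 263)) (XT.lf (nat_lit 0) (nat_lit 2834763578) (nat_lit 420) (nat_lit 1237799940) (nat_lit 504) (nat_lit 4502404371) (nat_lit 60) (nat_lit 5) (nat_lit 65) (nat_lit 5) (nat_lit 66) (nat_lit 5) (nat_lit 324) (nat_lit 275) (nat_lit 262)))) (XT.nd (nat_lit 94) (nat_lit 420) (nat_lit 0) (XT.lf (nat_lit 0) (nat_lit 6418744334) (nat_lit 504) (nat_lit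 1800371580) (nat_lit 84) (nat_lit 493207302) (nat_lit 60) (nat_lit 5) (nat_lit 66) (nat_lit 5) (nat_lit 61) (nat_lit 4) (nat_lit 325) (nat_lit 275) (nat_lit 261)) (XT.nd (nat_lit 94) (nat_lit 84) (nat_lit 0) (XT.lf (nat_lit 0) (nat_lit 2223627823) (nat_lit 336) (nat_lit 6588294765) (nat_lit 420) (nat_lit 43152485) (nat_lit 56) (nat_lit 5) (nat_lit 60) (nat_lit 5) (nat_lit 61) (nat_lit 4) (nat_lit 326) (nat_lit 275) (nat_lit 260)) (XT.lf (nat_lit 0) (nat_lit 2189890322) (nat_lit 420) (nat_lit 2684871456) (nat_lit 84) (nat_lit 4128390142) (nat_lit 55) (nat_lit 5) (nat_lit 60) (nat_lit 5) (nat_lit 56) (nat_lit 5) (nat_lit 327) (nat_lit 275) (nat_lit 259)))))) (XT.nd (nat_lit 564) (nat_lit 672) (nat_lit 0) (XT.nd (nat_lit 282) (nat_lit 420) (nat_lit 0) (XT.nd (nat_lit 94) (nat_lit 336) (nat_lit 0) (XT.lf (nat_lit 0) (nat_lit 1341815805) (nat_lit 420) (nat_lit 3104313991) (nat_lit 504)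 (nat_lit 4711385675) (nat_lit 50) (nat_lit 5) (nat_lit 55) (nat_lit 5) (nat_lit 56) (nat_lit 5) (nat_lit 328) (nat_lit 275) (nat_lit 258)) (XT.nd (nat_lit 94) (nat_lit 336) (nat_lit 0) (XT.lf (nat_lit 0) (nat_lit 5482119403) (nat_lit 420) (nat_lit 1260856971) (nat_lit 504) (nat_lit 2574898926) (nat_lit 50) (nat_lit 5) (nat_lit 55) (nat_lit 5) (nat_lit 56) (nat_lit 5) (nat_lit 329) (nat_lit 275) (nat_lit 257)) (XT.lf (nat_lit 0) (nat_lit 197198903) (nat_lit 336) (nat_lit 8866389144) (nat_lit 420) (nat_lit 421381304) (nat_lit 46) (nat_lit 5) (nat_lit 50) (nat_lit 5) (nat_lit 51) (nat_lit 4) (nat_lit 330) (nat_lit 275) (nat_lit 256)))) (XT.nd (nat_lit 94) (nat_lit 336) (nat_lit 0) (XT.lf (nat_lit 0) (nat_lit 1760424907) (nat_lit 420) (nat_lit 5319384597) (nat_lit 84) (nat_lit 2577224826) (nat_lit 45) (nat_lit 5) (nat_lit 50) (nat_lit 5) (nat_lit 46) (nat_lit 5) (nat_lit 331) (nat_lit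 275) (nat_lit 255)) (XT.nd (nat_lit 94) (nat_lit 336) (nat_lit 0) (XT.lf (nat_lit 0) (nat_lit 3947215642) (nat_lit 420) (nat_lit 1298945554) (nat_lit 84) (nat_lit 4590076290) (nat_lit 45) (nat_lit 5) (nat_lit 50) (nat_lit 5) (nat_lit 46) (nat_lit 5) (nat_lit 332) (nat_lit 275) (nat_lit 254)) (XT.lf (nat_lit 0) (nat_lit 2838667120) (nat_lit 336) (nat_lit 3339011922) (nat_lit 420) (nat_lit 3844323441) (nat_lit 41) (nat_lit 5) (nat_lit 45) (nat_lit 5) (nat_lit 46) (nat_lit 5) (nat_lit 333) (nat_lit 275) (nat_lit 253))))) (XT.nd (nat_lit 282) (nat_lit 336) (nat_lit 0) (XT.nd (nat_lit 94) (nat_lit 336) (nat_lit 0) (XT.lf (nat_lit 0) (nat_lit 7068084508) (nat_lit 336) (nat_lit 1371419861) (nat_lit 420) (nat_lit 1775444184) (nat_lit 41) (nat_lit 5) (nat_lit 45) (nat_lit 5) (nat_lit 46) (nat_lit 5) (nat_lit 334) (nat_lit 275) (nat_lit 252)) (XT.nd (nat_lit 94) (nat_lit 0) (nat_lit 0) (XT.lf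 (nat_lit 0) (nat_lit 315943700) (nat_lit 336) (nat_lit 9454467417) (nat_lit 84) (nat_lit 644658199) (nat_lit 37) (nat_lit 5) (nat_lit 41) (nat_lit 5) (nat_lit 38) (nat_lit 5) (nat_lit 335) (nat_lit 275) (nat_lit 251)) (XT.lf (nat_lit 0) (nat_lit 2432716743) (nat_lit 336) (nat_lit 5455132143) (nat_lit 84) (nat_lit 2733290747) (nat_lit 37) (nat_lit 5) (nat_lit 41) (nat_lit 5) (nat_lit 38) (nat_lit 5) (nat_lit 336) (nat_lit 275) (nat_lit 250)))) (XT.nd (nat_lit 94) (nat_lit 336) (nat_lit 0) (XT.lf (nat_lit 0) (nat_lit 4566829570) (nat_lit 336) (nat_lit 1394229467) (nat_lit 84) (nat_lit 4874258016) (nat_lit 37) (nat_lit 5) (nat_lit 41) (nat_lit 5) (nat_lit 38) (nat_lit 5) (nat_lit 337) (nat_lit 275) (nat_lit 249)) (XT.nd (nat_lit 94) (nat_lit 0) (nat_lit 0) (XT.lf (nat_lit 0) (nat_lit 2788201851) (nat_lit 336) (nat_lit 3959728854) (nat_lit 420) (nat_lit 4309013070) (nat_lit 33) (nat_lit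 5) (nat_lit 37) (nat_lit 5) (nat_lit 38) (nat_lit 5) (nat_lit 338) (nat_lit 275) (nat_lit 248)) (XT.lf (nat_lit 0) (nat_lit 7069922944) (nat_lit 336) (nat_lit 1895261026) (nat_lit 420) (nat_lit 2321441352) (nat_lit 33) (nat_lit 5) (nat_lit 37) (nat_lit 5) (nat_lit 38) (nat_lit 5) (nat_lit 339) (nat_lit 275) (nat_lit 247))))))) (XT.nd (nat_lit 1128) (nat_lit 588) (nat_lit 0) (XT.nd (nat_lit 564) (nat_lit 504) (nat_lit 0) (XT.nd (nat_lit 282) (nat_lit 252) (nat_lit 0) (XT.nd (nat_lit 94) (nat_lit 336) (nat_lit 0) (XT.lf (nat_lit 0) (nat_lit 11208720366) (nat_lit 420) (nat_lit 100936359) (nat_lit 84) (nat_lit 215289065) (nat_lit 33) (nat_lit 5) (nat_lit 38) (nat_lit 5) (nat_lit 34) (nat_lit 4) (nat_lit 340) (nat_lit 275) (nat_lit 246)) (XT.nd (nat_lit 94) (nat_lit 0) (nat_lit 0) (XT.lf (nat_lit 0) (nat_lit 1732974707) (nat_lit 336) (nat_lit 7639022729) (nat_lit 84) (nat_lit 2397778778)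 (nat_lit 29) (nat_lit 5) (nat_lit 33) (nat_lit 5) (nat_lit 30) (nat_lit 5) (nat_lit 341) (nat_lit 275) (nat_lit 245)) (XT.lf (nat_lit 0) (nat_lit 3796891149) (nat_lit 336) (nat_lit 3587915785) (nat_lit 84) (nat_lit 4638783671) (nat_lit 29) (nat_lit 5) (nat_lit 33) (nat_lit 5) (nat_lit 30) (nat_lit 5) (nat_lit 342) (nat_lit 275) (nat_lit 244)))) (XT.nd (nat_lit 94) (nat_lit 0) (nat_lit 0) (XT.lf (nat_lit 0) (nat_lit 543199301) (nat_lit 252) (nat_lit 5344975885) (nat_lit 336) (nat_lit 6398412562) (nat_lit 26) (nat_lit 5) (nat_lit 29) (nat_lit 5) (nat_lit 30) (nat_lit 5) (nat_lit 343) (nat_lit 275) (nat_lit 243)) (XT.nd (nat_lit 94) (nat_lit 0) (nat_lit 0) (XT.lf (nat_lit 0) (nat_lit 4822492677) (nat_lit 252) (nat_lit 3217952328) (nat_lit 336) (nat_lit 4517586043) (nat_lit 26) (nat_lit 5) (nat_lit 29) (nat_lit 5) (nat_lit 30) (nat_lit 5) (nat_lit 344) (nat_lit 275) (nat_lit 242)) (XT.lf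 (nat_lit 0) (nat_lit 9180178184) (nat_lit 252) (nat_lit 1039204136) (nat_lit 336) (nat_lit 2619917256) (nat_lit 26) (nat_lit 5) (nat_lit 29) (nat_lit 5) (nat_lit 30) (nat_lit 5) (nat_lit 345) (nat_lit 275) (nat_lit 241))))) (XT.nd (nat_lit 282) (nat_lit 252) (nat_lit 0) (XT.nd (nat_lit 94) (nat_lit 84) (nat_lit 0) (XT.lf (nat_lit 0) (nat_lit 487649510) (nat_lit 168) (nat_lit 11956043841) (nat_lit 252) (nat_lit 686445219) (nat_lit 24) (nat_lit 5) (nat_lit 26) (nat_lit 5) (nat_lit 27) (nat_lit 4) (nat_lit 346) (nat_lit 275) (nat_lit 240)) (XT.nd (nat_lit 94) (nat_lit 0) (nat_lit 0) (XT.lf (nat_lit 0) (nat_lit 1290955147) (nat_lit 252) (nat_lit 8666526304) (nat_lit 84) (nat_lit 3471944252) (nat_lit 23) (nat_lit 5) (nat_lit 26) (nat_lit 5) (nat_lit 24) (nat_lit 5) (nat_lit 347) (nat_lit 275) (nat_lit 239)) (XT.lf (nat_lit 0) (nat_lit 3277675330) (nat_lit 252) (nat_lit 4626971519) (nat_lit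 84) (nat_lit 5834445019) (nat_lit 23) (nat_lit 5) (nat_lit 26) (nat_lit 5) (nat_lit 24) (nat_lit 5) (nat_lit 348) (nat_lit 275) (nat_lit 238)))) (XT.nd (nat_lit 94) (nat_lit 252) (nat_lit 0) (XT.lf (nat_lit 0) (nat_lit 5289397500) (nat_lit 252) (nat_lit 513249796) (nat_lit 84) (nat_lit 8256989508) (nat_lit 23) (nat_lit 5) (nat_lit 26) (nat_lit 5) (nat_lit 24) (nat_lit 5) (nat_lit 349) (nat_lit 275) (nat_lit 237)) (XT.nd (nat_lit 94) (nat_lit 0) (nat_lit 0) (XT.lf (nat_lit 0) (nat_lit 3754110239) (nat_lit 252) (nat_lit 3611127793) (nat_lit 336) (nat_lit 7024966781) (nat_lit 20) (nat_lit 5) (nat_lit 23) (nat_lit 5) (nat_lit 24) (nat_lit 5) (nat_lit 350) (nat_lit 275) (nat_lit 236)) (XT.lf (nat_lit 0) (nat_lit 8115616433) (nat_lit 252) (nat_lit 1360264887) (nat_lit 336) (nat_lit 5256191466) (nat_lit 20) (nat_lit 5) (nat_lit 23) (nat_lit 5) (nat_lit 24) (nat_lit 5) (nat_lit 351) (nat_lit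 275) (nat_lit 235)))))) (XT.nd (nat_lit 564) (nat_lit 168) (nat_lit 0) (XT.nd (nat_lit 282) (nat_lit 168) (nat_lit 0) (XT.nd (nat_lit 94) (nat_lit 252) (nat_lit 0) (XT.lf (nat_lit 0) (nat_lit 11627489716) (nat_lit 336) (nat_lit 2530330971) (nat_lit 84) (nat_lit 927608649) (nat_lit 20) (nat_lit 5) (nat_lit 24) (nat_lit 5) (nat_lit 21) (nat_lit 4) (nat_lit 352) (nat_lit 275) (nat_lit 234)) (XT.nd (nat_lit 94) (nat_lit 84) (nat_lit 0) (XT.lf (nat_lit 0) (nat_lit 1654758230) (nat_lit 168) (nat_lit 12188397649) (nat_lit 252) (nat_lit 1606794244) (nat_lit 18) (nat_lit 5) (nat_lit 20) (nat_lit 5) (nat_lit 21) (nat_lit 4) (nat_lit 353) (nat_lit 275) (nat_lit 233)) (XT.lf (nat_lit 0) (nat_lit 289443883) (nat_lit 252) (nat_lit 9852442146) (nat_lit 84) (nat_lit 5684105536) (nat_lit 17) (nat_lit 5) (nat_lit 20) (nat_lit 5) (nat_lit 18) (nat_lit 5) (nat_lit 354) (nat_lit 275) (nat_lit 232)))) (XT.nd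 (nat_lit 94) (nat_lit 168) (nat_lit 0) (XT.lf (nat_lit 0) (nat_lit 2179182555) (nat_lit 252) (nat_lit 5849927395) (nat_lit 84) (nat_lit 8185177033) (nat_lit 17) (nat_lit 5) (nat_lit 20) (nat_lit 5) (nat_lit 18) (nat_lit 5) (nat_lit 355) (nat_lit 275) (nat_lit 231)) (XT.nd (nat_lit 94) (nat_lit 168) (nat_lit 0) (XT.lf (nat_lit 0) (nat_lit 4096556527) (nat_lit 252) (nat_lit 1767977282) (nat_lit 84) (nat_lit 10751158629) (nat_lit 17) (nat_lit 5) (nat_lit 20) (nat_lit 5) (nat_lit 18) (nat_lit 5) (nat_lit 356) (nat_lit 275) (nat_lit 230)) (XT.lf (nat_lit 0) (nat_lit 2446504613) (nat_lit 168) (nat_lit 3621118009) (nat_lit 252) (nat_lit 10962207102) (nat_lit 15) (nat_lit 5) (nat_lit 17) (nat_lit 5) (nat_lit 18) (nat_lit 5) (nat_lit 357) (nat_lit 275) (nat_lit 229))))) (XT.nd (nat_lit 282) (nat_lit 168) (nat_lit 0) (XT.nd (nat_lit 94) (nat_lit 0) (nat_lit 0) (XT.lf (nat_lit 0) (nat_lit 6786253729)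 (nat_lit 168) (nat_lit 1302453322) (nat_lit 252) (nat_lit 9368548653) (nat_lit 15) (nat_lit 5) (nat_lit 17) (nat_lit 5) (nat_lit 18) (nat_lit 5) (nat_lit 358) (nat_lit 275) (nat_lit 228)) (XT.nd (nat_lit 94) (nat_lit 0) (nat_lit 0) (XT.lf (nat_lit 0) (nat_lit 10154460287) (nat_lit 252) (nat_lit 6690627524) (nat_lit 84) (nat_lit 1053505204) (nat_lit 15) (nat_lit 5) (nat_lit 18) (nat_lit 5) (nat_lit 16) (nat_lit 4) (nat_lit 359) (nat_lit 275) (nat_lit 227)) (XT.lf (nat_lit 0) (nat_lit 12269659426) (nat_lit 252) (nat_lit 2641343232) (nat_lit 84) (nat_lit 3443161974) (nat_lit 15) (nat_lit 5) (nat_lit 18) (nat_lit 5) (nat_lit 16) (nat_lit 4) (nat_lit 360) (nat_lit 275) (nat_lit 226)))) (XT.nd (nat_lit 94) (nat_lit 0) (nat_lit 0) (XT.lf (nat_lit 0) (nat_lit 1524256120) (nat_lit 168) (nat_lit 12914220248) (nat_lit 252) (nat_lit 4385850619) (nat_lit 13) (nat_lit 5) (nat_lit 15) (nat_lit 5)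 (nat_lit 16) (nat_lit 4) (nat_lit 361) (nat_lit 275) (nat_lit 225)) (XT.nd (nat_lit 94) (nat_lit 0) (nat_lit 0) (XT.lf (nat_lit 0) (nat_lit 5835465210) (nat_lit 168) (nat_lit 10839979482) (nat_lit 252) (nat_lit 2633685754) (nat_lit 13) (nat_lit 5) (nat_lit 15) (nat_lit 5) (nat_lit 16) (nat_lit 4) (nat_lit 362) (nat_lit 275) (nat_lit 224)) (XT.lf (nat_lit 0) (nat_lit 10241991103) (nat_lit 168) (nat_lit 8713917156) (nat_lit 252) (nat_lit 853947617) (nat_lit 13) (nat_lit 5) (nat_lit 15) (nat_lit 5) (nat_lit 16) (nat_lit 4) (nat_lit 363) (nat_lit 275) (nat_lit 223))))))))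
noncomputable def xc57 : XT := (XT.nd (nat_lit 2256) (nat_lit 252) (nat_lit 0) (XT.nd (nat_lit 1128) (nat_lit 336) (nat_lit 0) (XT.nd (nat_lit 564) (nat_lit 84) (nat_lit 0) (XT.nd (nat_lit 282) (nat_lit 0) (nat_lit 0) (XT.nd (nat_lit 94) (nat_lit 168) (nat_lit 0) (XT.lf (nat_lit 0) (nat_lit 935781115) (nat_lit 252) (nat_lit 5588502807) (nat_lit 84) (nat_lit 13802392390) (nat_lit 12) (nat_lit 5) (nat_lit 15) (nat_lit 5) (nat_lit 13) (nat_lit 5) (nat_lit 364) (nat_lit 275) (nat_lit 222)) (XT.nd (nat_lit 94) (nat_lit 168) (nat_lit 0) (XT.lf (nat_lit 0) (nat_lit 2738600096) (nat_lit 252) (nat_lit 1531165360) (nat_lit 84) (nat_lit 16590329878) (nat_lit 12) (nat_lit 5) (nat_lit 15) (nat_lit 5) (nat_lit 13) (nat_lit 5) (nat_lit 365) (nat_lit 275) (nat_lit 221)) (XT.lf (nat_lit 0) (nat_lit 2670199259) (nat_lit 168) (nat_lit 1929684329) (nat_lit 252) (nat_lit 16810168016) (nat_lit 10) (nat_lit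 5) (nat_lit 12) (nat_lit 5) (nat_lit 13) (nat_lit 5) (nat_lit 366) (nat_lit 275) (nat_lit 220)))) (XT.nd (nat_lit 94) (nat_lit 0) (nat_lit 0) (XT.lf (nat_lit 0) (nat_lit 6516146142) (nat_lit 252) (nat_lit 14983131176) (nat_lit 84) (nat_lit 477942254) (nat_lit 10) (nat_lit 5) (nat_lit 13) (nat_lit 5) (nat_lit 11) (nat_lit 4) (nat_lit 367) (nat_lit 275) (nat_lit 219)) (XT.nd (nat_lit 94) (nat_lit 0) (nat_lit 0) (XT.lf (nat_lit 0) (nat_lit 8488603055) (nat_lit 252) (nat_lit 11164490798) (nat_lit 84) (nat_lit 2909051738) (nat_lit 10) (nat_lit 5) (nat_lit 13) (nat_lit 5) (nat_lit 11) (nat_lit 4) (nat_lit 368) (nat_lit 275) (nat_lit 218)) (XT.lf (nat_lit 0) (nat_lit 10499950158) (nat_lit 252) (nat_lit 7261229131) (nat_lit 84) (nat_lit 5404789009) (nat_lit 10) (nat_lit 5) (nat_lit 13) (nat_lit 5) (nat_lit 11) (nat_lit 4) (nat_lit 369) (nat_lit 275) (nat_lit 217))))) (XT.nd (nat_lit 282) (nat_lit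 0) (nat_lit 0) (XT.nd (nat_lit 94) (nat_lit 84) (nat_lit 0) (XT.lf (nat_lit 0) (nat_lit 12552062236) (nat_lit 252) (nat_lit 3269707928) (nat_lit 84) (nat_lit 7967480357) (nat_lit 10) (nat_lit 5) (nat_lit 13) (nat_lit 5) (nat_lit 11) (nat_lit 4) (nat_lit 370) (nat_lit 275) (nat_lit 216)) (XT.nd (nat_lit 94) (nat_lit 0) (nat_lit 0) (XT.lf (nat_lit 0) (nat_lit 830526587) (nat_lit 84) (nat_lit 13824564413) (nat_lit 168) (nat_lit 9777226817) (nat_lit 9) (nat_lit 5) (nat_lit 10) (nat_lit 5) (nat_lit 11) (nat_lit 4) (nat_lit 371) (nat_lit 275) (nat_lit 215)) (XT.lf (nat_lit 0) (nat_lit 5095748872) (nat_lit 84) (nat_lit 11741073823) (nat_lit 168) (nat_lit 8258146291) (nat_lit 9) (nat_lit 5) (nat_lit 10) (nat_lit 5) (nat_lit 11) (nat_lit 4) (nat_lit 372) (nat_lit 275) (nat_lit 214)))) (XT.nd (nat_lit 94) (nat_lit 0) (nat_lit 0) (XT.lf (nat_lit 0) (nat_lit 9462702657) (nat_lit 84) (nat_lit 9603485407)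 (nat_lit 168) (nat_lit 6712659811) (nat_lit 9) (nat_lit 5) (nat_lit 10) (nat_lit 5) (nat_lit 11) (nat_lit 4) (nat_lit 373) (nat_lit 275) (nat_lit 213)) (XT.nd (nat_lit 94) (nat_lit 0) (nat_lit 0) (XT.lf (nat_lit 0) (nat_lit 13935458401) (nat_lit 84) (nat_lit 7409806710) (nat_lit 168) (nat_lit 5139326822) (nat_lit 9) (nat_lit 5) (nat_lit 10) (nat_lit 5) (nat_lit 11) (nat_lit 4) (nat_lit 374) (nat_lit 275) (nat_lit 212)) (XT.lf (nat_lit 0) (nat_lit 18518185181) (nat_lit 84) (nat_lit 5157992993) (nat_lit 168) (nat_lit 3536680812) (nat_lit 9) (nat_lit 5) (nat_lit 10) (nat_lit 5) (nat_lit 11) (nat_lit 4) (nat_lit 375) (nat_lit 275) (nat_lit 211)))))) (XT.nd (nat_lit 564) (nat_lit 84) (nat_lit 0) (XT.nd (nat_lit 282) (nat_lit 0) (nat_lit 0) (XT.nd (nat_lit 94) (nat_lit 252) (nat_lit 0) (XT.lf (nat_lit 0) (nat_lit 23215154578) (nat_lit 84) (nat_lit 2845945330) (nat_lit 168) (nat_lit 1903227948)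 (nat_lit 9) (nat_lit 5) (nat_lit 10) (nat_lit 5) (nat_lit 11) (nat_lit 4) (nat_lit 376) (nat_lit 275) (nat_lit 210)) (XT.nd (nat_lit 94) (nat_lit 252) (nat_lit 0) (XT.lf (nat_lit 0) (nat_lit 28030744660) (nat_lit 84) (nat_lit 471508650) (nat_lit 168) (nat_lit 237445679) (nat_lit 9) (nat_lit 5) (nat_lit 10) (nat_lit 5) (nat_lit 11) (nat_lit 4) (nat_lit 377) (nat_lit 275) (nat_lit 209)) (XT.lf (nat_lit 0) (nat_lit 1487354635) (nat_lit 252) (nat_lit 26072725752) (nat_lit 84) (nat_lit 1977472573) (nat_lit 6) (nat_lit 5) (nat_lit 9) (nat_lit 5) (nat_lit 7) (nat_lit 4) (nat_lit 378) (nat_lit 275) (nat_lit 208)))) (XT.nd (nat_lit 94) (nat_lit 0) (nat_lit 0) (XT.lf (nat_lit 0) (nat_lit 3255761226) (nat_lit 252) (nat_lit 22611022448) (nat_lit 84) (nat_lit 4493487207) (nat_lit 6) (nat_lit 5) (nat_lit 9) (nat_lit 5) (nat_lit 7) (nat_lit 4) (nat_lit 379) (nat_lit 275) (nat_lit 207)) (XT.nd (nat_lit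 94) (nat_lit 0) (nat_lit 0) (XT.lf (nat_lit 0) (nat_lit 5062278076) (nat_lit 252) (nat_lit 19068010474) (nat_lit 84) (nat_lit 7078773864) (nat_lit 6) (nat_lit 5) (nat_lit 9) (nat_lit 5) (nat_lit 7) (nat_lit 4) (nat_lit 380) (nat_lit 275) (nat_lit 206)) (XT.lf (nat_lit 0) (nat_lit 6908589046) (nat_lit 252) (nat_lit 15440387371) (nat_lit 84) (nat_lit 9735742301) (nat_lit 6) (nat_lit 5) (nat_lit 9) (nat_lit 5) (nat_lit 7) (nat_lit 4) (nat_lit 381) (nat_lit 275) (nat_lit 205))))) (XT.nd (nat_lit 282) (nat_lit 84) (nat_lit 0) (XT.nd (nat_lit 94) (nat_lit 0) (nat_lit 0) (XT.lf (nat_lit 0) (nat_lit 8796415092) (nat_lit 252) (nat_lit 11724771815) (nat_lit 84) (nat_lit 12466869091) (nat_lit 6) (nat_lit 5) (nat_lit 9) (nat_lit 5) (nat_lit 7) (nat_lit 4) (nat_lit 382) (nat_lit 275) (nat_lit 204)) (XT.nd (nat_lit 94) (nat_lit 0) (nat_lit 0) (XT.lf (nat_lit 0) (nat_lit 10727515867) (nat_lit 252)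 (nat_lit 7917700463) (nat_lit 84) (nat_lit 15274699930) (nat_lit 6) (nat_lit 5) (nat_lit 9) (nat_lit 5) (nat_lit 7) (nat_lit 4) (nat_lit 383) (nat_lit 275) (nat_lit 203)) (XT.lf (nat_lit 0) (nat_lit 12703691357) (nat_lit 252) (nat_lit 4015624726) (nat_lit 84) (nat_lit 18161852012) (nat_lit 6) (nat_lit 5) (nat_lit 9) (nat_lit 5) (nat_lit 7) (nat_lit 4) (nat_lit 384) (nat_lit 275) (nat_lit 202)))) (XT.nd (nat_lit 94) (nat_lit 84) (nat_lit 0) (XT.lf (nat_lit 0) (nat_lit 14726783566) (nat_lit 252) (nat_lit 14907460) (nat_lit 84) (nat_lit 21131016464) (nat_lit 6) (nat_lit 5) (nat_lit 9) (nat_lit 5) (nat_lit 7) (nat_lit 4) (nat_lit 385) (nat_lit 275) (nat_lit 201)) (XT.nd (nat_lit 94) (nat_lit 0) (nat_lit 0) (XT.lf (nat_lit 0) (nat_lit 4172241796) (nat_lit 84) (nat_lit 12667825586) (nat_lit 168) (nat_lit 20054108216) (nat_lit 5) (nat_lit 5) (nat_lit 6) (nat_lit 5) (nat_lit 7) (nat_lit 4)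 (nat_lit 386) (nat_lit 275) (nat_lit 200)) (XT.lf (nat_lit 0) (nat_lit 8468076295) (nat_lit 84) (nat_lit 10537234634) (nat_lit 168) (nat_lit 18942459861) (nat_lit 5) (nat_lit 5) (nat_lit 6) (nat_lit 5) (nat_lit 7) (nat_lit 4) (nat_lit 387) (nat_lit 275) (nat_lit 199))))))) (XT.nd (nat_lit 1128) (nat_lit 168) (nat_lit 0) (XT.nd (nat_lit 564) (nat_lit 84) (nat_lit 0) (XT.nd (nat_lit 282) (nat_lit 0) (nat_lit 0) (XT.nd (nat_lit 94) (nat_lit 0) (nat_lit 0) (XT.lf (nat_lit 0) (nat_lit 12876293675) (nat_lit 84) (nat_lit 8348087841) (nat_lit 168) (nat_lit 17810098287) (nat_lit 5) (nat_lit 5) (nat_lit 6) (nat_lit 5) (nat_lit 7) (nat_lit 4) (nat_lit 388) (nat_lit 275) (nat_lit 198)) (XT.nd (nat_lit 94) (nat_lit 0) (nat_lit 0) (XT.lf (nat_lit 0) (nat_lit 17401002856) (nat_lit 84) (nat_lit 6098344691) (nat_lit 168) (nat_lit 16655968017) (nat_lit 5) (nat_lit 5) (nat_lit 6) (nat_lit 5) (nat_lit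 7) (nat_lit 4) (nat_lit 389) (nat_lit 275) (nat_lit 197)) (XT.lf (nat_lit 0) (nat_lit 22046421343) (nat_lit 84) (nat_lit 3785908189) (nat_lit 168) (nat_lit 15478993279) (nat_lit 5) (nat_lit 5) (nat_lit 6) (nat_lit 5) (nat_lit 7) (nat_lit 4) (nat_lit 390) (nat_lit 275) (nat_lit 196)))) (XT.nd (nat_lit 94) (nat_lit 0) (nat_lit 0) (XT.lf (nat_lit 0) (nat_lit 26816879151) (nat_lit 84) (nat_lit 1408622901) (nat_lit 168) (nat_lit 14278077009) (nat_lit 5) (nat_lit 5) (nat_lit 6) (nat_lit 5) (nat_lit 7) (nat_lit 4) (nat_lit 391) (nat_lit 275) (nat_lit 195)) (XT.nd (nat_lit 94) (nat_lit 0) (nat_lit 0) (XT.lf (nat_lit 0) (nat_lit 30691370336) (nat_lit 168) (nat_lit 12026647319) (nat_lit 0) (nat_lit 1014859458) (nat_lit 5) (nat_lit 5) (nat_lit 7) (nat_lit 4) (nat_lit 5) (nat_lit 4) (nat_lit 392) (nat_lit 275) (nat_lit 194)) (XT.lf (nat_lit 0) (nat_lit 33236610319) (nat_lit 168) (nat_lit 8285709627)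 (nat_lit 0) (nat_lit 3477907153) (nat_lit 5) (nat_lit 5) (nat_lit 7) (nat_lit 4) (nat_lit 5) (nat_lit 4) (nat_lit 393) (nat_lit 275) (nat_lit 193))))) (XT.nd (nat_lit 282) (nat_lit 0) (nat_lit 0) (XT.nd (nat_lit 94) (nat_lit 84) (nat_lit 0) (XT.lf (nat_lit 0) (nat_lit 35849620718) (nat_lit 168) (nat_lit 4446426177) (nat_lit 0) (nat_lit 6011196612) (nat_lit 5) (nat_lit 5) (nat_lit 7) (nat_lit 4) (nat_lit 5) (nat_lit 4) (nat_lit 394) (nat_lit 275) (nat_lit 192)) (XT.nd (nat_lit 94) (nat_lit 84) (nat_lit 0) (XT.lf (nat_lit 0) (nat_lit 38532837133) (nat_lit 168) (nat_lit 505218353) (nat_lit 0) (nat_lit 8617089128) (nat_lit 5) (nat_lit 5) (nat_lit 7) (nat_lit 4) (nat_lit 5) (nat_lit 4) (nat_lit 395) (nat_lit 275) (nat_lit 191)) (XT.lf (nat_lit 0) (nat_lit 3614409763) (nat_lit 84) (nat_lit 37710206231) (nat_lit 84) (nat_lit 7719459294) (nat_lit 4) (nat_lit 4) (nat_lit 5) (nat_lit 5) (nat_lit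 5) (nat_lit 4) (nat_lit 396) (nat_lit 275) (nat_lit 190)))) (XT.nd (nat_lit 94) (nat_lit 0) (nat_lit 0) (XT.lf (nat_lit 0) (nat_lit 7856045117) (nat_lit 84) (nat_lit 36341847757) (nat_lit 84) (nat_lit 6278356948) (nat_lit 4) (nat_lit 4) (nat_lit 5) (nat_lit 5) (nat_lit 5) (nat_lit 4) (nat_lit 397) (nat_lit 275) (nat_lit 189)) (XT.nd (nat_lit 94) (nat_lit 0) (nat_lit 0) (XT.lf (nat_lit 0) (nat_lit 12213253030) (nat_lit 84) (nat_lit 34936978055) (nat_lit 84) (nat_lit 4802930630) (nat_lit 4) (nat_lit 4) (nat_lit 5) (nat_lit 5) (nat_lit 5) (nat_lit 4) (nat_lit 398) (nat_lit 275) (nat_lit 188)) (XT.lf (nat_lit 0) (nat_lit 16690094877) (nat_lit 84) (nat_lit 33494287640) (nat_lit 84) (nat_lit 3291805088) (nat_lit 4) (nat_lit 4) (nat_lit 5) (nat_lit 5) (nat_lit 5) (nat_lit 4) (nat_lit 399) (nat_lit 275) (nat_lit 187)))))) (XT.nd (nat_lit 564) (nat_lit 84) (nat_lit 0) (XT.nd (nat_lit 282) (nat_lit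 0) (nat_lit 0) (XT.nd (nat_lit 94) (nat_lit 84) (nat_lit 0) (XT.lf (nat_lit 0) (nat_lit 21290743544) (nat_lit 84) (nat_lit 32012431774) (nat_lit 84) (nat_lit 1743571794) (nat_lit 4) (nat_lit 4) (nat_lit 5) (nat_lit 5) (nat_lit 5) (nat_lit 4) (nat_lit 400) (nat_lit 275) (nat_lit 186)) (XT.nd (nat_lit 94) (nat_lit 84) (nat_lit 0) (XT.lf (nat_lit 0) (nat_lit 26019487316) (nat_lit 84) (nat_lit 30490029210) (nat_lit 84) (nat_lit 156787632) (nat_lit 4) (nat_lit 4) (nat_lit 5) (nat_lit 5) (nat_lit 5) (nat_lit 4) (nat_lit 401) (nat_lit 275) (nat_lit 185)) (XT.lf (nat_lit 0) (nat_lit 1440408688) (nat_lit 168) (nat_lit 27470217310) (nat_lit 84) (nat_lit 29425290277) (nat_lit 3) (nat_lit 5) (nat_lit 5) (nat_lit 5) (nat_lit 4) (nat_lit 4) (nat_lit 402) (nat_lit 275) (nat_lit 184)))) (XT.nd (nat_lit 94) (nat_lit 0) (nat_lit 0) (XT.lf (nat_lit 0) (nat_lit 3075155300) (nat_lit 168) (nat_lit 24210615107)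 (nat_lit 84) (nat_lit 32771760807) (nat_lit 3) (nat_lit 5) (nat_lit 5) (nat_lit 5) (nat_lit 4) (nat_lit 4) (nat_lit 403) (nat_lit 275) (nat_lit 183)) (XT.nd (nat_lit 94) (nat_lit 0) (nat_lit 0) (XT.lf (nat_lit 0) (nat_lit 4752134880) (nat_lit 168) (nat_lit 20863416588) (nat_lit 84) (nat_lit 36217250446) (nat_lit 3) (nat_lit 5) (nat_lit 5) (nat_lit 5) (nat_lit 4) (nat_lit 4) (nat_lit 404) (nat_lit 275) (nat_lit 182)) (XT.lf (nat_lit 0) (nat_lit 6472910548) (nat_lit 168) (nat_lit 17425501816) (nat_lit 84) (nat_lit 39764970752) (nat_lit 3) (nat_lit 5) (nat_lit 5) (nat_lit 5) (nat_lit 4) (nat_lit 4) (nat_lit 405) (nat_lit 275) (nat_lit 181))))) (XT.nd (nat_lit 282) (nat_lit 84) (nat_lit 0) (XT.nd (nat_lit 94) (nat_lit 0) (nat_lit 0) (XT.lf (nat_lit 0) (nat_lit 8239086247) (nat_lit 168) (nat_lit 13893666293) (nat_lit 84) (nat_lit 43418228571) (nat_lit 3) (nat_lit 5) (nat_lit 5) (nat_lit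 5) (nat_lit 4) (nat_lit 4) (nat_lit 406) (nat_lit 275) (nat_lit 180)) (XT.nd (nat_lit 94) (nat_lit 0) (nat_lit 0) (XT.lf (nat_lit 0) (nat_lit 10052308239) (nat_lit 168) (nat_lit 10264617978) (nat_lit 84) (nat_lit 47180429122) (nat_lit 3) (nat_lit 5) (nat_lit 5) (nat_lit 5) (nat_lit 4) (nat_lit 4) (nat_lit 407) (nat_lit 275) (nat_lit 179)) (XT.lf (nat_lit 0) (nat_lit 11914266636) (nat_lit 168) (nat_lit 6534974219) (nat_lit 84) (nat_lit 51055079171) (nat_lit 3) (nat_lit 5) (nat_lit 5) (nat_lit 5) (nat_lit 4) (nat_lit 4) (nat_lit 408) (nat_lit 275) (nat_lit 178)))) (XT.nd (nat_lit 188) (nat_lit 0) (nat_lit 0) (XT.nd (nat_lit 94) (nat_lit 84) (nat_lit 0) (XT.lf (nat_lit 0) (nat_lit 13826696978) (nat_lit 168) (nat_lit 2701258596) (nat_lit 84) (nat_lit 55045790297) (nat_lit 3) (nat_lit 5) (nat_lit 5) (nat_lit 5) (nat_lit 4) (nat_lit 4) (nat_lit 409) (nat_lit 275) (nat_lit 177)) (XT.lf (nat_lit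 0) (nat_lit 1265601361) (nat_lit 84) (nat_lit 14538335411) (nat_lit 168) (nat_lit 57903235821) (nat_lit 2) (nat_lit 5) (nat_lit 3) (nat_lit 5) (nat_lit 4) (nat_lit 4) (nat_lit 410) (nat_lit 275) (nat_lit 176))) (XT.nd (nat_lit 94) (nat_lit 0) (nat_lit 0) (XT.lf (nat_lit 0) (nat_lit 5401612733) (nat_lit 84) (nat_lit 12462124480) (nat_lit 168) (nat_lit 58042358405) (nat_lit 2) (nat_lit 5) (nat_lit 3) (nat_lit 5) (nat_lit 4) (nat_lit 4) (nat_lit 411) (nat_lit 275) (nat_lit 175)) (XT.lf (nat_lit 0) (nat_lit 9655087298) (nat_lit 84) (nat_lit 10325583133) (nat_lit 168) (nat_lit 58192741921) (nat_lit 2) (nat_lit 5) (nat_lit 3) (nat_lit 5) (nat_lit 4) (nat_lit 4) (nat_lit 412) (nat_lit 275) (nat_lit 174))))))))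
noncomputable def xc58 : XT := (XT.nd (nat_lit 2256) (nat_lit 2520) (nat_lit 0) (XT.nd (nat_lit 1128) (nat_lit 2184) (nat_lit 0) (XT.nd (nat_lit 564) (nat_lit 1764) (nat_lit 0) (XT.nd (nat_lit 282) (nat_lit 2016) (nat_lit 0) (XT.nd (nat_lit 94) (nat_lit 924) (nat_lit 0) (XT.lf (nat_lit 0) (nat_lit 3312315429) (nat_lit 756) (nat_lit 123119026) (nat_lit 756) (nat_lit 123119026) (nat_lit 127) (nat_lit 4) (nat_lit 136) (nat_lit 5) (nat_lit 136) (nat_lit 4) (nat_lit 309) (nat_lit 276) (nat_lit 276)) (XT.nd (nat_lit 94) (nat_lit 0) (nat_lit 0) (XT.lf (nat_lit 0) (nat_lit 2288249855) (nat_lit 924) (nat_lit 4056006566) (nat_lit 0) (nat_lit 838992175) (nat_lit 116) (nat_lit 5) (nat_lit 127) (nat_lit 4) (nat_lit 116) (nat_lit 4) (nat_lit 310) (nat_lit 276) (nat_lit 275)) (XT.lf (nat_lit 0) (nat_lit 4823352359) (nat_lit 924) (nat_lit 462445420) (nat_lit 0) (nat_lit 1968413129) (nat_lit 116) (nat_lit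 5) (nat_lit 127) (nat_lit 4) (nat_lit 116) (nat_lit 4) (nat_lit 311) (nat_lit 276) (nat_lit 274)))) (XT.nd (nat_lit 94) (nat_lit 1008) (nat_lit 0) (XT.lf (nat_lit 0) (nat_lit 60383718) (nat_lit 1008) (nat_lit 4095715564) (nat_lit 84) (nat_lit 3173254787) (nat_lit 104) (nat_lit 5) (nat_lit 116) (nat_lit 5) (nat_lit 105) (nat_lit 4) (nat_lit 312) (nat_lit 276) (nat_lit 273)) (XT.nd (nat_lit 94) (nat_lit 1008) (nat_lit 0) (XT.lf (nat_lit 0) (nat_lit 2505408866) (nat_lit 1008) (nat_lit 452290113) (nat_lit 84) (nat_lit 4451157115) (nat_lit 104) (nat_lit 5) (nat_lit 116) (nat_lit 5) (nat_lit 105) (nat_lit 4) (nat_lit 313) (nat_lit 276) (nat_lit 272)) (XT.lf (nat_lit 0) (nat_lit 3297971183) (nat_lit 1008) (nat_lit 1685487667) (nat_lit 1092) (nat_lit 2509212203) (nat_lit 92) (nat_lit 5) (nat_lit 104) (nat_lit 5) (nat_lit 105) (nat_lit 4) (nat_lit 314) (nat_lit 276) (nat_lit 271))))) (XT.nd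 (nat_lit 282) (nat_lit 1092) (nat_lit 0) (XT.nd (nat_lit 94) (nat_lit 672) (nat_lit 0) (XT.lf (nat_lit 0) (nat_lit 7102256358) (nat_lit 1008) (nat_lit 366863036) (nat_lit 1092) (nat_lit 112617123) (nat_lit 92) (nat_lit 5) (nat_lit 104) (nat_lit 5) (nat_lit 105) (nat_lit 4) (nat_lit 315) (nat_lit 276) (nat_lit 270)) (XT.nd (nat_lit 94) (nat_lit 0) (nat_lit 0) (XT.lf (nat_lit 0) (nat_lit 2281235469) (nat_lit 672) (nat_lit 4362164118) (nat_lit 84) (nat_lit 1030830156) (nat_lit 84) (nat_lit 5) (nat_lit 92) (nat_lit 5) (nat_lit 85) (nat_lit 4) (nat_lit 316) (nat_lit 276) (nat_lit 269)) (XT.lf (nat_lit 0) (nat_lit 4684338511) (nat_lit 672) (nat_lit 616672048) (nat_lit 84) (nat_lit 2470947614) (nat_lit 84) (nat_lit 5) (nat_lit 92) (nat_lit 5) (nat_lit 85) (nat_lit 4) (nat_lit 317) (nat_lit 276) (nat_lit 268)))) (XT.nd (nat_lit 94) (nat_lit 588) (nat_lit 0) (XT.lf (nat_lit 0) (nat_lit 3238801934)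 (nat_lit 504) (nat_lit 3885985031) (nat_lit 588) (nat_lit 749529401) (nat_lit 78) (nat_lit 5) (nat_lit 84) (nat_lit 5) (nat_lit 85) (nat_lit 4) (nat_lit 318) (nat_lit 276) (nat_lit 267)) (XT.nd (nat_lit 94) (nat_lit 504) (nat_lit 0) (XT.lf (nat_lit 0) (nat_lit 1565059352) (nat_lit 588) (nat_lit 841824358) (nat_lit 84) (nat_lit 5574813079) (nat_lit 77) (nat_lit 5) (nat_lit 84) (nat_lit 5) (nat_lit 78) (nat_lit 5) (nat_lit 319) (nat_lit 276) (nat_lit 266)) (XT.lf (nat_lit 0) (nat_lit 3052993770) (nat_lit 504) (nat_lit 846179776) (nat_lit 588) (nat_lit 4194540448) (nat_lit 71) (nat_lit 5) (nat_lit 77) (nat_lit 5) (nat_lit 78) (nat_lit 5) (nat_lit 320) (nat_lit 276) (nat_lit 265)))))) (XT.nd (nat_lit 564) (nat_lit 840) (nat_lit 0) (XT.nd (nat_lit 282) (nat_lit 840) (nat_lit 0) (XT.nd (nat_lit 94) (nat_lit 504) (nat_lit 0) (XT.lf (nat_lit 0) (nat_lit 6256429541) (nat_lit 588) (nat_lit 1202192964)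 (nat_lit 84) (nat_lit 752503863) (nat_lit 71) (nat_lit 5) (nat_lit 78) (nat_lit 5) (nat_lit 72) (nat_lit 4) (nat_lit 321) (nat_lit 276) (nat_lit 264)) (XT.nd (nat_lit 94) (nat_lit 0) (nat_lit 0) (XT.lf (nat_lit 0) (nat_lit 318843615) (nat_lit 504) (nat_lit 5604778134) (nat_lit 84) (nat_lit 2409707595) (nat_lit 65) (nat_lit 5) (nat_lit 71) (nat_lit 5) (nat_lit 66) (nat_lit 5) (nat_lit 322) (nat_lit 276) (nat_lit 263)) (XT.lf (nat_lit 0) (nat_lit 2571474999) (nat_lit 504) (nat_lit 1743213882) (nat_lit 84) (nat_lit 4145948529) (nat_lit 65) (nat_lit 5) (nat_lit 71) (nat_lit 5) (nat_lit 66) (nat_lit 5) (nat_lit 323) (nat_lit 276) (nat_lit 262)))) (XT.nd (nat_lit 94) (nat_lit 420) (nat_lit 0) (XT.lf (nat_lit 0) (nat_lit 2213998396) (nat_lit 420) (nat_lit 2640348933) (nat_lit 504) (nat_lit 3739123323) (nat_lit 60) (nat_lit 5) (nat_lit 65) (nat_lit 5) (nat_lit 66) (nat_lit 5) (nat_lit 324)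 (nat_lit 276) (nat_lit 261)) (XT.nd (nat_lit 94) (nat_lit 420) (nat_lit 0) (XT.lf (nat_lit 0) (nat_lit 6262867073) (nat_lit 420) (nat_lit 902939940) (nat_lit 504) (nat_lit 1566263100) (nat_lit 60) (nat_lit 5) (nat_lit 65) (nat_lit 5) (nat_lit 66) (nat_lit 5) (nat_lit 325) (nat_lit 276) (nat_lit 260)) (XT.lf (nat_lit 0) (nat_lit 624913938) (nat_lit 420) (nat_lit 7366686591) (nat_lit 84) (nat_lit 884578297) (nat_lit 55) (nat_lit 5) (nat_lit 60) (nat_lit 5) (nat_lit 56) (nat_lit 5) (nat_lit 326) (nat_lit 276) (nat_lit 259))))) (XT.nd (nat_lit 282) (nat_lit 420) (nat_lit 0) (XT.nd (nat_lit 94) (nat_lit 420) (nat_lit 0) (XT.lf (nat_lit 0) (nat_lit 2828312203) (nat_lit 420) (nat_lit 3454426433) (nat_lit 84) (nat_lit 2742548889) (nat_lit 55) (nat_lit 5) (nat_lit 60) (nat_lit 5) (nat_lit 56) (nat_lit 5) (nat_lit 327) (nat_lit 276) (nat_lit 258)) (XT.nd (nat_lit 94) (nat_lit 0) (nat_lit 0)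 (XT.lf (nat_lit 0) (nat_lit 522892722) (nat_lit 420) (nat_lit 4525625228) (nat_lit 504) (nat_lit 4132398661) (nat_lit 50) (nat_lit 5) (nat_lit 55) (nat_lit 5) (nat_lit 56) (nat_lit 5) (nat_lit 328) (nat_lit 276) (nat_lit 257)) (XT.lf (nat_lit 0) (nat_lit 4630660455) (nat_lit 420) (nat_lit 2687310597) (nat_lit 504) (nat_lit 2024298611) (nat_lit 50) (nat_lit 5) (nat_lit 55) (nat_lit 5) (nat_lit 56) (nat_lit 5) (nat_lit 329) (nat_lit 276) (nat_lit 256)))) (XT.nd (nat_lit 94) (nat_lit 336) (nat_lit 0) (XT.lf (nat_lit 0) (nat_lit 91354238) (nat_lit 504) (nat_lit 709830580) (nat_lit 84) (nat_lit 8709367751) (nat_lit 49) (nat_lit 5) (nat_lit 55) (nat_lit 5) (nat_lit 50) (nat_lit 5) (nat_lit 330) (nat_lit 276) (nat_lit 255)) (XT.nd (nat_lit 94) (nat_lit 0) (nat_lit 0) (XT.lf (nat_lit 0) (nat_lit 2222924949) (nat_lit 420) (nat_lit 6295794260) (nat_lit 84) (nat_lit 1165194288) (nat_lit 45) (nat_lit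 5) (nat_lit 50) (nat_lit 5) (nat_lit 46) (nat_lit 5) (nat_lit 331) (nat_lit 276) (nat_lit 254)) (XT.lf (nat_lit 0) (nat_lit 4383975764) (nat_lit 420) (nat_lit 2307188204) (nat_lit 84) (nat_lit 3172878092) (nat_lit 45) (nat_lit 5) (nat_lit 50) (nat_lit 5) (nat_lit 46) (nat_lit 5) (nat_lit 332) (nat_lit 276) (nat_lit 253))))))) (XT.nd (nat_lit 1128) (nat_lit 924) (nat_lit 0) (XT.nd (nat_lit 564) (nat_lit 588) (nat_lit 0) (XT.nd (nat_lit 282) (nat_lit 588) (nat_lit 0) (XT.nd (nat_lit 94) (nat_lit 84) (nat_lit 0) (XT.lf (nat_lit 0) (nat_lit 1778182228) (nat_lit 336) (nat_lit 4800770819) (nat_lit 420) (nat_lit 3472077714) (nat_lit 41) (nat_lit 5) (nat_lit 45) (nat_lit 5) (nat_lit 46) (nat_lit 5) (nat_lit 333) (nat_lit 276) (nat_lit 252)) (XT.nd (nat_lit 94) (nat_lit 84) (nat_lit 0) (XT.lf (nat_lit 0) (nat_lit 5977036371) (nat_lit 336) (nat_lit 2839223512) (nat_lit 420) (nat_lit 1428596940)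 (nat_lit 41) (nat_lit 5) (nat_lit 45) (nat_lit 5) (nat_lit 46) (nat_lit 5) (nat_lit 334) (nat_lit 276) (nat_lit 251)) (XT.lf (nat_lit 0) (nat_lit 615541650) (nat_lit 420) (nat_lit 206809349) (nat_lit 84) (nat_lit 9623880833) (nat_lit 40) (nat_lit 5) (nat_lit 45) (nat_lit 5) (nat_lit 41) (nat_lit 5) (nat_lit 335) (nat_lit 276) (nat_lit 250)))) (XT.nd (nat_lit 94) (nat_lit 336) (nat_lit 0) (XT.lf (nat_lit 0) (nat_lit 2698270066) (nat_lit 336) (nat_lit 6680573688) (nat_lit 84) (nat_lit 1274623202) (nat_lit 37) (nat_lit 5) (nat_lit 41) (nat_lit 5) (nat_lit 38) (nat_lit 5) (nat_lit 336) (nat_lit 276) (nat_lit 249)) (XT.nd (nat_lit 94) (nat_lit 336) (nat_lit 0) (XT.lf (nat_lit 0) (nat_lit 4809326026) (nat_lit 336) (nat_lit 2649476720) (nat_lit 84) (nat_lit 3409662526) (nat_lit 37) (nat_lit 5) (nat_lit 41) (nat_lit 5) (nat_lit 38) (nat_lit 5) (nat_lit 337) (nat_lit 276) (nat_lit 248)) (XT.lf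 (nat_lit 0) (nat_lit 1477640187) (nat_lit 336) (nat_lit 5477422445) (nat_lit 420) (nat_lit 4136228605) (nat_lit 33) (nat_lit 5) (nat_lit 37) (nat_lit 5) (nat_lit 38) (nat_lit 5) (nat_lit 338) (nat_lit 276) (nat_lit 247))))) (XT.nd (nat_lit 282) (nat_lit 252) (nat_lit 0) (XT.nd (nat_lit 94) (nat_lit 336) (nat_lit 0) (XT.lf (nat_lit 0) (nat_lit 5730744449) (nat_lit 336) (nat_lit 3419596396) (nat_lit 420) (nat_lit 2171413012) (nat_lit 33) (nat_lit 5) (nat_lit 37) (nat_lit 5) (nat_lit 38) (nat_lit 5) (nat_lit 339) (nat_lit 276) (nat_lit 246)) (XT.nd (nat_lit 94) (nat_lit 336) (nat_lit 0) (XT.lf (nat_lit 0) (nat_lit 10059321731) (nat_lit 336) (nat_lit 1311061594) (nat_lit 420) (nat_lit 190516157) (nat_lit 33) (nat_lit 5) (nat_lit 37) (nat_lit 5) (nat_lit 38) (nat_lit 5) (nat_lit 340) (nat_lit 276) (nat_lit 245)) (XT.lf (nat_lit 0) (nat_lit 1807498294) (nat_lit 336) (nat_lit 9121645148)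 (nat_lit 84) (nat_lit 878147153) (nat_lit 29) (nat_lit 5) (nat_lit 33) (nat_lit 5) (nat_lit 30) (nat_lit 5) (nat_lit 341) (nat_lit 276) (nat_lit 244)))) (XT.nd (nat_lit 94) (nat_lit 252) (nat_lit 0) (XT.lf (nat_lit 0) (nat_lit 3850734078) (nat_lit 336) (nat_lit 5098367070) (nat_lit 84) (nat_lit 3112733308) (nat_lit 29) (nat_lit 5) (nat_lit 33) (nat_lit 5) (nat_lit 30) (nat_lit 5) (nat_lit 342) (nat_lit 276) (nat_lit 243)) (XT.nd (nat_lit 94) (nat_lit 252) (nat_lit 0) (XT.lf (nat_lit 0) (nat_lit 5916570676) (nat_lit 336) (nat_lit 1005188349) (nat_lit 84) (nat_lit 5403947156) (nat_lit 29) (nat_lit 5) (nat_lit 33) (nat_lit 5) (nat_lit 30) (nat_lit 5) (nat_lit 343) (nat_lit 276) (nat_lit 242)) (XT.lf (nat_lit 0) (nat_lit 3226717452) (nat_lit 252) (nat_lit 4812225650) (nat_lit 336) (nat_lit 4559216332) (nat_lit 26) (nat_lit 5) (nat_lit 29) (nat_lit 5) (nat_lit 30) (nat_lit 5) (nat_lit 344)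 (nat_lit 276) (nat_lit 241)))))) (XT.nd (nat_lit 564) (nat_lit 420) (nat_lit 0) (XT.nd (nat_lit 282) (nat_lit 252) (nat_lit 0) (XT.nd (nat_lit 94) (nat_lit 252) (nat_lit 0) (XT.lf (nat_lit 0) (nat_lit 7558487499) (nat_lit 252) (nat_lit 2640265118) (nat_lit 336) (nat_lit 2681348941) (nat_lit 26) (nat_lit 5) (nat_lit 29) (nat_lit 5) (nat_lit 30) (nat_lit 5) (nat_lit 345) (nat_lit 276) (nat_lit 240)) (XT.nd (nat_lit 94) (nat_lit 252) (nat_lit 0) (XT.lf (nat_lit 0) (nat_lit 11973490719) (nat_lit 252) (nat_lit 414345039) (nat_lit 336) (nat_lit 784275070) (nat_lit 26) (nat_lit 5) (nat_lit 29) (nat_lit 5) (nat_lit 30) (nat_lit 5) (nat_lit 346) (nat_lit 276) (nat_lit 239)) (XT.lf (nat_lit 0) (nat_lit 1160154547) (nat_lit 252) (nat_lit 10440504803) (nat_lit 84) (nat_lit 1871925471) (nat_lit 23) (nat_lit 5) (nat_lit 26) (nat_lit 5) (nat_lit 24) (nat_lit 5) (nat_lit 347) (nat_lit 276) (nat_lit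 238)))) (XT.nd (nat_lit 94) (nat_lit 252) (nat_lit 0) (XT.lf (nat_lit 0) (nat_lit 3128860777) (nat_lit 252) (nat_lit 6426089979) (nat_lit 84) (nat_lit 4227930028) (nat_lit 23) (nat_lit 5) (nat_lit 26) (nat_lit 5) (nat_lit 24) (nat_lit 5) (nat_lit 348) (nat_lit 276) (nat_lit 237)) (XT.nd (nat_lit 94) (nat_lit 252) (nat_lit 0) (XT.lf (nat_lit 0) (nat_lit 5123110636) (nat_lit 252) (nat_lit 2336752310) (nat_lit 84) (nat_lit 6644173633) (nat_lit 23) (nat_lit 5) (nat_lit 26) (nat_lit 5) (nat_lit 24) (nat_lit 5) (nat_lit 349) (nat_lit 276) (nat_lit 236)) (XT.lf (nat_lit 0) (nat_lit 1868975585) (nat_lit 252) (nat_lit 5294327859) (nat_lit 336) (nat_lit 7272473363) (nat_lit 20) (nat_lit 5) (nat_lit 23) (nat_lit 5) (nat_lit 24) (nat_lit 5) (nat_lit 350) (nat_lit 276) (nat_lit 235))))) (XT.nd (nat_lit 282) (nat_lit 420) (nat_lit 0) (XT.nd (nat_lit 94) (nat_lit 0) (nat_lit 0) (XT.lf (nat_lit 0)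 (nat_lit 6207070345) (nat_lit 252) (nat_lit 3050206747) (nat_lit 336) (nat_lit 5520949568) (nat_lit 20) (nat_lit 5) (nat_lit 23) (nat_lit 5) (nat_lit 24) (nat_lit 5) (nat_lit 351) (nat_lit 276) (nat_lit 234)) (XT.nd (nat_lit 94) (nat_lit 0) (nat_lit 0) (XT.lf (nat_lit 0) (nat_lit 10633527107) (nat_lit 252) (nat_lit 749798756) (nat_lit 336) (nat_lit 3749112856) (nat_lit 20) (nat_lit 5) (nat_lit 23) (nat_lit 5) (nat_lit 24) (nat_lit 5) (nat_lit 352) (nat_lit 276) (nat_lit 233)) (XT.lf (nat_lit 0) (nat_lit 13559393337) (nat_lit 336) (nat_lit 362233233) (nat_lit 84) (nat_lit 1576621758) (nat_lit 20) (nat_lit 5) (nat_lit 24) (nat_lit 5) (nat_lit 21) (nat_lit 4) (nat_lit 353) (nat_lit 276) (nat_lit 232)))) (XT.nd (nat_lit 188) (nat_lit 168) (nat_lit 0) (XT.nd (nat_lit 94) (nat_lit 84) (nat_lit 0) (XT.lf (nat_lit 0) (nat_lit 3929849554) (nat_lit 168) (nat_lit 11888705671) (nat_lit 252) (nat_lit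 56478769) (nat_lit 18) (nat_lit 5) (nat_lit 20) (nat_lit 5) (nat_lit 21) (nat_lit 4) (nat_lit 354) (nat_lit 276) (nat_lit 231)) (XT.lf (nat_lit 0) (nat_lit 1819160700) (nat_lit 252) (nat_lit 7964090011) (nat_lit 84) (nat_lit 6480624321) (nat_lit 17) (nat_lit 5) (nat_lit 20) (nat_lit 5) (nat_lit 18) (nat_lit 5) (nat_lit 355) (nat_lit 276) (nat_lit 230))) (XT.nd (nat_lit 94) (nat_lit 168) (nat_lit 0) (XT.lf (nat_lit 0) (nat_lit 3721755697) (nat_lit 252) (nat_lit 3903459586) (nat_lit 84) (nat_lit 9040577573) (nat_lit 17) (nat_lit 5) (nat_lit 20) (nat_lit 5) (nat_lit 18) (nat_lit 5) (nat_lit 356) (nat_lit 276) (nat_lit 229)) (XT.lf (nat_lit 0) (nat_lit 246008568) (nat_lit 168) (nat_lit 5410649428) (nat_lit 252) (nat_lit 11424445814) (nat_lit 15) (nat_lit 5) (nat_lit 17) (nat_lit 5) (nat_lit 18) (nat_lit 5) (nat_lit 357) (nat_lit 276) (nat_lit 228))))))))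
noncomputable def xc59 : XT := (XT.nd (nat_lit 2256) (nat_lit 252) (nat_lit 0) (XT.nd (nat_lit 1128) (nat_lit 336) (nat_lit 0) (XT.nd (nat_lit 564) (nat_lit 252) (nat_lit 0) (XT.nd (nat_lit 282) (nat_lit 168) (nat_lit 0) (XT.nd (nat_lit 94) (nat_lit 0) (nat_lit 0) (XT.lf (nat_lit 0) (nat_lit 4565288387) (nat_lit 168) (nat_lit 3098347389) (nat_lit 252) (nat_lit 9845382328) (nat_lit 15) (nat_lit 5) (nat_lit 17) (nat_lit 5) (nat_lit 18) (nat_lit 5) (nat_lit 358) (nat_lit 276) (nat_lit 227)) (XT.nd (nat_lit 94) (nat_lit 0) (nat_lit 0) (XT.lf (nat_lit 0) (nat_lit 8978142755) (nat_lit 168) (nat_lit 726897970) (nat_lit 252) (nat_lit 8246118962) (nat_lit 15) (nat_lit 5) (nat_lit 17) (nat_lit 5) (nat_lit 18) (nat_lit 5) (nat_lit 359) (nat_lit 276) (nat_lit 226)) (XT.lf (nat_lit 0) (nat_lit 11799698479) (nat_lit 252) (nat_lit 4936178599) (nat_lit 84) (nat_lit 1671538996) (nat_lit 15) (nat_lit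 5) (nat_lit 18) (nat_lit 5) (nat_lit 16) (nat_lit 4) (nat_lit 360) (nat_lit 276) (nat_lit 225)))) (XT.nd (nat_lit 94) (nat_lit 168) (nat_lit 0) (XT.lf (nat_lit 0) (nat_lit 13940464963) (nat_lit 252) (nat_lit 820355446) (nat_lit 84) (nat_lit 4117674128) (nat_lit 15) (nat_lit 5) (nat_lit 18) (nat_lit 5) (nat_lit 16) (nat_lit 4) (nat_lit 361) (nat_lit 276) (nat_lit 224)) (XT.nd (nat_lit 94) (nat_lit 0) (nat_lit 0) (XT.lf (nat_lit 0) (nat_lit 3455112642) (nat_lit 168) (nat_lit 12701287180) (nat_lit 252) (nat_lit 3207595356) (nat_lit 13) (nat_lit 5) (nat_lit 15) (nat_lit 5) (nat_lit 16) (nat_lit 4) (nat_lit 362) (nat_lit 276) (nat_lit 223)) (XT.lf (nat_lit 0) (nat_lit 7843333189) (nat_lit 168) (nat_lit 10581184805) (nat_lit 252) (nat_lit 1440629108) (nat_lit 13) (nat_lit 5) (nat_lit 15) (nat_lit 5) (nat_lit 16) (nat_lit 4) (nat_lit 363) (nat_lit 276) (nat_lit 222))))) (XT.nd (nat_lit 282)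 (nat_lit 0) (nat_lit 0) (XT.nd (nat_lit 94) (nat_lit 168) (nat_lit 0) (XT.lf (nat_lit 0) (nat_lit 348781671) (nat_lit 252) (nat_lit 8054677719) (nat_lit 84) (nat_lit 11979106049) (nat_lit 12) (nat_lit 5) (nat_lit 15) (nat_lit 5) (nat_lit 13) (nat_lit 5) (nat_lit 364) (nat_lit 276) (nat_lit 221)) (XT.nd (nat_lit 94) (nat_lit 168) (nat_lit 0) (XT.lf (nat_lit 0) (nat_lit 2139827346) (nat_lit 252) (nat_lit 4014843399) (nat_lit 84) (nat_lit 14761718643) (nat_lit 12) (nat_lit 5) (nat_lit 15) (nat_lit 5) (nat_lit 13) (nat_lit 5) (nat_lit 365) (nat_lit 276) (nat_lit 220)) (XT.lf (nat_lit 0) (nat_lit 118125782) (nat_lit 168) (nat_lit 3846248865) (nat_lit 252) (nat_lit 17503148588) (nat_lit 10) (nat_lit 5) (nat_lit 12) (nat_lit 5) (nat_lit 13) (nat_lit 5) (nat_lit 366) (nat_lit 276) (nat_lit 219)))) (XT.nd (nat_lit 94) (nat_lit 0) (nat_lit 0) (XT.lf (nat_lit 0) (nat_lit 4430198686) (nat_lit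 168) (nat_lit 1434357118) (nat_lit 252) (nat_lit 16170671509) (nat_lit 10) (nat_lit 5) (nat_lit 12) (nat_lit 5) (nat_lit 13) (nat_lit 5) (nat_lit 367) (nat_lit 276) (nat_lit 218)) (XT.nd (nat_lit 94) (nat_lit 0) (nat_lit 0) (XT.lf (nat_lit 0) (nat_lit 7811825581) (nat_lit 252) (nat_lit 13788779911) (nat_lit 84) (nat_lit 1020365100) (nat_lit 10) (nat_lit 5) (nat_lit 13) (nat_lit 5) (nat_lit 11) (nat_lit 4) (nat_lit 368) (nat_lit 276) (nat_lit 217)) (XT.lf (nat_lit 0) (nat_lit 9812544036) (nat_lit 252) (nat_lit 9901639158) (nat_lit 84) (nat_lit 3510974957) (nat_lit 10) (nat_lit 5) (nat_lit 13) (nat_lit 5) (nat_lit 11) (nat_lit 4) (nat_lit 369) (nat_lit 276) (nat_lit 216)))))) (XT.nd (nat_lit 564) (nat_lit 252) (nat_lit 0) (XT.nd (nat_lit 282) (nat_lit 0) (nat_lit 0) (XT.nd (nat_lit 94) (nat_lit 84) (nat_lit 0) (XT.lf (nat_lit 0) (nat_lit 11854347048) (nat_lit 252) (nat_lit 5925754145)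 (nat_lit 84) (nat_lit 6068693061) (nat_lit 10) (nat_lit 5) (nat_lit 13) (nat_lit 5) (nat_lit 11) (nat_lit 4) (nat_lit 370) (nat_lit 276) (nat_lit 215)) (XT.nd (nat_lit 94) (nat_lit 84) (nat_lit 0) (XT.lf (nat_lit 0) (nat_lit 13939137790) (nat_lit 252) (nat_lit 1857418933) (nat_lit 84) (nat_lit 8695903472) (nat_lit 10) (nat_lit 5) (nat_lit 13) (nat_lit 5) (nat_lit 11) (nat_lit 4) (nat_lit 371) (nat_lit 276) (nat_lit 214)) (XT.lf (nat_lit 0) (nat_lit 2354598507) (nat_lit 84) (nat_lit 13737618909) (nat_lit 168) (nat_lit 9063814429) (nat_lit 9) (nat_lit 5) (nat_lit 10) (nat_lit 5) (nat_lit 11) (nat_lit 4) (nat_lit 372) (nat_lit 276) (nat_lit 213)))) (XT.nd (nat_lit 94) (nat_lit 0) (nat_lit 0) (XT.lf (nat_lit 0) (nat_lit 6706991184) (nat_lit 84) (nat_lit 11605040321) (nat_lit 168) (nat_lit 7528206616) (nat_lit 9) (nat_lit 5) (nat_lit 10) (nat_lit 5) (nat_lit 11) (nat_lit 4) (nat_lit 373)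 (nat_lit 276) (nat_lit 212)) (XT.nd (nat_lit 94) (nat_lit 0) (nat_lit 0) (XT.lf (nat_lit 0) (nat_lit 11165623643) (nat_lit 84) (nat_lit 9416220816) (nat_lit 168) (nat_lit 5964455262) (nat_lit 9) (nat_lit 5) (nat_lit 10) (nat_lit 5) (nat_lit 11) (nat_lit 4) (nat_lit 374) (nat_lit 276) (nat_lit 211)) (XT.lf (nat_lit 0) (nat_lit 15734651796) (nat_lit 84) (nat_lit 7169120186) (nat_lit 168) (nat_lit 4371102788) (nat_lit 9) (nat_lit 5) (nat_lit 10) (nat_lit 5) (nat_lit 11) (nat_lit 4) (nat_lit 375) (nat_lit 276) (nat_lit 210))))) (XT.nd (nat_lit 282) (nat_lit 0) (nat_lit 0) (XT.nd (nat_lit 94) (nat_lit 252) (nat_lit 0) (XT.lf (nat_lit 0) (nat_lit 20418334454) (nat_lit 84) (nat_lit 4861643897) (nat_lit 168) (nat_lit 2746664023) (nat_lit 9) (nat_lit 5) (nat_lit 10) (nat_lit 5) (nat_lit 11) (nat_lit 4) (nat_lit 376) (nat_lit 276) (nat_lit 209)) (XT.nd (nat_lit 94) (nat_lit 252) (nat_lit 0)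 (XT.lf (nat_lit 0) (nat_lit 25221037302) (nat_lit 84) (nat_lit 2491641140) (nat_lit 168) (nat_lit 1089624818) (nat_lit 9) (nat_lit 5) (nat_lit 10) (nat_lit 5) (nat_lit 11) (nat_lit 4) (nat_lit 377) (nat_lit 276) (nat_lit 208)) (XT.lf (nat_lit 0) (nat_lit 549765541) (nat_lit 168) (nat_lit 45127478) (nat_lit 252) (nat_lit 29007333347) (nat_lit 6) (nat_lit 5) (nat_lit 8) (nat_lit 5) (nat_lit 9) (nat_lit 5) (nat_lit 378) (nat_lit 276) (nat_lit 207)))) (XT.nd (nat_lit 94) (nat_lit 0) (nat_lit 0) (XT.lf (nat_lit 0) (nat_lit 2354624296) (nat_lit 252) (nat_lit 25603113462) (nat_lit 84) (nat_lit 2467500740) (nat_lit 6) (nat_lit 5) (nat_lit 9) (nat_lit 5) (nat_lit 7) (nat_lit 4) (nat_lit 379) (nat_lit 276) (nat_lit 206)) (XT.nd (nat_lit 94) (nat_lit 0) (nat_lit 0) (XT.lf (nat_lit 0) (nat_lit 4153160889) (nat_lit 252) (nat_lit 22072520121) (nat_lit 84) (nat_lit 5048620924) (nat_lit 6) (nat_lit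 5) (nat_lit 9) (nat_lit 5) (nat_lit 7) (nat_lit 4) (nat_lit 380) (nat_lit 276) (nat_lit 205)) (XT.lf (nat_lit 0) (nat_lit 5991731552) (nat_lit 252) (nat_lit 18456942248) (nat_lit 84) (nat_lit 7701548165) (nat_lit 6) (nat_lit 5) (nat_lit 9) (nat_lit 5) (nat_lit 7) (nat_lit 4) (nat_lit 381) (nat_lit 276) (nat_lit 204))))))) (XT.nd (nat_lit 1128) (nat_lit 168) (nat_lit 0) (XT.nd (nat_lit 564) (nat_lit 0) (nat_lit 0) (XT.nd (nat_lit 282) (nat_lit 84) (nat_lit 0) (XT.nd (nat_lit 94) (nat_lit 0) (nat_lit 0) (XT.lf (nat_lit 0) (nat_lit 7872050026) (nat_lit 252) (nat_lit 14753009748) (nat_lit 84) (nat_lit 10428755270) (nat_lit 6) (nat_lit 5) (nat_lit 9) (nat_lit 5) (nat_lit 7) (nat_lit 4) (nat_lit 382) (nat_lit 276) (nat_lit 203)) (XT.nd (nat_lit 94) (nat_lit 0) (nat_lit 0) (XT.lf (nat_lit 0) (nat_lit 9795868964) (nat_lit 252) (nat_lit 10957270167) (nat_lit 84) (nat_lit 13232784281) (nat_lit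 6) (nat_lit 5) (nat_lit 9) (nat_lit 5) (nat_lit 7) (nat_lit 4) (nat_lit 383) (nat_lit 276) (nat_lit 202)) (XT.lf (nat_lit 0) (nat_lit 11764981569) (nat_lit 252) (nat_lit 7066185478) (nat_lit 84) (nat_lit 16116248847) (nat_lit 6) (nat_lit 5) (nat_lit 9) (nat_lit 5) (nat_lit 7) (nat_lit 4) (nat_lit 384) (nat_lit 276) (nat_lit 201)))) (XT.nd (nat_lit 94) (nat_lit 84) (nat_lit 0) (XT.lf (nat_lit 0) (nat_lit 13781223258) (nat_lit 252) (nat_lit 3076128782) (nat_lit 84) (nat_lit 19081836659) (nat_lit 6) (nat_lit 5) (nat_lit 9) (nat_lit 5) (nat_lit 7) (nat_lit 4) (nat_lit 385) (nat_lit 276) (nat_lit 200)) (XT.nd (nat_lit 94) (nat_lit 0) (nat_lit 0) (XT.lf (nat_lit 0) (nat_lit 1037522843) (nat_lit 84) (nat_lit 14819242891) (nat_lit 168) (nat_lit 21105081466) (nat_lit 5) (nat_lit 5) (nat_lit 6) (nat_lit 5) (nat_lit 7) (nat_lit 4) (nat_lit 386) (nat_lit 276) (nat_lit 199)) (XT.lf (nat_lit 0)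 (nat_lit 5323121996) (nat_lit 84) (nat_lit 12692340998) (nat_lit 168) (nat_lit 20000202131) (nat_lit 5) (nat_lit 5) (nat_lit 6) (nat_lit 5) (nat_lit 7) (nat_lit 4) (nat_lit 387) (nat_lit 276) (nat_lit 198))))) (XT.nd (nat_lit 282) (nat_lit 0) (nat_lit 0) (XT.nd (nat_lit 94) (nat_lit 0) (nat_lit 0) (XT.lf (nat_lit 0) (nat_lit 9721411785) (nat_lit 84) (nat_lit 10506772341) (nat_lit 168) (nat_lit 18874406049) (nat_lit 5) (nat_lit 5) (nat_lit 6) (nat_lit 5) (nat_lit 7) (nat_lit 4) (nat_lit 388) (nat_lit 276) (nat_lit 197)) (XT.nd (nat_lit 94) (nat_lit 0) (nat_lit 0) (XT.lf (nat_lit 0) (nat_lit 14236491877) (nat_lit 84) (nat_lit 8260499740) (nat_lit 168) (nat_lit 17726643858) (nat_lit 5) (nat_lit 5) (nat_lit 6) (nat_lit 5) (nat_lit 7) (nat_lit 4) (nat_lit 389) (nat_lit 276) (nat_lit 196)) (XT.lf (nat_lit 0) (nat_lit 18872570801) (nat_lit 84) (nat_lit 5951429435) (nat_lit 168) (nat_lit 16555845726)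 (nat_lit 5) (nat_lit 5) (nat_lit 6) (nat_lit 5) (nat_lit 7) (nat_lit 4) (nat_lit 390) (nat_lit 276) (nat_lit 195)))) (XT.nd (nat_lit 94) (nat_lit 0) (nat_lit 0) (XT.lf (nat_lit 0) (nat_lit 23633969867) (nat_lit 84) (nat_lit 3577409129) (nat_lit 168) (nat_lit 15360920344) (nat_lit 5) (nat_lit 5) (nat_lit 6) (nat_lit 5) (nat_lit 7) (nat_lit 4) (nat_lit 391) (nat_lit 276) (nat_lit 194)) (XT.nd (nat_lit 94) (nat_lit 0) (nat_lit 0) (XT.lf (nat_lit 0) (nat_lit 28525127198) (nat_lit 84) (nat_lit 1136225989) (nat_lit 168) (nat_lit 14140753918) (nat_lit 5) (nat_lit 5) (nat_lit 6) (nat_lit 5) (nat_lit 7) (nat_lit 4) (nat_lit 392) (nat_lit 276) (nat_lit 193)) (XT.lf (nat_lit 0) (nat_lit 32189840613) (nat_lit 168) (nat_lit 11533447872) (nat_lit 0) (nat_lit 1346704420) (nat_lit 5) (nat_lit 5) (nat_lit 7) (nat_lit 4) (nat_lit 5) (nat_lit 4) (nat_lit 393) (nat_lit 276) (nat_lit 192)))))) (XT.nd (nat_lit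 564) (nat_lit 84) (nat_lit 0) (XT.nd (nat_lit 282) (nat_lit 0) (nat_lit 0) (XT.nd (nat_lit 94) (nat_lit 84) (nat_lit 0) (XT.lf (nat_lit 0) (nat_lit 34797534761) (nat_lit 168) (nat_lit 7702580677) (nat_lit 0) (nat_lit 3877074669) (nat_lit 5) (nat_lit 5) (nat_lit 7) (nat_lit 4) (nat_lit 5) (nat_lit 4) (nat_lit 394) (nat_lit 276) (nat_lit 191)) (XT.nd (nat_lit 94) (nat_lit 84) (nat_lit 0) (XT.lf (nat_lit 0) (nat_lit 37475594772) (nat_lit 168) (nat_lit 3769536049) (nat_lit 0) (nat_lit 6480135749) (nat_lit 5) (nat_lit 5) (nat_lit 7) (nat_lit 4) (nat_lit 5) (nat_lit 4) (nat_lit 395) (nat_lit 276) (nat_lit 190)) (XT.lf (nat_lit 0) (nat_lit 274890450) (nat_lit 84) (nat_lit 39954353377) (nat_lit 84) (nat_lit 8886150482) (nat_lit 4) (nat_lit 4) (nat_lit 5) (nat_lit 5) (nat_lit 5) (nat_lit 4) (nat_lit 396) (nat_lit 276) (nat_lit 189)))) (XT.nd (nat_lit 94) (nat_lit 0) (nat_lit 0) (XT.lf (nat_lit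 0) (nat_lit 4508688218) (nat_lit 84) (nat_lit 38588903758) (nat_lit 84) (nat_lit 7450144246) (nat_lit 4) (nat_lit 4) (nat_lit 5) (nat_lit 5) (nat_lit 5) (nat_lit 4) (nat_lit 397) (nat_lit 276) (nat_lit 188)) (XT.nd (nat_lit 94) (nat_lit 0) (nat_lit 0) (XT.lf (nat_lit 0) (nat_lit 8858294205) (nat_lit 84) (nat_lit 37186855449) (nat_lit 84) (nat_lit 5979660809) (nat_lit 4) (nat_lit 4) (nat_lit 5) (nat_lit 5) (nat_lit 5) (nat_lit 4) (nat_lit 398) (nat_lit 276) (nat_lit 187)) (XT.lf (nat_lit 0) (nat_lit 13327762700) (nat_lit 84) (nat_lit 35746901593) (nat_lit 84) (nat_lit 4473329526) (nat_lit 4) (nat_lit 4) (nat_lit 5) (nat_lit 5) (nat_lit 5) (nat_lit 4) (nat_lit 399) (nat_lit 276) (nat_lit 186))))) (XT.nd (nat_lit 282) (nat_lit 0) (nat_lit 0) (XT.nd (nat_lit 94) (nat_lit 84) (nat_lit 0) (XT.lf (nat_lit 0) (nat_lit 17921259716) (nat_lit 84) (nat_lit 34267700002) (nat_lit 84) (nat_lit 2929746338)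 (nat_lit 4) (nat_lit 4) (nat_lit 5) (nat_lit 5) (nat_lit 5) (nat_lit 4) (nat_lit 400) (nat_lit 276) (nat_lit 185)) (XT.nd (nat_lit 94) (nat_lit 84) (nat_lit 0) (XT.lf (nat_lit 0) (nat_lit 22643066872) (nat_lit 84) (nat_lit 32747871907) (nat_lit 84) (nat_lit 1347472463) (nat_lit 4) (nat_lit 4) (nat_lit 5) (nat_lit 5) (nat_lit 5) (nat_lit 4) (nat_lit 401) (nat_lit 276) (nat_lit 184)) (XT.lf (nat_lit 0) (nat_lit 269426971) (nat_lit 168) (nat_lit 30913761430) (nat_lit 84) (nat_lit 27225346152) (nat_lit 3) (nat_lit 5) (nat_lit 5) (nat_lit 5) (nat_lit 4) (nat_lit 4) (nat_lit 402) (nat_lit 276) (nat_lit 183)))) (XT.nd (nat_lit 188) (nat_lit 0) (nat_lit 0) (XT.nd (nat_lit 94) (nat_lit 0) (nat_lit 0) (XT.lf (nat_lit 0) (nat_lit 1900015938) (nat_lit 168) (nat_lit 27660782247) (nat_lit 84) (nat_lit 30569491977) (nat_lit 3) (nat_lit 5) (nat_lit 5) (nat_lit 5) (nat_lit 4) (nat_lit 4) (nat_lit 403)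 (nat_lit 276) (nat_lit 182)) (XT.lf (nat_lit 0) (nat_lit 3572962884) (nat_lit 168) (nat_lit 24320007609) (nat_lit 84) (nat_lit 34012726809) (nat_lit 3) (nat_lit 5) (nat_lit 5) (nat_lit 5) (nat_lit 4) (nat_lit 4) (nat_lit 404) (nat_lit 276) (nat_lit 181))) (XT.nd (nat_lit 94) (nat_lit 0) (nat_lit 0) (XT.lf (nat_lit 0) (nat_lit 5289827171) (nat_lit 168) (nat_lit 20888323563) (nat_lit 84) (nat_lit 37558260105) (nat_lit 3) (nat_lit 5) (nat_lit 5) (nat_lit 5) (nat_lit 4) (nat_lit 4) (nat_lit 405) (nat_lit 276) (nat_lit 180)) (XT.lf (nat_lit 0) (nat_lit 7052209097) (nat_lit 168) (nat_lit 17362531423) (nat_lit 84) (nat_lit 41209396673) (nat_lit 3) (nat_lit 5) (nat_lit 5) (nat_lit 5) (nat_lit 4) (nat_lit 4) (nat_lit 406) (nat_lit 276) (nat_lit 179))))))))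
noncomputable def xc60 : XT := (XT.nd (nat_lit 46342) (nat_lit 0) (nat_lit 1764) (XT.nd (nat_lit 45214) (nat_lit 0) (nat_lit 4872) (XT.nd (nat_lit 44650) (nat_lit 0) (nat_lit 8568) (XT.nd (nat_lit 282) (nat_lit 84) (nat_lit 0) (XT.nd (nat_lit 94) (nat_lit 0) (nat_lit 0) (XT.lf (nat_lit 0) (nat_lit 8861751386) (nat_lit 168) (nat_lit 13739344779) (nat_lit 84) (nat_lit 44969539756) (nat_lit 3) (nat_lit 5) (nat_lit 5) (nat_lit 5) (nat_lit 4) (nat_lit 4) (nat_lit 407) (nat_lit 276) (nat_lit 178)) (XT.nd (nat_lit 94) (nat_lit 0) (nat_lit 0) (XT.lf (nat_lit 0) (nat_lit 10720140720) (nat_lit 168) (nat_lit 10015386441) (nat_lit 84) (nat_lit 48842194199) (nat_lit 3) (nat_lit 5) (nat_lit 5) (nat_lit 5) (nat_lit 4) (nat_lit 4) (nat_lit 408) (nat_lit 276) (nat_lit 177)) (XT.lf (nat_lit 0) (nat_lit 12629109315) (nat_lit 168) (nat_lit 6187185292) (nat_lit 84) (nat_lit 52830969723) (nat_lit 3) (nat_lit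 5) (nat_lit 5) (nat_lit 5) (nat_lit 4) (nat_lit 4) (nat_lit 409) (nat_lit 276) (nat_lit 176)))) (XT.nd (nat_lit 94) (nat_lit 84) (nat_lit 0) (XT.lf (nat_lit 0) (nat_lit 14590436527) (nat_lit 168) (nat_lit 2251173047) (nat_lit 84) (nat_lit 56939584285) (nat_lit 3) (nat_lit 5) (nat_lit 5) (nat_lit 5) (nat_lit 4) (nat_lit 4) (nat_lit 410) (nat_lit 276) (nat_lit 175)) (XT.nd (nat_lit 94) (nat_lit 0) (nat_lit 0) (XT.lf (nat_lit 0) (nat_lit 1833255075) (nat_lit 84) (nat_lit 14790881562) (nat_lit 168) (nat_lit 59356798585) (nat_lit 2) (nat_lit 5) (nat_lit 3) (nat_lit 5) (nat_lit 4) (nat_lit 4) (nat_lit 411) (nat_lit 276) (nat_lit 174)) (XT.lf (nat_lit 0) (nat_lit 6081594320) (nat_lit 84) (nat_lit 12656265812) (nat_lit 168) (nat_lit 59510500277) (nat_lit 2) (nat_lit 5) (nat_lit 3) (nat_lit 5) (nat_lit 4) (nat_lit 4) (nat_lit 412) (nat_lit 276) (nat_lit 173))))) (XT.nd (nat_lit 282) (nat_lit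 1848) (nat_lit 0) (XT.nd (nat_lit 94) (nat_lit 840) (nat_lit 0) (XT.lf (nat_lit 0) (nat_lit 1618367322) (nat_lit 756) (nat_lit 260470585) (nat_lit 0) (nat_lit 1618367322) (nat_lit 136) (nat_lit 5) (nat_lit 145) (nat_lit 4) (nat_lit 136) (nat_lit 4) (nat_lit 307) (nat_lit 277) (nat_lit 277)) (XT.nd (nat_lit 94) (nat_lit 84) (nat_lit 0) (XT.lf (nat_lit 0) (nat_lit 3009608953) (nat_lit 756) (nat_lit 2792508366) (nat_lit 756) (nat_lit 1252003974) (nat_lit 127) (nat_lit 4) (nat_lit 136) (nat_lit 5) (nat_lit 136) (nat_lit 4) (nat_lit 308) (nat_lit 277) (nat_lit 276)) (XT.lf (nat_lit 0) (nat_lit 1227623802) (nat_lit 840) (nat_lit 541385117) (nat_lit 84) (nat_lit 5349257243) (nat_lit 126) (nat_lit 5) (nat_lit 136) (nat_lit 5) (nat_lit 127) (nat_lit 4) (nat_lit 309) (nat_lit 277) (nat_lit 275)))) (XT.nd (nat_lit 94) (nat_lit 1008) (nat_lit 0) (XT.lf (nat_lit 0) (nat_lit 3047887212) (nat_lit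 840) (nat_lit 660549001) (nat_lit 924) (nat_lit 3477696663) (nat_lit 116) (nat_lit 5) (nat_lit 126) (nat_lit 5) (nat_lit 127) (nat_lit 4) (nat_lit 310) (nat_lit 277) (nat_lit 274)) (XT.nd (nat_lit 94) (nat_lit 1008) (nat_lit 0) (XT.lf (nat_lit 0) (nat_lit 6198517731) (nat_lit 924) (nat_lit 574276863) (nat_lit 0) (nat_lit 485978167) (nat_lit 116) (nat_lit 5) (nat_lit 127) (nat_lit 4) (nat_lit 116) (nat_lit 4) (nat_lit 311) (nat_lit 277) (nat_lit 273)) (XT.lf (nat_lit 0) (nat_lit 1363909148) (nat_lit 1008) (nat_lit 4264860709) (nat_lit 84) (nat_lit 1706213162) (nat_lit 104) (nat_lit 5) (nat_lit 116) (nat_lit 5) (nat_lit 105) (nat_lit 4) (nat_lit 312) (nat_lit 277) (nat_lit 272)))))) (XT.nd (nat_lit 564) (nat_lit 1428) (nat_lit 0) (XT.nd (nat_lit 282) (nat_lit 1176) (nat_lit 0) (XT.nd (nat_lit 94) (nat_lit 1092) (nat_lit 0) (XT.lf (nat_lit 0) (nat_lit 3771766780) (nat_lit 1008) (nat_lit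 657160079) (nat_lit 84) (nat_lit 2986967627) (nat_lit 104) (nat_lit 5) (nat_lit 116) (nat_lit 5) (nat_lit 105) (nat_lit 4) (nat_lit 313) (nat_lit 277) (nat_lit 271)) (XT.nd (nat_lit 94) (nat_lit 84) (nat_lit 0) (XT.lf (nat_lit 0) (nat_lit 3053525531) (nat_lit 1008) (nat_lit 3157816335) (nat_lit 1092) (nat_lit 1289809815) (nat_lit 92) (nat_lit 5) (nat_lit 104) (nat_lit 5) (nat_lit 105) (nat_lit 4) (nat_lit 314) (nat_lit 277) (nat_lit 270)) (XT.lf (nat_lit 0) (nat_lit 1048581493) (nat_lit 1092) (nat_lit 778658734) (nat_lit 84) (nat_lit 5763984329) (nat_lit 91) (nat_lit 5) (nat_lit 104) (nat_lit 5) (nat_lit 92) (nat_lit 5) (nat_lit 315) (nat_lit 277) (nat_lit 269)))) (XT.nd (nat_lit 94) (nat_lit 588) (nat_lit 0) (XT.lf (nat_lit 0) (nat_lit 2981439189) (nat_lit 588) (nat_lit 410078148) (nat_lit 672) (nat_lit 4293901569) (nat_lit 84) (nat_lit 5) (nat_lit 91) (nat_lit 5) (nat_lit 92) (nat_lit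 5) (nat_lit 316) (nat_lit 277) (nat_lit 268)) (XT.nd (nat_lit 94) (nat_lit 588) (nat_lit 0) (XT.lf (nat_lit 0) (nat_lit 5756441030) (nat_lit 672) (nat_lit 989566339) (nat_lit 84) (nat_lit 1038544357) (nat_lit 84) (nat_lit 5) (nat_lit 92) (nat_lit 5) (nat_lit 85) (nat_lit 4) (nat_lit 317) (nat_lit 277) (nat_lit 267)) (XT.lf (nat_lit 0) (nat_lit 265937744) (nat_lit 588) (nat_lit 5067520592) (nat_lit 84) (nat_lit 2554735695) (nat_lit 77) (nat_lit 5) (nat_lit 84) (nat_lit 5) (nat_lit 78) (nat_lit 5) (nat_lit 318) (nat_lit 277) (nat_lit 266))))) (XT.nd (nat_lit 282) (nat_lit 924) (nat_lit 0) (XT.nd (nat_lit 94) (nat_lit 504) (nat_lit 0) (XT.lf (nat_lit 0) (nat_lit 2532464344) (nat_lit 588) (nat_lit 1315889988) (nat_lit 84) (nat_lit 4148212914) (nat_lit 77) (nat_lit 5) (nat_lit 84) (nat_lit 5) (nat_lit 78) (nat_lit 5) (nat_lit 319) (nat_lit 277) (nat_lit 265)) (XT.nd (nat_lit 94) (nat_lit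 0) (nat_lit 0) (XT.lf (nat_lit 0) (nat_lit 2534906872) (nat_lit 504) (nat_lit 2294562436) (nat_lit 588) (nat_lit 3280460974) (nat_lit 71) (nat_lit 5) (nat_lit 77) (nat_lit 5) (nat_lit 78) (nat_lit 5) (nat_lit 320) (nat_lit 277) (nat_lit 264)) (XT.lf (nat_lit 0) (nat_lit 6465458129) (nat_lit 504) (nat_lit 682310492) (nat_lit 588) (nat_lit 1080971261) (nat_lit 71) (nat_lit 5) (nat_lit 77) (nat_lit 5) (nat_lit 78) (nat_lit 5) (nat_lit 321) (nat_lit 277) (nat_lit 263)))) (XT.nd (nat_lit 94) (nat_lit 420) (nat_lit 0) (XT.lf (nat_lit 0) (nat_lit 1131211692) (nat_lit 504) (nat_lit 6231892283) (nat_lit 84) (nat_lit 989104901) (nat_lit 65) (nat_lit 5) (nat_lit 71) (nat_lit 5) (nat_lit 66) (nat_lit 5) (nat_lit 322) (nat_lit 277) (nat_lit 262)) (XT.nd (nat_lit 94) (nat_lit 420) (nat_lit 0) (XT.lf (nat_lit 0) (nat_lit 3353535955) (nat_lit 504) (nat_lit 2404137779) (nat_lit 84) (nat_lit 2722955706)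 (nat_lit 65) (nat_lit 5) (nat_lit 71) (nat_lit 5) (nat_lit 66) (nat_lit 5) (nat_lit 323) (nat_lit 277) (nat_lit 261)) (XT.lf (nat_lit 0) (nat_lit 1506017092) (nat_lit 420) (nat_lit 4093972079) (nat_lit 504) (nat_lit 3014770280) (nat_lit 60) (nat_lit 5) (nat_lit 65) (nat_lit 5) (nat_lit 66) (nat_lit 5) (nat_lit 324) (nat_lit 277) (nat_lit 260))))))) (XT.nd (nat_lit 1128) (nat_lit 1176) (nat_lit 0) (XT.nd (nat_lit 564) (nat_lit 1008) (nat_lit 0) (XT.nd (nat_lit 282) (nat_lit 504) (nat_lit 0) (XT.nd (nat_lit 94) (nat_lit 420) (nat_lit 0) (XT.lf (nat_lit 0) (nat_lit 5522424610) (nat_lit 420) (nat_lit 2360190247) (nat_lit 504) (nat_lit 871800640) (nat_lit 60) (nat_lit 5) (nat_lit 65) (nat_lit 5) (nat_lit 66) (nat_lit 5) (nat_lit 325) (nat_lit 277) (nat_lit 259)) (XT.nd (nat_lit 94) (nat_lit 0) (nat_lit 0) (XT.lf (nat_lit 0) (nat_lit 700337388) (nat_lit 336) (nat_lit 559565351) (nat_lit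 420) (nat_lit 7639970937) (nat_lit 55) (nat_lit 5) (nat_lit 59) (nat_lit 5) (nat_lit 60) (nat_lit 5) (nat_lit 326) (nat_lit 277) (nat_lit 258)) (XT.lf (nat_lit 0) (nat_lit 3429840138) (nat_lit 420) (nat_lit 4314593803) (nat_lit 84) (nat_lit 1305734210) (nat_lit 55) (nat_lit 5) (nat_lit 60) (nat_lit 5) (nat_lit 56) (nat_lit 5) (nat_lit 327) (nat_lit 277) (nat_lit 257)))) (XT.nd (nat_lit 94) (nat_lit 504) (nat_lit 0) (XT.lf (nat_lit 0) (nat_lit 5617788008) (nat_lit 420) (nat_lit 379690110) (nat_lit 84) (nat_lit 3209463138) (nat_lit 55) (nat_lit 5) (nat_lit 60) (nat_lit 5) (nat_lit 56) (nat_lit 5) (nat_lit 328) (nat_lit 277) (nat_lit 256)) (XT.nd (nat_lit 94) (nat_lit 84) (nat_lit 0) (XT.lf (nat_lit 0) (nat_lit 3688712833) (nat_lit 420) (nat_lit 4168114442) (nat_lit 504) (nat_lit 1512549556) (nat_lit 50) (nat_lit 5) (nat_lit 55) (nat_lit 5) (nat_lit 56) (nat_lit 5) (nat_lit 329) (nat_lit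 277) (nat_lit 255)) (XT.lf (nat_lit 0) (nat_lit 566625436) (nat_lit 504) (nat_lit 1715240167) (nat_lit 84) (nat_lit 7256579364) (nat_lit 49) (nat_lit 5) (nat_lit 55) (nat_lit 5) (nat_lit 50) (nat_lit 5) (nat_lit 330) (nat_lit 277) (nat_lit 254))))) (XT.nd (nat_lit 282) (nat_lit 336) (nat_lit 0) (XT.nd (nat_lit 94) (nat_lit 336) (nat_lit 0) (XT.lf (nat_lit 0) (nat_lit 2343237086) (nat_lit 336) (nat_lit 307296043) (nat_lit 420) (nat_lit 7062877789) (nat_lit 45) (nat_lit 5) (nat_lit 49) (nat_lit 5) (nat_lit 50) (nat_lit 5) (nat_lit 331) (nat_lit 277) (nat_lit 253)) (XT.nd (nat_lit 94) (nat_lit 336) (nat_lit 0) (XT.lf (nat_lit 0) (nat_lit 4783569555) (nat_lit 420) (nat_lit 3409395196) (nat_lit 84) (nat_lit 1701566811) (nat_lit 45) (nat_lit 5) (nat_lit 50) (nat_lit 5) (nat_lit 46) (nat_lit 5) (nat_lit 332) (nat_lit 277) (nat_lit 252)) (XT.lf (nat_lit 0) (nat_lit 622748354) (nat_lit 336)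 (nat_lit 6320121137) (nat_lit 420) (nat_lit 3139876689) (nat_lit 41) (nat_lit 5) (nat_lit 45) (nat_lit 5) (nat_lit 46) (nat_lit 5) (nat_lit 333) (nat_lit 277) (nat_lit 251)))) (XT.nd (nat_lit 94) (nat_lit 336) (nat_lit 0) (XT.lf (nat_lit 0) (nat_lit 4791958225) (nat_lit 336) (nat_lit 4364436830) (nat_lit 420) (nat_lit 1121030720) (nat_lit 41) (nat_lit 5) (nat_lit 45) (nat_lit 5) (nat_lit 46) (nat_lit 5) (nat_lit 334) (nat_lit 277) (nat_lit 250)) (XT.nd (nat_lit 94) (nat_lit 252) (nat_lit 0) (XT.lf (nat_lit 0) (nat_lit 893498422) (nat_lit 420) (nat_lit 1456851309) (nat_lit 84) (nat_lit 8129191684) (nat_lit 40) (nat_lit 5) (nat_lit 45) (nat_lit 5) (nat_lit 41) (nat_lit 5) (nat_lit 335) (nat_lit 277) (nat_lit 249)) (XT.lf (nat_lit 0) (nat_lit 2681405646) (nat_lit 252) (nat_lit 246264372) (nat_lit 336) (nat_lit 7760717915) (nat_lit 37) (nat_lit 5) (nat_lit 40) (nat_lit 5) (nat_lit 41)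 (nat_lit 5) (nat_lit 336) (nat_lit 277) (nat_lit 248)))))) (XT.nd (nat_lit 564) (nat_lit 504) (nat_lit 0) (XT.nd (nat_lit 282) (nat_lit 336) (nat_lit 0) (XT.nd (nat_lit 94) (nat_lit 336) (nat_lit 0) (XT.lf (nat_lit 0) (nat_lit 5013919411) (nat_lit 336) (nat_lit 4002351861) (nat_lit 84) (nat_lit 1887986924) (nat_lit 37) (nat_lit 5) (nat_lit 41) (nat_lit 5) (nat_lit 38) (nat_lit 5) (nat_lit 337) (nat_lit 277) (nat_lit 247)) (XT.nd (nat_lit 94) (nat_lit 0) (nat_lit 0) (XT.lf (nat_lit 0) (nat_lit 68330328) (nat_lit 336) (nat_lit 7055653991) (nat_lit 420) (nat_lit 4004305510) (nat_lit 33) (nat_lit 5) (nat_lit 37) (nat_lit 5) (nat_lit 38) (nat_lit 5) (nat_lit 338) (nat_lit 277) (nat_lit 246)) (XT.lf (nat_lit 0) (nat_lit 4293678207) (nat_lit 336) (nat_lit 5004270017) (nat_lit 420) (nat_lit 2061561814) (nat_lit 33) (nat_lit 5) (nat_lit 37) (nat_lit 5) (nat_lit 38) (nat_lit 5) (nat_lit 339)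 (nat_lit 277) (nat_lit 245)))) (XT.nd (nat_lit 94) (nat_lit 336) (nat_lit 0) (XT.lf (nat_lit 0) (nat_lit 8595333682) (nat_lit 336) (nat_lit 2901983590) (nat_lit 420) (nat_lit 102073199) (nat_lit 33) (nat_lit 5) (nat_lit 37) (nat_lit 5) (nat_lit 38) (nat_lit 5) (nat_lit 340) (nat_lit 277) (nat_lit 244)) (XT.nd (nat_lit 94) (nat_lit 0) (nat_lit 0) (XT.lf (nat_lit 0) (nat_lit 1133376613) (nat_lit 252) (nat_lit 716056450) (nat_lit 336) (nat_lit 9997796207) (nat_lit 29) (nat_lit 5) (nat_lit 32) (nat_lit 5) (nat_lit 33) (nat_lit 5) (nat_lit 341) (nat_lit 277) (nat_lit 243)) (XT.lf (nat_lit 0) (nat_lit 3865506643) (nat_lit 336) (nat_lit 6710463321) (nat_lit 84) (nat_lit 1526730906) (nat_lit 29) (nat_lit 5) (nat_lit 33) (nat_lit 5) (nat_lit 30) (nat_lit 5) (nat_lit 342) (nat_lit 277) (nat_lit 242))))) (XT.nd (nat_lit 282) (nat_lit 252) (nat_lit 0) (XT.nd (nat_lit 94) (nat_lit 252) (nat_lit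 0) (XT.lf (nat_lit 0) (nat_lit 5911887534) (nat_lit 336) (nat_lit 2643465115) (nat_lit 84) (nat_lit 3811906209) (nat_lit 29) (nat_lit 5) (nat_lit 33) (nat_lit 5) (nat_lit 30) (nat_lit 5) (nat_lit 343) (nat_lit 277) (nat_lit 241)) (XT.nd (nat_lit 94) (nat_lit 0) (nat_lit 0) (XT.lf (nat_lit 0) (nat_lit 1528838896) (nat_lit 252) (nat_lit 6469707183) (nat_lit 336) (nat_lit 4642353797) (nat_lit 26) (nat_lit 5) (nat_lit 29) (nat_lit 5) (nat_lit 30) (nat_lit 5) (nat_lit 344) (nat_lit 277) (nat_lit 240)) (XT.lf (nat_lit 0) (nat_lit 5835472705) (nat_lit 252) (nat_lit 4304330221) (nat_lit 336) (nat_lit 2783692417) (nat_lit 26) (nat_lit 5) (nat_lit 29) (nat_lit 5) (nat_lit 30) (nat_lit 5) (nat_lit 345) (nat_lit 277) (nat_lit 239)))) (XT.nd (nat_lit 188) (nat_lit 0) (nat_lit 0) (XT.nd (nat_lit 94) (nat_lit 252) (nat_lit 0) (XT.lf (nat_lit 0) (nat_lit 10226095482) (nat_lit 252) (nat_lit 2084795757)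 (nat_lit 336) (nat_lit 905247072) (nat_lit 26) (nat_lit 5) (nat_lit 29) (nat_lit 5) (nat_lit 30) (nat_lit 5) (nat_lit 346) (nat_lit 277) (nat_lit 238)) (XT.lf (nat_lit 0) (nat_lit 988712790) (nat_lit 252) (nat_lit 12320535896) (nat_lit 84) (nat_lit 209112304) (nat_lit 23) (nat_lit 5) (nat_lit 26) (nat_lit 5) (nat_lit 24) (nat_lit 5) (nat_lit 347) (nat_lit 277) (nat_lit 237))) (XT.nd (nat_lit 94) (nat_lit 0) (nat_lit 0) (XT.lf (nat_lit 0) (nat_lit 2939946709) (nat_lit 252) (nat_lit 8330505126) (nat_lit 84) (nat_lit 2558815979) (nat_lit 23) (nat_lit 5) (nat_lit 26) (nat_lit 5) (nat_lit 24) (nat_lit 5) (nat_lit 348) (nat_lit 277) (nat_lit 236)) (XT.lf (nat_lit 0) (nat_lit 4917249613) (nat_lit 252) (nat_lit 4264818336) (nat_lit 84) (nat_lit 4968948156) (nat_lit 23) (nat_lit 5) (nat_lit 26) (nat_lit 5) (nat_lit 24) (nat_lit 5) (nat_lit 349) (nat_lit 277) (nat_lit 235))))))))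
noncomputable def xc61 : XT := (XT.nd (nat_lit 2256) (nat_lit 420) (nat_lit 0) (XT.nd (nat_lit 1128) (nat_lit 504) (nat_lit 0) (XT.nd (nat_lit 564) (nat_lit 168) (nat_lit 0) (XT.nd (nat_lit 282) (nat_lit 252) (nat_lit 0) (XT.nd (nat_lit 94) (nat_lit 252) (nat_lit 0) (XT.lf (nat_lit 0) (nat_lit 6922464557) (nat_lit 252) (nat_lit 119685878) (nat_lit 84) (nat_lit 7441755331) (nat_lit 23) (nat_lit 5) (nat_lit 26) (nat_lit 5) (nat_lit 24) (nat_lit 5) (nat_lit 350) (nat_lit 277) (nat_lit 234)) (XT.nd (nat_lit 94) (nat_lit 0) (nat_lit 0) (XT.lf (nat_lit 0) (nat_lit 4193240393) (nat_lit 252) (nat_lit 4805817680) (nat_lit 336) (nat_lit 5827899491) (nat_lit 20) (nat_lit 5) (nat_lit 23) (nat_lit 5) (nat_lit 24) (nat_lit 5) (nat_lit 351) (nat_lit 277) (nat_lit 233)) (XT.lf (nat_lit 0) (nat_lit 8597672420) (nat_lit 252) (nat_lit 2511752154) (nat_lit 336) (nat_lit 4072292461) (nat_lit 20) (nat_lit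 5) (nat_lit 23) (nat_lit 5) (nat_lit 24) (nat_lit 5) (nat_lit 352) (nat_lit 277) (nat_lit 232)))) (XT.nd (nat_lit 94) (nat_lit 252) (nat_lit 0) (XT.lf (nat_lit 0) (nat_lit 13095254609) (nat_lit 252) (nat_lit 159064823) (nat_lit 336) (nat_lit 2294232984) (nat_lit 20) (nat_lit 5) (nat_lit 23) (nat_lit 5) (nat_lit 24) (nat_lit 5) (nat_lit 353) (nat_lit 277) (nat_lit 231)) (XT.nd (nat_lit 94) (nat_lit 84) (nat_lit 0) (XT.lf (nat_lit 0) (nat_lit 1775787400) (nat_lit 168) (nat_lit 13699934841) (nat_lit 252) (nat_lit 450844006) (nat_lit 18) (nat_lit 5) (nat_lit 20) (nat_lit 5) (nat_lit 21) (nat_lit 4) (nat_lit 354) (nat_lit 277) (nat_lit 230)) (XT.lf (nat_lit 0) (nat_lit 1417962068) (nat_lit 252) (nat_lit 10187091954) (nat_lit 84) (nat_lit 4710986908) (nat_lit 17) (nat_lit 5) (nat_lit 20) (nat_lit 5) (nat_lit 18) (nat_lit 5) (nat_lit 355) (nat_lit 277) (nat_lit 229))))) (XT.nd (nat_lit 282)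 (nat_lit 0) (nat_lit 0) (XT.nd (nat_lit 94) (nat_lit 168) (nat_lit 0) (XT.lf (nat_lit 0) (nat_lit 3306222463) (nat_lit 252) (nat_lit 6147140179) (nat_lit 84) (nat_lit 7265093075) (nat_lit 17) (nat_lit 5) (nat_lit 20) (nat_lit 5) (nat_lit 18) (nat_lit 5) (nat_lit 356) (nat_lit 277) (nat_lit 228)) (XT.nd (nat_lit 94) (nat_lit 168) (nat_lit 0) (XT.lf (nat_lit 0) (nat_lit 5224780737) (nat_lit 252) (nat_lit 2022685434) (nat_lit 84) (nat_lit 9886858175) (nat_lit 17) (nat_lit 5) (nat_lit 20) (nat_lit 5) (nat_lit 18) (nat_lit 5) (nat_lit 357) (nat_lit 277) (nat_lit 227)) (XT.lf (nat_lit 0) (nat_lit 2235149995) (nat_lit 168) (nat_lit 4962448155) (nat_lit 252) (nat_lit 10365748935) (nat_lit 15) (nat_lit 5) (nat_lit 17) (nat_lit 5) (nat_lit 18) (nat_lit 5) (nat_lit 358) (nat_lit 277) (nat_lit 226)))) (XT.nd (nat_lit 94) (nat_lit 0) (nat_lit 0) (XT.lf (nat_lit 0) (nat_lit 6628747497) (nat_lit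 168) (nat_lit 2596984514) (nat_lit 252) (nat_lit 8780216048) (nat_lit 15) (nat_lit 5) (nat_lit 17) (nat_lit 5) (nat_lit 18) (nat_lit 5) (nat_lit 359) (nat_lit 277) (nat_lit 225)) (XT.nd (nat_lit 94) (nat_lit 0) (nat_lit 0) (XT.lf (nat_lit 0) (nat_lit 11120611805) (nat_lit 168) (nat_lit 169983074) (nat_lit 252) (nat_lit 7172579753) (nat_lit 15) (nat_lit 5) (nat_lit 17) (nat_lit 5) (nat_lit 18) (nat_lit 5) (nat_lit 360) (nat_lit 277) (nat_lit 224)) (XT.lf (nat_lit 0) (nat_lit 13417134229) (nat_lit 252) (nat_lit 3243545987) (nat_lit 84) (nat_lit 2274059065) (nat_lit 15) (nat_lit 5) (nat_lit 18) (nat_lit 5) (nat_lit 16) (nat_lit 4) (nat_lit 361) (nat_lit 277) (nat_lit 223)))))) (XT.nd (nat_lit 564) (nat_lit 84) (nat_lit 0) (XT.nd (nat_lit 282) (nat_lit 252) (nat_lit 0) (XT.nd (nat_lit 94) (nat_lit 0) (nat_lit 0) (XT.lf (nat_lit 0) (nat_lit 963790988) (nat_lit 168) (nat_lit 14632400078)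 (nat_lit 252) (nat_lit 3825235863) (nat_lit 13) (nat_lit 5) (nat_lit 15) (nat_lit 5) (nat_lit 16) (nat_lit 4) (nat_lit 362) (nat_lit 277) (nat_lit 222)) (XT.nd (nat_lit 94) (nat_lit 0) (nat_lit 0) (XT.lf (nat_lit 0) (nat_lit 5334256592) (nat_lit 168) (nat_lit 12518078450) (nat_lit 252) (nat_lit 2070657481) (nat_lit 13) (nat_lit 5) (nat_lit 15) (nat_lit 5) (nat_lit 16) (nat_lit 4) (nat_lit 363) (nat_lit 277) (nat_lit 221)) (XT.lf (nat_lit 0) (nat_lit 9805230600) (nat_lit 168) (nat_lit 10349600533) (nat_lit 252) (nat_lit 286090423) (nat_lit 13) (nat_lit 5) (nat_lit 15) (nat_lit 5) (nat_lit 16) (nat_lit 4) (nat_lit 364) (nat_lit 277) (nat_lit 220)))) (XT.nd (nat_lit 94) (nat_lit 168) (nat_lit 0) (XT.lf (nat_lit 0) (nat_lit 1499300029) (nat_lit 252) (nat_lit 6609995430) (nat_lit 84) (nat_lit 12865930779) (nat_lit 12) (nat_lit 5) (nat_lit 15) (nat_lit 5) (nat_lit 13) (nat_lit 5) (nat_lit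 365) (nat_lit 277) (nat_lit 219)) (XT.nd (nat_lit 94) (nat_lit 168) (nat_lit 0) (XT.lf (nat_lit 0) (nat_lit 3311599556) (nat_lit 252) (nat_lit 2495872606) (nat_lit 84) (nat_lit 15719305193) (nat_lit 12) (nat_lit 5) (nat_lit 15) (nat_lit 5) (nat_lit 13) (nat_lit 5) (nat_lit 366) (nat_lit 277) (nat_lit 218)) (XT.lf (nat_lit 0) (nat_lit 1748580358) (nat_lit 168) (nat_lit 3427027269) (nat_lit 252) (nat_lit 16920031630) (nat_lit 10) (nat_lit 5) (nat_lit 12) (nat_lit 5) (nat_lit 13) (nat_lit 5) (nat_lit 367) (nat_lit 277) (nat_lit 217))))) (XT.nd (nat_lit 282) (nat_lit 84) (nat_lit 0) (XT.nd (nat_lit 94) (nat_lit 0) (nat_lit 0) (XT.lf (nat_lit 0) (nat_lit 6145413290) (nat_lit 168) (nat_lit 956557096) (nat_lit 252) (nat_lit 15580095630) (nat_lit 10) (nat_lit 5) (nat_lit 12) (nat_lit 5) (nat_lit 13) (nat_lit 5) (nat_lit 368) (nat_lit 277) (nat_lit 216)) (XT.nd (nat_lit 94) (nat_lit 0) (nat_lit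 0) (XT.lf (nat_lit 0) (nat_lit 9082890609) (nat_lit 252) (nat_lit 12655658999) (nat_lit 84) (nat_lit 1548352010) (nat_lit 10) (nat_lit 5) (nat_lit 13) (nat_lit 5) (nat_lit 11) (nat_lit 4) (nat_lit 369) (nat_lit 277) (nat_lit 215)) (XT.lf (nat_lit 0) (nat_lit 11114694526) (nat_lit 252) (nat_lit 8694940031) (nat_lit 84) (nat_lit 4101246404) (nat_lit 10) (nat_lit 5) (nat_lit 13) (nat_lit 5) (nat_lit 11) (nat_lit 4) (nat_lit 370) (nat_lit 277) (nat_lit 214)))) (XT.nd (nat_lit 94) (nat_lit 84) (nat_lit 0) (XT.lf (nat_lit 0) (nat_lit 13189786825) (nat_lit 252) (nat_lit 4641314851) (nat_lit 84) (nat_lit 6723778146) (nat_lit 10) (nat_lit 5) (nat_lit 13) (nat_lit 5) (nat_lit 11) (nat_lit 4) (nat_lit 371) (nat_lit 277) (nat_lit 213)) (XT.nd (nat_lit 94) (nat_lit 84) (nat_lit 0) (XT.lf (nat_lit 0) (nat_lit 15310101711) (nat_lit 252) (nat_lit 491005056) (nat_lit 84) (nat_lit 9418391708) (nat_lit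 10) (nat_lit 5) (nat_lit 13) (nat_lit 5) (nat_lit 11) (nat_lit 4) (nat_lit 372) (nat_lit 277) (nat_lit 212)) (XT.lf (nat_lit 0) (nat_lit 3837168265) (nat_lit 84) (nat_lit 13678512457) (nat_lit 168) (nat_lit 8388495673) (nat_lit 9) (nat_lit 5) (nat_lit 10) (nat_lit 5) (nat_lit 11) (nat_lit 4) (nat_lit 373) (nat_lit 277) (nat_lit 211))))))) (XT.nd (nat_lit 1128) (nat_lit 168) (nat_lit 0) (XT.nd (nat_lit 564) (nat_lit 0) (nat_lit 0) (XT.nd (nat_lit 282) (nat_lit 252) (nat_lit 0) (XT.nd (nat_lit 94) (nat_lit 0) (nat_lit 0) (XT.lf (nat_lit 0) (nat_lit 8282102096) (nat_lit 84) (nat_lit 11494406039) (nat_lit 168) (nat_lit 6834037855) (nat_lit 9) (nat_lit 5) (nat_lit 10) (nat_lit 5) (nat_lit 11) (nat_lit 4) (nat_lit 374) (nat_lit 277) (nat_lit 210)) (XT.nd (nat_lit 94) (nat_lit 0) (nat_lit 0) (XT.lf (nat_lit 0) (nat_lit 12837843509) (nat_lit 84) (nat_lit 9251876783) (nat_lit 168) (nat_lit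 5249699480) (nat_lit 9) (nat_lit 5) (nat_lit 10) (nat_lit 5) (nat_lit 11) (nat_lit 4) (nat_lit 375) (nat_lit 277) (nat_lit 209)) (XT.lf (nat_lit 0) (nat_lit 17508638934) (nat_lit 84) (nat_lit 6948834417) (nat_lit 168) (nat_lit 3634003779) (nat_lit 9) (nat_lit 5) (nat_lit 10) (nat_lit 5) (nat_lit 11) (nat_lit 4) (nat_lit 376) (nat_lit 277) (nat_lit 208)))) (XT.nd (nat_lit 94) (nat_lit 252) (nat_lit 0) (XT.lf (nat_lit 0) (nat_lit 22298842039) (nat_lit 84) (nat_lit 4583132263) (nat_lit 168) (nat_lit 1985444753) (nat_lit 9) (nat_lit 5) (nat_lit 10) (nat_lit 5) (nat_lit 11) (nat_lit 4) (nat_lit 377) (nat_lit 277) (nat_lit 207)) (XT.nd (nat_lit 94) (nat_lit 252) (nat_lit 0) (XT.lf (nat_lit 0) (nat_lit 27212917797) (nat_lit 84) (nat_lit 2152565241) (nat_lit 168) (nat_lit 302485773) (nat_lit 9) (nat_lit 5) (nat_lit 10) (nat_lit 5) (nat_lit 11) (nat_lit 4) (nat_lit 378) (nat_lit 277) (nat_lit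 206)) (XT.lf (nat_lit 0) (nat_lit 1409344219) (nat_lit 252) (nat_lit 28713181540) (nat_lit 84) (nat_lit 370246586) (nat_lit 6) (nat_lit 5) (nat_lit 9) (nat_lit 5) (nat_lit 7) (nat_lit 4) (nat_lit 379) (nat_lit 277) (nat_lit 205))))) (XT.nd (nat_lit 282) (nat_lit 0) (nat_lit 0) (XT.nd (nat_lit 94) (nat_lit 0) (nat_lit 0) (XT.lf (nat_lit 0) (nat_lit 3200140505) (nat_lit 252) (nat_lit 25194633429) (nat_lit 84) (nat_lit 2947325574) (nat_lit 6) (nat_lit 5) (nat_lit 9) (nat_lit 5) (nat_lit 7) (nat_lit 4) (nat_lit 380) (nat_lit 277) (nat_lit 204)) (XT.nd (nat_lit 94) (nat_lit 0) (nat_lit 0) (XT.lf (nat_lit 0) (nat_lit 5031203595) (nat_lit 252) (nat_lit 21590738613) (nat_lit 84) (nat_lit 5596333130) (nat_lit 6) (nat_lit 5) (nat_lit 9) (nat_lit 5) (nat_lit 7) (nat_lit 4) (nat_lit 381) (nat_lit 277) (nat_lit 203)) (XT.lf (nat_lit 0) (nat_lit 6904240234) (nat_lit 252) (nat_lit 17898137883) (nat_lit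 84) (nat_lit 8319738406) (nat_lit 6) (nat_lit 5) (nat_lit 9) (nat_lit 5) (nat_lit 7) (nat_lit 4) (nat_lit 382) (nat_lit 277) (nat_lit 202)))) (XT.nd (nat_lit 94) (nat_lit 0) (nat_lit 0) (XT.lf (nat_lit 0) (nat_lit 8820996287) (nat_lit 252) (nat_lit 14113389350) (nat_lit 84) (nat_lit 11120079902) (nat_lit 6) (nat_lit 5) (nat_lit 9) (nat_lit 5) (nat_lit 7) (nat_lit 4) (nat_lit 383) (nat_lit 277) (nat_lit 201)) (XT.nd (nat_lit 94) (nat_lit 0) (nat_lit 0) (XT.lf (nat_lit 0) (nat_lit 10783258371) (nat_lit 252) (nat_lit 10232965232) (nat_lit 84) (nat_lit 13999967828) (nat_lit 6) (nat_lit 5) (nat_lit 9) (nat_lit 5) (nat_lit 7) (nat_lit 4) (nat_lit 384) (nat_lit 277) (nat_lit 200)) (XT.lf (nat_lit 0) (nat_lit 12792855521) (nat_lit 252) (nat_lit 6253248565) (nat_lit 84) (nat_lit 16962086542) (nat_lit 6) (nat_lit 5) (nat_lit 9) (nat_lit 5) (nat_lit 7) (nat_lit 4) (nat_lit 385) (nat_lit 277)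 (nat_lit 199)))))) (XT.nd (nat_lit 564) (nat_lit 84) (nat_lit 0) (XT.nd (nat_lit 282) (nat_lit 0) (nat_lit 0) (XT.nd (nat_lit 94) (nat_lit 84) (nat_lit 0) (XT.lf (nat_lit 0) (nat_lit 14851660891) (nat_lit 252) (nat_lit 2170529839) (nat_lit 84) (nat_lit 20009197049) (nat_lit 6) (nat_lit 5) (nat_lit 9) (nat_lit 5) (nat_lit 7) (nat_lit 4) (nat_lit 386) (nat_lit 277) (nat_lit 198)) (XT.nd (nat_lit 94) (nat_lit 0) (nat_lit 0) (XT.lf (nat_lit 0) (nat_lit 2060511176) (nat_lit 84) (nat_lit 14921522854) (nat_lit 168) (nat_lit 21104068924) (nat_lit 5) (nat_lit 5) (nat_lit 6) (nat_lit 5) (nat_lit 7) (nat_lit 4) (nat_lit 387) (nat_lit 277) (nat_lit 197)) (XT.lf (nat_lit 0) (nat_lit 6449171876) (nat_lit 84) (nat_lit 12739424745) (nat_lit 168) (nat_lit 19984640922) (nat_lit 5) (nat_lit 5) (nat_lit 6) (nat_lit 5) (nat_lit 7) (nat_lit 4) (nat_lit 388) (nat_lit 277) (nat_lit 196)))) (XT.nd (nat_lit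 94) (nat_lit 0) (nat_lit 0) (XT.lf (nat_lit 0) (nat_lit 10954912406) (nat_lit 84) (nat_lit 10496518341) (nat_lit 168) (nat_lit 18843055337) (nat_lit 5) (nat_lit 5) (nat_lit 6) (nat_lit 5) (nat_lit 7) (nat_lit 4) (nat_lit 389) (nat_lit 277) (nat_lit 195)) (XT.nd (nat_lit 94) (nat_lit 0) (nat_lit 0) (XT.lf (nat_lit 0) (nat_lit 15581932588) (nat_lit 84) (nat_lit 8190713019) (nat_lit 168) (nat_lit 17678248092) (nat_lit 5) (nat_lit 5) (nat_lit 6) (nat_lit 5) (nat_lit 7) (nat_lit 4) (nat_lit 390) (nat_lit 277) (nat_lit 194)) (XT.lf (nat_lit 0) (nat_lit 20334545290) (nat_lit 84) (nat_lit 5819859525) (nat_lit 168) (nat_lit 16489133465) (nat_lit 5) (nat_lit 5) (nat_lit 6) (nat_lit 5) (nat_lit 7) (nat_lit 4) (nat_lit 391) (nat_lit 277) (nat_lit 193))))) (XT.nd (nat_lit 282) (nat_lit 84) (nat_lit 0) (XT.nd (nat_lit 94) (nat_lit 0) (nat_lit 0) (XT.lf (nat_lit 0) (nat_lit 25217180445) (nat_lit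 84) (nat_lit 3381747976) (nat_lit 168) (nat_lit 15274603076) (nat_lit 5) (nat_lit 5) (nat_lit 6) (nat_lit 5) (nat_lit 7) (nat_lit 4) (nat_lit 392) (nat_lit 277) (nat_lit 192)) (XT.nd (nat_lit 94) (nat_lit 0) (nat_lit 0) (XT.lf (nat_lit 0) (nat_lit 30234389179) (nat_lit 84) (nat_lit 874105797) (nat_lit 168) (nat_lit 14033524857) (nat_lit 5) (nat_lit 5) (nat_lit 6) (nat_lit 5) (nat_lit 7) (nat_lit 4) (nat_lit 393) (nat_lit 277) (nat_lit 191)) (XT.lf (nat_lit 0) (nat_lit 33702361483) (nat_lit 168) (nat_lit 11076255417) (nat_lit 0) (nat_lit 1671044298) (nat_lit 5) (nat_lit 5) (nat_lit 7) (nat_lit 4) (nat_lit 5) (nat_lit 4) (nat_lit 394) (nat_lit 277) (nat_lit 190)))) (XT.nd (nat_lit 188) (nat_lit 84) (nat_lit 0) (XT.nd (nat_lit 94) (nat_lit 0) (nat_lit 0) (XT.lf (nat_lit 0) (nat_lit 36375420134) (nat_lit 168) (nat_lit 7151128535) (nat_lit 0) (nat_lit 4271359077) (nat_lit 5) (nat_lit 5)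 (nat_lit 7) (nat_lit 4) (nat_lit 5) (nat_lit 4) (nat_lit 395) (nat_lit 277) (nat_lit 189)) (XT.lf (nat_lit 0) (nat_lit 39121491261) (nat_lit 168) (nat_lit 3119920141) (nat_lit 0) (nat_lit 6946873588) (nat_lit 5) (nat_lit 5) (nat_lit 7) (nat_lit 4) (nat_lit 5) (nat_lit 4) (nat_lit 396) (nat_lit 277) (nat_lit 188))) (XT.nd (nat_lit 94) (nat_lit 0) (nat_lit 0) (XT.lf (nat_lit 0) (nat_lit 1042123743) (nat_lit 84) (nat_lit 40911348743) (nat_lit 84) (nat_lit 8668295942) (nat_lit 4) (nat_lit 4) (nat_lit 5) (nat_lit 5) (nat_lit 5) (nat_lit 4) (nat_lit 397) (nat_lit 277) (nat_lit 187)) (XT.lf (nat_lit 0) (nat_lit 5384356379) (nat_lit 84) (nat_lit 39512036993) (nat_lit 84) (nat_lit 7202606764) (nat_lit 4) (nat_lit 4) (nat_lit 5) (nat_lit 5) (nat_lit 5) (nat_lit 4) (nat_lit 398) (nat_lit 277) (nat_lit 186))))))))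
noncomputable def xc62 : XT := (XT.nd (nat_lit 46060) (nat_lit 0) (nat_lit 2940) (XT.nd (nat_lit 1128) (nat_lit 84) (nat_lit 0) (XT.nd (nat_lit 564) (nat_lit 0) (nat_lit 0) (XT.nd (nat_lit 282) (nat_lit 84) (nat_lit 0) (XT.nd (nat_lit 94) (nat_lit 0) (nat_lit 0) (XT.lf (nat_lit 0) (nat_lit 9846673223) (nat_lit 84) (nat_lit 38074737413) (nat_lit 84) (nat_lit 5700925587) (nat_lit 4) (nat_lit 4) (nat_lit 5) (nat_lit 5) (nat_lit 5) (nat_lit 4) (nat_lit 399) (nat_lit 277) (nat_lit 185)) (XT.nd (nat_lit 94) (nat_lit 0) (nat_lit 0) (XT.lf (nat_lit 0) (nat_lit 14433233623) (nat_lit 84) (nat_lit 36598110290) (nat_lit 84) (nat_lit 4161852685) (nat_lit 4) (nat_lit 4) (nat_lit 5) (nat_lit 5) (nat_lit 5) (nat_lit 4) (nat_lit 400) (nat_lit 277) (nat_lit 184)) (XT.lf (nat_lit 0) (nat_lit 19148312733) (nat_lit 84) (nat_lit 35080779253) (nat_lit 84) (nat_lit 2583953483) (nat_lit 4) (nat_lit 4) (nat_lit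 5) (nat_lit 5) (nat_lit 5) (nat_lit 4) (nat_lit 401) (nat_lit 277) (nat_lit 183)))) (XT.nd (nat_lit 94) (nat_lit 84) (nat_lit 0) (XT.lf (nat_lit 0) (nat_lit 23996305501) (nat_lit 84) (nat_lit 33521329991) (nat_lit 84) (nat_lit 965757212) (nat_lit 4) (nat_lit 4) (nat_lit 5) (nat_lit 5) (nat_lit 5) (nat_lit 4) (nat_lit 402) (nat_lit 277) (nat_lit 182)) (XT.nd (nat_lit 94) (nat_lit 0) (nat_lit 0) (XT.lf (nat_lit 0) (nat_lit 680256976) (nat_lit 168) (nat_lit 31230951468) (nat_lit 84) (nat_lit 28294373300) (nat_lit 3) (nat_lit 5) (nat_lit 5) (nat_lit 5) (nat_lit 4) (nat_lit 4) (nat_lit 403) (nat_lit 277) (nat_lit 181)) (XT.lf (nat_lit 0) (nat_lit 2349292542) (nat_lit 168) (nat_lit 27896407557) (nat_lit 84) (nat_lit 31735421123) (nat_lit 3) (nat_lit 5) (nat_lit 5) (nat_lit 5) (nat_lit 4) (nat_lit 4) (nat_lit 404) (nat_lit 277) (nat_lit 180))))) (XT.nd (nat_lit 282) (nat_lit 0) (nat_lit 0)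 (XT.nd (nat_lit 94) (nat_lit 0) (nat_lit 0) (XT.lf (nat_lit 0) (nat_lit 4062363055) (nat_lit 168) (nat_lit 24470766895) (nat_lit 84) (nat_lit 35278833168) (nat_lit 3) (nat_lit 5) (nat_lit 5) (nat_lit 5) (nat_lit 4) (nat_lit 4) (nat_lit 405) (nat_lit 277) (nat_lit 179)) (XT.nd (nat_lit 94) (nat_lit 0) (nat_lit 0) (XT.lf (nat_lit 0) (nat_lit 5821065278) (nat_lit 168) (nat_lit 20950836424) (nat_lit 84) (nat_lit 38927912268) (nat_lit 3) (nat_lit 5) (nat_lit 5) (nat_lit 5) (nat_lit 4) (nat_lit 4) (nat_lit 406) (nat_lit 277) (nat_lit 178)) (XT.lf (nat_lit 0) (nat_lit 7627038505) (nat_lit 168) (nat_lit 17333335203) (nat_lit 84) (nat_lit 42686059744) (nat_lit 3) (nat_lit 5) (nat_lit 5) (nat_lit 5) (nat_lit 4) (nat_lit 4) (nat_lit 407) (nat_lit 277) (nat_lit 177)))) (XT.nd (nat_lit 94) (nat_lit 0) (nat_lit 0) (XT.lf (nat_lit 0) (nat_lit 9481966092) (nat_lit 168) (nat_lit 13614891340) (nat_lit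 84) (nat_lit 46556778586) (nat_lit 3) (nat_lit 5) (nat_lit 5) (nat_lit 5) (nat_lit 4) (nat_lit 4) (nat_lit 408) (nat_lit 277) (nat_lit 176)) (XT.nd (nat_lit 94) (nat_lit 0) (nat_lit 0) (XT.lf (nat_lit 0) (nat_lit 11387577026) (nat_lit 168) (nat_lit 9792038856) (nat_lit 84) (nat_lit 50543676708) (nat_lit 3) (nat_lit 5) (nat_lit 5) (nat_lit 5) (nat_lit 4) (nat_lit 4) (nat_lit 409) (nat_lit 277) (nat_lit 175)) (XT.lf (nat_lit 0) (nat_lit 13345647536) (nat_lit 168) (nat_lit 5861214452) (nat_lit 84) (nat_lit 54650470317) (nat_lit 3) (nat_lit 5) (nat_lit 5) (nat_lit 5) (nat_lit 4) (nat_lit 4) (nat_lit 410) (nat_lit 277) (nat_lit 174)))))) (XT.nd (nat_lit 44368) (nat_lit 0) (nat_lit 8568) (XT.nd (nat_lit 44086) (nat_lit 0) (nat_lit 11256) (XT.nd (nat_lit 94) (nat_lit 84) (nat_lit 0) (XT.lf (nat_lit 0) (nat_lit 15358002748) (nat_lit 168) (nat_lit 1818754189) (nat_lit 84) (nat_lit 58880987375)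 (nat_lit 3) (nat_lit 5) (nat_lit 5) (nat_lit 5) (nat_lit 4) (nat_lit 4) (nat_lit 411) (nat_lit 277) (nat_lit 173)) (XT.nd (nat_lit 94) (nat_lit 0) (nat_lit 0) (XT.lf (nat_lit 0) (nat_lit 2387206828) (nat_lit 84) (nat_lit 15062992949) (nat_lit 168) (nat_lit 60875645725) (nat_lit 2) (nat_lit 5) (nat_lit 3) (nat_lit 5) (nat_lit 4) (nat_lit 4) (nat_lit 412) (nat_lit 277) (nat_lit 172)) (XT.lf (nat_lit 0) (nat_lit 6752297212) (nat_lit 84) (nat_lit 12867808945) (nat_lit 168) (nat_lit 61043770387) (nat_lit 2) (nat_lit 5) (nat_lit 3) (nat_lit 5) (nat_lit 4) (nat_lit 4) (nat_lit 413) (nat_lit 277) (nat_lit 171)))) (XT.nd (nat_lit 94) (nat_lit 756) (nat_lit 0) (XT.lf (nat_lit 0) (nat_lit 3226767175) (nat_lit 588) (nat_lit 108116440) (nat_lit 588) (nat_lit 108116440) (nat_lit 145) (nat_lit 4) (nat_lit 152) (nat_lit 5) (nat_lit 152) (nat_lit 4) (nat_lit 305) (nat_lit 278) (nat_lit 278)) (XT.nd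 (nat_lit 94) (nat_lit 0) (nat_lit 0) (XT.lf (nat_lit 0) (nat_lit 2285462829) (nat_lit 756) (nat_lit 3956046704) (nat_lit 0) (nat_lit 697202801) (nat_lit 136) (nat_lit 5) (nat_lit 145) (nat_lit 4) (nat_lit 136) (nat_lit 4) (nat_lit 306) (nat_lit 278) (nat_lit 277)) (XT.lf (nat_lit 0) (nat_lit 4784260872) (nat_lit 756) (nat_lit 556234422) (nat_lit 0) (nat_lit 1655496452) (nat_lit 136) (nat_lit 5) (nat_lit 145) (nat_lit 4) (nat_lit 136) (nat_lit 4) (nat_lit 307) (nat_lit 278) (nat_lit 276))))) (XT.nd (nat_lit 282) (nat_lit 1008) (nat_lit 0) (XT.nd (nat_lit 94) (nat_lit 840) (nat_lit 0) (XT.lf (nat_lit 0) (nat_lit 247091789) (nat_lit 840) (nat_lit 4121105663) (nat_lit 84) (nat_lit 2688983141) (nat_lit 126) (nat_lit 5) (nat_lit 136) (nat_lit 5) (nat_lit 127) (nat_lit 4) (nat_lit 308) (nat_lit 278) (nat_lit 275)) (XT.nd (nat_lit 94) (nat_lit 840) (nat_lit 0) (XT.lf (nat_lit 0) (nat_lit 2662148254)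 (nat_lit 840) (nat_lit 665383662) (nat_lit 84) (nat_lit 3794918918) (nat_lit 126) (nat_lit 5) (nat_lit 136) (nat_lit 5) (nat_lit 127) (nat_lit 4) (nat_lit 309) (nat_lit 278) (nat_lit 274)) (XT.lf (nat_lit 0) (nat_lit 2886708008) (nat_lit 840) (nat_lit 2216490577) (nat_lit 924) (nat_lit 2088633510) (nat_lit 116) (nat_lit 5) (nat_lit 126) (nat_lit 5) (nat_lit 127) (nat_lit 4) (nat_lit 310) (nat_lit 278) (nat_lit 273)))) (XT.nd (nat_lit 94) (nat_lit 924) (nat_lit 0) (XT.lf (nat_lit 0) (nat_lit 279214138) (nat_lit 924) (nat_lit 774082960) (nat_lit 84) (nat_lit 6212671034) (nat_lit 115) (nat_lit 5) (nat_lit 126) (nat_lit 5) (nat_lit 116) (nat_lit 5) (nat_lit 311) (nat_lit 278) (nat_lit 272)) (XT.nd (nat_lit 94) (nat_lit 0) (nat_lit 0) (XT.lf (nat_lit 0) (nat_lit 2632356641) (nat_lit 1008) (nat_lit 4511806464) (nat_lit 84) (nat_lit 199485937) (nat_lit 104) (nat_lit 5) (nat_lit 116) (nat_lit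 5) (nat_lit 105) (nat_lit 4) (nat_lit 312) (nat_lit 278) (nat_lit 271)) (XT.lf (nat_lit 0) (nat_lit 5004164306) (nat_lit 1008) (nat_lit 938756486) (nat_lit 84) (nat_lit 1483006780) (nat_lit 104) (nat_lit 5) (nat_lit 116) (nat_lit 5) (nat_lit 105) (nat_lit 4) (nat_lit 313) (nat_lit 278) (nat_lit 270))))))) (XT.nd (nat_lit 1128) (nat_lit 1932) (nat_lit 0) (XT.nd (nat_lit 564) (nat_lit 1428) (nat_lit 0) (XT.nd (nat_lit 282) (nat_lit 588) (nat_lit 0) (XT.nd (nat_lit 94) (nat_lit 672) (nat_lit 0) (XT.lf (nat_lit 0) (nat_lit 2731839081) (nat_lit 1008) (nat_lit 4673743120) (nat_lit 1092) (nat_lit 107027449) (nat_lit 92) (nat_lit 5) (nat_lit 104) (nat_lit 5) (nat_lit 105) (nat_lit 4) (nat_lit 314) (nat_lit 278) (nat_lit 269)) (XT.nd (nat_lit 94) (nat_lit 588) (nat_lit 0) (XT.lf (nat_lit 0) (nat_lit 2172708488) (nat_lit 1092) (nat_lit 1157748769) (nat_lit 84) (nat_lit 4273168783) (nat_lit 91)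 (nat_lit 5) (nat_lit 104) (nat_lit 5) (nat_lit 92) (nat_lit 5) (nat_lit 315) (nat_lit 278) (nat_lit 268)) (XT.lf (nat_lit 0) (nat_lit 2560688385) (nat_lit 588) (nat_lit 1917004219) (nat_lit 672) (nat_lit 3221525121) (nat_lit 84) (nat_lit 5) (nat_lit 91) (nat_lit 5) (nat_lit 92) (nat_lit 5) (nat_lit 316) (nat_lit 278) (nat_lit 267)))) (XT.nd (nat_lit 94) (nat_lit 588) (nat_lit 0) (XT.lf (nat_lit 0) (nat_lit 6352227234) (nat_lit 588) (nat_lit 446786681) (nat_lit 672) (nat_lit 1000902495) (nat_lit 84) (nat_lit 5) (nat_lit 91) (nat_lit 5) (nat_lit 92) (nat_lit 5) (nat_lit 317) (nat_lit 278) (nat_lit 266)) (XT.nd (nat_lit 94) (nat_lit 0) (nat_lit 0) (XT.lf (nat_lit 0) (nat_lit 1230371485) (nat_lit 588) (nat_lit 5590906301) (nat_lit 84) (nat_lit 1083470976) (nat_lit 77) (nat_lit 5) (nat_lit 84) (nat_lit 5) (nat_lit 78) (nat_lit 5) (nat_lit 318) (nat_lit 278) (nat_lit 265)) (XT.lf (nat_lit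 0) (nat_lit 3464928341) (nat_lit 588) (nat_lit 1872858669) (nat_lit 84) (nat_lit 2676521474) (nat_lit 77) (nat_lit 5) (nat_lit 84) (nat_lit 5) (nat_lit 78) (nat_lit 5) (nat_lit 319) (nat_lit 278) (nat_lit 264))))) (XT.nd (nat_lit 282) (nat_lit 420) (nat_lit 0) (XT.nd (nat_lit 94) (nat_lit 504) (nat_lit 0) (XT.lf (nat_lit 0) (nat_lit 1933242797) (nat_lit 504) (nat_lit 3791713443) (nat_lit 588) (nat_lit 2404051136) (nat_lit 71) (nat_lit 5) (nat_lit 77) (nat_lit 5) (nat_lit 78) (nat_lit 5) (nat_lit 320) (nat_lit 278) (nat_lit 263)) (XT.nd (nat_lit 94) (nat_lit 504) (nat_lit 0) (XT.lf (nat_lit 0) (nat_lit 5831550626) (nat_lit 504) (nat_lit 2181308947) (nat_lit 588) (nat_lit 236083548) (nat_lit 71) (nat_lit 5) (nat_lit 77) (nat_lit 5) (nat_lit 78) (nat_lit 5) (nat_lit 321) (nat_lit 278) (nat_lit 262)) (XT.lf (nat_lit 0) (nat_lit 1421804293) (nat_lit 420) (nat_lit 490268647) (nat_lit 504)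 (nat_lit 6461709448) (nat_lit 65) (nat_lit 5) (nat_lit 70) (nat_lit 5) (nat_lit 71) (nat_lit 5) (nat_lit 322) (nat_lit 278) (nat_lit 261)))) (XT.nd (nat_lit 94) (nat_lit 420) (nat_lit 0) (XT.lf (nat_lit 0) (nat_lit 4100137827) (nat_lit 504) (nat_lit 3152153227) (nat_lit 84) (nat_lit 1251141716) (nat_lit 65) (nat_lit 5) (nat_lit 71) (nat_lit 5) (nat_lit 66) (nat_lit 5) (nat_lit 323) (nat_lit 278) (nat_lit 260)) (XT.nd (nat_lit 94) (nat_lit 0) (nat_lit 0) (XT.lf (nat_lit 0) (nat_lit 710159754) (nat_lit 420) (nat_lit 5600024307) (nat_lit 504) (nat_lit 2328670068) (nat_lit 60) (nat_lit 5) (nat_lit 65) (nat_lit 5) (nat_lit 66) (nat_lit 5) (nat_lit 324) (nat_lit 278) (nat_lit 259)) (XT.lf (nat_lit 0) (nat_lit 4695082151) (nat_lit 420) (nat_lit 3869760574) (nat_lit 504) (nat_lit 214692266) (nat_lit 60) (nat_lit 5) (nat_lit 65) (nat_lit 5) (nat_lit 66) (nat_lit 5) (nat_lit 325) (nat_lit 278)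 (nat_lit 258)))))) (XT.nd (nat_lit 564) (nat_lit 672) (nat_lit 0) (XT.nd (nat_lit 282) (nat_lit 840) (nat_lit 0) (XT.nd (nat_lit 94) (nat_lit 336) (nat_lit 0) (XT.lf (nat_lit 0) (nat_lit 1869270855) (nat_lit 504) (nat_lit 204006874) (nat_lit 84) (nat_lit 6852731384) (nat_lit 59) (nat_lit 5) (nat_lit 65) (nat_lit 5) (nat_lit 60) (nat_lit 5) (nat_lit 326) (nat_lit 278) (nat_lit 257)) (XT.nd (nat_lit 94) (nat_lit 0) (nat_lit 0) (XT.lf (nat_lit 0) (nat_lit 3809727410) (nat_lit 336) (nat_lit 187164093) (nat_lit 420) (nat_lit 5080867930) (nat_lit 55) (nat_lit 5) (nat_lit 59) (nat_lit 5) (nat_lit 60) (nat_lit 5) (nat_lit 327) (nat_lit 278) (nat_lit 256)) (XT.lf (nat_lit 0) (nat_lit 6156725925) (nat_lit 420) (nat_lit 1362193406) (nat_lit 84) (nat_lit 1716624418) (nat_lit 55) (nat_lit 5) (nat_lit 60) (nat_lit 5) (nat_lit 56) (nat_lit 5) (nat_lit 328) (nat_lit 278) (nat_lit 255)))) (XT.nd (nat_lit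 94) (nat_lit 420) (nat_lit 0) (XT.lf (nat_lit 0) (nat_lit 2655398544) (nat_lit 420) (nat_lit 5704648771) (nat_lit 504) (nat_lit 1039174758) (nat_lit 50) (nat_lit 5) (nat_lit 55) (nat_lit 5) (nat_lit 56) (nat_lit 5) (nat_lit 329) (nat_lit 278) (nat_lit 254)) (XT.nd (nat_lit 94) (nat_lit 336) (nat_lit 0) (XT.lf (nat_lit 0) (nat_lit 1005082327) (nat_lit 504) (nat_lit 2813433349) (nat_lit 84) (nat_lit 5750543223) (nat_lit 49) (nat_lit 5) (nat_lit 55) (nat_lit 5) (nat_lit 50) (nat_lit 5) (nat_lit 330) (nat_lit 278) (nat_lit 253)) (XT.lf (nat_lit 0) (nat_lit 1192432229) (nat_lit 336) (nat_lit 1860524342) (nat_lit 420) (nat_lit 6692308952) (nat_lit 45) (nat_lit 5) (nat_lit 49) (nat_lit 5) (nat_lit 50) (nat_lit 5) (nat_lit 331) (nat_lit 278) (nat_lit 252))))) (XT.nd (nat_lit 282) (nat_lit 336) (nat_lit 0) (XT.nd (nat_lit 94) (nat_lit 336) (nat_lit 0) (XT.lf (nat_lit 0) (nat_lit 5146369479)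 (nat_lit 420) (nat_lit 4606593904) (nat_lit 84) (nat_lit 174771030) (nat_lit 45) (nat_lit 5) (nat_lit 50) (nat_lit 5) (nat_lit 46) (nat_lit 5) (nat_lit 332) (nat_lit 278) (nat_lit 251)) (XT.nd (nat_lit 94) (nat_lit 336) (nat_lit 0) (XT.lf (nat_lit 0) (nat_lit 7276004478) (nat_lit 420) (nat_lit 616044350) (nat_lit 84) (nat_lit 2224936129) (nat_lit 45) (nat_lit 5) (nat_lit 50) (nat_lit 5) (nat_lit 46) (nat_lit 5) (nat_lit 333) (nat_lit 278) (nat_lit 250)) (XT.lf (nat_lit 0) (nat_lit 3511745452) (nat_lit 336) (nat_lit 5948481474) (nat_lit 420) (nat_lit 852458838) (nat_lit 41) (nat_lit 5) (nat_lit 45) (nat_lit 5) (nat_lit 46) (nat_lit 5) (nat_lit 334) (nat_lit 278) (nat_lit 249)))) (XT.nd (nat_lit 188) (nat_lit 0) (nat_lit 0) (XT.nd (nat_lit 94) (nat_lit 252) (nat_lit 0) (XT.lf (nat_lit 0) (nat_lit 1133950474) (nat_lit 420) (nat_lit 2803449799) (nat_lit 84) (nat_lit 6578128642) (nat_lit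 40) (nat_lit 5) (nat_lit 45) (nat_lit 5) (nat_lit 41) (nat_lit 5) (nat_lit 335) (nat_lit 278) (nat_lit 248)) (XT.lf (nat_lit 0) (nat_lit 1278945014) (nat_lit 252) (nat_lit 1853238571) (nat_lit 336) (nat_lit 7593408882) (nat_lit 37) (nat_lit 5) (nat_lit 40) (nat_lit 5) (nat_lit 41) (nat_lit 5) (nat_lit 336) (nat_lit 278) (nat_lit 247))) (XT.nd (nat_lit 94) (nat_lit 0) (nat_lit 0) (XT.lf (nat_lit 0) (nat_lit 5180800425) (nat_lit 336) (nat_lit 5454115910) (nat_lit 84) (nat_lit 307812851) (nat_lit 37) (nat_lit 5) (nat_lit 41) (nat_lit 5) (nat_lit 38) (nat_lit 5) (nat_lit 337) (nat_lit 278) (nat_lit 246)) (XT.lf (nat_lit 0) (nat_lit 7269148527) (nat_lit 336) (nat_lit 1412007578) (nat_lit 84) (nat_lit 2486374780) (nat_lit 37) (nat_lit 5) (nat_lit 41) (nat_lit 5) (nat_lit 38) (nat_lit 5) (nat_lit 338) (nat_lit 278) (nat_lit 245))))))))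
noncomputable def xc63 : XT := (XT.nd (nat_lit 2256) (nat_lit 756) (nat_lit 0) (XT.nd (nat_lit 1128) (nat_lit 672) (nat_lit 0) (XT.nd (nat_lit 564) (nat_lit 504) (nat_lit 0) (XT.nd (nat_lit 282) (nat_lit 252) (nat_lit 0) (XT.nd (nat_lit 94) (nat_lit 84) (nat_lit 0) (XT.lf (nat_lit 0) (nat_lit 2757384722) (nat_lit 336) (nat_lit 6650758970) (nat_lit 420) (nat_lit 1991785366) (nat_lit 33) (nat_lit 5) (nat_lit 37) (nat_lit 5) (nat_lit 38) (nat_lit 5) (nat_lit 339) (nat_lit 278) (nat_lit 244)) (XT.nd (nat_lit 94) (nat_lit 84) (nat_lit 0) (XT.lf (nat_lit 0) (nat_lit 7032927871) (nat_lit 336) (nat_lit 4554533042) (nat_lit 420) (nat_lit 53061292) (nat_lit 33) (nat_lit 5) (nat_lit 37) (nat_lit 5) (nat_lit 38) (nat_lit 5) (nat_lit 340) (nat_lit 278) (nat_lit 243)) (XT.lf (nat_lit 0) (nat_lit 1866479840) (nat_lit 420) (nat_lit 519300822) (nat_lit 84) (nat_lit 9503611289) (nat_lit 32) (nat_lit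 5) (nat_lit 37) (nat_lit 5) (nat_lit 33) (nat_lit 5) (nat_lit 341) (nat_lit 278) (nat_lit 242)))) (XT.nd (nat_lit 94) (nat_lit 0) (nat_lit 0) (XT.lf (nat_lit 0) (nat_lit 3719260880) (nat_lit 252) (nat_lit 123183733) (nat_lit 336) (nat_lit 8303745447) (nat_lit 29) (nat_lit 5) (nat_lit 32) (nat_lit 5) (nat_lit 33) (nat_lit 5) (nat_lit 342) (nat_lit 278) (nat_lit 241)) (XT.nd (nat_lit 94) (nat_lit 0) (nat_lit 0) (XT.lf (nat_lit 0) (nat_lit 5868732790) (nat_lit 336) (nat_lit 4384102297) (nat_lit 84) (nat_lit 2158616468) (nat_lit 29) (nat_lit 5) (nat_lit 33) (nat_lit 5) (nat_lit 30) (nat_lit 5) (nat_lit 343) (nat_lit 278) (nat_lit 240)) (XT.lf (nat_lit 0) (nat_lit 7921921752) (nat_lit 336) (nat_lit 267230780) (nat_lit 84) (nat_lit 4497055809) (nat_lit 29) (nat_lit 5) (nat_lit 33) (nat_lit 5) (nat_lit 30) (nat_lit 5) (nat_lit 344) (nat_lit 278) (nat_lit 239))))) (XT.nd (nat_lit 282) (nat_lit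 168) (nat_lit 0) (XT.nd (nat_lit 94) (nat_lit 84) (nat_lit 0) (XT.lf (nat_lit 0) (nat_lit 4009527772) (nat_lit 252) (nat_lit 6032950526) (nat_lit 336) (nat_lit 2927043078) (nat_lit 26) (nat_lit 5) (nat_lit 29) (nat_lit 5) (nat_lit 30) (nat_lit 5) (nat_lit 345) (nat_lit 278) (nat_lit 238)) (XT.nd (nat_lit 94) (nat_lit 84) (nat_lit 0) (XT.lf (nat_lit 0) (nat_lit 8376503174) (nat_lit 252) (nat_lit 3819609676) (nat_lit 336) (nat_lit 1066666139) (nat_lit 26) (nat_lit 5) (nat_lit 29) (nat_lit 5) (nat_lit 30) (nat_lit 5) (nat_lit 346) (nat_lit 278) (nat_lit 237)) (XT.lf (nat_lit 0) (nat_lit 799352623) (nat_lit 336) (nat_lit 742160032) (nat_lit 84) (nat_lit 12024574866) (nat_lit 25) (nat_lit 5) (nat_lit 29) (nat_lit 5) (nat_lit 26) (nat_lit 5) (nat_lit 347) (nat_lit 278) (nat_lit 236)))) (XT.nd (nat_lit 94) (nat_lit 0) (nat_lit 0) (XT.lf (nat_lit 0) (nat_lit 2710757039) (nat_lit 252) (nat_lit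 10341992076) (nat_lit 84) (nat_lit 825547083) (nat_lit 23) (nat_lit 5) (nat_lit 26) (nat_lit 5) (nat_lit 24) (nat_lit 5) (nat_lit 348) (nat_lit 278) (nat_lit 235)) (XT.nd (nat_lit 94) (nat_lit 0) (nat_lit 0) (XT.lf (nat_lit 0) (nat_lit 4671622547) (nat_lit 252) (nat_lit 6299245031) (nat_lit 84) (nat_lit 3229751589) (nat_lit 23) (nat_lit 5) (nat_lit 26) (nat_lit 5) (nat_lit 24) (nat_lit 5) (nat_lit 349) (nat_lit 278) (nat_lit 234)) (XT.lf (nat_lit 0) (nat_lit 6660894333) (nat_lit 252) (nat_lit 2176362569) (nat_lit 84) (nat_lit 5696809327) (nat_lit 23) (nat_lit 5) (nat_lit 26) (nat_lit 5) (nat_lit 24) (nat_lit 5) (nat_lit 350) (nat_lit 278) (nat_lit 233)))))) (XT.nd (nat_lit 564) (nat_lit 168) (nat_lit 0) (XT.nd (nat_lit 282) (nat_lit 252) (nat_lit 0) (XT.nd (nat_lit 94) (nat_lit 0) (nat_lit 0) (XT.lf (nat_lit 0) (nat_lit 2072249476) (nat_lit 252) (nat_lit 6628734099) (nat_lit 336) (nat_lit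 6177327347) (nat_lit 20) (nat_lit 5) (nat_lit 23) (nat_lit 5) (nat_lit 24) (nat_lit 5) (nat_lit 351) (nat_lit 278) (nat_lit 232)) (XT.nd (nat_lit 94) (nat_lit 0) (nat_lit 0) (XT.lf (nat_lit 0) (nat_lit 6455319006) (nat_lit 252) (nat_lit 4340820334) (nat_lit 336) (nat_lit 4437462006) (nat_lit 20) (nat_lit 5) (nat_lit 23) (nat_lit 5) (nat_lit 24) (nat_lit 5) (nat_lit 352) (nat_lit 278) (nat_lit 231)) (XT.lf (nat_lit 0) (nat_lit 10932181024) (nat_lit 252) (nat_lit 1994099794) (nat_lit 336) (nat_lit 2674670899) (nat_lit 20) (nat_lit 5) (nat_lit 23) (nat_lit 5) (nat_lit 24) (nat_lit 5) (nat_lit 353) (nat_lit 278) (nat_lit 230)))) (XT.nd (nat_lit 94) (nat_lit 252) (nat_lit 0) (XT.lf (nat_lit 0) (nat_lit 15097496632) (nat_lit 336) (nat_lit 477799121) (nat_lit 84) (nat_lit 405281491) (nat_lit 20) (nat_lit 5) (nat_lit 24) (nat_lit 5) (nat_lit 21) (nat_lit 4) (nat_lit 354) (nat_lit 278) (nat_lit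 229)) (XT.nd (nat_lit 94) (nat_lit 0) (nat_lit 0) (XT.lf (nat_lit 0) (nat_lit 975212702) (nat_lit 252) (nat_lit 12521005295) (nat_lit 84) (nat_lit 2874615307) (nat_lit 17) (nat_lit 5) (nat_lit 20) (nat_lit 5) (nat_lit 18) (nat_lit 5) (nat_lit 355) (nat_lit 278) (nat_lit 228)) (XT.lf (nat_lit 0) (nat_lit 2849569506) (nat_lit 252) (nat_lit 8501110405) (nat_lit 84) (nat_lit 5423050199) (nat_lit 17) (nat_lit 5) (nat_lit 20) (nat_lit 5) (nat_lit 18) (nat_lit 5) (nat_lit 356) (nat_lit 278) (nat_lit 227))))) (XT.nd (nat_lit 282) (nat_lit 0) (nat_lit 0) (XT.nd (nat_lit 94) (nat_lit 168) (nat_lit 0) (XT.lf (nat_lit 0) (nat_lit 4754642239) (nat_lit 252) (nat_lit 4396109478) (nat_lit 84) (nat_lit 8039314547) (nat_lit 17) (nat_lit 5) (nat_lit 20) (nat_lit 5) (nat_lit 18) (nat_lit 5) (nat_lit 357) (nat_lit 278) (nat_lit 226)) (XT.nd (nat_lit 94) (nat_lit 168) (nat_lit 0) (XT.lf (nat_lit 0) (nat_lit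 6692206631) (nat_lit 252) (nat_lit 202176222) (nat_lit 84) (nat_lit 10725846981) (nat_lit 17) (nat_lit 5) (nat_lit 20) (nat_lit 5) (nat_lit 18) (nat_lit 5) (nat_lit 358) (nat_lit 278) (nat_lit 225)) (XT.lf (nat_lit 0) (nat_lit 4168586270) (nat_lit 168) (nat_lit 4536835315) (nat_lit 252) (nat_lit 9357918255) (nat_lit 15) (nat_lit 5) (nat_lit 17) (nat_lit 5) (nat_lit 18) (nat_lit 5) (nat_lit 359) (nat_lit 278) (nat_lit 224)))) (XT.nd (nat_lit 94) (nat_lit 0) (nat_lit 0) (XT.lf (nat_lit 0) (nat_lit 8642334330) (nat_lit 168) (nat_lit 2115465104) (nat_lit 252) (nat_lit 7763199160) (nat_lit 15) (nat_lit 5) (nat_lit 17) (nat_lit 5) (nat_lit 18) (nat_lit 5) (nat_lit 360) (nat_lit 278) (nat_lit 223)) (XT.nd (nat_lit 94) (nat_lit 0) (nat_lit 0) (XT.lf (nat_lit 0) (nat_lit 12852875557) (nat_lit 252) (nat_lit 5778284535) (nat_lit 84) (nat_lit 362422297) (nat_lit 15) (nat_lit 5) (nat_lit 18) (nat_lit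 5) (nat_lit 16) (nat_lit 4) (nat_lit 361) (nat_lit 278) (nat_lit 222)) (XT.lf (nat_lit 0) (nat_lit 15010573405) (nat_lit 252) (nat_lit 1607763020) (nat_lit 84) (nat_lit 2862638212) (nat_lit 15) (nat_lit 5) (nat_lit 18) (nat_lit 5) (nat_lit 16) (nat_lit 4) (nat_lit 362) (nat_lit 278) (nat_lit 221))))))) (XT.nd (nat_lit 1128) (nat_lit 252) (nat_lit 0) (XT.nd (nat_lit 564) (nat_lit 84) (nat_lit 0) (XT.nd (nat_lit 282) (nat_lit 168) (nat_lit 0) (XT.nd (nat_lit 94) (nat_lit 84) (nat_lit 0) (XT.lf (nat_lit 0) (nat_lit 2712422590) (nat_lit 168) (nat_lit 14526403479) (nat_lit 252) (nat_lit 2744619988) (nat_lit 13) (nat_lit 5) (nat_lit 15) (nat_lit 5) (nat_lit 16) (nat_lit 4) (nat_lit 363) (nat_lit 278) (nat_lit 220)) (XT.nd (nat_lit 94) (nat_lit 84) (nat_lit 0) (XT.lf (nat_lit 0) (nat_lit 7166693311) (nat_lit 168) (nat_lit 12363363905) (nat_lit 252) (nat_lit 971707041) (nat_lit 13) (nat_lit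 5) (nat_lit 15) (nat_lit 5) (nat_lit 16) (nat_lit 4) (nat_lit 364) (nat_lit 278) (nat_lit 219)) (XT.lf (nat_lit 0) (nat_lit 816421106) (nat_lit 252) (nat_lit 9319040405) (nat_lit 84) (nat_lit 10901199215) (nat_lit 12) (nat_lit 5) (nat_lit 15) (nat_lit 5) (nat_lit 13) (nat_lit 5) (nat_lit 365) (nat_lit 278) (nat_lit 218)))) (XT.nd (nat_lit 94) (nat_lit 168) (nat_lit 0) (XT.lf (nat_lit 0) (nat_lit 2617977711) (nat_lit 252) (nat_lit 5220888859) (nat_lit 84) (nat_lit 13749714762) (nat_lit 12) (nat_lit 5) (nat_lit 15) (nat_lit 5) (nat_lit 13) (nat_lit 5) (nat_lit 366) (nat_lit 278) (nat_lit 217)) (XT.nd (nat_lit 94) (nat_lit 168) (nat_lit 0) (XT.lf (nat_lit 0) (nat_lit 4454219744) (nat_lit 252) (nat_lit 1027156946) (nat_lit 84) (nat_lit 16676962653) (nat_lit 12) (nat_lit 5) (nat_lit 15) (nat_lit 5) (nat_lit 13) (nat_lit 5) (nat_lit 367) (nat_lit 278) (nat_lit 216)) (XT.lf (nat_lit 0) (nat_lit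 3333221310) (nat_lit 168) (nat_lit 3026703434) (nat_lit 252) (nat_lit 16385516047) (nat_lit 10) (nat_lit 5) (nat_lit 12) (nat_lit 5) (nat_lit 13) (nat_lit 5) (nat_lit 368) (nat_lit 278) (nat_lit 215))))) (XT.nd (nat_lit 282) (nat_lit 84) (nat_lit 0) (XT.nd (nat_lit 94) (nat_lit 0) (nat_lit 0) (XT.lf (nat_lit 0) (nat_lit 7820339105) (nat_lit 168) (nat_lit 494879929) (nat_lit 252) (nat_lit 15035885032) (nat_lit 10) (nat_lit 5) (nat_lit 12) (nat_lit 5) (nat_lit 13) (nat_lit 5) (nat_lit 369) (nat_lit 278) (nat_lit 214)) (XT.nd (nat_lit 94) (nat_lit 0) (nat_lit 0) (XT.lf (nat_lit 0) (nat_lit 10332415237) (nat_lit 252) (nat_lit 11579846755) (nat_lit 84) (nat_lit 2063306522) (nat_lit 10) (nat_lit 5) (nat_lit 13) (nat_lit 5) (nat_lit 11) (nat_lit 4) (nat_lit 370) (nat_lit 278) (nat_lit 213)) (XT.lf (nat_lit 0) (nat_lit 12398100705) (nat_lit 252) (nat_lit 7540489308) (nat_lit 84) (nat_lit 4681300271)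 (nat_lit 10) (nat_lit 5) (nat_lit 13) (nat_lit 5) (nat_lit 11) (nat_lit 4) (nat_lit 371) (nat_lit 278) (nat_lit 212)))) (XT.nd (nat_lit 94) (nat_lit 84) (nat_lit 0) (XT.lf (nat_lit 0) (nat_lit 14509291602) (nat_lit 252) (nat_lit 3404018246) (nat_lit 84) (nat_lit 7371512289) (nat_lit 10) (nat_lit 5) (nat_lit 13) (nat_lit 5) (nat_lit 11) (nat_lit 4) (nat_lit 372) (nat_lit 278) (nat_lit 211)) (XT.nd (nat_lit 94) (nat_lit 0) (nat_lit 0) (XT.lf (nat_lit 0) (nat_lit 850558922) (nat_lit 84) (nat_lit 15825834509) (nat_lit 168) (nat_lit 9294328863) (nat_lit 9) (nat_lit 5) (nat_lit 10) (nat_lit 5) (nat_lit 11) (nat_lit 4) (nat_lit 373) (nat_lit 278) (nat_lit 210)) (XT.lf (nat_lit 0) (nat_lit 5282206014) (nat_lit 84) (nat_lit 13646299465) (nat_lit 168) (nat_lit 7748885144) (nat_lit 9) (nat_lit 5) (nat_lit 10) (nat_lit 5) (nat_lit 11) (nat_lit 4) (nat_lit 374) (nat_lit 278) (nat_lit 209))))))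 (XT.nd (nat_lit 564) (nat_lit 0) (nat_lit 0) (XT.nd (nat_lit 282) (nat_lit 252) (nat_lit 0) (XT.nd (nat_lit 94) (nat_lit 0) (nat_lit 0) (XT.lf (nat_lit 0) (nat_lit 9825060193) (nat_lit 84) (nat_lit 11408204131) (nat_lit 168) (nat_lit 6173289833) (nat_lit 9) (nat_lit 5) (nat_lit 10) (nat_lit 5) (nat_lit 11) (nat_lit 4) (nat_lit 375) (nat_lit 278) (nat_lit 208)) (XT.nd (nat_lit 94) (nat_lit 0) (nat_lit 0) (XT.lf (nat_lit 0) (nat_lit 14483355875) (nat_lit 84) (nat_lit 9109462369) (nat_lit 168) (nat_lit 4566074310) (nat_lit 9) (nat_lit 5) (nat_lit 10) (nat_lit 5) (nat_lit 11) (nat_lit 4) (nat_lit 376) (nat_lit 278) (nat_lit 207)) (XT.lf (nat_lit 0) (nat_lit 19261435079) (nat_lit 84) (nat_lit 6747931509) (nat_lit 168) (nat_lit 2925740482) (nat_lit 9) (nat_lit 5) (nat_lit 10) (nat_lit 5) (nat_lit 11) (nat_lit 4) (nat_lit 377) (nat_lit 278) (nat_lit 206)))) (XT.nd (nat_lit 94) (nat_lit 252)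 (nat_lit 0) (XT.lf (nat_lit 0) (nat_lit 24163751475) (nat_lit 84) (nat_lit 4321410358) (nat_lit 168) (nat_lit 1250759385) (nat_lit 9) (nat_lit 5) (nat_lit 10) (nat_lit 5) (nat_lit 11) (nat_lit 4) (nat_lit 378) (nat_lit 278) (nat_lit 205)) (XT.nd (nat_lit 94) (nat_lit 168) (nat_lit 0) (XT.lf (nat_lit 0) (nat_lit 451153594) (nat_lit 168) (nat_lit 1371774431) (nat_lit 84) (nat_lit 28739011824) (nat_lit 8) (nat_lit 5) (nat_lit 10) (nat_lit 5) (nat_lit 9) (nat_lit 5) (nat_lit 379) (nat_lit 278) (nat_lit 204)) (XT.lf (nat_lit 0) (nat_lit 2202328609) (nat_lit 252) (nat_lit 28437260536) (nat_lit 84) (nat_lit 772929188) (nat_lit 6) (nat_lit 5) (nat_lit 9) (nat_lit 5) (nat_lit 7) (nat_lit 4) (nat_lit 380) (nat_lit 278) (nat_lit 203))))) (XT.nd (nat_lit 282) (nat_lit 0) (nat_lit 0) (XT.nd (nat_lit 94) (nat_lit 0) (nat_lit 0) (XT.lf (nat_lit 0) (nat_lit 4026109865) (nat_lit 252) (nat_lit 24844697491)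 (nat_lit 84) (nat_lit 3418134915) (nat_lit 6) (nat_lit 5) (nat_lit 9) (nat_lit 5) (nat_lit 7) (nat_lit 4) (nat_lit 381) (nat_lit 278) (nat_lit 202)) (XT.nd (nat_lit 94) (nat_lit 0) (nat_lit 0) (XT.lf (nat_lit 0) (nat_lit 5892083617) (nat_lit 252) (nat_lit 21163087810) (nat_lit 84) (nat_lit 6137852676) (nat_lit 6) (nat_lit 5) (nat_lit 9) (nat_lit 5) (nat_lit 7) (nat_lit 4) (nat_lit 382) (nat_lit 278) (nat_lit 201)) (XT.lf (nat_lit 0) (nat_lit 7801989150) (nat_lit 252) (nat_lit 17388999847) (nat_lit 84) (nat_lit 8934617531) (nat_lit 6) (nat_lit 5) (nat_lit 9) (nat_lit 5) (nat_lit 7) (nat_lit 4) (nat_lit 383) (nat_lit 278) (nat_lit 200)))) (XT.nd (nat_lit 188) (nat_lit 0) (nat_lit 0) (XT.nd (nat_lit 94) (nat_lit 0) (nat_lit 0) (XT.lf (nat_lit 0) (nat_lit 9757606695) (nat_lit 252) (nat_lit 13518915758) (nat_lit 84) (nat_lit 11811036359) (nat_lit 6) (nat_lit 5) (nat_lit 9) (nat_lit 5) (nat_lit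 7) (nat_lit 4) (nat_lit 384) (nat_lit 278) (nat_lit 199)) (XT.lf (nat_lit 0) (nat_lit 11760759093) (nat_lit 252) (nat_lit 9549228219) (nat_lit 84) (nat_lit 14769790284) (nat_lit 6) (nat_lit 5) (nat_lit 9) (nat_lit 5) (nat_lit 7) (nat_lit 4) (nat_lit 385) (nat_lit 278) (nat_lit 198))) (XT.nd (nat_lit 94) (nat_lit 0) (nat_lit 0) (XT.lf (nat_lit 0) (nat_lit 13813313491) (nat_lit 252) (nat_lit 5476237064) (nat_lit 84) (nat_lit 17813637174) (nat_lit 6) (nat_lit 5) (nat_lit 9) (nat_lit 5) (nat_lit 7) (nat_lit 4) (nat_lit 386) (nat_lit 278) (nat_lit 197)) (XT.lf (nat_lit 0) (nat_lit 15917183086) (nat_lit 252) (nat_lit 1296145841) (nat_lit 84) (nat_lit 20945414213) (nat_lit 6) (nat_lit 5) (nat_lit 9) (nat_lit 5) (nat_lit 7) (nat_lit 4) (nat_lit 387) (nat_lit 278) (nat_lit 196))))))))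
noncomputable def xc64 : XT := (XT.nd (nat_lit 2256) (nat_lit 84) (nat_lit 0) (XT.nd (nat_lit 1128) (nat_lit 84) (nat_lit 0) (XT.nd (nat_lit 564) (nat_lit 84) (nat_lit 0) (XT.nd (nat_lit 282) (nat_lit 0) (nat_lit 0) (XT.nd (nat_lit 94) (nat_lit 0) (nat_lit 0) (XT.lf (nat_lit 0) (nat_lit 3056523879) (nat_lit 84) (nat_lit 15048126120) (nat_lit 168) (nat_lit 21141837761) (nat_lit 5) (nat_lit 5) (nat_lit 6) (nat_lit 5) (nat_lit 7) (nat_lit 4) (nat_lit 388) (nat_lit 278) (nat_lit 195)) (XT.nd (nat_lit 94) (nat_lit 0) (nat_lit 0) (XT.lf (nat_lit 0) (nat_lit 7553205667) (nat_lit 84) (nat_lit 12808484699) (nat_lit 168) (nat_lit 20006243064) (nat_lit 5) (nat_lit 5) (nat_lit 6) (nat_lit 5) (nat_lit 7) (nat_lit 4) (nat_lit 389) (nat_lit 278) (nat_lit 194)) (XT.lf (nat_lit 0) (nat_lit 12171439485) (nat_lit 84) (nat_lit 10505846188) (nat_lit 168) (nat_lit 18847246574) (nat_lit 5) (nat_lit 5) (nat_lit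 6) (nat_lit 5) (nat_lit 7) (nat_lit 4) (nat_lit 390) (nat_lit 278) (nat_lit 193)))) (XT.nd (nat_lit 94) (nat_lit 0) (nat_lit 0) (XT.lf (nat_lit 0) (nat_lit 16915530010) (nat_lit 84) (nat_lit 8138064286) (nat_lit 168) (nat_lit 17663767984) (nat_lit 5) (nat_lit 5) (nat_lit 6) (nat_lit 5) (nat_lit 7) (nat_lit 4) (nat_lit 391) (nat_lit 278) (nat_lit 192)) (XT.nd (nat_lit 94) (nat_lit 0) (nat_lit 0) (XT.lf (nat_lit 0) (nat_lit 21789899231) (nat_lit 84) (nat_lit 5702931973) (nat_lit 168) (nat_lit 16454704169) (nat_lit 5) (nat_lit 5) (nat_lit 6) (nat_lit 5) (nat_lit 7) (nat_lit 4) (nat_lit 392) (nat_lit 278) (nat_lit 191)) (XT.lf (nat_lit 0) (nat_lit 26799090572) (nat_lit 84) (nat_lit 3198179450) (nat_lit 168) (nat_lit 15218928155) (nat_lit 5) (nat_lit 5) (nat_lit 6) (nat_lit 5) (nat_lit 7) (nat_lit 4) (nat_lit 393) (nat_lit 278) (nat_lit 190))))) (XT.nd (nat_lit 282) (nat_lit 84) (nat_lit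 0) (XT.nd (nat_lit 94) (nat_lit 0) (nat_lit 0) (XT.lf (nat_lit 0) (nat_lit 31947773123) (nat_lit 84) (nat_lit 621472026) (nat_lit 168) (nat_lit 13955288068) (nat_lit 5) (nat_lit 5) (nat_lit 6) (nat_lit 5) (nat_lit 7) (nat_lit 4) (nat_lit 394) (nat_lit 278) (nat_lit 189)) (XT.nd (nat_lit 94) (nat_lit 0) (nat_lit 0) (XT.lf (nat_lit 0) (nat_lit 35231287740) (nat_lit 168) (nat_lit 10653147809) (nat_lit 0) (nat_lit 1988700302) (nat_lit 5) (nat_lit 5) (nat_lit 7) (nat_lit 4) (nat_lit 5) (nat_lit 4) (nat_lit 395) (nat_lit 278) (nat_lit 188)) (XT.lf (nat_lit 0) (nat_lit 37972653745) (nat_lit 168) (nat_lit 6629388179) (nat_lit 0) (nat_lit 4661631180) (nat_lit 5) (nat_lit 5) (nat_lit 7) (nat_lit 4) (nat_lit 5) (nat_lit 4) (nat_lit 396) (nat_lit 278) (nat_lit 187)))) (XT.nd (nat_lit 94) (nat_lit 84) (nat_lit 0) (XT.lf (nat_lit 0) (nat_lit 40789733327) (nat_lit 168) (nat_lit 2495565560) (nat_lit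 0) (nat_lit 7412333334) (nat_lit 5) (nat_lit 5) (nat_lit 7) (nat_lit 4) (nat_lit 5) (nat_lit 4) (nat_lit 397) (nat_lit 278) (nat_lit 186)) (XT.nd (nat_lit 94) (nat_lit 0) (nat_lit 0) (XT.lf (nat_lit 0) (nat_lit 1788201477) (nat_lit 84) (nat_lit 41914689999) (nat_lit 84) (nat_lit 8472908409) (nat_lit 4) (nat_lit 4) (nat_lit 5) (nat_lit 5) (nat_lit 5) (nat_lit 4) (nat_lit 398) (nat_lit 278) (nat_lit 185)) (XT.lf (nat_lit 0) (nat_lit 6243581705) (nat_lit 84) (nat_lit 40479964887) (nat_lit 84) (nat_lit 6975737518) (nat_lit 4) (nat_lit 4) (nat_lit 5) (nat_lit 5) (nat_lit 5) (nat_lit 4) (nat_lit 399) (nat_lit 278) (nat_lit 184)))))) (XT.nd (nat_lit 564) (nat_lit 0) (nat_lit 0) (XT.nd (nat_lit 282) (nat_lit 84) (nat_lit 0) (XT.nd (nat_lit 94) (nat_lit 0) (nat_lit 0) (XT.lf (nat_lit 0) (nat_lit 10823414059) (nat_lit 84) (nat_lit 39005834824) (nat_lit 84) (nat_lit 5441039288) (nat_lit 4) (nat_lit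 4) (nat_lit 5) (nat_lit 5) (nat_lit 5) (nat_lit 4) (nat_lit 400) (nat_lit 278) (nat_lit 183)) (XT.nd (nat_lit 94) (nat_lit 0) (nat_lit 0) (XT.lf (nat_lit 0) (nat_lit 15531967421) (nat_lit 84) (nat_lit 37490925764) (nat_lit 84) (nat_lit 3867383221) (nat_lit 4) (nat_lit 4) (nat_lit 5) (nat_lit 5) (nat_lit 5) (nat_lit 4) (nat_lit 401) (nat_lit 278) (nat_lit 182)) (XT.lf (nat_lit 0) (nat_lit 20373630656) (nat_lit 84) (nat_lit 35933825656) (nat_lit 84) (nat_lit 2253302503) (nat_lit 4) (nat_lit 4) (nat_lit 5) (nat_lit 5) (nat_lit 5) (nat_lit 4) (nat_lit 402) (nat_lit 278) (nat_lit 181)))) (XT.nd (nat_lit 94) (nat_lit 84) (nat_lit 0) (XT.lf (nat_lit 0) (nat_lit 25352916702) (nat_lit 84) (nat_lit 34333083117) (nat_lit 84) (nat_lit 597292642) (nat_lit 4) (nat_lit 4) (nat_lit 5) (nat_lit 5) (nat_lit 5) (nat_lit 4) (nat_lit 403) (nat_lit 278) (nat_lit 180)) (XT.nd (nat_lit 94) (nat_lit 0) (nat_lit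 0) (XT.lf (nat_lit 0) (nat_lit 1079983265) (nat_lit 168) (nat_lit 31595950014) (nat_lit 84) (nat_lit 29383210700) (nat_lit 3) (nat_lit 5) (nat_lit 5) (nat_lit 5) (nat_lit 4) (nat_lit 4) (nat_lit 404) (nat_lit 278) (nat_lit 179)) (XT.lf (nat_lit 0) (nat_lit 2789374075) (nat_lit 168) (nat_lit 28176171022) (nat_lit 84) (nat_lit 32924565277) (nat_lit 3) (nat_lit 5) (nat_lit 5) (nat_lit 5) (nat_lit 4) (nat_lit 4) (nat_lit 405) (nat_lit 278) (nat_lit 178))))) (XT.nd (nat_lit 282) (nat_lit 0) (nat_lit 0) (XT.nd (nat_lit 94) (nat_lit 0) (nat_lit 0) (XT.lf (nat_lit 0) (nat_lit 4544507236) (nat_lit 168) (nat_lit 24661925974) (nat_lit 84) (nat_lit 36571648771) (nat_lit 3) (nat_lit 5) (nat_lit 5) (nat_lit 5) (nat_lit 4) (nat_lit 4) (nat_lit 406) (nat_lit 278) (nat_lit 177)) (XT.nd (nat_lit 94) (nat_lit 0) (nat_lit 0) (XT.lf (nat_lit 0) (nat_lit 6347018715) (nat_lit 168) (nat_lit 21049939226) (nat_lit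 84) (nat_lit 40327860646) (nat_lit 3) (nat_lit 5) (nat_lit 5) (nat_lit 5) (nat_lit 4) (nat_lit 4) (nat_lit 407) (nat_lit 278) (nat_lit 176)) (XT.lf (nat_lit 0) (nat_lit 8198588641) (nat_lit 168) (nat_lit 17336844028) (nat_lit 84) (nat_lit 44196702085) (nat_lit 3) (nat_lit 5) (nat_lit 5) (nat_lit 5) (nat_lit 4) (nat_lit 4) (nat_lit 408) (nat_lit 278) (nat_lit 175)))) (XT.nd (nat_lit 94) (nat_lit 0) (nat_lit 0) (XT.lf (nat_lit 0) (nat_lit 10100942873) (nat_lit 168) (nat_lit 13519179387) (nat_lit 84) (nat_lit 48181779255) (nat_lit 3) (nat_lit 5) (nat_lit 5) (nat_lit 5) (nat_lit 4) (nat_lit 4) (nat_lit 409) (nat_lit 278) (nat_lit 174)) (XT.nd (nat_lit 94) (nat_lit 0) (nat_lit 0) (XT.lf (nat_lit 0) (nat_lit 12055854602) (nat_lit 168) (nat_lit 9593386838) (nat_lit 84) (nat_lit 52286806663) (nat_lit 3) (nat_lit 5) (nat_lit 5) (nat_lit 5) (nat_lit 4) (nat_lit 4) (nat_lit 410) (nat_lit 278)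 (nat_lit 173)) (XT.lf (nat_lit 0) (nat_lit 14065146013) (nat_lit 168) (nat_lit 5555807131) (nat_lit 84) (nat_lit 56515610627) (nat_lit 3) (nat_lit 5) (nat_lit 5) (nat_lit 5) (nat_lit 4) (nat_lit 4) (nat_lit 411) (nat_lit 278) (nat_lit 172))))))) (XT.nd (nat_lit 44744) (nat_lit 0) (nat_lit 5292) (XT.nd (nat_lit 44180) (nat_lit 0) (nat_lit 8568) (XT.nd (nat_lit 43898) (nat_lit 0) (nat_lit 11256) (XT.nd (nat_lit 94) (nat_lit 84) (nat_lit 0) (XT.lf (nat_lit 0) (nat_lit 16130689974) (nat_lit 168) (nat_lit 1402676821) (nat_lit 84) (nat_lit 60872132833) (nat_lit 3) (nat_lit 5) (nat_lit 5) (nat_lit 5) (nat_lit 4) (nat_lit 4) (nat_lit 412) (nat_lit 278) (nat_lit 171)) (XT.nd (nat_lit 43710) (nat_lit 0) (nat_lit 12600) (XT.lf (nat_lit 0) (nat_lit 2928885766) (nat_lit 84) (nat_lit 15354580931) (nat_lit 168) (nat_lit 62460603160) (nat_lit 2) (nat_lit 5) (nat_lit 3) (nat_lit 5) (nat_lit 4) (nat_lit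 4) (nat_lit 413) (nat_lit 278) (nat_lit 170)) (XT.lf (nat_lit 0) (nat_lit 1629191334) (nat_lit 588) (nat_lit 136380259) (nat_lit 0) (nat_lit 1629191334) (nat_lit 152) (nat_lit 5) (nat_lit 159) (nat_lit 4) (nat_lit 152) (nat_lit 4) (nat_lit 303) (nat_lit 279) (nat_lit 279)))) (XT.nd (nat_lit 94) (nat_lit 756) (nat_lit 0) (XT.lf (nat_lit 0) (nat_lit 3052855191) (nat_lit 588) (nat_lit 2735828383) (nat_lit 588) (nat_lit 1047569915) (nat_lit 145) (nat_lit 4) (nat_lit 152) (nat_lit 5) (nat_lit 152) (nat_lit 4) (nat_lit 304) (nat_lit 279) (nat_lit 278)) (XT.nd (nat_lit 94) (nat_lit 672) (nat_lit 0) (XT.lf (nat_lit 0) (nat_lit 1400641754) (nat_lit 672) (nat_lit 481051154) (nat_lit 84) (nat_lit 5005476435) (nat_lit 144) (nat_lit 5) (nat_lit 152) (nat_lit 5) (nat_lit 145) (nat_lit 4) (nat_lit 305) (nat_lit 279) (nat_lit 277)) (XT.lf (nat_lit 0) (nat_lit 2904530758) (nat_lit 672) (nat_lit 945073054)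 (nat_lit 756) (nat_lit 3092029484) (nat_lit 136) (nat_lit 5) (nat_lit 144) (nat_lit 5) (nat_lit 145) (nat_lit 4) (nat_lit 306) (nat_lit 279) (nat_lit 276))))) (XT.nd (nat_lit 282) (nat_lit 1848) (nat_lit 0) (XT.nd (nat_lit 94) (nat_lit 840) (nat_lit 0) (XT.lf (nat_lit 0) (nat_lit 6299517593) (nat_lit 756) (nat_lit 662147072) (nat_lit 0) (nat_lit 39072416) (nat_lit 136) (nat_lit 5) (nat_lit 145) (nat_lit 4) (nat_lit 136) (nat_lit 4) (nat_lit 307) (nat_lit 279) (nat_lit 275)) (XT.nd (nat_lit 94) (nat_lit 0) (nat_lit 0) (XT.lf (nat_lit 0) (nat_lit 1686740278) (nat_lit 840) (nat_lit 4283933351) (nat_lit 84) (nat_lit 1092331755) (nat_lit 126) (nat_lit 5) (nat_lit 136) (nat_lit 5) (nat_lit 127) (nat_lit 4) (nat_lit 308) (nat_lit 279) (nat_lit 274)) (XT.lf (nat_lit 0) (nat_lit 4063633579) (nat_lit 840) (nat_lit 862144607) (nat_lit 84) (nat_lit 2203962419) (nat_lit 126) (nat_lit 5) (nat_lit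 136) (nat_lit 5) (nat_lit 127) (nat_lit 4) (nat_lit 309) (nat_lit 279) (nat_lit 273)))) (XT.nd (nat_lit 94) (nat_lit 1008) (nat_lit 0) (XT.lf (nat_lit 0) (nat_lit 2652311540) (nat_lit 840) (nat_lit 3813031450) (nat_lit 924) (nat_lit 735271890) (nat_lit 116) (nat_lit 5) (nat_lit 126) (nat_lit 5) (nat_lit 127) (nat_lit 4) (nat_lit 310) (nat_lit 279) (nat_lit 272)) (XT.nd (nat_lit 94) (nat_lit 924) (nat_lit 0) (XT.lf (nat_lit 0) (nat_lit 1568452264) (nat_lit 924) (nat_lit 1064282558) (nat_lit 84) (nat_lit 4642999697) (nat_lit 115) (nat_lit 5) (nat_lit 126) (nat_lit 5) (nat_lit 116) (nat_lit 5) (nat_lit 311) (nat_lit 279) (nat_lit 271)) (XT.lf (nat_lit 0) (nat_lit 2504503392) (nat_lit 924) (nat_lit 1376055773) (nat_lit 1008) (nat_lit 3474377880) (nat_lit 104) (nat_lit 5) (nat_lit 115) (nat_lit 5) (nat_lit 116) (nat_lit 5) (nat_lit 312) (nat_lit 279) (nat_lit 270)))))) (XT.nd (nat_lit 564)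 (nat_lit 1008) (nat_lit 0) (XT.nd (nat_lit 282) (nat_lit 1176) (nat_lit 0) (XT.nd (nat_lit 94) (nat_lit 1092) (nat_lit 0) (XT.lf (nat_lit 0) (nat_lit 6140974412) (nat_lit 924) (nat_lit 63404737) (nat_lit 1008) (nat_lit 1234566056) (nat_lit 104) (nat_lit 5) (nat_lit 115) (nat_lit 5) (nat_lit 116) (nat_lit 5) (nat_lit 313) (nat_lit 279) (nat_lit 269)) (XT.nd (nat_lit 94) (nat_lit 0) (nat_lit 0) (XT.lf (nat_lit 0) (nat_lit 1019278906) (nat_lit 1092) (nat_lit 5204762939) (nat_lit 84) (nat_lit 1302693900) (nat_lit 91) (nat_lit 5) (nat_lit 104) (nat_lit 5) (nat_lit 92) (nat_lit 5) (nat_lit 314) (nat_lit 279) (nat_lit 268)) (XT.lf (nat_lit 0) (nat_lit 3263080651) (nat_lit 1092) (nat_lit 1615986442) (nat_lit 84) (nat_lit 2739920072) (nat_lit 91) (nat_lit 5) (nat_lit 104) (nat_lit 5) (nat_lit 92) (nat_lit 5) (nat_lit 315) (nat_lit 279) (nat_lit 267)))) (XT.nd (nat_lit 94) (nat_lit 588) (nat_lit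 0) (XT.lf (nat_lit 0) (nat_lit 2060180782) (nat_lit 588) (nat_lit 3470156686) (nat_lit 672) (nat_lit 2185625118) (nat_lit 84) (nat_lit 5) (nat_lit 91) (nat_lit 5) (nat_lit 92) (nat_lit 5) (nat_lit 316) (nat_lit 279) (nat_lit 266)) (XT.nd (nat_lit 94) (nat_lit 504) (nat_lit 0) (XT.lf (nat_lit 0) (nat_lit 1667418) (nat_lit 672) (nat_lit 1998021124) (nat_lit 84) (nat_lit 5818174843) (nat_lit 83) (nat_lit 5) (nat_lit 91) (nat_lit 5) (nat_lit 84) (nat_lit 5) (nat_lit 317) (nat_lit 279) (nat_lit 265)) (XT.lf (nat_lit 0) (nat_lit 1720969617) (nat_lit 504) (nat_lit 443199093) (nat_lit 588) (nat_lit 5759921481) (nat_lit 77) (nat_lit 5) (nat_lit 83) (nat_lit 5) (nat_lit 84) (nat_lit 5) (nat_lit 318) (nat_lit 279) (nat_lit 264))))) (XT.nd (nat_lit 282) (nat_lit 420) (nat_lit 0) (XT.nd (nat_lit 94) (nat_lit 588) (nat_lit 0) (XT.lf (nat_lit 0) (nat_lit 4363320495) (nat_lit 588) (nat_lit 2513249555)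 (nat_lit 84) (nat_lit 1158366988) (nat_lit 77) (nat_lit 5) (nat_lit 84) (nat_lit 5) (nat_lit 78) (nat_lit 5) (nat_lit 319) (nat_lit 279) (nat_lit 263)) (XT.nd (nat_lit 94) (nat_lit 84) (nat_lit 0) (XT.lf (nat_lit 0) (nat_lit 1247440733) (nat_lit 504) (nat_lit 5339028299) (nat_lit 588) (nat_lit 1564494027) (nat_lit 71) (nat_lit 5) (nat_lit 77) (nat_lit 5) (nat_lit 78) (nat_lit 5) (nat_lit 320) (nat_lit 279) (nat_lit 262)) (XT.lf (nat_lit 0) (nat_lit 561356597) (nat_lit 588) (nat_lit 3163199693) (nat_lit 84) (nat_lit 4547258616) (nat_lit 70) (nat_lit 5) (nat_lit 77) (nat_lit 5) (nat_lit 71) (nat_lit 5) (nat_lit 321) (nat_lit 279) (nat_lit 261)))) (XT.nd (nat_lit 94) (nat_lit 0) (nat_lit 0) (XT.lf (nat_lit 0) (nat_lit 626533325) (nat_lit 420) (nat_lit 2041276484) (nat_lit 504) (nat_lit 5730084888) (nat_lit 65) (nat_lit 5) (nat_lit 70) (nat_lit 5) (nat_lit 71) (nat_lit 5) (nat_lit 322)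 (nat_lit 279) (nat_lit 260)) (XT.nd (nat_lit 94) (nat_lit 0) (nat_lit 0) (XT.lf (nat_lit 0) (nat_lit 4538283923) (nat_lit 420) (nat_lit 276434872) (nat_lit 504) (nat_lit 3714264849) (nat_lit 65) (nat_lit 5) (nat_lit 70) (nat_lit 5) (nat_lit 71) (nat_lit 5) (nat_lit 323) (nat_lit 279) (nat_lit 259)) (XT.lf (nat_lit 0) (nat_lit 6987323205) (nat_lit 504) (nat_lit 170803372) (nat_lit 84) (nat_lit 1507596961) (nat_lit 65) (nat_lit 5) (nat_lit 71) (nat_lit 5) (nat_lit 66) (nat_lit 5) (nat_lit 324) (nat_lit 279) (nat_lit 258))))))))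
noncomputable def xc65 : XT := (XT.nd (nat_lit 2256) (nat_lit 1092) (nat_lit 0) (XT.nd (nat_lit 1128) (nat_lit 1428) (nat_lit 0) (XT.nd (nat_lit 564) (nat_lit 756) (nat_lit 0) (XT.nd (nat_lit 282) (nat_lit 504) (nat_lit 0) (XT.nd (nat_lit 94) (nat_lit 336) (nat_lit 0) (XT.lf (nat_lit 0) (nat_lit 397501080) (nat_lit 504) (nat_lit 5031407823) (nat_lit 84) (nat_lit 3378418351) (nat_lit 59) (nat_lit 5) (nat_lit 65) (nat_lit 5) (nat_lit 60) (nat_lit 5) (nat_lit 325) (nat_lit 279) (nat_lit 257)) (XT.nd (nat_lit 94) (nat_lit 336) (nat_lit 0) (XT.lf (nat_lit 0) (nat_lit 2450413553) (nat_lit 504) (nat_lit 1183405381) (nat_lit 84) (nat_lit 5320888922) (nat_lit 59) (nat_lit 5) (nat_lit 65) (nat_lit 5) (nat_lit 60) (nat_lit 5) (nat_lit 326) (nat_lit 279) (nat_lit 256)) (XT.lf (nat_lit 0) (nat_lit 2780183610) (nat_lit 336) (nat_lit 1761715877) (nat_lit 420) (nat_lit 4565818559) (nat_lit 55) (nat_lit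 5) (nat_lit 59) (nat_lit 5) (nat_lit 60) (nat_lit 5) (nat_lit 327) (nat_lit 279) (nat_lit 255)))) (XT.nd (nat_lit 94) (nat_lit 504) (nat_lit 0) (XT.lf (nat_lit 0) (nat_lit 6660646889) (nat_lit 420) (nat_lit 2436068083) (nat_lit 84) (nat_lit 170196582) (nat_lit 55) (nat_lit 5) (nat_lit 60) (nat_lit 5) (nat_lit 56) (nat_lit 5) (nat_lit 328) (nat_lit 279) (nat_lit 254)) (XT.nd (nat_lit 94) (nat_lit 84) (nat_lit 0) (XT.lf (nat_lit 0) (nat_lit 1529754430) (nat_lit 420) (nat_lit 7298345795) (nat_lit 504) (nat_lit 603732983) (nat_lit 50) (nat_lit 5) (nat_lit 55) (nat_lit 5) (nat_lit 56) (nat_lit 5) (nat_lit 329) (nat_lit 279) (nat_lit 253)) (XT.lf (nat_lit 0) (nat_lit 1407133598) (nat_lit 504) (nat_lit 4005433756) (nat_lit 84) (nat_lit 4189855543) (nat_lit 49) (nat_lit 5) (nat_lit 55) (nat_lit 5) (nat_lit 50) (nat_lit 5) (nat_lit 330) (nat_lit 279) (nat_lit 252))))) (XT.nd (nat_lit 282) (nat_lit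 420) (nat_lit 0) (XT.nd (nat_lit 94) (nat_lit 336) (nat_lit 0) (XT.lf (nat_lit 0) (nat_lit 3419301635) (nat_lit 504) (nat_lit 52133789) (nat_lit 84) (nat_lit 6308420907) (nat_lit 49) (nat_lit 5) (nat_lit 55) (nat_lit 5) (nat_lit 50) (nat_lit 5) (nat_lit 331) (nat_lit 279) (nat_lit 251)) (XT.nd (nat_lit 94) (nat_lit 0) (nat_lit 0) (XT.lf (nat_lit 0) (nat_lit 4049074956) (nat_lit 336) (nat_lit 1437902922) (nat_lit 420) (nat_lit 4476261495) (nat_lit 45) (nat_lit 5) (nat_lit 49) (nat_lit 5) (nat_lit 50) (nat_lit 5) (nat_lit 332) (nat_lit 279) (nat_lit 250)) (XT.lf (nat_lit 0) (nat_lit 7579567715) (nat_lit 420) (nat_lit 1937524312) (nat_lit 84) (nat_lit 636659104) (nat_lit 45) (nat_lit 5) (nat_lit 50) (nat_lit 5) (nat_lit 46) (nat_lit 5) (nat_lit 333) (nat_lit 279) (nat_lit 249)))) (XT.nd (nat_lit 94) (nat_lit 84) (nat_lit 0) (XT.lf (nat_lit 0) (nat_lit 2135204761) (nat_lit 336) (nat_lit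 7592833938) (nat_lit 420) (nat_lit 622630957) (nat_lit 41) (nat_lit 5) (nat_lit 45) (nat_lit 5) (nat_lit 46) (nat_lit 5) (nat_lit 334) (nat_lit 279) (nat_lit 248)) (XT.nd (nat_lit 94) (nat_lit 0) (nat_lit 0) (XT.lf (nat_lit 0) (nat_lit 1337121933) (nat_lit 420) (nat_lit 4247859990) (nat_lit 84) (nat_lit 4969245952) (nat_lit 40) (nat_lit 5) (nat_lit 45) (nat_lit 5) (nat_lit 41) (nat_lit 5) (nat_lit 335) (nat_lit 279) (nat_lit 247)) (XT.lf (nat_lit 0) (nat_lit 3301304122) (nat_lit 420) (nat_lit 218008709) (nat_lit 84) (nat_lit 7246134022) (nat_lit 40) (nat_lit 5) (nat_lit 45) (nat_lit 5) (nat_lit 41) (nat_lit 5) (nat_lit 336) (nat_lit 279) (nat_lit 246)))))) (XT.nd (nat_lit 564) (nat_lit 504) (nat_lit 0) (XT.nd (nat_lit 282) (nat_lit 336) (nat_lit 0) (XT.nd (nat_lit 94) (nat_lit 336) (nat_lit 0) (XT.lf (nat_lit 0) (nat_lit 3963885219) (nat_lit 252) (nat_lit 1359728072) (nat_lit 336)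 (nat_lit 5659882663) (nat_lit 37) (nat_lit 5) (nat_lit 40) (nat_lit 5) (nat_lit 41) (nat_lit 5) (nat_lit 337) (nat_lit 279) (nat_lit 245)) (XT.nd (nat_lit 94) (nat_lit 336) (nat_lit 0) (XT.lf (nat_lit 0) (nat_lit 7378066359) (nat_lit 336) (nat_lit 2990393125) (nat_lit 84) (nat_lit 840982848) (nat_lit 37) (nat_lit 5) (nat_lit 41) (nat_lit 5) (nat_lit 38) (nat_lit 5) (nat_lit 338) (nat_lit 279) (nat_lit 244)) (XT.lf (nat_lit 0) (nat_lit 1120432007) (nat_lit 336) (nat_lit 8360597955) (nat_lit 420) (nat_lit 1962018629) (nat_lit 33) (nat_lit 5) (nat_lit 37) (nat_lit 5) (nat_lit 38) (nat_lit 5) (nat_lit 339) (nat_lit 279) (nat_lit 243)))) (XT.nd (nat_lit 94) (nat_lit 336) (nat_lit 0) (XT.lf (nat_lit 0) (nat_lit 5370647974) (nat_lit 336) (nat_lit 6270250301) (nat_lit 420) (nat_lit 43434749) (nat_lit 33) (nat_lit 5) (nat_lit 37) (nat_lit 5) (nat_lit 38) (nat_lit 5) (nat_lit 340) (nat_lit 279)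 (nat_lit 242)) (XT.nd (nat_lit 94) (nat_lit 252) (nat_lit 0) (XT.lf (nat_lit 0) (nat_lit 1856771388) (nat_lit 420) (nat_lit 2250529395) (nat_lit 84) (nat_lit 7826575532) (nat_lit 32) (nat_lit 5) (nat_lit 37) (nat_lit 5) (nat_lit 33) (nat_lit 5) (nat_lit 341) (nat_lit 279) (nat_lit 241)) (XT.lf (nat_lit 0) (nat_lit 1927645867) (nat_lit 252) (nat_lit 1868751740) (nat_lit 336) (nat_lit 8395483947) (nat_lit 29) (nat_lit 5) (nat_lit 32) (nat_lit 5) (nat_lit 33) (nat_lit 5) (nat_lit 342) (nat_lit 279) (nat_lit 240))))) (XT.nd (nat_lit 282) (nat_lit 252) (nat_lit 0) (XT.nd (nat_lit 94) (nat_lit 252) (nat_lit 0) (XT.lf (nat_lit 0) (nat_lit 5787066221) (nat_lit 336) (nat_lit 6228722351) (nat_lit 84) (nat_lit 442536895) (nat_lit 29) (nat_lit 5) (nat_lit 33) (nat_lit 5) (nat_lit 30) (nat_lit 5) (nat_lit 343) (nat_lit 279) (nat_lit 239)) (XT.nd (nat_lit 94) (nat_lit 252) (nat_lit 0) (XT.lf (nat_lit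 0) (nat_lit 7822502211) (nat_lit 336) (nat_lit 2135740066) (nat_lit 84) (nat_lit 2775466176) (nat_lit 29) (nat_lit 5) (nat_lit 33) (nat_lit 5) (nat_lit 30) (nat_lit 5) (nat_lit 344) (nat_lit 279) (nat_lit 238)) (XT.lf (nat_lit 0) (nat_lit 2078950728) (nat_lit 252) (nat_lit 7827737290) (nat_lit 336) (nat_lit 3111534542) (nat_lit 26) (nat_lit 5) (nat_lit 29) (nat_lit 5) (nat_lit 30) (nat_lit 5) (nat_lit 345) (nat_lit 279) (nat_lit 237)))) (XT.nd (nat_lit 94) (nat_lit 252) (nat_lit 0) (XT.lf (nat_lit 0) (nat_lit 6422989782) (nat_lit 252) (nat_lit 5620403824) (nat_lit 336) (nat_lit 1268682729) (nat_lit 26) (nat_lit 5) (nat_lit 29) (nat_lit 5) (nat_lit 30) (nat_lit 5) (nat_lit 346) (nat_lit 279) (nat_lit 236)) (XT.nd (nat_lit 94) (nat_lit 168) (nat_lit 0) (XT.lf (nat_lit 0) (nat_lit 584750509) (nat_lit 336) (nat_lit 2765623055) (nat_lit 84) (nat_lit 10265656894) (nat_lit 25) (nat_lit 5)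 (nat_lit 29) (nat_lit 5) (nat_lit 26) (nat_lit 5) (nat_lit 347) (nat_lit 279) (nat_lit 235)) (XT.lf (nat_lit 0) (nat_lit 1457424628) (nat_lit 168) (nat_lit 993509244) (nat_lit 252) (nat_lit 11478772235) (nat_lit 23) (nat_lit 5) (nat_lit 25) (nat_lit 5) (nat_lit 26) (nat_lit 5) (nat_lit 348) (nat_lit 279) (nat_lit 234))))))) (XT.nd (nat_lit 1128) (nat_lit 420) (nat_lit 0) (XT.nd (nat_lit 564) (nat_lit 420) (nat_lit 0) (XT.nd (nat_lit 282) (nat_lit 252) (nat_lit 0) (XT.nd (nat_lit 94) (nat_lit 0) (nat_lit 0) (XT.lf (nat_lit 0) (nat_lit 4386000488) (nat_lit 252) (nat_lit 8441928695) (nat_lit 84) (nat_lit 1424962821) (nat_lit 23) (nat_lit 5) (nat_lit 26) (nat_lit 5) (nat_lit 24) (nat_lit 5) (nat_lit 349) (nat_lit 279) (nat_lit 233)) (XT.nd (nat_lit 94) (nat_lit 0) (nat_lit 0) (XT.lf (nat_lit 0) (nat_lit 6359808492) (nat_lit 252) (nat_lit 4340627219) (nat_lit 84) (nat_lit 3886443994) (nat_lit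 23) (nat_lit 5) (nat_lit 26) (nat_lit 5) (nat_lit 24) (nat_lit 5) (nat_lit 350) (nat_lit 279) (nat_lit 232)) (XT.lf (nat_lit 0) (nat_lit 8364341946) (nat_lit 252) (nat_lit 154698472) (nat_lit 84) (nat_lit 6413245630) (nat_lit 23) (nat_lit 5) (nat_lit 26) (nat_lit 5) (nat_lit 24) (nat_lit 5) (nat_lit 351) (nat_lit 279) (nat_lit 231)))) (XT.nd (nat_lit 94) (nat_lit 0) (nat_lit 0) (XT.lf (nat_lit 0) (nat_lit 4204469968) (nat_lit 252) (nat_lit 6238708179) (nat_lit 336) (nat_lit 4844961866) (nat_lit 20) (nat_lit 5) (nat_lit 23) (nat_lit 5) (nat_lit 24) (nat_lit 5) (nat_lit 352) (nat_lit 279) (nat_lit 230)) (XT.nd (nat_lit 94) (nat_lit 0) (nat_lit 0) (XT.lf (nat_lit 0) (nat_lit 8661234825) (nat_lit 252) (nat_lit 3897775021) (nat_lit 336) (nat_lit 3096980042) (nat_lit 20) (nat_lit 5) (nat_lit 23) (nat_lit 5) (nat_lit 24) (nat_lit 5) (nat_lit 353) (nat_lit 279) (nat_lit 229)) (XT.lf (nat_lit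 0) (nat_lit 13216569352) (nat_lit 252) (nat_lit 1495673683) (nat_lit 336) (nat_lit 1323984061) (nat_lit 20) (nat_lit 5) (nat_lit 23) (nat_lit 5) (nat_lit 24) (nat_lit 5) (nat_lit 354) (nat_lit 279) (nat_lit 228))))) (XT.nd (nat_lit 282) (nat_lit 168) (nat_lit 0) (XT.nd (nat_lit 94) (nat_lit 0) (nat_lit 0) (XT.lf (nat_lit 0) (nat_lit 490499911) (nat_lit 252) (nat_lit 14968005485) (nat_lit 84) (nat_lit 969797826) (nat_lit 17) (nat_lit 5) (nat_lit 20) (nat_lit 5) (nat_lit 18) (nat_lit 5) (nat_lit 355) (nat_lit 279) (nat_lit 227)) (XT.nd (nat_lit 94) (nat_lit 0) (nat_lit 0) (XT.lf (nat_lit 0) (nat_lit 2351371175) (nat_lit 252) (nat_lit 10967564413) (nat_lit 84) (nat_lit 3512731967) (nat_lit 17) (nat_lit 5) (nat_lit 20) (nat_lit 5) (nat_lit 18) (nat_lit 5) (nat_lit 356) (nat_lit 279) (nat_lit 226)) (XT.lf (nat_lit 0) (nat_lit 4243363852) (nat_lit 252) (nat_lit 6881432368) (nat_lit 84) (nat_lit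 6123660959) (nat_lit 17) (nat_lit 5) (nat_lit 20) (nat_lit 5) (nat_lit 18) (nat_lit 5) (nat_lit 357) (nat_lit 279) (nat_lit 225)))) (XT.nd (nat_lit 94) (nat_lit 168) (nat_lit 0) (XT.lf (nat_lit 0) (nat_lit 6168241475) (nat_lit 252) (nat_lit 2705800647) (nat_lit 84) (nat_lit 8805018461) (nat_lit 17) (nat_lit 5) (nat_lit 20) (nat_lit 5) (nat_lit 18) (nat_lit 5) (nat_lit 358) (nat_lit 279) (nat_lit 224)) (XT.nd (nat_lit 94) (nat_lit 0) (nat_lit 0) (XT.lf (nat_lit 0) (nat_lit 1595365944) (nat_lit 168) (nat_lit 6548258517) (nat_lit 252) (nat_lit 9979764063) (nat_lit 15) (nat_lit 5) (nat_lit 17) (nat_lit 5) (nat_lit 18) (nat_lit 5) (nat_lit 359) (nat_lit 279) (nat_lit 223)) (XT.lf (nat_lit 0) (nat_lit 6051542473) (nat_lit 168) (nat_lit 4132350216) (nat_lit 252) (nat_lit 8397573774) (nat_lit 15) (nat_lit 5) (nat_lit 17) (nat_lit 5) (nat_lit 18) (nat_lit 5) (nat_lit 360) (nat_lit 279) (nat_lit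 222)))))) (XT.nd (nat_lit 564) (nat_lit 168) (nat_lit 0) (XT.nd (nat_lit 282) (nat_lit 252) (nat_lit 0) (XT.nd (nat_lit 94) (nat_lit 0) (nat_lit 0) (XT.lf (nat_lit 0) (nat_lit 10611245752) (nat_lit 168) (nat_lit 1652308351) (nat_lit 252) (nat_lit 6791016484) (nat_lit 15) (nat_lit 5) (nat_lit 17) (nat_lit 5) (nat_lit 18) (nat_lit 5) (nat_lit 361) (nat_lit 279) (nat_lit 221)) (XT.nd (nat_lit 94) (nat_lit 0) (nat_lit 0) (XT.lf (nat_lit 0) (nat_lit 14393417526) (nat_lit 252) (nat_lit 4273286339) (nat_lit 84) (nat_lit 876163030) (nat_lit 15) (nat_lit 5) (nat_lit 18) (nat_lit 5) (nat_lit 16) (nat_lit 4) (nat_lit 362) (nat_lit 279) (nat_lit 220)) (XT.lf (nat_lit 0) (nat_lit 16583663379) (nat_lit 252) (nat_lit 24116751) (nat_lit 84) (nat_lit 3438776351) (nat_lit 15) (nat_lit 5) (nat_lit 18) (nat_lit 5) (nat_lit 16) (nat_lit 4) (nat_lit 363) (nat_lit 279) (nat_lit 219)))) (XT.nd (nat_lit 94)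 (nat_lit 84) (nat_lit 0) (XT.lf (nat_lit 0) (nat_lit 4413457025) (nat_lit 168) (nat_lit 14450267111) (nat_lit 252) (nat_lit 1701535582) (nat_lit 13) (nat_lit 5) (nat_lit 15) (nat_lit 5) (nat_lit 16) (nat_lit 4) (nat_lit 364) (nat_lit 279) (nat_lit 218)) (XT.nd (nat_lit 94) (nat_lit 0) (nat_lit 0) (XT.lf (nat_lit 0) (nat_lit 90554062) (nat_lit 252) (nat_lit 12144503439) (nat_lit 84) (nat_lit 8865692614) (nat_lit 12) (nat_lit 5) (nat_lit 15) (nat_lit 5) (nat_lit 13) (nat_lit 5) (nat_lit 365) (nat_lit 279) (nat_lit 217)) (XT.lf (nat_lit 0) (nat_lit 1881690762) (nat_lit 252) (nat_lit 8061842947) (nat_lit 84) (nat_lit 11709495390) (nat_lit 12) (nat_lit 5) (nat_lit 15) (nat_lit 5) (nat_lit 13) (nat_lit 5) (nat_lit 366) (nat_lit 279) (nat_lit 216))))) (XT.nd (nat_lit 282) (nat_lit 0) (nat_lit 0) (XT.nd (nat_lit 94) (nat_lit 168) (nat_lit 0) (XT.lf (nat_lit 0) (nat_lit 3707826196) (nat_lit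 252) (nat_lit 3883136306) (nat_lit 84) (nat_lit 14632172213) (nat_lit 12) (nat_lit 5) (nat_lit 15) (nat_lit 5) (nat_lit 13) (nat_lit 5) (nat_lit 367) (nat_lit 279) (nat_lit 215)) (XT.nd (nat_lit 94) (nat_lit 0) (nat_lit 0) (XT.lf (nat_lit 0) (nat_lit 403644003) (nat_lit 168) (nat_lit 5171022707) (nat_lit 252) (nat_lit 17236807520) (nat_lit 10) (nat_lit 5) (nat_lit 12) (nat_lit 5) (nat_lit 13) (nat_lit 5) (nat_lit 368) (nat_lit 279) (nat_lit 214)) (XT.lf (nat_lit 0) (nat_lit 4876335849) (nat_lit 168) (nat_lit 2643974075) (nat_lit 252) (nat_lit 15897159031) (nat_lit 10) (nat_lit 5) (nat_lit 12) (nat_lit 5) (nat_lit 13) (nat_lit 5) (nat_lit 369) (nat_lit 279) (nat_lit 213)))) (XT.nd (nat_lit 188) (nat_lit 0) (nat_lit 0) (XT.nd (nat_lit 94) (nat_lit 0) (nat_lit 0) (XT.lf (nat_lit 0) (nat_lit 9459263000) (nat_lit 168) (nat_lit 47993112) (nat_lit 252) (nat_lit 14535646338) (nat_lit 10) (nat_lit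 5) (nat_lit 12) (nat_lit 5) (nat_lit 13) (nat_lit 5) (nat_lit 370) (nat_lit 279) (nat_lit 212)) (XT.lf (nat_lit 0) (nat_lit 11563341495) (nat_lit 252) (nat_lit 10557644639) (nat_lit 84) (nat_lit 2566566045) (nat_lit 10) (nat_lit 5) (nat_lit 13) (nat_lit 5) (nat_lit 11) (nat_lit 4) (nat_lit 371) (nat_lit 279) (nat_lit 211))) (XT.nd (nat_lit 94) (nat_lit 0) (nat_lit 0) (XT.lf (nat_lit 0) (nat_lit 13665682744) (nat_lit 252) (nat_lit 6434596208) (nat_lit 84) (nat_lit 5252508863) (nat_lit 10) (nat_lit 5) (nat_lit 13) (nat_lit 5) (nat_lit 11) (nat_lit 4) (nat_lit 372) (nat_lit 279) (nat_lit 210)) (XT.lf (nat_lit 0) (nat_lit 15815763364) (nat_lit 252) (nat_lit 2210174947) (nat_lit 84) (nat_lit 8013305876) (nat_lit 10) (nat_lit 5) (nat_lit 13) (nat_lit 5) (nat_lit 11) (nat_lit 4) (nat_lit 373) (nat_lit 279) (nat_lit 209))))))))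
noncomputable def xc66 : XT := (XT.nd (nat_lit 2256) (nat_lit 168) (nat_lit 0) (XT.nd (nat_lit 1128) (nat_lit 84) (nat_lit 0) (XT.nd (nat_lit 564) (nat_lit 252) (nat_lit 0) (XT.nd (nat_lit 282) (nat_lit 0) (nat_lit 0) (XT.nd (nat_lit 94) (nat_lit 0) (nat_lit 0) (XT.lf (nat_lit 0) (nat_lit 2163139181) (nat_lit 84) (nat_lit 15873906883) (nat_lit 168) (nat_lit 8709849862) (nat_lit 9) (nat_lit 5) (nat_lit 10) (nat_lit 5) (nat_lit 11) (nat_lit 4) (nat_lit 374) (nat_lit 279) (nat_lit 208)) (XT.nd (nat_lit 94) (nat_lit 0) (nat_lit 0) (XT.lf (nat_lit 0) (nat_lit 6693493617) (nat_lit 84) (nat_lit 13640112154) (nat_lit 168) (nat_lit 7142734729) (nat_lit 9) (nat_lit 5) (nat_lit 10) (nat_lit 5) (nat_lit 11) (nat_lit 4) (nat_lit 375) (nat_lit 279) (nat_lit 207)) (XT.lf (nat_lit 0) (nat_lit 11339665397) (nat_lit 84) (nat_lit 11345541685) (nat_lit 168) (nat_lit 5543744404) (nat_lit 9) (nat_lit 5)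 (nat_lit 10) (nat_lit 5) (nat_lit 11) (nat_lit 4) (nat_lit 376) (nat_lit 279) (nat_lit 206)))) (XT.nd (nat_lit 94) (nat_lit 0) (nat_lit 0) (XT.lf (nat_lit 0) (nat_lit 16105985240) (nat_lit 84) (nat_lit 8988056697) (nat_lit 168) (nat_lit 3911388458) (nat_lit 9) (nat_lit 5) (nat_lit 10) (nat_lit 5) (nat_lit 11) (nat_lit 4) (nat_lit 377) (nat_lit 279) (nat_lit 205)) (XT.nd (nat_lit 94) (nat_lit 0) (nat_lit 0) (XT.lf (nat_lit 0) (nat_lit 20996895854) (nat_lit 84) (nat_lit 6565459766) (nat_lit 168) (nat_lit 2244145366) (nat_lit 9) (nat_lit 5) (nat_lit 10) (nat_lit 5) (nat_lit 11) (nat_lit 4) (nat_lit 378) (nat_lit 279) (nat_lit 204)) (XT.lf (nat_lit 0) (nat_lit 26016956081) (nat_lit 84) (nat_lit 4075492780) (nat_lit 168) (nat_lit 540461083) (nat_lit 9) (nat_lit 5) (nat_lit 10) (nat_lit 5) (nat_lit 11) (nat_lit 4) (nat_lit 379) (nat_lit 279) (nat_lit 203))))) (XT.nd (nat_lit 282) (nat_lit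 0) (nat_lit 0) (XT.nd (nat_lit 94) (nat_lit 168) (nat_lit 0) (XT.lf (nat_lit 0) (nat_lit 1177049845) (nat_lit 168) (nat_lit 326498996) (nat_lit 84) (nat_lit 29981509311) (nat_lit 8) (nat_lit 5) (nat_lit 10) (nat_lit 5) (nat_lit 9) (nat_lit 5) (nat_lit 380) (nat_lit 279) (nat_lit 202)) (XT.nd (nat_lit 94) (nat_lit 0) (nat_lit 0) (XT.lf (nat_lit 0) (nat_lit 2975513506) (nat_lit 252) (nat_lit 28221851913) (nat_lit 84) (nat_lit 1164923211) (nat_lit 6) (nat_lit 5) (nat_lit 9) (nat_lit 5) (nat_lit 7) (nat_lit 4) (nat_lit 381) (nat_lit 279) (nat_lit 201)) (XT.lf (nat_lit 0) (nat_lit 4834636739) (nat_lit 252) (nat_lit 24550902802) (nat_lit 84) (nat_lit 3881064332) (nat_lit 6) (nat_lit 5) (nat_lit 9) (nat_lit 5) (nat_lit 7) (nat_lit 4) (nat_lit 382) (nat_lit 279) (nat_lit 200)))) (XT.nd (nat_lit 94) (nat_lit 0) (nat_lit 0) (XT.lf (nat_lit 0) (nat_lit 6737897733) (nat_lit 252) (nat_lit 20787154870)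 (nat_lit 84) (nat_lit 6674360089) (nat_lit 6) (nat_lit 5) (nat_lit 9) (nat_lit 5) (nat_lit 7) (nat_lit 4) (nat_lit 383) (nat_lit 279) (nat_lit 199)) (XT.nd (nat_lit 94) (nat_lit 0) (nat_lit 0) (XT.lf (nat_lit 0) (nat_lit 8687070526) (nat_lit 252) (nat_lit 16927099907) (nat_lit 84) (nat_lit 9547414128) (nat_lit 6) (nat_lit 5) (nat_lit 9) (nat_lit 5) (nat_lit 7) (nat_lit 4) (nat_lit 384) (nat_lit 279) (nat_lit 198)) (XT.lf (nat_lit 0) (nat_lit 10683971952) (nat_lit 252) (nat_lit 12967139940) (nat_lit 84) (nat_lit 12502904436) (nat_lit 6) (nat_lit 5) (nat_lit 9) (nat_lit 5) (nat_lit 7) (nat_lit 4) (nat_lit 385) (nat_lit 279) (nat_lit 197)))))) (XT.nd (nat_lit 564) (nat_lit 0) (nat_lit 0) (XT.nd (nat_lit 282) (nat_lit 84) (nat_lit 0) (XT.nd (nat_lit 94) (nat_lit 0) (nat_lit 0) (XT.lf (nat_lit 0) (nat_lit 12730463332) (nat_lit 252) (nat_lit 8903583870) (nat_lit 84) (nat_lit 15543585838)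 (nat_lit 6) (nat_lit 5) (nat_lit 9) (nat_lit 5) (nat_lit 7) (nat_lit 4) (nat_lit 386) (nat_lit 279) (nat_lit 196)) (XT.nd (nat_lit 94) (nat_lit 0) (nat_lit 0) (XT.lf (nat_lit 0) (nat_lit 14828452211) (nat_lit 252) (nat_lit 4732644038) (nat_lit 84) (nat_lit 18672292570) (nat_lit 6) (nat_lit 5) (nat_lit 9) (nat_lit 5) (nat_lit 7) (nat_lit 4) (nat_lit 387) (nat_lit 279) (nat_lit 195)) (XT.lf (nat_lit 0) (nat_lit 16979894134) (nat_lit 252) (nat_lit 450432690) (nat_lit 84) (nat_lit 21891940912) (nat_lit 6) (nat_lit 5) (nat_lit 9) (nat_lit 5) (nat_lit 7) (nat_lit 4) (nat_lit 388) (nat_lit 279) (nat_lit 194)))) (XT.nd (nat_lit 94) (nat_lit 0) (nat_lit 0) (XT.lf (nat_lit 0) (nat_lit 4028200913) (nat_lit 84) (nat_lit 15198553808) (nat_lit 168) (nat_lit 21217291253) (nat_lit 5) (nat_lit 5) (nat_lit 6) (nat_lit 5) (nat_lit 7) (nat_lit 4) (nat_lit 389) (nat_lit 279) (nat_lit 193)) (XT.nd (nat_lit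 94) (nat_lit 0) (nat_lit 0) (XT.lf (nat_lit 0) (nat_lit 8637912554) (nat_lit 84) (nat_lit 12898986888) (nat_lit 168) (nat_lit 20063930801) (nat_lit 5) (nat_lit 5) (nat_lit 6) (nat_lit 5) (nat_lit 7) (nat_lit 4) (nat_lit 390) (nat_lit 279) (nat_lit 192)) (XT.lf (nat_lit 0) (nat_lit 13373737146) (nat_lit 84) (nat_lit 10534184222) (nat_lit 168) (nat_lit 18885918785) (nat_lit 5) (nat_lit 5) (nat_lit 6) (nat_lit 5) (nat_lit 7) (nat_lit 4) (nat_lit 391) (nat_lit 279) (nat_lit 191))))) (XT.nd (nat_lit 282) (nat_lit 0) (nat_lit 0) (XT.nd (nat_lit 94) (nat_lit 0) (nat_lit 0) (XT.lf (nat_lit 0) (nat_lit 18240088974) (nat_lit 84) (nat_lit 8101941566) (nat_lit 168) (nat_lit 17682157175) (nat_lit 5) (nat_lit 5) (nat_lit 6) (nat_lit 5) (nat_lit 7) (nat_lit 4) (nat_lit 392) (nat_lit 279) (nat_lit 190)) (XT.nd (nat_lit 94) (nat_lit 0) (nat_lit 0) (XT.lf (nat_lit 0) (nat_lit 23241503987) (nat_lit 84)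 (nat_lit 5599991814) (nat_lit 168) (nat_lit 16451523939) (nat_lit 5) (nat_lit 5) (nat_lit 6) (nat_lit 5) (nat_lit 7) (nat_lit 4) (nat_lit 393) (nat_lit 279) (nat_lit 189)) (XT.lf (nat_lit 0) (nat_lit 28382644028) (nat_lit 84) (nat_lit 3026002887) (nat_lit 168) (nat_lit 15192871999) (nat_lit 5) (nat_lit 5) (nat_lit 6) (nat_lit 5) (nat_lit 7) (nat_lit 4) (nat_lit 394) (nat_lit 279) (nat_lit 188)))) (XT.nd (nat_lit 94) (nat_lit 0) (nat_lit 0) (XT.lf (nat_lit 0) (nat_lit 33668301178) (nat_lit 84) (nat_lit 377575558) (nat_lit 168) (nat_lit 13905028159) (nat_lit 5) (nat_lit 5) (nat_lit 6) (nat_lit 5) (nat_lit 7) (nat_lit 4) (nat_lit 395) (nat_lit 279) (nat_lit 187)) (XT.nd (nat_lit 94) (nat_lit 0) (nat_lit 0) (XT.lf (nat_lit 0) (nat_lit 36778933497) (nat_lit 168) (nat_lit 10262323286) (nat_lit 0) (nat_lit 2300456677) (nat_lit 5) (nat_lit 5) (nat_lit 7) (nat_lit 4) (nat_lit 5) (nat_lit 4)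 (nat_lit 396) (nat_lit 279) (nat_lit 186)) (XT.lf (nat_lit 0) (nat_lit 39591586649) (nat_lit 168) (nat_lit 6135508229) (nat_lit 0) (nat_lit 5048728231) (nat_lit 5) (nat_lit 5) (nat_lit 7) (nat_lit 4) (nat_lit 5) (nat_lit 4) (nat_lit 397) (nat_lit 279) (nat_lit 185))))))) (XT.nd (nat_lit 1128) (nat_lit 0) (nat_lit 0) (XT.nd (nat_lit 564) (nat_lit 84) (nat_lit 0) (XT.nd (nat_lit 282) (nat_lit 0) (nat_lit 0) (XT.nd (nat_lit 94) (nat_lit 84) (nat_lit 0) (XT.lf (nat_lit 0) (nat_lit 42482712283) (nat_lit 168) (nat_lit 1894566323) (nat_lit 0) (nat_lit 7877408086) (nat_lit 5) (nat_lit 5) (nat_lit 7) (nat_lit 4) (nat_lit 5) (nat_lit 4) (nat_lit 398) (nat_lit 279) (nat_lit 184)) (XT.nd (nat_lit 94) (nat_lit 0) (nat_lit 0) (XT.lf (nat_lit 0) (nat_lit 2515129689) (nat_lit 84) (nat_lit 42964825940) (nat_lit 84) (nat_lit 8298953578) (nat_lit 4) (nat_lit 4) (nat_lit 5) (nat_lit 5) (nat_lit 5) (nat_lit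 4) (nat_lit 399) (nat_lit 279) (nat_lit 183)) (XT.lf (nat_lit 0) (nat_lit 7088436294) (nat_lit 84) (nat_lit 41493117854) (nat_lit 84) (nat_lit 6768498483) (nat_lit 4) (nat_lit 4) (nat_lit 5) (nat_lit 5) (nat_lit 5) (nat_lit 4) (nat_lit 400) (nat_lit 279) (nat_lit 182)))) (XT.nd (nat_lit 94) (nat_lit 0) (nat_lit 0) (XT.lf (nat_lit 0) (nat_lit 11790660123) (nat_lit 84) (nat_lit 39980557949) (nat_lit 84) (nat_lit 5198957969) (nat_lit 4) (nat_lit 4) (nat_lit 5) (nat_lit 5) (nat_lit 5) (nat_lit 4) (nat_lit 401) (nat_lit 279) (nat_lit 181)) (XT.nd (nat_lit 94) (nat_lit 0) (nat_lit 0) (XT.lf (nat_lit 0) (nat_lit 16626184142) (nat_lit 84) (nat_lit 38425736360) (nat_lit 84) (nat_lit 3588869057) (nat_lit 4) (nat_lit 4) (nat_lit 5) (nat_lit 5) (nat_lit 5) (nat_lit 4) (nat_lit 402) (nat_lit 279) (nat_lit 180)) (XT.lf (nat_lit 0) (nat_lit 21599515564) (nat_lit 84) (nat_lit 36827203831) (nat_lit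 84) (nat_lit 1936730978) (nat_lit 4) (nat_lit 4) (nat_lit 5) (nat_lit 5) (nat_lit 5) (nat_lit 4) (nat_lit 403) (nat_lit 279) (nat_lit 179))))) (XT.nd (nat_lit 282) (nat_lit 0) (nat_lit 0) (XT.nd (nat_lit 94) (nat_lit 84) (nat_lit 0) (XT.lf (nat_lit 0) (nat_lit 26715290057) (nat_lit 84) (nat_lit 35183470362) (nat_lit 84) (nat_lit 241003765) (nat_lit 4) (nat_lit 4) (nat_lit 5) (nat_lit 5) (nat_lit 5) (nat_lit 4) (nat_lit 404) (nat_lit 279) (nat_lit 178)) (XT.nd (nat_lit 94) (nat_lit 0) (nat_lit 0) (XT.lf (nat_lit 0) (nat_lit 1469673672) (nat_lit 168) (nat_lit 32007989770) (nat_lit 84) (nat_lit 30493262006) (nat_lit 3) (nat_lit 5) (nat_lit 5) (nat_lit 5) (nat_lit 4) (nat_lit 4) (nat_lit 405) (nat_lit 279) (nat_lit 177)) (XT.lf (nat_lit 0) (nat_lit 3221345085) (nat_lit 168) (nat_lit 28499259197) (nat_lit 84) (nat_lit 34138409898) (nat_lit 3) (nat_lit 5) (nat_lit 5) (nat_lit 5) (nat_lit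 4) (nat_lit 4) (nat_lit 406) (nat_lit 279) (nat_lit 176)))) (XT.nd (nat_lit 94) (nat_lit 0) (nat_lit 0) (XT.lf (nat_lit 0) (nat_lit 5020498903) (nat_lit 168) (nat_lit 24892621114) (nat_lit 84) (nat_lit 37892744371) (nat_lit 3) (nat_lit 5) (nat_lit 5) (nat_lit 5) (nat_lit 4) (nat_lit 4) (nat_lit 407) (nat_lit 279) (nat_lit 175)) (XT.nd (nat_lit 94) (nat_lit 0) (nat_lit 0) (XT.lf (nat_lit 0) (nat_lit 6868812127) (nat_lit 168) (nat_lit 21184713758) (nat_lit 84) (nat_lit 41759764858) (nat_lit 3) (nat_lit 5) (nat_lit 5) (nat_lit 5) (nat_lit 4) (nat_lit 4) (nat_lit 408) (nat_lit 279) (nat_lit 174)) (XT.lf (nat_lit 0) (nat_lit 8768007578) (nat_lit 168) (nat_lit 17372080971) (nat_lit 84) (nat_lit 45743075827) (nat_lit 3) (nat_lit 5) (nat_lit 5) (nat_lit 5) (nat_lit 4) (nat_lit 4) (nat_lit 409) (nat_lit 279) (nat_lit 173)))))) (XT.nd (nat_lit 43992) (nat_lit 0) (nat_lit 10332) (XT.nd (nat_lit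 282) (nat_lit 0) (nat_lit 0) (XT.nd (nat_lit 94) (nat_lit 0) (nat_lit 0) (XT.lf (nat_lit 0) (nat_lit 10719855505) (nat_lit 168) (nat_lit 13451168979) (nat_lit 84) (nat_lit 49846390141) (nat_lit 3) (nat_lit 5) (nat_lit 5) (nat_lit 5) (nat_lit 4) (nat_lit 4) (nat_lit 410) (nat_lit 279) (nat_lit 172)) (XT.nd (nat_lit 94) (nat_lit 0) (nat_lit 0) (XT.lf (nat_lit 0) (nat_lit 12726175235) (nat_lit 168) (nat_lit 9418323082) (nat_lit 84) (nat_lit 54073532519) (nat_lit 3) (nat_lit 5) (nat_lit 5) (nat_lit 5) (nat_lit 4) (nat_lit 4) (nat_lit 411) (nat_lit 279) (nat_lit 171)) (XT.lf (nat_lit 0) (nat_lit 14788836868) (nat_lit 168) (nat_lit 5269784245) (nat_lit 84) (nat_lit 58428443100) (nat_lit 3) (nat_lit 5) (nat_lit 5) (nat_lit 5) (nat_lit 4) (nat_lit 4) (nat_lit 412) (nat_lit 279) (nat_lit 170)))) (XT.nd (nat_lit 43522) (nat_lit 0) (nat_lit 12516) (XT.lf (nat_lit 0) (nat_lit 16909763020) (nat_lit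 168) (nat_lit 1001685596) (nat_lit 84) (nat_lit 62915181118) (nat_lit 3) (nat_lit 5) (nat_lit 5) (nat_lit 5) (nat_lit 4) (nat_lit 4) (nat_lit 413) (nat_lit 279) (nat_lit 169)) (XT.nd (nat_lit 94) (nat_lit 0) (nat_lit 0) (XT.lf (nat_lit 0) (nat_lit 8824582) (nat_lit 588) (nat_lit 3335597960) (nat_lit 0) (nat_lit 8824582) (nat_lit 152) (nat_lit 5) (nat_lit 159) (nat_lit 4) (nat_lit 152) (nat_lit 4) (nat_lit 301) (nat_lit 280) (nat_lit 280)) (XT.lf (nat_lit 0) (nat_lit 2491571826) (nat_lit 588) (nat_lit 3503990481) (nat_lit 0) (nat_lit 750977346) (nat_lit 152) (nat_lit 5) (nat_lit 159) (nat_lit 4) (nat_lit 152) (nat_lit 4) (nat_lit 302) (nat_lit 280) (nat_lit 279))))) (XT.nd (nat_lit 282) (nat_lit 1512) (nat_lit 0) (XT.nd (nat_lit 94) (nat_lit 672) (nat_lit 0) (XT.lf (nat_lit 0) (nat_lit 4957067408) (nat_lit 588) (nat_lit 305892281) (nat_lit 0) (nat_lit 1528214460) (nat_lit 152) (nat_lit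 5) (nat_lit 159) (nat_lit 4) (nat_lit 152) (nat_lit 4) (nat_lit 303) (nat_lit 280) (nat_lit 278)) (XT.nd (nat_lit 94) (nat_lit 0) (nat_lit 0) (XT.lf (nat_lit 0) (nat_lit 594316570) (nat_lit 672) (nat_lit 3859292082) (nat_lit 84) (nat_lit 2385725823) (nat_lit 144) (nat_lit 5) (nat_lit 152) (nat_lit 5) (nat_lit 145) (nat_lit 4) (nat_lit 304) (nat_lit 280) (nat_lit 277)) (XT.lf (nat_lit 0) (nat_lit 2980950851) (nat_lit 672) (nat_lit 600297885) (nat_lit 84) (nat_lit 3310252585) (nat_lit 144) (nat_lit 5) (nat_lit 152) (nat_lit 5) (nat_lit 145) (nat_lit 4) (nat_lit 305) (nat_lit 280) (nat_lit 276)))) (XT.nd (nat_lit 188) (nat_lit 756) (nat_lit 0) (XT.nd (nat_lit 94) (nat_lit 84) (nat_lit 0) (XT.lf (nat_lit 0) (nat_lit 2750204843) (nat_lit 672) (nat_lit 2638922828) (nat_lit 756) (nat_lit 1558410908) (nat_lit 136) (nat_lit 5) (nat_lit 144) (nat_lit 5) (nat_lit 145) (nat_lit 4) (nat_lit 306)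 (nat_lit 280) (nat_lit 275)) (XT.lf (nat_lit 0) (nat_lit 776154283) (nat_lit 756) (nat_lit 862976454) (nat_lit 84) (nat_lit 5368769995) (nat_lit 135) (nat_lit 5) (nat_lit 144) (nat_lit 5) (nat_lit 136) (nat_lit 5) (nat_lit 307) (nat_lit 280) (nat_lit 274))) (XT.nd (nat_lit 94) (nat_lit 0) (nat_lit 0) (XT.lf (nat_lit 0) (nat_lit 2545599002) (nat_lit 756) (nat_lit 553399270) (nat_lit 840) (nat_lit 3972817662) (nat_lit 126) (nat_lit 5) (nat_lit 135) (nat_lit 5) (nat_lit 136) (nat_lit 5) (nat_lit 308) (nat_lit 280) (nat_lit 273)) (XT.lf (nat_lit 0) (nat_lit 5433386108) (nat_lit 840) (nat_lit 1131851356) (nat_lit 84) (nat_lit 574904807) (nat_lit 126) (nat_lit 5) (nat_lit 136) (nat_lit 5) (nat_lit 127) (nat_lit 4) (nat_lit 309) (nat_lit 280) (nat_lit 272))))))))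
noncomputable def xc67 : XT := (XT.nd (nat_lit 2256) (nat_lit 2352) (nat_lit 0) (XT.nd (nat_lit 1128) (nat_lit 2100) (nat_lit 0) (XT.nd (nat_lit 564) (nat_lit 1764) (nat_lit 0) (XT.nd (nat_lit 282) (nat_lit 1092) (nat_lit 0) (XT.nd (nat_lit 94) (nat_lit 924) (nat_lit 0) (XT.lf (nat_lit 0) (nat_lit 571890432) (nat_lit 924) (nat_lit 4873799968) (nat_lit 84) (nat_lit 1766619530) (nat_lit 115) (nat_lit 5) (nat_lit 126) (nat_lit 5) (nat_lit 116) (nat_lit 5) (nat_lit 310) (nat_lit 280) (nat_lit 271)) (XT.nd (nat_lit 94) (nat_lit 924) (nat_lit 0) (XT.lf (nat_lit 0) (nat_lit 2825052413) (nat_lit 924) (nat_lit 1429657879) (nat_lit 84) (nat_lit 3033850868) (nat_lit 115) (nat_lit 5) (nat_lit 126) (nat_lit 5) (nat_lit 116) (nat_lit 5) (nat_lit 311) (nat_lit 280) (nat_lit 270)) (XT.lf (nat_lit 0) (nat_lit 2099360391) (nat_lit 924) (nat_lit 2999106641) (nat_lit 1008) (nat_lit 2270738126) (nat_lit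 104) (nat_lit 5) (nat_lit 115) (nat_lit 5) (nat_lit 116) (nat_lit 5) (nat_lit 312) (nat_lit 280) (nat_lit 269)))) (XT.nd (nat_lit 94) (nat_lit 1092) (nat_lit 0) (XT.lf (nat_lit 0) (nat_lit 5704546431) (nat_lit 924) (nat_lit 1683799570) (nat_lit 1008) (nat_lit 66154222) (nat_lit 104) (nat_lit 5) (nat_lit 115) (nat_lit 5) (nat_lit 116) (nat_lit 5) (nat_lit 313) (nat_lit 280) (nat_lit 268)) (XT.nd (nat_lit 94) (nat_lit 0) (nat_lit 0) (XT.lf (nat_lit 0) (nat_lit 1830568245) (nat_lit 1008) (nat_lit 281903044) (nat_lit 1092) (nat_lit 5431283025) (nat_lit 91) (nat_lit 5) (nat_lit 103) (nat_lit 5) (nat_lit 104) (nat_lit 5) (nat_lit 314) (nat_lit 280) (nat_lit 267)) (XT.lf (nat_lit 0) (nat_lit 4320714321) (nat_lit 1092) (nat_lit 2153798877) (nat_lit 84) (nat_lit 1162809048) (nat_lit 91) (nat_lit 5) (nat_lit 104) (nat_lit 5) (nat_lit 92) (nat_lit 5) (nat_lit 315) (nat_lit 280) (nat_lit 266)))))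 (XT.nd (nat_lit 282) (nat_lit 588) (nat_lit 0) (XT.nd (nat_lit 94) (nat_lit 588) (nat_lit 0) (XT.lf (nat_lit 0) (nat_lit 1479449856) (nat_lit 588) (nat_lit 5070983249) (nat_lit 672) (nat_lit 1185235991) (nat_lit 84) (nat_lit 5) (nat_lit 91) (nat_lit 5) (nat_lit 92) (nat_lit 5) (nat_lit 316) (nat_lit 280) (nat_lit 265)) (XT.nd (nat_lit 94) (nat_lit 504) (nat_lit 0) (XT.lf (nat_lit 0) (nat_lit 950256931) (nat_lit 672) (nat_lit 2640130658) (nat_lit 84) (nat_lit 4248051073) (nat_lit 83) (nat_lit 5) (nat_lit 91) (nat_lit 5) (nat_lit 84) (nat_lit 5) (nat_lit 317) (nat_lit 280) (nat_lit 264)) (XT.lf (nat_lit 0) (nat_lit 1034230303) (nat_lit 504) (nat_lit 2041022846) (nat_lit 588) (nat_lit 4870764543) (nat_lit 77) (nat_lit 5) (nat_lit 83) (nat_lit 5) (nat_lit 84) (nat_lit 5) (nat_lit 318) (nat_lit 280) (nat_lit 263)))) (XT.nd (nat_lit 94) (nat_lit 588) (nat_lit 0) (XT.lf (nat_lit 0) (nat_lit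 4816557387) (nat_lit 504) (nat_lit 416048064) (nat_lit 588) (nat_lit 2825738741) (nat_lit 77) (nat_lit 5) (nat_lit 83) (nat_lit 5) (nat_lit 84) (nat_lit 5) (nat_lit 319) (nat_lit 280) (nat_lit 262)) (XT.nd (nat_lit 94) (nat_lit 84) (nat_lit 0) (XT.lf (nat_lit 0) (nat_lit 476861439) (nat_lit 504) (nat_lit 6937949262) (nat_lit 588) (nat_lit 761007093) (nat_lit 71) (nat_lit 5) (nat_lit 77) (nat_lit 5) (nat_lit 78) (nat_lit 5) (nat_lit 320) (nat_lit 280) (nat_lit 261)) (XT.lf (nat_lit 0) (nat_lit 1319597528) (nat_lit 588) (nat_lit 3997703266) (nat_lit 84) (nat_lit 2980190316) (nat_lit 70) (nat_lit 5) (nat_lit 77) (nat_lit 5) (nat_lit 71) (nat_lit 5) (nat_lit 321) (nat_lit 280) (nat_lit 260)))))) (XT.nd (nat_lit 564) (nat_lit 840) (nat_lit 0) (XT.nd (nat_lit 282) (nat_lit 840) (nat_lit 0) (XT.nd (nat_lit 94) (nat_lit 420) (nat_lit 0) (XT.lf (nat_lit 0) (nat_lit 3391651619) (nat_lit 588)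 (nat_lit 250757274) (nat_lit 84) (nat_lit 4782391112) (nat_lit 70) (nat_lit 5) (nat_lit 77) (nat_lit 5) (nat_lit 71) (nat_lit 5) (nat_lit 322) (nat_lit 280) (nat_lit 259)) (XT.nd (nat_lit 94) (nat_lit 0) (nat_lit 0) (XT.lf (nat_lit 0) (nat_lit 3625978843) (nat_lit 420) (nat_lit 1882410465) (nat_lit 504) (nat_lit 3048592793) (nat_lit 65) (nat_lit 5) (nat_lit 70) (nat_lit 5) (nat_lit 71) (nat_lit 5) (nat_lit 323) (nat_lit 280) (nat_lit 258)) (XT.lf (nat_lit 0) (nat_lit 7569390690) (nat_lit 420) (nat_lit 69538212) (nat_lit 504) (nat_lit 1056250196) (nat_lit 65) (nat_lit 5) (nat_lit 70) (nat_lit 5) (nat_lit 71) (nat_lit 5) (nat_lit 324) (nat_lit 280) (nat_lit 257)))) (XT.nd (nat_lit 94) (nat_lit 336) (nat_lit 0) (XT.lf (nat_lit 0) (nat_lit 969934123) (nat_lit 504) (nat_lit 6071481434) (nat_lit 84) (nat_lit 1796472603) (nat_lit 59) (nat_lit 5) (nat_lit 65) (nat_lit 5) (nat_lit 60) (nat_lit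 5) (nat_lit 325) (nat_lit 280) (nat_lit 256)) (XT.nd (nat_lit 94) (nat_lit 336) (nat_lit 0) (XT.lf (nat_lit 0) (nat_lit 2996925084) (nat_lit 504) (nat_lit 2252881271) (nat_lit 84) (nat_lit 3736405667) (nat_lit 59) (nat_lit 5) (nat_lit 65) (nat_lit 5) (nat_lit 60) (nat_lit 5) (nat_lit 326) (nat_lit 280) (nat_lit 255)) (XT.lf (nat_lit 0) (nat_lit 1659612494) (nat_lit 336) (nat_lit 3392540214) (nat_lit 420) (nat_lit 4088329007) (nat_lit 55) (nat_lit 5) (nat_lit 59) (nat_lit 5) (nat_lit 60) (nat_lit 5) (nat_lit 327) (nat_lit 280) (nat_lit 254))))) (XT.nd (nat_lit 282) (nat_lit 336) (nat_lit 0) (XT.nd (nat_lit 94) (nat_lit 504) (nat_lit 0) (XT.lf (nat_lit 0) (nat_lit 5683819366) (nat_lit 336) (nat_lit 1460691480) (nat_lit 420) (nat_lit 2156113864) (nat_lit 55) (nat_lit 5) (nat_lit 59) (nat_lit 5) (nat_lit 60) (nat_lit 5) (nat_lit 328) (nat_lit 280) (nat_lit 253)) (XT.nd (nat_lit 94) (nat_lit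 84) (nat_lit 0) (XT.lf (nat_lit 0) (nat_lit 310731274) (nat_lit 420) (nat_lit 8950691006) (nat_lit 504) (nat_lit 205818351) (nat_lit 50) (nat_lit 5) (nat_lit 55) (nat_lit 5) (nat_lit 56) (nat_lit 5) (nat_lit 329) (nat_lit 280) (nat_lit 252)) (XT.lf (nat_lit 0) (nat_lit 1773154005) (nat_lit 504) (nat_lit 5292352457) (nat_lit 84) (nat_lit 2573061599) (nat_lit 49) (nat_lit 5) (nat_lit 55) (nat_lit 5) (nat_lit 50) (nat_lit 5) (nat_lit 330) (nat_lit 280) (nat_lit 251)))) (XT.nd (nat_lit 94) (nat_lit 336) (nat_lit 0) (XT.lf (nat_lit 0) (nat_lit 3762162845) (nat_lit 504) (nat_lit 1366735089) (nat_lit 84) (nat_lit 4687937810) (nat_lit 49) (nat_lit 5) (nat_lit 55) (nat_lit 5) (nat_lit 50) (nat_lit 5) (nat_lit 331) (nat_lit 280) (nat_lit 250)) (XT.nd (nat_lit 94) (nat_lit 0) (nat_lit 0) (XT.lf (nat_lit 0) (nat_lit 2680040420) (nat_lit 336) (nat_lit 3113754827) (nat_lit 420) (nat_lit 4207653712)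 (nat_lit 45) (nat_lit 5) (nat_lit 49) (nat_lit 5) (nat_lit 50) (nat_lit 5) (nat_lit 332) (nat_lit 280) (nat_lit 249)) (XT.lf (nat_lit 0) (nat_lit 6827259292) (nat_lit 336) (nat_lit 1030629091) (nat_lit 420) (nat_lit 2335065156) (nat_lit 45) (nat_lit 5) (nat_lit 49) (nat_lit 5) (nat_lit 50) (nat_lit 5) (nat_lit 333) (nat_lit 280) (nat_lit 248))))))) (XT.nd (nat_lit 1128) (nat_lit 756) (nat_lit 0) (XT.nd (nat_lit 564) (nat_lit 924) (nat_lit 0) (XT.nd (nat_lit 282) (nat_lit 252) (nat_lit 0) (XT.nd (nat_lit 94) (nat_lit 84) (nat_lit 0) (XT.lf (nat_lit 0) (nat_lit 661053070) (nat_lit 336) (nat_lit 9299026932) (nat_lit 420) (nat_lit 431332855) (nat_lit 41) (nat_lit 5) (nat_lit 45) (nat_lit 5) (nat_lit 46) (nat_lit 5) (nat_lit 334) (nat_lit 280) (nat_lit 247)) (XT.nd (nat_lit 94) (nat_lit 0) (nat_lit 0) (XT.lf (nat_lit 0) (nat_lit 1503202175) (nat_lit 420) (nat_lit 5791428224) (nat_lit 84)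 (nat_lit 3301043968) (nat_lit 40) (nat_lit 5) (nat_lit 45) (nat_lit 5) (nat_lit 41) (nat_lit 5) (nat_lit 335) (nat_lit 280) (nat_lit 246)) (XT.lf (nat_lit 0) (nat_lit 3446663094) (nat_lit 420) (nat_lit 1787547497) (nat_lit 84) (nat_lit 5573421958) (nat_lit 40) (nat_lit 5) (nat_lit 45) (nat_lit 5) (nat_lit 41) (nat_lit 5) (nat_lit 336) (nat_lit 280) (nat_lit 245)))) (XT.nd (nat_lit 94) (nat_lit 0) (nat_lit 0) (XT.lf (nat_lit 0) (nat_lit 2336365870) (nat_lit 252) (nat_lit 3096362975) (nat_lit 336) (nat_lit 5594170284) (nat_lit 37) (nat_lit 5) (nat_lit 40) (nat_lit 5) (nat_lit 41) (nat_lit 5) (nat_lit 337) (nat_lit 280) (nat_lit 244)) (XT.nd (nat_lit 94) (nat_lit 0) (nat_lit 0) (XT.lf (nat_lit 0) (nat_lit 6575373343) (nat_lit 252) (nat_lit 883553104) (nat_lit 336) (nat_lit 3794886087) (nat_lit 37) (nat_lit 5) (nat_lit 40) (nat_lit 5) (nat_lit 41) (nat_lit 5) (nat_lit 338) (nat_lit 280)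 (nat_lit 243)) (XT.lf (nat_lit 0) (nat_lit 9522812610) (nat_lit 336) (nat_lit 606240207) (nat_lit 84) (nat_lit 1359665745) (nat_lit 37) (nat_lit 5) (nat_lit 41) (nat_lit 5) (nat_lit 38) (nat_lit 5) (nat_lit 339) (nat_lit 280) (nat_lit 242))))) (XT.nd (nat_lit 282) (nat_lit 252) (nat_lit 0) (XT.nd (nat_lit 94) (nat_lit 336) (nat_lit 0) (XT.lf (nat_lit 0) (nat_lit 3606944570) (nat_lit 336) (nat_lit 8050734594) (nat_lit 420) (nat_lit 73184598) (nat_lit 33) (nat_lit 5) (nat_lit 37) (nat_lit 5) (nat_lit 38) (nat_lit 5) (nat_lit 340) (nat_lit 280) (nat_lit 241)) (XT.nd (nat_lit 94) (nat_lit 252) (nat_lit 0) (XT.lf (nat_lit 0) (nat_lit 1809055421) (nat_lit 420) (nat_lit 4084757804) (nat_lit 84) (nat_lit 6087259142) (nat_lit 32) (nat_lit 5) (nat_lit 37) (nat_lit 5) (nat_lit 33) (nat_lit 5) (nat_lit 341) (nat_lit 280) (nat_lit 240)) (XT.lf (nat_lit 0) (nat_lit 31658478) (nat_lit 252) (nat_lit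 3680207447) (nat_lit 336) (nat_lit 8528431179) (nat_lit 29) (nat_lit 5) (nat_lit 32) (nat_lit 5) (nat_lit 33) (nat_lit 5) (nat_lit 342) (nat_lit 280) (nat_lit 239)))) (XT.nd (nat_lit 94) (nat_lit 252) (nat_lit 0) (XT.lf (nat_lit 0) (nat_lit 4314914360) (nat_lit 252) (nat_lit 1365442704) (nat_lit 336) (nat_lit 6827147314) (nat_lit 29) (nat_lit 5) (nat_lit 32) (nat_lit 5) (nat_lit 33) (nat_lit 5) (nat_lit 343) (nat_lit 280) (nat_lit 238)) (XT.nd (nat_lit 94) (nat_lit 252) (nat_lit 0) (XT.lf (nat_lit 0) (nat_lit 7685028517) (nat_lit 336) (nat_lit 4109233305) (nat_lit 84) (nat_lit 989652820) (nat_lit 29) (nat_lit 5) (nat_lit 33) (nat_lit 5) (nat_lit 30) (nat_lit 5) (nat_lit 344) (nat_lit 280) (nat_lit 237)) (XT.lf (nat_lit 0) (nat_lit 41942073) (nat_lit 252) (nat_lit 9690363442) (nat_lit 336) (nat_lit 3337338773) (nat_lit 26) (nat_lit 5) (nat_lit 29) (nat_lit 5) (nat_lit 30) (nat_lit 5)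 (nat_lit 345) (nat_lit 280) (nat_lit 236)))))) (XT.nd (nat_lit 564) (nat_lit 504) (nat_lit 0) (XT.nd (nat_lit 282) (nat_lit 168) (nat_lit 0) (XT.nd (nat_lit 94) (nat_lit 84) (nat_lit 0) (XT.lf (nat_lit 0) (nat_lit 4363734427) (nat_lit 252) (nat_lit 7488856731) (nat_lit 336) (nat_lit 1511485144) (nat_lit 26) (nat_lit 5) (nat_lit 29) (nat_lit 5) (nat_lit 30) (nat_lit 5) (nat_lit 346) (nat_lit 280) (nat_lit 235)) (XT.nd (nat_lit 94) (nat_lit 0) (nat_lit 0) (XT.lf (nat_lit 0) (nat_lit 330685116) (nat_lit 336) (nat_lit 4896444833) (nat_lit 84) (nat_lit 8441541064) (nat_lit 25) (nat_lit 5) (nat_lit 29) (nat_lit 5) (nat_lit 26) (nat_lit 5) (nat_lit 347) (nat_lit 280) (nat_lit 234)) (XT.lf (nat_lit 0) (nat_lit 2166741485) (nat_lit 336) (nat_lit 724075349) (nat_lit 84) (nat_lit 11092526927) (nat_lit 25) (nat_lit 5) (nat_lit 29) (nat_lit 5) (nat_lit 26) (nat_lit 5) (nat_lit 348) (nat_lit 280)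 (nat_lit 233)))) (XT.nd (nat_lit 94) (nat_lit 0) (nat_lit 0) (XT.lf (nat_lit 0) (nat_lit 3608349993) (nat_lit 168) (nat_lit 456293702) (nat_lit 252) (nat_lit 10243099322) (nat_lit 23) (nat_lit 5) (nat_lit 25) (nat_lit 5) (nat_lit 26) (nat_lit 5) (nat_lit 349) (nat_lit 280) (nat_lit 232)) (XT.nd (nat_lit 94) (nat_lit 0) (nat_lit 0) (XT.lf (nat_lit 0) (nat_lit 6018926393) (nat_lit 252) (nat_lit 6614497148) (nat_lit 84) (nat_lit 2008971882) (nat_lit 23) (nat_lit 5) (nat_lit 26) (nat_lit 5) (nat_lit 24) (nat_lit 5) (nat_lit 350) (nat_lit 280) (nat_lit 231)) (XT.lf (nat_lit 0) (nat_lit 8008912012) (nat_lit 252) (nat_lit 2448871108) (nat_lit 84) (nat_lit 4530527262) (nat_lit 23) (nat_lit 5) (nat_lit 26) (nat_lit 5) (nat_lit 24) (nat_lit 5) (nat_lit 351) (nat_lit 280) (nat_lit 230))))) (XT.nd (nat_lit 282) (nat_lit 252) (nat_lit 0) (XT.nd (nat_lit 94) (nat_lit 0) (nat_lit 0) (XT.lf (nat_lit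 0) (nat_lit 1843027277) (nat_lit 252) (nat_lit 8207184720) (nat_lit 336) (nat_lit 5295171874) (nat_lit 20) (nat_lit 5) (nat_lit 23) (nat_lit 5) (nat_lit 24) (nat_lit 5) (nat_lit 352) (nat_lit 280) (nat_lit 229)) (XT.nd (nat_lit 94) (nat_lit 0) (nat_lit 0) (XT.lf (nat_lit 0) (nat_lit 6280299254) (nat_lit 252) (nat_lit 5871864928) (nat_lit 336) (nat_lit 3561554048) (nat_lit 20) (nat_lit 5) (nat_lit 23) (nat_lit 5) (nat_lit 24) (nat_lit 5) (nat_lit 353) (nat_lit 280) (nat_lit 228)) (XT.lf (nat_lit 0) (nat_lit 10816727011) (nat_lit 252) (nat_lit 3475208176) (nat_lit 336) (nat_lit 1802490171) (nat_lit 20) (nat_lit 5) (nat_lit 23) (nat_lit 5) (nat_lit 24) (nat_lit 5) (nat_lit 354) (nat_lit 280) (nat_lit 227)))) (XT.nd (nat_lit 188) (nat_lit 0) (nat_lit 0) (XT.nd (nat_lit 94) (nat_lit 252) (nat_lit 0) (XT.lf (nat_lit 0) (nat_lit 15456538973) (nat_lit 252) (nat_lit 1014980527) (nat_lit 336)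 (nat_lit 16340611) (nat_lit 20) (nat_lit 5) (nat_lit 23) (nat_lit 5) (nat_lit 24) (nat_lit 5) (nat_lit 355) (nat_lit 280) (nat_lit 226)) (XT.lf (nat_lit 0) (nat_lit 1811163100) (nat_lit 252) (nat_lit 13548801195) (nat_lit 84) (nat_lit 1532357763) (nat_lit 17) (nat_lit 5) (nat_lit 20) (nat_lit 5) (nat_lit 18) (nat_lit 5) (nat_lit 356) (nat_lit 280) (nat_lit 225))) (XT.nd (nat_lit 94) (nat_lit 0) (nat_lit 0) (XT.lf (nat_lit 0) (nat_lit 3690469008) (nat_lit 252) (nat_lit 9480970685) (nat_lit 84) (nat_lit 4138111822) (nat_lit 17) (nat_lit 5) (nat_lit 20) (nat_lit 5) (nat_lit 18) (nat_lit 5) (nat_lit 357) (nat_lit 280) (nat_lit 224)) (XT.lf (nat_lit 0) (nat_lit 5603041328) (nat_lit 252) (nat_lit 5323090210) (nat_lit 84) (nat_lit 6814449990) (nat_lit 17) (nat_lit 5) (nat_lit 20) (nat_lit 5) (nat_lit 18) (nat_lit 5) (nat_lit 358) (nat_lit 280) (nat_lit 223))))))))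
noncomputable def xc68 : XT := (XT.nd (nat_lit 2256) (nat_lit 252) (nat_lit 0) (XT.nd (nat_lit 1128) (nat_lit 336) (nat_lit 0) (XT.nd (nat_lit 564) (nat_lit 252) (nat_lit 0) (XT.nd (nat_lit 282) (nat_lit 168) (nat_lit 0) (XT.nd (nat_lit 94) (nat_lit 168) (nat_lit 0) (XT.lf (nat_lit 0) (nat_lit 7550662778) (nat_lit 252) (nat_lit 1071284190) (nat_lit 84) (nat_lit 9563866896) (nat_lit 17) (nat_lit 5) (nat_lit 20) (nat_lit 5) (nat_lit 18) (nat_lit 5) (nat_lit 359) (nat_lit 280) (nat_lit 222)) (XT.nd (nat_lit 94) (nat_lit 0) (nat_lit 0) (XT.lf (nat_lit 0) (nat_lit 3345821346) (nat_lit 168) (nat_lit 6222518359) (nat_lit 252) (nat_lit 9076294899) (nat_lit 15) (nat_lit 5) (nat_lit 17) (nat_lit 5) (nat_lit 18) (nat_lit 5) (nat_lit 360) (nat_lit 280) (nat_lit 221)) (XT.lf (nat_lit 0) (nat_lit 7888993886) (nat_lit 168) (nat_lit 3747614885) (nat_lit 252) (nat_lit 7481524313) (nat_lit 15) (nat_lit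 5) (nat_lit 17) (nat_lit 5) (nat_lit 18) (nat_lit 5) (nat_lit 361) (nat_lit 280) (nat_lit 220)))) (XT.nd (nat_lit 94) (nat_lit 168) (nat_lit 0) (XT.lf (nat_lit 0) (nat_lit 12540440341) (nat_lit 168) (nat_lit 1206111686) (nat_lit 252) (nat_lit 5860534845) (nat_lit 15) (nat_lit 5) (nat_lit 17) (nat_lit 5) (nat_lit 18) (nat_lit 5) (nat_lit 362) (nat_lit 280) (nat_lit 219)) (XT.nd (nat_lit 94) (nat_lit 168) (nat_lit 0) (XT.lf (nat_lit 0) (nat_lit 15914067591) (nat_lit 252) (nat_lit 2821386806) (nat_lit 84) (nat_lit 1376065455) (nat_lit 15) (nat_lit 5) (nat_lit 18) (nat_lit 5) (nat_lit 16) (nat_lit 4) (nat_lit 363) (nat_lit 280) (nat_lit 218)) (XT.lf (nat_lit 0) (nat_lit 1542955438) (nat_lit 168) (nat_lit 16612255361) (nat_lit 252) (nat_lit 2476256322) (nat_lit 13) (nat_lit 5) (nat_lit 15) (nat_lit 5) (nat_lit 16) (nat_lit 4) (nat_lit 364) (nat_lit 280) (nat_lit 217))))) (XT.nd (nat_lit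 282) (nat_lit 168) (nat_lit 0) (XT.nd (nat_lit 94) (nat_lit 84) (nat_lit 0) (XT.lf (nat_lit 0) (nat_lit 6071448850) (nat_lit 168) (nat_lit 14402953339) (nat_lit 252) (nat_lit 692938859) (nat_lit 13) (nat_lit 5) (nat_lit 15) (nat_lit 5) (nat_lit 16) (nat_lit 4) (nat_lit 365) (nat_lit 280) (nat_lit 216)) (XT.nd (nat_lit 94) (nat_lit 0) (nat_lit 0) (XT.lf (nat_lit 0) (nat_lit 1102052414) (nat_lit 252) (nat_lit 11021382939) (nat_lit 84) (nat_lit 9596745379) (nat_lit 12) (nat_lit 5) (nat_lit 15) (nat_lit 5) (nat_lit 13) (nat_lit 5) (nat_lit 366) (nat_lit 280) (nat_lit 215)) (XT.lf (nat_lit 0) (nat_lit 2918385131) (nat_lit 252) (nat_lit 6857249790) (nat_lit 84) (nat_lit 12514988577) (nat_lit 12) (nat_lit 5) (nat_lit 15) (nat_lit 5) (nat_lit 13) (nat_lit 5) (nat_lit 367) (nat_lit 280) (nat_lit 214)))) (XT.nd (nat_lit 94) (nat_lit 168) (nat_lit 0) (XT.lf (nat_lit 0) (nat_lit 4771713478) (nat_lit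 252) (nat_lit 2592737306) (nat_lit 84) (nat_lit 15514963373) (nat_lit 12) (nat_lit 5) (nat_lit 15) (nat_lit 5) (nat_lit 13) (nat_lit 5) (nat_lit 368) (nat_lit 280) (nat_lit 213)) (XT.nd (nat_lit 94) (nat_lit 0) (nat_lit 0) (XT.lf (nat_lit 0) (nat_lit 1812650350) (nat_lit 168) (nat_lit 4869096316) (nat_lit 252) (nat_lit 16804797424) (nat_lit 10) (nat_lit 5) (nat_lit 12) (nat_lit 5) (nat_lit 13) (nat_lit 5) (nat_lit 369) (nat_lit 280) (nat_lit 212)) (XT.lf (nat_lit 0) (nat_lit 6382006026) (nat_lit 168) (nat_lit 2277607403) (nat_lit 252) (nat_lit 15452675976) (nat_lit 10) (nat_lit 5) (nat_lit 12) (nat_lit 5) (nat_lit 13) (nat_lit 5) (nat_lit 370) (nat_lit 280) (nat_lit 211)))))) (XT.nd (nat_lit 564) (nat_lit 252) (nat_lit 0) (XT.nd (nat_lit 282) (nat_lit 84) (nat_lit 0) (XT.nd (nat_lit 94) (nat_lit 0) (nat_lit 0) (XT.lf (nat_lit 0) (nat_lit 10684731113) (nat_lit 252) (nat_lit 13695593149)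 (nat_lit 84) (nat_lit 377604314) (nat_lit 10) (nat_lit 5) (nat_lit 13) (nat_lit 5) (nat_lit 11) (nat_lit 4) (nat_lit 371) (nat_lit 280) (nat_lit 210)) (XT.nd (nat_lit 94) (nat_lit 0) (nat_lit 0) (XT.lf (nat_lit 0) (nat_lit 12778488804) (nat_lit 252) (nat_lit 9585563758) (nat_lit 84) (nat_lit 3059406298) (nat_lit 10) (nat_lit 5) (nat_lit 13) (nat_lit 5) (nat_lit 11) (nat_lit 4) (nat_lit 372) (nat_lit 280) (nat_lit 209)) (XT.lf (nat_lit 0) (nat_lit 14920243955) (nat_lit 252) (nat_lit 5373770082) (nat_lit 84) (nat_lit 5816186983) (nat_lit 10) (nat_lit 5) (nat_lit 13) (nat_lit 5) (nat_lit 11) (nat_lit 4) (nat_lit 373) (nat_lit 280) (nat_lit 208)))) (XT.nd (nat_lit 94) (nat_lit 84) (nat_lit 0) (XT.lf (nat_lit 0) (nat_lit 17111992907) (nat_lit 252) (nat_lit 1056286288) (nat_lit 84) (nat_lit 8650515977) (nat_lit 10) (nat_lit 5) (nat_lit 13) (nat_lit 5) (nat_lit 11) (nat_lit 4) (nat_lit 374)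 (nat_lit 280) (nat_lit 207)) (XT.nd (nat_lit 94) (nat_lit 0) (nat_lit 0) (XT.lf (nat_lit 0) (nat_lit 3440224833) (nat_lit 84) (nat_lit 15949681222) (nat_lit 168) (nat_lit 8158937793) (nat_lit 9) (nat_lit 5) (nat_lit 10) (nat_lit 5) (nat_lit 11) (nat_lit 4) (nat_lit 375) (nat_lit 280) (nat_lit 206)) (XT.lf (nat_lit 0) (nat_lit 8074637252) (nat_lit 84) (nat_lit 13659156625) (nat_lit 168) (nat_lit 6567925351) (nat_lit 9) (nat_lit 5) (nat_lit 10) (nat_lit 5) (nat_lit 11) (nat_lit 4) (nat_lit 376) (nat_lit 280) (nat_lit 205))))) (XT.nd (nat_lit 282) (nat_lit 252) (nat_lit 0) (XT.nd (nat_lit 94) (nat_lit 0) (nat_lit 0) (XT.lf (nat_lit 0) (nat_lit 12829551312) (nat_lit 84) (nat_lit 11305595858) (nat_lit 168) (nat_lit 4943307410) (nat_lit 9) (nat_lit 5) (nat_lit 10) (nat_lit 5) (nat_lit 11) (nat_lit 4) (nat_lit 377) (nat_lit 280) (nat_lit 204)) (XT.nd (nat_lit 94) (nat_lit 0) (nat_lit 0) (XT.lf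 (nat_lit 0) (nat_lit 17709399092) (nat_lit 84) (nat_lit 8886805155) (nat_lit 168) (nat_lit 3283569657) (nat_lit 9) (nat_lit 5) (nat_lit 10) (nat_lit 5) (nat_lit 11) (nat_lit 4) (nat_lit 378) (nat_lit 280) (nat_lit 203)) (XT.lf (nat_lit 0) (nat_lit 22718729121) (nat_lit 84) (nat_lit 6400529951) (nat_lit 168) (nat_lit 1587165043) (nat_lit 9) (nat_lit 5) (nat_lit 10) (nat_lit 5) (nat_lit 11) (nat_lit 4) (nat_lit 379) (nat_lit 280) (nat_lit 202)))) (XT.nd (nat_lit 94) (nat_lit 168) (nat_lit 0) (XT.lf (nat_lit 0) (nat_lit 144516110) (nat_lit 168) (nat_lit 3698428214) (nat_lit 84) (nat_lit 27716186057) (nat_lit 8) (nat_lit 5) (nat_lit 10) (nat_lit 5) (nat_lit 9) (nat_lit 5) (nat_lit 380) (nat_lit 280) (nat_lit 201)) (XT.nd (nat_lit 94) (nat_lit 0) (nat_lit 0) (XT.lf (nat_lit 0) (nat_lit 700868636) (nat_lit 168) (nat_lit 1189365270) (nat_lit 252) (nat_lit 30547783122) (nat_lit 6) (nat_lit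 5) (nat_lit 8) (nat_lit 5) (nat_lit 9) (nat_lit 5) (nat_lit 381) (nat_lit 280) (nat_lit 200)) (XT.lf (nat_lit 0) (nat_lit 3730913949) (nat_lit 252) (nat_lit 28064740660) (nat_lit 84) (nat_lit 1547269812) (nat_lit 6) (nat_lit 5) (nat_lit 9) (nat_lit 5) (nat_lit 7) (nat_lit 4) (nat_lit 382) (nat_lit 280) (nat_lit 199))))))) (XT.nd (nat_lit 1128) (nat_lit 168) (nat_lit 0) (XT.nd (nat_lit 564) (nat_lit 84) (nat_lit 0) (XT.nd (nat_lit 282) (nat_lit 0) (nat_lit 0) (XT.nd (nat_lit 94) (nat_lit 0) (nat_lit 0) (XT.lf (nat_lit 0) (nat_lit 5627730190) (nat_lit 252) (nat_lit 24311021854) (nat_lit 84) (nat_lit 4337200780) (nat_lit 6) (nat_lit 5) (nat_lit 9) (nat_lit 5) (nat_lit 7) (nat_lit 4) (nat_lit 383) (nat_lit 280) (nat_lit 198)) (XT.nd (nat_lit 94) (nat_lit 0) (nat_lit 0) (XT.lf (nat_lit 0) (nat_lit 7570652012) (nat_lit 252) (nat_lit 20460694464) (nat_lit 84) (nat_lit 7206991201) (nat_lit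 6) (nat_lit 5) (nat_lit 9) (nat_lit 5) (nat_lit 7) (nat_lit 4) (nat_lit 384) (nat_lit 280) (nat_lit 197)) (XT.lf (nat_lit 0) (nat_lit 9561490420) (nat_lit 252) (nat_lit 16510169581) (nat_lit 84) (nat_lit 10159316022) (nat_lit 6) (nat_lit 5) (nat_lit 9) (nat_lit 5) (nat_lit 7) (nat_lit 4) (nat_lit 385) (nat_lit 280) (nat_lit 196)))) (XT.nd (nat_lit 94) (nat_lit 0) (nat_lit 0) (XT.lf (nat_lit 0) (nat_lit 11602101084) (nat_lit 252) (nat_lit 12455764902) (nat_lit 84) (nat_lit 13196927117) (nat_lit 6) (nat_lit 5) (nat_lit 9) (nat_lit 5) (nat_lit 7) (nat_lit 4) (nat_lit 386) (nat_lit 280) (nat_lit 195)) (XT.nd (nat_lit 94) (nat_lit 0) (nat_lit 0) (XT.lf (nat_lit 0) (nat_lit 13694386067) (nat_lit 252) (nat_lit 8293701298) (nat_lit 84) (nat_lit 16322655858) (nat_lit 6) (nat_lit 5) (nat_lit 9) (nat_lit 5) (nat_lit 7) (nat_lit 4) (nat_lit 387) (nat_lit 280) (nat_lit 194)) (XT.lf (nat_lit 0)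 (nat_lit 15840295599) (nat_lit 252) (nat_lit 4020099289) (nat_lit 84) (nat_lit 19539415753) (nat_lit 6) (nat_lit 5) (nat_lit 9) (nat_lit 5) (nat_lit 7) (nat_lit 4) (nat_lit 388) (nat_lit 280) (nat_lit 193))))) (XT.nd (nat_lit 282) (nat_lit 0) (nat_lit 0) (XT.nd (nat_lit 94) (nat_lit 0) (nat_lit 0) (XT.lf (nat_lit 0) (nat_lit 376612471) (nat_lit 84) (nat_lit 17668953462) (nat_lit 168) (nat_lit 22477328729) (nat_lit 5) (nat_lit 5) (nat_lit 6) (nat_lit 5) (nat_lit 7) (nat_lit 4) (nat_lit 389) (nat_lit 280) (nat_lit 192)) (XT.nd (nat_lit 94) (nat_lit 0) (nat_lit 0) (XT.lf (nat_lit 0) (nat_lit 4978058179) (nat_lit 84) (nat_lit 15372365779) (nat_lit 168) (nat_lit 21329434849) (nat_lit 5) (nat_lit 5) (nat_lit 6) (nat_lit 5) (nat_lit 7) (nat_lit 4) (nat_lit 390) (nat_lit 280) (nat_lit 191)) (XT.lf (nat_lit 0) (nat_lit 9705865377) (nat_lit 84) (nat_lit 13010452769) (nat_lit 168) (nat_lit 20156725038)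 (nat_lit 5) (nat_lit 5) (nat_lit 6) (nat_lit 5) (nat_lit 7) (nat_lit 4) (nat_lit 391) (nat_lit 280) (nat_lit 190)))) (XT.nd (nat_lit 94) (nat_lit 0) (nat_lit 0) (XT.lf (nat_lit 0) (nat_lit 14564440877) (nat_lit 84) (nat_lit 10581012883) (nat_lit 168) (nat_lit 18958106208) (nat_lit 5) (nat_lit 5) (nat_lit 6) (nat_lit 5) (nat_lit 7) (nat_lit 4) (nat_lit 392) (nat_lit 280) (nat_lit 189)) (XT.nd (nat_lit 94) (nat_lit 0) (nat_lit 0) (XT.lf (nat_lit 0) (nat_lit 19558313380) (nat_lit 84) (nat_lit 8081781628) (nat_lit 168) (nat_lit 17732461119) (nat_lit 5) (nat_lit 5) (nat_lit 6) (nat_lit 5) (nat_lit 7) (nat_lit 4) (nat_lit 393) (nat_lit 280) (nat_lit 188)) (XT.lf (nat_lit 0) (nat_lit 24692137699) (nat_lit 84) (nat_lit 5510429458) (nat_lit 168) (nat_lit 16478647342) (nat_lit 5) (nat_lit 5) (nat_lit 6) (nat_lit 5) (nat_lit 7) (nat_lit 4) (nat_lit 394) (nat_lit 280) (nat_lit 187)))))) (XT.nd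 (nat_lit 564) (nat_lit 84) (nat_lit 0) (XT.nd (nat_lit 282) (nat_lit 84) (nat_lit 0) (XT.nd (nat_lit 94) (nat_lit 0) (nat_lit 0) (XT.lf (nat_lit 0) (nat_lit 29970699095) (nat_lit 84) (nat_lit 2864559605) (nat_lit 168) (nat_lit 15195496192) (nat_lit 5) (nat_lit 5) (nat_lit 6) (nat_lit 5) (nat_lit 7) (nat_lit 4) (nat_lit 395) (nat_lit 280) (nat_lit 186)) (XT.nd (nat_lit 94) (nat_lit 0) (nat_lit 0) (XT.lf (nat_lit 0) (nat_lit 35398917741) (nat_lit 84) (nat_lit 141705840) (nat_lit 168) (nat_lit 13881811637) (nat_lit 5) (nat_lit 5) (nat_lit 6) (nat_lit 5) (nat_lit 7) (nat_lit 4) (nat_lit 396) (nat_lit 280) (nat_lit 185)) (XT.lf (nat_lit 0) (nat_lit 38347577658) (nat_lit 168) (nat_lit 9902093539) (nat_lit 0) (nat_lit 2607063253) (nat_lit 5) (nat_lit 5) (nat_lit 7) (nat_lit 4) (nat_lit 5) (nat_lit 4) (nat_lit 397) (nat_lit 280) (nat_lit 184)))) (XT.nd (nat_lit 94) (nat_lit 84) (nat_lit 0)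 (XT.lf (nat_lit 0) (nat_lit 41234539048) (nat_lit 168) (nat_lit 5667744125) (nat_lit 0) (nat_lit 5433456477) (nat_lit 5) (nat_lit 5) (nat_lit 7) (nat_lit 4) (nat_lit 5) (nat_lit 4) (nat_lit 398) (nat_lit 280) (nat_lit 183)) (XT.nd (nat_lit 94) (nat_lit 84) (nat_lit 0) (XT.lf (nat_lit 0) (nat_lit 44202792963) (nat_lit 168) (nat_lit 1315116639) (nat_lit 0) (nat_lit 8342963383) (nat_lit 5) (nat_lit 5) (nat_lit 7) (nat_lit 4) (nat_lit 5) (nat_lit 4) (nat_lit 399) (nat_lit 280) (nat_lit 182)) (XT.lf (nat_lit 0) (nat_lit 3224818937) (nat_lit 84) (nat_lit 44062277790) (nat_lit 84) (nat_lit 8145467601) (nat_lit 4) (nat_lit 4) (nat_lit 5) (nat_lit 5) (nat_lit 5) (nat_lit 4) (nat_lit 400) (nat_lit 280) (nat_lit 181))))) (XT.nd (nat_lit 282) (nat_lit 84) (nat_lit 0) (XT.nd (nat_lit 94) (nat_lit 0) (nat_lit 0) (XT.lf (nat_lit 0) (nat_lit 7920903550) (nat_lit 84) (nat_lit 42551996404) (nat_lit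 84) (nat_lit 6579918893) (nat_lit 4) (nat_lit 4) (nat_lit 5) (nat_lit 5) (nat_lit 5) (nat_lit 4) (nat_lit 401) (nat_lit 280) (nat_lit 180)) (XT.nd (nat_lit 94) (nat_lit 0) (nat_lit 0) (XT.lf (nat_lit 0) (nat_lit 12750472945) (nat_lit 84) (nat_lit 40999384825) (nat_lit 84) (nat_lit 4973701763) (nat_lit 4) (nat_lit 4) (nat_lit 5) (nat_lit 5) (nat_lit 5) (nat_lit 4) (nat_lit 402) (nat_lit 280) (nat_lit 179)) (XT.lf (nat_lit 0) (nat_lit 17718028787) (nat_lit 84) (nat_lit 39402995855) (nat_lit 84) (nat_lit 3325319049) (nat_lit 4) (nat_lit 4) (nat_lit 5) (nat_lit 5) (nat_lit 5) (nat_lit 4) (nat_lit 403) (nat_lit 280) (nat_lit 178)))) (XT.nd (nat_lit 94) (nat_lit 84) (nat_lit 0) (XT.lf (nat_lit 0) (nat_lit 22828201358) (nat_lit 84) (nat_lit 37761341493) (nat_lit 84) (nat_lit 1633234285) (nat_lit 4) (nat_lit 4) (nat_lit 5) (nat_lit 5) (nat_lit 5) (nat_lit 4) (nat_lit 404) (nat_lit 280) (nat_lit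 177)) (XT.nd (nat_lit 94) (nat_lit 0) (nat_lit 0) (XT.lf (nat_lit 0) (nat_lit 102031746) (nat_lit 168) (nat_lit 35969794797) (nat_lit 84) (nat_lit 27982657127) (nat_lit 3) (nat_lit 5) (nat_lit 5) (nat_lit 5) (nat_lit 4) (nat_lit 4) (nat_lit 405) (nat_lit 280) (nat_lit 176)) (XT.lf (nat_lit 0) (nat_lit 1850345499) (nat_lit 168) (nat_lit 32466412888) (nat_lit 84) (nat_lit 31625927617) (nat_lit 3) (nat_lit 5) (nat_lit 5) (nat_lit 5) (nat_lit 4) (nat_lit 4) (nat_lit 406) (nat_lit 280) (nat_lit 175))))))))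
noncomputable def xc69 : XT := (XT.nd (nat_lit 45496) (nat_lit 0) (nat_lit 2520) (XT.nd (nat_lit 44368) (nat_lit 0) (nat_lit 7392) (XT.nd (nat_lit 564) (nat_lit 0) (nat_lit 0) (XT.nd (nat_lit 282) (nat_lit 0) (nat_lit 0) (XT.nd (nat_lit 94) (nat_lit 0) (nat_lit 0) (XT.lf (nat_lit 0) (nat_lit 3646242615) (nat_lit 168) (nat_lit 28864962647) (nat_lit 84) (nat_lit 35378441138) (nat_lit 3) (nat_lit 5) (nat_lit 5) (nat_lit 5) (nat_lit 4) (nat_lit 4) (nat_lit 407) (nat_lit 280) (nat_lit 174)) (XT.nd (nat_lit 94) (nat_lit 0) (nat_lit 0) (XT.lf (nat_lit 0) (nat_lit 5491397058) (nat_lit 168) (nat_lit 25162087146) (nat_lit 84) (nat_lit 39243695424) (nat_lit 3) (nat_lit 5) (nat_lit 5) (nat_lit 5) (nat_lit 4) (nat_lit 4) (nat_lit 408) (nat_lit 280) (nat_lit 173)) (XT.lf (nat_lit 0) (nat_lit 7387528707) (nat_lit 168) (nat_lit 21354334916) (nat_lit 84) (nat_lit 43225293298) (nat_lit 3) (nat_lit 5)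 (nat_lit 5) (nat_lit 5) (nat_lit 4) (nat_lit 4) (nat_lit 409) (nat_lit 280) (nat_lit 172)))) (XT.nd (nat_lit 94) (nat_lit 0) (nat_lit 0) (XT.lf (nat_lit 0) (nat_lit 9336404953) (nat_lit 168) (nat_lit 17438156734) (nat_lit 84) (nat_lit 47326946027) (nat_lit 3) (nat_lit 5) (nat_lit 5) (nat_lit 5) (nat_lit 4) (nat_lit 4) (nat_lit 410) (nat_lit 280) (nat_lit 171)) (XT.nd (nat_lit 94) (nat_lit 0) (nat_lit 0) (XT.lf (nat_lit 0) (nat_lit 11339842355) (nat_lit 168) (nat_lit 13409902310) (nat_lit 84) (nat_lit 51552476780) (nat_lit 3) (nat_lit 5) (nat_lit 5) (nat_lit 5) (nat_lit 4) (nat_lit 4) (nat_lit 411) (nat_lit 280) (nat_lit 170)) (XT.lf (nat_lit 0) (nat_lit 13399708325) (nat_lit 168) (nat_lit 9265816891) (nat_lit 84) (nat_lit 55905824194) (nat_lit 3) (nat_lit 5) (nat_lit 5) (nat_lit 5) (nat_lit 4) (nat_lit 4) (nat_lit 412) (nat_lit 280) (nat_lit 169))))) (XT.nd (nat_lit 43522) (nat_lit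 0) (nat_lit 12516) (XT.nd (nat_lit 43334) (nat_lit 0) (nat_lit 13104) (XT.lf (nat_lit 0) (nat_lit 15517922874) (nat_lit 168) (nat_lit 5002037754) (nat_lit 84) (nat_lit 60391046046) (nat_lit 3) (nat_lit 5) (nat_lit 5) (nat_lit 5) (nat_lit 4) (nat_lit 4) (nat_lit 413) (nat_lit 280) (nat_lit 168)) (XT.nd (nat_lit 94) (nat_lit 0) (nat_lit 0) (XT.lf (nat_lit 0) (nat_lit 223238452) (nat_lit 420) (nat_lit 1546982952) (nat_lit 420) (nat_lit 1546982952) (nat_lit 159) (nat_lit 4) (nat_lit 164) (nat_lit 5) (nat_lit 164) (nat_lit 4) (nat_lit 299) (nat_lit 281) (nat_lit 281)) (XT.lf (nat_lit 0) (nat_lit 3561383671) (nat_lit 420) (nat_lit 2478929996) (nat_lit 420) (nat_lit 628745947) (nat_lit 159) (nat_lit 4) (nat_lit 164) (nat_lit 5) (nat_lit 164) (nat_lit 4) (nat_lit 300) (nat_lit 281) (nat_lit 280)))) (XT.nd (nat_lit 94) (nat_lit 504) (nat_lit 0) (XT.lf (nat_lit 0) (nat_lit 1787028572) (nat_lit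 504) (nat_lit 15281928) (nat_lit 84) (nat_lit 4905324041) (nat_lit 158) (nat_lit 5) (nat_lit 164) (nat_lit 5) (nat_lit 159) (nat_lit 4) (nat_lit 301) (nat_lit 281) (nat_lit 279)) (XT.nd (nat_lit 94) (nat_lit 0) (nat_lit 0) (XT.lf (nat_lit 0) (nat_lit 3167934491) (nat_lit 504) (nat_lit 1043422441) (nat_lit 588) (nat_lit 2538209528) (nat_lit 152) (nat_lit 5) (nat_lit 158) (nat_lit 5) (nat_lit 159) (nat_lit 4) (nat_lit 302) (nat_lit 281) (nat_lit 278)) (XT.lf (nat_lit 0) (nat_lit 6388348678) (nat_lit 504) (nat_lit 239883022) (nat_lit 588) (nat_lit 167815096) (nat_lit 152) (nat_lit 5) (nat_lit 158) (nat_lit 5) (nat_lit 159) (nat_lit 4) (nat_lit 303) (nat_lit 281) (nat_lit 277)))))) (XT.nd (nat_lit 564) (nat_lit 2940) (nat_lit 0) (XT.nd (nat_lit 282) (nat_lit 840) (nat_lit 0) (XT.nd (nat_lit 94) (nat_lit 672) (nat_lit 0) (XT.lf (nat_lit 0) (nat_lit 2183144060) (nat_lit 672) (nat_lit 4015196389)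 (nat_lit 84) (nat_lit 647033443) (nat_lit 144) (nat_lit 5) (nat_lit 152) (nat_lit 5) (nat_lit 145) (nat_lit 4) (nat_lit 304) (nat_lit 281) (nat_lit 276)) (XT.nd (nat_lit 94) (nat_lit 672) (nat_lit 0) (XT.lf (nat_lit 0) (nat_lit 4530524034) (nat_lit 672) (nat_lit 788172052) (nat_lit 84) (nat_lit 1580370497) (nat_lit 144) (nat_lit 5) (nat_lit 152) (nat_lit 5) (nat_lit 145) (nat_lit 4) (nat_lit 305) (nat_lit 281) (nat_lit 275)) (XT.lf (nat_lit 0) (nat_lit 2526821404) (nat_lit 672) (nat_lit 4371589447) (nat_lit 756) (nat_lit 58241651) (nat_lit 136) (nat_lit 5) (nat_lit 144) (nat_lit 5) (nat_lit 145) (nat_lit 4) (nat_lit 306) (nat_lit 281) (nat_lit 274)))) (XT.nd (nat_lit 94) (nat_lit 756) (nat_lit 0) (XT.lf (nat_lit 0) (nat_lit 2208199152) (nat_lit 756) (nat_lit 1142111550) (nat_lit 84) (nat_lit 3667699415) (nat_lit 135) (nat_lit 5) (nat_lit 144) (nat_lit 5) (nat_lit 136) (nat_lit 5) (nat_lit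 307) (nat_lit 281) (nat_lit 273)) (XT.nd (nat_lit 94) (nat_lit 0) (nat_lit 0) (XT.lf (nat_lit 0) (nat_lit 2229289947) (nat_lit 756) (nat_lit 2261855603) (nat_lit 840) (nat_lit 2592290041) (nat_lit 126) (nat_lit 5) (nat_lit 135) (nat_lit 5) (nat_lit 136) (nat_lit 5) (nat_lit 308) (nat_lit 281) (nat_lit 272)) (XT.lf (nat_lit 0) (nat_lit 5667493483) (nat_lit 756) (nat_lit 1116262572) (nat_lit 840) (nat_lit 369566192) (nat_lit 126) (nat_lit 5) (nat_lit 135) (nat_lit 5) (nat_lit 136) (nat_lit 5) (nat_lit 309) (nat_lit 281) (nat_lit 271))))) (XT.nd (nat_lit 282) (nat_lit 1092) (nat_lit 0) (XT.nd (nat_lit 94) (nat_lit 924) (nat_lit 0) (XT.lf (nat_lit 0) (nat_lit 1831697103) (nat_lit 924) (nat_lit 5283086629) (nat_lit 84) (nat_lit 112108170) (nat_lit 115) (nat_lit 5) (nat_lit 126) (nat_lit 5) (nat_lit 116) (nat_lit 5) (nat_lit 310) (nat_lit 281) (nat_lit 270)) (XT.nd (nat_lit 94) (nat_lit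 924) (nat_lit 0) (XT.lf (nat_lit 0) (nat_lit 4050185870) (nat_lit 924) (nat_lit 1870549491) (nat_lit 84) (nat_lit 1383724651) (nat_lit 115) (nat_lit 5) (nat_lit 126) (nat_lit 5) (nat_lit 116) (nat_lit 5) (nat_lit 311) (nat_lit 281) (nat_lit 269)) (XT.lf (nat_lit 0) (nat_lit 1618118164) (nat_lit 924) (nat_lit 4667077679) (nat_lit 1008) (nat_lit 1101333445) (nat_lit 104) (nat_lit 5) (nat_lit 115) (nat_lit 5) (nat_lit 116) (nat_lit 5) (nat_lit 312) (nat_lit 281) (nat_lit 268)))) (XT.nd (nat_lit 94) (nat_lit 1008) (nat_lit 0) (XT.lf (nat_lit 0) (nat_lit 1047542152) (nat_lit 1008) (nat_lit 2290718090) (nat_lit 84) (nat_lit 4134483554) (nat_lit 103) (nat_lit 5) (nat_lit 115) (nat_lit 5) (nat_lit 104) (nat_lit 5) (nat_lit 313) (nat_lit 281) (nat_lit 267)) (XT.nd (nat_lit 94) (nat_lit 0) (nat_lit 0) (XT.lf (nat_lit 0) (nat_lit 1247077827) (nat_lit 1008) (nat_lit 1939495093) (nat_lit 1092)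 (nat_lit 4376804932) (nat_lit 91) (nat_lit 5) (nat_lit 103) (nat_lit 5) (nat_lit 104) (nat_lit 5) (nat_lit 314) (nat_lit 281) (nat_lit 266)) (XT.lf (nat_lit 0) (nat_lit 4882163362) (nat_lit 1008) (nat_lit 469085346) (nat_lit 1092) (nat_lit 2307255410) (nat_lit 91) (nat_lit 5) (nat_lit 103) (nat_lit 5) (nat_lit 104) (nat_lit 5) (nat_lit 315) (nat_lit 281) (nat_lit 265))))))) (XT.nd (nat_lit 1128) (nat_lit 1848) (nat_lit 0) (XT.nd (nat_lit 564) (nat_lit 1260) (nat_lit 0) (XT.nd (nat_lit 282) (nat_lit 588) (nat_lit 0) (XT.nd (nat_lit 94) (nat_lit 588) (nat_lit 0) (XT.lf (nat_lit 0) (nat_lit 817954304) (nat_lit 588) (nat_lit 6720976048) (nat_lit 672) (nat_lit 219425273) (nat_lit 84) (nat_lit 5) (nat_lit 91) (nat_lit 5) (nat_lit 92) (nat_lit 5) (nat_lit 316) (nat_lit 281) (nat_lit 264)) (XT.nd (nat_lit 94) (nat_lit 504) (nat_lit 0) (XT.lf (nat_lit 0) (nat_lit 1865916180) (nat_lit 672) (nat_lit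 3364687214) (nat_lit 84) (nat_lit 2631365822) (nat_lit 83) (nat_lit 5) (nat_lit 91) (nat_lit 5) (nat_lit 84) (nat_lit 5) (nat_lit 317) (nat_lit 281) (nat_lit 263)) (XT.lf (nat_lit 0) (nat_lit 264293620) (nat_lit 504) (nat_lit 3689211237) (nat_lit 588) (nat_lit 4017386892) (nat_lit 77) (nat_lit 5) (nat_lit 83) (nat_lit 5) (nat_lit 84) (nat_lit 5) (nat_lit 318) (nat_lit 281) (nat_lit 262)))) (XT.nd (nat_lit 94) (nat_lit 588) (nat_lit 0) (XT.lf (nat_lit 0) (nat_lit 4017055468) (nat_lit 504) (nat_lit 2064633836) (nat_lit 588) (nat_lit 2002611487) (nat_lit 77) (nat_lit 5) (nat_lit 83) (nat_lit 5) (nat_lit 84) (nat_lit 5) (nat_lit 319) (nat_lit 281) (nat_lit 261)) (XT.nd (nat_lit 94) (nat_lit 504) (nat_lit 0) (XT.lf (nat_lit 0) (nat_lit 14727890) (nat_lit 588) (nat_lit 375595730) (nat_lit 84) (nat_lit 7813029809) (nat_lit 76) (nat_lit 5) (nat_lit 83) (nat_lit 5) (nat_lit 77) (nat_lit 5)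 (nat_lit 320) (nat_lit 281) (nat_lit 260)) (XT.lf (nat_lit 0) (nat_lit 2044102561) (nat_lit 588) (nat_lit 4919339081) (nat_lit 84) (nat_lit 1362626624) (nat_lit 70) (nat_lit 5) (nat_lit 77) (nat_lit 5) (nat_lit 71) (nat_lit 5) (nat_lit 321) (nat_lit 281) (nat_lit 259))))) (XT.nd (nat_lit 282) (nat_lit 840) (nat_lit 0) (XT.nd (nat_lit 94) (nat_lit 420) (nat_lit 0) (XT.lf (nat_lit 0) (nat_lit 4088820248) (nat_lit 588) (nat_lit 1201649905) (nat_lit 84) (nat_lit 3163912277) (nat_lit 70) (nat_lit 5) (nat_lit 77) (nat_lit 5) (nat_lit 71) (nat_lit 5) (nat_lit 322) (nat_lit 281) (nat_lit 258)) (XT.nd (nat_lit 94) (nat_lit 0) (nat_lit 0) (XT.lf (nat_lit 0) (nat_lit 2626573292) (nat_lit 420) (nat_lit 3542555960) (nat_lit 504) (nat_lit 2418717655) (nat_lit 65) (nat_lit 5) (nat_lit 70) (nat_lit 5) (nat_lit 71) (nat_lit 5) (nat_lit 323) (nat_lit 281) (nat_lit 257)) (XT.lf (nat_lit 0) (nat_lit 6541895307)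 (nat_lit 420) (nat_lit 1731777662) (nat_lit 504) (nat_lit 453325297) (nat_lit 65) (nat_lit 5) (nat_lit 70) (nat_lit 5) (nat_lit 71) (nat_lit 5) (nat_lit 324) (nat_lit 281) (nat_lit 256)))) (XT.nd (nat_lit 94) (nat_lit 336) (nat_lit 0) (XT.lf (nat_lit 0) (nat_lit 1507466000) (nat_lit 504) (nat_lit 7203513356) (nat_lit 84) (nat_lit 160332860) (nat_lit 59) (nat_lit 5) (nat_lit 65) (nat_lit 5) (nat_lit 60) (nat_lit 5) (nat_lit 325) (nat_lit 281) (nat_lit 255)) (XT.nd (nat_lit 94) (nat_lit 336) (nat_lit 0) (XT.lf (nat_lit 0) (nat_lit 3509314855) (nat_lit 504) (nat_lit 3413431408) (nat_lit 84) (nat_lit 2097804715) (nat_lit 59) (nat_lit 5) (nat_lit 65) (nat_lit 5) (nat_lit 60) (nat_lit 5) (nat_lit 326) (nat_lit 281) (nat_lit 254)) (XT.lf (nat_lit 0) (nat_lit 446969573) (nat_lit 336) (nat_lit 5081157203) (nat_lit 420) (nat_lit 3647954203) (nat_lit 55) (nat_lit 5) (nat_lit 59) (nat_lit 5) (nat_lit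 60) (nat_lit 5) (nat_lit 327) (nat_lit 281) (nat_lit 253)))))) (XT.nd (nat_lit 564) (nat_lit 1008) (nat_lit 0) (XT.nd (nat_lit 282) (nat_lit 336) (nat_lit 0) (XT.nd (nat_lit 94) (nat_lit 504) (nat_lit 0) (XT.lf (nat_lit 0) (nat_lit 4443795752) (nat_lit 336) (nat_lit 3152764645) (nat_lit 420) (nat_lit 1740532705) (nat_lit 55) (nat_lit 5) (nat_lit 59) (nat_lit 5) (nat_lit 60) (nat_lit 5) (nat_lit 328) (nat_lit 281) (nat_lit 252)) (XT.nd (nat_lit 94) (nat_lit 420) (nat_lit 0) (XT.lf (nat_lit 0) (nat_lit 173607338) (nat_lit 420) (nat_lit 995980907) (nat_lit 84) (nat_lit 8335165995) (nat_lit 54) (nat_lit 5) (nat_lit 59) (nat_lit 5) (nat_lit 55) (nat_lit 5) (nat_lit 329) (nat_lit 281) (nat_lit 251)) (XT.lf (nat_lit 0) (nat_lit 2103484715) (nat_lit 504) (nat_lit 6675388996) (nat_lit 84) (nat_lit 898654372) (nat_lit 49) (nat_lit 5) (nat_lit 55) (nat_lit 5) (nat_lit 50) (nat_lit 5) (nat_lit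 330) (nat_lit 281) (nat_lit 250)))) (XT.nd (nat_lit 94) (nat_lit 336) (nat_lit 0) (XT.lf (nat_lit 0) (nat_lit 4070030708) (nat_lit 504) (nat_lit 2776621869) (nat_lit 84) (nat_lit 3009952353) (nat_lit 49) (nat_lit 5) (nat_lit 55) (nat_lit 5) (nat_lit 50) (nat_lit 5) (nat_lit 331) (nat_lit 281) (nat_lit 249)) (XT.nd (nat_lit 94) (nat_lit 0) (nat_lit 0) (XT.lf (nat_lit 0) (nat_lit 1214585069) (nat_lit 336) (nat_lit 4850753104) (nat_lit 420) (nat_lit 3977115468) (nat_lit 45) (nat_lit 5) (nat_lit 49) (nat_lit 5) (nat_lit 50) (nat_lit 5) (nat_lit 332) (nat_lit 281) (nat_lit 248)) (XT.lf (nat_lit 0) (nat_lit 5336024691) (nat_lit 336) (nat_lit 2772018549) (nat_lit 420) (nat_lit 2126684144) (nat_lit 45) (nat_lit 5) (nat_lit 49) (nat_lit 5) (nat_lit 50) (nat_lit 5) (nat_lit 333) (nat_lit 281) (nat_lit 247))))) (XT.nd (nat_lit 282) (nat_lit 588) (nat_lit 0) (XT.nd (nat_lit 94) (nat_lit 420) (nat_lit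 0) (XT.lf (nat_lit 0) (nat_lit 9534445570) (nat_lit 336) (nat_lit 637493552) (nat_lit 420) (nat_lit 262537692) (nat_lit 45) (nat_lit 5) (nat_lit 49) (nat_lit 5) (nat_lit 50) (nat_lit 5) (nat_lit 334) (nat_lit 281) (nat_lit 246)) (XT.nd (nat_lit 94) (nat_lit 0) (nat_lit 0) (XT.lf (nat_lit 0) (nat_lit 1632346004) (nat_lit 420) (nat_lit 7435593268) (nat_lit 84) (nat_lit 1571967751) (nat_lit 40) (nat_lit 5) (nat_lit 45) (nat_lit 5) (nat_lit 41) (nat_lit 5) (nat_lit 335) (nat_lit 281) (nat_lit 245)) (XT.lf (nat_lit 0) (nat_lit 3555708698) (nat_lit 420) (nat_lit 3456902215) (nat_lit 84) (nat_lit 3839971270) (nat_lit 40) (nat_lit 5) (nat_lit 45) (nat_lit 5) (nat_lit 41) (nat_lit 5) (nat_lit 336) (nat_lit 281) (nat_lit 244)))) (XT.nd (nat_lit 188) (nat_lit 336) (nat_lit 0) (XT.nd (nat_lit 94) (nat_lit 0) (nat_lit 0) (XT.lf (nat_lit 0) (nat_lit 607751144) (nat_lit 252) (nat_lit 4897381319)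 (nat_lit 336) (nat_lit 5567943309) (nat_lit 37) (nat_lit 5) (nat_lit 40) (nat_lit 5) (nat_lit 41) (nat_lit 5) (nat_lit 337) (nat_lit 281) (nat_lit 243)) (XT.lf (nat_lit 0) (nat_lit 4822573698) (nat_lit 252) (nat_lit 2689608677) (nat_lit 336) (nat_lit 3788488750) (nat_lit 37) (nat_lit 5) (nat_lit 40) (nat_lit 5) (nat_lit 41) (nat_lit 5) (nat_lit 338) (nat_lit 281) (nat_lit 242))) (XT.nd (nat_lit 94) (nat_lit 336) (nat_lit 0) (XT.lf (nat_lit 0) (nat_lit 9120413104) (nat_lit 252) (nat_lit 423318080) (nat_lit 336) (nat_lit 1992934139) (nat_lit 37) (nat_lit 5) (nat_lit 40) (nat_lit 5) (nat_lit 41) (nat_lit 5) (nat_lit 339) (nat_lit 281) (nat_lit 241)) (XT.lf (nat_lit 0) (nat_lit 1740173704) (nat_lit 336) (nat_lit 9897645519) (nat_lit 420) (nat_lit 142338569) (nat_lit 33) (nat_lit 5) (nat_lit 37) (nat_lit 5) (nat_lit 38) (nat_lit 5) (nat_lit 340) (nat_lit 281) (nat_lit 240))))))))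
noncomputable def xc70 : XT := (XT.nd (nat_lit 2256) (nat_lit 756) (nat_lit 0) (XT.nd (nat_lit 1128) (nat_lit 672) (nat_lit 0) (XT.nd (nat_lit 564) (nat_lit 252) (nat_lit 0) (XT.nd (nat_lit 282) (nat_lit 252) (nat_lit 0) (XT.nd (nat_lit 94) (nat_lit 252) (nat_lit 0) (XT.lf (nat_lit 0) (nat_lit 1723287464) (nat_lit 420) (nat_lit 6023695743) (nat_lit 84) (nat_lit 4284040893) (nat_lit 32) (nat_lit 5) (nat_lit 37) (nat_lit 5) (nat_lit 33) (nat_lit 5) (nat_lit 341) (nat_lit 281) (nat_lit 239)) (XT.nd (nat_lit 94) (nat_lit 252) (nat_lit 0) (XT.lf (nat_lit 0) (nat_lit 3608318068) (nat_lit 420) (nat_lit 1930767995) (nat_lit 84) (nat_lit 6751789809) (nat_lit 32) (nat_lit 5) (nat_lit 37) (nat_lit 5) (nat_lit 33) (nat_lit 5) (nat_lit 342) (nat_lit 281) (nat_lit 238)) (XT.lf (nat_lit 0) (nat_lit 2290167991) (nat_lit 252) (nat_lit 3249928854) (nat_lit 336) (nat_lit 7019197961) (nat_lit 29) (nat_lit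 5) (nat_lit 32) (nat_lit 5) (nat_lit 33) (nat_lit 5) (nat_lit 343) (nat_lit 281) (nat_lit 237)))) (XT.nd (nat_lit 94) (nat_lit 252) (nat_lit 0) (XT.lf (nat_lit 0) (nat_lit 6638325686) (nat_lit 252) (nat_lit 879774314) (nat_lit 336) (nat_lit 5318503154) (nat_lit 29) (nat_lit 5) (nat_lit 32) (nat_lit 5) (nat_lit 33) (nat_lit 5) (nat_lit 344) (nat_lit 281) (nat_lit 236)) (XT.nd (nat_lit 94) (nat_lit 252) (nat_lit 0) (XT.lf (nat_lit 0) (nat_lit 9540034202) (nat_lit 336) (nat_lit 2061018138) (nat_lit 84) (nat_lit 1522135305) (nat_lit 29) (nat_lit 5) (nat_lit 33) (nat_lit 5) (nat_lit 30) (nat_lit 5) (nat_lit 345) (nat_lit 281) (nat_lit 235)) (XT.lf (nat_lit 0) (nat_lit 2196817666) (nat_lit 252) (nat_lit 9426709989) (nat_lit 336) (nat_lit 1795299701) (nat_lit 26) (nat_lit 5) (nat_lit 29) (nat_lit 5) (nat_lit 30) (nat_lit 5) (nat_lit 346) (nat_lit 281) (nat_lit 234))))) (XT.nd (nat_lit 282)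 (nat_lit 0) (nat_lit 0) (XT.nd (nat_lit 94) (nat_lit 168) (nat_lit 0) (XT.lf (nat_lit 0) (nat_lit 36919628) (nat_lit 336) (nat_lit 7136611515) (nat_lit 84) (nat_lit 6550527110) (nat_lit 25) (nat_lit 5) (nat_lit 29) (nat_lit 5) (nat_lit 26) (nat_lit 5) (nat_lit 347) (nat_lit 281) (nat_lit 233)) (XT.nd (nat_lit 94) (nat_lit 168) (nat_lit 0) (XT.lf (nat_lit 0) (nat_lit 1857777975) (nat_lit 336) (nat_lit 2984915495) (nat_lit 84) (nat_lit 9196569932) (nat_lit 25) (nat_lit 5) (nat_lit 29) (nat_lit 5) (nat_lit 26) (nat_lit 5) (nat_lit 348) (nat_lit 281) (nat_lit 232)) (XT.lf (nat_lit 0) (nat_lit 1280558173) (nat_lit 168) (nat_lit 2437288979) (nat_lit 252) (nat_lit 10647047751) (nat_lit 23) (nat_lit 5) (nat_lit 25) (nat_lit 5) (nat_lit 26) (nat_lit 5) (nat_lit 349) (nat_lit 281) (nat_lit 231)))) (XT.nd (nat_lit 94) (nat_lit 0) (nat_lit 0) (XT.lf (nat_lit 0) (nat_lit 5637930296) (nat_lit 252)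 (nat_lit 9000091842) (nat_lit 84) (nat_lit 62642990) (nat_lit 23) (nat_lit 5) (nat_lit 26) (nat_lit 5) (nat_lit 24) (nat_lit 5) (nat_lit 350) (nat_lit 281) (nat_lit 230)) (XT.nd (nat_lit 94) (nat_lit 0) (nat_lit 0) (XT.lf (nat_lit 0) (nat_lit 7613805503) (nat_lit 252) (nat_lit 4854158049) (nat_lit 84) (nat_lit 2579109860) (nat_lit 23) (nat_lit 5) (nat_lit 26) (nat_lit 5) (nat_lit 24) (nat_lit 5) (nat_lit 351) (nat_lit 281) (nat_lit 229)) (XT.lf (nat_lit 0) (nat_lit 9623136288) (nat_lit 252) (nat_lit 618492698) (nat_lit 84) (nat_lit 5163563180) (nat_lit 23) (nat_lit 5) (nat_lit 26) (nat_lit 5) (nat_lit 24) (nat_lit 5) (nat_lit 352) (nat_lit 281) (nat_lit 228)))))) (XT.nd (nat_lit 564) (nat_lit 168) (nat_lit 0) (XT.nd (nat_lit 282) (nat_lit 252) (nat_lit 0) (XT.nd (nat_lit 94) (nat_lit 0) (nat_lit 0) (XT.lf (nat_lit 0) (nat_lit 3787155029) (nat_lit 252) (nat_lit 7918209576) (nat_lit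 336) (nat_lit 4068825951) (nat_lit 20) (nat_lit 5) (nat_lit 23) (nat_lit 5) (nat_lit 24) (nat_lit 5) (nat_lit 353) (nat_lit 281) (nat_lit 227)) (XT.nd (nat_lit 94) (nat_lit 0) (nat_lit 0) (XT.lf (nat_lit 0) (nat_lit 8305244502) (nat_lit 252) (nat_lit 5526833701) (nat_lit 336) (nat_lit 2323275268) (nat_lit 20) (nat_lit 5) (nat_lit 23) (nat_lit 5) (nat_lit 24) (nat_lit 5) (nat_lit 354) (nat_lit 281) (nat_lit 226)) (XT.lf (nat_lit 0) (nat_lit 12927269574) (nat_lit 252) (nat_lit 3071728145) (nat_lit 336) (nat_lit 550232588) (nat_lit 20) (nat_lit 5) (nat_lit 23) (nat_lit 5) (nat_lit 24) (nat_lit 5) (nat_lit 355) (nat_lit 281) (nat_lit 225)))) (XT.nd (nat_lit 94) (nat_lit 0) (nat_lit 0) (XT.lf (nat_lit 0) (nat_lit 703096537) (nat_lit 168) (nat_lit 530608917) (nat_lit 252) (nat_lit 15721881523) (nat_lit 17) (nat_lit 5) (nat_lit 19) (nat_lit 5) (nat_lit 20) (nat_lit 5) (nat_lit 356) (nat_lit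 281) (nat_lit 224)) (XT.nd (nat_lit 94) (nat_lit 0) (nat_lit 0) (XT.lf (nat_lit 0) (nat_lit 3095442353) (nat_lit 252) (nat_lit 12197147470) (nat_lit 84) (nat_lit 2080816395) (nat_lit 17) (nat_lit 5) (nat_lit 20) (nat_lit 5) (nat_lit 18) (nat_lit 5) (nat_lit 357) (nat_lit 281) (nat_lit 223)) (XT.lf (nat_lit 0) (nat_lit 4996079364) (nat_lit 252) (nat_lit 8056484499) (nat_lit 84) (nat_lit 4752286151) (nat_lit 17) (nat_lit 5) (nat_lit 20) (nat_lit 5) (nat_lit 18) (nat_lit 5) (nat_lit 358) (nat_lit 281) (nat_lit 222))))) (XT.nd (nat_lit 282) (nat_lit 0) (nat_lit 0) (XT.nd (nat_lit 94) (nat_lit 168) (nat_lit 0) (XT.lf (nat_lit 0) (nat_lit 6932124374) (nat_lit 252) (nat_lit 3821378289) (nat_lit 84) (nat_lit 7496981027) (nat_lit 17) (nat_lit 5) (nat_lit 20) (nat_lit 5) (nat_lit 18) (nat_lit 5) (nat_lit 359) (nat_lit 281) (nat_lit 221)) (XT.nd (nat_lit 94) (nat_lit 0) (nat_lit 0) (XT.lf (nat_lit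 0) (nat_lit 522648933) (nat_lit 168) (nat_lit 8387917789) (nat_lit 252) (nat_lit 9799995175) (nat_lit 15) (nat_lit 5) (nat_lit 17) (nat_lit 5) (nat_lit 18) (nat_lit 5) (nat_lit 360) (nat_lit 281) (nat_lit 220)) (XT.lf (nat_lit 0) (nat_lit 5049787779) (nat_lit 168) (nat_lit 5917998206) (nat_lit 252) (nat_lit 8216656891) (nat_lit 15) (nat_lit 5) (nat_lit 17) (nat_lit 5) (nat_lit 18) (nat_lit 5) (nat_lit 361) (nat_lit 281) (nat_lit 219)))) (XT.nd (nat_lit 94) (nat_lit 0) (nat_lit 0) (XT.lf (nat_lit 0) (nat_lit 9685682640) (nat_lit 168) (nat_lit 3381329043) (nat_lit 252) (nat_lit 6606755980) (nat_lit 15) (nat_lit 5) (nat_lit 17) (nat_lit 5) (nat_lit 18) (nat_lit 5) (nat_lit 362) (nat_lit 281) (nat_lit 218)) (XT.nd (nat_lit 94) (nat_lit 0) (nat_lit 0) (XT.lf (nat_lit 0) (nat_lit 14434654655) (nat_lit 168) (nat_lit 775545859) (nat_lit 252) (nat_lit 4968791845) (nat_lit 15) (nat_lit 5) (nat_lit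 17) (nat_lit 5) (nat_lit 18) (nat_lit 5) (nat_lit 363) (nat_lit 281) (nat_lit 217)) (XT.lf (nat_lit 0) (nat_lit 17418216050) (nat_lit 252) (nat_lit 1418323419) (nat_lit 84) (nat_lit 1863463575) (nat_lit 15) (nat_lit 5) (nat_lit 18) (nat_lit 5) (nat_lit 16) (nat_lit 4) (nat_lit 364) (nat_lit 281) (nat_lit 216))))))) (XT.nd (nat_lit 1128) (nat_lit 252) (nat_lit 0) (XT.nd (nat_lit 564) (nat_lit 84) (nat_lit 0) (XT.nd (nat_lit 282) (nat_lit 168) (nat_lit 0) (XT.nd (nat_lit 94) (nat_lit 84) (nat_lit 0) (XT.lf (nat_lit 0) (nat_lit 3066223193) (nat_lit 168) (nat_lit 16646855013) (nat_lit 252) (nat_lit 1523588333) (nat_lit 13) (nat_lit 5) (nat_lit 15) (nat_lit 5) (nat_lit 16) (nat_lit 4) (nat_lit 365) (nat_lit 281) (nat_lit 215)) (XT.nd (nat_lit 94) (nat_lit 0) (nat_lit 0) (XT.lf (nat_lit 0) (nat_lit 278335960) (nat_lit 252) (nat_lit 14102267434) (nat_lit 84) (nat_lit 7409495424) (nat_lit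 12) (nat_lit 5) (nat_lit 15) (nat_lit 5) (nat_lit 13) (nat_lit 5) (nat_lit 366) (nat_lit 281) (nat_lit 214)) (XT.lf (nat_lit 0) (nat_lit 2085160709) (nat_lit 252) (nat_lit 9952269584) (nat_lit 84) (nat_lit 10323438307) (nat_lit 12) (nat_lit 5) (nat_lit 15) (nat_lit 5) (nat_lit 13) (nat_lit 5) (nat_lit 367) (nat_lit 281) (nat_lit 213)))) (XT.nd (nat_lit 94) (nat_lit 168) (nat_lit 0) (XT.lf (nat_lit 0) (nat_lit 3929266972) (nat_lit 252) (nat_lit 5701467380) (nat_lit 84) (nat_lit 13319242089) (nat_lit 12) (nat_lit 5) (nat_lit 15) (nat_lit 5) (nat_lit 13) (nat_lit 5) (nat_lit 368) (nat_lit 281) (nat_lit 212)) (XT.nd (nat_lit 94) (nat_lit 168) (nat_lit 0) (XT.lf (nat_lit 0) (nat_lit 5812373649) (nat_lit 252) (nat_lit 1345898629) (nat_lit 84) (nat_lit 16399699174) (nat_lit 12) (nat_lit 5) (nat_lit 15) (nat_lit 5) (nat_lit 13) (nat_lit 5) (nat_lit 369) (nat_lit 281) (nat_lit 211)) (XT.lf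 (nat_lit 0) (nat_lit 3182619200) (nat_lit 168) (nat_lit 4585188769) (nat_lit 252) (nat_lit 16416633647) (nat_lit 10) (nat_lit 5) (nat_lit 12) (nat_lit 5) (nat_lit 13) (nat_lit 5) (nat_lit 370) (nat_lit 281) (nat_lit 210))))) (XT.nd (nat_lit 282) (nat_lit 84) (nat_lit 0) (XT.nd (nat_lit 94) (nat_lit 0) (nat_lit 0) (XT.lf (nat_lit 0) (nat_lit 7854122402) (nat_lit 168) (nat_lit 1926438710) (nat_lit 252) (nat_lit 15049931533) (nat_lit 10) (nat_lit 5) (nat_lit 12) (nat_lit 5) (nat_lit 13) (nat_lit 5) (nat_lit 371) (nat_lit 281) (nat_lit 209)) (XT.nd (nat_lit 94) (nat_lit 0) (nat_lit 0) (XT.lf (nat_lit 0) (nat_lit 11846882823) (nat_lit 252) (nat_lit 12859857928) (nat_lit 84) (nat_lit 790160393) (nat_lit 10) (nat_lit 5) (nat_lit 13) (nat_lit 5) (nat_lit 11) (nat_lit 4) (nat_lit 372) (nat_lit 281) (nat_lit 208)) (XT.lf (nat_lit 0) (nat_lit 13980562835) (nat_lit 252) (nat_lit 8660312153) (nat_lit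 84) (nat_lit 3543045513) (nat_lit 10) (nat_lit 5) (nat_lit 13) (nat_lit 5) (nat_lit 11) (nat_lit 4) (nat_lit 373) (nat_lit 281) (nat_lit 207)))) (XT.nd (nat_lit 94) (nat_lit 84) (nat_lit 0) (XT.lf (nat_lit 0) (nat_lit 16164479450) (nat_lit 252) (nat_lit 4354707991) (nat_lit 84) (nat_lit 6373596073) (nat_lit 10) (nat_lit 5) (nat_lit 13) (nat_lit 5) (nat_lit 11) (nat_lit 4) (nat_lit 374) (nat_lit 281) (nat_lit 206)) (XT.nd (nat_lit 94) (nat_lit 0) (nat_lit 0) (XT.lf (nat_lit 0) (nat_lit 62221454) (nat_lit 84) (nat_lit 18339064097) (nat_lit 168) (nat_lit 9222846232) (nat_lit 9) (nat_lit 5) (nat_lit 10) (nat_lit 5) (nat_lit 11) (nat_lit 4) (nat_lit 375) (nat_lit 281) (nat_lit 205)) (XT.lf (nat_lit 0) (nat_lit 4685228091) (nat_lit 84) (nat_lit 16052463721) (nat_lit 168) (nat_lit 7639571795) (nat_lit 9) (nat_lit 5) (nat_lit 10) (nat_lit 5) (nat_lit 11) (nat_lit 4) (nat_lit 376) (nat_lit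 281) (nat_lit 204)))))) (XT.nd (nat_lit 564) (nat_lit 0) (nat_lit 0) (XT.nd (nat_lit 282) (nat_lit 252) (nat_lit 0) (XT.nd (nat_lit 94) (nat_lit 0) (nat_lit 0) (XT.lf (nat_lit 0) (nat_lit 9429079317) (nat_lit 84) (nat_lit 13702709181) (nat_lit 168) (nat_lit 6022459193) (nat_lit 9) (nat_lit 5) (nat_lit 10) (nat_lit 5) (nat_lit 11) (nat_lit 4) (nat_lit 377) (nat_lit 281) (nat_lit 203)) (XT.nd (nat_lit 94) (nat_lit 0) (nat_lit 0) (XT.lf (nat_lit 0) (nat_lit 14298196899) (nat_lit 84) (nat_lit 11287610261) (nat_lit 168) (nat_lit 4370001110) (nat_lit 9) (nat_lit 5) (nat_lit 10) (nat_lit 5) (nat_lit 11) (nat_lit 4) (nat_lit 378) (nat_lit 281) (nat_lit 202)) (XT.lf (nat_lit 0) (nat_lit 19297119364) (nat_lit 84) (nat_lit 8804915836) (nat_lit 168) (nat_lit 2680657282) (nat_lit 9) (nat_lit 5) (nat_lit 10) (nat_lit 5) (nat_lit 11) (nat_lit 4) (nat_lit 379) (nat_lit 281) (nat_lit 201)))) (XT.nd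 (nat_lit 94) (nat_lit 252) (nat_lit 0) (XT.lf (nat_lit 0) (nat_lit 24430506232) (nat_lit 84) (nat_lit 6252311773) (nat_lit 168) (nat_lit 952853062) (nat_lit 9) (nat_lit 5) (nat_lit 10) (nat_lit 5) (nat_lit 11) (nat_lit 4) (nat_lit 380) (nat_lit 281) (nat_lit 200)) (XT.nd (nat_lit 94) (nat_lit 168) (nat_lit 0) (XT.lf (nat_lit 0) (nat_lit 798601165) (nat_lit 168) (nat_lit 2820481855) (nat_lit 84) (nat_lit 28896205433) (nat_lit 8) (nat_lit 5) (nat_lit 10) (nat_lit 5) (nat_lit 9) (nat_lit 5) (nat_lit 381) (nat_lit 281) (nat_lit 199)) (XT.lf (nat_lit 0) (nat_lit 1705144038) (nat_lit 168) (nat_lit 883506920) (nat_lit 252) (nat_lit 30833134225) (nat_lit 6) (nat_lit 5) (nat_lit 8) (nat_lit 5) (nat_lit 9) (nat_lit 5) (nat_lit 382) (nat_lit 281) (nat_lit 198))))) (XT.nd (nat_lit 282) (nat_lit 0) (nat_lit 0) (XT.nd (nat_lit 94) (nat_lit 0) (nat_lit 0) (XT.lf (nat_lit 0) (nat_lit 4470451730) (nat_lit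 252) (nat_lit 27963885414) (nat_lit 84) (nat_lit 1920961125) (nat_lit 6) (nat_lit 5) (nat_lit 9) (nat_lit 5) (nat_lit 7) (nat_lit 4) (nat_lit 383) (nat_lit 281) (nat_lit 197)) (XT.nd (nat_lit 94) (nat_lit 0) (nat_lit 0) (XT.lf (nat_lit 0) (nat_lit 6407310534) (nat_lit 252) (nat_lit 24122993108) (nat_lit 84) (nat_lit 4787586059) (nat_lit 6) (nat_lit 5) (nat_lit 9) (nat_lit 5) (nat_lit 7) (nat_lit 4) (nat_lit 384) (nat_lit 281) (nat_lit 196)) (XT.lf (nat_lit 0) (nat_lit 8392268225) (nat_lit 252) (nat_lit 20181619617) (nat_lit 84) (nat_lit 7736840572) (nat_lit 6) (nat_lit 5) (nat_lit 9) (nat_lit 5) (nat_lit 7) (nat_lit 4) (nat_lit 385) (nat_lit 281) (nat_lit 195)))) (XT.nd (nat_lit 188) (nat_lit 0) (nat_lit 0) (XT.nd (nat_lit 94) (nat_lit 0) (nat_lit 0) (XT.lf (nat_lit 0) (nat_lit 10427174994) (nat_lit 252) (nat_lit 16136091166) (nat_lit 84) (nat_lit 10771473677) (nat_lit 6) (nat_lit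 5) (nat_lit 9) (nat_lit 5) (nat_lit 7) (nat_lit 4) (nat_lit 386) (nat_lit 281) (nat_lit 194)) (XT.lf (nat_lit 0) (nat_lit 12513927587) (nat_lit 252) (nat_lit 11982636900) (nat_lit 84) (nat_lit 13894313971) (nat_lit 6) (nat_lit 5) (nat_lit 9) (nat_lit 5) (nat_lit 7) (nat_lit 4) (nat_lit 387) (nat_lit 281) (nat_lit 193))) (XT.nd (nat_lit 94) (nat_lit 0) (nat_lit 0) (XT.lf (nat_lit 0) (nat_lit 14654471075) (nat_lit 252) (nat_lit 7717385365) (nat_lit 84) (nat_lit 17108272267) (nat_lit 6) (nat_lit 5) (nat_lit 9) (nat_lit 5) (nat_lit 7) (nat_lit 4) (nat_lit 388) (nat_lit 281) (nat_lit 192)) (XT.lf (nat_lit 0) (nat_lit 16850800669) (nat_lit 252) (nat_lit 3336360899) (nat_lit 84) (nat_lit 20416344311) (nat_lit 6) (nat_lit 5) (nat_lit 9) (nat_lit 5) (nat_lit 7) (nat_lit 4) (nat_lit 389) (nat_lit 281) (nat_lit 191))))))))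
noncomputable def xc71 : XT := (XT.nd (nat_lit 45308) (nat_lit 0) (nat_lit 5628) (XT.nd (nat_lit 1128) (nat_lit 84) (nat_lit 0) (XT.nd (nat_lit 564) (nat_lit 84) (nat_lit 0) (XT.nd (nat_lit 282) (nat_lit 0) (nat_lit 0) (XT.nd (nat_lit 94) (nat_lit 0) (nat_lit 0) (XT.lf (nat_lit 0) (nat_lit 1188464991) (nat_lit 84) (nat_lit 17928288306) (nat_lit 168) (nat_lit 22644938302) (nat_lit 5) (nat_lit 5) (nat_lit 6) (nat_lit 5) (nat_lit 7) (nat_lit 4) (nat_lit 390) (nat_lit 281) (nat_lit 190)) (XT.nd (nat_lit 94) (nat_lit 0) (nat_lit 0) (XT.lf (nat_lit 0) (nat_lit 5908495862) (nat_lit 84) (nat_lit 15569178067) (nat_lit 168) (nat_lit 21477371271) (nat_lit 5) (nat_lit 5) (nat_lit 6) (nat_lit 5) (nat_lit 7) (nat_lit 4) (nat_lit 391) (nat_lit 281) (nat_lit 189)) (XT.lf (nat_lit 0) (nat_lit 10759528852) (nat_lit 84) (nat_lit 13142456678) (nat_lit 168) (nat_lit 20283740586) (nat_lit 5) (nat_lit 5)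 (nat_lit 6) (nat_lit 5) (nat_lit 7) (nat_lit 4) (nat_lit 392) (nat_lit 281) (nat_lit 188)))) (XT.nd (nat_lit 94) (nat_lit 0) (nat_lit 0) (XT.lf (nat_lit 0) (nat_lit 15746085633) (nat_lit 84) (nat_lit 10645862181) (nat_lit 168) (nat_lit 19062933661) (nat_lit 5) (nat_lit 5) (nat_lit 6) (nat_lit 5) (nat_lit 7) (nat_lit 4) (nat_lit 393) (nat_lit 281) (nat_lit 187)) (XT.nd (nat_lit 94) (nat_lit 0) (nat_lit 0) (XT.lf (nat_lit 0) (nat_lit 20872814198) (nat_lit 84) (nat_lit 8077067487) (nat_lit 168) (nat_lit 17813812574) (nat_lit 5) (nat_lit 5) (nat_lit 6) (nat_lit 5) (nat_lit 7) (nat_lit 4) (nat_lit 394) (nat_lit 281) (nat_lit 186)) (XT.lf (nat_lit 0) (nat_lit 26144493194) (nat_lit 84) (nat_lit 5433678212) (nat_lit 168) (nat_lit 16535213015) (nat_lit 5) (nat_lit 5) (nat_lit 6) (nat_lit 5) (nat_lit 7) (nat_lit 4) (nat_lit 395) (nat_lit 281) (nat_lit 185))))) (XT.nd (nat_lit 282) (nat_lit 84)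 (nat_lit 0) (XT.nd (nat_lit 94) (nat_lit 0) (nat_lit 0) (XT.lf (nat_lit 0) (nat_lit 31566036380) (nat_lit 84) (nat_lit 2713230439) (nat_lit 168) (nat_lit 15225943194) (nat_lit 5) (nat_lit 5) (nat_lit 6) (nat_lit 5) (nat_lit 7) (nat_lit 4) (nat_lit 396) (nat_lit 281) (nat_lit 184)) (XT.nd (nat_lit 94) (nat_lit 0) (nat_lit 0) (XT.lf (nat_lit 0) (nat_lit 37056546809) (nat_lit 168) (nat_lit 13798832343) (nat_lit 0) (nat_lit 85062512) (nat_lit 5) (nat_lit 5) (nat_lit 7) (nat_lit 4) (nat_lit 5) (nat_lit 4) (nat_lit 397) (nat_lit 281) (nat_lit 183)) (XT.lf (nat_lit 0) (nat_lit 39939469165) (nat_lit 168) (nat_lit 9570877198) (nat_lit 0) (nat_lit 2909237860) (nat_lit 5) (nat_lit 5) (nat_lit 7) (nat_lit 4) (nat_lit 5) (nat_lit 4) (nat_lit 398) (nat_lit 281) (nat_lit 182)))) (XT.nd (nat_lit 94) (nat_lit 84) (nat_lit 0) (XT.lf (nat_lit 0) (nat_lit 42903805490) (nat_lit 168) (nat_lit 5224451719)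 (nat_lit 0) (nat_lit 5816593576) (nat_lit 5) (nat_lit 5) (nat_lit 7) (nat_lit 4) (nat_lit 5) (nat_lit 4) (nat_lit 399) (nat_lit 281) (nat_lit 181)) (XT.nd (nat_lit 94) (nat_lit 84) (nat_lit 0) (XT.lf (nat_lit 0) (nat_lit 45952318857) (nat_lit 168) (nat_lit 755504582) (nat_lit 0) (nat_lit 8809839620) (nat_lit 5) (nat_lit 5) (nat_lit 7) (nat_lit 4) (nat_lit 5) (nat_lit 4) (nat_lit 400) (nat_lit 281) (nat_lit 180)) (XT.lf (nat_lit 0) (nat_lit 3919090682) (nat_lit 84) (nat_lit 45207637981) (nat_lit 84) (nat_lit 8011553194) (nat_lit 4) (nat_lit 4) (nat_lit 5) (nat_lit 5) (nat_lit 5) (nat_lit 4) (nat_lit 401) (nat_lit 281) (nat_lit 179)))))) (XT.nd (nat_lit 564) (nat_lit 0) (nat_lit 0) (XT.nd (nat_lit 282) (nat_lit 84) (nat_lit 0) (XT.nd (nat_lit 94) (nat_lit 0) (nat_lit 0) (XT.lf (nat_lit 0) (nat_lit 8742884497) (nat_lit 84) (nat_lit 43657169961) (nat_lit 84) (nat_lit 6409091429) (nat_lit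 4) (nat_lit 4) (nat_lit 5) (nat_lit 5) (nat_lit 5) (nat_lit 4) (nat_lit 402) (nat_lit 281) (nat_lit 178)) (XT.nd (nat_lit 94) (nat_lit 0) (nat_lit 0) (XT.lf (nat_lit 0) (nat_lit 13704838418) (nat_lit 84) (nat_lit 42062860098) (nat_lit 84) (nat_lit 4764351164) (nat_lit 4) (nat_lit 4) (nat_lit 5) (nat_lit 5) (nat_lit 5) (nat_lit 4) (nat_lit 403) (nat_lit 281) (nat_lit 177)) (XT.lf (nat_lit 0) (nat_lit 18809577506) (nat_lit 84) (nat_lit 40423222328) (nat_lit 84) (nat_lit 3075799329) (nat_lit 4) (nat_lit 4) (nat_lit 5) (nat_lit 5) (nat_lit 5) (nat_lit 4) (nat_lit 404) (nat_lit 281) (nat_lit 176)))) (XT.nd (nat_lit 94) (nat_lit 84) (nat_lit 0) (XT.lf (nat_lit 0) (nat_lit 24061859914) (nat_lit 84) (nat_lit 38736728338) (nat_lit 84) (nat_lit 1341862016) (nat_lit 4) (nat_lit 4) (nat_lit 5) (nat_lit 5) (nat_lit 5) (nat_lit 4) (nat_lit 405) (nat_lit 281) (nat_lit 175)) (XT.nd (nat_lit 94) (nat_lit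 0) (nat_lit 0) (XT.lf (nat_lit 0) (nat_lit 430230562) (nat_lit 168) (nat_lit 36567084851) (nat_lit 84) (nat_lit 29031860030) (nat_lit 3) (nat_lit 5) (nat_lit 5) (nat_lit 5) (nat_lit 4) (nat_lit 4) (nat_lit 406) (nat_lit 281) (nat_lit 174)) (XT.lf (nat_lit 0) (nat_lit 2222968898) (nat_lit 168) (nat_lit 32970666465) (nat_lit 84) (nat_lit 32782607350) (nat_lit 3) (nat_lit 5) (nat_lit 5) (nat_lit 5) (nat_lit 4) (nat_lit 4) (nat_lit 407) (nat_lit 281) (nat_lit 173))))) (XT.nd (nat_lit 282) (nat_lit 0) (nat_lit 0) (XT.nd (nat_lit 94) (nat_lit 0) (nat_lit 0) (XT.lf (nat_lit 0) (nat_lit 4065059539) (nat_lit 168) (nat_lit 29272671521) (nat_lit 84) (nat_lit 36646148542) (nat_lit 3) (nat_lit 5) (nat_lit 5) (nat_lit 5) (nat_lit 4) (nat_lit 4) (nat_lit 408) (nat_lit 281) (nat_lit 172)) (XT.nd (nat_lit 94) (nat_lit 0) (nat_lit 0) (XT.lf (nat_lit 0) (nat_lit 5958219507) (nat_lit 168) (nat_lit 25469653100)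 (nat_lit 84) (nat_lit 40626084831) (nat_lit 3) (nat_lit 5) (nat_lit 5) (nat_lit 5) (nat_lit 4) (nat_lit 4) (nat_lit 409) (nat_lit 281) (nat_lit 171)) (XT.lf (nat_lit 0) (nat_lit 7904213425) (nat_lit 168) (nat_lit 21558066391) (nat_lit 84) (nat_lit 44726125935) (nat_lit 3) (nat_lit 5) (nat_lit 5) (nat_lit 5) (nat_lit 4) (nat_lit 4) (nat_lit 410) (nat_lit 281) (nat_lit 170)))) (XT.nd (nat_lit 94) (nat_lit 0) (nat_lit 0) (XT.lf (nat_lit 0) (nat_lit 9904855164) (nat_lit 168) (nat_lit 17534265386) (nat_lit 84) (nat_lit 48950093521) (nat_lit 3) (nat_lit 5) (nat_lit 5) (nat_lit 5) (nat_lit 4) (nat_lit 4) (nat_lit 411) (nat_lit 281) (nat_lit 169)) (XT.nd (nat_lit 94) (nat_lit 0) (nat_lit 0) (XT.lf (nat_lit 0) (nat_lit 11962009531) (nat_lit 168) (nat_lit 13394499479) (nat_lit 84) (nat_lit 53301924770) (nat_lit 3) (nat_lit 5) (nat_lit 5) (nat_lit 5) (nat_lit 4) (nat_lit 4) (nat_lit 412) (nat_lit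 281) (nat_lit 168)) (XT.lf (nat_lit 0) (nat_lit 14077594010) (nat_lit 168) (nat_lit 9134909976) (nat_lit 84) (nat_lit 57785676044) (nat_lit 3) (nat_lit 5) (nat_lit 5) (nat_lit 5) (nat_lit 4) (nat_lit 4) (nat_lit 413) (nat_lit 281) (nat_lit 167))))))) (XT.nd (nat_lit 1128) (nat_lit 4704) (nat_lit 0) (XT.nd (nat_lit 564) (nat_lit 2184) (nat_lit 0) (XT.nd (nat_lit 282) (nat_lit 588) (nat_lit 0) (XT.nd (nat_lit 94) (nat_lit 420) (nat_lit 0) (XT.lf (nat_lit 0) (nat_lit 257627260) (nat_lit 420) (nat_lit 2772201163) (nat_lit 0) (nat_lit 257627260) (nat_lit 164) (nat_lit 5) (nat_lit 169) (nat_lit 4) (nat_lit 164) (nat_lit 4) (nat_lit 297) (nat_lit 282) (nat_lit 282)) (XT.nd (nat_lit 94) (nat_lit 420) (nat_lit 0) (XT.lf (nat_lit 0) (nat_lit 2963721561) (nat_lit 420) (nat_lit 2583496207) (nat_lit 0) (nat_lit 1056181806) (nat_lit 164) (nat_lit 5) (nat_lit 169) (nat_lit 4) (nat_lit 164) (nat_lit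 4) (nat_lit 298) (nat_lit 282) (nat_lit 281)) (XT.lf (nat_lit 0) (nat_lit 415081397) (nat_lit 420) (nat_lit 4989391251) (nat_lit 420) (nat_lit 1231667447) (nat_lit 159) (nat_lit 4) (nat_lit 164) (nat_lit 5) (nat_lit 164) (nat_lit 4) (nat_lit 299) (nat_lit 282) (nat_lit 280)))) (XT.nd (nat_lit 94) (nat_lit 504) (nat_lit 0) (XT.lf (nat_lit 0) (nat_lit 1165702293) (nat_lit 504) (nat_lit 3184735355) (nat_lit 84) (nat_lit 2321666816) (nat_lit 158) (nat_lit 5) (nat_lit 164) (nat_lit 5) (nat_lit 159) (nat_lit 4) (nat_lit 300) (nat_lit 282) (nat_lit 279)) (XT.nd (nat_lit 94) (nat_lit 504) (nat_lit 0) (XT.lf (nat_lit 0) (nat_lit 3527104927) (nat_lit 504) (nat_lit 129321087) (nat_lit 84) (nat_lit 3055701940) (nat_lit 158) (nat_lit 5) (nat_lit 164) (nat_lit 5) (nat_lit 159) (nat_lit 4) (nat_lit 301) (nat_lit 282) (nat_lit 278)) (XT.lf (nat_lit 0) (nat_lit 3021119182) (nat_lit 504) (nat_lit 2888407575)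 (nat_lit 588) (nat_lit 846170814) (nat_lit 152) (nat_lit 5) (nat_lit 158) (nat_lit 5) (nat_lit 159) (nat_lit 4) (nat_lit 302) (nat_lit 282) (nat_lit 277))))) (XT.nd (nat_lit 282) (nat_lit 1512) (nat_lit 0) (XT.nd (nat_lit 94) (nat_lit 588) (nat_lit 0) (XT.lf (nat_lit 0) (nat_lit 1453261187) (nat_lit 588) (nat_lit 606427509) (nat_lit 84) (nat_lit 4743586850) (nat_lit 151) (nat_lit 5) (nat_lit 158) (nat_lit 5) (nat_lit 152) (nat_lit 5) (nat_lit 303) (nat_lit 282) (nat_lit 276)) (XT.nd (nat_lit 94) (nat_lit 0) (nat_lit 0) (XT.lf (nat_lit 0) (nat_lit 2602064500) (nat_lit 588) (nat_lit 1150851797) (nat_lit 672) (nat_lit 3101429310) (nat_lit 144) (nat_lit 5) (nat_lit 151) (nat_lit 5) (nat_lit 152) (nat_lit 5) (nat_lit 304) (nat_lit 282) (nat_lit 275)) (XT.lf (nat_lit 0) (nat_lit 5863084222) (nat_lit 588) (nat_lit 189602324) (nat_lit 672) (nat_lit 857127326) (nat_lit 144) (nat_lit 5) (nat_lit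 151) (nat_lit 5) (nat_lit 152) (nat_lit 5) (nat_lit 305) (nat_lit 282) (nat_lit 274)))) (XT.nd (nat_lit 94) (nat_lit 756) (nat_lit 0) (XT.lf (nat_lit 0) (nat_lit 1381470728) (nat_lit 756) (nat_lit 4748797487) (nat_lit 84) (nat_lit 838281775) (nat_lit 135) (nat_lit 5) (nat_lit 144) (nat_lit 5) (nat_lit 136) (nat_lit 5) (nat_lit 306) (nat_lit 282) (nat_lit 273)) (XT.nd (nat_lit 94) (nat_lit 756) (nat_lit 0) (XT.lf (nat_lit 0) (nat_lit 3609978326) (nat_lit 756) (nat_lit 1492456740) (nat_lit 84) (nat_lit 1928867627) (nat_lit 135) (nat_lit 5) (nat_lit 144) (nat_lit 5) (nat_lit 136) (nat_lit 5) (nat_lit 307) (nat_lit 282) (nat_lit 272)) (XT.lf (nat_lit 0) (nat_lit 1841251737) (nat_lit 756) (nat_lit 4012169121) (nat_lit 840) (nat_lit 1244797150) (nat_lit 126) (nat_lit 5) (nat_lit 135) (nat_lit 5) (nat_lit 136) (nat_lit 5) (nat_lit 308) (nat_lit 282) (nat_lit 271)))))) (XT.nd (nat_lit 564)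 (nat_lit 1764) (nat_lit 0) (XT.nd (nat_lit 282) (nat_lit 2016) (nat_lit 0) (XT.nd (nat_lit 94) (nat_lit 840) (nat_lit 0) (XT.lf (nat_lit 0) (nat_lit 922739106) (nat_lit 840) (nat_lit 1928902152) (nat_lit 84) (nat_lit 4317512204) (nat_lit 125) (nat_lit 5) (nat_lit 135) (nat_lit 5) (nat_lit 126) (nat_lit 5) (nat_lit 309) (nat_lit 282) (nat_lit 270)) (XT.nd (nat_lit 94) (nat_lit 0) (nat_lit 0) (XT.lf (nat_lit 0) (nat_lit 1458807743) (nat_lit 840) (nat_lit 1617373283) (nat_lit 924) (nat_lit 4167922092) (nat_lit 115) (nat_lit 5) (nat_lit 125) (nat_lit 5) (nat_lit 126) (nat_lit 5) (nat_lit 310) (nat_lit 282) (nat_lit 269)) (XT.lf (nat_lit 0) (nat_lit 4932853082) (nat_lit 840) (nat_lit 315269011) (nat_lit 924) (nat_lit 2075226847) (nat_lit 115) (nat_lit 5) (nat_lit 125) (nat_lit 5) (nat_lit 126) (nat_lit 5) (nat_lit 311) (nat_lit 282) (nat_lit 268)))) (XT.nd (nat_lit 94) (nat_lit 1008) (nat_lit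 0) (XT.lf (nat_lit 0) (nat_lit 34222485) (nat_lit 1008) (nat_lit 6346943913) (nat_lit 84) (nat_lit 1025748445) (nat_lit 103) (nat_lit 5) (nat_lit 115) (nat_lit 5) (nat_lit 104) (nat_lit 5) (nat_lit 312) (nat_lit 282) (nat_lit 267)) (XT.nd (nat_lit 94) (nat_lit 1008) (nat_lit 0) (XT.lf (nat_lit 0) (nat_lit 2128435082) (nat_lit 1008) (nat_lit 2910490073) (nat_lit 84) (nat_lit 2455086380) (nat_lit 103) (nat_lit 5) (nat_lit 115) (nat_lit 5) (nat_lit 104) (nat_lit 5) (nat_lit 313) (nat_lit 282) (nat_lit 266)) (XT.lf (nat_lit 0) (nat_lit 584555130) (nat_lit 1008) (nat_lit 3644841239) (nat_lit 1092) (nat_lit 3356637127) (nat_lit 91) (nat_lit 5) (nat_lit 103) (nat_lit 5) (nat_lit 104) (nat_lit 5) (nat_lit 314) (nat_lit 282) (nat_lit 265))))) (XT.nd (nat_lit 282) (nat_lit 1092) (nat_lit 0) (XT.nd (nat_lit 94) (nat_lit 672) (nat_lit 0) (XT.lf (nat_lit 0) (nat_lit 4190535980) (nat_lit 1008) (nat_lit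 2172697334) (nat_lit 1092) (nat_lit 1319083956) (nat_lit 91) (nat_lit 5) (nat_lit 103) (nat_lit 5) (nat_lit 104) (nat_lit 5) (nat_lit 315) (nat_lit 282) (nat_lit 264)) (XT.nd (nat_lit 94) (nat_lit 0) (nat_lit 0) (XT.lf (nat_lit 0) (nat_lit 61206474) (nat_lit 588) (nat_lit 643525183) (nat_lit 672) (nat_lit 7078894585) (nat_lit 83) (nat_lit 5) (nat_lit 90) (nat_lit 5) (nat_lit 91) (nat_lit 5) (nat_lit 316) (nat_lit 282) (nat_lit 263)) (XT.lf (nat_lit 0) (nat_lit 2749498658) (nat_lit 672) (nat_lit 4172366156) (nat_lit 84) (nat_lit 966612170) (nat_lit 83) (nat_lit 5) (nat_lit 91) (nat_lit 5) (nat_lit 84) (nat_lit 5) (nat_lit 317) (nat_lit 282) (nat_lit 262)))) (XT.nd (nat_lit 188) (nat_lit 588) (nat_lit 0) (XT.nd (nat_lit 94) (nat_lit 504) (nat_lit 0) (XT.lf (nat_lit 0) (nat_lit 4805590946) (nat_lit 672) (nat_lit 577679811) (nat_lit 84) (nat_lit 2615283488) (nat_lit 83) (nat_lit 5) (nat_lit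 91) (nat_lit 5) (nat_lit 84) (nat_lit 5) (nat_lit 318) (nat_lit 282) (nat_lit 261)) (XT.lf (nat_lit 0) (nat_lit 3134527485) (nat_lit 504) (nat_lit 3765108581) (nat_lit 588) (nat_lit 1213558518) (nat_lit 77) (nat_lit 5) (nat_lit 83) (nat_lit 5) (nat_lit 84) (nat_lit 5) (nat_lit 319) (nat_lit 282) (nat_lit 260))) (XT.nd (nat_lit 94) (nat_lit 504) (nat_lit 0) (XT.lf (nat_lit 0) (nat_lit 759997963) (nat_lit 588) (nat_lit 1323395155) (nat_lit 84) (nat_lit 6149638625) (nat_lit 76) (nat_lit 5) (nat_lit 83) (nat_lit 5) (nat_lit 77) (nat_lit 5) (nat_lit 320) (nat_lit 282) (nat_lit 259)) (XT.lf (nat_lit 0) (nat_lit 2425402988) (nat_lit 504) (nat_lit 313251518) (nat_lit 588) (nat_lit 5618822175) (nat_lit 70) (nat_lit 5) (nat_lit 76) (nat_lit 5) (nat_lit 77) (nat_lit 5) (nat_lit 321) (nat_lit 282) (nat_lit 258))))))))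
noncomputable def xc72 : XT := (XT.nd (nat_lit 2256) (nat_lit 1428) (nat_lit 0) (XT.nd (nat_lit 1128) (nat_lit 1344) (nat_lit 0) (XT.nd (nat_lit 564) (nat_lit 1176) (nat_lit 0) (XT.nd (nat_lit 282) (nat_lit 420) (nat_lit 0) (XT.nd (nat_lit 94) (nat_lit 504) (nat_lit 0) (XT.lf (nat_lit 0) (nat_lit 4753750242) (nat_lit 588) (nat_lit 2239654148) (nat_lit 84) (nat_lit 1493457828) (nat_lit 70) (nat_lit 5) (nat_lit 77) (nat_lit 5) (nat_lit 71) (nat_lit 5) (nat_lit 322) (nat_lit 282) (nat_lit 257)) (XT.nd (nat_lit 94) (nat_lit 84) (nat_lit 0) (XT.lf (nat_lit 0) (nat_lit 1539135721) (nat_lit 420) (nat_lit 5258418787) (nat_lit 504) (nat_lit 1824052323) (nat_lit 65) (nat_lit 5) (nat_lit 70) (nat_lit 5) (nat_lit 71) (nat_lit 5) (nat_lit 323) (nat_lit 282) (nat_lit 256)) (XT.lf (nat_lit 0) (nat_lit 112879105) (nat_lit 504) (nat_lit 3335614151) (nat_lit 84) (nat_lit 5313155174) (nat_lit 64) (nat_lit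 5) (nat_lit 70) (nat_lit 5) (nat_lit 65) (nat_lit 5) (nat_lit 324) (nat_lit 282) (nat_lit 255)))) (XT.nd (nat_lit 94) (nat_lit 0) (nat_lit 0) (XT.lf (nat_lit 0) (nat_lit 463085829) (nat_lit 420) (nat_lit 1563017243) (nat_lit 504) (nat_lit 6881046843) (nat_lit 59) (nat_lit 5) (nat_lit 64) (nat_lit 5) (nat_lit 65) (nat_lit 5) (nat_lit 325) (nat_lit 282) (nat_lit 254)) (XT.nd (nat_lit 94) (nat_lit 0) (nat_lit 0) (XT.lf (nat_lit 0) (nat_lit 3988060467) (nat_lit 504) (nat_lit 4666137547) (nat_lit 84) (nat_lit 403558719) (nat_lit 59) (nat_lit 5) (nat_lit 65) (nat_lit 5) (nat_lit 60) (nat_lit 5) (nat_lit 326) (nat_lit 282) (nat_lit 253)) (XT.lf (nat_lit 0) (nat_lit 5978785498) (nat_lit 504) (nat_lit 841571038) (nat_lit 84) (nat_lit 2393928359) (nat_lit 59) (nat_lit 5) (nat_lit 65) (nat_lit 5) (nat_lit 60) (nat_lit 5) (nat_lit 327) (nat_lit 282) (nat_lit 252))))) (XT.nd (nat_lit 282) (nat_lit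 336) (nat_lit 0) (XT.nd (nat_lit 94) (nat_lit 504) (nat_lit 0) (XT.lf (nat_lit 0) (nat_lit 3111393302) (nat_lit 336) (nat_lit 4904100510) (nat_lit 420) (nat_lit 1360910327) (nat_lit 55) (nat_lit 5) (nat_lit 59) (nat_lit 5) (nat_lit 60) (nat_lit 5) (nat_lit 328) (nat_lit 282) (nat_lit 251)) (XT.nd (nat_lit 94) (nat_lit 420) (nat_lit 0) (XT.lf (nat_lit 0) (nat_lit 522726045) (nat_lit 420) (nat_lit 2397805442) (nat_lit 84) (nat_lit 6624241868) (nat_lit 54) (nat_lit 5) (nat_lit 59) (nat_lit 5) (nat_lit 55) (nat_lit 5) (nat_lit 329) (nat_lit 282) (nat_lit 250)) (XT.lf (nat_lit 0) (nat_lit 1554791846) (nat_lit 420) (nat_lit 852094671) (nat_lit 504) (nat_lit 7312190721) (nat_lit 49) (nat_lit 5) (nat_lit 54) (nat_lit 5) (nat_lit 55) (nat_lit 5) (nat_lit 330) (nat_lit 282) (nat_lit 249)))) (XT.nd (nat_lit 94) (nat_lit 336) (nat_lit 0) (XT.lf (nat_lit 0) (nat_lit 4343192187) (nat_lit 504) (nat_lit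 4283108291) (nat_lit 84) (nat_lit 1272900479) (nat_lit 49) (nat_lit 5) (nat_lit 55) (nat_lit 5) (nat_lit 50) (nat_lit 5) (nat_lit 331) (nat_lit 282) (nat_lit 248)) (XT.nd (nat_lit 94) (nat_lit 336) (nat_lit 0) (XT.lf (nat_lit 0) (nat_lit 6305318484) (nat_lit 504) (nat_lit 341632390) (nat_lit 84) (nat_lit 3439233545) (nat_lit 49) (nat_lit 5) (nat_lit 55) (nat_lit 5) (nat_lit 50) (nat_lit 5) (nat_lit 332) (nat_lit 282) (nat_lit 247)) (XT.lf (nat_lit 0) (nat_lit 3747778447) (nat_lit 336) (nat_lit 4576041408) (nat_lit 420) (nat_lit 1955491564) (nat_lit 45) (nat_lit 5) (nat_lit 49) (nat_lit 5) (nat_lit 50) (nat_lit 5) (nat_lit 333) (nat_lit 282) (nat_lit 246)))))) (XT.nd (nat_lit 564) (nat_lit 672) (nat_lit 0) (XT.nd (nat_lit 282) (nat_lit 252) (nat_lit 0) (XT.nd (nat_lit 94) (nat_lit 420) (nat_lit 0) (XT.lf (nat_lit 0) (nat_lit 7921947024) (nat_lit 336) (nat_lit 2445647495) (nat_lit 420)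 (nat_lit 112189932) (nat_lit 45) (nat_lit 5) (nat_lit 49) (nat_lit 5) (nat_lit 50) (nat_lit 5) (nat_lit 334) (nat_lit 282) (nat_lit 245)) (XT.nd (nat_lit 94) (nat_lit 0) (nat_lit 0) (XT.lf (nat_lit 0) (nat_lit 1502787303) (nat_lit 336) (nat_lit 224109690) (nat_lit 420) (nat_lit 8960001162) (nat_lit 40) (nat_lit 5) (nat_lit 44) (nat_lit 5) (nat_lit 45) (nat_lit 5) (nat_lit 335) (nat_lit 282) (nat_lit 244)) (XT.lf (nat_lit 0) (nat_lit 3628542578) (nat_lit 420) (nat_lit 5227628877) (nat_lit 84) (nat_lit 2044166199) (nat_lit 40) (nat_lit 5) (nat_lit 45) (nat_lit 5) (nat_lit 41) (nat_lit 5) (nat_lit 336) (nat_lit 282) (nat_lit 243)))) (XT.nd (nat_lit 94) (nat_lit 252) (nat_lit 0) (XT.lf (nat_lit 0) (nat_lit 5553029603) (nat_lit 420) (nat_lit 1198917995) (nat_lit 84) (nat_lit 4369745052) (nat_lit 40) (nat_lit 5) (nat_lit 45) (nat_lit 5) (nat_lit 41) (nat_lit 5) (nat_lit 337) (nat_lit 282)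 (nat_lit 242)) (XT.nd (nat_lit 94) (nat_lit 0) (nat_lit 0) (XT.lf (nat_lit 0) (nat_lit 2967794617) (nat_lit 252) (nat_lit 4561574970) (nat_lit 336) (nat_lit 3820956135) (nat_lit 37) (nat_lit 5) (nat_lit 40) (nat_lit 5) (nat_lit 41) (nat_lit 5) (nat_lit 338) (nat_lit 282) (nat_lit 241)) (XT.lf (nat_lit 0) (nat_lit 7242881618) (nat_lit 252) (nat_lit 2300023238) (nat_lit 336) (nat_lit 2044056618) (nat_lit 37) (nat_lit 5) (nat_lit 40) (nat_lit 5) (nat_lit 41) (nat_lit 5) (nat_lit 339) (nat_lit 282) (nat_lit 240))))) (XT.nd (nat_lit 282) (nat_lit 252) (nat_lit 0) (XT.nd (nat_lit 94) (nat_lit 420) (nat_lit 0) (XT.lf (nat_lit 0) (nat_lit 11583595502) (nat_lit 336) (nat_lit 226742362) (nat_lit 84) (nat_lit 21852032) (nat_lit 37) (nat_lit 5) (nat_lit 41) (nat_lit 5) (nat_lit 38) (nat_lit 5) (nat_lit 340) (nat_lit 282) (nat_lit 239)) (XT.nd (nat_lit 94) (nat_lit 0) (nat_lit 0) (XT.lf (nat_lit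 0) (nat_lit 1599387571) (nat_lit 420) (nat_lit 8069150504) (nat_lit 84) (nat_lit 2415239997) (nat_lit 32) (nat_lit 5) (nat_lit 37) (nat_lit 5) (nat_lit 33) (nat_lit 5) (nat_lit 341) (nat_lit 282) (nat_lit 238)) (XT.lf (nat_lit 0) (nat_lit 3467477493) (nat_lit 420) (nat_lit 3998386372) (nat_lit 84) (nat_lit 4878364719) (nat_lit 32) (nat_lit 5) (nat_lit 37) (nat_lit 5) (nat_lit 33) (nat_lit 5) (nat_lit 342) (nat_lit 282) (nat_lit 237)))) (XT.nd (nat_lit 94) (nat_lit 0) (nat_lit 0) (XT.lf (nat_lit 0) (nat_lit 158095910) (nat_lit 252) (nat_lit 5203578627) (nat_lit 336) (nat_lit 7252209379) (nat_lit 29) (nat_lit 5) (nat_lit 32) (nat_lit 5) (nat_lit 33) (nat_lit 5) (nat_lit 343) (nat_lit 282) (nat_lit 236)) (XT.nd (nat_lit 94) (nat_lit 0) (nat_lit 0) (XT.lf (nat_lit 0) (nat_lit 4484974043) (nat_lit 252) (nat_lit 2838555297) (nat_lit 336) (nat_lit 5568232743) (nat_lit 29) (nat_lit 5) (nat_lit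 32) (nat_lit 5) (nat_lit 33) (nat_lit 5) (nat_lit 344) (nat_lit 282) (nat_lit 235)) (XT.lf (nat_lit 0) (nat_lit 8904066105) (nat_lit 252) (nat_lit 410324378) (nat_lit 336) (nat_lit 3864986495) (nat_lit 29) (nat_lit 5) (nat_lit 32) (nat_lit 5) (nat_lit 33) (nat_lit 5) (nat_lit 345) (nat_lit 282) (nat_lit 234))))))) (XT.nd (nat_lit 1128) (nat_lit 420) (nat_lit 0) (XT.nd (nat_lit 564) (nat_lit 504) (nat_lit 0) (XT.nd (nat_lit 282) (nat_lit 168) (nat_lit 0) (XT.nd (nat_lit 94) (nat_lit 336) (nat_lit 0) (XT.lf (nat_lit 0) (nat_lit 11356781019) (nat_lit 336) (nat_lit 78172897) (nat_lit 84) (nat_lit 2041402082) (nat_lit 29) (nat_lit 5) (nat_lit 33) (nat_lit 5) (nat_lit 30) (nat_lit 5) (nat_lit 346) (nat_lit 282) (nat_lit 233)) (XT.nd (nat_lit 94) (nat_lit 84) (nat_lit 0) (XT.lf (nat_lit 0) (nat_lit 4290934445) (nat_lit 252) (nat_lit 9188293206) (nat_lit 336) (nat_lit 302922996) (nat_lit 26)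 (nat_lit 5) (nat_lit 29) (nat_lit 5) (nat_lit 30) (nat_lit 5) (nat_lit 347) (nat_lit 282) (nat_lit 232)) (XT.lf (nat_lit 0) (nat_lit 1509297522) (nat_lit 336) (nat_lit 5356567007) (nat_lit 84) (nat_lit 7232100817) (nat_lit 25) (nat_lit 5) (nat_lit 29) (nat_lit 5) (nat_lit 26) (nat_lit 5) (nat_lit 348) (nat_lit 282) (nat_lit 231)))) (XT.nd (nat_lit 94) (nat_lit 168) (nat_lit 0) (XT.lf (nat_lit 0) (nat_lit 3342365586) (nat_lit 336) (nat_lit 1136342671) (nat_lit 84) (nat_lit 9945783258) (nat_lit 25) (nat_lit 5) (nat_lit 29) (nat_lit 5) (nat_lit 26) (nat_lit 5) (nat_lit 349) (nat_lit 282) (nat_lit 230)) (XT.nd (nat_lit 94) (nat_lit 0) (nat_lit 0) (XT.lf (nat_lit 0) (nat_lit 3241708733) (nat_lit 168) (nat_lit 1994542448) (nat_lit 252) (nat_lit 9524878585) (nat_lit 23) (nat_lit 5) (nat_lit 25) (nat_lit 5) (nat_lit 26) (nat_lit 5) (nat_lit 350) (nat_lit 282) (nat_lit 229)) (XT.lf (nat_lit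 0) (nat_lit 7178654139) (nat_lit 252) (nat_lit 7372801275) (nat_lit 84) (nat_lit 557174495) (nat_lit 23) (nat_lit 5) (nat_lit 26) (nat_lit 5) (nat_lit 24) (nat_lit 5) (nat_lit 351) (nat_lit 282) (nat_lit 228))))) (XT.nd (nat_lit 282) (nat_lit 252) (nat_lit 0) (XT.nd (nat_lit 94) (nat_lit 252) (nat_lit 0) (XT.lf (nat_lit 0) (nat_lit 9174710296) (nat_lit 252) (nat_lit 3155661765) (nat_lit 84) (nat_lit 3136840706) (nat_lit 23) (nat_lit 5) (nat_lit 26) (nat_lit 5) (nat_lit 24) (nat_lit 5) (nat_lit 352) (nat_lit 282) (nat_lit 227)) (XT.nd (nat_lit 94) (nat_lit 0) (nat_lit 0) (XT.lf (nat_lit 0) (nat_lit 1179478279) (nat_lit 252) (nat_lit 10038716370) (nat_lit 336) (nat_lit 4619268579) (nat_lit 20) (nat_lit 5) (nat_lit 23) (nat_lit 5) (nat_lit 24) (nat_lit 5) (nat_lit 353) (nat_lit 282) (nat_lit 226)) (XT.lf (nat_lit 0) (nat_lit 5679780861) (nat_lit 252) (nat_lit 7652462588) (nat_lit 336)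 (nat_lit 2886824777) (nat_lit 20) (nat_lit 5) (nat_lit 23) (nat_lit 5) (nat_lit 24) (nat_lit 5) (nat_lit 354) (nat_lit 282) (nat_lit 225)))) (XT.nd (nat_lit 94) (nat_lit 252) (nat_lit 0) (XT.lf (nat_lit 0) (nat_lit 10284553858) (nat_lit 252) (nat_lit 5202325115) (nat_lit 336) (nat_lit 1126494882) (nat_lit 20) (nat_lit 5) (nat_lit 23) (nat_lit 5) (nat_lit 24) (nat_lit 5) (nat_lit 355) (nat_lit 282) (nat_lit 224)) (XT.nd (nat_lit 94) (nat_lit 168) (nat_lit 0) (XT.lf (nat_lit 0) (nat_lit 649996652) (nat_lit 336) (nat_lit 2029238881) (nat_lit 84) (nat_lit 14341308115) (nat_lit 19) (nat_lit 5) (nat_lit 23) (nat_lit 5) (nat_lit 20) (nat_lit 5) (nat_lit 356) (nat_lit 282) (nat_lit 223)) (XT.lf (nat_lit 0) (nat_lit 2407062934) (nat_lit 168) (nat_lit 51173977) (nat_lit 252) (nat_lit 14981828161) (nat_lit 17) (nat_lit 5) (nat_lit 19) (nat_lit 5) (nat_lit 20) (nat_lit 5) (nat_lit 357) (nat_lit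 282) (nat_lit 222)))))) (XT.nd (nat_lit 564) (nat_lit 252) (nat_lit 0) (XT.nd (nat_lit 282) (nat_lit 168) (nat_lit 0) (XT.nd (nat_lit 94) (nat_lit 0) (nat_lit 0) (XT.lf (nat_lit 0) (nat_lit 4346789831) (nat_lit 252) (nat_lit 10908531324) (nat_lit 84) (nat_lit 2616604790) (nat_lit 17) (nat_lit 5) (nat_lit 20) (nat_lit 5) (nat_lit 18) (nat_lit 5) (nat_lit 358) (nat_lit 282) (nat_lit 221)) (XT.nd (nat_lit 94) (nat_lit 0) (nat_lit 0) (XT.lf (nat_lit 0) (nat_lit 6271606481) (nat_lit 252) (nat_lit 6689622795) (nat_lit 84) (nat_lit 5356719618) (nat_lit 17) (nat_lit 5) (nat_lit 20) (nat_lit 5) (nat_lit 18) (nat_lit 5) (nat_lit 359) (nat_lit 282) (nat_lit 220)) (XT.lf (nat_lit 0) (nat_lit 8233973340) (nat_lit 252) (nat_lit 2371836435) (nat_lit 84) (nat_lit 8172755622) (nat_lit 17) (nat_lit 5) (nat_lit 20) (nat_lit 5) (nat_lit 18) (nat_lit 5) (nat_lit 360) (nat_lit 282) (nat_lit 219)))) (XT.nd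 (nat_lit 94) (nat_lit 0) (nat_lit 0) (XT.lf (nat_lit 0) (nat_lit 2090980994) (nat_lit 168) (nat_lit 8165481336) (nat_lit 252) (nat_lit 8997099438) (nat_lit 15) (nat_lit 5) (nat_lit 17) (nat_lit 5) (nat_lit 18) (nat_lit 5) (nat_lit 361) (nat_lit 282) (nat_lit 218)) (XT.nd (nat_lit 94) (nat_lit 0) (nat_lit 0) (XT.lf (nat_lit 0) (nat_lit 6711791863) (nat_lit 168) (nat_lit 5633500860) (nat_lit 252) (nat_lit 7397953675) (nat_lit 15) (nat_lit 5) (nat_lit 17) (nat_lit 5) (nat_lit 18) (nat_lit 5) (nat_lit 362) (nat_lit 282) (nat_lit 217)) (XT.lf (nat_lit 0) (nat_lit 11446133430) (nat_lit 168) (nat_lit 3032265384) (nat_lit 252) (nat_lit 5770421303) (nat_lit 15) (nat_lit 5) (nat_lit 17) (nat_lit 5) (nat_lit 18) (nat_lit 5) (nat_lit 363) (nat_lit 282) (nat_lit 216))))) (XT.nd (nat_lit 282) (nat_lit 84) (nat_lit 0) (XT.nd (nat_lit 94) (nat_lit 168) (nat_lit 0) (XT.lf (nat_lit 0) (nat_lit 16298418599)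 (nat_lit 168) (nat_lit 359350284) (nat_lit 252) (nat_lit 4112985292) (nat_lit 15) (nat_lit 5) (nat_lit 17) (nat_lit 5) (nat_lit 18) (nat_lit 5) (nat_lit 364) (nat_lit 282) (nat_lit 215)) (XT.nd (nat_lit 94) (nat_lit 168) (nat_lit 0) (XT.lf (nat_lit 0) (nat_lit 18909120964) (nat_lit 252) (nat_lit 60051497) (nat_lit 84) (nat_lit 2339628320) (nat_lit 15) (nat_lit 5) (nat_lit 18) (nat_lit 5) (nat_lit 16) (nat_lit 4) (nat_lit 365) (nat_lit 282) (nat_lit 214)) (XT.lf (nat_lit 0) (nat_lit 4549319641) (nat_lit 168) (nat_lit 16710981000) (nat_lit 252) (nat_lit 602362652) (nat_lit 13) (nat_lit 5) (nat_lit 15) (nat_lit 5) (nat_lit 16) (nat_lit 4) (nat_lit 366) (nat_lit 282) (nat_lit 213)))) (XT.nd (nat_lit 94) (nat_lit 0) (nat_lit 0) (XT.lf (nat_lit 0) (nat_lit 1207376277) (nat_lit 252) (nat_lit 13171080571) (nat_lit 84) (nat_lit 8055478649) (nat_lit 12) (nat_lit 5) (nat_lit 15) (nat_lit 5) (nat_lit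 13) (nat_lit 5) (nat_lit 367) (nat_lit 282) (nat_lit 212)) (XT.nd (nat_lit 94) (nat_lit 0) (nat_lit 0) (XT.lf (nat_lit 0) (nat_lit 3042537744) (nat_lit 252) (nat_lit 8933576408) (nat_lit 84) (nat_lit 11047236831) (nat_lit 12) (nat_lit 5) (nat_lit 15) (nat_lit 5) (nat_lit 13) (nat_lit 5) (nat_lit 368) (nat_lit 282) (nat_lit 211)) (XT.lf (nat_lit 0) (nat_lit 4916968577) (nat_lit 252) (nat_lit 4590905853) (nat_lit 84) (nat_lit 14123769958) (nat_lit 12) (nat_lit 5) (nat_lit 15) (nat_lit 5) (nat_lit 13) (nat_lit 5) (nat_lit 369) (nat_lit 282) (nat_lit 210))))))))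
noncomputable def xc73 : XT := (XT.nd (nat_lit 2256) (nat_lit 168) (nat_lit 0) (XT.nd (nat_lit 1128) (nat_lit 336) (nat_lit 0) (XT.nd (nat_lit 564) (nat_lit 84) (nat_lit 0) (XT.nd (nat_lit 282) (nat_lit 0) (nat_lit 0) (XT.nd (nat_lit 94) (nat_lit 168) (nat_lit 0) (XT.lf (nat_lit 0) (nat_lit 6832415941) (nat_lit 252) (nat_lit 139021082) (nat_lit 84) (nat_lit 17287945682) (nat_lit 12) (nat_lit 5) (nat_lit 15) (nat_lit 5) (nat_lit 13) (nat_lit 5) (nat_lit 370) (nat_lit 282) (nat_lit 209)) (XT.nd (nat_lit 94) (nat_lit 0) (nat_lit 0) (XT.lf (nat_lit 0) (nat_lit 4517239842) (nat_lit 168) (nat_lit 4318236971) (nat_lit 252) (nat_lit 16070285082) (nat_lit 10) (nat_lit 5) (nat_lit 12) (nat_lit 5) (nat_lit 13) (nat_lit 5) (nat_lit 371) (nat_lit 282) (nat_lit 208)) (XT.lf (nat_lit 0) (nat_lit 9296396944) (nat_lit 168) (nat_lit 1589366215) (nat_lit 252) (nat_lit 14686931198) (nat_lit 10) (nat_lit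 5) (nat_lit 12) (nat_lit 5) (nat_lit 13) (nat_lit 5) (nat_lit 372) (nat_lit 282) (nat_lit 207)))) (XT.nd (nat_lit 94) (nat_lit 0) (nat_lit 0) (XT.lf (nat_lit 0) (nat_lit 12995844123) (nat_lit 252) (nat_lit 12072864560) (nat_lit 84) (nat_lit 1191762658) (nat_lit 10) (nat_lit 5) (nat_lit 13) (nat_lit 5) (nat_lit 11) (nat_lit 4) (nat_lit 373) (nat_lit 282) (nat_lit 206)) (XT.nd (nat_lit 94) (nat_lit 0) (nat_lit 0) (XT.lf (nat_lit 0) (nat_lit 15172163903) (nat_lit 252) (nat_lit 7778782835) (nat_lit 84) (nat_lit 4018648394) (nat_lit 10) (nat_lit 5) (nat_lit 13) (nat_lit 5) (nat_lit 11) (nat_lit 4) (nat_lit 374) (nat_lit 282) (nat_lit 205)) (XT.lf (nat_lit 0) (nat_lit 17400984346) (nat_lit 252) (nat_lit 3374282993) (nat_lit 84) (nat_lit 6925948133) (nat_lit 10) (nat_lit 5) (nat_lit 13) (nat_lit 5) (nat_lit 11) (nat_lit 4) (nat_lit 375) (nat_lit 282) (nat_lit 204))))) (XT.nd (nat_lit 282)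 (nat_lit 0) (nat_lit 0) (XT.nd (nat_lit 94) (nat_lit 0) (nat_lit 0) (XT.lf (nat_lit 0) (nat_lit 1168278629) (nat_lit 84) (nat_lit 18527693785) (nat_lit 168) (nat_lit 8759682623) (nat_lit 9) (nat_lit 5) (nat_lit 10) (nat_lit 5) (nat_lit 11) (nat_lit 4) (nat_lit 376) (nat_lit 282) (nat_lit 203)) (XT.nd (nat_lit 94) (nat_lit 0) (nat_lit 0) (XT.lf (nat_lit 0) (nat_lit 5901399658) (nat_lit 84) (nat_lit 16181631028) (nat_lit 168) (nat_lit 7149849691) (nat_lit 9) (nat_lit 5) (nat_lit 10) (nat_lit 5) (nat_lit 11) (nat_lit 4) (nat_lit 377) (nat_lit 282) (nat_lit 202)) (XT.lf (nat_lit 0) (nat_lit 10760109676) (nat_lit 84) (nat_lit 13770112886) (nat_lit 168) (nat_lit 5504452393) (nat_lit 9) (nat_lit 5) (nat_lit 10) (nat_lit 5) (nat_lit 11) (nat_lit 4) (nat_lit 378) (nat_lit 282) (nat_lit 201)))) (XT.nd (nat_lit 94) (nat_lit 0) (nat_lit 0) (XT.lf (nat_lit 0) (nat_lit 15748937511) (nat_lit 84)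 (nat_lit 11290891573) (nat_lit 168) (nat_lit 3821957047) (nat_lit 9) (nat_lit 5) (nat_lit 10) (nat_lit 5) (nat_lit 11) (nat_lit 4) (nat_lit 379) (nat_lit 282) (nat_lit 200)) (XT.nd (nat_lit 94) (nat_lit 0) (nat_lit 0) (XT.lf (nat_lit 0) (nat_lit 20872533273) (nat_lit 84) (nat_lit 8741656193) (nat_lit 168) (nat_lit 2100795389) (nat_lit 9) (nat_lit 5) (nat_lit 10) (nat_lit 5) (nat_lit 11) (nat_lit 4) (nat_lit 380) (nat_lit 282) (nat_lit 199)) (XT.lf (nat_lit 0) (nat_lit 26135672691) (nat_lit 84) (nat_lit 6120030593) (nat_lit 168) (nat_lit 339363119) (nat_lit 9) (nat_lit 5) (nat_lit 10) (nat_lit 5) (nat_lit 11) (nat_lit 4) (nat_lit 381) (nat_lit 282) (nat_lit 198)))))) (XT.nd (nat_lit 564) (nat_lit 84) (nat_lit 0) (XT.nd (nat_lit 282) (nat_lit 0) (nat_lit 0) (XT.nd (nat_lit 94) (nat_lit 168) (nat_lit 0) (XT.lf (nat_lit 0) (nat_lit 1434485637) (nat_lit 168) (nat_lit 1974112417) (nat_lit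 84) (nat_lit 30093802834) (nat_lit 8) (nat_lit 5) (nat_lit 10) (nat_lit 5) (nat_lit 9) (nat_lit 5) (nat_lit 382) (nat_lit 282) (nat_lit 197)) (XT.nd (nat_lit 94) (nat_lit 0) (nat_lit 0) (XT.lf (nat_lit 0) (nat_lit 2682353948) (nat_lit 168) (nat_lit 588467368) (nat_lit 252) (nat_lit 31166520701) (nat_lit 6) (nat_lit 5) (nat_lit 8) (nat_lit 5) (nat_lit 9) (nat_lit 5) (nat_lit 383) (nat_lit 282) (nat_lit 196)) (XT.lf (nat_lit 0) (nat_lit 5195961735) (nat_lit 252) (nat_lit 27917409486) (nat_lit 84) (nat_lit 2286943563) (nat_lit 6) (nat_lit 5) (nat_lit 9) (nat_lit 5) (nat_lit 7) (nat_lit 4) (nat_lit 384) (nat_lit 282) (nat_lit 195)))) (XT.nd (nat_lit 94) (nat_lit 0) (nat_lit 0) (XT.lf (nat_lit 0) (nat_lit 7175215532) (nat_lit 252) (nat_lit 23984912223) (nat_lit 84) (nat_lit 5233220086) (nat_lit 6) (nat_lit 5) (nat_lit 9) (nat_lit 5) (nat_lit 7) (nat_lit 4) (nat_lit 385) (nat_lit 282) (nat_lit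 194)) (XT.nd (nat_lit 94) (nat_lit 0) (nat_lit 0) (XT.lf (nat_lit 0) (nat_lit 9204589910) (nat_lit 252) (nat_lit 19947993111) (nat_lit 84) (nat_lit 8264964743) (nat_lit 6) (nat_lit 5) (nat_lit 9) (nat_lit 5) (nat_lit 7) (nat_lit 4) (nat_lit 386) (nat_lit 282) (nat_lit 193)) (XT.lf (nat_lit 0) (nat_lit 11285976458) (nat_lit 252) (nat_lit 15802889319) (nat_lit 84) (nat_lit 11385003438) (nat_lit 6) (nat_lit 5) (nat_lit 9) (nat_lit 5) (nat_lit 7) (nat_lit 4) (nat_lit 387) (nat_lit 282) (nat_lit 192))))) (XT.nd (nat_lit 282) (nat_lit 84) (nat_lit 0) (XT.nd (nat_lit 94) (nat_lit 0) (nat_lit 0) (XT.lf (nat_lit 0) (nat_lit 13421315248) (nat_lit 252) (nat_lit 11545737177) (nat_lit 84) (nat_lit 14596244374) (nat_lit 6) (nat_lit 5) (nat_lit 9) (nat_lit 5) (nat_lit 7) (nat_lit 4) (nat_lit 388) (nat_lit 282) (nat_lit 191)) (XT.nd (nat_lit 94) (nat_lit 0) (nat_lit 0) (XT.lf (nat_lit 0) (nat_lit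 15612596638) (nat_lit 252) (nat_lit 7172568572) (nat_lit 84) (nat_lit 17901680764) (nat_lit 6) (nat_lit 5) (nat_lit 9) (nat_lit 5) (nat_lit 7) (nat_lit 4) (nat_lit 389) (nat_lit 282) (nat_lit 190)) (XT.lf (nat_lit 0) (nat_lit 17861863133) (nat_lit 252) (nat_lit 2679307254) (nat_lit 84) (nat_lit 21304393620) (nat_lit 6) (nat_lit 5) (nat_lit 9) (nat_lit 5) (nat_lit 7) (nat_lit 4) (nat_lit 390) (nat_lit 282) (nat_lit 189)))) (XT.nd (nat_lit 94) (nat_lit 0) (nat_lit 0) (XT.lf (nat_lit 0) (nat_lit 1978089054) (nat_lit 84) (nat_lit 18212745117) (nat_lit 168) (nat_lit 22849088461) (nat_lit 5) (nat_lit 5) (nat_lit 6) (nat_lit 5) (nat_lit 7) (nat_lit 4) (nat_lit 391) (nat_lit 282) (nat_lit 188)) (XT.nd (nat_lit 94) (nat_lit 0) (nat_lit 0) (XT.lf (nat_lit 0) (nat_lit 6821806322) (nat_lit 84) (nat_lit 15788660486) (nat_lit 168) (nat_lit 21660295941) (nat_lit 5) (nat_lit 5) (nat_lit 6) (nat_lit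 5) (nat_lit 7) (nat_lit 4) (nat_lit 392) (nat_lit 282) (nat_lit 187)) (XT.lf (nat_lit 0) (nat_lit 11801267349) (nat_lit 84) (nat_lit 13294623464) (nat_lit 168) (nat_lit 20444181705) (nat_lit 5) (nat_lit 5) (nat_lit 6) (nat_lit 5) (nat_lit 7) (nat_lit 4) (nat_lit 393) (nat_lit 282) (nat_lit 186))))))) (XT.nd (nat_lit 1128) (nat_lit 84) (nat_lit 0) (XT.nd (nat_lit 564) (nat_lit 84) (nat_lit 0) (XT.nd (nat_lit 282) (nat_lit 0) (nat_lit 0) (XT.nd (nat_lit 94) (nat_lit 0) (nat_lit 0) (XT.lf (nat_lit 0) (nat_lit 16921113514) (nat_lit 84) (nat_lit 10728309349) (nat_lit 168) (nat_lit 19199612209) (nat_lit 5) (nat_lit 5) (nat_lit 6) (nat_lit 5) (nat_lit 7) (nat_lit 4) (nat_lit 394) (nat_lit 282) (nat_lit 185)) (XT.nd (nat_lit 94) (nat_lit 0) (nat_lit 0) (XT.lf (nat_lit 0) (nat_lit 22186117050) (nat_lit 84) (nat_lit 8087326066) (nat_lit 168) (nat_lit 17925427384) (nat_lit 5) (nat_lit 5) (nat_lit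 6) (nat_lit 5) (nat_lit 7) (nat_lit 4) (nat_lit 395) (nat_lit 282) (nat_lit 184)) (XT.lf (nat_lit 0) (nat_lit 27601185492) (nat_lit 84) (nat_lit 5369211942) (nat_lit 168) (nat_lit 16620439555) (nat_lit 5) (nat_lit 5) (nat_lit 6) (nat_lit 5) (nat_lit 7) (nat_lit 4) (nat_lit 396) (nat_lit 282) (nat_lit 183)))) (XT.nd (nat_lit 94) (nat_lit 0) (nat_lit 0) (XT.lf (nat_lit 0) (nat_lit 33171366251) (nat_lit 84) (nat_lit 2571433411) (nat_lit 168) (nat_lit 15283432337) (nat_lit 5) (nat_lit 5) (nat_lit 6) (nat_lit 5) (nat_lit 7) (nat_lit 4) (nat_lit 397) (nat_lit 282) (nat_lit 182)) (XT.nd (nat_lit 94) (nat_lit 0) (nat_lit 0) (XT.lf (nat_lit 0) (nat_lit 38596295491) (nat_lit 168) (nat_lit 13607603672) (nat_lit 0) (nat_lit 302399398) (nat_lit 5) (nat_lit 5) (nat_lit 7) (nat_lit 4) (nat_lit 5) (nat_lit 4) (nat_lit 398) (nat_lit 282) (nat_lit 181)) (XT.lf (nat_lit 0) (nat_lit 41556832021) (nat_lit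 168) (nat_lit 9267193718) (nat_lit 0) (nat_lit 3207668606) (nat_lit 5) (nat_lit 5) (nat_lit 7) (nat_lit 4) (nat_lit 5) (nat_lit 4) (nat_lit 399) (nat_lit 282) (nat_lit 180))))) (XT.nd (nat_lit 282) (nat_lit 0) (nat_lit 0) (XT.nd (nat_lit 94) (nat_lit 84) (nat_lit 0) (XT.lf (nat_lit 0) (nat_lit 44601659845) (nat_lit 168) (nat_lit 4804081232) (nat_lit 0) (nat_lit 6198890879) (nat_lit 5) (nat_lit 5) (nat_lit 7) (nat_lit 4) (nat_lit 5) (nat_lit 4) (nat_lit 400) (nat_lit 282) (nat_lit 179)) (XT.nd (nat_lit 94) (nat_lit 84) (nat_lit 0) (XT.lf (nat_lit 0) (nat_lit 47733617060) (nat_lit 168) (nat_lit 214106126) (nat_lit 0) (nat_lit 9278854350) (nat_lit 5) (nat_lit 5) (nat_lit 7) (nat_lit 4) (nat_lit 5) (nat_lit 4) (nat_lit 401) (nat_lit 282) (nat_lit 178)) (XT.lf (nat_lit 0) (nat_lit 4599683305) (nat_lit 84) (nat_lit 46401569102) (nat_lit 84) (nat_lit 7896375990) (nat_lit 4) (nat_lit 4) (nat_lit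 5) (nat_lit 5) (nat_lit 5) (nat_lit 4) (nat_lit 402) (nat_lit 282) (nat_lit 177)))) (XT.nd (nat_lit 94) (nat_lit 0) (nat_lit 0) (XT.lf (nat_lit 0) (nat_lit 9556203743) (nat_lit 84) (nat_lit 44809275832) (nat_lit 84) (nat_lit 6255168653) (nat_lit 4) (nat_lit 4) (nat_lit 5) (nat_lit 5) (nat_lit 5) (nat_lit 4) (nat_lit 403) (nat_lit 282) (nat_lit 176)) (XT.nd (nat_lit 94) (nat_lit 0) (nat_lit 0) (XT.lf (nat_lit 0) (nat_lit 14655672722) (nat_lit 84) (nat_lit 43171594020) (nat_lit 84) (nat_lit 4570043519) (nat_lit 4) (nat_lit 4) (nat_lit 5) (nat_lit 5) (nat_lit 5) (nat_lit 4) (nat_lit 404) (nat_lit 282) (nat_lit 175)) (XT.lf (nat_lit 0) (nat_lit 19902843481) (nat_lit 84) (nat_lit 41486997176) (nat_lit 84) (nat_lit 2839429873) (nat_lit 4) (nat_lit 4) (nat_lit 5) (nat_lit 5) (nat_lit 5) (nat_lit 4) (nat_lit 405) (nat_lit 282) (nat_lit 174)))))) (XT.nd (nat_lit 564) (nat_lit 0) (nat_lit 0)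 (XT.nd (nat_lit 282) (nat_lit 0) (nat_lit 0) (XT.nd (nat_lit 94) (nat_lit 84) (nat_lit 0) (XT.lf (nat_lit 0) (nat_lit 25302606933) (nat_lit 84) (nat_lit 39753915079) (nat_lit 84) (nat_lit 1061714602) (nat_lit 4) (nat_lit 4) (nat_lit 5) (nat_lit 5) (nat_lit 5) (nat_lit 4) (nat_lit 406) (nat_lit 282) (nat_lit 173)) (XT.nd (nat_lit 94) (nat_lit 0) (nat_lit 0) (XT.lf (nat_lit 0) (nat_lit 749351113) (nat_lit 168) (nat_lit 37213559513) (nat_lit 84) (nat_lit 30102823421) (nat_lit 3) (nat_lit 5) (nat_lit 5) (nat_lit 5) (nat_lit 4) (nat_lit 4) (nat_lit 407) (nat_lit 282) (nat_lit 172)) (XT.lf (nat_lit 0) (nat_lit 2588470074) (nat_lit 168) (nat_lit 33520298378) (nat_lit 84) (nat_lit 33964703027) (nat_lit 3) (nat_lit 5) (nat_lit 5) (nat_lit 5) (nat_lit 4) (nat_lit 4) (nat_lit 408) (nat_lit 282) (nat_lit 171)))) (XT.nd (nat_lit 94) (nat_lit 0) (nat_lit 0) (XT.lf (nat_lit 0) (nat_lit 4478747713)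 (nat_lit 168) (nat_lit 29721871431) (nat_lit 84) (nat_lit 37943027691) (nat_lit 3) (nat_lit 5) (nat_lit 5) (nat_lit 5) (nat_lit 4) (nat_lit 4) (nat_lit 409) (nat_lit 282) (nat_lit 170)) (XT.nd (nat_lit 94) (nat_lit 0) (nat_lit 0) (XT.lf (nat_lit 0) (nat_lit 6421945969) (nat_lit 168) (nat_lit 25814738139) (nat_lit 84) (nat_lit 42041505628) (nat_lit 3) (nat_lit 5) (nat_lit 5) (nat_lit 5) (nat_lit 4) (nat_lit 4) (nat_lit 410) (nat_lit 282) (nat_lit 169)) (XT.lf (nat_lit 0) (nat_lit 8419876105) (nat_lit 168) (nat_lit 21795256646) (nat_lit 84) (nat_lit 46263957049) (nat_lit 3) (nat_lit 5) (nat_lit 5) (nat_lit 5) (nat_lit 4) (nat_lit 4) (nat_lit 411) (nat_lit 282) (nat_lit 168))))) (XT.nd (nat_lit 43146) (nat_lit 0) (nat_lit 13020) (XT.nd (nat_lit 94) (nat_lit 0) (nat_lit 0) (XT.lf (nat_lit 0) (nat_lit 10474400401) (nat_lit 168) (nat_lit 17659680374) (nat_lit 84) (nat_lit 50614317720) (nat_lit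 3) (nat_lit 5) (nat_lit 5) (nat_lit 5) (nat_lit 4) (nat_lit 4) (nat_lit 412) (nat_lit 282) (nat_lit 167)) (XT.nd (nat_lit 42958) (nat_lit 0) (nat_lit 13944) (XT.lf (nat_lit 0) (nat_lit 12587433889) (nat_lit 168) (nat_lit 13404154532) (nat_lit 84) (nat_lit 55096642633) (nat_lit 3) (nat_lit 5) (nat_lit 5) (nat_lit 5) (nat_lit 4) (nat_lit 4) (nat_lit 413) (nat_lit 282) (nat_lit 166)) (XT.lf (nat_lit 0) (nat_lit 873785129) (nat_lit 252) (nat_lit 1194646918) (nat_lit 252) (nat_lit 1194646918) (nat_lit 169) (nat_lit 4) (nat_lit 172) (nat_lit 5) (nat_lit 172) (nat_lit 4) (nat_lit 295) (nat_lit 283) (nat_lit 283)))) (XT.nd (nat_lit 188) (nat_lit 504) (nat_lit 0) (XT.nd (nat_lit 94) (nat_lit 336) (nat_lit 0) (XT.lf (nat_lit 0) (nat_lit 58387547) (nat_lit 336) (nat_lit 1909055257) (nat_lit 84) (nat_lit 4582123446) (nat_lit 168) (nat_lit 5) (nat_lit 172) (nat_lit 5) (nat_lit 169) (nat_lit 4)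 (nat_lit 296) (nat_lit 283) (nat_lit 282)) (XT.lf (nat_lit 0) (nat_lit 985570045) (nat_lit 336) (nat_lit 1466366881) (nat_lit 420) (nat_lit 4124298597) (nat_lit 164) (nat_lit 5) (nat_lit 168) (nat_lit 5) (nat_lit 169) (nat_lit 4) (nat_lit 297) (nat_lit 283) (nat_lit 281))) (XT.nd (nat_lit 94) (nat_lit 504) (nat_lit 0) (XT.lf (nat_lit 0) (nat_lit 3951717084) (nat_lit 336) (nat_lit 899868682) (nat_lit 420) (nat_lit 1755033903) (nat_lit 164) (nat_lit 5) (nat_lit 168) (nat_lit 5) (nat_lit 169) (nat_lit 4) (nat_lit 298) (nat_lit 283) (nat_lit 280)) (XT.lf (nat_lit 0) (nat_lit 311893185) (nat_lit 420) (nat_lit 278031550) (nat_lit 504) (nat_lit 6051141335) (nat_lit 158) (nat_lit 5) (nat_lit 163) (nat_lit 5) (nat_lit 164) (nat_lit 5) (nat_lit 299) (nat_lit 283) (nat_lit 279))))))))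
noncomputable def xc74 : XT := (XT.nd (nat_lit 2256) (nat_lit 3360) (nat_lit 0) (XT.nd (nat_lit 1128) (nat_lit 4200) (nat_lit 0) (XT.nd (nat_lit 564) (nat_lit 2352) (nat_lit 0) (XT.nd (nat_lit 282) (nat_lit 672) (nat_lit 0) (XT.nd (nat_lit 94) (nat_lit 588) (nat_lit 0) (XT.lf (nat_lit 0) (nat_lit 2918016958) (nat_lit 504) (nat_lit 3333052238) (nat_lit 84) (nat_lit 427309894) (nat_lit 158) (nat_lit 5) (nat_lit 164) (nat_lit 5) (nat_lit 159) (nat_lit 4) (nat_lit 300) (nat_lit 283) (nat_lit 278)) (XT.nd (nat_lit 94) (nat_lit 588) (nat_lit 0) (XT.lf (nat_lit 0) (nat_lit 5238969488) (nat_lit 504) (nat_lit 307456119) (nat_lit 84) (nat_lit 1173569522) (nat_lit 158) (nat_lit 5) (nat_lit 164) (nat_lit 5) (nat_lit 159) (nat_lit 4) (nat_lit 301) (nat_lit 283) (nat_lit 277)) (XT.lf (nat_lit 0) (nat_lit 798468654) (nat_lit 588) (nat_lit 3963453109) (nat_lit 84) (nat_lit 2003002033) (nat_lit 151)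 (nat_lit 5) (nat_lit 158) (nat_lit 5) (nat_lit 152) (nat_lit 5) (nat_lit 302) (nat_lit 283) (nat_lit 276)))) (XT.nd (nat_lit 94) (nat_lit 672) (nat_lit 0) (XT.lf (nat_lit 0) (nat_lit 3041809794) (nat_lit 588) (nat_lit 873436875) (nat_lit 84) (nat_lit 2898514160) (nat_lit 151) (nat_lit 5) (nat_lit 158) (nat_lit 5) (nat_lit 152) (nat_lit 5) (nat_lit 303) (nat_lit 283) (nat_lit 275)) (XT.nd (nat_lit 94) (nat_lit 84) (nat_lit 0) (XT.lf (nat_lit 0) (nat_lit 2300125442) (nat_lit 588) (nat_lit 3000475705) (nat_lit 672) (nat_lit 1565796192) (nat_lit 144) (nat_lit 5) (nat_lit 151) (nat_lit 5) (nat_lit 152) (nat_lit 5) (nat_lit 304) (nat_lit 283) (nat_lit 274)) (XT.lf (nat_lit 0) (nat_lit 627158930) (nat_lit 672) (nat_lit 1397062179) (nat_lit 84) (nat_lit 4898885731) (nat_lit 143) (nat_lit 5) (nat_lit 151) (nat_lit 5) (nat_lit 144) (nat_lit 5) (nat_lit 305) (nat_lit 283) (nat_lit 273))))) (XT.nd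 (nat_lit 282) (nat_lit 840) (nat_lit 0) (XT.nd (nat_lit 94) (nat_lit 840) (nat_lit 0) (XT.lf (nat_lit 0) (nat_lit 1832977625) (nat_lit 672) (nat_lit 966556019) (nat_lit 756) (nat_lit 4183836750) (nat_lit 135) (nat_lit 5) (nat_lit 143) (nat_lit 5) (nat_lit 144) (nat_lit 5) (nat_lit 306) (nat_lit 283) (nat_lit 272)) (XT.nd (nat_lit 94) (nat_lit 840) (nat_lit 0) (XT.lf (nat_lit 0) (nat_lit 4982798409) (nat_lit 756) (nat_lit 1914338582) (nat_lit 84) (nat_lit 150653856) (nat_lit 135) (nat_lit 5) (nat_lit 144) (nat_lit 5) (nat_lit 136) (nat_lit 5) (nat_lit 307) (nat_lit 283) (nat_lit 271)) (XT.lf (nat_lit 0) (nat_lit 69488193) (nat_lit 840) (nat_lit 5735757792) (nat_lit 84) (nat_lit 1310909173) (nat_lit 125) (nat_lit 5) (nat_lit 135) (nat_lit 5) (nat_lit 126) (nat_lit 5) (nat_lit 308) (nat_lit 283) (nat_lit 270)))) (XT.nd (nat_lit 94) (nat_lit 840) (nat_lit 0) (XT.lf (nat_lit 0) (nat_lit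 2177526960) (nat_lit 840) (nat_lit 2449675198) (nat_lit 84) (nat_lit 2560814607) (nat_lit 125) (nat_lit 5) (nat_lit 135) (nat_lit 5) (nat_lit 126) (nat_lit 5) (nat_lit 309) (nat_lit 283) (nat_lit 269)) (XT.nd (nat_lit 94) (nat_lit 0) (nat_lit 0) (XT.lf (nat_lit 0) (nat_lit 897993559) (nat_lit 840) (nat_lit 3394029237) (nat_lit 924) (nat_lit 2972385686) (nat_lit 115) (nat_lit 5) (nat_lit 125) (nat_lit 5) (nat_lit 126) (nat_lit 5) (nat_lit 310) (nat_lit 283) (nat_lit 268)) (XT.lf (nat_lit 0) (nat_lit 4343587903) (nat_lit 840) (nat_lit 2087714735) (nat_lit 924) (nat_lit 913591842) (nat_lit 115) (nat_lit 5) (nat_lit 125) (nat_lit 5) (nat_lit 126) (nat_lit 5) (nat_lit 311) (nat_lit 283) (nat_lit 267)))))) (XT.nd (nat_lit 564) (nat_lit 1512) (nat_lit 0) (XT.nd (nat_lit 282) (nat_lit 1680) (nat_lit 0) (XT.nd (nat_lit 94) (nat_lit 0) (nat_lit 0) (XT.lf (nat_lit 0) (nat_lit 406489217) (nat_lit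 924) (nat_lit 716770746) (nat_lit 1008) (nat_lit 6306582367) (nat_lit 103) (nat_lit 5) (nat_lit 114) (nat_lit 5) (nat_lit 115) (nat_lit 5) (nat_lit 312) (nat_lit 283) (nat_lit 266)) (XT.nd (nat_lit 94) (nat_lit 0) (nat_lit 0) (XT.lf (nat_lit 0) (nat_lit 3178864933) (nat_lit 1008) (nat_lit 3609191176) (nat_lit 84) (nat_lit 730287501) (nat_lit 103) (nat_lit 5) (nat_lit 115) (nat_lit 5) (nat_lit 104) (nat_lit 5) (nat_lit 313) (nat_lit 283) (nat_lit 265)) (XT.lf (nat_lit 0) (nat_lit 5243477240) (nat_lit 1008) (nat_lit 154441746) (nat_lit 84) (nat_lit 2213774906) (nat_lit 103) (nat_lit 5) (nat_lit 115) (nat_lit 5) (nat_lit 104) (nat_lit 5) (nat_lit 314) (nat_lit 283) (nat_lit 264)))) (XT.nd (nat_lit 94) (nat_lit 672) (nat_lit 0) (XT.lf (nat_lit 0) (nat_lit 3420133895) (nat_lit 1008) (nat_lit 3925705123) (nat_lit 1092) (nat_lit 363309823) (nat_lit 91) (nat_lit 5) (nat_lit 103) (nat_lit 5)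 (nat_lit 104) (nat_lit 5) (nat_lit 315) (nat_lit 283) (nat_lit 263)) (XT.nd (nat_lit 94) (nat_lit 588) (nat_lit 0) (XT.lf (nat_lit 0) (nat_lit 1611147215) (nat_lit 1092) (nat_lit 774912857) (nat_lit 84) (nat_lit 5425220844) (nat_lit 90) (nat_lit 5) (nat_lit 103) (nat_lit 5) (nat_lit 91) (nat_lit 5) (nat_lit 316) (nat_lit 283) (nat_lit 262)) (XT.lf (nat_lit 0) (nat_lit 2846261250) (nat_lit 588) (nat_lit 763137119) (nat_lit 672) (nat_lit 4308353621) (nat_lit 83) (nat_lit 5) (nat_lit 90) (nat_lit 5) (nat_lit 91) (nat_lit 5) (nat_lit 317) (nat_lit 283) (nat_lit 261))))) (XT.nd (nat_lit 282) (nat_lit 924) (nat_lit 0) (XT.nd (nat_lit 94) (nat_lit 588) (nat_lit 0) (XT.lf (nat_lit 0) (nat_lit 5629913876) (nat_lit 672) (nat_lit 1497332487) (nat_lit 84) (nat_lit 901858743) (nat_lit 83) (nat_lit 5) (nat_lit 91) (nat_lit 5) (nat_lit 84) (nat_lit 5) (nat_lit 318) (nat_lit 283) (nat_lit 260)) (XT.nd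 (nat_lit 94) (nat_lit 84) (nat_lit 0) (XT.lf (nat_lit 0) (nat_lit 2168150827) (nat_lit 504) (nat_lit 5519057320) (nat_lit 588) (nat_lit 457844353) (nat_lit 77) (nat_lit 5) (nat_lit 83) (nat_lit 5) (nat_lit 84) (nat_lit 5) (nat_lit 319) (nat_lit 283) (nat_lit 259)) (XT.lf (nat_lit 0) (nat_lit 1473439386) (nat_lit 588) (nat_lit 2356818209) (nat_lit 84) (nat_lit 4435395953) (nat_lit 76) (nat_lit 5) (nat_lit 83) (nat_lit 5) (nat_lit 77) (nat_lit 5) (nat_lit 320) (nat_lit 283) (nat_lit 258)))) (XT.nd (nat_lit 94) (nat_lit 420) (nat_lit 0) (XT.lf (nat_lit 0) (nat_lit 1343319288) (nat_lit 504) (nat_lit 2071808690) (nat_lit 588) (nat_lit 4976269607) (nat_lit 70) (nat_lit 5) (nat_lit 76) (nat_lit 5) (nat_lit 77) (nat_lit 5) (nat_lit 321) (nat_lit 283) (nat_lit 257)) (XT.nd (nat_lit 94) (nat_lit 420) (nat_lit 0) (XT.lf (nat_lit 0) (nat_lit 5154125859) (nat_lit 504) (nat_lit 235269428) (nat_lit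 588) (nat_lit 3132802005) (nat_lit 70) (nat_lit 5) (nat_lit 76) (nat_lit 5) (nat_lit 77) (nat_lit 5) (nat_lit 322) (nat_lit 283) (nat_lit 256)) (XT.lf (nat_lit 0) (nat_lit 362652523) (nat_lit 420) (nat_lit 7031598310) (nat_lit 504) (nat_lit 1264042509) (nat_lit 65) (nat_lit 5) (nat_lit 70) (nat_lit 5) (nat_lit 71) (nat_lit 5) (nat_lit 323) (nat_lit 283) (nat_lit 255))))))) (XT.nd (nat_lit 1128) (nat_lit 1596) (nat_lit 0) (XT.nd (nat_lit 564) (nat_lit 840) (nat_lit 0) (XT.nd (nat_lit 282) (nat_lit 420) (nat_lit 0) (XT.nd (nat_lit 94) (nat_lit 420) (nat_lit 0) (XT.lf (nat_lit 0) (nat_lit 636762864) (nat_lit 504) (nat_lit 4581411569) (nat_lit 84) (nat_lit 3580893922) (nat_lit 64) (nat_lit 5) (nat_lit 70) (nat_lit 5) (nat_lit 65) (nat_lit 5) (nat_lit 324) (nat_lit 283) (nat_lit 254)) (XT.nd (nat_lit 94) (nat_lit 420) (nat_lit 0) (XT.lf (nat_lit 0) (nat_lit 2521296837) (nat_lit 504) (nat_lit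 818300069) (nat_lit 84) (nat_lit 5605993743) (nat_lit 64) (nat_lit 5) (nat_lit 70) (nat_lit 5) (nat_lit 65) (nat_lit 5) (nat_lit 325) (nat_lit 283) (nat_lit 253)) (XT.lf (nat_lit 0) (nat_lit 3071627193) (nat_lit 420) (nat_lit 1375627361) (nat_lit 504) (nat_lit 4650186372) (nat_lit 59) (nat_lit 5) (nat_lit 64) (nat_lit 5) (nat_lit 65) (nat_lit 5) (nat_lit 326) (nat_lit 283) (nat_lit 252)))) (XT.nd (nat_lit 94) (nat_lit 420) (nat_lit 0) (XT.lf (nat_lit 0) (nat_lit 6401391488) (nat_lit 504) (nat_lit 2213623170) (nat_lit 84) (nat_lit 640212296) (nat_lit 59) (nat_lit 5) (nat_lit 65) (nat_lit 5) (nat_lit 60) (nat_lit 5) (nat_lit 327) (nat_lit 283) (nat_lit 251)) (XT.nd (nat_lit 94) (nat_lit 84) (nat_lit 0) (XT.lf (nat_lit 0) (nat_lit 1685370077) (nat_lit 336) (nat_lit 6716331504) (nat_lit 420) (nat_lit 1016892881) (nat_lit 55) (nat_lit 5) (nat_lit 59) (nat_lit 5) (nat_lit 60) (nat_lit 5)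 (nat_lit 328) (nat_lit 283) (nat_lit 250)) (XT.lf (nat_lit 0) (nat_lit 837644385) (nat_lit 420) (nat_lit 3894984691) (nat_lit 84) (nat_lit 4855028830) (nat_lit 54) (nat_lit 5) (nat_lit 59) (nat_lit 5) (nat_lit 55) (nat_lit 5) (nat_lit 329) (nat_lit 283) (nat_lit 249))))) (XT.nd (nat_lit 282) (nat_lit 420) (nat_lit 0) (XT.nd (nat_lit 94) (nat_lit 0) (nat_lit 0) (XT.lf (nat_lit 0) (nat_lit 1533219) (nat_lit 420) (nat_lit 2683361743) (nat_lit 504) (nat_lit 7078320458) (nat_lit 49) (nat_lit 5) (nat_lit 54) (nat_lit 5) (nat_lit 55) (nat_lit 5) (nat_lit 330) (nat_lit 283) (nat_lit 248)) (XT.nd (nat_lit 94) (nat_lit 0) (nat_lit 0) (XT.lf (nat_lit 0) (nat_lit 4051586752) (nat_lit 420) (nat_lit 535628649) (nat_lit 504) (nat_lit 5357283411) (nat_lit 49) (nat_lit 5) (nat_lit 54) (nat_lit 5) (nat_lit 55) (nat_lit 5) (nat_lit 331) (nat_lit 283) (nat_lit 247)) (XT.lf (nat_lit 0) (nat_lit 6523531266)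 (nat_lit 504) (nat_lit 1970623003) (nat_lit 84) (nat_lit 1638231072) (nat_lit 49) (nat_lit 5) (nat_lit 55) (nat_lit 5) (nat_lit 50) (nat_lit 5) (nat_lit 332) (nat_lit 283) (nat_lit 246)))) (XT.nd (nat_lit 94) (nat_lit 84) (nat_lit 0) (XT.lf (nat_lit 0) (nat_lit 2061040145) (nat_lit 336) (nat_lit 6444379208) (nat_lit 420) (nat_lit 1821327845) (nat_lit 45) (nat_lit 5) (nat_lit 49) (nat_lit 5) (nat_lit 50) (nat_lit 5) (nat_lit 333) (nat_lit 283) (nat_lit 245)) (XT.nd (nat_lit 94) (nat_lit 0) (nat_lit 0) (XT.lf (nat_lit 0) (nat_lit 1720350) (nat_lit 420) (nat_lit 4316253858) (nat_lit 84) (nat_lit 6209947331) (nat_lit 44) (nat_lit 5) (nat_lit 49) (nat_lit 5) (nat_lit 45) (nat_lit 5) (nat_lit 334) (nat_lit 283) (nat_lit 244)) (XT.lf (nat_lit 0) (nat_lit 1804424017) (nat_lit 420) (nat_lit 310321884) (nat_lit 84) (nat_lit 8621403757) (nat_lit 44) (nat_lit 5) (nat_lit 49) (nat_lit 5) (nat_lit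 45) (nat_lit 5) (nat_lit 335) (nat_lit 283) (nat_lit 243)))))) (XT.nd (nat_lit 564) (nat_lit 588) (nat_lit 0) (XT.nd (nat_lit 282) (nat_lit 420) (nat_lit 0) (XT.nd (nat_lit 94) (nat_lit 252) (nat_lit 0) (XT.lf (nat_lit 0) (nat_lit 3665232621) (nat_lit 420) (nat_lit 7101377985) (nat_lit 84) (nat_lit 184332867) (nat_lit 40) (nat_lit 5) (nat_lit 45) (nat_lit 5) (nat_lit 41) (nat_lit 5) (nat_lit 336) (nat_lit 283) (nat_lit 242)) (XT.nd (nat_lit 94) (nat_lit 252) (nat_lit 0) (XT.lf (nat_lit 0) (nat_lit 5571380390) (nat_lit 420) (nat_lit 3095652211) (nat_lit 84) (nat_lit 2505920096) (nat_lit 40) (nat_lit 5) (nat_lit 45) (nat_lit 5) (nat_lit 41) (nat_lit 5) (nat_lit 337) (nat_lit 283) (nat_lit 241)) (XT.lf (nat_lit 0) (nat_lit 1009307251) (nat_lit 252) (nat_lit 6501196853) (nat_lit 336) (nat_lit 3892318505) (nat_lit 37) (nat_lit 5) (nat_lit 40) (nat_lit 5) (nat_lit 41) (nat_lit 5) (nat_lit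 338) (nat_lit 283) (nat_lit 240)))) (XT.nd (nat_lit 94) (nat_lit 420) (nat_lit 0) (XT.lf (nat_lit 0) (nat_lit 5262325965) (nat_lit 252) (nat_lit 4244241498) (nat_lit 336) (nat_lit 2133513163) (nat_lit 37) (nat_lit 5) (nat_lit 40) (nat_lit 5) (nat_lit 41) (nat_lit 5) (nat_lit 339) (nat_lit 283) (nat_lit 239)) (XT.nd (nat_lit 94) (nat_lit 420) (nat_lit 0) (XT.lf (nat_lit 0) (nat_lit 9603715230) (nat_lit 252) (nat_lit 1926375078) (nat_lit 336) (nat_lit 355829151) (nat_lit 37) (nat_lit 5) (nat_lit 40) (nat_lit 5) (nat_lit 41) (nat_lit 5) (nat_lit 340) (nat_lit 283) (nat_lit 238)) (XT.lf (nat_lit 0) (nat_lit 1437240254) (nat_lit 420) (nat_lit 10223028667) (nat_lit 84) (nat_lit 479114535) (nat_lit 32) (nat_lit 5) (nat_lit 37) (nat_lit 5) (nat_lit 33) (nat_lit 5) (nat_lit 341) (nat_lit 283) (nat_lit 237))))) (XT.nd (nat_lit 282) (nat_lit 336) (nat_lit 0) (XT.nd (nat_lit 94) (nat_lit 252)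 (nat_lit 0) (XT.lf (nat_lit 0) (nat_lit 3288898864) (nat_lit 420) (nat_lit 6173761736) (nat_lit 84) (nat_lit 2937754103) (nat_lit 32) (nat_lit 5) (nat_lit 37) (nat_lit 5) (nat_lit 33) (nat_lit 5) (nat_lit 342) (nat_lit 283) (nat_lit 236)) (XT.nd (nat_lit 94) (nat_lit 252) (nat_lit 0) (XT.lf (nat_lit 0) (nat_lit 5165590322) (nat_lit 420) (nat_lit 2041315560) (nat_lit 84) (nat_lit 5463776048) (nat_lit 32) (nat_lit 5) (nat_lit 37) (nat_lit 5) (nat_lit 33) (nat_lit 5) (nat_lit 343) (nat_lit 283) (nat_lit 235)) (XT.lf (nat_lit 0) (nat_lit 2222949206) (nat_lit 252) (nat_lit 4868166624) (nat_lit 336) (nat_lit 5858637612) (nat_lit 29) (nat_lit 5) (nat_lit 32) (nat_lit 5) (nat_lit 33) (nat_lit 5) (nat_lit 344) (nat_lit 283) (nat_lit 234)))) (XT.nd (nat_lit 188) (nat_lit 336) (nat_lit 0) (XT.nd (nat_lit 94) (nat_lit 0) (nat_lit 0) (XT.lf (nat_lit 0) (nat_lit 6622022131) (nat_lit 252) (nat_lit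 2444762984) (nat_lit 336) (nat_lit 4171119290) (nat_lit 29) (nat_lit 5) (nat_lit 32) (nat_lit 5) (nat_lit 33) (nat_lit 5) (nat_lit 345) (nat_lit 283) (nat_lit 233)) (XT.lf (nat_lit 0) (nat_lit 11074212250) (nat_lit 336) (nat_lit 2418453121) (nat_lit 84) (nat_lit 43365081) (nat_lit 29) (nat_lit 5) (nat_lit 33) (nat_lit 5) (nat_lit 30) (nat_lit 5) (nat_lit 346) (nat_lit 283) (nat_lit 232))) (XT.nd (nat_lit 94) (nat_lit 84) (nat_lit 0) (XT.lf (nat_lit 0) (nat_lit 1882843930) (nat_lit 252) (nat_lit 11275589328) (nat_lit 336) (nat_lit 684638102) (nat_lit 26) (nat_lit 5) (nat_lit 29) (nat_lit 5) (nat_lit 30) (nat_lit 5) (nat_lit 347) (nat_lit 283) (nat_lit 231)) (XT.lf (nat_lit 0) (nat_lit 1120975307) (nat_lit 336) (nat_lit 7841240512) (nat_lit 84) (nat_lit 5197288491) (nat_lit 25) (nat_lit 5) (nat_lit 29) (nat_lit 5) (nat_lit 26) (nat_lit 5) (nat_lit 348) (nat_lit 283) (nat_lit 230))))))))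
noncomputable def xc75 : XT := (XT.nd (nat_lit 2256) (nat_lit 420) (nat_lit 0) (XT.nd (nat_lit 1128) (nat_lit 588) (nat_lit 0) (XT.nd (nat_lit 564) (nat_lit 252) (nat_lit 0) (XT.nd (nat_lit 282) (nat_lit 252) (nat_lit 0) (XT.nd (nat_lit 94) (nat_lit 168) (nat_lit 0) (XT.lf (nat_lit 0) (nat_lit 2940175458) (nat_lit 336) (nat_lit 3639880328) (nat_lit 84) (nat_lit 7906460499) (nat_lit 25) (nat_lit 5) (nat_lit 29) (nat_lit 5) (nat_lit 26) (nat_lit 5) (nat_lit 349) (nat_lit 283) (nat_lit 229)) (XT.nd (nat_lit 94) (nat_lit 0) (nat_lit 0) (XT.lf (nat_lit 0) (nat_lit 668020039) (nat_lit 168) (nat_lit 4127058770) (nat_lit 252) (nat_lit 10029338397) (nat_lit 23) (nat_lit 5) (nat_lit 25) (nat_lit 5) (nat_lit 26) (nat_lit 5) (nat_lit 350) (nat_lit 283) (nat_lit 228)) (XT.lf (nat_lit 0) (nat_lit 5149843994) (nat_lit 168) (nat_lit 1568770718) (nat_lit 252) (nat_lit 8453940105) (nat_lit 23) (nat_lit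 5) (nat_lit 25) (nat_lit 5) (nat_lit 26) (nat_lit 5) (nat_lit 351) (nat_lit 283) (nat_lit 227)))) (XT.nd (nat_lit 94) (nat_lit 252) (nat_lit 0) (XT.lf (nat_lit 0) (nat_lit 8686232982) (nat_lit 252) (nat_lit 5807977722) (nat_lit 84) (nat_lit 1037859554) (nat_lit 23) (nat_lit 5) (nat_lit 26) (nat_lit 5) (nat_lit 24) (nat_lit 5) (nat_lit 352) (nat_lit 283) (nat_lit 226)) (XT.nd (nat_lit 94) (nat_lit 252) (nat_lit 0) (XT.lf (nat_lit 0) (nat_lit 10705528415) (nat_lit 252) (nat_lit 1514030061) (nat_lit 84) (nat_lit 3683561574) (nat_lit 23) (nat_lit 5) (nat_lit 26) (nat_lit 5) (nat_lit 24) (nat_lit 5) (nat_lit 353) (nat_lit 283) (nat_lit 225)) (XT.lf (nat_lit 0) (nat_lit 2937888881) (nat_lit 252) (nat_lit 9854076146) (nat_lit 336) (nat_lit 3493663986) (nat_lit 20) (nat_lit 5) (nat_lit 23) (nat_lit 5) (nat_lit 24) (nat_lit 5) (nat_lit 354) (nat_lit 283) (nat_lit 224))))) (XT.nd (nat_lit 282)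 (nat_lit 168) (nat_lit 0) (XT.nd (nat_lit 94) (nat_lit 84) (nat_lit 0) (XT.lf (nat_lit 0) (nat_lit 7525928535) (nat_lit 252) (nat_lit 7408757376) (nat_lit 336) (nat_lit 1745664630) (nat_lit 20) (nat_lit 5) (nat_lit 23) (nat_lit 5) (nat_lit 24) (nat_lit 5) (nat_lit 355) (nat_lit 283) (nat_lit 223)) (XT.nd (nat_lit 94) (nat_lit 0) (nat_lit 0) (XT.lf (nat_lit 0) (nat_lit 31582973) (nat_lit 336) (nat_lit 4865213605) (nat_lit 84) (nat_lit 12191321235) (nat_lit 19) (nat_lit 5) (nat_lit 23) (nat_lit 5) (nat_lit 20) (nat_lit 5) (nat_lit 356) (nat_lit 283) (nat_lit 222)) (XT.lf (nat_lit 0) (nat_lit 1804578409) (nat_lit 336) (nat_lit 493427129) (nat_lit 84) (nat_lit 15210768760) (nat_lit 19) (nat_lit 5) (nat_lit 23) (nat_lit 5) (nat_lit 20) (nat_lit 5) (nat_lit 357) (nat_lit 283) (nat_lit 221)))) (XT.nd (nat_lit 94) (nat_lit 0) (nat_lit 0) (XT.lf (nat_lit 0) (nat_lit 3654567523) (nat_lit 252)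 (nat_lit 13881889092) (nat_lit 84) (nat_lit 405415230) (nat_lit 17) (nat_lit 5) (nat_lit 20) (nat_lit 5) (nat_lit 18) (nat_lit 5) (nat_lit 358) (nat_lit 283) (nat_lit 220)) (XT.nd (nat_lit 94) (nat_lit 0) (nat_lit 0) (XT.lf (nat_lit 0) (nat_lit 5568493426) (nat_lit 252) (nat_lit 9678691214) (nat_lit 84) (nat_lit 3141087722) (nat_lit 17) (nat_lit 5) (nat_lit 20) (nat_lit 5) (nat_lit 18) (nat_lit 5) (nat_lit 359) (nat_lit 283) (nat_lit 219)) (XT.lf (nat_lit 0) (nat_lit 7520297000) (nat_lit 252) (nat_lit 5376143118) (nat_lit 84) (nat_lit 5952814961) (nat_lit 17) (nat_lit 5) (nat_lit 20) (nat_lit 5) (nat_lit 18) (nat_lit 5) (nat_lit 360) (nat_lit 283) (nat_lit 218)))))) (XT.nd (nat_lit 564) (nat_lit 252) (nat_lit 0) (XT.nd (nat_lit 282) (nat_lit 168) (nat_lit 0) (XT.nd (nat_lit 94) (nat_lit 168) (nat_lit 0) (XT.lf (nat_lit 0) (nat_lit 9511797530) (nat_lit 252) (nat_lit 970234379) (nat_lit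 84) (nat_lit 8843217773) (nat_lit 17) (nat_lit 5) (nat_lit 20) (nat_lit 5) (nat_lit 18) (nat_lit 5) (nat_lit 361) (nat_lit 283) (nat_lit 217)) (XT.nd (nat_lit 94) (nat_lit 0) (nat_lit 0) (XT.lf (nat_lit 0) (nat_lit 3615996033) (nat_lit 168) (nat_lit 7964726398) (nat_lit 252) (nat_lit 8234865408) (nat_lit 15) (nat_lit 5) (nat_lit 17) (nat_lit 5) (nat_lit 18) (nat_lit 5) (nat_lit 362) (nat_lit 283) (nat_lit 216)) (XT.lf (nat_lit 0) (nat_lit 8336147060) (nat_lit 168) (nat_lit 5367901890) (nat_lit 252) (nat_lit 6617451138) (nat_lit 15) (nat_lit 5) (nat_lit 17) (nat_lit 5) (nat_lit 18) (nat_lit 5) (nat_lit 363) (nat_lit 283) (nat_lit 215)))) (XT.nd (nat_lit 94) (nat_lit 168) (nat_lit 0) (XT.lf (nat_lit 0) (nat_lit 13174668368) (nat_lit 168) (nat_lit 2699265129) (nat_lit 252) (nat_lit 4969828999) (nat_lit 15) (nat_lit 5) (nat_lit 17) (nat_lit 5) (nat_lit 18) (nat_lit 5) (nat_lit 364) (nat_lit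 283) (nat_lit 214)) (XT.nd (nat_lit 94) (nat_lit 168) (nat_lit 0) (XT.lf (nat_lit 0) (nat_lit 18092831856) (nat_lit 252) (nat_lit 3247225127) (nat_lit 84) (nat_lit 42791453) (nat_lit 15) (nat_lit 5) (nat_lit 18) (nat_lit 5) (nat_lit 16) (nat_lit 4) (nat_lit 365) (nat_lit 283) (nat_lit 213)) (XT.lf (nat_lit 0) (nat_lit 1283121826) (nat_lit 168) (nat_lit 19119525014) (nat_lit 252) (nat_lit 1535378679) (nat_lit 13) (nat_lit 5) (nat_lit 15) (nat_lit 5) (nat_lit 16) (nat_lit 4) (nat_lit 366) (nat_lit 283) (nat_lit 212))))) (XT.nd (nat_lit 282) (nat_lit 168) (nat_lit 0) (XT.nd (nat_lit 94) (nat_lit 0) (nat_lit 0) (XT.lf (nat_lit 0) (nat_lit 284213647) (nat_lit 252) (nat_lit 16516683019) (nat_lit 84) (nat_lit 5708995628) (nat_lit 12) (nat_lit 5) (nat_lit 15) (nat_lit 5) (nat_lit 13) (nat_lit 5) (nat_lit 367) (nat_lit 283) (nat_lit 211)) (XT.nd (nat_lit 94) (nat_lit 0) (nat_lit 0) (XT.lf (nat_lit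 0) (nat_lit 2110699270) (nat_lit 252) (nat_lit 12292077052) (nat_lit 84) (nat_lit 8696829852) (nat_lit 12) (nat_lit 5) (nat_lit 15) (nat_lit 5) (nat_lit 13) (nat_lit 5) (nat_lit 368) (nat_lit 283) (nat_lit 210)) (XT.lf (nat_lit 0) (nat_lit 3976715123) (nat_lit 252) (nat_lit 7961916872) (nat_lit 84) (nat_lit 11769557006) (nat_lit 12) (nat_lit 5) (nat_lit 15) (nat_lit 5) (nat_lit 13) (nat_lit 5) (nat_lit 369) (nat_lit 283) (nat_lit 209)))) (XT.nd (nat_lit 94) (nat_lit 168) (nat_lit 0) (XT.lf (nat_lit 0) (nat_lit 5884000528) (nat_lit 252) (nat_lit 3522166316) (nat_lit 84) (nat_lit 14930041195) (nat_lit 12) (nat_lit 5) (nat_lit 15) (nat_lit 5) (nat_lit 13) (nat_lit 5) (nat_lit 370) (nat_lit 283) (nat_lit 208)) (XT.nd (nat_lit 94) (nat_lit 0) (nat_lit 0) (XT.lf (nat_lit 0) (nat_lit 1052518836) (nat_lit 168) (nat_lit 6792255555) (nat_lit 252) (nat_lit 17139150601) (nat_lit 10) (nat_lit 5)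 (nat_lit 12) (nat_lit 5) (nat_lit 13) (nat_lit 5) (nat_lit 371) (nat_lit 283) (nat_lit 207)) (XT.lf (nat_lit 0) (nat_lit 5820025729) (nat_lit 168) (nat_lit 4067240925) (nat_lit 252) (nat_lit 15763858476) (nat_lit 10) (nat_lit 5) (nat_lit 12) (nat_lit 5) (nat_lit 13) (nat_lit 5) (nat_lit 372) (nat_lit 283) (nat_lit 206))))))) (XT.nd (nat_lit 1128) (nat_lit 84) (nat_lit 0) (XT.nd (nat_lit 564) (nat_lit 252) (nat_lit 0) (XT.nd (nat_lit 282) (nat_lit 84) (nat_lit 0) (XT.nd (nat_lit 94) (nat_lit 0) (nat_lit 0) (XT.lf (nat_lit 0) (nat_lit 10712375212) (nat_lit 168) (nat_lit 1265347147) (nat_lit 252) (nat_lit 14361813413) (nat_lit 10) (nat_lit 5) (nat_lit 12) (nat_lit 5) (nat_lit 13) (nat_lit 5) (nat_lit 373) (nat_lit 283) (nat_lit 205)) (XT.nd (nat_lit 94) (nat_lit 0) (nat_lit 0) (XT.lf (nat_lit 0) (nat_lit 14134121324) (nat_lit 252) (nat_lit 11331702416) (nat_lit 84) (nat_lit 1583477883)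 (nat_lit 10) (nat_lit 5) (nat_lit 13) (nat_lit 5) (nat_lit 11) (nat_lit 4) (nat_lit 374) (nat_lit 283) (nat_lit 204)) (XT.lf (nat_lit 0) (nat_lit 16355794906) (nat_lit 252) (nat_lit 6938042517) (nat_lit 84) (nat_lit 4487329872) (nat_lit 10) (nat_lit 5) (nat_lit 13) (nat_lit 5) (nat_lit 11) (nat_lit 4) (nat_lit 375) (nat_lit 283) (nat_lit 203)))) (XT.nd (nat_lit 94) (nat_lit 84) (nat_lit 0) (XT.lf (nat_lit 0) (nat_lit 18632261535) (nat_lit 252) (nat_lit 2429533113) (nat_lit 84) (nat_lit 7474409439) (nat_lit 10) (nat_lit 5) (nat_lit 13) (nat_lit 5) (nat_lit 11) (nat_lit 4) (nat_lit 376) (nat_lit 283) (nat_lit 202)) (XT.nd (nat_lit 94) (nat_lit 0) (nat_lit 0) (XT.lf (nat_lit 0) (nat_lit 2243224167) (nat_lit 84) (nat_lit 18744672013) (nat_lit 168) (nat_lit 8326529749) (nat_lit 9) (nat_lit 5) (nat_lit 10) (nat_lit 5) (nat_lit 11) (nat_lit 4) (nat_lit 377) (nat_lit 283) (nat_lit 201)) (XT.lf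 (nat_lit 0) (nat_lit 7091839555) (nat_lit 84) (nat_lit 16336626983) (nat_lit 168) (nat_lit 6687980933) (nat_lit 9) (nat_lit 5) (nat_lit 10) (nat_lit 5) (nat_lit 11) (nat_lit 4) (nat_lit 378) (nat_lit 283) (nat_lit 200))))) (XT.nd (nat_lit 282) (nat_lit 252) (nat_lit 0) (XT.nd (nat_lit 94) (nat_lit 0) (nat_lit 0) (XT.lf (nat_lit 0) (nat_lit 12070876285) (nat_lit 84) (nat_lit 13860774353) (nat_lit 168) (nat_lit 5012128149) (nat_lit 9) (nat_lit 5) (nat_lit 10) (nat_lit 5) (nat_lit 11) (nat_lit 4) (nat_lit 379) (nat_lit 283) (nat_lit 199)) (XT.nd (nat_lit 94) (nat_lit 0) (nat_lit 0) (XT.lf (nat_lit 0) (nat_lit 17184975339) (nat_lit 84) (nat_lit 11314806366) (nat_lit 168) (nat_lit 3297409327) (nat_lit 9) (nat_lit 5) (nat_lit 10) (nat_lit 5) (nat_lit 11) (nat_lit 4) (nat_lit 380) (nat_lit 283) (nat_lit 198)) (XT.lf (nat_lit 0) (nat_lit 22438903594) (nat_lit 84) (nat_lit 8696349916) (nat_lit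 168) (nat_lit 1542226169) (nat_lit 9) (nat_lit 5) (nat_lit 10) (nat_lit 5) (nat_lit 11) (nat_lit 4) (nat_lit 381) (nat_lit 283) (nat_lit 197)))) (XT.nd (nat_lit 94) (nat_lit 168) (nat_lit 0) (XT.lf (nat_lit 0) (nat_lit 249918502) (nat_lit 168) (nat_lit 5750437187) (nat_lit 84) (nat_lit 27585031123) (nat_lit 8) (nat_lit 5) (nat_lit 10) (nat_lit 5) (nat_lit 9) (nat_lit 5) (nat_lit 382) (nat_lit 283) (nat_lit 196)) (XT.nd (nat_lit 94) (nat_lit 168) (nat_lit 0) (XT.lf (nat_lit 0) (nat_lit 2053884380) (nat_lit 168) (nat_lit 1156816357) (nat_lit 84) (nat_lit 31310648733) (nat_lit 8) (nat_lit 5) (nat_lit 10) (nat_lit 5) (nat_lit 9) (nat_lit 5) (nat_lit 383) (nat_lit 283) (nat_lit 195)) (XT.lf (nat_lit 0) (nat_lit 3635106507) (nat_lit 168) (nat_lit 303379569) (nat_lit 252) (nat_lit 31547110385) (nat_lit 6) (nat_lit 5) (nat_lit 8) (nat_lit 5) (nat_lit 9) (nat_lit 5) (nat_lit 384) (nat_lit 283)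 (nat_lit 194)))))) (XT.nd (nat_lit 564) (nat_lit 84) (nat_lit 0) (XT.nd (nat_lit 282) (nat_lit 0) (nat_lit 0) (XT.nd (nat_lit 94) (nat_lit 0) (nat_lit 0) (XT.lf (nat_lit 0) (nat_lit 5909197919) (nat_lit 252) (nat_lit 27923592466) (nat_lit 84) (nat_lit 2646120927) (nat_lit 6) (nat_lit 5) (nat_lit 9) (nat_lit 5) (nat_lit 7) (nat_lit 4) (nat_lit 385) (nat_lit 283) (nat_lit 193)) (XT.nd (nat_lit 94) (nat_lit 0) (nat_lit 0) (XT.lf (nat_lit 0) (nat_lit 7933206253) (nat_lit 252) (nat_lit 23895023829) (nat_lit 84) (nat_lit 5675063986) (nat_lit 6) (nat_lit 5) (nat_lit 9) (nat_lit 5) (nat_lit 7) (nat_lit 4) (nat_lit 386) (nat_lit 283) (nat_lit 192)) (XT.lf (nat_lit 0) (nat_lit 10009388103) (nat_lit 252) (nat_lit 19758019430) (nat_lit 84) (nat_lit 8792385321) (nat_lit 6) (nat_lit 5) (nat_lit 9) (nat_lit 5) (nat_lit 7) (nat_lit 4) (nat_lit 387) (nat_lit 283) (nat_lit 191)))) (XT.nd (nat_lit 94)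 (nat_lit 0) (nat_lit 0) (XT.lf (nat_lit 0) (nat_lit 12139678689) (nat_lit 252) (nat_lit 15508723149) (nat_lit 84) (nat_lit 12000990602) (nat_lit 6) (nat_lit 5) (nat_lit 9) (nat_lit 5) (nat_lit 7) (nat_lit 4) (nat_lit 388) (nat_lit 283) (nat_lit 190)) (XT.nd (nat_lit 94) (nat_lit 0) (nat_lit 0) (XT.lf (nat_lit 0) (nat_lit 14326063664) (nat_lit 252) (nat_lit 11143174196) (nat_lit 84) (nat_lit 15303870585) (nat_lit 6) (nat_lit 5) (nat_lit 9) (nat_lit 5) (nat_lit 7) (nat_lit 4) (nat_lit 389) (nat_lit 283) (nat_lit 189)) (XT.lf (nat_lit 0) (nat_lit 16570580969) (nat_lit 252) (nat_lit 6657303422) (nat_lit 84) (nat_lit 18704103900) (nat_lit 6) (nat_lit 5) (nat_lit 9) (nat_lit 5) (nat_lit 7) (nat_lit 4) (nat_lit 390) (nat_lit 283) (nat_lit 188))))) (XT.nd (nat_lit 282) (nat_lit 0) (nat_lit 0) (XT.nd (nat_lit 94) (nat_lit 84) (nat_lit 0) (XT.lf (nat_lit 0) (nat_lit 18875322728) (nat_lit 252)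 (nat_lit 2046929527) (nat_lit 84) (nat_lit 22204859922) (nat_lit 6) (nat_lit 5) (nat_lit 9) (nat_lit 5) (nat_lit 7) (nat_lit 4) (nat_lit 391) (nat_lit 283) (nat_lit 187)) (XT.nd (nat_lit 94) (nat_lit 0) (nat_lit 0) (XT.lf (nat_lit 0) (nat_lit 2747602917) (nat_lit 84) (nat_lit 18522090845) (nat_lit 168) (nat_lit 23089055364) (nat_lit 5) (nat_lit 5) (nat_lit 6) (nat_lit 5) (nat_lit 7) (nat_lit 4) (nat_lit 392) (nat_lit 283) (nat_lit 186)) (XT.lf (nat_lit 0) (nat_lit 7720181544) (nat_lit 84) (nat_lit 16030534401) (nat_lit 168) (nat_lit 21877492720) (nat_lit 5) (nat_lit 5) (nat_lit 6) (nat_lit 5) (nat_lit 7) (nat_lit 4) (nat_lit 393) (nat_lit 283) (nat_lit 185)))) (XT.nd (nat_lit 188) (nat_lit 0) (nat_lit 0) (XT.nd (nat_lit 94) (nat_lit 0) (nat_lit 0) (XT.lf (nat_lit 0) (nat_lit 12833352249) (nat_lit 84) (nat_lit 13466626278) (nat_lit 168) (nat_lit 20637337958) (nat_lit 5) (nat_lit 5)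 (nat_lit 6) (nat_lit 5) (nat_lit 7) (nat_lit 4) (nat_lit 394) (nat_lit 283) (nat_lit 184)) (XT.lf (nat_lit 0) (nat_lit 18091881042) (nat_lit 84) (nat_lit 10827976644) (nat_lit 168) (nat_lit 19367435125) (nat_lit 5) (nat_lit 5) (nat_lit 6) (nat_lit 5) (nat_lit 7) (nat_lit 4) (nat_lit 395) (nat_lit 283) (nat_lit 183))) (XT.nd (nat_lit 94) (nat_lit 0) (nat_lit 0) (XT.lf (nat_lit 0) (nat_lit 23500669423) (nat_lit 84) (nat_lit 8112126001) (nat_lit 168) (nat_lit 18066600537) (nat_lit 5) (nat_lit 5) (nat_lit 6) (nat_lit 5) (nat_lit 7) (nat_lit 4) (nat_lit 396) (nat_lit 283) (nat_lit 182)) (XT.lf (nat_lit 0) (nat_lit 29064758949) (nat_lit 84) (nat_lit 5316542893) (nat_lit 168) (nat_lit 16733621682) (nat_lit 5) (nat_lit 5) (nat_lit 6) (nat_lit 5) (nat_lit 7) (nat_lit 4) (nat_lit 397) (nat_lit 283) (nat_lit 181))))))))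
noncomputable def xc76 : XT := (XT.nd (nat_lit 45026) (nat_lit 0) (nat_lit 4704) (XT.nd (nat_lit 1128) (nat_lit 0) (nat_lit 0) (XT.nd (nat_lit 564) (nat_lit 84) (nat_lit 0) (XT.nd (nat_lit 282) (nat_lit 84) (nat_lit 0) (XT.nd (nat_lit 94) (nat_lit 0) (nat_lit 0) (XT.lf (nat_lit 0) (nat_lit 34789335934) (nat_lit 84) (nat_lit 2438621543) (nat_lit 168) (nat_lit 15367256083) (nat_lit 5) (nat_lit 5) (nat_lit 6) (nat_lit 5) (nat_lit 7) (nat_lit 4) (nat_lit 398) (nat_lit 283) (nat_lit 180)) (XT.nd (nat_lit 94) (nat_lit 0) (nat_lit 0) (XT.lf (nat_lit 0) (nat_lit 40160617036) (nat_lit 168) (nat_lit 13447110896) (nat_lit 0) (nat_lit 513756682) (nat_lit 5) (nat_lit 5) (nat_lit 7) (nat_lit 4) (nat_lit 5) (nat_lit 4) (nat_lit 399) (nat_lit 283) (nat_lit 179)) (XT.lf (nat_lit 0) (nat_lit 43201870133) (nat_lit 168) (nat_lit 8989657626) (nat_lit 0) (nat_lit 3503016034) (nat_lit 5) (nat_lit 5) (nat_lit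 7) (nat_lit 4) (nat_lit 5) (nat_lit 4) (nat_lit 400) (nat_lit 283) (nat_lit 178)))) (XT.nd (nat_lit 94) (nat_lit 84) (nat_lit 0) (XT.lf (nat_lit 0) (nat_lit 46330360106) (nat_lit 168) (nat_lit 4405171574) (nat_lit 0) (nat_lit 6581075605) (nat_lit 5) (nat_lit 5) (nat_lit 7) (nat_lit 4) (nat_lit 5) (nat_lit 4) (nat_lit 401) (nat_lit 283) (nat_lit 177)) (XT.nd (nat_lit 94) (nat_lit 0) (nat_lit 0) (XT.lf (nat_lit 0) (nat_lit 317007473) (nat_lit 84) (nat_lit 49235140316) (nat_lit 84) (nat_lit 9436941749) (nat_lit 4) (nat_lit 4) (nat_lit 5) (nat_lit 5) (nat_lit 5) (nat_lit 4) (nat_lit 402) (nat_lit 283) (nat_lit 176)) (XT.lf (nat_lit 0) (nat_lit 5268257801) (nat_lit 84) (nat_lit 47644803003) (nat_lit 84) (nat_lit 7799161114) (nat_lit 4) (nat_lit 4) (nat_lit 5) (nat_lit 5) (nat_lit 5) (nat_lit 4) (nat_lit 403) (nat_lit 283) (nat_lit 175))))) (XT.nd (nat_lit 282) (nat_lit 84) (nat_lit 0) (XT.nd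 (nat_lit 94) (nat_lit 0) (nat_lit 0) (XT.lf (nat_lit 0) (nat_lit 10362615131) (nat_lit 84) (nat_lit 46009018338) (nat_lit 84) (nat_lit 6117359646) (nat_lit 4) (nat_lit 4) (nat_lit 5) (nat_lit 5) (nat_lit 5) (nat_lit 4) (nat_lit 404) (nat_lit 283) (nat_lit 174)) (XT.nd (nat_lit 94) (nat_lit 0) (nat_lit 0) (XT.lf (nat_lit 0) (nat_lit 15604827938) (nat_lit 84) (nat_lit 44326261597) (nat_lit 84) (nat_lit 4389969732) (nat_lit 4) (nat_lit 4) (nat_lit 5) (nat_lit 5) (nat_lit 5) (nat_lit 4) (nat_lit 405) (nat_lit 283) (nat_lit 173)) (XT.lf (nat_lit 0) (nat_lit 20999782513) (nat_lit 84) (nat_lit 42594964275) (nat_lit 84) (nat_lit 2615381262) (nat_lit 4) (nat_lit 4) (nat_lit 5) (nat_lit 5) (nat_lit 5) (nat_lit 4) (nat_lit 406) (nat_lit 283) (nat_lit 172)))) (XT.nd (nat_lit 94) (nat_lit 84) (nat_lit 0) (XT.lf (nat_lit 0) (nat_lit 26552507519) (nat_lit 84) (nat_lit 40813512621) (nat_lit 84) (nat_lit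 791940134) (nat_lit 4) (nat_lit 4) (nat_lit 5) (nat_lit 5) (nat_lit 5) (nat_lit 4) (nat_lit 407) (nat_lit 283) (nat_lit 171)) (XT.nd (nat_lit 94) (nat_lit 0) (nat_lit 0) (XT.lf (nat_lit 0) (nat_lit 1060252326) (nat_lit 168) (nat_lit 37908926950) (nat_lit 84) (nat_lit 31196859491) (nat_lit 3) (nat_lit 5) (nat_lit 5) (nat_lit 5) (nat_lit 4) (nat_lit 4) (nat_lit 408) (nat_lit 283) (nat_lit 170)) (XT.lf (nat_lit 0) (nat_lit 2947734303) (nat_lit 168) (nat_lit 34114953421) (nat_lit 84) (nat_lit 35173620988) (nat_lit 3) (nat_lit 5) (nat_lit 5) (nat_lit 5) (nat_lit 4) (nat_lit 4) (nat_lit 409) (nat_lit 283) (nat_lit 169)))))) (XT.nd (nat_lit 43334) (nat_lit 0) (nat_lit 12936) (XT.nd (nat_lit 43052) (nat_lit 0) (nat_lit 13944) (XT.nd (nat_lit 94) (nat_lit 0) (nat_lit 0) (XT.lf (nat_lit 0) (nat_lit 4888220956) (nat_lit 168) (nat_lit 30212139642) (nat_lit 84) (nat_lit 39270582760) (nat_lit 3)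 (nat_lit 5) (nat_lit 5) (nat_lit 5) (nat_lit 4) (nat_lit 4) (nat_lit 410) (nat_lit 283) (nat_lit 168)) (XT.nd (nat_lit 94) (nat_lit 0) (nat_lit 0) (XT.lf (nat_lit 0) (nat_lit 6883521021) (nat_lit 168) (nat_lit 26196847783) (nat_lit 84) (nat_lit 43491563602) (nat_lit 3) (nat_lit 5) (nat_lit 5) (nat_lit 5) (nat_lit 4) (nat_lit 4) (nat_lit 411) (nat_lit 283) (nat_lit 167)) (XT.lf (nat_lit 0) (nat_lit 8935494327) (nat_lit 168) (nat_lit 22065335171) (nat_lit 84) (nat_lit 47840497912) (nat_lit 3) (nat_lit 5) (nat_lit 5) (nat_lit 5) (nat_lit 4) (nat_lit 4) (nat_lit 412) (nat_lit 283) (nat_lit 166)))) (XT.nd (nat_lit 94) (nat_lit 252) (nat_lit 0) (XT.lf (nat_lit 0) (nat_lit 661650362) (nat_lit 252) (nat_lit 1921214140) (nat_lit 0) (nat_lit 661650362) (nat_lit 172) (nat_lit 5) (nat_lit 175) (nat_lit 4) (nat_lit 172) (nat_lit 4) (nat_lit 293) (nat_lit 284) (nat_lit 284)) (XT.nd (nat_lit 94)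 (nat_lit 252) (nat_lit 0) (XT.lf (nat_lit 0) (nat_lit 3752014763) (nat_lit 252) (nat_lit 1093127923) (nat_lit 0) (nat_lit 1661517546) (nat_lit 172) (nat_lit 5) (nat_lit 175) (nat_lit 4) (nat_lit 172) (nat_lit 4) (nat_lit 294) (nat_lit 284) (nat_lit 283)) (XT.lf (nat_lit 0) (nat_lit 1718824132) (nat_lit 252) (nat_lit 4463641212) (nat_lit 252) (nat_lit 345503629) (nat_lit 169) (nat_lit 4) (nat_lit 172) (nat_lit 5) (nat_lit 172) (nat_lit 4) (nat_lit 295) (nat_lit 284) (nat_lit 282))))) (XT.nd (nat_lit 282) (nat_lit 504) (nat_lit 0) (XT.nd (nat_lit 94) (nat_lit 420) (nat_lit 0) (XT.lf (nat_lit 0) (nat_lit 2016610054) (nat_lit 336) (nat_lit 1989076050) (nat_lit 84) (nat_lit 2546833194) (nat_lit 168) (nat_lit 5) (nat_lit 172) (nat_lit 5) (nat_lit 169) (nat_lit 4) (nat_lit 296) (nat_lit 284) (nat_lit 281)) (XT.nd (nat_lit 94) (nat_lit 84) (nat_lit 0) (XT.lf (nat_lit 0) (nat_lit 875010401)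 (nat_lit 336) (nat_lit 3490997095) (nat_lit 420) (nat_lit 2214932358) (nat_lit 164) (nat_lit 5) (nat_lit 168) (nat_lit 5) (nat_lit 169) (nat_lit 4) (nat_lit 297) (nat_lit 284) (nat_lit 280)) (XT.lf (nat_lit 0) (nat_lit 108390730) (nat_lit 420) (nat_lit 2800962881) (nat_lit 84) (nat_lit 3703610638) (nat_lit 163) (nat_lit 5) (nat_lit 168) (nat_lit 5) (nat_lit 164) (nat_lit 5) (nat_lit 298) (nat_lit 284) (nat_lit 279)))) (XT.nd (nat_lit 94) (nat_lit 84) (nat_lit 0) (XT.lf (nat_lit 0) (nat_lit 116092408) (nat_lit 420) (nat_lit 2258410292) (nat_lit 504) (nat_lit 4274065413) (nat_lit 158) (nat_lit 5) (nat_lit 163) (nat_lit 5) (nat_lit 164) (nat_lit 5) (nat_lit 299) (nat_lit 284) (nat_lit 278)) (XT.nd (nat_lit 94) (nat_lit 84) (nat_lit 0) (XT.lf (nat_lit 0) (nat_lit 3125888314) (nat_lit 420) (nat_lit 1531806614) (nat_lit 504) (nat_lit 2029916701) (nat_lit 158) (nat_lit 5) (nat_lit 163) (nat_lit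 5) (nat_lit 164) (nat_lit 5) (nat_lit 300) (nat_lit 284) (nat_lit 277)) (XT.lf (nat_lit 0) (nat_lit 196683866) (nat_lit 504) (nat_lit 559364773) (nat_lit 84) (nat_lit 5974899895) (nat_lit 157) (nat_lit 5) (nat_lit 163) (nat_lit 5) (nat_lit 158) (nat_lit 5) (nat_lit 301) (nat_lit 284) (nat_lit 276))))))) (XT.nd (nat_lit 1128) (nat_lit 3696) (nat_lit 0) (XT.nd (nat_lit 564) (nat_lit 2688) (nat_lit 0) (XT.nd (nat_lit 282) (nat_lit 756) (nat_lit 0) (XT.nd (nat_lit 94) (nat_lit 588) (nat_lit 0) (XT.lf (nat_lit 0) (nat_lit 2397219861) (nat_lit 588) (nat_lit 4268480293) (nat_lit 84) (nat_lit 111553245) (nat_lit 151) (nat_lit 5) (nat_lit 158) (nat_lit 5) (nat_lit 152) (nat_lit 5) (nat_lit 302) (nat_lit 284) (nat_lit 275)) (XT.nd (nat_lit 94) (nat_lit 588) (nat_lit 0) (XT.lf (nat_lit 0) (nat_lit 4602692517) (nat_lit 588) (nat_lit 1207310352) (nat_lit 84) (nat_lit 1017561159) (nat_lit 151) (nat_lit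 5) (nat_lit 158) (nat_lit 5) (nat_lit 152) (nat_lit 5) (nat_lit 303) (nat_lit 284) (nat_lit 274)) (XT.lf (nat_lit 0) (nat_lit 1930832592) (nat_lit 588) (nat_lit 4890257989) (nat_lit 672) (nat_lit 60652809) (nat_lit 144) (nat_lit 5) (nat_lit 151) (nat_lit 5) (nat_lit 152) (nat_lit 5) (nat_lit 304) (nat_lit 284) (nat_lit 273)))) (XT.nd (nat_lit 94) (nat_lit 672) (nat_lit 0) (XT.lf (nat_lit 0) (nat_lit 2065433398) (nat_lit 672) (nat_lit 1825352830) (nat_lit 84) (nat_lit 3048610093) (nat_lit 143) (nat_lit 5) (nat_lit 151) (nat_lit 5) (nat_lit 144) (nat_lit 5) (nat_lit 305) (nat_lit 284) (nat_lit 272)) (XT.nd (nat_lit 94) (nat_lit 0) (nat_lit 0) (XT.lf (nat_lit 0) (nat_lit 1367450669) (nat_lit 672) (nat_lit 2830294519) (nat_lit 756) (nat_lit 2803421861) (nat_lit 135) (nat_lit 5) (nat_lit 143) (nat_lit 5) (nat_lit 144) (nat_lit 5) (nat_lit 306) (nat_lit 284) (nat_lit 271)) (XT.lf (nat_lit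 0) (nat_lit 4641922880) (nat_lit 672) (nat_lit 1702909203) (nat_lit 756) (nat_lit 722134181) (nat_lit 135) (nat_lit 5) (nat_lit 143) (nat_lit 5) (nat_lit 144) (nat_lit 5) (nat_lit 307) (nat_lit 284) (nat_lit 270))))) (XT.nd (nat_lit 282) (nat_lit 1008) (nat_lit 0) (XT.nd (nat_lit 94) (nat_lit 840) (nat_lit 0) (XT.lf (nat_lit 0) (nat_lit 829446456) (nat_lit 756) (nat_lit 504313262) (nat_lit 840) (nat_lit 5802997373) (nat_lit 125) (nat_lit 5) (nat_lit 134) (nat_lit 5) (nat_lit 135) (nat_lit 5) (nat_lit 308) (nat_lit 284) (nat_lit 269)) (XT.nd (nat_lit 94) (nat_lit 840) (nat_lit 0) (XT.lf (nat_lit 0) (nat_lit 3403412898) (nat_lit 840) (nat_lit 3044967174) (nat_lit 84) (nat_lit 761663313) (nat_lit 125) (nat_lit 5) (nat_lit 135) (nat_lit 5) (nat_lit 126) (nat_lit 5) (nat_lit 309) (nat_lit 284) (nat_lit 268)) (XT.lf (nat_lit 0) (nat_lit 262010163) (nat_lit 840) (nat_lit 5217210548) (nat_lit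 924) (nat_lit 1808641396) (nat_lit 115) (nat_lit 5) (nat_lit 125) (nat_lit 5) (nat_lit 126) (nat_lit 5) (nat_lit 310) (nat_lit 284) (nat_lit 267)))) (XT.nd (nat_lit 94) (nat_lit 924) (nat_lit 0) (XT.lf (nat_lit 0) (nat_lit 212892876) (nat_lit 924) (nat_lit 3691697366) (nat_lit 84) (nat_lit 3464893931) (nat_lit 114) (nat_lit 5) (nat_lit 125) (nat_lit 5) (nat_lit 115) (nat_lit 5) (nat_lit 311) (nat_lit 284) (nat_lit 266)) (XT.nd (nat_lit 94) (nat_lit 924) (nat_lit 0) (XT.lf (nat_lit 0) (nat_lit 2196054637) (nat_lit 924) (nat_lit 328770492) (nat_lit 84) (nat_lit 4930627473) (nat_lit 114) (nat_lit 5) (nat_lit 125) (nat_lit 5) (nat_lit 115) (nat_lit 5) (nat_lit 312) (nat_lit 284) (nat_lit 265)) (XT.lf (nat_lit 0) (nat_lit 3147418696) (nat_lit 924) (nat_lit 1062936580) (nat_lit 1008) (nat_lit 3335080544) (nat_lit 103) (nat_lit 5) (nat_lit 114) (nat_lit 5) (nat_lit 115) (nat_lit 5) (nat_lit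 313) (nat_lit 284) (nat_lit 264)))))) (XT.nd (nat_lit 564) (nat_lit 1428) (nat_lit 0) (XT.nd (nat_lit 282) (nat_lit 1176) (nat_lit 0) (XT.nd (nat_lit 94) (nat_lit 1092) (nat_lit 0) (XT.lf (nat_lit 0) (nat_lit 6234791579) (nat_lit 1008) (nat_lit 960384038) (nat_lit 84) (nat_lit 445051387) (nat_lit 103) (nat_lit 5) (nat_lit 115) (nat_lit 5) (nat_lit 104) (nat_lit 5) (nat_lit 314) (nat_lit 284) (nat_lit 263)) (XT.nd (nat_lit 94) (nat_lit 0) (nat_lit 0) (XT.lf (nat_lit 0) (nat_lit 549655816) (nat_lit 1092) (nat_lit 5174349602) (nat_lit 84) (nat_lit 2014845916) (nat_lit 90) (nat_lit 5) (nat_lit 103) (nat_lit 5) (nat_lit 91) (nat_lit 5) (nat_lit 315) (nat_lit 284) (nat_lit 262)) (XT.lf (nat_lit 0) (nat_lit 2488185134) (nat_lit 1092) (nat_lit 1691175649) (nat_lit 84) (nat_lit 3662576082) (nat_lit 90) (nat_lit 5) (nat_lit 103) (nat_lit 5) (nat_lit 91) (nat_lit 5) (nat_lit 316) (nat_lit 284)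 (nat_lit 261)))) (XT.nd (nat_lit 94) (nat_lit 588) (nat_lit 0) (XT.lf (nat_lit 0) (nat_lit 1884110788) (nat_lit 588) (nat_lit 2565033188) (nat_lit 672) (nat_lit 3500593002) (nat_lit 83) (nat_lit 5) (nat_lit 90) (nat_lit 5) (nat_lit 91) (nat_lit 5) (nat_lit 317) (nat_lit 284) (nat_lit 260)) (XT.nd (nat_lit 94) (nat_lit 588) (nat_lit 0) (XT.lf (nat_lit 0) (nat_lit 5552801547) (nat_lit 588) (nat_lit 880553834) (nat_lit 672) (nat_lit 1629027918) (nat_lit 83) (nat_lit 5) (nat_lit 90) (nat_lit 5) (nat_lit 91) (nat_lit 5) (nat_lit 318) (nat_lit 284) (nat_lit 259)) (XT.lf (nat_lit 0) (nat_lit 259891510) (nat_lit 588) (nat_lit 7065510671) (nat_lit 84) (nat_lit 854420486) (nat_lit 76) (nat_lit 5) (nat_lit 83) (nat_lit 5) (nat_lit 77) (nat_lit 5) (nat_lit 319) (nat_lit 284) (nat_lit 258))))) (XT.nd (nat_lit 282) (nat_lit 924) (nat_lit 0) (XT.nd (nat_lit 94) (nat_lit 504) (nat_lit 0) (XT.lf (nat_lit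 0) (nat_lit 2155717160) (nat_lit 588) (nat_lit 3476828151) (nat_lit 84) (nat_lit 2668703939) (nat_lit 76) (nat_lit 5) (nat_lit 83) (nat_lit 5) (nat_lit 77) (nat_lit 5) (nat_lit 320) (nat_lit 284) (nat_lit 257)) (XT.nd (nat_lit 94) (nat_lit 0) (nat_lit 0) (XT.lf (nat_lit 0) (nat_lit 173692497) (nat_lit 504) (nat_lit 3886665653) (nat_lit 588) (nat_lit 4367932103) (nat_lit 70) (nat_lit 5) (nat_lit 76) (nat_lit 5) (nat_lit 77) (nat_lit 5) (nat_lit 321) (nat_lit 284) (nat_lit 256)) (XT.lf (nat_lit 0) (nat_lit 3958711340) (nat_lit 504) (nat_lit 2050978613) (nat_lit 588) (nat_lit 2550317033) (nat_lit 70) (nat_lit 5) (nat_lit 76) (nat_lit 5) (nat_lit 77) (nat_lit 5) (nat_lit 322) (nat_lit 284) (nat_lit 255)))) (XT.nd (nat_lit 188) (nat_lit 420) (nat_lit 0) (XT.nd (nat_lit 94) (nat_lit 504) (nat_lit 0) (XT.lf (nat_lit 0) (nat_lit 7810265695) (nat_lit 504) (nat_lit 160064094) (nat_lit 588) (nat_lit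 727283628) (nat_lit 70) (nat_lit 5) (nat_lit 76) (nat_lit 5) (nat_lit 77) (nat_lit 5) (nat_lit 323) (nat_lit 284) (nat_lit 254)) (XT.lf (nat_lit 0) (nat_lit 1127947789) (nat_lit 504) (nat_lit 5919159383) (nat_lit 84) (nat_lit 1792325156) (nat_lit 64) (nat_lit 5) (nat_lit 70) (nat_lit 5) (nat_lit 65) (nat_lit 5) (nat_lit 324) (nat_lit 284) (nat_lit 253))) (XT.nd (nat_lit 94) (nat_lit 420) (nat_lit 0) (XT.lf (nat_lit 0) (nat_lit 2989110156) (nat_lit 504) (nat_lit 2181516685) (nat_lit 84) (nat_lit 3816179770) (nat_lit 64) (nat_lit 5) (nat_lit 70) (nat_lit 5) (nat_lit 65) (nat_lit 5) (nat_lit 325) (nat_lit 284) (nat_lit 252)) (XT.lf (nat_lit 0) (nat_lit 1655169096) (nat_lit 420) (nat_lit 3223178467) (nat_lit 504) (nat_lit 4261571290) (nat_lit 59) (nat_lit 5) (nat_lit 64) (nat_lit 5) (nat_lit 65) (nat_lit 5) (nat_lit 326) (nat_lit 284) (nat_lit 251))))))))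
noncomputable def xc77 : XT := (XT.nd (nat_lit 2256) (nat_lit 1260) (nat_lit 0) (XT.nd (nat_lit 1128) (nat_lit 1260) (nat_lit 0) (XT.nd (nat_lit 564) (nat_lit 756) (nat_lit 0) (XT.nd (nat_lit 282) (nat_lit 420) (nat_lit 0) (XT.nd (nat_lit 94) (nat_lit 420) (nat_lit 0) (XT.lf (nat_lit 0) (nat_lit 5607375279) (nat_lit 420) (nat_lit 1196397802) (nat_lit 504) (nat_lit 2494941773) (nat_lit 59) (nat_lit 5) (nat_lit 64) (nat_lit 5) (nat_lit 65) (nat_lit 5) (nat_lit 327) (nat_lit 284) (nat_lit 250)) (XT.nd (nat_lit 94) (nat_lit 84) (nat_lit 0) (XT.lf (nat_lit 0) (nat_lit 164396874) (nat_lit 336) (nat_lit 8591146816) (nat_lit 420) (nat_lit 708159708) (nat_lit 55) (nat_lit 5) (nat_lit 59) (nat_lit 5) (nat_lit 60) (nat_lit 5) (nat_lit 328) (nat_lit 284) (nat_lit 249)) (XT.lf (nat_lit 0) (nat_lit 1118655895) (nat_lit 420) (nat_lit 5488914180) (nat_lit 84) (nat_lit 3025877790) (nat_lit 54) (nat_lit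 5) (nat_lit 59) (nat_lit 5) (nat_lit 55) (nat_lit 5) (nat_lit 329) (nat_lit 284) (nat_lit 248)))) (XT.nd (nat_lit 94) (nat_lit 420) (nat_lit 0) (XT.lf (nat_lit 0) (nat_lit 2945036385) (nat_lit 420) (nat_lit 1616466617) (nat_lit 84) (nat_lit 5248255481) (nat_lit 54) (nat_lit 5) (nat_lit 59) (nat_lit 5) (nat_lit 55) (nat_lit 5) (nat_lit 330) (nat_lit 284) (nat_lit 247)) (XT.nd (nat_lit 94) (nat_lit 0) (nat_lit 0) (XT.lf (nat_lit 0) (nat_lit 2376552968) (nat_lit 420) (nat_lit 2433974709) (nat_lit 504) (nat_lit 5181758846) (nat_lit 49) (nat_lit 5) (nat_lit 54) (nat_lit 5) (nat_lit 55) (nat_lit 5) (nat_lit 331) (nat_lit 284) (nat_lit 246)) (XT.lf (nat_lit 0) (nat_lit 6480747746) (nat_lit 420) (nat_lit 229661608) (nat_lit 504) (nat_lit 3470993003) (nat_lit 49) (nat_lit 5) (nat_lit 54) (nat_lit 5) (nat_lit 55) (nat_lit 5) (nat_lit 332) (nat_lit 284) (nat_lit 245))))) (XT.nd (nat_lit 282)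 (nat_lit 336) (nat_lit 0) (XT.nd (nat_lit 94) (nat_lit 84) (nat_lit 0) (XT.lf (nat_lit 0) (nat_lit 274237571) (nat_lit 336) (nat_lit 8378773434) (nat_lit 420) (nat_lit 1724067934) (nat_lit 45) (nat_lit 5) (nat_lit 49) (nat_lit 5) (nat_lit 50) (nat_lit 5) (nat_lit 333) (nat_lit 284) (nat_lit 244)) (XT.nd (nat_lit 94) (nat_lit 0) (nat_lit 0) (XT.lf (nat_lit 0) (nat_lit 77805644) (nat_lit 420) (nat_lit 6177655008) (nat_lit 84) (nat_lit 4323449492) (nat_lit 44) (nat_lit 5) (nat_lit 49) (nat_lit 5) (nat_lit 45) (nat_lit 5) (nat_lit 334) (nat_lit 284) (nat_lit 243)) (XT.lf (nat_lit 0) (nat_lit 1861872022) (nat_lit 420) (nat_lit 2194324396) (nat_lit 84) (nat_lit 6731607971) (nat_lit 44) (nat_lit 5) (nat_lit 49) (nat_lit 5) (nat_lit 45) (nat_lit 5) (nat_lit 335) (nat_lit 284) (nat_lit 242)))) (XT.nd (nat_lit 94) (nat_lit 0) (nat_lit 0) (XT.lf (nat_lit 0) (nat_lit 1906375533) (nat_lit 336)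 (nat_lit 1777066209) (nat_lit 420) (nat_lit 7320458577) (nat_lit 40) (nat_lit 5) (nat_lit 44) (nat_lit 5) (nat_lit 45) (nat_lit 5) (nat_lit 336) (nat_lit 284) (nat_lit 241)) (XT.nd (nat_lit 94) (nat_lit 0) (nat_lit 0) (XT.lf (nat_lit 0) (nat_lit 5554172962) (nat_lit 420) (nat_lit 5096464290) (nat_lit 84) (nat_lit 576453340) (nat_lit 40) (nat_lit 5) (nat_lit 45) (nat_lit 5) (nat_lit 41) (nat_lit 5) (nat_lit 337) (nat_lit 284) (nat_lit 240)) (XT.lf (nat_lit 0) (nat_lit 7466031233) (nat_lit 420) (nat_lit 1033463780) (nat_lit 84) (nat_lit 2958391354) (nat_lit 40) (nat_lit 5) (nat_lit 45) (nat_lit 5) (nat_lit 41) (nat_lit 5) (nat_lit 338) (nat_lit 284) (nat_lit 239)))))) (XT.nd (nat_lit 564) (nat_lit 588) (nat_lit 0) (XT.nd (nat_lit 282) (nat_lit 336) (nat_lit 0) (XT.nd (nat_lit 94) (nat_lit 84) (nat_lit 0) (XT.lf (nat_lit 0) (nat_lit 3176900057) (nat_lit 252) (nat_lit 6257785075) (nat_lit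 336) (nat_lit 2261387156) (nat_lit 37) (nat_lit 5) (nat_lit 40) (nat_lit 5) (nat_lit 41) (nat_lit 5) (nat_lit 339) (nat_lit 284) (nat_lit 238)) (XT.nd (nat_lit 94) (nat_lit 84) (nat_lit 0) (XT.lf (nat_lit 0) (nat_lit 7497528178) (nat_lit 252) (nat_lit 3944242780) (nat_lit 336) (nat_lit 500725570) (nat_lit 37) (nat_lit 5) (nat_lit 40) (nat_lit 5) (nat_lit 41) (nat_lit 5) (nat_lit 340) (nat_lit 284) (nat_lit 237)) (XT.lf (nat_lit 0) (nat_lit 1255174538) (nat_lit 336) (nat_lit 299222922) (nat_lit 84) (nat_lit 10642921738) (nat_lit 36) (nat_lit 5) (nat_lit 40) (nat_lit 5) (nat_lit 37) (nat_lit 5) (nat_lit 341) (nat_lit 284) (nat_lit 236)))) (XT.nd (nat_lit 94) (nat_lit 0) (nat_lit 0) (XT.lf (nat_lit 0) (nat_lit 3072415729) (nat_lit 420) (nat_lit 8458921766) (nat_lit 84) (nat_lit 928149109) (nat_lit 32) (nat_lit 5) (nat_lit 37) (nat_lit 5) (nat_lit 33) (nat_lit 5) (nat_lit 342) (nat_lit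 284) (nat_lit 235)) (XT.nd (nat_lit 94) (nat_lit 0) (nat_lit 0) (XT.lf (nat_lit 0) (nat_lit 4933649129) (nat_lit 420) (nat_lit 4346699476) (nat_lit 84) (nat_lit 3449951564) (nat_lit 32) (nat_lit 5) (nat_lit 37) (nat_lit 5) (nat_lit 33) (nat_lit 5) (nat_lit 343) (nat_lit 284) (nat_lit 234)) (XT.lf (nat_lit 0) (nat_lit 6822129442) (nat_lit 420) (nat_lit 146837978) (nat_lit 84) (nat_lit 6041617784) (nat_lit 32) (nat_lit 5) (nat_lit 37) (nat_lit 5) (nat_lit 33) (nat_lit 5) (nat_lit 344) (nat_lit 284) (nat_lit 233))))) (XT.nd (nat_lit 282) (nat_lit 336) (nat_lit 0) (XT.nd (nat_lit 94) (nat_lit 0) (nat_lit 0) (XT.lf (nat_lit 0) (nat_lit 4229798452) (nat_lit 252) (nat_lit 4551778600) (nat_lit 336) (nat_lit 4517725147) (nat_lit 29) (nat_lit 5) (nat_lit 32) (nat_lit 5) (nat_lit 33) (nat_lit 5) (nat_lit 345) (nat_lit 284) (nat_lit 232)) (XT.nd (nat_lit 94) (nat_lit 0) (nat_lit 0) (XT.lf (nat_lit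 0) (nat_lit 8706972925) (nat_lit 252) (nat_lit 2067300210) (nat_lit 336) (nat_lit 2823673036) (nat_lit 29) (nat_lit 5) (nat_lit 32) (nat_lit 5) (nat_lit 33) (nat_lit 5) (nat_lit 346) (nat_lit 284) (nat_lit 231)) (XT.lf (nat_lit 0) (nat_lit 12805402240) (nat_lit 336) (nat_lit 625815975) (nat_lit 84) (nat_lit 475474132) (nat_lit 29) (nat_lit 5) (nat_lit 33) (nat_lit 5) (nat_lit 30) (nat_lit 5) (nat_lit 347) (nat_lit 284) (nat_lit 230)))) (XT.nd (nat_lit 94) (nat_lit 0) (nat_lit 0) (XT.lf (nat_lit 0) (nat_lit 692449373) (nat_lit 336) (nat_lit 10441251987) (nat_lit 84) (nat_lit 3090236294) (nat_lit 25) (nat_lit 5) (nat_lit 29) (nat_lit 5) (nat_lit 26) (nat_lit 5) (nat_lit 348) (nat_lit 284) (nat_lit 229)) (XT.nd (nat_lit 94) (nat_lit 0) (nat_lit 0) (XT.lf (nat_lit 0) (nat_lit 2498198590) (nat_lit 336) (nat_lit 6258188749) (nat_lit 84) (nat_lit 5795033490) (nat_lit 25) (nat_lit 5) (nat_lit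 29) (nat_lit 5) (nat_lit 26) (nat_lit 5) (nat_lit 349) (nat_lit 284) (nat_lit 228)) (XT.lf (nat_lit 0) (nat_lit 4333428607) (nat_lit 336) (nat_lit 1981494291) (nat_lit 84) (nat_lit 8575061314) (nat_lit 25) (nat_lit 5) (nat_lit 29) (nat_lit 5) (nat_lit 26) (nat_lit 5) (nat_lit 350) (nat_lit 284) (nat_lit 227))))))) (XT.nd (nat_lit 1128) (nat_lit 420) (nat_lit 0) (XT.nd (nat_lit 564) (nat_lit 420) (nat_lit 0) (XT.nd (nat_lit 282) (nat_lit 252) (nat_lit 0) (XT.nd (nat_lit 94) (nat_lit 0) (nat_lit 0) (XT.lf (nat_lit 0) (nat_lit 2442018952) (nat_lit 168) (nat_lit 3782056229) (nat_lit 252) (nat_lit 9015117222) (nat_lit 23) (nat_lit 5) (nat_lit 25) (nat_lit 5) (nat_lit 26) (nat_lit 5) (nat_lit 351) (nat_lit 284) (nat_lit 226)) (XT.nd (nat_lit 94) (nat_lit 0) (nat_lit 0) (XT.lf (nat_lit 0) (nat_lit 7010061701) (nat_lit 168) (nat_lit 1158681598) (nat_lit 252) (nat_lit 7430725473) (nat_lit 23)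 (nat_lit 5) (nat_lit 25) (nat_lit 5) (nat_lit 26) (nat_lit 5) (nat_lit 352) (nat_lit 284) (nat_lit 225)) (XT.lf (nat_lit 0) (nat_lit 10164431617) (nat_lit 252) (nat_lit 4300869631) (nat_lit 84) (nat_lit 1505997124) (nat_lit 23) (nat_lit 5) (nat_lit 26) (nat_lit 5) (nat_lit 24) (nat_lit 5) (nat_lit 353) (nat_lit 284) (nat_lit 224)))) (XT.nd (nat_lit 94) (nat_lit 0) (nat_lit 0) (XT.lf (nat_lit 0) (nat_lit 77012832) (nat_lit 252) (nat_lit 12133726510) (nat_lit 336) (nat_lit 4144358534) (nat_lit 20) (nat_lit 5) (nat_lit 23) (nat_lit 5) (nat_lit 24) (nat_lit 5) (nat_lit 354) (nat_lit 284) (nat_lit 223)) (XT.nd (nat_lit 94) (nat_lit 0) (nat_lit 0) (XT.lf (nat_lit 0) (nat_lit 4648822280) (nat_lit 252) (nat_lit 9693081554) (nat_lit 336) (nat_lit 2408318961) (nat_lit 20) (nat_lit 5) (nat_lit 23) (nat_lit 5) (nat_lit 24) (nat_lit 5) (nat_lit 355) (nat_lit 284) (nat_lit 222)) (XT.lf (nat_lit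 0) (nat_lit 9330385418) (nat_lit 252) (nat_lit 7185983701) (nat_lit 336) (nat_lit 642022126) (nat_lit 20) (nat_lit 5) (nat_lit 23) (nat_lit 5) (nat_lit 24) (nat_lit 5) (nat_lit 356) (nat_lit 284) (nat_lit 221))))) (XT.nd (nat_lit 282) (nat_lit 168) (nat_lit 0) (XT.nd (nat_lit 94) (nat_lit 168) (nat_lit 0) (XT.lf (nat_lit 0) (nat_lit 1132883929) (nat_lit 336) (nat_lit 3465387160) (nat_lit 84) (nat_lit 12981357037) (nat_lit 19) (nat_lit 5) (nat_lit 23) (nat_lit 5) (nat_lit 20) (nat_lit 5) (nat_lit 357) (nat_lit 284) (nat_lit 220)) (XT.nd (nat_lit 94) (nat_lit 0) (nat_lit 0) (XT.lf (nat_lit 0) (nat_lit 1015765381) (nat_lit 168) (nat_lit 1922068997) (nat_lit 252) (nat_lit 15076327447) (nat_lit 17) (nat_lit 5) (nat_lit 19) (nat_lit 5) (nat_lit 20) (nat_lit 5) (nat_lit 358) (nat_lit 284) (nat_lit 219)) (XT.lf (nat_lit 0) (nat_lit 4822129834) (nat_lit 252) (nat_lit 12791369670) (nat_lit 84)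 (nat_lit 848020137) (nat_lit 17) (nat_lit 5) (nat_lit 20) (nat_lit 5) (nat_lit 18) (nat_lit 5) (nat_lit 359) (nat_lit 284) (nat_lit 218)))) (XT.nd (nat_lit 94) (nat_lit 168) (nat_lit 0) (XT.lf (nat_lit 0) (nat_lit 6763687739) (nat_lit 252) (nat_lit 8503601657) (nat_lit 84) (nat_lit 3655568168) (nat_lit 17) (nat_lit 5) (nat_lit 20) (nat_lit 5) (nat_lit 18) (nat_lit 5) (nat_lit 360) (nat_lit 284) (nat_lit 217)) (XT.nd (nat_lit 94) (nat_lit 168) (nat_lit 0) (XT.lf (nat_lit 0) (nat_lit 8745250665) (nat_lit 252) (nat_lit 4112028594) (nat_lit 84) (nat_lit 6541917430) (nat_lit 17) (nat_lit 5) (nat_lit 20) (nat_lit 5) (nat_lit 18) (nat_lit 5) (nat_lit 361) (nat_lit 284) (nat_lit 216)) (XT.lf (nat_lit 0) (nat_lit 395409545) (nat_lit 168) (nat_lit 10377178604) (nat_lit 252) (nat_lit 9118271270) (nat_lit 15) (nat_lit 5) (nat_lit 17) (nat_lit 5) (nat_lit 18) (nat_lit 5) (nat_lit 362) (nat_lit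 284) (nat_lit 215)))))) (XT.nd (nat_lit 564) (nat_lit 168) (nat_lit 0) (XT.nd (nat_lit 282) (nat_lit 252) (nat_lit 0) (XT.nd (nat_lit 94) (nat_lit 0) (nat_lit 0) (XT.lf (nat_lit 0) (nat_lit 5101796712) (nat_lit 168) (nat_lit 7784632435) (nat_lit 252) (nat_lit 7510670872) (nat_lit 15) (nat_lit 5) (nat_lit 17) (nat_lit 5) (nat_lit 18) (nat_lit 5) (nat_lit 363) (nat_lit 284) (nat_lit 214)) (XT.nd (nat_lit 94) (nat_lit 0) (nat_lit 0) (XT.lf (nat_lit 0) (nat_lit 9926968008) (nat_lit 168) (nat_lit 5120145373) (nat_lit 252) (nat_lit 5872567522) (nat_lit 15) (nat_lit 5) (nat_lit 17) (nat_lit 5) (nat_lit 18) (nat_lit 5) (nat_lit 364) (nat_lit 284) (nat_lit 213)) (XT.lf (nat_lit 0) (nat_lit 14875421001) (nat_lit 168) (nat_lit 2381233836) (nat_lit 252) (nat_lit 4202434337) (nat_lit 15) (nat_lit 5) (nat_lit 17) (nat_lit 5) (nat_lit 18) (nat_lit 5) (nat_lit 365) (nat_lit 284) (nat_lit 212)))) (XT.nd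 (nat_lit 94) (nat_lit 252) (nat_lit 0) (XT.lf (nat_lit 0) (nat_lit 19521424871) (nat_lit 252) (nat_lit 2068371283) (nat_lit 84) (nat_lit 425897795) (nat_lit 15) (nat_lit 5) (nat_lit 18) (nat_lit 5) (nat_lit 16) (nat_lit 4) (nat_lit 366) (nat_lit 284) (nat_lit 211)) (XT.nd (nat_lit 94) (nat_lit 84) (nat_lit 0) (XT.lf (nat_lit 0) (nat_lit 2589462457) (nat_lit 168) (nat_lit 19299855763) (nat_lit 252) (nat_lit 699276526) (nat_lit 13) (nat_lit 5) (nat_lit 15) (nat_lit 5) (nat_lit 16) (nat_lit 4) (nat_lit 367) (nat_lit 284) (nat_lit 210)) (XT.lf (nat_lit 0) (nat_lit 1132882979) (nat_lit 252) (nat_lit 15780099788) (nat_lit 84) (nat_lit 6265830326) (nat_lit 12) (nat_lit 5) (nat_lit 15) (nat_lit 5) (nat_lit 13) (nat_lit 5) (nat_lit 368) (nat_lit 284) (nat_lit 209))))) (XT.nd (nat_lit 282) (nat_lit 168) (nat_lit 0) (XT.nd (nat_lit 94) (nat_lit 0) (nat_lit 0) (XT.lf (nat_lit 0) (nat_lit 2990736873)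 (nat_lit 252) (nat_lit 11462073823) (nat_lit 84) (nat_lit 9334865945) (nat_lit 12) (nat_lit 5) (nat_lit 15) (nat_lit 5) (nat_lit 13) (nat_lit 5) (nat_lit 369) (nat_lit 284) (nat_lit 208)) (XT.nd (nat_lit 94) (nat_lit 0) (nat_lit 0) (XT.lf (nat_lit 0) (nat_lit 4890105731) (nat_lit 252) (nat_lit 7034092631) (nat_lit 84) (nat_lit 12491769596) (nat_lit 12) (nat_lit 5) (nat_lit 15) (nat_lit 5) (nat_lit 13) (nat_lit 5) (nat_lit 370) (nat_lit 284) (nat_lit 207)) (XT.lf (nat_lit 0) (nat_lit 6832759966) (nat_lit 252) (nat_lit 2492028870) (nat_lit 84) (nat_lit 15739483842) (nat_lit 12) (nat_lit 5) (nat_lit 15) (nat_lit 5) (nat_lit 13) (nat_lit 5) (nat_lit 371) (nat_lit 284) (nat_lit 206)))) (XT.nd (nat_lit 188) (nat_lit 0) (nat_lit 0) (XT.nd (nat_lit 94) (nat_lit 0) (nat_lit 0) (XT.lf (nat_lit 0) (nat_lit 2212936884) (nat_lit 168) (nat_lit 6629526057) (nat_lit 252) (nat_lit 16890051618) (nat_lit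 10) (nat_lit 5) (nat_lit 12) (nat_lit 5) (nat_lit 13) (nat_lit 5) (nat_lit 372) (nat_lit 284) (nat_lit 205)) (XT.lf (nat_lit 0) (nat_lit 7094326219) (nat_lit 168) (nat_lit 3831260000) (nat_lit 252) (nat_lit 15495590803) (nat_lit 10) (nat_lit 5) (nat_lit 12) (nat_lit 5) (nat_lit 13) (nat_lit 5) (nat_lit 373) (nat_lit 284) (nat_lit 204))) (XT.nd (nat_lit 94) (nat_lit 0) (nat_lit 0) (XT.lf (nat_lit 0) (nat_lit 12105447877) (nat_lit 168) (nat_lit 953394060) (nat_lit 252) (nat_lit 14072842155) (nat_lit 10) (nat_lit 5) (nat_lit 12) (nat_lit 5) (nat_lit 13) (nat_lit 5) (nat_lit 374) (nat_lit 284) (nat_lit 203)) (XT.lf (nat_lit 0) (nat_lit 15264125760) (nat_lit 252) (nat_lit 10633632538) (nat_lit 84) (nat_lit 1966322610) (nat_lit 10) (nat_lit 5) (nat_lit 13) (nat_lit 5) (nat_lit 11) (nat_lit 4) (nat_lit 375) (nat_lit 284) (nat_lit 202))))))))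
noncomputable def xc78 : XT := (XT.nd (nat_lit 2256) (nat_lit 168) (nat_lit 0) (XT.nd (nat_lit 1128) (nat_lit 84) (nat_lit 0) (XT.nd (nat_lit 564) (nat_lit 252) (nat_lit 0) (XT.nd (nat_lit 282) (nat_lit 0) (nat_lit 0) (XT.nd (nat_lit 94) (nat_lit 84) (nat_lit 0) (XT.lf (nat_lit 0) (nat_lit 17533868849) (nat_lit 252) (nat_lit 6135321008) (nat_lit 84) (nat_lit 4950158643) (nat_lit 10) (nat_lit 5) (nat_lit 13) (nat_lit 5) (nat_lit 11) (nat_lit 4) (nat_lit 376) (nat_lit 284) (nat_lit 201)) (XT.nd (nat_lit 94) (nat_lit 84) (nat_lit 0) (XT.lf (nat_lit 0) (nat_lit 19860729055) (nat_lit 252) (nat_lit 1517650941) (nat_lit 84) (nat_lit 8020104051) (nat_lit 10) (nat_lit 5) (nat_lit 13) (nat_lit 5) (nat_lit 11) (nat_lit 4) (nat_lit 377) (nat_lit 284) (nat_lit 200)) (XT.lf (nat_lit 0) (nat_lit 3289967325) (nat_lit 84) (nat_lit 18989544812) (nat_lit 168) (nat_lit 7921689903) (nat_lit 9) (nat_lit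 5) (nat_lit 10) (nat_lit 5) (nat_lit 11) (nat_lit 4) (nat_lit 378) (nat_lit 284) (nat_lit 199)))) (XT.nd (nat_lit 94) (nat_lit 0) (nat_lit 0) (XT.lf (nat_lit 0) (nat_lit 8259507346) (nat_lit 84) (nat_lit 16516959575) (nat_lit 168) (nat_lit 6252279954) (nat_lit 9) (nat_lit 5) (nat_lit 10) (nat_lit 5) (nat_lit 11) (nat_lit 4) (nat_lit 379) (nat_lit 284) (nat_lit 198)) (XT.nd (nat_lit 94) (nat_lit 0) (nat_lit 0) (XT.lf (nat_lit 0) (nat_lit 13364395239) (nat_lit 84) (nat_lit 13974160738) (nat_lit 168) (nat_lit 4543810244) (nat_lit 9) (nat_lit 5) (nat_lit 10) (nat_lit 5) (nat_lit 11) (nat_lit 4) (nat_lit 380) (nat_lit 284) (nat_lit 197)) (XT.lf (nat_lit 0) (nat_lit 18609389293) (nat_lit 84) (nat_lit 11358778148) (nat_lit 168) (nat_lit 2794688301) (nat_lit 9) (nat_lit 5) (nat_lit 10) (nat_lit 5) (nat_lit 11) (nat_lit 4) (nat_lit 381) (nat_lit 284) (nat_lit 196))))) (XT.nd (nat_lit 282) (nat_lit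 168) (nat_lit 0) (XT.nd (nat_lit 94) (nat_lit 84) (nat_lit 0) (XT.lf (nat_lit 0) (nat_lit 23999378392) (nat_lit 84) (nat_lit 8668373994) (nat_lit 168) (nat_lit 1003283758) (nat_lit 9) (nat_lit 5) (nat_lit 10) (nat_lit 5) (nat_lit 11) (nat_lit 4) (nat_lit 382) (nat_lit 284) (nat_lit 195)) (XT.nd (nat_lit 94) (nat_lit 0) (nat_lit 0) (XT.lf (nat_lit 0) (nat_lit 815308738) (nat_lit 168) (nat_lit 5076621647) (nat_lit 84) (nat_lit 28715567681) (nat_lit 8) (nat_lit 5) (nat_lit 10) (nat_lit 5) (nat_lit 9) (nat_lit 5) (nat_lit 383) (nat_lit 284) (nat_lit 194)) (XT.lf (nat_lit 0) (nat_lit 2658430414) (nat_lit 168) (nat_lit 366218797) (nat_lit 84) (nat_lit 32548398721) (nat_lit 8) (nat_lit 5) (nat_lit 10) (nat_lit 5) (nat_lit 9) (nat_lit 5) (nat_lit 384) (nat_lit 284) (nat_lit 193)))) (XT.nd (nat_lit 94) (nat_lit 0) (nat_lit 0) (XT.lf (nat_lit 0) (nat_lit 4565886522) (nat_lit 168) (nat_lit 27420819)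 (nat_lit 252) (nat_lit 31974182808) (nat_lit 6) (nat_lit 5) (nat_lit 8) (nat_lit 5) (nat_lit 9) (nat_lit 5) (nat_lit 385) (nat_lit 284) (nat_lit 192)) (XT.nd (nat_lit 94) (nat_lit 0) (nat_lit 0) (XT.lf (nat_lit 0) (nat_lit 6611838960) (nat_lit 252) (nat_lit 27980862365) (nat_lit 84) (nat_lit 2999357346) (nat_lit 6) (nat_lit 5) (nat_lit 9) (nat_lit 5) (nat_lit 7) (nat_lit 4) (nat_lit 386) (nat_lit 284) (nat_lit 191)) (XT.lf (nat_lit 0) (nat_lit 8682972607) (nat_lit 252) (nat_lit 23851713828) (nat_lit 84) (nat_lit 6114043026) (nat_lit 6) (nat_lit 5) (nat_lit 9) (nat_lit 5) (nat_lit 7) (nat_lit 4) (nat_lit 387) (nat_lit 284) (nat_lit 190)))))) (XT.nd (nat_lit 564) (nat_lit 0) (nat_lit 0) (XT.nd (nat_lit 282) (nat_lit 84) (nat_lit 0) (XT.nd (nat_lit 94) (nat_lit 0) (nat_lit 0) (XT.lf (nat_lit 0) (nat_lit 10808366778) (nat_lit 252) (nat_lit 19610037198) (nat_lit 84) (nat_lit 9320091900)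 (nat_lit 6) (nat_lit 5) (nat_lit 9) (nat_lit 5) (nat_lit 7) (nat_lit 4) (nat_lit 388) (nat_lit 284) (nat_lit 189)) (XT.nd (nat_lit 94) (nat_lit 0) (nat_lit 0) (XT.lf (nat_lit 0) (nat_lit 12990002563) (nat_lit 252) (nat_lit 15251878790) (nat_lit 84) (nat_lit 12620492343) (nat_lit 6) (nat_lit 5) (nat_lit 9) (nat_lit 5) (nat_lit 7) (nat_lit 4) (nat_lit 389) (nat_lit 284) (nat_lit 188)) (XT.lf (nat_lit 0) (nat_lit 15229913475) (nat_lit 252) (nat_lit 10773176344) (nat_lit 84) (nat_lit 16018320672) (nat_lit 6) (nat_lit 5) (nat_lit 9) (nat_lit 5) (nat_lit 7) (nat_lit 4) (nat_lit 390) (nat_lit 284) (nat_lit 187)))) (XT.nd (nat_lit 94) (nat_lit 84) (nat_lit 0) (XT.lf (nat_lit 0) (nat_lit 17530187347) (nat_lit 252) (nat_lit 6169755239) (nat_lit 84) (nat_lit 19516744021) (nat_lit 6) (nat_lit 5) (nat_lit 9) (nat_lit 5) (nat_lit 7) (nat_lit 4) (nat_lit 391) (nat_lit 284) (nat_lit 186)) (XT.nd (nat_lit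 94) (nat_lit 84) (nat_lit 0) (XT.lf (nat_lit 0) (nat_lit 19892968274) (nat_lit 252) (nat_lit 1437324604) (nat_lit 84) (nat_lit 23119023285) (nat_lit 6) (nat_lit 5) (nat_lit 9) (nat_lit 5) (nat_lit 7) (nat_lit 4) (nat_lit 392) (nat_lit 284) (nat_lit 185)) (XT.lf (nat_lit 0) (nat_lit 3499024220) (nat_lit 84) (nat_lit 18856145148) (nat_lit 168) (nat_lit 23364202700) (nat_lit 5) (nat_lit 5) (nat_lit 6) (nat_lit 5) (nat_lit 7) (nat_lit 4) (nat_lit 393) (nat_lit 284) (nat_lit 184))))) (XT.nd (nat_lit 282) (nat_lit 0) (nat_lit 0) (XT.nd (nat_lit 94) (nat_lit 0) (nat_lit 0) (XT.lf (nat_lit 0) (nat_lit 8605720181) (nat_lit 84) (nat_lit 16294570673) (nat_lit 168) (nat_lit 22128329931) (nat_lit 5) (nat_lit 5) (nat_lit 6) (nat_lit 5) (nat_lit 7) (nat_lit 4) (nat_lit 394) (nat_lit 284) (nat_lit 183)) (XT.nd (nat_lit 94) (nat_lit 0) (nat_lit 0) (XT.lf (nat_lit 0) (nat_lit 13857968913) (nat_lit 84)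 (nat_lit 13658184520) (nat_lit 168) (nat_lit 20862580339) (nat_lit 5) (nat_lit 5) (nat_lit 6) (nat_lit 5) (nat_lit 7) (nat_lit 4) (nat_lit 395) (nat_lit 284) (nat_lit 182)) (XT.lf (nat_lit 0) (nat_lit 19260666060) (nat_lit 84) (nat_lit 10944529301) (nat_lit 168) (nat_lit 19565774115) (nat_lit 5) (nat_lit 5) (nat_lit 6) (nat_lit 5) (nat_lit 7) (nat_lit 4) (nat_lit 396) (nat_lit 284) (nat_lit 181)))) (XT.nd (nat_lit 94) (nat_lit 0) (nat_lit 0) (XT.lf (nat_lit 0) (nat_lit 24818847504) (nat_lit 84) (nat_lit 8151075604) (nat_lit 168) (nat_lit 18236702498) (nat_lit 5) (nat_lit 5) (nat_lit 6) (nat_lit 5) (nat_lit 7) (nat_lit 4) (nat_lit 397) (nat_lit 284) (nat_lit 180)) (XT.nd (nat_lit 94) (nat_lit 0) (nat_lit 0) (XT.lf (nat_lit 0) (nat_lit 30537694050) (nat_lit 84) (nat_lit 5275219638) (nat_lit 168) (nat_lit 16874126654) (nat_lit 5) (nat_lit 5) (nat_lit 6) (nat_lit 5) (nat_lit 7) (nat_lit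 4) (nat_lit 398) (nat_lit 284) (nat_lit 179)) (XT.lf (nat_lit 0) (nat_lit 36422536264) (nat_lit 84) (nat_lit 2314280804) (nat_lit 168) (nat_lit 15476776521) (nat_lit 5) (nat_lit 5) (nat_lit 6) (nat_lit 5) (nat_lit 7) (nat_lit 4) (nat_lit 399) (nat_lit 284) (nat_lit 178))))))) (XT.nd (nat_lit 1128) (nat_lit 0) (nat_lit 0) (XT.nd (nat_lit 564) (nat_lit 84) (nat_lit 0) (XT.nd (nat_lit 282) (nat_lit 84) (nat_lit 0) (XT.nd (nat_lit 94) (nat_lit 0) (nat_lit 0) (XT.lf (nat_lit 0) (nat_lit 41751644970) (nat_lit 168) (nat_lit 13316135158) (nat_lit 0) (nat_lit 719702248) (nat_lit 5) (nat_lit 5) (nat_lit 7) (nat_lit 4) (nat_lit 5) (nat_lit 4) (nat_lit 400) (nat_lit 284) (nat_lit 177)) (XT.nd (nat_lit 94) (nat_lit 0) (nat_lit 0) (XT.lf (nat_lit 0) (nat_lit 44876771953) (nat_lit 168) (nat_lit 8736973117) (nat_lit 0) (nat_lit 3795915165) (nat_lit 5) (nat_lit 5) (nat_lit 7) (nat_lit 4) (nat_lit 5)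 (nat_lit 4) (nat_lit 401) (nat_lit 284) (nat_lit 176)) (XT.lf (nat_lit 0) (nat_lit 48092153012) (nat_lit 168) (nat_lit 4026344992) (nat_lit 0) (nat_lit 6963852901) (nat_lit 5) (nat_lit 5) (nat_lit 7) (nat_lit 4) (nat_lit 5) (nat_lit 4) (nat_lit 402) (nat_lit 284) (nat_lit 175)))) (XT.nd (nat_lit 94) (nat_lit 0) (nat_lit 0) (XT.lf (nat_lit 0) (nat_lit 837003776) (nat_lit 84) (nat_lit 50572084621) (nat_lit 84) (nat_lit 9397767708) (nat_lit 4) (nat_lit 4) (nat_lit 5) (nat_lit 5) (nat_lit 5) (nat_lit 4) (nat_lit 403) (nat_lit 284) (nat_lit 174)) (XT.nd (nat_lit 94) (nat_lit 0) (nat_lit 0) (XT.lf (nat_lit 0) (nat_lit 5926403154) (nat_lit 84) (nat_lit 48938140059) (nat_lit 84) (nat_lit 7719189972) (nat_lit 4) (nat_lit 4) (nat_lit 5) (nat_lit 5) (nat_lit 5) (nat_lit 4) (nat_lit 404) (nat_lit 284) (nat_lit 173)) (XT.lf (nat_lit 0) (nat_lit 11163807085) (nat_lit 84) (nat_lit 47257168093) (nat_lit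 84) (nat_lit 5994926858) (nat_lit 4) (nat_lit 4) (nat_lit 5) (nat_lit 5) (nat_lit 5) (nat_lit 4) (nat_lit 405) (nat_lit 284) (nat_lit 172))))) (XT.nd (nat_lit 282) (nat_lit 84) (nat_lit 0) (XT.nd (nat_lit 94) (nat_lit 0) (nat_lit 0) (XT.lf (nat_lit 0) (nat_lit 16554097376) (nat_lit 84) (nat_lit 45527601881) (nat_lit 84) (nat_lit 4223371172) (nat_lit 4) (nat_lit 4) (nat_lit 5) (nat_lit 5) (nat_lit 5) (nat_lit 4) (nat_lit 406) (nat_lit 284) (nat_lit 171)) (XT.nd (nat_lit 94) (nat_lit 0) (nat_lit 0) (XT.lf (nat_lit 0) (nat_lit 22102298343) (nat_lit 84) (nat_lit 43747829287) (nat_lit 84) (nat_lit 2402871639) (nat_lit 4) (nat_lit 4) (nat_lit 5) (nat_lit 5) (nat_lit 5) (nat_lit 4) (nat_lit 407) (nat_lit 284) (nat_lit 170)) (XT.lf (nat_lit 0) (nat_lit 27813581491) (nat_lit 84) (nat_lit 41916191377) (nat_lit 84) (nat_lit 531731363) (nat_lit 4) (nat_lit 4) (nat_lit 5) (nat_lit 5) (nat_lit 5)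 (nat_lit 4) (nat_lit 408) (nat_lit 284) (nat_lit 169)))) (XT.nd (nat_lit 94) (nat_lit 0) (nat_lit 0) (XT.lf (nat_lit 0) (nat_lit 1363752212) (nat_lit 168) (nat_lit 38652993883) (nat_lit 84) (nat_lit 32315283345) (nat_lit 3) (nat_lit 5) (nat_lit 5) (nat_lit 5) (nat_lit 4) (nat_lit 4) (nat_lit 409) (nat_lit 284) (nat_lit 168)) (XT.nd (nat_lit 94) (nat_lit 0) (nat_lit 0) (XT.lf (nat_lit 0) (nat_lit 3301608794) (nat_lit 168) (nat_lit 34754369738) (nat_lit 84) (nat_lit 36410774538) (nat_lit 3) (nat_lit 5) (nat_lit 5) (nat_lit 5) (nat_lit 4) (nat_lit 4) (nat_lit 410) (nat_lit 284) (nat_lit 167)) (XT.lf (nat_lit 0) (nat_lit 5294357869) (nat_lit 168) (nat_lit 30743141540) (nat_lit 84) (nat_lit 40630329020) (nat_lit 3) (nat_lit 5) (nat_lit 5) (nat_lit 5) (nat_lit 4) (nat_lit 4) (nat_lit 411) (nat_lit 284) (nat_lit 166)))))) (XT.nd (nat_lit 43146) (nat_lit 0) (nat_lit 12432) (XT.nd (nat_lit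 42864) (nat_lit 0) (nat_lit 13860) (XT.nd (nat_lit 42676) (nat_lit 0) (nat_lit 14364) (XT.lf (nat_lit 0) (nat_lit 7343856887) (nat_lit 168) (nat_lit 26615570403) (nat_lit 84) (nat_lit 44977879858) (nat_lit 3) (nat_lit 5) (nat_lit 5) (nat_lit 5) (nat_lit 4) (nat_lit 4) (nat_lit 412) (nat_lit 284) (nat_lit 165)) (XT.nd (nat_lit 94) (nat_lit 84) (nat_lit 0) (XT.lf (nat_lit 0) (nat_lit 1858964895) (nat_lit 84) (nat_lit 686191891) (nat_lit 84) (nat_lit 686191891) (nat_lit 175) (nat_lit 4) (nat_lit 176) (nat_lit 5) (nat_lit 176) (nat_lit 4) (nat_lit 291) (nat_lit 285) (nat_lit 285)) (XT.lf (nat_lit 0) (nat_lit 1044696219) (nat_lit 168) (nat_lit 100338989) (nat_lit 84) (nat_lit 5330170467) (nat_lit 174) (nat_lit 5) (nat_lit 176) (nat_lit 5) (nat_lit 175) (nat_lit 4) (nat_lit 292) (nat_lit 285) (nat_lit 284)))) (XT.nd (nat_lit 94) (nat_lit 336) (nat_lit 0) (XT.lf (nat_lit 0) (nat_lit 2610931351)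 (nat_lit 168) (nat_lit 829911087) (nat_lit 252) (nat_lit 3049790146) (nat_lit 172) (nat_lit 5) (nat_lit 174) (nat_lit 5) (nat_lit 175) (nat_lit 4) (nat_lit 293) (nat_lit 285) (nat_lit 283)) (XT.nd (nat_lit 94) (nat_lit 336) (nat_lit 0) (XT.lf (nat_lit 0) (nat_lit 5355218197) (nat_lit 168) (nat_lit 466118610) (nat_lit 252) (nat_lit 688840355) (nat_lit 172) (nat_lit 5) (nat_lit 174) (nat_lit 5) (nat_lit 175) (nat_lit 4) (nat_lit 294) (nat_lit 285) (nat_lit 282)) (XT.lf (nat_lit 0) (nat_lit 1615268416) (nat_lit 252) (nat_lit 20934275) (nat_lit 336) (nat_lit 4896681207) (nat_lit 168) (nat_lit 5) (nat_lit 171) (nat_lit 5) (nat_lit 172) (nat_lit 5) (nat_lit 295) (nat_lit 285) (nat_lit 281))))) (XT.nd (nat_lit 282) (nat_lit 1008) (nat_lit 0) (XT.nd (nat_lit 94) (nat_lit 420) (nat_lit 0) (XT.lf (nat_lit 0) (nat_lit 3948092405) (nat_lit 336) (nat_lit 2129077780) (nat_lit 84) (nat_lit 481881509)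 (nat_lit 168) (nat_lit 5) (nat_lit 172) (nat_lit 5) (nat_lit 169) (nat_lit 4) (nat_lit 296) (nat_lit 285) (nat_lit 280)) (XT.nd (nat_lit 94) (nat_lit 84) (nat_lit 0) (XT.lf (nat_lit 0) (nat_lit 704105254) (nat_lit 336) (nat_lit 5549928600) (nat_lit 420) (nat_lit 335156603) (nat_lit 164) (nat_lit 5) (nat_lit 168) (nat_lit 5) (nat_lit 169) (nat_lit 4) (nat_lit 297) (nat_lit 285) (nat_lit 279)) (XT.lf (nat_lit 0) (nat_lit 1908748914) (nat_lit 420) (nat_lit 3027151617) (nat_lit 84) (nat_lit 1686373209) (nat_lit 163) (nat_lit 5) (nat_lit 168) (nat_lit 5) (nat_lit 164) (nat_lit 5) (nat_lit 298) (nat_lit 285) (nat_lit 278)))) (XT.nd (nat_lit 188) (nat_lit 588) (nat_lit 0) (XT.nd (nat_lit 94) (nat_lit 420) (nat_lit 0) (XT.lf (nat_lit 0) (nat_lit 4133414103) (nat_lit 420) (nat_lit 139967218) (nat_lit 84) (nat_lit 2386119728) (nat_lit 163) (nat_lit 5) (nat_lit 168) (nat_lit 5) (nat_lit 164)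 (nat_lit 5) (nat_lit 299) (nat_lit 285) (nat_lit 277)) (XT.lf (nat_lit 0) (nat_lit 2839697520) (nat_lit 420) (nat_lit 3536137874) (nat_lit 504) (nat_lit 324301485) (nat_lit 158) (nat_lit 5) (nat_lit 163) (nat_lit 5) (nat_lit 164) (nat_lit 5) (nat_lit 300) (nat_lit 285) (nat_lit 276))) (XT.nd (nat_lit 94) (nat_lit 504) (nat_lit 0) (XT.lf (nat_lit 0) (nat_lit 1829061614) (nat_lit 504) (nat_lit 902542712) (nat_lit 84) (nat_lit 4012858969) (nat_lit 157) (nat_lit 5) (nat_lit 163) (nat_lit 5) (nat_lit 158) (nat_lit 5) (nat_lit 301) (nat_lit 285) (nat_lit 275)) (XT.lf (nat_lit 0) (nat_lit 2132439970) (nat_lit 504) (nat_lit 1854579149) (nat_lit 588) (nat_lit 2805368646) (nat_lit 151) (nat_lit 5) (nat_lit 157) (nat_lit 5) (nat_lit 158) (nat_lit 5) (nat_lit 302) (nat_lit 285) (nat_lit 274))))))))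
noncomputable def xc79 : XT := (XT.nd (nat_lit 2256) (nat_lit 2856) (nat_lit 0) (XT.nd (nat_lit 1128) (nat_lit 3696) (nat_lit 0) (XT.nd (nat_lit 564) (nat_lit 1848) (nat_lit 0) (XT.nd (nat_lit 282) (nat_lit 1512) (nat_lit 0) (XT.nd (nat_lit 94) (nat_lit 672) (nat_lit 0) (XT.lf (nat_lit 0) (nat_lit 5226934005) (nat_lit 504) (nat_lit 919552330) (nat_lit 588) (nat_lit 697928888) (nat_lit 151) (nat_lit 5) (nat_lit 157) (nat_lit 5) (nat_lit 158) (nat_lit 5) (nat_lit 303) (nat_lit 285) (nat_lit 273)) (XT.nd (nat_lit 94) (nat_lit 0) (nat_lit 0) (XT.lf (nat_lit 0) (nat_lit 1386886557) (nat_lit 672) (nat_lit 5420597316) (nat_lit 84) (nat_lit 92478922) (nat_lit 143) (nat_lit 5) (nat_lit 151) (nat_lit 5) (nat_lit 144) (nat_lit 5) (nat_lit 304) (nat_lit 285) (nat_lit 272)) (XT.lf (nat_lit 0) (nat_lit 3476305907) (nat_lit 672) (nat_lit 2323498005) (nat_lit 84) (nat_lit 1159157175) (nat_lit 143)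 (nat_lit 5) (nat_lit 151) (nat_lit 5) (nat_lit 144) (nat_lit 5) (nat_lit 305) (nat_lit 285) (nat_lit 271)))) (XT.nd (nat_lit 94) (nat_lit 840) (nat_lit 0) (XT.lf (nat_lit 0) (nat_lit 831487660) (nat_lit 672) (nat_lit 4737434129) (nat_lit 756) (nat_lit 1453297847) (nat_lit 135) (nat_lit 5) (nat_lit 143) (nat_lit 5) (nat_lit 144) (nat_lit 5) (nat_lit 306) (nat_lit 285) (nat_lit 270)) (XT.nd (nat_lit 94) (nat_lit 756) (nat_lit 0) (XT.lf (nat_lit 0) (nat_lit 581138289) (nat_lit 756) (nat_lit 3015979756) (nat_lit 84) (nat_lit 3492009863) (nat_lit 134) (nat_lit 5) (nat_lit 143) (nat_lit 5) (nat_lit 135) (nat_lit 5) (nat_lit 307) (nat_lit 285) (nat_lit 269)) (XT.lf (nat_lit 0) (nat_lit 191637570) (nat_lit 756) (nat_lit 2391347425) (nat_lit 840) (nat_lit 4577170833) (nat_lit 125) (nat_lit 5) (nat_lit 134) (nat_lit 5) (nat_lit 135) (nat_lit 5) (nat_lit 308) (nat_lit 285) (nat_lit 268))))) (XT.nd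 (nat_lit 282) (nat_lit 924) (nat_lit 0) (XT.nd (nat_lit 94) (nat_lit 924) (nat_lit 0) (XT.lf (nat_lit 0) (nat_lit 3508631018) (nat_lit 756) (nat_lit 1103858972) (nat_lit 840) (nat_lit 2622424401) (nat_lit 125) (nat_lit 5) (nat_lit 134) (nat_lit 5) (nat_lit 135) (nat_lit 5) (nat_lit 309) (nat_lit 285) (nat_lit 267)) (XT.nd (nat_lit 94) (nat_lit 924) (nat_lit 0) (XT.lf (nat_lit 0) (nat_lit 6643342792) (nat_lit 840) (nat_lit 440674084) (nat_lit 84) (nat_lit 230330673) (nat_lit 125) (nat_lit 5) (nat_lit 135) (nat_lit 5) (nat_lit 126) (nat_lit 5) (nat_lit 310) (nat_lit 285) (nat_lit 266)) (XT.lf (nat_lit 0) (nat_lit 1291850831) (nat_lit 924) (nat_lit 4468922514) (nat_lit 84) (nat_lit 1636162663) (nat_lit 114) (nat_lit 5) (nat_lit 125) (nat_lit 5) (nat_lit 115) (nat_lit 5) (nat_lit 311) (nat_lit 285) (nat_lit 265)))) (XT.nd (nat_lit 94) (nat_lit 924) (nat_lit 0) (XT.lf (nat_lit 0) (nat_lit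 3244701455) (nat_lit 924) (nat_lit 1132781406) (nat_lit 84) (nat_lit 3106562725) (nat_lit 114) (nat_lit 5) (nat_lit 125) (nat_lit 5) (nat_lit 115) (nat_lit 5) (nat_lit 312) (nat_lit 285) (nat_lit 264)) (XT.nd (nat_lit 94) (nat_lit 0) (nat_lit 0) (XT.lf (nat_lit 0) (nat_lit 2300361084) (nat_lit 924) (nat_lit 2920838349) (nat_lit 1008) (nat_lit 2354196699) (nat_lit 103) (nat_lit 5) (nat_lit 114) (nat_lit 5) (nat_lit 115) (nat_lit 5) (nat_lit 313) (nat_lit 285) (nat_lit 263)) (XT.lf (nat_lit 0) (nat_lit 5811713431) (nat_lit 924) (nat_lit 1400645682) (nat_lit 1008) (nat_lit 459049345) (nat_lit 103) (nat_lit 5) (nat_lit 114) (nat_lit 5) (nat_lit 115) (nat_lit 5) (nat_lit 314) (nat_lit 285) (nat_lit 262)))))) (XT.nd (nat_lit 564) (nat_lit 1428) (nat_lit 0) (XT.nd (nat_lit 282) (nat_lit 588) (nat_lit 0) (XT.nd (nat_lit 94) (nat_lit 588) (nat_lit 0) (XT.lf (nat_lit 0) (nat_lit 1425274073)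 (nat_lit 1092) (nat_lit 6146340599) (nat_lit 84) (nat_lit 199908128) (nat_lit 90) (nat_lit 5) (nat_lit 103) (nat_lit 5) (nat_lit 91) (nat_lit 5) (nat_lit 315) (nat_lit 285) (nat_lit 261)) (XT.nd (nat_lit 94) (nat_lit 588) (nat_lit 0) (XT.lf (nat_lit 0) (nat_lit 3336055732) (nat_lit 1092) (nat_lit 2689669128) (nat_lit 84) (nat_lit 1849916627) (nat_lit 90) (nat_lit 5) (nat_lit 103) (nat_lit 5) (nat_lit 91) (nat_lit 5) (nat_lit 316) (nat_lit 285) (nat_lit 260)) (XT.lf (nat_lit 0) (nat_lit 838852068) (nat_lit 588) (nat_lit 4420880063) (nat_lit 672) (nat_lit 2725033000) (nat_lit 83) (nat_lit 5) (nat_lit 90) (nat_lit 5) (nat_lit 91) (nat_lit 5) (nat_lit 317) (nat_lit 285) (nat_lit 259)))) (XT.nd (nat_lit 94) (nat_lit 588) (nat_lit 0) (XT.lf (nat_lit 0) (nat_lit 4482097464) (nat_lit 588) (nat_lit 2735489532) (nat_lit 672) (nat_lit 880804241) (nat_lit 83) (nat_lit 5) (nat_lit 90) (nat_lit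 5) (nat_lit 91) (nat_lit 5) (nat_lit 318) (nat_lit 285) (nat_lit 258)) (XT.nd (nat_lit 94) (nat_lit 504) (nat_lit 0) (XT.lf (nat_lit 0) (nat_lit 947267150) (nat_lit 672) (nat_lit 38902258) (nat_lit 84) (nat_lit 7231003157) (nat_lit 82) (nat_lit 5) (nat_lit 90) (nat_lit 5) (nat_lit 83) (nat_lit 5) (nat_lit 319) (nat_lit 285) (nat_lit 257)) (XT.lf (nat_lit 0) (nat_lit 2807467240) (nat_lit 588) (nat_lit 4684468948) (nat_lit 84) (nat_lit 847915842) (nat_lit 76) (nat_lit 5) (nat_lit 83) (nat_lit 5) (nat_lit 77) (nat_lit 5) (nat_lit 320) (nat_lit 285) (nat_lit 256))))) (XT.nd (nat_lit 282) (nat_lit 924) (nat_lit 0) (XT.nd (nat_lit 94) (nat_lit 504) (nat_lit 0) (XT.lf (nat_lit 0) (nat_lit 4685705490) (nat_lit 588) (nat_lit 1062715979) (nat_lit 84) (nat_lit 2719434074) (nat_lit 76) (nat_lit 5) (nat_lit 83) (nat_lit 5) (nat_lit 77) (nat_lit 5) (nat_lit 321) (nat_lit 285) (nat_lit 255)) (XT.nd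 (nat_lit 94) (nat_lit 0) (nat_lit 0) (XT.lf (nat_lit 0) (nat_lit 2675438899) (nat_lit 504) (nat_lit 3924653602) (nat_lit 588) (nat_lit 2000702759) (nat_lit 70) (nat_lit 5) (nat_lit 76) (nat_lit 5) (nat_lit 77) (nat_lit 5) (nat_lit 322) (nat_lit 285) (nat_lit 254)) (XT.lf (nat_lit 0) (nat_lit 6502732977) (nat_lit 504) (nat_lit 2034540826) (nat_lit 588) (nat_lit 201990595) (nat_lit 70) (nat_lit 5) (nat_lit 76) (nat_lit 5) (nat_lit 77) (nat_lit 5) (nat_lit 323) (nat_lit 285) (nat_lit 253)))) (XT.nd (nat_lit 94) (nat_lit 420) (nat_lit 0) (XT.lf (nat_lit 0) (nat_lit 1532107530) (nat_lit 420) (nat_lit 55333096) (nat_lit 504) (nat_lit 7295320330) (nat_lit 64) (nat_lit 5) (nat_lit 69) (nat_lit 5) (nat_lit 70) (nat_lit 5) (nat_lit 324) (nat_lit 285) (nat_lit 252)) (XT.nd (nat_lit 94) (nat_lit 420) (nat_lit 0) (XT.lf (nat_lit 0) (nat_lit 3425385211) (nat_lit 504) (nat_lit 3637164824) (nat_lit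 84) (nat_lit 1968428590) (nat_lit 64) (nat_lit 5) (nat_lit 70) (nat_lit 5) (nat_lit 65) (nat_lit 5) (nat_lit 325) (nat_lit 285) (nat_lit 251)) (XT.lf (nat_lit 0) (nat_lit 145136932) (nat_lit 420) (nat_lit 5132518713) (nat_lit 504) (nat_lit 3907701116) (nat_lit 59) (nat_lit 5) (nat_lit 64) (nat_lit 5) (nat_lit 65) (nat_lit 5) (nat_lit 326) (nat_lit 285) (nat_lit 250))))))) (XT.nd (nat_lit 1128) (nat_lit 1260) (nat_lit 0) (XT.nd (nat_lit 564) (nat_lit 756) (nat_lit 0) (XT.nd (nat_lit 282) (nat_lit 420) (nat_lit 0) (XT.nd (nat_lit 94) (nat_lit 420) (nat_lit 0) (XT.lf (nat_lit 0) (nat_lit 4073625451) (nat_lit 420) (nat_lit 3107894276) (nat_lit 504) (nat_lit 2163417753) (nat_lit 59) (nat_lit 5) (nat_lit 64) (nat_lit 5) (nat_lit 65) (nat_lit 5) (nat_lit 327) (nat_lit 285) (nat_lit 249)) (XT.nd (nat_lit 94) (nat_lit 420) (nat_lit 0) (XT.lf (nat_lit 0) (nat_lit 8077174924) (nat_lit 420) (nat_lit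 1024754103) (nat_lit 504) (nat_lit 409082013) (nat_lit 59) (nat_lit 5) (nat_lit 64) (nat_lit 5) (nat_lit 65) (nat_lit 5) (nat_lit 328) (nat_lit 285) (nat_lit 248)) (XT.lf (nat_lit 0) (nat_lit 1366022506) (nat_lit 420) (nat_lit 7181079620) (nat_lit 84) (nat_lit 1135083786) (nat_lit 54) (nat_lit 5) (nat_lit 59) (nat_lit 5) (nat_lit 55) (nat_lit 5) (nat_lit 329) (nat_lit 285) (nat_lit 247)))) (XT.nd (nat_lit 94) (nat_lit 420) (nat_lit 0) (XT.lf (nat_lit 0) (nat_lit 3172175182) (nat_lit 420) (nat_lit 3331948697) (nat_lit 84) (nat_lit 3355102657) (nat_lit 54) (nat_lit 5) (nat_lit 59) (nat_lit 5) (nat_lit 55) (nat_lit 5) (nat_lit 330) (nat_lit 285) (nat_lit 246)) (XT.nd (nat_lit 94) (nat_lit 0) (nat_lit 0) (XT.lf (nat_lit 0) (nat_lit 602716478) (nat_lit 420) (nat_lit 4397733712) (nat_lit 504) (nat_lit 5042557937) (nat_lit 49) (nat_lit 5) (nat_lit 54) (nat_lit 5) (nat_lit 55) (nat_lit 5)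 (nat_lit 331) (nat_lit 285) (nat_lit 245)) (XT.lf (nat_lit 0) (nat_lit 4684524659) (nat_lit 420) (nat_lit 2196555442) (nat_lit 504) (nat_lit 3351737508) (nat_lit 49) (nat_lit 5) (nat_lit 54) (nat_lit 5) (nat_lit 55) (nat_lit 5) (nat_lit 332) (nat_lit 285) (nat_lit 244))))) (XT.nd (nat_lit 282) (nat_lit 336) (nat_lit 0) (XT.nd (nat_lit 94) (nat_lit 420) (nat_lit 0) (XT.lf (nat_lit 0) (nat_lit 8782746385) (nat_lit 504) (nat_lit 1581770321) (nat_lit 84) (nat_lit 65340415) (nat_lit 49) (nat_lit 5) (nat_lit 55) (nat_lit 5) (nat_lit 50) (nat_lit 5) (nat_lit 333) (nat_lit 285) (nat_lit 243)) (XT.nd (nat_lit 94) (nat_lit 0) (nat_lit 0) (XT.lf (nat_lit 0) (nat_lit 118397247) (nat_lit 420) (nat_lit 8142662960) (nat_lit 84) (nat_lit 2371772089) (nat_lit 44) (nat_lit 5) (nat_lit 49) (nat_lit 5) (nat_lit 45) (nat_lit 5) (nat_lit 334) (nat_lit 285) (nat_lit 242)) (XT.lf (nat_lit 0) (nat_lit 1884386719)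 (nat_lit 420) (nat_lit 4181254135) (nat_lit 84) (nat_lit 4776731783) (nat_lit 44) (nat_lit 5) (nat_lit 49) (nat_lit 5) (nat_lit 45) (nat_lit 5) (nat_lit 335) (nat_lit 285) (nat_lit 241)))) (XT.nd (nat_lit 94) (nat_lit 336) (nat_lit 0) (XT.lf (nat_lit 0) (nat_lit 3669511586) (nat_lit 420) (nat_lit 140226068) (nat_lit 84) (nat_lit 7249943838) (nat_lit 44) (nat_lit 5) (nat_lit 49) (nat_lit 5) (nat_lit 45) (nat_lit 5) (nat_lit 336) (nat_lit 285) (nat_lit 240)) (XT.nd (nat_lit 94) (nat_lit 0) (nat_lit 0) (XT.lf (nat_lit 0) (nat_lit 4066110976) (nat_lit 336) (nat_lit 1449661122) (nat_lit 420) (nat_lit 5767938894) (nat_lit 40) (nat_lit 5) (nat_lit 44) (nat_lit 5) (nat_lit 45) (nat_lit 5) (nat_lit 337) (nat_lit 285) (nat_lit 239)) (XT.lf (nat_lit 0) (nat_lit 7396515322) (nat_lit 420) (nat_lit 3161192172) (nat_lit 84) (nat_lit 957842050) (nat_lit 40) (nat_lit 5) (nat_lit 45) (nat_lit 5) (nat_lit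 41) (nat_lit 5) (nat_lit 338) (nat_lit 285) (nat_lit 238)))))) (XT.nd (nat_lit 564) (nat_lit 588) (nat_lit 0) (XT.nd (nat_lit 282) (nat_lit 336) (nat_lit 0) (XT.nd (nat_lit 94) (nat_lit 84) (nat_lit 0) (XT.lf (nat_lit 0) (nat_lit 984660061) (nat_lit 252) (nat_lit 8342530801) (nat_lit 336) (nat_lit 2427797790) (nat_lit 37) (nat_lit 5) (nat_lit 40) (nat_lit 5) (nat_lit 41) (nat_lit 5) (nat_lit 339) (nat_lit 285) (nat_lit 237)) (XT.nd (nat_lit 94) (nat_lit 84) (nat_lit 0) (XT.lf (nat_lit 0) (nat_lit 5285151280) (nat_lit 252) (nat_lit 6033182615) (nat_lit 336) (nat_lit 683646802) (nat_lit 37) (nat_lit 5) (nat_lit 40) (nat_lit 5) (nat_lit 41) (nat_lit 5) (nat_lit 340) (nat_lit 285) (nat_lit 236)) (XT.lf (nat_lit 0) (nat_lit 1060247253) (nat_lit 336) (nat_lit 2589192683) (nat_lit 84) (nat_lit 8607975339) (nat_lit 36) (nat_lit 5) (nat_lit 40) (nat_lit 5) (nat_lit 37) (nat_lit 5) (nat_lit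 341) (nat_lit 285) (nat_lit 235)))) (XT.nd (nat_lit 94) (nat_lit 0) (nat_lit 0) (XT.lf (nat_lit 0) (nat_lit 1653474985) (nat_lit 336) (nat_lit 1176017557) (nat_lit 420) (nat_lit 9691645152) (nat_lit 32) (nat_lit 5) (nat_lit 36) (nat_lit 5) (nat_lit 37) (nat_lit 5) (nat_lit 342) (nat_lit 285) (nat_lit 234)) (XT.nd (nat_lit 94) (nat_lit 0) (nat_lit 0) (XT.lf (nat_lit 0) (nat_lit 4664066436) (nat_lit 420) (nat_lit 6763389976) (nat_lit 84) (nat_lit 1365386410) (nat_lit 32) (nat_lit 5) (nat_lit 37) (nat_lit 5) (nat_lit 33) (nat_lit 5) (nat_lit 343) (nat_lit 285) (nat_lit 233)) (XT.lf (nat_lit 0) (nat_lit 6538004299) (nat_lit 420) (nat_lit 2582554468) (nat_lit 84) (nat_lit 3953083068) (nat_lit 32) (nat_lit 5) (nat_lit 37) (nat_lit 5) (nat_lit 33) (nat_lit 5) (nat_lit 344) (nat_lit 285) (nat_lit 232))))) (XT.nd (nat_lit 282) (nat_lit 336) (nat_lit 0) (XT.nd (nat_lit 94) (nat_lit 0) (nat_lit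 0) (XT.lf (nat_lit 0) (nat_lit 1725165265) (nat_lit 252) (nat_lit 6733335183) (nat_lit 336) (nat_lit 4905127140) (nat_lit 29) (nat_lit 5) (nat_lit 32) (nat_lit 5) (nat_lit 33) (nat_lit 5) (nat_lit 345) (nat_lit 285) (nat_lit 231)) (XT.nd (nat_lit 94) (nat_lit 0) (nat_lit 0) (XT.lf (nat_lit 0) (nat_lit 6184072648) (nat_lit 252) (nat_lit 4253261596) (nat_lit 336) (nat_lit 3225426468) (nat_lit 29) (nat_lit 5) (nat_lit 32) (nat_lit 5) (nat_lit 33) (nat_lit 5) (nat_lit 346) (nat_lit 285) (nat_lit 230)) (XT.lf (nat_lit 0) (nat_lit 10745221234) (nat_lit 252) (nat_lit 1704982888) (nat_lit 336) (nat_lit 1521926436) (nat_lit 29) (nat_lit 5) (nat_lit 32) (nat_lit 5) (nat_lit 33) (nat_lit 5) (nat_lit 347) (nat_lit 285) (nat_lit 229)))) (XT.nd (nat_lit 188) (nat_lit 0) (nat_lit 0) (XT.nd (nat_lit 94) (nat_lit 0) (nat_lit 0) (XT.lf (nat_lit 0) (nat_lit 223320288) (nat_lit 336) (nat_lit 13159024915)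 (nat_lit 84) (nat_lit 908980234) (nat_lit 25) (nat_lit 5) (nat_lit 29) (nat_lit 5) (nat_lit 26) (nat_lit 5) (nat_lit 348) (nat_lit 285) (nat_lit 228)) (XT.lf (nat_lit 0) (nat_lit 2016023013) (nat_lit 336) (nat_lit 8993708472) (nat_lit 84) (nat_lit 3609534158) (nat_lit 25) (nat_lit 5) (nat_lit 29) (nat_lit 5) (nat_lit 26) (nat_lit 5) (nat_lit 349) (nat_lit 285) (nat_lit 227))) (XT.nd (nat_lit 94) (nat_lit 0) (nat_lit 0) (XT.lf (nat_lit 0) (nat_lit 3838598818) (nat_lit 336) (nat_lit 4734227201) (nat_lit 84) (nat_lit 6385446297) (nat_lit 25) (nat_lit 5) (nat_lit 29) (nat_lit 5) (nat_lit 26) (nat_lit 5) (nat_lit 350) (nat_lit 285) (nat_lit 226)) (XT.lf (nat_lit 0) (nat_lit 5692746535) (nat_lit 336) (nat_lit 376610819) (nat_lit 84) (nat_lit 9239304092) (nat_lit 25) (nat_lit 5) (nat_lit 29) (nat_lit 5) (nat_lit 26) (nat_lit 5) (nat_lit 351) (nat_lit 285) (nat_lit 225))))))))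
noncomputable def xc80 : XT := (XT.nd (nat_lit 2256) (nat_lit 420) (nat_lit 0) (XT.nd (nat_lit 1128) (nat_lit 420) (nat_lit 0) (XT.nd (nat_lit 564) (nat_lit 336) (nat_lit 0) (XT.nd (nat_lit 282) (nat_lit 336) (nat_lit 0) (XT.nd (nat_lit 94) (nat_lit 0) (nat_lit 0) (XT.lf (nat_lit 0) (nat_lit 4167161445) (nat_lit 168) (nat_lit 3454371735) (nat_lit 252) (nat_lit 8047944949) (nat_lit 23) (nat_lit 5) (nat_lit 25) (nat_lit 5) (nat_lit 26) (nat_lit 5) (nat_lit 352) (nat_lit 285) (nat_lit 224)) (XT.nd (nat_lit 94) (nat_lit 0) (nat_lit 0) (XT.lf (nat_lit 0) (nat_lit 8827218333) (nat_lit 168) (nat_lit 763050547) (nat_lit 252) (nat_lit 6451920924) (nat_lit 23) (nat_lit 5) (nat_lit 25) (nat_lit 5) (nat_lit 26) (nat_lit 5) (nat_lit 353) (nat_lit 285) (nat_lit 223)) (XT.lf (nat_lit 0) (nat_lit 11616847687) (nat_lit 252) (nat_lit 2846974292) (nat_lit 84) (nat_lit 1962824070) (nat_lit 23) (nat_lit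 5) (nat_lit 26) (nat_lit 5) (nat_lit 24) (nat_lit 5) (nat_lit 354) (nat_lit 285) (nat_lit 222)))) (XT.nd (nat_lit 94) (nat_lit 84) (nat_lit 0) (XT.lf (nat_lit 0) (nat_lit 1650553327) (nat_lit 252) (nat_lit 12057426878) (nat_lit 336) (nat_lit 3115075541) (nat_lit 20) (nat_lit 5) (nat_lit 23) (nat_lit 5) (nat_lit 24) (nat_lit 5) (nat_lit 355) (nat_lit 285) (nat_lit 221)) (XT.nd (nat_lit 94) (nat_lit 84) (nat_lit 0) (XT.lf (nat_lit 0) (nat_lit 6316847602) (nat_lit 252) (nat_lit 9554726002) (nat_lit 336) (nat_lit 1360030091) (nat_lit 20) (nat_lit 5) (nat_lit 23) (nat_lit 5) (nat_lit 24) (nat_lit 5) (nat_lit 356) (nat_lit 285) (nat_lit 220)) (XT.lf (nat_lit 0) (nat_lit 418649017) (nat_lit 336) (nat_lit 6560084289) (nat_lit 84) (nat_lit 10674699520) (nat_lit 19) (nat_lit 5) (nat_lit 23) (nat_lit 5) (nat_lit 20) (nat_lit 5) (nat_lit 357) (nat_lit 285) (nat_lit 219))))) (XT.nd (nat_lit 282)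 (nat_lit 168) (nat_lit 0) (XT.nd (nat_lit 94) (nat_lit 168) (nat_lit 0) (XT.lf (nat_lit 0) (nat_lit 2203151265) (nat_lit 336) (nat_lit 2114013635) (nat_lit 84) (nat_lit 13771474274) (nat_lit 19) (nat_lit 5) (nat_lit 23) (nat_lit 5) (nat_lit 20) (nat_lit 5) (nat_lit 358) (nat_lit 285) (nat_lit 218)) (XT.nd (nat_lit 94) (nat_lit 0) (nat_lit 0) (XT.lf (nat_lit 0) (nat_lit 2491285589) (nat_lit 168) (nat_lit 1555969840) (nat_lit 252) (nat_lit 14490025078) (nat_lit 17) (nat_lit 5) (nat_lit 19) (nat_lit 5) (nat_lit 20) (nat_lit 5) (nat_lit 359) (nat_lit 285) (nat_lit 217)) (XT.lf (nat_lit 0) (nat_lit 5963440317) (nat_lit 252) (nat_lit 11757127168) (nat_lit 84) (nat_lit 1278873966) (nat_lit 17) (nat_lit 5) (nat_lit 20) (nat_lit 5) (nat_lit 18) (nat_lit 5) (nat_lit 360) (nat_lit 285) (nat_lit 216)))) (XT.nd (nat_lit 94) (nat_lit 168) (nat_lit 0) (XT.lf (nat_lit 0) (nat_lit 7935364443) (nat_lit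 252) (nat_lit 7379458738) (nat_lit 84) (nat_lit 4161291562) (nat_lit 17) (nat_lit 5) (nat_lit 20) (nat_lit 5) (nat_lit 18) (nat_lit 5) (nat_lit 361) (nat_lit 285) (nat_lit 215)) (XT.nd (nat_lit 94) (nat_lit 168) (nat_lit 0) (XT.lf (nat_lit 0) (nat_lit 9949430434) (nat_lit 252) (nat_lit 2893473769) (nat_lit 84) (nat_lit 7125318986) (nat_lit 17) (nat_lit 5) (nat_lit 20) (nat_lit 5) (nat_lit 18) (nat_lit 5) (nat_lit 362) (nat_lit 285) (nat_lit 214)) (XT.lf (nat_lit 0) (nat_lit 1740067630) (nat_lit 168) (nat_lit 10284709665) (nat_lit 252) (nat_lit 8450913078) (nat_lit 15) (nat_lit 5) (nat_lit 17) (nat_lit 5) (nat_lit 18) (nat_lit 5) (nat_lit 363) (nat_lit 285) (nat_lit 213)))))) (XT.nd (nat_lit 564) (nat_lit 168) (nat_lit 0) (XT.nd (nat_lit 282) (nat_lit 252) (nat_lit 0) (XT.nd (nat_lit 94) (nat_lit 0) (nat_lit 0) (XT.lf (nat_lit 0) (nat_lit 6552290323) (nat_lit 168) (nat_lit 7624247528)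 (nat_lit 252) (nat_lit 6822042308) (nat_lit 15) (nat_lit 5) (nat_lit 17) (nat_lit 5) (nat_lit 18) (nat_lit 5) (nat_lit 364) (nat_lit 285) (nat_lit 212)) (XT.nd (nat_lit 94) (nat_lit 0) (nat_lit 0) (XT.lf (nat_lit 0) (nat_lit 11488184049) (nat_lit 168) (nat_lit 4889239896) (nat_lit 252) (nat_lit 5160864098) (nat_lit 15) (nat_lit 5) (nat_lit 17) (nat_lit 5) (nat_lit 18) (nat_lit 5) (nat_lit 365) (nat_lit 285) (nat_lit 211)) (XT.lf (nat_lit 0) (nat_lit 16552349578) (nat_lit 168) (nat_lit 2077137455) (nat_lit 252) (nat_lit 3465830056) (nat_lit 15) (nat_lit 5) (nat_lit 17) (nat_lit 5) (nat_lit 18) (nat_lit 5) (nat_lit 366) (nat_lit 285) (nat_lit 210)))) (XT.nd (nat_lit 94) (nat_lit 252) (nat_lit 0) (XT.lf (nat_lit 0) (nat_lit 20942908011) (nat_lit 252) (nat_lit 928761001) (nat_lit 84) (nat_lit 798266962) (nat_lit 15) (nat_lit 5) (nat_lit 18) (nat_lit 5) (nat_lit 16) (nat_lit 4) (nat_lit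 367) (nat_lit 285) (nat_lit 209)) (XT.nd (nat_lit 94) (nat_lit 0) (nat_lit 0) (XT.lf (nat_lit 0) (nat_lit 108177444) (nat_lit 252) (nat_lit 19400895819) (nat_lit 84) (nat_lit 3751972307) (nat_lit 12) (nat_lit 5) (nat_lit 15) (nat_lit 5) (nat_lit 13) (nat_lit 5) (nat_lit 368) (nat_lit 285) (nat_lit 208)) (XT.lf (nat_lit 0) (nat_lit 1958114791) (nat_lit 252) (nat_lit 15094639218) (nat_lit 84) (nat_lit 6817427388) (nat_lit 12) (nat_lit 5) (nat_lit 15) (nat_lit 5) (nat_lit 13) (nat_lit 5) (nat_lit 369) (nat_lit 285) (nat_lit 207))))) (XT.nd (nat_lit 282) (nat_lit 168) (nat_lit 0) (XT.nd (nat_lit 94) (nat_lit 0) (nat_lit 0) (XT.lf (nat_lit 0) (nat_lit 3849805137) (nat_lit 252) (nat_lit 10678073510) (nat_lit 84) (nat_lit 9970858159) (nat_lit 12) (nat_lit 5) (nat_lit 15) (nat_lit 5) (nat_lit 13) (nat_lit 5) (nat_lit 370) (nat_lit 285) (nat_lit 206)) (XT.nd (nat_lit 94) (nat_lit 0) (nat_lit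 0) (XT.lf (nat_lit 0) (nat_lit 5785011736) (nat_lit 252) (nat_lit 6147081994) (nat_lit 84) (nat_lit 13215203949) (nat_lit 12) (nat_lit 5) (nat_lit 15) (nat_lit 5) (nat_lit 13) (nat_lit 5) (nat_lit 371) (nat_lit 285) (nat_lit 205)) (XT.lf (nat_lit 0) (nat_lit 7765538403) (nat_lit 252) (nat_lit 1497441311) (nat_lit 84) (nat_lit 16553488826) (nat_lit 12) (nat_lit 5) (nat_lit 15) (nat_lit 5) (nat_lit 13) (nat_lit 5) (nat_lit 372) (nat_lit 285) (nat_lit 204)))) (XT.nd (nat_lit 94) (nat_lit 0) (nat_lit 0) (XT.lf (nat_lit 0) (nat_lit 3342526960) (nat_lit 168) (nat_lit 6483862516) (nat_lit 252) (nat_lit 16679455743) (nat_lit 10) (nat_lit 5) (nat_lit 12) (nat_lit 5) (nat_lit 13) (nat_lit 5) (nat_lit 373) (nat_lit 285) (nat_lit 203)) (XT.nd (nat_lit 94) (nat_lit 0) (nat_lit 0) (XT.lf (nat_lit 0) (nat_lit 8343337658) (nat_lit 168) (nat_lit 3609409420) (nat_lit 252) (nat_lit 15263842115) (nat_lit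 10) (nat_lit 5) (nat_lit 12) (nat_lit 5) (nat_lit 13) (nat_lit 5) (nat_lit 374) (nat_lit 285) (nat_lit 202)) (XT.lf (nat_lit 0) (nat_lit 13478861597) (nat_lit 168) (nat_lit 652571351) (nat_lit 252) (nat_lit 13818399969) (nat_lit 10) (nat_lit 5) (nat_lit 12) (nat_lit 5) (nat_lit 13) (nat_lit 5) (nat_lit 375) (nat_lit 285) (nat_lit 201))))))) (XT.nd (nat_lit 1128) (nat_lit 84) (nat_lit 0) (XT.nd (nat_lit 564) (nat_lit 252) (nat_lit 0) (XT.nd (nat_lit 282) (nat_lit 84) (nat_lit 0) (XT.nd (nat_lit 94) (nat_lit 0) (nat_lit 0) (XT.lf (nat_lit 0) (nat_lit 16388181070) (nat_lit 252) (nat_lit 9976077448) (nat_lit 84) (nat_lit 2341266531) (nat_lit 10) (nat_lit 5) (nat_lit 13) (nat_lit 5) (nat_lit 11) (nat_lit 4) (nat_lit 376) (nat_lit 285) (nat_lit 200)) (XT.nd (nat_lit 94) (nat_lit 0) (nat_lit 0) (XT.lf (nat_lit 0) (nat_lit 18708715982) (nat_lit 252) (nat_lit 5368001217) (nat_lit 84) (nat_lit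 5408160525) (nat_lit 10) (nat_lit 5) (nat_lit 13) (nat_lit 5) (nat_lit 11) (nat_lit 4) (nat_lit 377) (nat_lit 285) (nat_lit 199)) (XT.lf (nat_lit 0) (nat_lit 21088727076) (nat_lit 252) (nat_lit 635973831) (nat_lit 84) (nat_lit 8564117155) (nat_lit 10) (nat_lit 5) (nat_lit 13) (nat_lit 5) (nat_lit 11) (nat_lit 4) (nat_lit 378) (nat_lit 285) (nat_lit 198)))) (XT.nd (nat_lit 94) (nat_lit 0) (nat_lit 0) (XT.lf (nat_lit 0) (nat_lit 4311278102) (nat_lit 84) (nat_lit 19261923082) (nat_lit 168) (nat_lit 7543568412) (nat_lit 9) (nat_lit 5) (nat_lit 10) (nat_lit 5) (nat_lit 11) (nat_lit 4) (nat_lit 379) (nat_lit 285) (nat_lit 197)) (XT.nd (nat_lit 94) (nat_lit 0) (nat_lit 0) (XT.lf (nat_lit 0) (nat_lit 9407231793) (nat_lit 84) (nat_lit 16722198106) (nat_lit 168) (nat_lit 5841159917) (nat_lit 9) (nat_lit 5) (nat_lit 10) (nat_lit 5) (nat_lit 11) (nat_lit 4) (nat_lit 380) (nat_lit 285) (nat_lit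 196)) (XT.lf (nat_lit 0) (nat_lit 14643560277) (nat_lit 84) (nat_lit 14109796952) (nat_lit 168) (nat_lit 4097916940) (nat_lit 9) (nat_lit 5) (nat_lit 10) (nat_lit 5) (nat_lit 11) (nat_lit 4) (nat_lit 381) (nat_lit 285) (nat_lit 195))))) (XT.nd (nat_lit 282) (nat_lit 168) (nat_lit 0) (XT.nd (nat_lit 94) (nat_lit 84) (nat_lit 0) (XT.lf (nat_lit 0) (nat_lit 20025144363) (nat_lit 84) (nat_lit 11422284588) (nat_lit 168) (nat_lit 2312214597) (nat_lit 9) (nat_lit 5) (nat_lit 10) (nat_lit 5) (nat_lit 11) (nat_lit 4) (nat_lit 382) (nat_lit 285) (nat_lit 194)) (XT.nd (nat_lit 94) (nat_lit 84) (nat_lit 0) (XT.lf (nat_lit 0) (nat_lit 25557000249) (nat_lit 84) (nat_lit 8657155971) (nat_lit 168) (nat_lit 482388425) (nat_lit 9) (nat_lit 5) (nat_lit 10) (nat_lit 5) (nat_lit 11) (nat_lit 4) (nat_lit 383) (nat_lit 285) (nat_lit 193)) (XT.lf (nat_lit 0) (nat_lit 1365195936) (nat_lit 168) (nat_lit 4432387929)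 (nat_lit 84) (nat_lit 29864838423) (nat_lit 8) (nat_lit 5) (nat_lit 10) (nat_lit 5) (nat_lit 9) (nat_lit 5) (nat_lit 384) (nat_lit 285) (nat_lit 192)))) (XT.nd (nat_lit 94) (nat_lit 0) (nat_lit 0) (XT.lf (nat_lit 0) (nat_lit 408158191) (nat_lit 168) (nat_lit 2845571174) (nat_lit 252) (nat_lit 33404587778) (nat_lit 6) (nat_lit 5) (nat_lit 8) (nat_lit 5) (nat_lit 9) (nat_lit 5) (nat_lit 385) (nat_lit 285) (nat_lit 191)) (XT.nd (nat_lit 94) (nat_lit 0) (nat_lit 0) (XT.lf (nat_lit 0) (nat_lit 5239256380) (nat_lit 252) (nat_lit 32209317151) (nat_lit 84) (nat_lit 235350786) (nat_lit 6) (nat_lit 5) (nat_lit 9) (nat_lit 5) (nat_lit 7) (nat_lit 4) (nat_lit 386) (nat_lit 285) (nat_lit 190)) (XT.lf (nat_lit 0) (nat_lit 7305493611) (nat_lit 252) (nat_lit 28087788265) (nat_lit 84) (nat_lit 3347480059) (nat_lit 6) (nat_lit 5) (nat_lit 9) (nat_lit 5) (nat_lit 7) (nat_lit 4) (nat_lit 387) (nat_lit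 285) (nat_lit 189)))))) (XT.nd (nat_lit 564) (nat_lit 84) (nat_lit 0) (XT.nd (nat_lit 282) (nat_lit 0) (nat_lit 0) (XT.nd (nat_lit 94) (nat_lit 0) (nat_lit 0) (XT.lf (nat_lit 0) (nat_lit 9426138592) (nat_lit 252) (nat_lit 23853502181) (nat_lit 84) (nat_lit 6551049393) (nat_lit 6) (nat_lit 5) (nat_lit 9) (nat_lit 5) (nat_lit 7) (nat_lit 4) (nat_lit 388) (nat_lit 285) (nat_lit 188)) (XT.nd (nat_lit 94) (nat_lit 0) (nat_lit 0) (XT.lf (nat_lit 0) (nat_lit 11603167986) (nat_lit 252) (nat_lit 19502512100) (nat_lit 84) (nat_lit 9849044849) (nat_lit 6) (nat_lit 5) (nat_lit 9) (nat_lit 5) (nat_lit 7) (nat_lit 4) (nat_lit 389) (nat_lit 285) (nat_lit 187)) (XT.lf (nat_lit 0) (nat_lit 13838611011) (nat_lit 252) (nat_lit 15030762443) (nat_lit 84) (nat_lit 13244540505) (nat_lit 6) (nat_lit 5) (nat_lit 9) (nat_lit 5) (nat_lit 7) (nat_lit 4) (nat_lit 390) (nat_lit 285) (nat_lit 186)))) (XT.nd (nat_lit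 94) (nat_lit 0) (nat_lit 0) (XT.lf (nat_lit 0) (nat_lit 16134551335) (nat_lit 252) (nat_lit 10434085073) (nat_lit 84) (nat_lit 16740701319) (nat_lit 6) (nat_lit 5) (nat_lit 9) (nat_lit 5) (nat_lit 7) (nat_lit 4) (nat_lit 391) (nat_lit 285) (nat_lit 185)) (XT.nd (nat_lit 94) (nat_lit 0) (nat_lit 0) (XT.lf (nat_lit 0) (nat_lit 18493129014) (nat_lit 252) (nat_lit 5708195403) (nat_lit 84) (nat_lit 20340786079) (nat_lit 6) (nat_lit 5) (nat_lit 9) (nat_lit 5) (nat_lit 7) (nat_lit 4) (nat_lit 392) (nat_lit 285) (nat_lit 184)) (XT.lf (nat_lit 0) (nat_lit 20916542492) (nat_lit 252) (nat_lit 848688410) (nat_lit 84) (nat_lit 24048150440) (nat_lit 6) (nat_lit 5) (nat_lit 9) (nat_lit 5) (nat_lit 7) (nat_lit 4) (nat_lit 393) (nat_lit 285) (nat_lit 183))))) (XT.nd (nat_lit 282) (nat_lit 0) (nat_lit 0) (XT.nd (nat_lit 94) (nat_lit 0) (nat_lit 0) (XT.lf (nat_lit 0) (nat_lit 4234276715) (nat_lit 84)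 (nat_lit 19214778475) (nat_lit 168) (nat_lit 23673977889) (nat_lit 5) (nat_lit 5) (nat_lit 6) (nat_lit 5) (nat_lit 7) (nat_lit 4) (nat_lit 394) (nat_lit 285) (nat_lit 182)) (XT.nd (nat_lit 94) (nat_lit 0) (nat_lit 0) (XT.lf (nat_lit 0) (nat_lit 9480434213) (nat_lit 84) (nat_lit 16580587745) (nat_lit 168) (nat_lit 22412256660) (nat_lit 5) (nat_lit 5) (nat_lit 6) (nat_lit 5) (nat_lit 7) (nat_lit 4) (nat_lit 395) (nat_lit 285) (nat_lit 181)) (XT.lf (nat_lit 0) (nat_lit 14877223278) (nat_lit 84) (nat_lit 13869061937) (nat_lit 168) (nat_lit 21119357673) (nat_lit 5) (nat_lit 5) (nat_lit 6) (nat_lit 5) (nat_lit 7) (nat_lit 4) (nat_lit 396) (nat_lit 285) (nat_lit 180)))) (XT.nd (nat_lit 94) (nat_lit 0) (nat_lit 0) (XT.lf (nat_lit 0) (nat_lit 20429674282) (nat_lit 84) (nat_lit 11077673624) (nat_lit 168) (nat_lit 19794075812) (nat_lit 5) (nat_lit 5) (nat_lit 6) (nat_lit 5) (nat_lit 7) (nat_lit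 4) (nat_lit 397) (nat_lit 285) (nat_lit 179)) (XT.nd (nat_lit 94) (nat_lit 0) (nat_lit 0) (XT.lf (nat_lit 0) (nat_lit 26142962692) (nat_lit 84) (nat_lit 8203820941) (nat_lit 168) (nat_lit 18435175774) (nat_lit 5) (nat_lit 5) (nat_lit 6) (nat_lit 5) (nat_lit 7) (nat_lit 4) (nat_lit 398) (nat_lit 285) (nat_lit 178)) (XT.lf (nat_lit 0) (nat_lit 32022413890) (nat_lit 84) (nat_lit 5244825155) (nat_lit 168) (nat_lit 17041390923) (nat_lit 5) (nat_lit 5) (nat_lit 6) (nat_lit 5) (nat_lit 7) (nat_lit 4) (nat_lit 399) (nat_lit 285) (nat_lit 177))))))))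
noncomputable def xc81 : XT := (XT.nd (nat_lit 44650) (nat_lit 0) (nat_lit 5124) (XT.nd (nat_lit 1128) (nat_lit 0) (nat_lit 0) (XT.nd (nat_lit 564) (nat_lit 84) (nat_lit 0) (XT.nd (nat_lit 282) (nat_lit 84) (nat_lit 0) (XT.nd (nat_lit 94) (nat_lit 0) (nat_lit 0) (XT.lf (nat_lit 0) (nat_lit 38073508142) (nat_lit 84) (nat_lit 2197928173) (nat_lit 168) (nat_lit 15611422105) (nat_lit 5) (nat_lit 5) (nat_lit 6) (nat_lit 5) (nat_lit 7) (nat_lit 4) (nat_lit 400) (nat_lit 285) (nat_lit 176)) (XT.nd (nat_lit 94) (nat_lit 0) (nat_lit 0) (XT.lf (nat_lit 0) (nat_lit 43371497707) (nat_lit 168) (nat_lit 13213548446) (nat_lit 0) (nat_lit 920776970) (nat_lit 5) (nat_lit 5) (nat_lit 7) (nat_lit 4) (nat_lit 5) (nat_lit 4) (nat_lit 401) (nat_lit 285) (nat_lit 175)) (XT.lf (nat_lit 0) (nat_lit 46583714971) (nat_lit 168) (nat_lit 8507928981) (nat_lit 0) (nat_lit 4086977432) (nat_lit 5) (nat_lit 5) (nat_lit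 7) (nat_lit 4) (nat_lit 5) (nat_lit 4) (nat_lit 402) (nat_lit 285) (nat_lit 174)))) (XT.nd (nat_lit 94) (nat_lit 84) (nat_lit 0) (XT.lf (nat_lit 0) (nat_lit 49889278510) (nat_lit 168) (nat_lit 3666302034) (nat_lit 0) (nat_lit 7347907798) (nat_lit 5) (nat_lit 5) (nat_lit 7) (nat_lit 4) (nat_lit 5) (nat_lit 4) (nat_lit 403) (nat_lit 285) (nat_lit 173)) (XT.nd (nat_lit 94) (nat_lit 0) (nat_lit 0) (XT.lf (nat_lit 0) (nat_lit 1342901778) (nat_lit 84) (nat_lit 51961689431) (nat_lit 84) (nat_lit 9377027570) (nat_lit 4) (nat_lit 4) (nat_lit 5) (nat_lit 5) (nat_lit 5) (nat_lit 4) (nat_lit 404) (nat_lit 285) (nat_lit 172)) (XT.lf (nat_lit 0) (nat_lit 6575641424) (nat_lit 84) (nat_lit 50282448575) (nat_lit 84) (nat_lit 7655797240) (nat_lit 4) (nat_lit 4) (nat_lit 5) (nat_lit 5) (nat_lit 5) (nat_lit 4) (nat_lit 405) (nat_lit 285) (nat_lit 171))))) (XT.nd (nat_lit 282) (nat_lit 84) (nat_lit 0)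 (XT.nd (nat_lit 94) (nat_lit 0) (nat_lit 0) (XT.lf (nat_lit 0) (nat_lit 11961407676) (nat_lit 84) (nat_lit 48554561424) (nat_lit 84) (nat_lit 5887183149) (nat_lit 4) (nat_lit 4) (nat_lit 5) (nat_lit 5) (nat_lit 5) (nat_lit 4) (nat_lit 406) (nat_lit 285) (nat_lit 170)) (XT.nd (nat_lit 94) (nat_lit 0) (nat_lit 0) (XT.lf (nat_lit 0) (nat_lit 17505220633) (nat_lit 84) (nat_lit 46776417404) (nat_lit 84) (nat_lit 4069536764) (nat_lit 4) (nat_lit 4) (nat_lit 5) (nat_lit 5) (nat_lit 5) (nat_lit 4) (nat_lit 407) (nat_lit 285) (nat_lit 169)) (XT.lf (nat_lit 0) (nat_lit 23212247708) (nat_lit 84) (nat_lit 44946359100) (nat_lit 84) (nat_lit 2201163847) (nat_lit 4) (nat_lit 4) (nat_lit 5) (nat_lit 5) (nat_lit 5) (nat_lit 4) (nat_lit 408) (nat_lit 285) (nat_lit 168)))) (XT.nd (nat_lit 94) (nat_lit 84) (nat_lit 0) (XT.lf (nat_lit 0) (nat_lit 29087808450) (nat_lit 84) (nat_lit 43062680705) (nat_lit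 84) (nat_lit 280322879) (nat_lit 4) (nat_lit 4) (nat_lit 5) (nat_lit 5) (nat_lit 5) (nat_lit 4) (nat_lit 409) (nat_lit 285) (nat_lit 167)) (XT.nd (nat_lit 94) (nat_lit 0) (nat_lit 0) (XT.lf (nat_lit 0) (nat_lit 1660630593) (nat_lit 168) (nat_lit 39445662262) (nat_lit 84) (nat_lit 33459415324) (nat_lit 3) (nat_lit 5) (nat_lit 5) (nat_lit 5) (nat_lit 4) (nat_lit 4) (nat_lit 410) (nat_lit 285) (nat_lit 166)) (XT.lf (nat_lit 0) (nat_lit 3650905381) (nat_lit 168) (nat_lit 35438375539) (nat_lit 84) (nat_lit 37677586333) (nat_lit 3) (nat_lit 5) (nat_lit 5) (nat_lit 5) (nat_lit 4) (nat_lit 4) (nat_lit 411) (nat_lit 285) (nat_lit 165)))))) (XT.nd (nat_lit 42958) (nat_lit 0) (nat_lit 13440) (XT.nd (nat_lit 42676) (nat_lit 0) (nat_lit 14196) (XT.nd (nat_lit 42488) (nat_lit 0) (nat_lit 14448) (XT.lf (nat_lit 0) (nat_lit 5698004509) (nat_lit 168) (nat_lit 31314627365) (nat_lit 84) (nat_lit 42023795296)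 (nat_lit 3) (nat_lit 5) (nat_lit 5) (nat_lit 5) (nat_lit 4) (nat_lit 4) (nat_lit 412) (nat_lit 285) (nat_lit 164)) (XT.nd (nat_lit 94) (nat_lit 84) (nat_lit 0) (XT.lf (nat_lit 0) (nat_lit 1242916127) (nat_lit 84) (nat_lit 737654411) (nat_lit 0) (nat_lit 1242916127) (nat_lit 176) (nat_lit 5) (nat_lit 177) (nat_lit 0) (nat_lit 176) (nat_lit 4) (nat_lit 289) (nat_lit 286) (nat_lit 286)) (XT.lf (nat_lit 0) (nat_lit 1079396543) (nat_lit 84) (nat_lit 3832796411) (nat_lit 84) (nat_lit 1541793771) (nat_lit 175) (nat_lit 4) (nat_lit 176) (nat_lit 5) (nat_lit 176) (nat_lit 4) (nat_lit 290) (nat_lit 286) (nat_lit 285)))) (XT.nd (nat_lit 94) (nat_lit 168) (nat_lit 0) (XT.lf (nat_lit 0) (nat_lit 852770835) (nat_lit 168) (nat_lit 2781142085) (nat_lit 84) (nat_lit 2830415140) (nat_lit 174) (nat_lit 5) (nat_lit 176) (nat_lit 5) (nat_lit 175) (nat_lit 4) (nat_lit 291) (nat_lit 286) (nat_lit 284)) (XT.nd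 (nat_lit 94) (nat_lit 168) (nat_lit 0) (XT.lf (nat_lit 0) (nat_lit 3196283875) (nat_lit 168) (nat_lit 176769730) (nat_lit 84) (nat_lit 3105216409) (nat_lit 174) (nat_lit 5) (nat_lit 176) (nat_lit 5) (nat_lit 175) (nat_lit 4) (nat_lit 292) (nat_lit 286) (nat_lit 283)) (XT.lf (nat_lit 0) (nat_lit 2506754734) (nat_lit 168) (nat_lit 3040106040) (nat_lit 252) (nat_lit 948668066) (nat_lit 172) (nat_lit 5) (nat_lit 174) (nat_lit 5) (nat_lit 175) (nat_lit 4) (nat_lit 293) (nat_lit 286) (nat_lit 282))))) (XT.nd (nat_lit 282) (nat_lit 420) (nat_lit 0) (XT.nd (nat_lit 94) (nat_lit 252) (nat_lit 0) (XT.lf (nat_lit 0) (nat_lit 1339535929) (nat_lit 252) (nat_lit 1304734301) (nat_lit 84) (nat_lit 3872136347) (nat_lit 171) (nat_lit 5) (nat_lit 174) (nat_lit 5) (nat_lit 172) (nat_lit 5) (nat_lit 294) (nat_lit 286) (nat_lit 281)) (XT.nd (nat_lit 94) (nat_lit 0) (nat_lit 0) (XT.lf (nat_lit 0) (nat_lit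 1429017286) (nat_lit 252) (nat_lit 2176875744) (nat_lit 336) (nat_lit 2934780049) (nat_lit 168) (nat_lit 5) (nat_lit 171) (nat_lit 5) (nat_lit 172) (nat_lit 5) (nat_lit 295) (nat_lit 286) (nat_lit 280)) (XT.lf (nat_lit 0) (nat_lit 4223124883) (nat_lit 252) (nat_lit 1647857007) (nat_lit 336) (nat_lit 697680882) (nat_lit 168) (nat_lit 5) (nat_lit 171) (nat_lit 5) (nat_lit 172) (nat_lit 5) (nat_lit 296) (nat_lit 286) (nat_lit 279)))) (XT.nd (nat_lit 94) (nat_lit 0) (nat_lit 0) (XT.lf (nat_lit 0) (nat_lit 446441147) (nat_lit 336) (nat_lit 1050198010) (nat_lit 420) (nat_lit 5103566457) (nat_lit 163) (nat_lit 5) (nat_lit 167) (nat_lit 5) (nat_lit 168) (nat_lit 5) (nat_lit 297) (nat_lit 286) (nat_lit 278)) (XT.nd (nat_lit 94) (nat_lit 0) (nat_lit 0) (XT.lf (nat_lit 0) (nat_lit 3315025023) (nat_lit 336) (nat_lit 371741491) (nat_lit 420) (nat_lit 2948215700) (nat_lit 163) (nat_lit 5) (nat_lit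 167) (nat_lit 5) (nat_lit 168) (nat_lit 5) (nat_lit 298) (nat_lit 286) (nat_lit 277)) (XT.lf (nat_lit 0) (nat_lit 5868660441) (nat_lit 420) (nat_lit 455789135) (nat_lit 84) (nat_lit 349414270) (nat_lit 163) (nat_lit 5) (nat_lit 168) (nat_lit 5) (nat_lit 164) (nat_lit 5) (nat_lit 299) (nat_lit 286) (nat_lit 276))))))) (XT.nd (nat_lit 1128) (nat_lit 4200) (nat_lit 0) (XT.nd (nat_lit 564) (nat_lit 2436) (nat_lit 0) (XT.nd (nat_lit 282) (nat_lit 672) (nat_lit 0) (XT.nd (nat_lit 94) (nat_lit 504) (nat_lit 0) (XT.lf (nat_lit 0) (nat_lit 1326340801) (nat_lit 504) (nat_lit 4238580684) (nat_lit 84) (nat_lit 1150762870) (nat_lit 157) (nat_lit 5) (nat_lit 163) (nat_lit 5) (nat_lit 158) (nat_lit 5) (nat_lit 300) (nat_lit 286) (nat_lit 275)) (XT.nd (nat_lit 94) (nat_lit 504) (nat_lit 0) (XT.lf (nat_lit 0) (nat_lit 3435465658) (nat_lit 504) (nat_lit 1310614999) (nat_lit 84) (nat_lit 2015298888)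 (nat_lit 157) (nat_lit 5) (nat_lit 163) (nat_lit 5) (nat_lit 158) (nat_lit 5) (nat_lit 301) (nat_lit 286) (nat_lit 274)) (XT.lf (nat_lit 0) (nat_lit 1689533481) (nat_lit 504) (nat_lit 3862925393) (nat_lit 588) (nat_lit 1258405695) (nat_lit 151) (nat_lit 5) (nat_lit 157) (nat_lit 5) (nat_lit 158) (nat_lit 5) (nat_lit 302) (nat_lit 286) (nat_lit 273)))) (XT.nd (nat_lit 94) (nat_lit 588) (nat_lit 0) (XT.lf (nat_lit 0) (nat_lit 795560854) (nat_lit 588) (nat_lit 2113956561) (nat_lit 84) (nat_lit 3954514338) (nat_lit 150) (nat_lit 5) (nat_lit 157) (nat_lit 5) (nat_lit 151) (nat_lit 5) (nat_lit 303) (nat_lit 286) (nat_lit 272)) (XT.nd (nat_lit 94) (nat_lit 0) (nat_lit 0) (XT.lf (nat_lit 0) (nat_lit 940181450) (nat_lit 588) (nat_lit 1884564941) (nat_lit 672) (nat_lit 4096172142) (nat_lit 143) (nat_lit 5) (nat_lit 150) (nat_lit 5) (nat_lit 151) (nat_lit 5) (nat_lit 304) (nat_lit 286) (nat_lit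 271)) (XT.lf (nat_lit 0) (nat_lit 4081807242) (nat_lit 588) (nat_lit 787092347) (nat_lit 672) (nat_lit 2112677734) (nat_lit 143) (nat_lit 5) (nat_lit 150) (nat_lit 5) (nat_lit 151) (nat_lit 5) (nat_lit 305) (nat_lit 286) (nat_lit 270))))) (XT.nd (nat_lit 282) (nat_lit 1680) (nat_lit 0) (XT.nd (nat_lit 94) (nat_lit 84) (nat_lit 0) (XT.lf (nat_lit 0) (nat_lit 224589024) (nat_lit 672) (nat_lit 6689752504) (nat_lit 756) (nat_lit 132206250) (nat_lit 135) (nat_lit 5) (nat_lit 143) (nat_lit 5) (nat_lit 144) (nat_lit 5) (nat_lit 306) (nat_lit 286) (nat_lit 269)) (XT.nd (nat_lit 94) (nat_lit 0) (nat_lit 0) (XT.lf (nat_lit 0) (nat_lit 1842442177) (nat_lit 756) (nat_lit 3687170353) (nat_lit 84) (nat_lit 1584700278) (nat_lit 134) (nat_lit 5) (nat_lit 143) (nat_lit 5) (nat_lit 135) (nat_lit 5) (nat_lit 307) (nat_lit 286) (nat_lit 268)) (XT.lf (nat_lit 0) (nat_lit 3810214529) (nat_lit 756) (nat_lit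 509464947) (nat_lit 84) (nat_lit 2866945232) (nat_lit 134) (nat_lit 5) (nat_lit 143) (nat_lit 5) (nat_lit 135) (nat_lit 5) (nat_lit 308) (nat_lit 286) (nat_lit 267)))) (XT.nd (nat_lit 94) (nat_lit 924) (nat_lit 0) (XT.lf (nat_lit 0) (nat_lit 2771265747) (nat_lit 756) (nat_lit 3031834189) (nat_lit 840) (nat_lit 1459639374) (nat_lit 125) (nat_lit 5) (nat_lit 134) (nat_lit 5) (nat_lit 135) (nat_lit 5) (nat_lit 309) (nat_lit 286) (nat_lit 266)) (XT.nd (nat_lit 94) (nat_lit 840) (nat_lit 0) (XT.lf (nat_lit 0) (nat_lit 448478546) (nat_lit 840) (nat_lit 1234244748) (nat_lit 84) (nat_lit 5660540886) (nat_lit 124) (nat_lit 5) (nat_lit 134) (nat_lit 5) (nat_lit 125) (nat_lit 5) (nat_lit 310) (nat_lit 286) (nat_lit 265)) (XT.lf (nat_lit 0) (nat_lit 2100410164) (nat_lit 840) (nat_lit 244711972) (nat_lit 924) (nat_lit 5082359133) (nat_lit 114) (nat_lit 5) (nat_lit 124) (nat_lit 5) (nat_lit 125)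 (nat_lit 5) (nat_lit 311) (nat_lit 286) (nat_lit 264)))))) (XT.nd (nat_lit 564) (nat_lit 2184) (nat_lit 0) (XT.nd (nat_lit 282) (nat_lit 1008) (nat_lit 0) (XT.nd (nat_lit 94) (nat_lit 1008) (nat_lit 0) (XT.lf (nat_lit 0) (nat_lit 4266145442) (nat_lit 924) (nat_lit 2014482799) (nat_lit 84) (nat_lit 1235144697) (nat_lit 114) (nat_lit 5) (nat_lit 125) (nat_lit 5) (nat_lit 115) (nat_lit 5) (nat_lit 312) (nat_lit 286) (nat_lit 263)) (XT.nd (nat_lit 94) (nat_lit 84) (nat_lit 0) (XT.lf (nat_lit 0) (nat_lit 1374812755) (nat_lit 924) (nat_lit 4830133354) (nat_lit 1008) (nat_lit 1403535560) (nat_lit 103) (nat_lit 5) (nat_lit 114) (nat_lit 5) (nat_lit 115) (nat_lit 5) (nat_lit 313) (nat_lit 286) (nat_lit 262)) (XT.lf (nat_lit 0) (nat_lit 453335540) (nat_lit 1008) (nat_lit 2848911538) (nat_lit 84) (nat_lit 4403153588) (nat_lit 102) (nat_lit 5) (nat_lit 114) (nat_lit 5) (nat_lit 103) (nat_lit 5)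 (nat_lit 314) (nat_lit 286) (nat_lit 261)))) (XT.nd (nat_lit 94) (nat_lit 0) (nat_lit 0) (XT.lf (nat_lit 0) (nat_lit 587618995) (nat_lit 1008) (nat_lit 1700935494) (nat_lit 1092) (nat_lit 5518227853) (nat_lit 90) (nat_lit 5) (nat_lit 102) (nat_lit 5) (nat_lit 103) (nat_lit 5) (nat_lit 315) (nat_lit 286) (nat_lit 260)) (XT.nd (nat_lit 94) (nat_lit 0) (nat_lit 0) (XT.lf (nat_lit 0) (nat_lit 4140951406) (nat_lit 1008) (nat_lit 14744169) (nat_lit 1092) (nat_lit 3756726088) (nat_lit 90) (nat_lit 5) (nat_lit 102) (nat_lit 5) (nat_lit 103) (nat_lit 5) (nat_lit 316) (nat_lit 286) (nat_lit 259)) (XT.lf (nat_lit 0) (nat_lit 6044800076) (nat_lit 1092) (nat_lit 284636491) (nat_lit 84) (nat_lit 1693343201) (nat_lit 90) (nat_lit 5) (nat_lit 103) (nat_lit 5) (nat_lit 91) (nat_lit 5) (nat_lit 317) (nat_lit 286) (nat_lit 258))))) (XT.nd (nat_lit 282) (nat_lit 1008) (nat_lit 0) (XT.nd (nat_lit 94) (nat_lit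 588) (nat_lit 0) (XT.lf (nat_lit 0) (nat_lit 3328075921) (nat_lit 588) (nat_lit 4646133277) (nat_lit 672) (nat_lit 163236333) (nat_lit 83) (nat_lit 5) (nat_lit 90) (nat_lit 5) (nat_lit 91) (nat_lit 5) (nat_lit 318) (nat_lit 286) (nat_lit 257)) (XT.nd (nat_lit 94) (nat_lit 504) (nat_lit 0) (XT.lf (nat_lit 0) (nat_lit 1625178660) (nat_lit 672) (nat_lit 1263701280) (nat_lit 84) (nat_lit 5368055909) (nat_lit 82) (nat_lit 5) (nat_lit 90) (nat_lit 5) (nat_lit 83) (nat_lit 5) (nat_lit 319) (nat_lit 286) (nat_lit 256)) (XT.lf (nat_lit 0) (nat_lit 2389894463) (nat_lit 504) (nat_lit 1049816975) (nat_lit 588) (nat_lit 4941463587) (nat_lit 76) (nat_lit 5) (nat_lit 82) (nat_lit 5) (nat_lit 83) (nat_lit 5) (nat_lit 320) (nat_lit 286) (nat_lit 255)))) (XT.nd (nat_lit 188) (nat_lit 504) (nat_lit 0) (XT.nd (nat_lit 94) (nat_lit 504) (nat_lit 0) (XT.lf (nat_lit 0) (nat_lit 5283597753) (nat_lit 588)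 (nat_lit 2383621681) (nat_lit 84) (nat_lit 843163709) (nat_lit 76) (nat_lit 5) (nat_lit 83) (nat_lit 5) (nat_lit 77) (nat_lit 5) (nat_lit 321) (nat_lit 286) (nat_lit 254)) (XT.lf (nat_lit 0) (nat_lit 1303112390) (nat_lit 504) (nat_lit 5858040856) (nat_lit 588) (nat_lit 1483446884) (nat_lit 70) (nat_lit 5) (nat_lit 76) (nat_lit 5) (nat_lit 77) (nat_lit 5) (nat_lit 322) (nat_lit 286) (nat_lit 253))) (XT.nd (nat_lit 94) (nat_lit 420) (nat_lit 0) (XT.lf (nat_lit 0) (nat_lit 285798717) (nat_lit 588) (nat_lit 3679923846) (nat_lit 84) (nat_lit 4818093778) (nat_lit 69) (nat_lit 5) (nat_lit 76) (nat_lit 5) (nat_lit 70) (nat_lit 5) (nat_lit 323) (nat_lit 286) (nat_lit 252)) (XT.lf (nat_lit 0) (nat_lit 33101780) (nat_lit 420) (nat_lit 2000768517) (nat_lit 504) (nat_lit 6894660109) (nat_lit 64) (nat_lit 5) (nat_lit 69) (nat_lit 5) (nat_lit 70) (nat_lit 5) (nat_lit 324) (nat_lit 286) (nat_lit 251))))))))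
noncomputable def xc82 : XT := (XT.nd (nat_lit 2256) (nat_lit 1428) (nat_lit 0) (XT.nd (nat_lit 1128) (nat_lit 1260) (nat_lit 0) (XT.nd (nat_lit 564) (nat_lit 840) (nat_lit 0) (XT.nd (nat_lit 282) (nat_lit 420) (nat_lit 0) (XT.nd (nat_lit 94) (nat_lit 420) (nat_lit 0) (XT.lf (nat_lit 0) (nat_lit 3830528657) (nat_lit 504) (nat_lit 5186601305) (nat_lit 84) (nat_lit 61017906) (nat_lit 64) (nat_lit 5) (nat_lit 70) (nat_lit 5) (nat_lit 65) (nat_lit 5) (nat_lit 325) (nat_lit 286) (nat_lit 250)) (XT.nd (nat_lit 94) (nat_lit 420) (nat_lit 0) (XT.lf (nat_lit 0) (nat_lit 5660033160) (nat_lit 504) (nat_lit 1430463540) (nat_lit 84) (nat_lit 2142851360) (nat_lit 64) (nat_lit 5) (nat_lit 70) (nat_lit 5) (nat_lit 65) (nat_lit 5) (nat_lit 326) (nat_lit 286) (nat_lit 249)) (XT.lf (nat_lit 0) (nat_lit 2445607189) (nat_lit 420) (nat_lit 5082894764) (nat_lit 504) (nat_lit 1865636895) (nat_lit 59) (nat_lit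 5) (nat_lit 64) (nat_lit 5) (nat_lit 65) (nat_lit 5) (nat_lit 327) (nat_lit 286) (nat_lit 248)))) (XT.nd (nat_lit 94) (nat_lit 420) (nat_lit 0) (XT.lf (nat_lit 0) (nat_lit 6426843835) (nat_lit 420) (nat_lit 3001783101) (nat_lit 504) (nat_lit 132323708) (nat_lit 59) (nat_lit 5) (nat_lit 64) (nat_lit 5) (nat_lit 65) (nat_lit 5) (nat_lit 328) (nat_lit 286) (nat_lit 247)) (XT.nd (nat_lit 94) (nat_lit 0) (nat_lit 0) (XT.lf (nat_lit 0) (nat_lit 752309307) (nat_lit 336) (nat_lit 835958294) (nat_lit 420) (nat_lit 8145392800) (nat_lit 54) (nat_lit 5) (nat_lit 58) (nat_lit 5) (nat_lit 59) (nat_lit 5) (nat_lit 329) (nat_lit 286) (nat_lit 246)) (XT.lf (nat_lit 0) (nat_lit 3366507860) (nat_lit 420) (nat_lit 5146542921) (nat_lit 84) (nat_lit 1398615375) (nat_lit 54) (nat_lit 5) (nat_lit 59) (nat_lit 5) (nat_lit 55) (nat_lit 5) (nat_lit 330) (nat_lit 286) (nat_lit 245))))) (XT.nd (nat_lit 282) (nat_lit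 420) (nat_lit 0) (XT.nd (nat_lit 94) (nat_lit 420) (nat_lit 0) (XT.lf (nat_lit 0) (nat_lit 5169774160) (nat_lit 420) (nat_lit 1245956694) (nat_lit 84) (nat_lit 3680589007) (nat_lit 54) (nat_lit 5) (nat_lit 59) (nat_lit 5) (nat_lit 55) (nat_lit 5) (nat_lit 331) (nat_lit 286) (nat_lit 244)) (XT.nd (nat_lit 94) (nat_lit 0) (nat_lit 0) (XT.lf (nat_lit 0) (nat_lit 2788518583) (nat_lit 420) (nat_lit 4230598391) (nat_lit 504) (nat_lit 3268076202) (nat_lit 49) (nat_lit 5) (nat_lit 54) (nat_lit 5) (nat_lit 55) (nat_lit 5) (nat_lit 332) (nat_lit 286) (nat_lit 243)) (XT.lf (nat_lit 0) (nat_lit 6931702144) (nat_lit 420) (nat_lit 1970308151) (nat_lit 504) (nat_lit 1582895463) (nat_lit 49) (nat_lit 5) (nat_lit 54) (nat_lit 5) (nat_lit 55) (nat_lit 5) (nat_lit 333) (nat_lit 286) (nat_lit 242)))) (XT.nd (nat_lit 94) (nat_lit 0) (nat_lit 0) (XT.lf (nat_lit 0) (nat_lit 123532993) (nat_lit 420) (nat_lit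 10213109308) (nat_lit 84) (nat_lit 353095955) (nat_lit 44) (nat_lit 5) (nat_lit 49) (nat_lit 5) (nat_lit 45) (nat_lit 5) (nat_lit 334) (nat_lit 286) (nat_lit 241)) (XT.nd (nat_lit 94) (nat_lit 0) (nat_lit 0) (XT.lf (nat_lit 0) (nat_lit 1871989093) (nat_lit 420) (nat_lit 6272963127) (nat_lit 84) (nat_lit 2754953044) (nat_lit 44) (nat_lit 5) (nat_lit 49) (nat_lit 5) (nat_lit 45) (nat_lit 5) (nat_lit 335) (nat_lit 286) (nat_lit 240)) (XT.lf (nat_lit 0) (nat_lit 3640107781) (nat_lit 420) (nat_lit 2252558382) (nat_lit 84) (nat_lit 5225155783) (nat_lit 44) (nat_lit 5) (nat_lit 49) (nat_lit 5) (nat_lit 45) (nat_lit 5) (nat_lit 336) (nat_lit 286) (nat_lit 239)))))) (XT.nd (nat_lit 564) (nat_lit 588) (nat_lit 0) (XT.nd (nat_lit 282) (nat_lit 336) (nat_lit 0) (XT.nd (nat_lit 94) (nat_lit 0) (nat_lit 0) (XT.lf (nat_lit 0) (nat_lit 1889930248) (nat_lit 336) (nat_lit 3558355223) (nat_lit 420) (nat_lit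 5894824754) (nat_lit 40) (nat_lit 5) (nat_lit 44) (nat_lit 5) (nat_lit 45) (nat_lit 5) (nat_lit 337) (nat_lit 286) (nat_lit 238)) (XT.nd (nat_lit 94) (nat_lit 0) (nat_lit 0) (XT.lf (nat_lit 0) (nat_lit 6168373843) (nat_lit 336) (nat_lit 1134762260) (nat_lit 420) (nat_lit 4272691202) (nat_lit 40) (nat_lit 5) (nat_lit 44) (nat_lit 5) (nat_lit 45) (nat_lit 5) (nat_lit 338) (nat_lit 286) (nat_lit 237)) (XT.lf (nat_lit 0) (nat_lit 9197043681) (nat_lit 420) (nat_lit 1289914140) (nat_lit 84) (nat_lit 1329521978) (nat_lit 40) (nat_lit 5) (nat_lit 45) (nat_lit 5) (nat_lit 41) (nat_lit 5) (nat_lit 339) (nat_lit 286) (nat_lit 236)))) (XT.nd (nat_lit 94) (nat_lit 84) (nat_lit 0) (XT.lf (nat_lit 0) (nat_lit 2964522371) (nat_lit 252) (nat_lit 8195141694) (nat_lit 336) (nat_lit 904763347) (nat_lit 37) (nat_lit 5) (nat_lit 40) (nat_lit 5) (nat_lit 41) (nat_lit 5) (nat_lit 340) (nat_lit 286) (nat_lit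 235)) (XT.nd (nat_lit 94) (nat_lit 0) (nat_lit 0) (XT.lf (nat_lit 0) (nat_lit 828366016) (nat_lit 336) (nat_lit 4989399048) (nat_lit 84) (nat_lit 6502703874) (nat_lit 36) (nat_lit 5) (nat_lit 40) (nat_lit 5) (nat_lit 37) (nat_lit 5) (nat_lit 341) (nat_lit 286) (nat_lit 234)) (XT.lf (nat_lit 0) (nat_lit 2566446554) (nat_lit 336) (nat_lit 798788421) (nat_lit 84) (nat_lit 9219987608) (nat_lit 36) (nat_lit 5) (nat_lit 40) (nat_lit 5) (nat_lit 37) (nat_lit 5) (nat_lit 342) (nat_lit 286) (nat_lit 233))))) (XT.nd (nat_lit 282) (nat_lit 252) (nat_lit 0) (XT.nd (nat_lit 94) (nat_lit 0) (nat_lit 0) (XT.lf (nat_lit 0) (nat_lit 3556463099) (nat_lit 336) (nat_lit 808144761) (nat_lit 420) (nat_lit 8493511804) (nat_lit 32) (nat_lit 5) (nat_lit 36) (nat_lit 5) (nat_lit 37) (nat_lit 5) (nat_lit 343) (nat_lit 286) (nat_lit 232)) (XT.nd (nat_lit 94) (nat_lit 0) (nat_lit 0) (XT.lf (nat_lit 0) (nat_lit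 6216423637) (nat_lit 420) (nat_lit 5131258080) (nat_lit 84) (nat_lit 1791984005) (nat_lit 32) (nat_lit 5) (nat_lit 37) (nat_lit 5) (nat_lit 33) (nat_lit 5) (nat_lit 344) (nat_lit 286) (nat_lit 231)) (XT.lf (nat_lit 0) (nat_lit 8106124858) (nat_lit 420) (nat_lit 876195631) (nat_lit 84) (nat_lit 4448345050) (nat_lit 32) (nat_lit 5) (nat_lit 37) (nat_lit 5) (nat_lit 33) (nat_lit 5) (nat_lit 345) (nat_lit 286) (nat_lit 230)))) (XT.nd (nat_lit 94) (nat_lit 0) (nat_lit 0) (XT.lf (nat_lit 0) (nat_lit 3546977536) (nat_lit 252) (nat_lit 6515664946) (nat_lit 336) (nat_lit 3667905617) (nat_lit 29) (nat_lit 5) (nat_lit 32) (nat_lit 5) (nat_lit 33) (nat_lit 5) (nat_lit 346) (nat_lit 286) (nat_lit 229)) (XT.nd (nat_lit 94) (nat_lit 0) (nat_lit 0) (XT.lf (nat_lit 0) (nat_lit 8090941022) (nat_lit 252) (nat_lit 3971530137) (nat_lit 336) (nat_lit 1977906963) (nat_lit 29) (nat_lit 5) (nat_lit 32) (nat_lit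 5) (nat_lit 33) (nat_lit 5) (nat_lit 347) (nat_lit 286) (nat_lit 228)) (XT.lf (nat_lit 0) (nat_lit 12741913899) (nat_lit 252) (nat_lit 1356690347) (nat_lit 336) (nat_lit 262115151) (nat_lit 29) (nat_lit 5) (nat_lit 32) (nat_lit 5) (nat_lit 33) (nat_lit 5) (nat_lit 348) (nat_lit 286) (nat_lit 227))))))) (XT.nd (nat_lit 1128) (nat_lit 420) (nat_lit 0) (XT.nd (nat_lit 564) (nat_lit 504) (nat_lit 0) (XT.nd (nat_lit 282) (nat_lit 168) (nat_lit 0) (XT.nd (nat_lit 94) (nat_lit 0) (nat_lit 0) (XT.lf (nat_lit 0) (nat_lit 1493199288) (nat_lit 336) (nat_lit 11848989288) (nat_lit 84) (nat_lit 1347925391) (nat_lit 25) (nat_lit 5) (nat_lit 29) (nat_lit 5) (nat_lit 26) (nat_lit 5) (nat_lit 349) (nat_lit 286) (nat_lit 226)) (XT.nd (nat_lit 94) (nat_lit 0) (nat_lit 0) (XT.lf (nat_lit 0) (nat_lit 3303501367) (nat_lit 336) (nat_lit 7606203639) (nat_lit 84) (nat_lit 4119845594) (nat_lit 25) (nat_lit 5)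 (nat_lit 29) (nat_lit 5) (nat_lit 26) (nat_lit 5) (nat_lit 350) (nat_lit 286) (nat_lit 225)) (XT.lf (nat_lit 0) (nat_lit 5145744402) (nat_lit 336) (nat_lit 3264780877) (nat_lit 84) (nat_lit 6969831483) (nat_lit 25) (nat_lit 5) (nat_lit 29) (nat_lit 5) (nat_lit 26) (nat_lit 5) (nat_lit 351) (nat_lit 286) (nat_lit 224)))) (XT.nd (nat_lit 94) (nat_lit 0) (nat_lit 0) (XT.lf (nat_lit 0) (nat_lit 1203575013) (nat_lit 168) (nat_lit 5830010158) (nat_lit 252) (nat_lit 8708904141) (nat_lit 23) (nat_lit 5) (nat_lit 25) (nat_lit 5) (nat_lit 26) (nat_lit 5) (nat_lit 352) (nat_lit 286) (nat_lit 223)) (XT.nd (nat_lit 94) (nat_lit 0) (nat_lit 0) (XT.lf (nat_lit 0) (nat_lit 5848084205) (nat_lit 168) (nat_lit 3142882883) (nat_lit 252) (nat_lit 7124631010) (nat_lit 23) (nat_lit 5) (nat_lit 25) (nat_lit 5) (nat_lit 26) (nat_lit 5) (nat_lit 353) (nat_lit 286) (nat_lit 222)) (XT.lf (nat_lit 0) (nat_lit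 10605945279) (nat_lit 168) (nat_lit 380716389) (nat_lit 252) (nat_lit 5514393875) (nat_lit 23) (nat_lit 5) (nat_lit 25) (nat_lit 5) (nat_lit 26) (nat_lit 5) (nat_lit 354) (nat_lit 286) (nat_lit 221))))) (XT.nd (nat_lit 282) (nat_lit 252) (nat_lit 0) (XT.nd (nat_lit 94) (nat_lit 252) (nat_lit 0) (XT.lf (nat_lit 0) (nat_lit 13046923322) (nat_lit 252) (nat_lit 1442022091) (nat_lit 84) (nat_lit 2409519295) (nat_lit 23) (nat_lit 5) (nat_lit 26) (nat_lit 5) (nat_lit 24) (nat_lit 5) (nat_lit 355) (nat_lit 286) (nat_lit 220)) (XT.nd (nat_lit 94) (nat_lit 0) (nat_lit 0) (XT.lf (nat_lit 0) (nat_lit 3179811490) (nat_lit 252) (nat_lit 12005561059) (nat_lit 336) (nat_lit 2122460771) (nat_lit 20) (nat_lit 5) (nat_lit 23) (nat_lit 5) (nat_lit 24) (nat_lit 5) (nat_lit 356) (nat_lit 286) (nat_lit 219)) (XT.lf (nat_lit 0) (nat_lit 7946317801) (nat_lit 252) (nat_lit 9438074737) (nat_lit 336) (nat_lit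 345758326) (nat_lit 20) (nat_lit 5) (nat_lit 23) (nat_lit 5) (nat_lit 24) (nat_lit 5) (nat_lit 357) (nat_lit 286) (nat_lit 218)))) (XT.nd (nat_lit 94) (nat_lit 168) (nat_lit 0) (XT.lf (nat_lit 0) (nat_lit 1435650351) (nat_lit 336) (nat_lit 5348509436) (nat_lit 84) (nat_lit 11381653196) (nat_lit 19) (nat_lit 5) (nat_lit 23) (nat_lit 5) (nat_lit 20) (nat_lit 5) (nat_lit 358) (nat_lit 286) (nat_lit 217)) (XT.nd (nat_lit 94) (nat_lit 168) (nat_lit 0) (XT.lf (nat_lit 0) (nat_lit 3245283304) (nat_lit 336) (nat_lit 807154784) (nat_lit 84) (nat_lit 14563121296) (nat_lit 19) (nat_lit 5) (nat_lit 23) (nat_lit 5) (nat_lit 20) (nat_lit 5) (nat_lit 359) (nat_lit 286) (nat_lit 216)) (XT.lf (nat_lit 0) (nat_lit 3927014467) (nat_lit 168) (nat_lit 1203735560) (nat_lit 252) (nat_lit 13947957926) (nat_lit 17) (nat_lit 5) (nat_lit 19) (nat_lit 5) (nat_lit 20) (nat_lit 5) (nat_lit 360) (nat_lit 286) (nat_lit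 215)))))) (XT.nd (nat_lit 564) (nat_lit 252) (nat_lit 0) (XT.nd (nat_lit 282) (nat_lit 168) (nat_lit 0) (XT.nd (nat_lit 94) (nat_lit 0) (nat_lit 0) (XT.lf (nat_lit 0) (nat_lit 7081383965) (nat_lit 252) (nat_lit 10775570400) (nat_lit 84) (nat_lit 1699121174) (nat_lit 17) (nat_lit 5) (nat_lit 20) (nat_lit 5) (nat_lit 18) (nat_lit 5) (nat_lit 361) (nat_lit 286) (nat_lit 214)) (XT.nd (nat_lit 94) (nat_lit 0) (nat_lit 0) (XT.lf (nat_lit 0) (nat_lit 9086382077) (nat_lit 252) (nat_lit 6302666469) (nat_lit 84) (nat_lit 4659449811) (nat_lit 17) (nat_lit 5) (nat_lit 20) (nat_lit 5) (nat_lit 18) (nat_lit 5) (nat_lit 362) (nat_lit 286) (nat_lit 213)) (XT.lf (nat_lit 0) (nat_lit 11135672026) (nat_lit 252) (nat_lit 1716871271) (nat_lit 84) (nat_lit 7704262275) (nat_lit 17) (nat_lit 5) (nat_lit 20) (nat_lit 5) (nat_lit 18) (nat_lit 5) (nat_lit 363) (nat_lit 286) (nat_lit 212)))) (XT.nd (nat_lit 94)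 (nat_lit 0) (nat_lit 0) (XT.lf (nat_lit 0) (nat_lit 3047489760) (nat_lit 168) (nat_lit 10213905681) (nat_lit 252) (nat_lit 7819138366) (nat_lit 15) (nat_lit 5) (nat_lit 17) (nat_lit 5) (nat_lit 18) (nat_lit 5) (nat_lit 364) (nat_lit 286) (nat_lit 211)) (XT.nd (nat_lit 94) (nat_lit 0) (nat_lit 0) (XT.lf (nat_lit 0) (nat_lit 7971201850) (nat_lit 168) (nat_lit 7482684572) (nat_lit 252) (nat_lit 6166645874) (nat_lit 15) (nat_lit 5) (nat_lit 17) (nat_lit 5) (nat_lit 18) (nat_lit 5) (nat_lit 365) (nat_lit 286) (nat_lit 210)) (XT.lf (nat_lit 0) (nat_lit 13023552019) (nat_lit 168) (nat_lit 4674254801) (nat_lit 252) (nat_lit 4480036388) (nat_lit 15) (nat_lit 5) (nat_lit 17) (nat_lit 5) (nat_lit 18) (nat_lit 5) (nat_lit 366) (nat_lit 286) (nat_lit 209))))) (XT.nd (nat_lit 282) (nat_lit 0) (nat_lit 0) (XT.nd (nat_lit 94) (nat_lit 252) (nat_lit 0) (XT.lf (nat_lit 0) (nat_lit 18209249587) (nat_lit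 168) (nat_lit 1785998618) (nat_lit 252) (nat_lit 2757737813) (nat_lit 15) (nat_lit 5) (nat_lit 17) (nat_lit 5) (nat_lit 18) (nat_lit 5) (nat_lit 367) (nat_lit 286) (nat_lit 208)) (XT.nd (nat_lit 94) (nat_lit 84) (nat_lit 0) (XT.lf (nat_lit 0) (nat_lit 178474077) (nat_lit 168) (nat_lit 22183401566) (nat_lit 252) (nat_lit 984201943) (nat_lit 13) (nat_lit 5) (nat_lit 15) (nat_lit 5) (nat_lit 16) (nat_lit 4) (nat_lit 368) (nat_lit 286) (nat_lit 207)) (XT.lf (nat_lit 0) (nat_lit 877886366) (nat_lit 252) (nat_lit 18862998988) (nat_lit 84) (nat_lit 4214894818) (nat_lit 12) (nat_lit 5) (nat_lit 15) (nat_lit 5) (nat_lit 13) (nat_lit 5) (nat_lit 369) (nat_lit 286) (nat_lit 206)))) (XT.nd (nat_lit 188) (nat_lit 0) (nat_lit 0) (XT.nd (nat_lit 94) (nat_lit 0) (nat_lit 0) (XT.lf (nat_lit 0) (nat_lit 2762129077) (nat_lit 252) (nat_lit 14457505525) (nat_lit 84) (nat_lit 7364957132) (nat_lit 12) (nat_lit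 5) (nat_lit 15) (nat_lit 5) (nat_lit 13) (nat_lit 5) (nat_lit 370) (nat_lit 286) (nat_lit 205)) (XT.lf (nat_lit 0) (nat_lit 4690111974) (nat_lit 252) (nat_lit 9937253334) (nat_lit 84) (nat_lit 10606035747) (nat_lit 12) (nat_lit 5) (nat_lit 15) (nat_lit 5) (nat_lit 13) (nat_lit 5) (nat_lit 371) (nat_lit 286) (nat_lit 204))) (XT.nd (nat_lit 94) (nat_lit 0) (nat_lit 0) (XT.lf (nat_lit 0) (nat_lit 6663632141) (nat_lit 252) (nat_lit 5298029067) (nat_lit 84) (nat_lit 13941151687) (nat_lit 12) (nat_lit 5) (nat_lit 15) (nat_lit 5) (nat_lit 13) (nat_lit 5) (nat_lit 372) (nat_lit 286) (nat_lit 203)) (XT.lf (nat_lit 0) (nat_lit 8684529105) (nat_lit 252) (nat_lit 535508482) (nat_lit 84) (nat_lit 17373413629) (nat_lit 12) (nat_lit 5) (nat_lit 15) (nat_lit 5) (nat_lit 13) (nat_lit 5) (nat_lit 373) (nat_lit 286) (nat_lit 202))))))))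
noncomputable def xc83 : XT := (XT.nd (nat_lit 2256) (nat_lit 168) (nat_lit 0) (XT.nd (nat_lit 1128) (nat_lit 252) (nat_lit 0) (XT.nd (nat_lit 564) (nat_lit 84) (nat_lit 0) (XT.nd (nat_lit 282) (nat_lit 84) (nat_lit 0) (XT.nd (nat_lit 94) (nat_lit 0) (nat_lit 0) (XT.lf (nat_lit 0) (nat_lit 4444290131) (nat_lit 168) (nat_lit 6354484330) (nat_lit 252) (nat_lit 16505818578) (nat_lit 10) (nat_lit 5) (nat_lit 12) (nat_lit 5) (nat_lit 13) (nat_lit 5) (nat_lit 374) (nat_lit 286) (nat_lit 201)) (XT.nd (nat_lit 94) (nat_lit 0) (nat_lit 0) (XT.lf (nat_lit 0) (nat_lit 9570113846) (nat_lit 168) (nat_lit 3400856957) (nat_lit 252) (nat_lit 15067088832) (nat_lit 10) (nat_lit 5) (nat_lit 12) (nat_lit 5) (nat_lit 13) (nat_lit 5) (nat_lit 375) (nat_lit 286) (nat_lit 200)) (XT.lf (nat_lit 0) (nat_lit 14835729314) (nat_lit 168) (nat_lit 361991989) (nat_lit 252) (nat_lit 13596981436) (nat_lit 10) (nat_lit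 5) (nat_lit 12) (nat_lit 5) (nat_lit 13) (nat_lit 5) (nat_lit 376) (nat_lit 286) (nat_lit 199)))) (XT.nd (nat_lit 94) (nat_lit 84) (nat_lit 0) (XT.lf (nat_lit 0) (nat_lit 17508530104) (nat_lit 252) (nat_lit 9356611560) (nat_lit 84) (nat_lit 2709235671) (nat_lit 10) (nat_lit 5) (nat_lit 13) (nat_lit 5) (nat_lit 11) (nat_lit 4) (nat_lit 377) (nat_lit 286) (nat_lit 198)) (XT.nd (nat_lit 94) (nat_lit 84) (nat_lit 0) (XT.lf (nat_lit 0) (nat_lit 19882590562) (nat_lit 252) (nat_lit 4633609751) (nat_lit 84) (nat_lit 5862321627) (nat_lit 10) (nat_lit 5) (nat_lit 13) (nat_lit 5) (nat_lit 11) (nat_lit 4) (nat_lit 378) (nat_lit 286) (nat_lit 197)) (XT.lf (nat_lit 0) (nat_lit 222508387) (nat_lit 84) (nat_lit 22098223468) (nat_lit 168) (nat_lit 8887197140) (nat_lit 9) (nat_lit 5) (nat_lit 10) (nat_lit 5) (nat_lit 11) (nat_lit 4) (nat_lit 379) (nat_lit 286) (nat_lit 196))))) (XT.nd (nat_lit 282)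 (nat_lit 84) (nat_lit 0) (XT.nd (nat_lit 94) (nat_lit 0) (nat_lit 0) (XT.lf (nat_lit 0) (nat_lit 5309796509) (nat_lit 84) (nat_lit 19561479928) (nat_lit 168) (nat_lit 7190667611) (nat_lit 9) (nat_lit 5) (nat_lit 10) (nat_lit 5) (nat_lit 11) (nat_lit 4) (nat_lit 380) (nat_lit 286) (nat_lit 195)) (XT.nd (nat_lit 94) (nat_lit 0) (nat_lit 0) (XT.lf (nat_lit 0) (nat_lit 10537719980) (nat_lit 84) (nat_lit 16951970564) (nat_lit 168) (nat_lit 5453126833) (nat_lit 9) (nat_lit 5) (nat_lit 10) (nat_lit 5) (nat_lit 11) (nat_lit 4) (nat_lit 381) (nat_lit 286) (nat_lit 194)) (XT.lf (nat_lit 0) (nat_lit 15911151773) (nat_lit 84) (nat_lit 14267263040) (nat_lit 168) (nat_lit 3672955235) (nat_lit 9) (nat_lit 5) (nat_lit 10) (nat_lit 5) (nat_lit 11) (nat_lit 4) (nat_lit 382) (nat_lit 286) (nat_lit 193)))) (XT.nd (nat_lit 94) (nat_lit 84) (nat_lit 0) (XT.lf (nat_lit 0) (nat_lit 21435100489) (nat_lit 84)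 (nat_lit 11504854928) (nat_lit 168) (nat_lit 1848493511) (nat_lit 9) (nat_lit 5) (nat_lit 10) (nat_lit 5) (nat_lit 11) (nat_lit 4) (nat_lit 383) (nat_lit 286) (nat_lit 192)) (XT.nd (nat_lit 94) (nat_lit 0) (nat_lit 0) (XT.lf (nat_lit 0) (nat_lit 21516505) (nat_lit 168) (nat_lit 8640430280) (nat_lit 84) (nat_lit 27092973933) (nat_lit 8) (nat_lit 5) (nat_lit 10) (nat_lit 5) (nat_lit 9) (nat_lit 5) (nat_lit 384) (nat_lit 286) (nat_lit 191)) (XT.lf (nat_lit 0) (nat_lit 1901055933) (nat_lit 168) (nat_lit 3815663639) (nat_lit 84) (nat_lit 31034390324) (nat_lit 8) (nat_lit 5) (nat_lit 10) (nat_lit 5) (nat_lit 9) (nat_lit 5) (nat_lit 385) (nat_lit 286) (nat_lit 190)))))) (XT.nd (nat_lit 564) (nat_lit 84) (nat_lit 0) (XT.nd (nat_lit 282) (nat_lit 0) (nat_lit 0) (XT.nd (nat_lit 94) (nat_lit 0) (nat_lit 0) (XT.lf (nat_lit 0) (nat_lit 1167304539) (nat_lit 168) (nat_lit 2673394990) (nat_lit 252)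 (nat_lit 33937454966) (nat_lit 6) (nat_lit 5) (nat_lit 8) (nat_lit 5) (nat_lit 9) (nat_lit 5) (nat_lit 386) (nat_lit 286) (nat_lit 189)) (XT.nd (nat_lit 94) (nat_lit 0) (nat_lit 0) (XT.lf (nat_lit 0) (nat_lit 5875667162) (nat_lit 252) (nat_lit 32470191207) (nat_lit 84) (nat_lit 490117693) (nat_lit 6) (nat_lit 5) (nat_lit 9) (nat_lit 5) (nat_lit 7) (nat_lit 4) (nat_lit 387) (nat_lit 286) (nat_lit 188)) (XT.lf (nat_lit 0) (nat_lit 7991705751) (nat_lit 252) (nat_lit 28243073449) (nat_lit 84) (nat_lit 3691282041) (nat_lit 6) (nat_lit 5) (nat_lit 9) (nat_lit 5) (nat_lit 7) (nat_lit 4) (nat_lit 388) (nat_lit 286) (nat_lit 187)))) (XT.nd (nat_lit 94) (nat_lit 0) (nat_lit 0) (XT.lf (nat_lit 0) (nat_lit 10164267257) (nat_lit 252) (nat_lit 23899036159) (nat_lit 84) (nat_lit 6986944824) (nat_lit 6) (nat_lit 5) (nat_lit 9) (nat_lit 5) (nat_lit 7) (nat_lit 4) (nat_lit 389) (nat_lit 286) (nat_lit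 186)) (XT.nd (nat_lit 94) (nat_lit 0) (nat_lit 0) (XT.lf (nat_lit 0) (nat_lit 12395376734) (nat_lit 252) (nat_lit 19434030237) (nat_lit 84) (nat_lit 10380177945) (nat_lit 6) (nat_lit 5) (nat_lit 9) (nat_lit 5) (nat_lit 7) (nat_lit 4) (nat_lit 390) (nat_lit 286) (nat_lit 185)) (XT.lf (nat_lit 0) (nat_lit 14687113812) (nat_lit 252) (nat_lit 14843893831) (nat_lit 84) (nat_lit 13874144254) (nat_lit 6) (nat_lit 5) (nat_lit 9) (nat_lit 5) (nat_lit 7) (nat_lit 4) (nat_lit 391) (nat_lit 286) (nat_lit 184))))) (XT.nd (nat_lit 282) (nat_lit 84) (nat_lit 0) (XT.nd (nat_lit 94) (nat_lit 0) (nat_lit 0) (XT.lf (nat_lit 0) (nat_lit 17041614627) (nat_lit 252) (nat_lit 10124348453) (nat_lit 84) (nat_lit 17472100493) (nat_lit 6) (nat_lit 5) (nat_lit 9) (nat_lit 5) (nat_lit 7) (nat_lit 4) (nat_lit 392) (nat_lit 286) (nat_lit 183)) (XT.nd (nat_lit 94) (nat_lit 0) (nat_lit 0) (XT.lf (nat_lit 0) (nat_lit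 19461073823) (nat_lit 252) (nat_lit 5270994992) (nat_lit 84) (nat_lit 21177400333) (nat_lit 6) (nat_lit 5) (nat_lit 9) (nat_lit 5) (nat_lit 7) (nat_lit 4) (nat_lit 393) (nat_lit 286) (nat_lit 182)) (XT.lf (nat_lit 0) (nat_lit 21947746588) (nat_lit 252) (nat_lit 279309614) (nat_lit 84) (nat_lit 24993497503) (nat_lit 6) (nat_lit 5) (nat_lit 9) (nat_lit 5) (nat_lit 7) (nat_lit 4) (nat_lit 394) (nat_lit 286) (nat_lit 181)))) (XT.nd (nat_lit 94) (nat_lit 0) (nat_lit 0) (XT.lf (nat_lit 0) (nat_lit 4955196622) (nat_lit 84) (nat_lit 19597910304) (nat_lit 168) (nat_lit 24017908547) (nat_lit 5) (nat_lit 5) (nat_lit 6) (nat_lit 5) (nat_lit 7) (nat_lit 4) (nat_lit 395) (nat_lit 286) (nat_lit 180)) (XT.nd (nat_lit 94) (nat_lit 0) (nat_lit 0) (XT.lf (nat_lit 0) (nat_lit 10346255248) (nat_lit 84) (nat_lit 16888449880) (nat_lit 168) (nat_lit 22728799316) (nat_lit 5) (nat_lit 5) (nat_lit 6) (nat_lit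 5) (nat_lit 7) (nat_lit 4) (nat_lit 396) (nat_lit 286) (nat_lit 179)) (XT.lf (nat_lit 0) (nat_lit 15893148115) (nat_lit 84) (nat_lit 14099064850) (nat_lit 168) (nat_lit 21407193260) (nat_lit 5) (nat_lit 5) (nat_lit 6) (nat_lit 5) (nat_lit 7) (nat_lit 4) (nat_lit 397) (nat_lit 286) (nat_lit 178))))))) (XT.nd (nat_lit 1128) (nat_lit 84) (nat_lit 0) (XT.nd (nat_lit 564) (nat_lit 84) (nat_lit 0) (XT.nd (nat_lit 282) (nat_lit 0) (nat_lit 0) (XT.nd (nat_lit 94) (nat_lit 0) (nat_lit 0) (XT.lf (nat_lit 0) (nat_lit 21601045510) (nat_lit 84) (nat_lit 11227155215) (nat_lit 168) (nat_lit 20051858505) (nat_lit 5) (nat_lit 5) (nat_lit 6) (nat_lit 5) (nat_lit 7) (nat_lit 4) (nat_lit 398) (nat_lit 286) (nat_lit 177)) (XT.nd (nat_lit 94) (nat_lit 0) (nat_lit 0) (XT.lf (nat_lit 0) (nat_lit 27475267789) (nat_lit 84) (nat_lit 8270044054) (nat_lit 168) (nat_lit 18661531735) (nat_lit 5) (nat_lit 5) (nat_lit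 6) (nat_lit 5) (nat_lit 7) (nat_lit 4) (nat_lit 399) (nat_lit 286) (nat_lit 176)) (XT.lf (nat_lit 0) (nat_lit 33521290345) (nat_lit 84) (nat_lit 5224975029) (nat_lit 168) (nat_lit 17234917021) (nat_lit 5) (nat_lit 5) (nat_lit 6) (nat_lit 5) (nat_lit 7) (nat_lit 4) (nat_lit 400) (nat_lit 286) (nat_lit 175)))) (XT.nd (nat_lit 94) (nat_lit 0) (nat_lit 0) (XT.lf (nat_lit 0) (nat_lit 39744748702) (nat_lit 84) (nat_lit 2089109818) (nat_lit 168) (nat_lit 15770684609) (nat_lit 5) (nat_lit 5) (nat_lit 6) (nat_lit 5) (nat_lit 7) (nat_lit 4) (nat_lit 401) (nat_lit 286) (nat_lit 174)) (XT.nd (nat_lit 94) (nat_lit 0) (nat_lit 0) (XT.lf (nat_lit 0) (nat_lit 45022282891) (nat_lit 168) (nat_lit 13138308795) (nat_lit 0) (nat_lit 1117496513) (nat_lit 5) (nat_lit 5) (nat_lit 7) (nat_lit 4) (nat_lit 5) (nat_lit 4) (nat_lit 402) (nat_lit 286) (nat_lit 173)) (XT.lf (nat_lit 0) (nat_lit 48324870034) (nat_lit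 168) (nat_lit 8301393836) (nat_lit 0) (nat_lit 4376792507) (nat_lit 5) (nat_lit 5) (nat_lit 7) (nat_lit 4) (nat_lit 5) (nat_lit 4) (nat_lit 403) (nat_lit 286) (nat_lit 172))))) (XT.nd (nat_lit 282) (nat_lit 0) (nat_lit 0) (XT.nd (nat_lit 94) (nat_lit 84) (nat_lit 0) (XT.lf (nat_lit 0) (nat_lit 51723974077) (nat_lit 168) (nat_lit 3323816811) (nat_lit 0) (nat_lit 7733907076) (nat_lit 5) (nat_lit 5) (nat_lit 7) (nat_lit 4) (nat_lit 5) (nat_lit 4) (nat_lit 404) (nat_lit 286) (nat_lit 171)) (XT.nd (nat_lit 94) (nat_lit 0) (nat_lit 0) (XT.lf (nat_lit 0) (nat_lit 1836054305) (nat_lit 84) (nat_lit 53404922923) (nat_lit 84) (nat_lit 9374128983) (nat_lit 4) (nat_lit 4) (nat_lit 5) (nat_lit 5) (nat_lit 5) (nat_lit 4) (nat_lit 405) (nat_lit 286) (nat_lit 170)) (XT.lf (nat_lit 0) (nat_lit 7217432546) (nat_lit 84) (nat_lit 51678664346) (nat_lit 84) (nat_lit 7608368040) (nat_lit 4) (nat_lit 4) (nat_lit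 5) (nat_lit 5) (nat_lit 5) (nat_lit 4) (nat_lit 406) (nat_lit 286) (nat_lit 169)))) (XT.nd (nat_lit 94) (nat_lit 0) (nat_lit 0) (XT.lf (nat_lit 0) (nat_lit 12756989431) (nat_lit 84) (nat_lit 49902099932) (nat_lit 84) (nat_lit 5793489013) (nat_lit 4) (nat_lit 4) (nat_lit 5) (nat_lit 5) (nat_lit 5) (nat_lit 4) (nat_lit 407) (nat_lit 286) (nat_lit 168)) (XT.nd (nat_lit 94) (nat_lit 0) (nat_lit 0) (XT.lf (nat_lit 0) (nat_lit 18459888405) (nat_lit 84) (nat_lit 48073573738) (nat_lit 84) (nat_lit 3927800247) (nat_lit 4) (nat_lit 4) (nat_lit 5) (nat_lit 5) (nat_lit 5) (nat_lit 4) (nat_lit 408) (nat_lit 286) (nat_lit 167)) (XT.lf (nat_lit 0) (nat_lit 24331445169) (nat_lit 84) (nat_lit 46191381387) (nat_lit 84) (nat_lit 2009562722) (nat_lit 4) (nat_lit 4) (nat_lit 5) (nat_lit 5) (nat_lit 5) (nat_lit 4) (nat_lit 409) (nat_lit 286) (nat_lit 166)))))) (XT.nd (nat_lit 42770) (nat_lit 0) (nat_lit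 13776) (XT.nd (nat_lit 42488) (nat_lit 0) (nat_lit 14532) (XT.nd (nat_lit 94) (nat_lit 84) (nat_lit 0) (XT.lf (nat_lit 0) (nat_lit 30377132628) (nat_lit 84) (nat_lit 44253768477) (nat_lit 84) (nat_lit 36988442) (nat_lit 4) (nat_lit 4) (nat_lit 5) (nat_lit 5) (nat_lit 5) (nat_lit 4) (nat_lit 410) (nat_lit 286) (nat_lit 165)) (XT.nd (nat_lit 94) (nat_lit 0) (nat_lit 0) (XT.lf (nat_lit 0) (nat_lit 1951631689) (nat_lit 168) (nat_lit 40286926229) (nat_lit 84) (nat_lit 34630583275) (nat_lit 3) (nat_lit 5) (nat_lit 5) (nat_lit 5) (nat_lit 4) (nat_lit 4) (nat_lit 411) (nat_lit 286) (nat_lit 164)) (XT.lf (nat_lit 0) (nat_lit 3996403086) (nat_lit 168) (nat_lit 36166886070) (nat_lit 84) (nat_lit 38975490710) (nat_lit 3) (nat_lit 5) (nat_lit 5) (nat_lit 5) (nat_lit 4) (nat_lit 4) (nat_lit 412) (nat_lit 286) (nat_lit 163)))) (XT.nd (nat_lit 94) (nat_lit 84) (nat_lit 0) (XT.lf (nat_lit 0) (nat_lit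 1073741823) (nat_lit 0) (nat_lit 0) (nat_lit 0) (nat_lit 0) (nat_lit 177) (nat_lit 0) (nat_lit 1) (nat_lit 0) (nat_lit 1) (nat_lit 0) (nat_lit 287) (nat_lit 287) (nat_lit 287)) (XT.nd (nat_lit 94) (nat_lit 0) (nat_lit 0) (XT.lf (nat_lit 0) (nat_lit 2411088510) (nat_lit 84) (nat_lit 3983534950) (nat_lit 0) (nat_lit 49064789) (nat_lit 176) (nat_lit 5) (nat_lit 177) (nat_lit 0) (nat_lit 176) (nat_lit 4) (nat_lit 288) (nat_lit 287) (nat_lit 286)) (XT.lf (nat_lit 0) (nat_lit 4800266461) (nat_lit 84) (nat_lit 1501415768) (nat_lit 0) (nat_lit 147240100) (nat_lit 176) (nat_lit 5) (nat_lit 177) (nat_lit 0) (nat_lit 176) (nat_lit 4) (nat_lit 289) (nat_lit 287) (nat_lit 285))))) (XT.nd (nat_lit 282) (nat_lit 588) (nat_lit 0) (XT.nd (nat_lit 94) (nat_lit 0) (nat_lit 0) (XT.lf (nat_lit 0) (nat_lit 707556810) (nat_lit 168) (nat_lit 5438095492) (nat_lit 84) (nat_lit 311967897) (nat_lit 174) (nat_lit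 5) (nat_lit 176) (nat_lit 5) (nat_lit 175) (nat_lit 4) (nat_lit 290) (nat_lit 287) (nat_lit 284)) (XT.nd (nat_lit 94) (nat_lit 0) (nat_lit 0) (XT.lf (nat_lit 0) (nat_lit 3025141221) (nat_lit 168) (nat_lit 2886384183) (nat_lit 84) (nat_lit 557817665) (nat_lit 174) (nat_lit 5) (nat_lit 176) (nat_lit 5) (nat_lit 175) (nat_lit 4) (nat_lit 291) (nat_lit 287) (nat_lit 283)) (XT.lf (nat_lit 0) (nat_lit 5324118386) (nat_lit 168) (nat_lit 307658778) (nat_lit 84) (nat_lit 853307741) (nat_lit 174) (nat_lit 5) (nat_lit 176) (nat_lit 5) (nat_lit 175) (nat_lit 4) (nat_lit 292) (nat_lit 287) (nat_lit 282)))) (XT.nd (nat_lit 188) (nat_lit 336) (nat_lit 0) (XT.nd (nat_lit 94) (nat_lit 0) (nat_lit 0) (XT.lf (nat_lit 0) (nat_lit 1103101131) (nat_lit 252) (nat_lit 4167519242) (nat_lit 84) (nat_lit 1233171798) (nat_lit 171) (nat_lit 5) (nat_lit 174) (nat_lit 5) (nat_lit 172) (nat_lit 5) (nat_lit 293) (nat_lit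 287) (nat_lit 281)) (XT.lf (nat_lit 0) (nat_lit 3329231865) (nat_lit 252) (nat_lit 1518780210) (nat_lit 84) (nat_lit 1678080420) (nat_lit 171) (nat_lit 5) (nat_lit 174) (nat_lit 5) (nat_lit 172) (nat_lit 5) (nat_lit 294) (nat_lit 287) (nat_lit 280))) (XT.nd (nat_lit 94) (nat_lit 84) (nat_lit 0) (XT.lf (nat_lit 0) (nat_lit 1184942399) (nat_lit 252) (nat_lit 4366557309) (nat_lit 336) (nat_lit 1000597128) (nat_lit 168) (nat_lit 5) (nat_lit 171) (nat_lit 5) (nat_lit 172) (nat_lit 5) (nat_lit 295) (nat_lit 287) (nat_lit 279)) (XT.lf (nat_lit 0) (nat_lit 1170159019) (nat_lit 336) (nat_lit 2639360952) (nat_lit 84) (nat_lit 2771819732) (nat_lit 167) (nat_lit 5) (nat_lit 171) (nat_lit 5) (nat_lit 168) (nat_lit 5) (nat_lit 296) (nat_lit 287) (nat_lit 278))))))))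
noncomputable def xc84 : XT := (XT.nd (nat_lit 2256) (nat_lit 3696) (nat_lit 0) (XT.nd (nat_lit 1128) (nat_lit 4872) (nat_lit 0) (XT.nd (nat_lit 564) (nat_lit 1344) (nat_lit 0) (XT.nd (nat_lit 282) (nat_lit 1008) (nat_lit 0) (XT.nd (nat_lit 94) (nat_lit 84) (nat_lit 0) (XT.lf (nat_lit 0) (nat_lit 113718737) (nat_lit 336) (nat_lit 3193218422) (nat_lit 420) (nat_lit 3307417468) (nat_lit 163) (nat_lit 5) (nat_lit 167) (nat_lit 5) (nat_lit 168) (nat_lit 5) (nat_lit 297) (nat_lit 287) (nat_lit 277)) (XT.nd (nat_lit 94) (nat_lit 84) (nat_lit 0) (XT.lf (nat_lit 0) (nat_lit 2957283845) (nat_lit 336) (nat_lit 2500556209) (nat_lit 420) (nat_lit 1192835546) (nat_lit 163) (nat_lit 5) (nat_lit 167) (nat_lit 5) (nat_lit 168) (nat_lit 5) (nat_lit 298) (nat_lit 287) (nat_lit 276)) (XT.lf (nat_lit 0) (nat_lit 888712819) (nat_lit 420) (nat_lit 860448055) (nat_lit 84) (nat_lit 4941725037) (nat_lit 162)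 (nat_lit 5) (nat_lit 167) (nat_lit 5) (nat_lit 163) (nat_lit 5) (nat_lit 299) (nat_lit 287) (nat_lit 275)))) (XT.nd (nat_lit 94) (nat_lit 588) (nat_lit 0) (XT.lf (nat_lit 0) (nat_lit 2039221306) (nat_lit 420) (nat_lit 914691628) (nat_lit 504) (nat_lit 3780399290) (nat_lit 157) (nat_lit 5) (nat_lit 162) (nat_lit 5) (nat_lit 163) (nat_lit 5) (nat_lit 300) (nat_lit 287) (nat_lit 274)) (XT.nd (nat_lit 94) (nat_lit 588) (nat_lit 0) (XT.lf (nat_lit 0) (nat_lit 4997546028) (nat_lit 420) (nat_lit 20046168) (nat_lit 504) (nat_lit 1764114694) (nat_lit 157) (nat_lit 5) (nat_lit 162) (nat_lit 5) (nat_lit 163) (nat_lit 5) (nat_lit 301) (nat_lit 287) (nat_lit 273)) (XT.lf (nat_lit 0) (nat_lit 255871611) (nat_lit 588) (nat_lit 5654521325) (nat_lit 84) (nat_lit 922262807) (nat_lit 150) (nat_lit 5) (nat_lit 157) (nat_lit 5) (nat_lit 151) (nat_lit 5) (nat_lit 302) (nat_lit 287) (nat_lit 272))))) (XT.nd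 (nat_lit 282) (nat_lit 756) (nat_lit 0) (XT.nd (nat_lit 94) (nat_lit 588) (nat_lit 0) (XT.lf (nat_lit 0) (nat_lit 2249210508) (nat_lit 588) (nat_lit 2685497968) (nat_lit 84) (nat_lit 1952086164) (nat_lit 150) (nat_lit 5) (nat_lit 157) (nat_lit 5) (nat_lit 151) (nat_lit 5) (nat_lit 303) (nat_lit 287) (nat_lit 271)) (XT.nd (nat_lit 94) (nat_lit 0) (nat_lit 0) (XT.lf (nat_lit 0) (nat_lit 331282235) (nat_lit 588) (nat_lit 3906860474) (nat_lit 672) (nat_lit 2707043813) (nat_lit 143) (nat_lit 5) (nat_lit 150) (nat_lit 5) (nat_lit 151) (nat_lit 5) (nat_lit 304) (nat_lit 287) (nat_lit 270)) (XT.lf (nat_lit 0) (nat_lit 3448072195) (nat_lit 588) (nat_lit 2800793070) (nat_lit 672) (nat_lit 758265911) (nat_lit 143) (nat_lit 5) (nat_lit 150) (nat_lit 5) (nat_lit 151) (nat_lit 5) (nat_lit 305) (nat_lit 287) (nat_lit 269)))) (XT.nd (nat_lit 94) (nat_lit 672) (nat_lit 0) (XT.lf (nat_lit 0) (nat_lit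 1158709502) (nat_lit 672) (nat_lit 472702332) (nat_lit 84) (nat_lit 5441753686) (nat_lit 142) (nat_lit 5) (nat_lit 150) (nat_lit 5) (nat_lit 143) (nat_lit 5) (nat_lit 306) (nat_lit 287) (nat_lit 268)) (XT.nd (nat_lit 94) (nat_lit 0) (nat_lit 0) (XT.lf (nat_lit 0) (nat_lit 2706860599) (nat_lit 672) (nat_lit 374355598) (nat_lit 756) (nat_lit 4061435192) (nat_lit 134) (nat_lit 5) (nat_lit 142) (nat_lit 5) (nat_lit 143) (nat_lit 5) (nat_lit 307) (nat_lit 287) (nat_lit 267)) (XT.lf (nat_lit 0) (nat_lit 5014068993) (nat_lit 756) (nat_lit 1279639287) (nat_lit 84) (nat_lit 922558346) (nat_lit 134) (nat_lit 5) (nat_lit 143) (nat_lit 5) (nat_lit 135) (nat_lit 5) (nat_lit 308) (nat_lit 287) (nat_lit 266)))))) (XT.nd (nat_lit 564) (nat_lit 2184) (nat_lit 0) (XT.nd (nat_lit 282) (nat_lit 1008) (nat_lit 0) (XT.nd (nat_lit 94) (nat_lit 924) (nat_lit 0) (XT.lf (nat_lit 0) (nat_lit 1960243298) (nat_lit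 756) (nat_lit 5008398052) (nat_lit 840) (nat_lit 325141772) (nat_lit 125) (nat_lit 5) (nat_lit 134) (nat_lit 5) (nat_lit 135) (nat_lit 5) (nat_lit 309) (nat_lit 287) (nat_lit 265)) (XT.nd (nat_lit 94) (nat_lit 840) (nat_lit 0) (XT.lf (nat_lit 0) (nat_lit 1530014083) (nat_lit 840) (nat_lit 2112645575) (nat_lit 84) (nat_lit 3732434194) (nat_lit 124) (nat_lit 5) (nat_lit 134) (nat_lit 5) (nat_lit 125) (nat_lit 5) (nat_lit 310) (nat_lit 287) (nat_lit 264)) (XT.lf (nat_lit 0) (nat_lit 1179121322) (nat_lit 840) (nat_lit 2209197762) (nat_lit 924) (nat_lit 4072375796) (nat_lit 114) (nat_lit 5) (nat_lit 124) (nat_lit 5) (nat_lit 125) (nat_lit 5) (nat_lit 311) (nat_lit 287) (nat_lit 263)))) (XT.nd (nat_lit 94) (nat_lit 1008) (nat_lit 0) (XT.lf (nat_lit 0) (nat_lit 4568813856) (nat_lit 840) (nat_lit 699463600) (nat_lit 924) (nat_lit 2282171675) (nat_lit 114) (nat_lit 5) (nat_lit 124) (nat_lit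 5) (nat_lit 125) (nat_lit 5) (nat_lit 312) (nat_lit 287) (nat_lit 262)) (XT.nd (nat_lit 94) (nat_lit 84) (nat_lit 0) (XT.lf (nat_lit 0) (nat_lit 369911001) (nat_lit 924) (nat_lit 6792601260) (nat_lit 1008) (nat_lit 482211011) (nat_lit 103) (nat_lit 5) (nat_lit 114) (nat_lit 5) (nat_lit 115) (nat_lit 5) (nat_lit 313) (nat_lit 287) (nat_lit 261)) (XT.lf (nat_lit 0) (nat_lit 1328579149) (nat_lit 1008) (nat_lit 3924127423) (nat_lit 84) (nat_lit 2489678413) (nat_lit 102) (nat_lit 5) (nat_lit 114) (nat_lit 5) (nat_lit 103) (nat_lit 5) (nat_lit 314) (nat_lit 287) (nat_lit 260))))) (XT.nd (nat_lit 282) (nat_lit 1176) (nat_lit 0) (XT.nd (nat_lit 94) (nat_lit 1008) (nat_lit 0) (XT.lf (nat_lit 0) (nat_lit 3131277960) (nat_lit 1008) (nat_lit 523619298) (nat_lit 84) (nat_lit 4190045304) (nat_lit 102) (nat_lit 5) (nat_lit 114) (nat_lit 5) (nat_lit 103) (nat_lit 5) (nat_lit 315) (nat_lit 287) (nat_lit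 259)) (XT.nd (nat_lit 94) (nat_lit 0) (nat_lit 0) (XT.lf (nat_lit 0) (nat_lit 2995008063) (nat_lit 1008) (nat_lit 1971983988) (nat_lit 1092) (nat_lit 2984726800) (nat_lit 90) (nat_lit 5) (nat_lit 102) (nat_lit 5) (nat_lit 103) (nat_lit 5) (nat_lit 316) (nat_lit 287) (nat_lit 258)) (XT.lf (nat_lit 0) (nat_lit 6586656379) (nat_lit 1008) (nat_lit 226956324) (nat_lit 1092) (nat_lit 1249939091) (nat_lit 90) (nat_lit 5) (nat_lit 102) (nat_lit 5) (nat_lit 103) (nat_lit 5) (nat_lit 317) (nat_lit 287) (nat_lit 257)))) (XT.nd (nat_lit 94) (nat_lit 504) (nat_lit 0) (XT.lf (nat_lit 0) (nat_lit 513780277) (nat_lit 672) (nat_lit 6095122899) (nat_lit 84) (nat_lit 1570518158) (nat_lit 82) (nat_lit 5) (nat_lit 90) (nat_lit 5) (nat_lit 83) (nat_lit 5) (nat_lit 318) (nat_lit 287) (nat_lit 256)) (XT.nd (nat_lit 94) (nat_lit 504) (nat_lit 0) (XT.lf (nat_lit 0) (nat_lit 2274465100) (nat_lit 672) (nat_lit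 2574938900) (nat_lit 84) (nat_lit 3450359158) (nat_lit 82) (nat_lit 5) (nat_lit 90) (nat_lit 5) (nat_lit 83) (nat_lit 5) (nat_lit 319) (nat_lit 287) (nat_lit 255)) (XT.lf (nat_lit 0) (nat_lit 1028071712) (nat_lit 504) (nat_lit 3023710292) (nat_lit 588) (nat_lit 4373513717) (nat_lit 76) (nat_lit 5) (nat_lit 82) (nat_lit 5) (nat_lit 83) (nat_lit 5) (nat_lit 320) (nat_lit 287) (nat_lit 254))))))) (XT.nd (nat_lit 1128) (nat_lit 1428) (nat_lit 0) (XT.nd (nat_lit 564) (nat_lit 1260) (nat_lit 0) (XT.nd (nat_lit 282) (nat_lit 420) (nat_lit 0) (XT.nd (nat_lit 94) (nat_lit 588) (nat_lit 0) (XT.lf (nat_lit 0) (nat_lit 4750826522) (nat_lit 504) (nat_lit 1113084599) (nat_lit 588) (nat_lit 2691712685) (nat_lit 76) (nat_lit 5) (nat_lit 82) (nat_lit 5) (nat_lit 83) (nat_lit 5) (nat_lit 321) (nat_lit 287) (nat_lit 253)) (XT.nd (nat_lit 94) (nat_lit 588) (nat_lit 0) (XT.lf (nat_lit 0) (nat_lit 7694977885)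 (nat_lit 588) (nat_lit 156332814) (nat_lit 84) (nat_lit 840102665) (nat_lit 76) (nat_lit 5) (nat_lit 83) (nat_lit 5) (nat_lit 77) (nat_lit 5) (nat_lit 322) (nat_lit 287) (nat_lit 252)) (XT.lf (nat_lit 0) (nat_lit 738979351) (nat_lit 588) (nat_lit 5217668827) (nat_lit 84) (nat_lit 2874699840) (nat_lit 69) (nat_lit 5) (nat_lit 76) (nat_lit 5) (nat_lit 70) (nat_lit 5) (nat_lit 323) (nat_lit 287) (nat_lit 251)))) (XT.nd (nat_lit 94) (nat_lit 420) (nat_lit 0) (XT.lf (nat_lit 0) (nat_lit 2464977011) (nat_lit 588) (nat_lit 1528014229) (nat_lit 84) (nat_lit 4983875054) (nat_lit 69) (nat_lit 5) (nat_lit 76) (nat_lit 5) (nat_lit 70) (nat_lit 5) (nat_lit 324) (nat_lit 287) (nat_lit 250)) (XT.nd (nat_lit 94) (nat_lit 0) (nat_lit 0) (XT.lf (nat_lit 0) (nat_lit 2277174105) (nat_lit 420) (nat_lit 1947059090) (nat_lit 504) (nat_lit 4903526341) (nat_lit 64) (nat_lit 5) (nat_lit 69) (nat_lit 5) (nat_lit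 70) (nat_lit 5) (nat_lit 325) (nat_lit 287) (nat_lit 249)) (XT.lf (nat_lit 0) (nat_lit 6013737710) (nat_lit 504) (nat_lit 3097673633) (nat_lit 84) (nat_lit 172901200) (nat_lit 64) (nat_lit 5) (nat_lit 70) (nat_lit 5) (nat_lit 65) (nat_lit 5) (nat_lit 326) (nat_lit 287) (nat_lit 248))))) (XT.nd (nat_lit 282) (nat_lit 756) (nat_lit 0) (XT.nd (nat_lit 94) (nat_lit 84) (nat_lit 0) (XT.lf (nat_lit 0) (nat_lit 721803010) (nat_lit 420) (nat_lit 7123240171) (nat_lit 504) (nat_lit 1601321637) (nat_lit 59) (nat_lit 5) (nat_lit 64) (nat_lit 5) (nat_lit 65) (nat_lit 5) (nat_lit 327) (nat_lit 287) (nat_lit 247)) (XT.nd (nat_lit 94) (nat_lit 0) (nat_lit 0) (XT.lf (nat_lit 0) (nat_lit 109352587) (nat_lit 504) (nat_lit 4933602023) (nat_lit 84) (nat_lit 4570903725) (nat_lit 58) (nat_lit 5) (nat_lit 64) (nat_lit 5) (nat_lit 59) (nat_lit 5) (nat_lit 328) (nat_lit 287) (nat_lit 246)) (XT.lf (nat_lit 0)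 (nat_lit 1800435986) (nat_lit 504) (nat_lit 1085145444) (nat_lit 84) (nat_lit 6901877913) (nat_lit 58) (nat_lit 5) (nat_lit 64) (nat_lit 5) (nat_lit 59) (nat_lit 5) (nat_lit 329) (nat_lit 287) (nat_lit 245)))) (XT.nd (nat_lit 94) (nat_lit 420) (nat_lit 0) (XT.lf (nat_lit 0) (nat_lit 2898682389) (nat_lit 336) (nat_lit 635840787) (nat_lit 420) (nat_lit 6432407511) (nat_lit 54) (nat_lit 5) (nat_lit 58) (nat_lit 5) (nat_lit 59) (nat_lit 5) (nat_lit 330) (nat_lit 287) (nat_lit 244)) (XT.nd (nat_lit 94) (nat_lit 420) (nat_lit 0) (XT.lf (nat_lit 0) (nat_lit 5313024354) (nat_lit 420) (nat_lit 3182630453) (nat_lit 84) (nat_lit 1656791238) (nat_lit 54) (nat_lit 5) (nat_lit 59) (nat_lit 5) (nat_lit 55) (nat_lit 5) (nat_lit 331) (nat_lit 287) (nat_lit 243)) (XT.lf (nat_lit 0) (nat_lit 790962240) (nat_lit 420) (nat_lit 6333686396) (nat_lit 504) (nat_lit 3219931106) (nat_lit 49) (nat_lit 5) (nat_lit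 54) (nat_lit 5) (nat_lit 55) (nat_lit 5) (nat_lit 332) (nat_lit 287) (nat_lit 242)))))) (XT.nd (nat_lit 564) (nat_lit 672) (nat_lit 0) (XT.nd (nat_lit 282) (nat_lit 336) (nat_lit 0) (XT.nd (nat_lit 94) (nat_lit 420) (nat_lit 0) (XT.lf (nat_lit 0) (nat_lit 4913718450) (nat_lit 420) (nat_lit 4076256631) (nat_lit 504) (nat_lit 1552950185) (nat_lit 49) (nat_lit 5) (nat_lit 54) (nat_lit 5) (nat_lit 55) (nat_lit 5) (nat_lit 333) (nat_lit 287) (nat_lit 241)) (XT.nd (nat_lit 94) (nat_lit 336) (nat_lit 0) (XT.lf (nat_lit 0) (nat_lit 127238454) (nat_lit 504) (nat_lit 1625914923) (nat_lit 84) (nat_lit 8995473044) (nat_lit 48) (nat_lit 5) (nat_lit 54) (nat_lit 5) (nat_lit 49) (nat_lit 5) (nat_lit 334) (nat_lit 287) (nat_lit 240)) (XT.lf (nat_lit 0) (nat_lit 1824667590) (nat_lit 420) (nat_lit 8471401065) (nat_lit 84) (nat_lit 664387244) (nat_lit 44) (nat_lit 5) (nat_lit 49) (nat_lit 5) (nat_lit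 45) (nat_lit 5) (nat_lit 335) (nat_lit 287) (nat_lit 239)))) (XT.nd (nat_lit 94) (nat_lit 336) (nat_lit 0) (XT.lf (nat_lit 0) (nat_lit 3576291439) (nat_lit 420) (nat_lit 4470999542) (nat_lit 84) (nat_lit 3131671152) (nat_lit 44) (nat_lit 5) (nat_lit 49) (nat_lit 5) (nat_lit 45) (nat_lit 5) (nat_lit 336) (nat_lit 287) (nat_lit 238)) (XT.nd (nat_lit 94) (nat_lit 336) (nat_lit 0) (XT.lf (nat_lit 0) (nat_lit 5349721912) (nat_lit 420) (nat_lit 385990561) (nat_lit 84) (nat_lit 5669690960) (nat_lit 44) (nat_lit 5) (nat_lit 49) (nat_lit 5) (nat_lit 45) (nat_lit 5) (nat_lit 337) (nat_lit 287) (nat_lit 237)) (XT.lf (nat_lit 0) (nat_lit 3865310934) (nat_lit 336) (nat_lit 3319645460) (nat_lit 420) (nat_lit 4453845798) (nat_lit 40) (nat_lit 5) (nat_lit 44) (nat_lit 5) (nat_lit 45) (nat_lit 5) (nat_lit 338) (nat_lit 287) (nat_lit 236))))) (XT.nd (nat_lit 282) (nat_lit 336) (nat_lit 0) (XT.nd (nat_lit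 94) (nat_lit 336) (nat_lit 0) (XT.lf (nat_lit 0) (nat_lit 8218752355) (nat_lit 336) (nat_lit 831415375) (nat_lit 420) (nat_lit 2830247904) (nat_lit 40) (nat_lit 5) (nat_lit 44) (nat_lit 5) (nat_lit 45) (nat_lit 5) (nat_lit 339) (nat_lit 287) (nat_lit 235)) (XT.nd (nat_lit 94) (nat_lit 84) (nat_lit 0) (XT.lf (nat_lit 0) (nat_lit 533478380) (nat_lit 252) (nat_lit 10432135188) (nat_lit 336) (nat_lit 1164281309) (nat_lit 37) (nat_lit 5) (nat_lit 40) (nat_lit 5) (nat_lit 41) (nat_lit 5) (nat_lit 340) (nat_lit 287) (nat_lit 234)) (XT.lf (nat_lit 0) (nat_lit 559314688) (nat_lit 336) (nat_lit 7502079261) (nat_lit 84) (nat_lit 4325145008) (nat_lit 36) (nat_lit 5) (nat_lit 40) (nat_lit 5) (nat_lit 37) (nat_lit 5) (nat_lit 341) (nat_lit 287) (nat_lit 233)))) (XT.nd (nat_lit 94) (nat_lit 336) (nat_lit 0) (XT.lf (nat_lit 0) (nat_lit 2283077017) (nat_lit 336) (nat_lit 3329648270) (nat_lit 84) (nat_lit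 7039074341) (nat_lit 36) (nat_lit 5) (nat_lit 40) (nat_lit 5) (nat_lit 37) (nat_lit 5) (nat_lit 342) (nat_lit 287) (nat_lit 232)) (XT.nd (nat_lit 94) (nat_lit 0) (nat_lit 0) (XT.lf (nat_lit 0) (nat_lit 955567997) (nat_lit 336) (nat_lit 3085981433) (nat_lit 420) (nat_lit 8884438896) (nat_lit 32) (nat_lit 5) (nat_lit 36) (nat_lit 5) (nat_lit 37) (nat_lit 5) (nat_lit 343) (nat_lit 287) (nat_lit 231)) (XT.lf (nat_lit 0) (nat_lit 5408762684) (nat_lit 336) (nat_lit 452817027) (nat_lit 420) (nat_lit 7346999446) (nat_lit 32) (nat_lit 5) (nat_lit 36) (nat_lit 5) (nat_lit 37) (nat_lit 5) (nat_lit 344) (nat_lit 287) (nat_lit 230))))))))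
noncomputable def xc85 : XT := (XT.nd (nat_lit 2256) (nat_lit 756) (nat_lit 0) (XT.nd (nat_lit 1128) (nat_lit 672) (nat_lit 0) (XT.nd (nat_lit 564) (nat_lit 168) (nat_lit 0) (XT.nd (nat_lit 282) (nat_lit 336) (nat_lit 0) (XT.nd (nat_lit 94) (nat_lit 252) (nat_lit 0) (XT.lf (nat_lit 0) (nat_lit 7733519216) (nat_lit 420) (nat_lit 3557622885) (nat_lit 84) (nat_lit 2209045119) (nat_lit 32) (nat_lit 5) (nat_lit 37) (nat_lit 5) (nat_lit 33) (nat_lit 5) (nat_lit 345) (nat_lit 287) (nat_lit 229)) (XT.nd (nat_lit 94) (nat_lit 0) (nat_lit 0) (XT.lf (nat_lit 0) (nat_lit 793229539) (nat_lit 252) (nat_lit 8856619057) (nat_lit 336) (nat_lit 4151522919) (nat_lit 29) (nat_lit 5) (nat_lit 32) (nat_lit 5) (nat_lit 33) (nat_lit 5) (nat_lit 346) (nat_lit 287) (nat_lit 228)) (XT.lf (nat_lit 0) (nat_lit 5320524647) (nat_lit 252) (nat_lit 6316503548) (nat_lit 336) (nat_lit 2474619687) (nat_lit 29) (nat_lit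 5) (nat_lit 32) (nat_lit 5) (nat_lit 33) (nat_lit 5) (nat_lit 347) (nat_lit 287) (nat_lit 227)))) (XT.nd (nat_lit 94) (nat_lit 336) (nat_lit 0) (XT.lf (nat_lit 0) (nat_lit 9955330327) (nat_lit 252) (nat_lit 3705562206) (nat_lit 336) (nat_lit 771529544) (nat_lit 29) (nat_lit 5) (nat_lit 32) (nat_lit 5) (nat_lit 33) (nat_lit 5) (nat_lit 348) (nat_lit 287) (nat_lit 226)) (XT.nd (nat_lit 94) (nat_lit 252) (nat_lit 0) (XT.lf (nat_lit 0) (nat_lit 940006505) (nat_lit 336) (nat_lit 71543115) (nat_lit 84) (nat_lit 13752148460) (nat_lit 28) (nat_lit 5) (nat_lit 32) (nat_lit 5) (nat_lit 29) (nat_lit 5) (nat_lit 349) (nat_lit 287) (nat_lit 225)) (XT.lf (nat_lit 0) (nat_lit 2727637487) (nat_lit 336) (nat_lit 10600100589) (nat_lit 84) (nat_lit 1776147428) (nat_lit 25) (nat_lit 5) (nat_lit 29) (nat_lit 5) (nat_lit 26) (nat_lit 5) (nat_lit 350) (nat_lit 287) (nat_lit 224))))) (XT.nd (nat_lit 282)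 (nat_lit 0) (nat_lit 0) (XT.nd (nat_lit 94) (nat_lit 168) (nat_lit 0) (XT.lf (nat_lit 0) (nat_lit 4558333790) (nat_lit 336) (nat_lit 6274384538) (nat_lit 84) (nat_lit 4622377830) (nat_lit 25) (nat_lit 5) (nat_lit 29) (nat_lit 5) (nat_lit 26) (nat_lit 5) (nat_lit 351) (nat_lit 287) (nat_lit 223)) (XT.nd (nat_lit 94) (nat_lit 168) (nat_lit 0) (XT.lf (nat_lit 0) (nat_lit 6423035399) (nat_lit 336) (nat_lit 1845512446) (nat_lit 84) (nat_lit 7549443322) (nat_lit 25) (nat_lit 5) (nat_lit 29) (nat_lit 5) (nat_lit 26) (nat_lit 5) (nat_lit 352) (nat_lit 287) (nat_lit 222)) (XT.lf (nat_lit 0) (nat_lit 2745969016) (nat_lit 168) (nat_lit 5604751748) (nat_lit 252) (nat_lit 7841343572) (nat_lit 23) (nat_lit 5) (nat_lit 25) (nat_lit 5) (nat_lit 26) (nat_lit 5) (nat_lit 353) (nat_lit 287) (nat_lit 221)))) (XT.nd (nat_lit 94) (nat_lit 0) (nat_lit 0) (XT.lf (nat_lit 0) (nat_lit 7489203310) (nat_lit 168)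 (nat_lit 2846530754) (nat_lit 252) (nat_lit 6242161305) (nat_lit 23) (nat_lit 5) (nat_lit 25) (nat_lit 5) (nat_lit 26) (nat_lit 5) (nat_lit 354) (nat_lit 287) (nat_lit 220)) (XT.nd (nat_lit 94) (nat_lit 0) (nat_lit 0) (XT.lf (nat_lit 0) (nat_lit 12350664106) (nat_lit 168) (nat_lit 10577279) (nat_lit 252) (nat_lit 4615181728) (nat_lit 23) (nat_lit 5) (nat_lit 25) (nat_lit 5) (nat_lit 26) (nat_lit 5) (nat_lit 355) (nat_lit 287) (nat_lit 219)) (XT.lf (nat_lit 0) (nat_lit 14457956133) (nat_lit 252) (nat_lit 81961663) (nat_lit 84) (nat_lit 2847207653) (nat_lit 23) (nat_lit 5) (nat_lit 26) (nat_lit 5) (nat_lit 24) (nat_lit 5) (nat_lit 356) (nat_lit 287) (nat_lit 218)))))) (XT.nd (nat_lit 564) (nat_lit 168) (nat_lit 0) (XT.nd (nat_lit 282) (nat_lit 168) (nat_lit 0) (XT.nd (nat_lit 94) (nat_lit 84) (nat_lit 0) (XT.lf (nat_lit 0) (nat_lit 4668926794) (nat_lit 252) (nat_lit 11977299144) (nat_lit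 336) (nat_lit 1163589064) (nat_lit 20) (nat_lit 5) (nat_lit 23) (nat_lit 5) (nat_lit 24) (nat_lit 5) (nat_lit 357) (nat_lit 287) (nat_lit 217)) (XT.nd (nat_lit 94) (nat_lit 0) (nat_lit 0) (XT.lf (nat_lit 0) (nat_lit 624539729) (nat_lit 336) (nat_lit 8711202320) (nat_lit 84) (nat_lit 8910325512) (nat_lit 19) (nat_lit 5) (nat_lit 23) (nat_lit 5) (nat_lit 20) (nat_lit 5) (nat_lit 358) (nat_lit 287) (nat_lit 216)) (XT.lf (nat_lit 0) (nat_lit 2424708713) (nat_lit 336) (nat_lit 4183184932) (nat_lit 84) (nat_lit 12088249061) (nat_lit 19) (nat_lit 5) (nat_lit 23) (nat_lit 5) (nat_lit 20) (nat_lit 5) (nat_lit 359) (nat_lit 287) (nat_lit 215)))) (XT.nd (nat_lit 94) (nat_lit 0) (nat_lit 0) (XT.lf (nat_lit 0) (nat_lit 468363978) (nat_lit 168) (nat_lit 3798321810) (nat_lit 252) (nat_lit 14893987966) (nat_lit 17) (nat_lit 5) (nat_lit 19) (nat_lit 5) (nat_lit 20) (nat_lit 5) (nat_lit 360) (nat_lit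 287) (nat_lit 214)) (XT.nd (nat_lit 94) (nat_lit 0) (nat_lit 0) (XT.lf (nat_lit 0) (nat_lit 5326784717) (nat_lit 168) (nat_lit 864302501) (nat_lit 252) (nat_lit 13447800597) (nat_lit 17) (nat_lit 5) (nat_lit 19) (nat_lit 5) (nat_lit 20) (nat_lit 5) (nat_lit 361) (nat_lit 287) (nat_lit 213)) (XT.lf (nat_lit 0) (nat_lit 8178716117) (nat_lit 252) (nat_lit 9843312898) (nat_lit 84) (nat_lit 2109852331) (nat_lit 17) (nat_lit 5) (nat_lit 20) (nat_lit 5) (nat_lit 18) (nat_lit 5) (nat_lit 362) (nat_lit 287) (nat_lit 212))))) (XT.nd (nat_lit 282) (nat_lit 0) (nat_lit 0) (XT.nd (nat_lit 94) (nat_lit 168) (nat_lit 0) (XT.lf (nat_lit 0) (nat_lit 10219475294) (nat_lit 252) (nat_lit 5269823926) (nat_lit 84) (nat_lit 5151185093) (nat_lit 17) (nat_lit 5) (nat_lit 20) (nat_lit 5) (nat_lit 18) (nat_lit 5) (nat_lit 363) (nat_lit 287) (nat_lit 211)) (XT.nd (nat_lit 94) (nat_lit 168) (nat_lit 0) (XT.lf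 (nat_lit 0) (nat_lit 12306692964) (nat_lit 252) (nat_lit 578799224) (nat_lit 84) (nat_lit 8279944394) (nat_lit 17) (nat_lit 5) (nat_lit 20) (nat_lit 5) (nat_lit 18) (nat_lit 5) (nat_lit 364) (nat_lit 287) (nat_lit 210)) (XT.lf (nat_lit 0) (nat_lit 4321196206) (nat_lit 168) (nat_lit 10163985226) (nat_lit 252) (nat_lit 7220717159) (nat_lit 15) (nat_lit 5) (nat_lit 17) (nat_lit 5) (nat_lit 18) (nat_lit 5) (nat_lit 365) (nat_lit 287) (nat_lit 209)))) (XT.nd (nat_lit 94) (nat_lit 0) (nat_lit 0) (XT.lf (nat_lit 0) (nat_lit 9362086279) (nat_lit 168) (nat_lit 7359117695) (nat_lit 252) (nat_lit 5542278922) (nat_lit 15) (nat_lit 5) (nat_lit 17) (nat_lit 5) (nat_lit 18) (nat_lit 5) (nat_lit 366) (nat_lit 287) (nat_lit 208)) (XT.nd (nat_lit 94) (nat_lit 0) (nat_lit 0) (XT.lf (nat_lit 0) (nat_lit 14536668331) (nat_lit 168) (nat_lit 4474316643) (nat_lit 252) (nat_lit 3827905902) (nat_lit 15) (nat_lit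 5) (nat_lit 17) (nat_lit 5) (nat_lit 18) (nat_lit 5) (nat_lit 367) (nat_lit 287) (nat_lit 207)) (XT.lf (nat_lit 0) (nat_lit 19849765616) (nat_lit 168) (nat_lit 1506893133) (nat_lit 252) (nat_lit 2076000126) (nat_lit 15) (nat_lit 5) (nat_lit 17) (nat_lit 5) (nat_lit 18) (nat_lit 5) (nat_lit 368) (nat_lit 287) (nat_lit 206))))))) (XT.nd (nat_lit 1128) (nat_lit 252) (nat_lit 0) (XT.nd (nat_lit 564) (nat_lit 84) (nat_lit 0) (XT.nd (nat_lit 282) (nat_lit 168) (nat_lit 0) (XT.nd (nat_lit 94) (nat_lit 84) (nat_lit 0) (XT.lf (nat_lit 0) (nat_lit 1271267656) (nat_lit 168) (nat_lit 22517090893) (nat_lit 252) (nat_lit 256115443) (nat_lit 13) (nat_lit 5) (nat_lit 15) (nat_lit 5) (nat_lit 16) (nat_lit 4) (nat_lit 369) (nat_lit 287) (nat_lit 205)) (XT.nd (nat_lit 94) (nat_lit 0) (nat_lit 0) (XT.lf (nat_lit 0) (nat_lit 1626063721) (nat_lit 252) (nat_lit 18375911502) (nat_lit 84) (nat_lit 4671637542)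 (nat_lit 12) (nat_lit 5) (nat_lit 15) (nat_lit 5) (nat_lit 13) (nat_lit 5) (nat_lit 370) (nat_lit 287) (nat_lit 204)) (XT.lf (nat_lit 0) (nat_lit 3547040119) (nat_lit 252) (nat_lit 13866075728) (nat_lit 84) (nat_lit 7909547219) (nat_lit 12) (nat_lit 5) (nat_lit 15) (nat_lit 5) (nat_lit 13) (nat_lit 5) (nat_lit 371) (nat_lit 287) (nat_lit 203)))) (XT.nd (nat_lit 94) (nat_lit 168) (nat_lit 0) (XT.lf (nat_lit 0) (nat_lit 5513764458) (nat_lit 252) (nat_lit 9236954678) (nat_lit 84) (nat_lit 11241589505) (nat_lit 12) (nat_lit 5) (nat_lit 15) (nat_lit 5) (nat_lit 13) (nat_lit 5) (nat_lit 372) (nat_lit 287) (nat_lit 202)) (XT.nd (nat_lit 94) (nat_lit 168) (nat_lit 0) (XT.lf (nat_lit 0) (nat_lit 7528069929) (nat_lit 252) (nat_lit 4484233527) (nat_lit 84) (nat_lit 14670870211) (nat_lit 12) (nat_lit 5) (nat_lit 15) (nat_lit 5) (nat_lit 13) (nat_lit 5) (nat_lit 373) (nat_lit 287) (nat_lit 201))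 (XT.lf (nat_lit 0) (nat_lit 404670977) (nat_lit 168) (nat_lit 9191177485) (nat_lit 252) (nat_lit 17799929196) (nat_lit 10) (nat_lit 5) (nat_lit 12) (nat_lit 5) (nat_lit 13) (nat_lit 5) (nat_lit 374) (nat_lit 287) (nat_lit 200))))) (XT.nd (nat_lit 282) (nat_lit 84) (nat_lit 0) (XT.nd (nat_lit 94) (nat_lit 0) (nat_lit 0) (XT.lf (nat_lit 0) (nat_lit 5521086134) (nat_lit 168) (nat_lit 6240664270) (nat_lit 252) (nat_lit 16367710022) (nat_lit 10) (nat_lit 5) (nat_lit 12) (nat_lit 5) (nat_lit 13) (nat_lit 5) (nat_lit 375) (nat_lit 287) (nat_lit 199)) (XT.nd (nat_lit 94) (nat_lit 0) (nat_lit 0) (XT.lf (nat_lit 0) (nat_lit 10777575938) (nat_lit 168) (nat_lit 3204819823) (nat_lit 252) (nat_lit 14903917439) (nat_lit 10) (nat_lit 5) (nat_lit 12) (nat_lit 5) (nat_lit 13) (nat_lit 5) (nat_lit 376) (nat_lit 287) (nat_lit 198)) (XT.lf (nat_lit 0) (nat_lit 16179039991) (nat_lit 168) (nat_lit 80814420)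 (nat_lit 252) (nat_lit 13407187039) (nat_lit 10) (nat_lit 5) (nat_lit 12) (nat_lit 5) (nat_lit 13) (nat_lit 5) (nat_lit 377) (nat_lit 287) (nat_lit 197)))) (XT.nd (nat_lit 94) (nat_lit 84) (nat_lit 0) (XT.lf (nat_lit 0) (nat_lit 18627341467) (nat_lit 252) (nat_lit 8772952159) (nat_lit 84) (nat_lit 3071115407) (nat_lit 10) (nat_lit 5) (nat_lit 13) (nat_lit 5) (nat_lit 11) (nat_lit 4) (nat_lit 378) (nat_lit 287) (nat_lit 196)) (XT.nd (nat_lit 94) (nat_lit 84) (nat_lit 0) (XT.lf (nat_lit 0) (nat_lit 21057677280) (nat_lit 252) (nat_lit 3929808046) (nat_lit 84) (nat_lit 6313591357) (nat_lit 10) (nat_lit 5) (nat_lit 13) (nat_lit 5) (nat_lit 11) (nat_lit 4) (nat_lit 379) (nat_lit 287) (nat_lit 195)) (XT.lf (nat_lit 0) (nat_lit 1068270148) (nat_lit 84) (nat_lit 22494652713) (nat_lit 168) (nat_lit 8593591210) (nat_lit 9) (nat_lit 5) (nat_lit 10) (nat_lit 5) (nat_lit 11) (nat_lit 4) (nat_lit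 380) (nat_lit 287) (nat_lit 194)))))) (XT.nd (nat_lit 564) (nat_lit 168) (nat_lit 0) (XT.nd (nat_lit 282) (nat_lit 84) (nat_lit 0) (XT.nd (nat_lit 94) (nat_lit 0) (nat_lit 0) (XT.lf (nat_lit 0) (nat_lit 6288041327) (nat_lit 84) (nat_lit 19887948189) (nat_lit 168) (nat_lit 6861581177) (nat_lit 9) (nat_lit 5) (nat_lit 10) (nat_lit 5) (nat_lit 11) (nat_lit 4) (nat_lit 381) (nat_lit 287) (nat_lit 193)) (XT.nd (nat_lit 94) (nat_lit 0) (nat_lit 0) (XT.lf (nat_lit 0) (nat_lit 11653565950) (nat_lit 84) (nat_lit 17205961169) (nat_lit 168) (nat_lit 5086774027) (nat_lit 9) (nat_lit 5) (nat_lit 10) (nat_lit 5) (nat_lit 11) (nat_lit 4) (nat_lit 382) (nat_lit 287) (nat_lit 192)) (XT.lf (nat_lit 0) (nat_lit 17169845248) (nat_lit 84) (nat_lit 14446191761) (nat_lit 168) (nat_lit 3267515453) (nat_lit 9) (nat_lit 5) (nat_lit 10) (nat_lit 5) (nat_lit 11) (nat_lit 4) (nat_lit 383) (nat_lit 287) (nat_lit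 191)))) (XT.nd (nat_lit 94) (nat_lit 84) (nat_lit 0) (XT.lf (nat_lit 0) (nat_lit 22842020971) (nat_lit 84) (nat_lit 11606067571) (nat_lit 168) (nat_lit 1402109715) (nat_lit 9) (nat_lit 5) (nat_lit 10) (nat_lit 5) (nat_lit 11) (nat_lit 4) (nat_lit 384) (nat_lit 287) (nat_lit 190)) (XT.nd (nat_lit 94) (nat_lit 0) (nat_lit 0) (XT.lf (nat_lit 0) (nat_lit 500882762) (nat_lit 168) (nat_lit 8176830353) (nat_lit 84) (nat_lit 28169269229) (nat_lit 8) (nat_lit 5) (nat_lit 10) (nat_lit 5) (nat_lit 9) (nat_lit 5) (nat_lit 385) (nat_lit 287) (nat_lit 189)) (XT.lf (nat_lit 0) (nat_lit 2424294434) (nat_lit 168) (nat_lit 3224489207) (nat_lit 84) (nat_lit 32225761083) (nat_lit 8) (nat_lit 5) (nat_lit 10) (nat_lit 5) (nat_lit 9) (nat_lit 5) (nat_lit 386) (nat_lit 287) (nat_lit 188))))) (XT.nd (nat_lit 282) (nat_lit 0) (nat_lit 0) (XT.nd (nat_lit 94) (nat_lit 0) (nat_lit 0) (XT.lf (nat_lit 0) (nat_lit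 1905768339) (nat_lit 168) (nat_lit 2511304624) (nat_lit 252) (nat_lit 34516615340) (nat_lit 6) (nat_lit 5) (nat_lit 8) (nat_lit 5) (nat_lit 9) (nat_lit 5) (nat_lit 387) (nat_lit 287) (nat_lit 187)) (XT.nd (nat_lit 94) (nat_lit 0) (nat_lit 0) (XT.lf (nat_lit 0) (nat_lit 6503731212) (nat_lit 252) (nat_lit 32782842544) (nat_lit 84) (nat_lit 738124241) (nat_lit 6) (nat_lit 5) (nat_lit 9) (nat_lit 5) (nat_lit 7) (nat_lit 4) (nat_lit 388) (nat_lit 287) (nat_lit 186)) (XT.lf (nat_lit 0) (nat_lit 8671959171) (nat_lit 252) (nat_lit 28445548988) (nat_lit 84) (nat_lit 4031524490) (nat_lit 6) (nat_lit 5) (nat_lit 9) (nat_lit 5) (nat_lit 7) (nat_lit 4) (nat_lit 389) (nat_lit 287) (nat_lit 185)))) (XT.nd (nat_lit 188) (nat_lit 0) (nat_lit 0) (XT.nd (nat_lit 94) (nat_lit 0) (nat_lit 0) (XT.lf (nat_lit 0) (nat_lit 10898865402) (nat_lit 252) (nat_lit 23987084032) (nat_lit 84) (nat_lit 7422563106) (nat_lit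 6) (nat_lit 5) (nat_lit 9) (nat_lit 5) (nat_lit 7) (nat_lit 4) (nat_lit 390) (nat_lit 287) (nat_lit 184)) (XT.lf (nat_lit 0) (nat_lit 13186525615) (nat_lit 252) (nat_lit 19403291917) (nat_lit 84) (nat_lit 10914400894) (nat_lit 6) (nat_lit 5) (nat_lit 9) (nat_lit 5) (nat_lit 7) (nat_lit 4) (nat_lit 391) (nat_lit 287) (nat_lit 183))) (XT.nd (nat_lit 94) (nat_lit 0) (nat_lit 0) (XT.lf (nat_lit 0) (nat_lit 15537072149) (nat_lit 252) (nat_lit 14689900071) (nat_lit 84) (nat_lit 14510292612) (nat_lit 6) (nat_lit 5) (nat_lit 9) (nat_lit 5) (nat_lit 7) (nat_lit 4) (nat_lit 392) (nat_lit 287) (nat_lit 182)) (XT.lf (nat_lit 0) (nat_lit 17952695961) (nat_lit 252) (nat_lit 9842515119) (nat_lit 84) (nat_lit 18213590008) (nat_lit 6) (nat_lit 5) (nat_lit 9) (nat_lit 5) (nat_lit 7) (nat_lit 4) (nat_lit 393) (nat_lit 287) (nat_lit 181))))))))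
noncomputable def xc86 : XT := (XT.nd (nat_lit 44556) (nat_lit 0) (nat_lit 7308) (XT.nd (nat_lit 1128) (nat_lit 168) (nat_lit 0) (XT.nd (nat_lit 564) (nat_lit 0) (nat_lit 0) (XT.nd (nat_lit 282) (nat_lit 0) (nat_lit 0) (XT.nd (nat_lit 94) (nat_lit 84) (nat_lit 0) (XT.lf (nat_lit 0) (nat_lit 20435648663) (nat_lit 252) (nat_lit 4856618789) (nat_lit 84) (nat_lit 22027744942) (nat_lit 6) (nat_lit 5) (nat_lit 9) (nat_lit 5) (nat_lit 7) (nat_lit 4) (nat_lit 394) (nat_lit 287) (nat_lit 180)) (XT.nd (nat_lit 94) (nat_lit 0) (nat_lit 0) (XT.lf (nat_lit 0) (nat_lit 278038144) (nat_lit 84) (nat_lit 22712964658) (nat_lit 168) (nat_lit 25681032636) (nat_lit 5) (nat_lit 5) (nat_lit 6) (nat_lit 5) (nat_lit 7) (nat_lit 4) (nat_lit 395) (nat_lit 287) (nat_lit 179)) (XT.lf (nat_lit 0) (nat_lit 5663538633) (nat_lit 84) (nat_lit 20005507517) (nat_lit 168) (nat_lit 24395599211) (nat_lit 5) (nat_lit 5)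 (nat_lit 6) (nat_lit 5) (nat_lit 7) (nat_lit 4) (nat_lit 396) (nat_lit 287) (nat_lit 178)))) (XT.nd (nat_lit 94) (nat_lit 0) (nat_lit 0) (XT.lf (nat_lit 0) (nat_lit 11205040485) (nat_lit 84) (nat_lit 17218065535) (nat_lit 168) (nat_lit 23077558437) (nat_lit 5) (nat_lit 5) (nat_lit 6) (nat_lit 5) (nat_lit 7) (nat_lit 4) (nat_lit 397) (nat_lit 287) (nat_lit 177)) (XT.nd (nat_lit 94) (nat_lit 0) (nat_lit 0) (XT.lf (nat_lit 0) (nat_lit 16907708961) (nat_lit 84) (nat_lit 14348040524) (nat_lit 168) (nat_lit 21725681763) (nat_lit 5) (nat_lit 5) (nat_lit 6) (nat_lit 5) (nat_lit 7) (nat_lit 4) (nat_lit 398) (nat_lit 287) (nat_lit 176)) (XT.lf (nat_lit 0) (nat_lit 22776859544) (nat_lit 84) (nat_lit 11392757321) (nat_lit 168) (nat_lit 20338709098) (nat_lit 5) (nat_lit 5) (nat_lit 6) (nat_lit 5) (nat_lit 7) (nat_lit 4) (nat_lit 399) (nat_lit 287) (nat_lit 175))))) (XT.nd (nat_lit 282) (nat_lit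 0) (nat_lit 0) (XT.nd (nat_lit 94) (nat_lit 0) (nat_lit 0) (XT.lf (nat_lit 0) (nat_lit 28817962898) (nat_lit 84) (nat_lit 8349461292) (nat_lit 168) (nat_lit 18915347637) (nat_lit 5) (nat_lit 5) (nat_lit 6) (nat_lit 5) (nat_lit 7) (nat_lit 4) (nat_lit 400) (nat_lit 287) (nat_lit 174)) (XT.nd (nat_lit 94) (nat_lit 0) (nat_lit 0) (XT.lf (nat_lit 0) (nat_lit 35036649965) (nat_lit 84) (nat_lit 5215315766) (nat_lit 168) (nat_lit 17454270660) (nat_lit 5) (nat_lit 5) (nat_lit 6) (nat_lit 5) (nat_lit 7) (nat_lit 4) (nat_lit 401) (nat_lit 287) (nat_lit 173)) (XT.lf (nat_lit 0) (nat_lit 41438717211) (nat_lit 84) (nat_lit 1987399391) (nat_lit 168) (nat_lit 15954116289) (nat_lit 5) (nat_lit 5) (nat_lit 6) (nat_lit 5) (nat_lit 7) (nat_lit 4) (nat_lit 402) (nat_lit 287) (nat_lit 172)))) (XT.nd (nat_lit 94) (nat_lit 0) (nat_lit 0) (XT.lf (nat_lit 0) (nat_lit 46706101593) (nat_lit 168) (nat_lit 13089455782)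 (nat_lit 0) (nat_lit 1310353041) (nat_lit 5) (nat_lit 5) (nat_lit 7) (nat_lit 4) (nat_lit 5) (nat_lit 4) (nat_lit 403) (nat_lit 287) (nat_lit 171)) (XT.nd (nat_lit 94) (nat_lit 0) (nat_lit 0) (XT.lf (nat_lit 0) (nat_lit 50102405537) (nat_lit 168) (nat_lit 8116311647) (nat_lit 0) (nat_lit 4665930045) (nat_lit 5) (nat_lit 5) (nat_lit 7) (nat_lit 4) (nat_lit 5) (nat_lit 4) (nat_lit 404) (nat_lit 287) (nat_lit 170)) (XT.lf (nat_lit 0) (nat_lit 53598478895) (nat_lit 168) (nat_lit 2997732535) (nat_lit 0) (nat_lit 8122501038) (nat_lit 5) (nat_lit 5) (nat_lit 7) (nat_lit 4) (nat_lit 5) (nat_lit 4) (nat_lit 405) (nat_lit 287) (nat_lit 169)))))) (XT.nd (nat_lit 564) (nat_lit 0) (nat_lit 0) (XT.nd (nat_lit 282) (nat_lit 84) (nat_lit 0) (XT.nd (nat_lit 94) (nat_lit 0) (nat_lit 0) (XT.lf (nat_lit 0) (nat_lit 2317750105) (nat_lit 84) (nat_lit 54902822638) (nat_lit 84) (nat_lit 9388530168) (nat_lit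 4) (nat_lit 4) (nat_lit 5) (nat_lit 5) (nat_lit 5) (nat_lit 4) (nat_lit 406) (nat_lit 287) (nat_lit 168)) (XT.nd (nat_lit 94) (nat_lit 0) (nat_lit 0) (XT.lf (nat_lit 0) (nat_lit 7853178888) (nat_lit 84) (nat_lit 53127790335) (nat_lit 84) (nat_lit 7576335292) (nat_lit 4) (nat_lit 4) (nat_lit 5) (nat_lit 5) (nat_lit 5) (nat_lit 4) (nat_lit 407) (nat_lit 287) (nat_lit 167)) (XT.lf (nat_lit 0) (nat_lit 13552073885) (nat_lit 84) (nat_lit 51300750185) (nat_lit 84) (nat_lit 5713249969) (nat_lit 4) (nat_lit 4) (nat_lit 5) (nat_lit 5) (nat_lit 5) (nat_lit 4) (nat_lit 408) (nat_lit 287) (nat_lit 166)))) (XT.nd (nat_lit 94) (nat_lit 84) (nat_lit 0) (XT.lf (nat_lit 0) (nat_lit 19419747062) (nat_lit 84) (nat_lit 49419999195) (nat_lit 84) (nat_lit 3797537609) (nat_lit 4) (nat_lit 4) (nat_lit 5) (nat_lit 5) (nat_lit 5) (nat_lit 4) (nat_lit 409) (nat_lit 287) (nat_lit 165)) (XT.nd (nat_lit 94) (nat_lit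 84) (nat_lit 0) (XT.lf (nat_lit 0) (nat_lit 25461667705) (nat_lit 84) (nat_lit 47483784307) (nat_lit 84) (nat_lit 1827412566) (nat_lit 4) (nat_lit 4) (nat_lit 5) (nat_lit 5) (nat_lit 5) (nat_lit 4) (nat_lit 410) (nat_lit 287) (nat_lit 164)) (XT.lf (nat_lit 0) (nat_lit 194952890) (nat_lit 168) (nat_lit 45293312968) (nat_lit 84) (nat_lit 31486479719) (nat_lit 3) (nat_lit 5) (nat_lit 5) (nat_lit 5) (nat_lit 4) (nat_lit 4) (nat_lit 411) (nat_lit 287) (nat_lit 163))))) (XT.nd (nat_lit 42582) (nat_lit 0) (nat_lit 14028) (XT.nd (nat_lit 42394) (nat_lit 0) (nat_lit 14280) (XT.lf (nat_lit 0) (nat_lit 2237466547) (nat_lit 168) (nat_lit 41176869331) (nat_lit 84) (nat_lit 35830124761) (nat_lit 3) (nat_lit 5) (nat_lit 5) (nat_lit 5) (nat_lit 4) (nat_lit 4) (nat_lit 412) (nat_lit 287) (nat_lit 162)) (XT.nd (nat_lit 94) (nat_lit 252) (nat_lit 0) (XT.lf (nat_lit 0) (nat_lit 1193339202) (nat_lit 0)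 (nat_lit 1193339202) (nat_lit 84) (nat_lit 836777948) (nat_lit 176) (nat_lit 5) (nat_lit 176) (nat_lit 3) (nat_lit 177) (nat_lit 0) (nat_lit 288) (nat_lit 288) (nat_lit 285)) (XT.lf (nat_lit 0) (nat_lit 647757777) (nat_lit 252) (nat_lit 1608771023) (nat_lit 252) (nat_lit 4197343031) (nat_lit 173) (nat_lit 3) (nat_lit 176) (nat_lit 3) (nat_lit 176) (nat_lit 5) (nat_lit 289) (nat_lit 288) (nat_lit 284)))) (XT.nd (nat_lit 94) (nat_lit 252) (nat_lit 0) (XT.lf (nat_lit 84) (nat_lit 870626583) (nat_lit 0) (nat_lit 2051074520) (nat_lit 252) (nat_lit 3542314492) (nat_lit 174) (nat_lit 5) (nat_lit 173) (nat_lit 3) (nat_lit 176) (nat_lit 5) (nat_lit 290) (nat_lit 288) (nat_lit 283)) (XT.nd (nat_lit 94) (nat_lit 252) (nat_lit 0) (XT.lf (nat_lit 84) (nat_lit 3412995809) (nat_lit 0) (nat_lit 1779055366) (nat_lit 252) (nat_lit 1285570823) (nat_lit 174) (nat_lit 5) (nat_lit 173) (nat_lit 3) (nat_lit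 176) (nat_lit 5) (nat_lit 291) (nat_lit 288) (nat_lit 282)) (XT.lf (nat_lit 0) (nat_lit 930299341) (nat_lit 252) (nat_lit 517000299) (nat_lit 336) (nat_lit 5047617018) (nat_lit 170) (nat_lit 5) (nat_lit 173) (nat_lit 3) (nat_lit 174) (nat_lit 5) (nat_lit 292) (nat_lit 288) (nat_lit 281))))))) (XT.nd (nat_lit 1128) (nat_lit 5040) (nat_lit 0) (XT.nd (nat_lit 564) (nat_lit 1008) (nat_lit 0) (XT.nd (nat_lit 282) (nat_lit 336) (nat_lit 0) (XT.nd (nat_lit 94) (nat_lit 336) (nat_lit 0) (XT.lf (nat_lit 84) (nat_lit 2090858701) (nat_lit 0) (nat_lit 1030885740) (nat_lit 336) (nat_lit 3393431215) (nat_lit 171) (nat_lit 5) (nat_lit 170) (nat_lit 5) (nat_lit 174) (nat_lit 5) (nat_lit 293) (nat_lit 288) (nat_lit 280)) (XT.nd (nat_lit 94) (nat_lit 336) (nat_lit 0) (XT.lf (nat_lit 84) (nat_lit 4743283529) (nat_lit 0) (nat_lit 558234886) (nat_lit 336) (nat_lit 1237765696) (nat_lit 171) (nat_lit 5)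 (nat_lit 170) (nat_lit 5) (nat_lit 174) (nat_lit 5) (nat_lit 294) (nat_lit 288) (nat_lit 279)) (XT.lf (nat_lit 84) (nat_lit 873367476) (nat_lit 0) (nat_lit 16175871) (nat_lit 420) (nat_lit 5677338362) (nat_lit 167) (nat_lit 5) (nat_lit 166) (nat_lit 5) (nat_lit 171) (nat_lit 5) (nat_lit 295) (nat_lit 288) (nat_lit 278)))) (XT.nd (nat_lit 94) (nat_lit 420) (nat_lit 0) (XT.lf (nat_lit 0) (nat_lit 2999794689) (nat_lit 336) (nat_lit 3000760981) (nat_lit 84) (nat_lit 596850490) (nat_lit 167) (nat_lit 5) (nat_lit 171) (nat_lit 5) (nat_lit 168) (nat_lit 5) (nat_lit 296) (nat_lit 288) (nat_lit 277)) (XT.nd (nat_lit 94) (nat_lit 420) (nat_lit 0) (XT.lf (nat_lit 0) (nat_lit 5096468452) (nat_lit 336) (nat_lit 274487165) (nat_lit 84) (nat_lit 1261037116) (nat_lit 167) (nat_lit 5) (nat_lit 171) (nat_lit 5) (nat_lit 168) (nat_lit 5) (nat_lit 297) (nat_lit 288) (nat_lit 276)) (XT.lf (nat_lit 0) (nat_lit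 525837261) (nat_lit 420) (nat_lit 4136054005) (nat_lit 84) (nat_lit 2007841491) (nat_lit 162) (nat_lit 5) (nat_lit 167) (nat_lit 5) (nat_lit 163) (nat_lit 5) (nat_lit 298) (nat_lit 288) (nat_lit 275))))) (XT.nd (nat_lit 282) (nat_lit 588) (nat_lit 0) (XT.nd (nat_lit 94) (nat_lit 420) (nat_lit 0) (XT.lf (nat_lit 0) (nat_lit 2545771371) (nat_lit 420) (nat_lit 1339552665) (nat_lit 84) (nat_lit 2825716899) (nat_lit 162) (nat_lit 5) (nat_lit 167) (nat_lit 5) (nat_lit 163) (nat_lit 5) (nat_lit 299) (nat_lit 288) (nat_lit 274)) (XT.nd (nat_lit 94) (nat_lit 0) (nat_lit 0) (XT.lf (nat_lit 0) (nat_lit 1525905187) (nat_lit 420) (nat_lit 3043522851) (nat_lit 504) (nat_lit 2186617718) (nat_lit 157) (nat_lit 5) (nat_lit 162) (nat_lit 5) (nat_lit 163) (nat_lit 5) (nat_lit 300) (nat_lit 288) (nat_lit 273)) (XT.lf (nat_lit 0) (nat_lit 4460602229) (nat_lit 420) (nat_lit 2136915405) (nat_lit 504) (nat_lit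 207307988) (nat_lit 157) (nat_lit 5) (nat_lit 162) (nat_lit 5) (nat_lit 163) (nat_lit 5) (nat_lit 301) (nat_lit 288) (nat_lit 272)))) (XT.nd (nat_lit 94) (nat_lit 0) (nat_lit 0) (XT.lf (nat_lit 0) (nat_lit 576024549) (nat_lit 504) (nat_lit 1154741449) (nat_lit 588) (nat_lit 5126361875) (nat_lit 150) (nat_lit 5) (nat_lit 156) (nat_lit 5) (nat_lit 157) (nat_lit 5) (nat_lit 302) (nat_lit 288) (nat_lit 271)) (XT.nd (nat_lit 94) (nat_lit 0) (nat_lit 0) (XT.lf (nat_lit 0) (nat_lit 3586273036) (nat_lit 504) (nat_lit 93087138) (nat_lit 588) (nat_lit 3233550932) (nat_lit 150) (nat_lit 5) (nat_lit 156) (nat_lit 5) (nat_lit 157) (nat_lit 5) (nat_lit 303) (nat_lit 288) (nat_lit 270)) (XT.lf (nat_lit 0) (nat_lit 5630898311) (nat_lit 588) (nat_lit 339944475) (nat_lit 84) (nat_lit 1001868930) (nat_lit 150) (nat_lit 5) (nat_lit 157) (nat_lit 5) (nat_lit 151) (nat_lit 5) (nat_lit 304) (nat_lit 288)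 (nat_lit 269)))))) (XT.nd (nat_lit 564) (nat_lit 2856) (nat_lit 0) (XT.nd (nat_lit 282) (nat_lit 840) (nat_lit 0) (XT.nd (nat_lit 94) (nat_lit 672) (nat_lit 0) (XT.lf (nat_lit 0) (nat_lit 558264456) (nat_lit 672) (nat_lit 4295895731) (nat_lit 84) (nat_lit 2181674864) (nat_lit 142) (nat_lit 5) (nat_lit 150) (nat_lit 5) (nat_lit 143) (nat_lit 5) (nat_lit 305) (nat_lit 288) (nat_lit 268)) (XT.nd (nat_lit 94) (nat_lit 672) (nat_lit 0) (XT.lf (nat_lit 0) (nat_lit 2427960344) (nat_lit 672) (nat_lit 1241311644) (nat_lit 84) (nat_lit 3433583965) (nat_lit 142) (nat_lit 5) (nat_lit 150) (nat_lit 5) (nat_lit 143) (nat_lit 5) (nat_lit 306) (nat_lit 288) (nat_lit 267)) (XT.lf (nat_lit 0) (nat_lit 1898442147) (nat_lit 672) (nat_lit 2412965361) (nat_lit 756) (nat_lit 2862365991) (nat_lit 134) (nat_lit 5) (nat_lit 142) (nat_lit 5) (nat_lit 143) (nat_lit 5) (nat_lit 307) (nat_lit 288) (nat_lit 266))))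 (XT.nd (nat_lit 94) (nat_lit 840) (nat_lit 0) (XT.lf (nat_lit 0) (nat_lit 5114555327) (nat_lit 672) (nat_lit 1090027315) (nat_lit 756) (nat_lit 1044250292) (nat_lit 134) (nat_lit 5) (nat_lit 142) (nat_lit 5) (nat_lit 143) (nat_lit 5) (nat_lit 308) (nat_lit 288) (nat_lit 265)) (XT.nd (nat_lit 94) (nat_lit 0) (nat_lit 0) (XT.lf (nat_lit 0) (nat_lit 766367780) (nat_lit 840) (nat_lit 6261025838) (nat_lit 84) (nat_lit 300440626) (nat_lit 124) (nat_lit 5) (nat_lit 134) (nat_lit 5) (nat_lit 125) (nat_lit 5) (nat_lit 309) (nat_lit 288) (nat_lit 264)) (XT.lf (nat_lit 0) (nat_lit 2585773465) (nat_lit 840) (nat_lit 3067683133) (nat_lit 84) (nat_lit 1756689008) (nat_lit 124) (nat_lit 5) (nat_lit 134) (nat_lit 5) (nat_lit 125) (nat_lit 5) (nat_lit 310) (nat_lit 288) (nat_lit 263))))) (XT.nd (nat_lit 282) (nat_lit 1932) (nat_lit 0) (XT.nd (nat_lit 94) (nat_lit 84) (nat_lit 0) (XT.lf (nat_lit 0)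 (nat_lit 180366413) (nat_lit 840) (nat_lit 4225482953) (nat_lit 924) (nat_lit 3091271940) (nat_lit 114) (nat_lit 5) (nat_lit 124) (nat_lit 5) (nat_lit 125) (nat_lit 5) (nat_lit 311) (nat_lit 288) (nat_lit 262)) (XT.nd (nat_lit 94) (nat_lit 84) (nat_lit 0) (XT.lf (nat_lit 0) (nat_lit 3546703159) (nat_lit 840) (nat_lit 2711403122) (nat_lit 924) (nat_lit 1329811889) (nat_lit 114) (nat_lit 5) (nat_lit 124) (nat_lit 5) (nat_lit 125) (nat_lit 5) (nat_lit 312) (nat_lit 288) (nat_lit 261)) (XT.lf (nat_lit 0) (nat_lit 420973476) (nat_lit 924) (nat_lit 716458571) (nat_lit 84) (nat_lit 6546019449) (nat_lit 113) (nat_lit 5) (nat_lit 124) (nat_lit 5) (nat_lit 114) (nat_lit 5) (nat_lit 313) (nat_lit 288) (nat_lit 260)))) (XT.nd (nat_lit 188) (nat_lit 1008) (nat_lit 0) (XT.nd (nat_lit 94) (nat_lit 0) (nat_lit 0) (XT.lf (nat_lit 0) (nat_lit 2176746122) (nat_lit 1008) (nat_lit 5081791070) (nat_lit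 84) (nat_lit 523999865) (nat_lit 102) (nat_lit 5) (nat_lit 114) (nat_lit 5) (nat_lit 103) (nat_lit 5) (nat_lit 314) (nat_lit 288) (nat_lit 259)) (XT.lf (nat_lit 0) (nat_lit 3953556585) (nat_lit 1008) (nat_lit 1704739003) (nat_lit 84) (nat_lit 2227764316) (nat_lit 102) (nat_lit 5) (nat_lit 114) (nat_lit 5) (nat_lit 103) (nat_lit 5) (nat_lit 315) (nat_lit 288) (nat_lit 258))) (XT.nd (nat_lit 94) (nat_lit 0) (nat_lit 0) (XT.lf (nat_lit 0) (nat_lit 1766383529) (nat_lit 1008) (nat_lit 3985589102) (nat_lit 1092) (nat_lit 2242177641) (nat_lit 90) (nat_lit 5) (nat_lit 102) (nat_lit 5) (nat_lit 103) (nat_lit 5) (nat_lit 316) (nat_lit 288) (nat_lit 257)) (XT.lf (nat_lit 0) (nat_lit 5335511392) (nat_lit 1008) (nat_lit 2238503548) (nat_lit 1092) (nat_lit 532883296) (nat_lit 90) (nat_lit 5) (nat_lit 102) (nat_lit 5) (nat_lit 103) (nat_lit 5) (nat_lit 317) (nat_lit 288) (nat_lit 256))))))))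
noncomputable def xc87 : XT := (XT.nd (nat_lit 2256) (nat_lit 1764) (nat_lit 0) (XT.nd (nat_lit 1128) (nat_lit 1848) (nat_lit 0) (XT.nd (nat_lit 564) (nat_lit 924) (nat_lit 0) (XT.nd (nat_lit 282) (nat_lit 1092) (nat_lit 0) (XT.nd (nat_lit 94) (nat_lit 0) (nat_lit 0) (XT.lf (nat_lit 0) (nat_lit 749375177) (nat_lit 588) (nat_lit 413479867) (nat_lit 672) (nat_lit 7061495797) (nat_lit 82) (nat_lit 5) (nat_lit 89) (nat_lit 5) (nat_lit 90) (nat_lit 5) (nat_lit 318) (nat_lit 288) (nat_lit 255)) (XT.nd (nat_lit 94) (nat_lit 0) (nat_lit 0) (XT.lf (nat_lit 0) (nat_lit 2895731673) (nat_lit 672) (nat_lit 3973837331) (nat_lit 84) (nat_lit 1476125410) (nat_lit 82) (nat_lit 5) (nat_lit 90) (nat_lit 5) (nat_lit 83) (nat_lit 5) (nat_lit 319) (nat_lit 288) (nat_lit 254)) (XT.lf (nat_lit 0) (nat_lit 4639856357) (nat_lit 672) (nat_lit 413991513) (nat_lit 84) (nat_lit 3418543560) (nat_lit 82) (nat_lit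 5) (nat_lit 90) (nat_lit 5) (nat_lit 83) (nat_lit 5) (nat_lit 320) (nat_lit 288) (nat_lit 253)))) (XT.nd (nat_lit 94) (nat_lit 588) (nat_lit 0) (XT.lf (nat_lit 0) (nat_lit 3278026640) (nat_lit 504) (nat_lit 3147244823) (nat_lit 588) (nat_lit 2178407606) (nat_lit 76) (nat_lit 5) (nat_lit 82) (nat_lit 5) (nat_lit 83) (nat_lit 5) (nat_lit 321) (nat_lit 288) (nat_lit 252)) (XT.nd (nat_lit 94) (nat_lit 588) (nat_lit 0) (XT.lf (nat_lit 0) (nat_lit 7049493710) (nat_lit 504) (nat_lit 1176493726) (nat_lit 588) (nat_lit 514549535) (nat_lit 76) (nat_lit 5) (nat_lit 82) (nat_lit 5) (nat_lit 83) (nat_lit 5) (nat_lit 322) (nat_lit 288) (nat_lit 251)) (XT.lf (nat_lit 0) (nat_lit 1162043380) (nat_lit 588) (nat_lit 6849195934) (nat_lit 84) (nat_lit 870726542) (nat_lit 69) (nat_lit 5) (nat_lit 76) (nat_lit 5) (nat_lit 70) (nat_lit 5) (nat_lit 323) (nat_lit 288) (nat_lit 250))))) (XT.nd (nat_lit 282)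 (nat_lit 504) (nat_lit 0) (XT.nd (nat_lit 94) (nat_lit 420) (nat_lit 0) (XT.lf (nat_lit 0) (nat_lit 2866949335) (nat_lit 588) (nat_lit 3181562773) (nat_lit 84) (nat_lit 2979742178) (nat_lit 69) (nat_lit 5) (nat_lit 76) (nat_lit 5) (nat_lit 70) (nat_lit 5) (nat_lit 324) (nat_lit 288) (nat_lit 249)) (XT.nd (nat_lit 94) (nat_lit 0) (nat_lit 0) (XT.lf (nat_lit 0) (nat_lit 567826723) (nat_lit 420) (nat_lit 4020964338) (nat_lit 504) (nat_lit 4591629131) (nat_lit 64) (nat_lit 5) (nat_lit 69) (nat_lit 5) (nat_lit 70) (nat_lit 5) (nat_lit 325) (nat_lit 288) (nat_lit 248)) (XT.lf (nat_lit 0) (nat_lit 4457953207) (nat_lit 420) (nat_lit 1898539750) (nat_lit 504) (nat_lit 2981265546) (nat_lit 64) (nat_lit 5) (nat_lit 69) (nat_lit 5) (nat_lit 70) (nat_lit 5) (nat_lit 326) (nat_lit 288) (nat_lit 247)))) (XT.nd (nat_lit 94) (nat_lit 504) (nat_lit 0) (XT.lf (nat_lit 0) (nat_lit 8142344586) (nat_lit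 504) (nat_lit 1077243516) (nat_lit 84) (nat_lit 281737878) (nat_lit 64) (nat_lit 5) (nat_lit 70) (nat_lit 5) (nat_lit 65) (nat_lit 5) (nat_lit 327) (nat_lit 288) (nat_lit 246)) (XT.nd (nat_lit 94) (nat_lit 0) (nat_lit 0) (XT.lf (nat_lit 0) (nat_lit 316413664) (nat_lit 504) (nat_lit 6833880154) (nat_lit 84) (nat_lit 2519493293) (nat_lit 58) (nat_lit 5) (nat_lit 64) (nat_lit 5) (nat_lit 59) (nat_lit 5) (nat_lit 328) (nat_lit 288) (nat_lit 245)) (XT.lf (nat_lit 0) (nat_lit 1988700864) (nat_lit 504) (nat_lit 3006266947) (nat_lit 84) (nat_lit 4849099835) (nat_lit 58) (nat_lit 5) (nat_lit 64) (nat_lit 5) (nat_lit 59) (nat_lit 5) (nat_lit 329) (nat_lit 288) (nat_lit 244)))))) (XT.nd (nat_lit 564) (nat_lit 672) (nat_lit 0) (XT.nd (nat_lit 282) (nat_lit 840) (nat_lit 0) (XT.nd (nat_lit 94) (nat_lit 0) (nat_lit 0) (XT.lf (nat_lit 0) (nat_lit 917426337) (nat_lit 336) (nat_lit 2767476374) (nat_lit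 420) (nat_lit 6339904657) (nat_lit 54) (nat_lit 5) (nat_lit 58) (nat_lit 5) (nat_lit 59) (nat_lit 5) (nat_lit 330) (nat_lit 288) (nat_lit 243)) (XT.nd (nat_lit 94) (nat_lit 0) (nat_lit 0) (XT.lf (nat_lit 0) (nat_lit 4985841063) (nat_lit 336) (nat_lit 442907912) (nat_lit 420) (nat_lit 4782739162) (nat_lit 54) (nat_lit 5) (nat_lit 58) (nat_lit 5) (nat_lit 59) (nat_lit 5) (nat_lit 331) (nat_lit 288) (nat_lit 242)) (XT.lf (nat_lit 0) (nat_lit 7210768879) (nat_lit 420) (nat_lit 1283612592) (nat_lit 84) (nat_lit 1910246468) (nat_lit 54) (nat_lit 5) (nat_lit 59) (nat_lit 5) (nat_lit 55) (nat_lit 5) (nat_lit 332) (nat_lit 288) (nat_lit 241)))) (XT.nd (nat_lit 94) (nat_lit 420) (nat_lit 0) (XT.lf (nat_lit 0) (nat_lit 2792936765) (nat_lit 420) (nat_lit 6253124456) (nat_lit 504) (nat_lit 1557929010) (nat_lit 49) (nat_lit 5) (nat_lit 54) (nat_lit 5) (nat_lit 55) (nat_lit 5) (nat_lit 333) (nat_lit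 288) (nat_lit 240)) (XT.nd (nat_lit 94) (nat_lit 336) (nat_lit 0) (XT.lf (nat_lit 0) (nat_lit 105583096) (nat_lit 504) (nat_lit 3827355188) (nat_lit 84) (nat_lit 6877355350) (nat_lit 48) (nat_lit 5) (nat_lit 54) (nat_lit 5) (nat_lit 49) (nat_lit 5) (nat_lit 334) (nat_lit 288) (nat_lit 239)) (XT.lf (nat_lit 0) (nat_lit 229839145) (nat_lit 336) (nat_lit 1527693868) (nat_lit 420) (nat_lit 9266078167) (nat_lit 44) (nat_lit 5) (nat_lit 48) (nat_lit 5) (nat_lit 49) (nat_lit 5) (nat_lit 335) (nat_lit 288) (nat_lit 238))))) (XT.nd (nat_lit 282) (nat_lit 336) (nat_lit 0) (XT.nd (nat_lit 94) (nat_lit 336) (nat_lit 0) (XT.lf (nat_lit 0) (nat_lit 3478003075) (nat_lit 420) (nat_lit 6797617368) (nat_lit 84) (nat_lit 967538597) (nat_lit 44) (nat_lit 5) (nat_lit 49) (nat_lit 5) (nat_lit 45) (nat_lit 5) (nat_lit 336) (nat_lit 288) (nat_lit 237)) (XT.nd (nat_lit 94) (nat_lit 336) (nat_lit 0) (XT.lf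 (nat_lit 0) (nat_lit 5235915725) (nat_lit 420) (nat_lit 2731426783) (nat_lit 84) (nat_lit 3502812461) (nat_lit 44) (nat_lit 5) (nat_lit 49) (nat_lit 5) (nat_lit 45) (nat_lit 5) (nat_lit 337) (nat_lit 288) (nat_lit 236)) (XT.lf (nat_lit 0) (nat_lit 1453019856) (nat_lit 336) (nat_lit 5579148893) (nat_lit 420) (nat_lit 4672664772) (nat_lit 40) (nat_lit 5) (nat_lit 44) (nat_lit 5) (nat_lit 45) (nat_lit 5) (nat_lit 338) (nat_lit 288) (nat_lit 235)))) (XT.nd (nat_lit 94) (nat_lit 336) (nat_lit 0) (XT.lf (nat_lit 0) (nat_lit 5788393500) (nat_lit 336) (nat_lit 3094208675) (nat_lit 420) (nat_lit 3064372122) (nat_lit 40) (nat_lit 5) (nat_lit 44) (nat_lit 5) (nat_lit 45) (nat_lit 5) (nat_lit 339) (nat_lit 288) (nat_lit 234)) (XT.nd (nat_lit 94) (nat_lit 336) (nat_lit 0) (XT.lf (nat_lit 0) (nat_lit 10222571434) (nat_lit 336) (nat_lit 538716124) (nat_lit 420) (nat_lit 1436372694) (nat_lit 40) (nat_lit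 5) (nat_lit 44) (nat_lit 5) (nat_lit 45) (nat_lit 5) (nat_lit 340) (nat_lit 288) (nat_lit 233)) (XT.lf (nat_lit 0) (nat_lit 252842485) (nat_lit 336) (nat_lit 10129575401) (nat_lit 84) (nat_lit 2073269028) (nat_lit 36) (nat_lit 5) (nat_lit 40) (nat_lit 5) (nat_lit 37) (nat_lit 5) (nat_lit 341) (nat_lit 288) (nat_lit 232))))))) (XT.nd (nat_lit 1128) (nat_lit 840) (nat_lit 0) (XT.nd (nat_lit 564) (nat_lit 336) (nat_lit 0) (XT.nd (nat_lit 282) (nat_lit 252) (nat_lit 0) (XT.nd (nat_lit 94) (nat_lit 336) (nat_lit 0) (XT.lf (nat_lit 0) (nat_lit 1962717124) (nat_lit 336) (nat_lit 5974777424) (nat_lit 84) (nat_lit 4783944820) (nat_lit 36) (nat_lit 5) (nat_lit 40) (nat_lit 5) (nat_lit 37) (nat_lit 5) (nat_lit 342) (nat_lit 288) (nat_lit 231)) (XT.nd (nat_lit 94) (nat_lit 336) (nat_lit 0) (XT.lf (nat_lit 0) (nat_lit 3698240067) (nat_lit 336) (nat_lit 1725916547) (nat_lit 84) (nat_lit 7572242306)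 (nat_lit 36) (nat_lit 5) (nat_lit 40) (nat_lit 5) (nat_lit 37) (nat_lit 5) (nat_lit 343) (nat_lit 288) (nat_lit 230)) (XT.lf (nat_lit 0) (nat_lit 2674860080) (nat_lit 336) (nat_lit 2812703869) (nat_lit 420) (nat_lit 7792435335) (nat_lit 32) (nat_lit 5) (nat_lit 36) (nat_lit 5) (nat_lit 37) (nat_lit 5) (nat_lit 344) (nat_lit 288) (nat_lit 229)))) (XT.nd (nat_lit 94) (nat_lit 252) (nat_lit 0) (XT.lf (nat_lit 0) (nat_lit 7215298997) (nat_lit 336) (nat_lit 109004705) (nat_lit 420) (nat_lit 6248450738) (nat_lit 32) (nat_lit 5) (nat_lit 36) (nat_lit 5) (nat_lit 37) (nat_lit 5) (nat_lit 345) (nat_lit 288) (nat_lit 228)) (XT.nd (nat_lit 94) (nat_lit 252) (nat_lit 0) (XT.lf (nat_lit 0) (nat_lit 9219199081) (nat_lit 420) (nat_lit 2037836034) (nat_lit 84) (nat_lit 2617622294) (nat_lit 32) (nat_lit 5) (nat_lit 37) (nat_lit 5) (nat_lit 33) (nat_lit 5) (nat_lit 346) (nat_lit 288) (nat_lit 227))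 (XT.lf (nat_lit 0) (nat_lit 2431389788) (nat_lit 252) (nat_lit 8742088883) (nat_lit 336) (nat_lit 3012527595) (nat_lit 29) (nat_lit 5) (nat_lit 32) (nat_lit 5) (nat_lit 33) (nat_lit 5) (nat_lit 347) (nat_lit 288) (nat_lit 226))))) (XT.nd (nat_lit 282) (nat_lit 0) (nat_lit 0) (XT.nd (nat_lit 94) (nat_lit 336) (nat_lit 0) (XT.lf (nat_lit 0) (nat_lit 7050514386) (nat_lit 252) (nat_lit 6134928771) (nat_lit 336) (nat_lit 1321757208) (nat_lit 29) (nat_lit 5) (nat_lit 32) (nat_lit 5) (nat_lit 33) (nat_lit 5) (nat_lit 348) (nat_lit 288) (nat_lit 225)) (XT.nd (nat_lit 94) (nat_lit 252) (nat_lit 0) (XT.lf (nat_lit 0) (nat_lit 389156127) (nat_lit 336) (nat_lit 3061177343) (nat_lit 84) (nat_lit 11388723059) (nat_lit 28) (nat_lit 5) (nat_lit 32) (nat_lit 5) (nat_lit 29) (nat_lit 5) (nat_lit 349) (nat_lit 288) (nat_lit 224)) (XT.lf (nat_lit 0) (nat_lit 1455875595) (nat_lit 252) (nat_lit 661153543)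 (nat_lit 336) (nat_lit 13064113857) (nat_lit 25) (nat_lit 5) (nat_lit 28) (nat_lit 5) (nat_lit 29) (nat_lit 5) (nat_lit 350) (nat_lit 288) (nat_lit 223)))) (XT.nd (nat_lit 94) (nat_lit 0) (nat_lit 0) (XT.lf (nat_lit 0) (nat_lit 3929967169) (nat_lit 336) (nat_lit 9408227069) (nat_lit 84) (nat_lit 2194755062) (nat_lit 25) (nat_lit 5) (nat_lit 29) (nat_lit 5) (nat_lit 26) (nat_lit 5) (nat_lit 351) (nat_lit 288) (nat_lit 222)) (XT.nd (nat_lit 94) (nat_lit 0) (nat_lit 0) (XT.lf (nat_lit 0) (nat_lit 5783805978) (nat_lit 336) (nat_lit 4994131354) (nat_lit 84) (nat_lit 5118287512) (nat_lit 25) (nat_lit 5) (nat_lit 29) (nat_lit 5) (nat_lit 26) (nat_lit 5) (nat_lit 352) (nat_lit 288) (nat_lit 221)) (XT.lf (nat_lit 0) (nat_lit 7673714812) (nat_lit 336) (nat_lit 472307129) (nat_lit 84) (nat_lit 8125489614) (nat_lit 25) (nat_lit 5) (nat_lit 29) (nat_lit 5) (nat_lit 26) (nat_lit 5) (nat_lit 353)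 (nat_lit 288) (nat_lit 220)))))) (XT.nd (nat_lit 564) (nat_lit 336) (nat_lit 0) (XT.nd (nat_lit 282) (nat_lit 336) (nat_lit 0) (XT.nd (nat_lit 94) (nat_lit 0) (nat_lit 0) (XT.lf (nat_lit 0) (nat_lit 4247028579) (nat_lit 168) (nat_lit 5396557734) (nat_lit 252) (nat_lit 7014266866) (nat_lit 23) (nat_lit 5) (nat_lit 25) (nat_lit 5) (nat_lit 26) (nat_lit 5) (nat_lit 354) (nat_lit 288) (nat_lit 219)) (XT.nd (nat_lit 94) (nat_lit 0) (nat_lit 0) (XT.lf (nat_lit 0) (nat_lit 9094728965) (nat_lit 168) (nat_lit 2564316062) (nat_lit 252) (nat_lit 5397687358) (nat_lit 23) (nat_lit 5) (nat_lit 25) (nat_lit 5) (nat_lit 26) (nat_lit 5) (nat_lit 355) (nat_lit 288) (nat_lit 218)) (XT.lf (nat_lit 0) (nat_lit 13720644188) (nat_lit 252) (nat_lit 3406524514) (nat_lit 84) (nat_lit 341393356) (nat_lit 23) (nat_lit 5) (nat_lit 26) (nat_lit 5) (nat_lit 24) (nat_lit 5) (nat_lit 356) (nat_lit 288) (nat_lit 217))))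 (XT.nd (nat_lit 94) (nat_lit 84) (nat_lit 0) (XT.lf (nat_lit 0) (nat_lit 1262490483) (nat_lit 252) (nat_lit 14603143190) (nat_lit 336) (nat_lit 2026997217) (nat_lit 20) (nat_lit 5) (nat_lit 23) (nat_lit 5) (nat_lit 24) (nat_lit 5) (nat_lit 357) (nat_lit 288) (nat_lit 216)) (XT.nd (nat_lit 94) (nat_lit 84) (nat_lit 0) (XT.lf (nat_lit 0) (nat_lit 6121840540) (nat_lit 252) (nat_lit 11971879520) (nat_lit 336) (nat_lit 235685173) (nat_lit 20) (nat_lit 5) (nat_lit 23) (nat_lit 5) (nat_lit 24) (nat_lit 5) (nat_lit 358) (nat_lit 288) (nat_lit 215)) (XT.lf (nat_lit 0) (nat_lit 1560052934) (nat_lit 336) (nat_lit 7690145521) (nat_lit 84) (nat_lit 9529673262) (nat_lit 19) (nat_lit 5) (nat_lit 23) (nat_lit 5) (nat_lit 20) (nat_lit 5) (nat_lit 359) (nat_lit 288) (nat_lit 214))))) (XT.nd (nat_lit 282) (nat_lit 168) (nat_lit 0) (XT.nd (nat_lit 94) (nat_lit 168) (nat_lit 0) (XT.lf (nat_lit 0) (nat_lit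 3388480380) (nat_lit 336) (nat_lit 3060580376) (nat_lit 84) (nat_lit 12795795315) (nat_lit 19) (nat_lit 5) (nat_lit 23) (nat_lit 5) (nat_lit 20) (nat_lit 5) (nat_lit 360) (nat_lit 288) (nat_lit 213)) (XT.nd (nat_lit 94) (nat_lit 0) (nat_lit 0) (XT.lf (nat_lit 0) (nat_lit 1722488306) (nat_lit 168) (nat_lit 3550648971) (nat_lit 252) (nat_lit 14451197203) (nat_lit 17) (nat_lit 5) (nat_lit 19) (nat_lit 5) (nat_lit 20) (nat_lit 5) (nat_lit 361) (nat_lit 288) (nat_lit 212)) (XT.lf (nat_lit 0) (nat_lit 6694247774) (nat_lit 168) (nat_lit 536662498) (nat_lit 252) (nat_lit 12987374569) (nat_lit 17) (nat_lit 5) (nat_lit 19) (nat_lit 5) (nat_lit 20) (nat_lit 5) (nat_lit 362) (nat_lit 288) (nat_lit 211)))) (XT.nd (nat_lit 188) (nat_lit 168) (nat_lit 0) (XT.nd (nat_lit 94) (nat_lit 0) (nat_lit 0) (XT.lf (nat_lit 0) (nat_lit 9258071421) (nat_lit 252) (nat_lit 8957160541) (nat_lit 84) (nat_lit 2512107741)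 (nat_lit 17) (nat_lit 5) (nat_lit 20) (nat_lit 5) (nat_lit 18) (nat_lit 5) (nat_lit 363) (nat_lit 288) (nat_lit 210)) (XT.lf (nat_lit 0) (nat_lit 11337263611) (nat_lit 252) (nat_lit 4277713146) (nat_lit 84) (nat_lit 5637593449) (nat_lit 17) (nat_lit 5) (nat_lit 20) (nat_lit 5) (nat_lit 18) (nat_lit 5) (nat_lit 364) (nat_lit 288) (nat_lit 209))) (XT.nd (nat_lit 94) (nat_lit 0) (nat_lit 0) (XT.lf (nat_lit 0) (nat_lit 534764932) (nat_lit 168) (nat_lit 12935641110) (nat_lit 252) (nat_lit 8324060459) (nat_lit 15) (nat_lit 5) (nat_lit 17) (nat_lit 5) (nat_lit 18) (nat_lit 5) (nat_lit 365) (nat_lit 288) (nat_lit 208)) (XT.lf (nat_lit 0) (nat_lit 5564539488) (nat_lit 168) (nat_lit 10134228711) (nat_lit 252) (nat_lit 6653547777) (nat_lit 15) (nat_lit 5) (nat_lit 17) (nat_lit 5) (nat_lit 18) (nat_lit 5) (nat_lit 366) (nat_lit 288) (nat_lit 207))))))))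
noncomputable def xc88 : XT := (XT.nd (nat_lit 2256) (nat_lit 252) (nat_lit 0) (XT.nd (nat_lit 1128) (nat_lit 336) (nat_lit 0) (XT.nd (nat_lit 564) (nat_lit 168) (nat_lit 0) (XT.nd (nat_lit 282) (nat_lit 252) (nat_lit 0) (XT.nd (nat_lit 94) (nat_lit 0) (nat_lit 0) (XT.lf (nat_lit 0) (nat_lit 10728340245) (nat_lit 168) (nat_lit 7252778902) (nat_lit 252) (nat_lit 4946862009) (nat_lit 15) (nat_lit 5) (nat_lit 17) (nat_lit 5) (nat_lit 18) (nat_lit 5) (nat_lit 367) (nat_lit 288) (nat_lit 206)) (XT.nd (nat_lit 94) (nat_lit 0) (nat_lit 0) (XT.lf (nat_lit 0) (nat_lit 16030980405) (nat_lit 168) (nat_lit 4288605869) (nat_lit 252) (nat_lit 3202412344) (nat_lit 15) (nat_lit 5) (nat_lit 17) (nat_lit 5) (nat_lit 18) (nat_lit 5) (nat_lit 368) (nat_lit 288) (nat_lit 205)) (XT.lf (nat_lit 0) (nat_lit 21477402585) (nat_lit 168) (nat_lit 1238946694) (nat_lit 252) (nat_lit 1418572772) (nat_lit 15) (nat_lit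 5) (nat_lit 17) (nat_lit 5) (nat_lit 18) (nat_lit 5) (nat_lit 369) (nat_lit 288) (nat_lit 204)))) (XT.nd (nat_lit 94) (nat_lit 0) (nat_lit 0) (XT.lf (nat_lit 0) (nat_lit 440550139) (nat_lit 252) (nat_lit 22436943806) (nat_lit 84) (nat_lit 1888388932) (nat_lit 12) (nat_lit 5) (nat_lit 15) (nat_lit 5) (nat_lit 13) (nat_lit 5) (nat_lit 370) (nat_lit 288) (nat_lit 203)) (XT.nd (nat_lit 94) (nat_lit 0) (nat_lit 0) (XT.lf (nat_lit 0) (nat_lit 2354730709) (nat_lit 252) (nat_lit 17937211249) (nat_lit 84) (nat_lit 5123224956) (nat_lit 12) (nat_lit 5) (nat_lit 15) (nat_lit 5) (nat_lit 13) (nat_lit 5) (nat_lit 371) (nat_lit 288) (nat_lit 202)) (XT.lf (nat_lit 0) (nat_lit 4314863554) (nat_lit 252) (nat_lit 13317889633) (nat_lit 84) (nat_lit 8452286005) (nat_lit 12) (nat_lit 5) (nat_lit 15) (nat_lit 5) (nat_lit 13) (nat_lit 5) (nat_lit 372) (nat_lit 288) (nat_lit 201))))) (XT.nd (nat_lit 282) (nat_lit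 0) (nat_lit 0) (XT.nd (nat_lit 94) (nat_lit 168) (nat_lit 0) (XT.lf (nat_lit 0) (nat_lit 6322775725) (nat_lit 252) (nat_lit 8574673268) (nat_lit 84) (nat_lit 11878675115) (nat_lit 12) (nat_lit 5) (nat_lit 15) (nat_lit 5) (nat_lit 13) (nat_lit 5) (nat_lit 373) (nat_lit 288) (nat_lit 200)) (XT.nd (nat_lit 94) (nat_lit 168) (nat_lit 0) (XT.lf (nat_lit 0) (nat_lit 8380338806) (nat_lit 252) (nat_lit 3703140979) (nat_lit 84) (nat_lit 15405586040) (nat_lit 12) (nat_lit 5) (nat_lit 15) (nat_lit 5) (nat_lit 13) (nat_lit 5) (nat_lit 374) (nat_lit 288) (nat_lit 199)) (XT.lf (nat_lit 0) (nat_lit 1328004340) (nat_lit 168) (nat_lit 9174640288) (nat_lit 252) (nat_lit 17721475855) (nat_lit 10) (nat_lit 5) (nat_lit 12) (nat_lit 5) (nat_lit 13) (nat_lit 5) (nat_lit 375) (nat_lit 288) (nat_lit 198)))) (XT.nd (nat_lit 94) (nat_lit 0) (nat_lit 0) (XT.lf (nat_lit 0) (nat_lit 6575642871) (nat_lit 168) (nat_lit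 6141725542) (nat_lit 252) (nat_lit 16263808212) (nat_lit 10) (nat_lit 5) (nat_lit 12) (nat_lit 5) (nat_lit 13) (nat_lit 5) (nat_lit 376) (nat_lit 288) (nat_lit 197)) (XT.nd (nat_lit 94) (nat_lit 0) (nat_lit 0) (XT.lf (nat_lit 0) (nat_lit 11968521789) (nat_lit 168) (nat_lit 3020561749) (nat_lit 252) (nat_lit 14773018587) (nat_lit 10) (nat_lit 5) (nat_lit 12) (nat_lit 5) (nat_lit 13) (nat_lit 5) (nat_lit 377) (nat_lit 288) (nat_lit 196)) (XT.lf (nat_lit 0) (nat_lit 17321809768) (nat_lit 252) (nat_lit 13057859356) (nat_lit 84) (nat_lit 187896796) (nat_lit 10) (nat_lit 5) (nat_lit 13) (nat_lit 5) (nat_lit 11) (nat_lit 4) (nat_lit 378) (nat_lit 288) (nat_lit 195)))))) (XT.nd (nat_lit 564) (nat_lit 252) (nat_lit 0) (XT.nd (nat_lit 282) (nat_lit 0) (nat_lit 0) (XT.nd (nat_lit 94) (nat_lit 84) (nat_lit 0) (XT.lf (nat_lit 0) (nat_lit 19746715736) (nat_lit 252) (nat_lit 8222950914) (nat_lit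 84) (nat_lit 3427753310) (nat_lit 10) (nat_lit 5) (nat_lit 13) (nat_lit 5) (nat_lit 11) (nat_lit 4) (nat_lit 379) (nat_lit 288) (nat_lit 194)) (XT.nd (nat_lit 94) (nat_lit 84) (nat_lit 0) (XT.lf (nat_lit 0) (nat_lit 22236097365) (nat_lit 252) (nat_lit 3254384024) (nat_lit 84) (nat_lit 6762885265) (nat_lit 10) (nat_lit 5) (nat_lit 13) (nat_lit 5) (nat_lit 11) (nat_lit 4) (nat_lit 380) (nat_lit 288) (nat_lit 193)) (XT.lf (nat_lit 0) (nat_lit 1890563174) (nat_lit 84) (nat_lit 22920466464) (nat_lit 168) (nat_lit 8324592799) (nat_lit 9) (nat_lit 5) (nat_lit 10) (nat_lit 5) (nat_lit 11) (nat_lit 4) (nat_lit 381) (nat_lit 288) (nat_lit 192)))) (XT.nd (nat_lit 94) (nat_lit 0) (nat_lit 0) (XT.lf (nat_lit 0) (nat_lit 7248418378) (nat_lit 84) (nat_lit 20241118150) (nat_lit 168) (nat_lit 6554988799) (nat_lit 9) (nat_lit 5) (nat_lit 10) (nat_lit 5) (nat_lit 11) (nat_lit 4) (nat_lit 382) (nat_lit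 288) (nat_lit 191)) (XT.nd (nat_lit 94) (nat_lit 0) (nat_lit 0) (XT.lf (nat_lit 0) (nat_lit 12757258861) (nat_lit 84) (nat_lit 17483908106) (nat_lit 168) (nat_lit 4740776927) (nat_lit 9) (nat_lit 5) (nat_lit 10) (nat_lit 5) (nat_lit 11) (nat_lit 4) (nat_lit 383) (nat_lit 288) (nat_lit 190)) (XT.lf (nat_lit 0) (nat_lit 18422219438) (nat_lit 84) (nat_lit 14646266326) (nat_lit 168) (nat_lit 2880266147) (nat_lit 9) (nat_lit 5) (nat_lit 10) (nat_lit 5) (nat_lit 11) (nat_lit 4) (nat_lit 384) (nat_lit 288) (nat_lit 189))))) (XT.nd (nat_lit 282) (nat_lit 168) (nat_lit 0) (XT.nd (nat_lit 94) (nat_lit 84) (nat_lit 0) (XT.lf (nat_lit 0) (nat_lit 24248580447) (nat_lit 84) (nat_lit 11725547828) (nat_lit 168) (nat_lit 971722270) (nat_lit 9) (nat_lit 5) (nat_lit 10) (nat_lit 5) (nat_lit 11) (nat_lit 4) (nat_lit 385) (nat_lit 288) (nat_lit 188)) (XT.nd (nat_lit 94) (nat_lit 0) (nat_lit 0) (XT.lf (nat_lit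 0) (nat_lit 966755198) (nat_lit 168) (nat_lit 7742184059) (nat_lit 84) (nat_lit 29264926526) (nat_lit 8) (nat_lit 5) (nat_lit 10) (nat_lit 5) (nat_lit 9) (nat_lit 5) (nat_lit 386) (nat_lit 288) (nat_lit 187)) (XT.lf (nat_lit 0) (nat_lit 2936251703) (nat_lit 168) (nat_lit 2657010899) (nat_lit 84) (nat_lit 33440482228) (nat_lit 8) (nat_lit 5) (nat_lit 10) (nat_lit 5) (nat_lit 9) (nat_lit 5) (nat_lit 387) (nat_lit 288) (nat_lit 186)))) (XT.nd (nat_lit 94) (nat_lit 0) (nat_lit 0) (XT.lf (nat_lit 0) (nat_lit 2625527426) (nat_lit 168) (nat_lit 2358699189) (nat_lit 252) (nat_lit 35141740405) (nat_lit 6) (nat_lit 5) (nat_lit 8) (nat_lit 5) (nat_lit 9) (nat_lit 5) (nat_lit 388) (nat_lit 288) (nat_lit 185)) (XT.nd (nat_lit 94) (nat_lit 0) (nat_lit 0) (XT.lf (nat_lit 0) (nat_lit 7124852740) (nat_lit 252) (nat_lit 33146288415) (nat_lit 84) (nat_lit 980029086) (nat_lit 6) (nat_lit 5) (nat_lit 9)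 (nat_lit 5) (nat_lit 7) (nat_lit 4) (nat_lit 389) (nat_lit 288) (nat_lit 184)) (XT.lf (nat_lit 0) (nat_lit 9347682106) (nat_lit 252) (nat_lit 28694167750) (nat_lit 84) (nat_lit 4368939182) (nat_lit 6) (nat_lit 5) (nat_lit 9) (nat_lit 5) (nat_lit 7) (nat_lit 4) (nat_lit 390) (nat_lit 288) (nat_lit 183))))))) (XT.nd (nat_lit 1128) (nat_lit 168) (nat_lit 0) (XT.nd (nat_lit 564) (nat_lit 0) (nat_lit 0) (XT.nd (nat_lit 282) (nat_lit 84) (nat_lit 0) (XT.nd (nat_lit 94) (nat_lit 0) (nat_lit 0) (XT.lf (nat_lit 0) (nat_lit 11631388038) (nat_lit 252) (nat_lit 24116529168) (nat_lit 84) (nat_lit 7858712449) (nat_lit 6) (nat_lit 5) (nat_lit 9) (nat_lit 5) (nat_lit 7) (nat_lit 4) (nat_lit 391) (nat_lit 288) (nat_lit 182)) (XT.nd (nat_lit 94) (nat_lit 0) (nat_lit 0) (XT.lf (nat_lit 0) (nat_lit 13978099189) (nat_lit 252) (nat_lit 19409105830) (nat_lit 84) (nat_lit 11452601722) (nat_lit 6) (nat_lit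 5) (nat_lit 9) (nat_lit 5) (nat_lit 7) (nat_lit 4) (nat_lit 392) (nat_lit 288) (nat_lit 181)) (XT.lf (nat_lit 0) (nat_lit 16390002938) (nat_lit 252) (nat_lit 14567509926) (nat_lit 84) (nat_lit 15153956882) (nat_lit 6) (nat_lit 5) (nat_lit 9) (nat_lit 5) (nat_lit 7) (nat_lit 4) (nat_lit 393) (nat_lit 288) (nat_lit 180)))) (XT.nd (nat_lit 94) (nat_lit 84) (nat_lit 0) (XT.lf (nat_lit 0) (nat_lit 18869347432) (nat_lit 252) (nat_lit 9587228579) (nat_lit 84) (nat_lit 18966227980) (nat_lit 6) (nat_lit 5) (nat_lit 9) (nat_lit 5) (nat_lit 7) (nat_lit 4) (nat_lit 394) (nat_lit 288) (nat_lit 179)) (XT.nd (nat_lit 94) (nat_lit 84) (nat_lit 0) (XT.lf (nat_lit 0) (nat_lit 21418443682) (nat_lit 252) (nat_lit 4463619647) (nat_lit 84) (nat_lit 22892968451) (nat_lit 6) (nat_lit 5) (nat_lit 9) (nat_lit 5) (nat_lit 7) (nat_lit 4) (nat_lit 395) (nat_lit 288) (nat_lit 178)) (XT.lf (nat_lit 0) (nat_lit 824708651)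 (nat_lit 84) (nat_lit 23223140271) (nat_lit 168) (nat_lit 26121310991) (nat_lit 5) (nat_lit 5) (nat_lit 6) (nat_lit 5) (nat_lit 7) (nat_lit 4) (nat_lit 396) (nat_lit 288) (nat_lit 177))))) (XT.nd (nat_lit 282) (nat_lit 0) (nat_lit 0) (XT.nd (nat_lit 94) (nat_lit 0) (nat_lit 0) (XT.lf (nat_lit 0) (nat_lit 6360981584) (nat_lit 84) (nat_lit 20437582914) (nat_lit 168) (nat_lit 24806728298) (nat_lit 5) (nat_lit 5) (nat_lit 6) (nat_lit 5) (nat_lit 7) (nat_lit 4) (nat_lit 397) (nat_lit 288) (nat_lit 176)) (XT.nd (nat_lit 94) (nat_lit 0) (nat_lit 0) (XT.lf (nat_lit 0) (nat_lit 12058578364) (nat_lit 84) (nat_lit 17569385861) (nat_lit 168) (nat_lit 23458205728) (nat_lit 5) (nat_lit 5) (nat_lit 6) (nat_lit 5) (nat_lit 7) (nat_lit 4) (nat_lit 398) (nat_lit 288) (nat_lit 175)) (XT.lf (nat_lit 0) (nat_lit 17922809746) (nat_lit 84) (nat_lit 14615875653) (nat_lit 168) (nat_lit 22074486316) (nat_lit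 5) (nat_lit 5) (nat_lit 6) (nat_lit 5) (nat_lit 7) (nat_lit 4) (nat_lit 399) (nat_lit 288) (nat_lit 174)))) (XT.nd (nat_lit 94) (nat_lit 0) (nat_lit 0) (XT.lf (nat_lit 0) (nat_lit 23959141809) (nat_lit 84) (nat_lit 11574299309) (nat_lit 168) (nat_lit 20654280291) (nat_lit 5) (nat_lit 5) (nat_lit 6) (nat_lit 5) (nat_lit 7) (nat_lit 4) (nat_lit 400) (nat_lit 288) (nat_lit 173)) (XT.nd (nat_lit 94) (nat_lit 0) (nat_lit 0) (XT.lf (nat_lit 0) (nat_lit 30173201047) (nat_lit 84) (nat_lit 8441821760) (nat_lit 168) (nat_lit 19196263871) (nat_lit 5) (nat_lit 5) (nat_lit 6) (nat_lit 5) (nat_lit 7) (nat_lit 4) (nat_lit 401) (nat_lit 288) (nat_lit 172)) (XT.lf (nat_lit 0) (nat_lit 36570779614) (nat_lit 84) (nat_lit 5215523211) (nat_lit 168) (nat_lit 17699078033) (nat_lit 5) (nat_lit 5) (nat_lit 6) (nat_lit 5) (nat_lit 7) (nat_lit 4) (nat_lit 402) (nat_lit 288) (nat_lit 171)))))) (XT.nd (nat_lit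 564) (nat_lit 84) (nat_lit 0) (XT.nd (nat_lit 282) (nat_lit 84) (nat_lit 0) (XT.nd (nat_lit 94) (nat_lit 0) (nat_lit 0) (XT.lf (nat_lit 0) (nat_lit 43157840723) (nat_lit 84) (nat_lit 1892396412) (nat_lit 168) (nat_lit 16161327242) (nat_lit 5) (nat_lit 5) (nat_lit 6) (nat_lit 5) (nat_lit 7) (nat_lit 4) (nat_lit 403) (nat_lit 288) (nat_lit 170)) (XT.nd (nat_lit 94) (nat_lit 0) (nat_lit 0) (XT.lf (nat_lit 0) (nat_lit 48425052365) (nat_lit 168) (nat_lit 13066106314) (nat_lit 0) (nat_lit 1499816828) (nat_lit 5) (nat_lit 5) (nat_lit 7) (nat_lit 4) (nat_lit 5) (nat_lit 4) (nat_lit 404) (nat_lit 288) (nat_lit 169)) (XT.lf (nat_lit 0) (nat_lit 51918491478) (nat_lit 168) (nat_lit 7951697524) (nat_lit 0) (nat_lit 4954941328) (nat_lit 5) (nat_lit 5) (nat_lit 7) (nat_lit 4) (nat_lit 5) (nat_lit 4) (nat_lit 405) (nat_lit 288) (nat_lit 168)))) (XT.nd (nat_lit 94) (nat_lit 84) (nat_lit 0) (XT.lf (nat_lit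 0) (nat_lit 55515037919) (nat_lit 168) (nat_lit 2686957312) (nat_lit 0) (nat_lit 8514325196) (nat_lit 5) (nat_lit 5) (nat_lit 7) (nat_lit 4) (nat_lit 5) (nat_lit 4) (nat_lit 406) (nat_lit 288) (nat_lit 167)) (XT.nd (nat_lit 94) (nat_lit 0) (nat_lit 0) (XT.lf (nat_lit 0) (nat_lit 2789218140) (nat_lit 84) (nat_lit 56456495295) (nat_lit 84) (nat_lit 9419737400) (nat_lit 4) (nat_lit 4) (nat_lit 5) (nat_lit 5) (nat_lit 5) (nat_lit 4) (nat_lit 407) (nat_lit 288) (nat_lit 166)) (XT.lf (nat_lit 0) (nat_lit 8484229550) (nat_lit 84) (nat_lit 54630896506) (nat_lit 84) (nat_lit 7559177241) (nat_lit 4) (nat_lit 4) (nat_lit 5) (nat_lit 5) (nat_lit 5) (nat_lit 4) (nat_lit 408) (nat_lit 288) (nat_lit 165))))) (XT.nd (nat_lit 282) (nat_lit 84) (nat_lit 0) (XT.nd (nat_lit 94) (nat_lit 0) (nat_lit 0) (XT.lf (nat_lit 0) (nat_lit 14348135911) (nat_lit 84) (nat_lit 52751543538) (nat_lit 84) (nat_lit 5645914117)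 (nat_lit 4) (nat_lit 4) (nat_lit 5) (nat_lit 5) (nat_lit 5) (nat_lit 4) (nat_lit 409) (nat_lit 288) (nat_lit 164)) (XT.nd (nat_lit 94) (nat_lit 0) (nat_lit 0) (XT.lf (nat_lit 0) (nat_lit 20386403000) (nat_lit 84) (nat_lit 50816684637) (nat_lit 84) (nat_lit 3678164668) (nat_lit 4) (nat_lit 4) (nat_lit 5) (nat_lit 5) (nat_lit 5) (nat_lit 4) (nat_lit 410) (nat_lit 288) (nat_lit 163)) (XT.lf (nat_lit 0) (nat_lit 26604659112) (nat_lit 84) (nat_lit 48824516313) (nat_lit 84) (nat_lit 1654094745) (nat_lit 4) (nat_lit 4) (nat_lit 5) (nat_lit 5) (nat_lit 5) (nat_lit 4) (nat_lit 411) (nat_lit 288) (nat_lit 162)))) (XT.nd (nat_lit 42488) (nat_lit 0) (nat_lit 14280) (XT.lf (nat_lit 0) (nat_lit 419555378) (nat_lit 168) (nat_lit 46349246979) (nat_lit 84) (nat_lit 32584765639) (nat_lit 3) (nat_lit 5) (nat_lit 5) (nat_lit 5) (nat_lit 4) (nat_lit 4) (nat_lit 412) (nat_lit 288) (nat_lit 161)) (XT.nd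 (nat_lit 94) (nat_lit 0) (nat_lit 0) (XT.lf (nat_lit 0) (nat_lit 1444731142) (nat_lit 252) (nat_lit 893177222) (nat_lit 252) (nat_lit 893177222) (nat_lit 173) (nat_lit 3) (nat_lit 176) (nat_lit 3) (nat_lit 176) (nat_lit 5) (nat_lit 289) (nat_lit 289) (nat_lit 283)) (XT.lf (nat_lit 84) (nat_lit 665760560) (nat_lit 0) (nat_lit 4451101848) (nat_lit 252) (nat_lit 1357314639) (nat_lit 174) (nat_lit 5) (nat_lit 173) (nat_lit 3) (nat_lit 176) (nat_lit 5) (nat_lit 290) (nat_lit 289) (nat_lit 282))))))))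
noncomputable def xc89 : XT := (XT.nd (nat_lit 2256) (nat_lit 5208) (nat_lit 0) (XT.nd (nat_lit 1128) (nat_lit 4536) (nat_lit 0) (XT.nd (nat_lit 564) (nat_lit 840) (nat_lit 0) (XT.nd (nat_lit 282) (nat_lit 336) (nat_lit 0) (XT.nd (nat_lit 94) (nat_lit 0) (nat_lit 0) (XT.lf (nat_lit 0) (nat_lit 837065259) (nat_lit 252) (nat_lit 3312800839) (nat_lit 336) (nat_lit 2339406699) (nat_lit 170) (nat_lit 5) (nat_lit 173) (nat_lit 3) (nat_lit 174) (nat_lit 5) (nat_lit 291) (nat_lit 289) (nat_lit 281)) (XT.nd (nat_lit 94) (nat_lit 0) (nat_lit 0) (XT.lf (nat_lit 0) (nat_lit 2984122030) (nat_lit 252) (nat_lit 801424312) (nat_lit 336) (nat_lit 2722338619) (nat_lit 170) (nat_lit 5) (nat_lit 173) (nat_lit 3) (nat_lit 174) (nat_lit 5) (nat_lit 292) (nat_lit 289) (nat_lit 280)) (XT.lf (nat_lit 84) (nat_lit 1777327884) (nat_lit 0) (nat_lit 3353507247) (nat_lit 336) (nat_lit 1399066590) (nat_lit 171)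 (nat_lit 5) (nat_lit 170) (nat_lit 5) (nat_lit 174) (nat_lit 5) (nat_lit 293) (nat_lit 289) (nat_lit 279)))) (XT.nd (nat_lit 94) (nat_lit 0) (nat_lit 0) (XT.lf (nat_lit 0) (nat_lit 699993258) (nat_lit 336) (nat_lit 2155521724) (nat_lit 420) (nat_lit 3699893830) (nat_lit 166) (nat_lit 5) (nat_lit 170) (nat_lit 5) (nat_lit 171) (nat_lit 5) (nat_lit 294) (nat_lit 289) (nat_lit 278)) (XT.nd (nat_lit 94) (nat_lit 0) (nat_lit 0) (XT.lf (nat_lit 84) (nat_lit 470404406) (nat_lit 0) (nat_lit 2287844009) (nat_lit 420) (nat_lit 3826083535) (nat_lit 167) (nat_lit 5) (nat_lit 166) (nat_lit 5) (nat_lit 171) (nat_lit 5) (nat_lit 295) (nat_lit 289) (nat_lit 277)) (XT.lf (nat_lit 84) (nat_lit 3177100976) (nat_lit 0) (nat_lit 1646217964) (nat_lit 420) (nat_lit 1793266480) (nat_lit 167) (nat_lit 5) (nat_lit 166) (nat_lit 5) (nat_lit 171) (nat_lit 5) (nat_lit 296) (nat_lit 289) (nat_lit 276))))) (XT.nd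 (nat_lit 282) (nat_lit 420) (nat_lit 0) (XT.nd (nat_lit 94) (nat_lit 0) (nat_lit 0) (XT.lf (nat_lit 0) (nat_lit 217949689) (nat_lit 420) (nat_lit 732313373) (nat_lit 504) (nat_lit 5702544326) (nat_lit 161) (nat_lit 5) (nat_lit 166) (nat_lit 5) (nat_lit 167) (nat_lit 5) (nat_lit 297) (nat_lit 289) (nat_lit 275)) (XT.nd (nat_lit 94) (nat_lit 0) (nat_lit 84) (XT.lf (nat_lit 84) (nat_lit 2035694098) (nat_lit 0) (nat_lit 162602286) (nat_lit 504) (nat_lit 4493630889) (nat_lit 162) (nat_lit 5) (nat_lit 161) (nat_lit 5) (nat_lit 167) (nat_lit 5) (nat_lit 298) (nat_lit 289) (nat_lit 274)) (XT.lf (nat_lit 0) (nat_lit 4180166170) (nat_lit 420) (nat_lit 1881988136) (nat_lit 84) (nat_lit 672551800) (nat_lit 162) (nat_lit 5) (nat_lit 167) (nat_lit 5) (nat_lit 163) (nat_lit 5) (nat_lit 299) (nat_lit 289) (nat_lit 273)))) (XT.nd (nat_lit 94) (nat_lit 84) (nat_lit 0) (XT.lf (nat_lit 0) (nat_lit 948688451)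 (nat_lit 420) (nat_lit 5214053049) (nat_lit 504) (nat_lit 618524870) (nat_lit 157) (nat_lit 5) (nat_lit 162) (nat_lit 5) (nat_lit 163) (nat_lit 5) (nat_lit 300) (nat_lit 289) (nat_lit 272)) (XT.nd (nat_lit 94) (nat_lit 0) (nat_lit 0) (XT.lf (nat_lit 0) (nat_lit 1298227528) (nat_lit 504) (nat_lit 2984064927) (nat_lit 84) (nat_lit 2548689888) (nat_lit 156) (nat_lit 5) (nat_lit 162) (nat_lit 5) (nat_lit 157) (nat_lit 5) (nat_lit 301) (nat_lit 289) (nat_lit 271)) (XT.lf (nat_lit 0) (nat_lit 3192326542) (nat_lit 504) (nat_lit 100665370) (nat_lit 84) (nat_lit 3591719922) (nat_lit 156) (nat_lit 5) (nat_lit 162) (nat_lit 5) (nat_lit 157) (nat_lit 5) (nat_lit 302) (nat_lit 289) (nat_lit 270)))))) (XT.nd (nat_lit 564) (nat_lit 2604) (nat_lit 0) (XT.nd (nat_lit 282) (nat_lit 756) (nat_lit 0) (XT.nd (nat_lit 94) (nat_lit 672) (nat_lit 0) (XT.lf (nat_lit 0) (nat_lit 2884561714) (nat_lit 504) (nat_lit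 2222053061) (nat_lit 588) (nat_lit 1835193289) (nat_lit 150) (nat_lit 5) (nat_lit 156) (nat_lit 5) (nat_lit 157) (nat_lit 5) (nat_lit 303) (nat_lit 289) (nat_lit 269)) (XT.nd (nat_lit 94) (nat_lit 588) (nat_lit 0) (XT.lf (nat_lit 0) (nat_lit 12304958) (nat_lit 588) (nat_lit 1084038595) (nat_lit 84) (nat_lit 5906818569) (nat_lit 149) (nat_lit 5) (nat_lit 156) (nat_lit 5) (nat_lit 150) (nat_lit 5) (nat_lit 304) (nat_lit 289) (nat_lit 268)) (XT.lf (nat_lit 0) (nat_lit 1834859917) (nat_lit 672) (nat_lit 5112582403) (nat_lit 84) (nat_lit 120223312) (nat_lit 142) (nat_lit 5) (nat_lit 150) (nat_lit 5) (nat_lit 143) (nat_lit 5) (nat_lit 305) (nat_lit 289) (nat_lit 267)))) (XT.nd (nat_lit 94) (nat_lit 756) (nat_lit 0) (XT.lf (nat_lit 0) (nat_lit 3673515885) (nat_lit 672) (nat_lit 2081519625) (nat_lit 84) (nat_lit 1380834091) (nat_lit 142) (nat_lit 5) (nat_lit 150) (nat_lit 5) (nat_lit 143)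 (nat_lit 5) (nat_lit 306) (nat_lit 289) (nat_lit 266)) (XT.nd (nat_lit 94) (nat_lit 84) (nat_lit 0) (XT.lf (nat_lit 0) (nat_lit 1017674589) (nat_lit 672) (nat_lit 4500444522) (nat_lit 756) (nat_lit 1690086389) (nat_lit 134) (nat_lit 5) (nat_lit 142) (nat_lit 5) (nat_lit 143) (nat_lit 5) (nat_lit 307) (nat_lit 289) (nat_lit 265)) (XT.lf (nat_lit 0) (nat_lit 95519887) (nat_lit 756) (nat_lit 3074147259) (nat_lit 84) (nat_lit 4114687749) (nat_lit 133) (nat_lit 5) (nat_lit 142) (nat_lit 5) (nat_lit 134) (nat_lit 5) (nat_lit 308) (nat_lit 289) (nat_lit 264))))) (XT.nd (nat_lit 282) (nat_lit 1848) (nat_lit 0) (XT.nd (nat_lit 94) (nat_lit 0) (nat_lit 0) (XT.lf (nat_lit 0) (nat_lit 77013873) (nat_lit 756) (nat_lit 1766163097) (nat_lit 840) (nat_lit 5521353119) (nat_lit 124) (nat_lit 5) (nat_lit 133) (nat_lit 5) (nat_lit 134) (nat_lit 5) (nat_lit 309) (nat_lit 289) (nat_lit 263)) (XT.nd (nat_lit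 94) (nat_lit 0) (nat_lit 0) (XT.lf (nat_lit 0) (nat_lit 3345401532) (nat_lit 756) (nat_lit 274057928) (nat_lit 840) (nat_lit 3828908379) (nat_lit 124) (nat_lit 5) (nat_lit 133) (nat_lit 5) (nat_lit 134) (nat_lit 5) (nat_lit 310) (nat_lit 289) (nat_lit 262)) (XT.lf (nat_lit 0) (nat_lit 5407557651) (nat_lit 840) (nat_lit 878717275) (nat_lit 84) (nat_lit 1250243790) (nat_lit 124) (nat_lit 5) (nat_lit 134) (nat_lit 5) (nat_lit 125) (nat_lit 5) (nat_lit 311) (nat_lit 289) (nat_lit 261)))) (XT.nd (nat_lit 94) (nat_lit 1008) (nat_lit 0) (XT.lf (nat_lit 0) (nat_lit 2446897710) (nat_lit 840) (nat_lit 4777152099) (nat_lit 924) (nat_lit 404552818) (nat_lit 114) (nat_lit 5) (nat_lit 124) (nat_lit 5) (nat_lit 125) (nat_lit 5) (nat_lit 312) (nat_lit 289) (nat_lit 260)) (XT.nd (nat_lit 94) (nat_lit 924) (nat_lit 0) (XT.lf (nat_lit 0) (nat_lit 1301093954) (nat_lit 924) (nat_lit 1888812150) (nat_lit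 84) (nat_lit 4534934483) (nat_lit 113) (nat_lit 5) (nat_lit 124) (nat_lit 5) (nat_lit 114) (nat_lit 5) (nat_lit 313) (nat_lit 289) (nat_lit 259)) (XT.lf (nat_lit 0) (nat_lit 1487300574) (nat_lit 924) (nat_lit 1526469226) (nat_lit 1008) (nat_lit 4811655080) (nat_lit 102) (nat_lit 5) (nat_lit 113) (nat_lit 5) (nat_lit 114) (nat_lit 5) (nat_lit 314) (nat_lit 289) (nat_lit 258))))))) (XT.nd (nat_lit 1128) (nat_lit 2016) (nat_lit 0) (XT.nd (nat_lit 564) (nat_lit 1512) (nat_lit 0) (XT.nd (nat_lit 282) (nat_lit 588) (nat_lit 0) (XT.nd (nat_lit 94) (nat_lit 1092) (nat_lit 0) (XT.lf (nat_lit 0) (nat_lit 4750327562) (nat_lit 1008) (nat_lit 2968680259) (nat_lit 84) (nat_lit 211345579) (nat_lit 102) (nat_lit 5) (nat_lit 114) (nat_lit 5) (nat_lit 103) (nat_lit 5) (nat_lit 315) (nat_lit 289) (nat_lit 257)) (XT.nd (nat_lit 94) (nat_lit 84) (nat_lit 0) (XT.lf (nat_lit 0) (nat_lit 453932595) (nat_lit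 1008) (nat_lit 6057436400) (nat_lit 1092) (nat_lit 1528386479) (nat_lit 90) (nat_lit 5) (nat_lit 102) (nat_lit 5) (nat_lit 103) (nat_lit 5) (nat_lit 316) (nat_lit 289) (nat_lit 256)) (XT.lf (nat_lit 0) (nat_lit 153034334) (nat_lit 1092) (nat_lit 4153723134) (nat_lit 84) (nat_lit 3846585450) (nat_lit 89) (nat_lit 5) (nat_lit 102) (nat_lit 5) (nat_lit 90) (nat_lit 5) (nat_lit 317) (nat_lit 289) (nat_lit 255)))) (XT.nd (nat_lit 94) (nat_lit 588) (nat_lit 0) (XT.lf (nat_lit 0) (nat_lit 1807102234) (nat_lit 1092) (nat_lit 675155052) (nat_lit 84) (nat_lit 5789473012) (nat_lit 89) (nat_lit 5) (nat_lit 102) (nat_lit 5) (nat_lit 90) (nat_lit 5) (nat_lit 318) (nat_lit 289) (nat_lit 254)) (XT.nd (nat_lit 94) (nat_lit 0) (nat_lit 0) (XT.lf (nat_lit 0) (nat_lit 2927263371) (nat_lit 588) (nat_lit 567928009) (nat_lit 672) (nat_lit 4899406397) (nat_lit 82) (nat_lit 5) (nat_lit 89) (nat_lit 5) (nat_lit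 90) (nat_lit 5) (nat_lit 319) (nat_lit 289) (nat_lit 253)) (XT.lf (nat_lit 0) (nat_lit 5211379897) (nat_lit 672) (nat_lit 1923631047) (nat_lit 84) (nat_lit 1387281291) (nat_lit 82) (nat_lit 5) (nat_lit 90) (nat_lit 5) (nat_lit 83) (nat_lit 5) (nat_lit 320) (nat_lit 289) (nat_lit 252))))) (XT.nd (nat_lit 282) (nat_lit 420) (nat_lit 0) (XT.nd (nat_lit 94) (nat_lit 588) (nat_lit 0) (XT.lf (nat_lit 0) (nat_lit 1715789913) (nat_lit 504) (nat_lit 5243875839) (nat_lit 588) (nat_lit 1695192597) (nat_lit 76) (nat_lit 5) (nat_lit 82) (nat_lit 5) (nat_lit 83) (nat_lit 5) (nat_lit 321) (nat_lit 289) (nat_lit 251)) (XT.nd (nat_lit 94) (nat_lit 588) (nat_lit 0) (XT.lf (nat_lit 0) (nat_lit 5466349216) (nat_lit 504) (nat_lit 3272843849) (nat_lit 588) (nat_lit 53303670) (nat_lit 76) (nat_lit 5) (nat_lit 82) (nat_lit 5) (nat_lit 83) (nat_lit 5) (nat_lit 322) (nat_lit 289) (nat_lit 250)) (XT.lf (nat_lit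 0) (nat_lit 347210518) (nat_lit 504) (nat_lit 1220279951) (nat_lit 588) (nat_lit 7367851296) (nat_lit 69) (nat_lit 5) (nat_lit 75) (nat_lit 5) (nat_lit 76) (nat_lit 5) (nat_lit 323) (nat_lit 289) (nat_lit 249)))) (XT.nd (nat_lit 94) (nat_lit 420) (nat_lit 0) (XT.lf (nat_lit 0) (nat_lit 3239833576) (nat_lit 588) (nat_lit 4929752057) (nat_lit 84) (nat_lit 913166827) (nat_lit 69) (nat_lit 5) (nat_lit 76) (nat_lit 5) (nat_lit 70) (nat_lit 5) (nat_lit 324) (nat_lit 289) (nat_lit 248)) (XT.nd (nat_lit 94) (nat_lit 420) (nat_lit 0) (XT.lf (nat_lit 0) (nat_lit 4936199984) (nat_lit 588) (nat_lit 1212520073) (nat_lit 84) (nat_lit 3087097466) (nat_lit 69) (nat_lit 5) (nat_lit 76) (nat_lit 5) (nat_lit 70) (nat_lit 5) (nat_lit 325) (nat_lit 289) (nat_lit 247)) (XT.lf (nat_lit 0) (nat_lit 2632167183) (nat_lit 420) (nat_lit 4040009798) (nat_lit 504) (nat_lit 2722068459) (nat_lit 64) (nat_lit 5) (nat_lit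 69) (nat_lit 5) (nat_lit 70) (nat_lit 5) (nat_lit 326) (nat_lit 289) (nat_lit 246)))))) (XT.nd (nat_lit 564) (nat_lit 1176) (nat_lit 0) (XT.nd (nat_lit 282) (nat_lit 336) (nat_lit 0) (XT.nd (nat_lit 94) (nat_lit 504) (nat_lit 0) (XT.lf (nat_lit 0) (nat_lit 6581346490) (nat_lit 420) (nat_lit 1854965351) (nat_lit 504) (nat_lit 1122277237) (nat_lit 64) (nat_lit 5) (nat_lit 69) (nat_lit 5) (nat_lit 70) (nat_lit 5) (nat_lit 327) (nat_lit 289) (nat_lit 245)) (XT.nd (nat_lit 94) (nat_lit 0) (nat_lit 0) (XT.lf (nat_lit 0) (nat_lit 491718554) (nat_lit 504) (nat_lit 8835399796) (nat_lit 84) (nat_lit 401711449) (nat_lit 58) (nat_lit 5) (nat_lit 64) (nat_lit 5) (nat_lit 59) (nat_lit 5) (nat_lit 328) (nat_lit 289) (nat_lit 244)) (XT.lf (nat_lit 0) (nat_lit 2145774715) (nat_lit 504) (nat_lit 5028003244) (nat_lit 84) (nat_lit 2729991468) (nat_lit 58) (nat_lit 5) (nat_lit 64) (nat_lit 5) (nat_lit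 59) (nat_lit 5) (nat_lit 329) (nat_lit 289) (nat_lit 243)))) (XT.nd (nat_lit 94) (nat_lit 336) (nat_lit 0) (XT.lf (nat_lit 0) (nat_lit 3815192712) (nat_lit 504) (nat_lit 1142402838) (nat_lit 84) (nat_lit 5127835008) (nat_lit 58) (nat_lit 5) (nat_lit 64) (nat_lit 5) (nat_lit 59) (nat_lit 5) (nat_lit 330) (nat_lit 289) (nat_lit 242)) (XT.nd (nat_lit 94) (nat_lit 0) (nat_lit 0) (XT.lf (nat_lit 0) (nat_lit 2883111480) (nat_lit 336) (nat_lit 2647017959) (nat_lit 420) (nat_lit 4742966452) (nat_lit 54) (nat_lit 5) (nat_lit 58) (nat_lit 5) (nat_lit 59) (nat_lit 5) (nat_lit 331) (nat_lit 289) (nat_lit 241)) (XT.lf (nat_lit 0) (nat_lit 7019398184) (nat_lit 336) (nat_lit 256589384) (nat_lit 420) (nat_lit 3191454852) (nat_lit 54) (nat_lit 5) (nat_lit 58) (nat_lit 5) (nat_lit 59) (nat_lit 5) (nat_lit 332) (nat_lit 289) (nat_lit 240))))) (XT.nd (nat_lit 282) (nat_lit 672) (nat_lit 0) (XT.nd (nat_lit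 94) (nat_lit 84) (nat_lit 0) (XT.lf (nat_lit 0) (nat_lit 567380299) (nat_lit 420) (nat_lit 8502940696) (nat_lit 504) (nat_lit 1597836578) (nat_lit 49) (nat_lit 5) (nat_lit 54) (nat_lit 5) (nat_lit 55) (nat_lit 5) (nat_lit 333) (nat_lit 289) (nat_lit 239)) (XT.nd (nat_lit 94) (nat_lit 0) (nat_lit 0) (XT.lf (nat_lit 0) (nat_lit 50207175) (nat_lit 504) (nat_lit 6135735490) (nat_lit 84) (nat_lit 4689113237) (nat_lit 48) (nat_lit 5) (nat_lit 54) (nat_lit 5) (nat_lit 49) (nat_lit 5) (nat_lit 334) (nat_lit 289) (nat_lit 238)) (XT.lf (nat_lit 0) (nat_lit 1684093936) (nat_lit 504) (nat_lit 2101651420) (nat_lit 84) (nat_lit 7303263910) (nat_lit 48) (nat_lit 5) (nat_lit 54) (nat_lit 5) (nat_lit 49) (nat_lit 5) (nat_lit 335) (nat_lit 289) (nat_lit 237)))) (XT.nd (nat_lit 188) (nat_lit 336) (nat_lit 0) (XT.nd (nat_lit 94) (nat_lit 0) (nat_lit 0) (XT.lf (nat_lit 0) (nat_lit 2062643533) (nat_lit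 336) (nat_lit 1295357649) (nat_lit 420) (nat_lit 7952072968) (nat_lit 44) (nat_lit 5) (nat_lit 48) (nat_lit 5) (nat_lit 49) (nat_lit 5) (nat_lit 336) (nat_lit 289) (nat_lit 236)) (XT.lf (nat_lit 0) (nat_lit 5088012491) (nat_lit 420) (nat_lit 5186642492) (nat_lit 84) (nat_lit 1263351404) (nat_lit 44) (nat_lit 5) (nat_lit 49) (nat_lit 5) (nat_lit 45) (nat_lit 5) (nat_lit 337) (nat_lit 289) (nat_lit 235))) (XT.nd (nat_lit 94) (nat_lit 336) (nat_lit 0) (XT.lf (nat_lit 0) (nat_lit 6855252703) (nat_lit 420) (nat_lit 1049174715) (nat_lit 84) (nat_lit 3869226137) (nat_lit 44) (nat_lit 5) (nat_lit 49) (nat_lit 5) (nat_lit 45) (nat_lit 5) (nat_lit 338) (nat_lit 289) (nat_lit 234)) (XT.lf (nat_lit 0) (nat_lit 3247101227) (nat_lit 336) (nat_lit 5433629380) (nat_lit 420) (nat_lit 3335904484) (nat_lit 40) (nat_lit 5) (nat_lit 44) (nat_lit 5) (nat_lit 45) (nat_lit 5) (nat_lit 339) (nat_lit 289) (nat_lit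 233))))))))
noncomputable def xc90 : XT := (XT.nd (nat_lit 2256) (nat_lit 756) (nat_lit 0) (XT.nd (nat_lit 1128) (nat_lit 672) (nat_lit 0) (XT.nd (nat_lit 564) (nat_lit 588) (nat_lit 0) (XT.nd (nat_lit 282) (nat_lit 336) (nat_lit 0) (XT.nd (nat_lit 94) (nat_lit 336) (nat_lit 0) (XT.lf (nat_lit 0) (nat_lit 7664281571) (nat_lit 336) (nat_lit 2881231832) (nat_lit 420) (nat_lit 1722303744) (nat_lit 40) (nat_lit 5) (nat_lit 44) (nat_lit 5) (nat_lit 45) (nat_lit 5) (nat_lit 340) (nat_lit 289) (nat_lit 232)) (XT.nd (nat_lit 94) (nat_lit 336) (nat_lit 0) (XT.lf (nat_lit 0) (nat_lit 12184910404) (nat_lit 336) (nat_lit 255806904) (nat_lit 420) (nat_lit 87045821) (nat_lit 40) (nat_lit 5) (nat_lit 44) (nat_lit 5) (nat_lit 45) (nat_lit 5) (nat_lit 341) (nat_lit 289) (nat_lit 231)) (XT.lf (nat_lit 0) (nat_lit 1605068266) (nat_lit 336) (nat_lit 8736641420) (nat_lit 84) (nat_lit 2452497029) (nat_lit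 36) (nat_lit 5) (nat_lit 40) (nat_lit 5) (nat_lit 37) (nat_lit 5) (nat_lit 342) (nat_lit 289) (nat_lit 230)))) (XT.nd (nat_lit 94) (nat_lit 336) (nat_lit 0) (XT.lf (nat_lit 0) (nat_lit 3327526110) (nat_lit 336) (nat_lit 4504369123) (nat_lit 84) (nat_lit 5237733687) (nat_lit 36) (nat_lit 5) (nat_lit 40) (nat_lit 5) (nat_lit 37) (nat_lit 5) (nat_lit 343) (nat_lit 289) (nat_lit 229)) (XT.nd (nat_lit 94) (nat_lit 336) (nat_lit 0) (XT.lf (nat_lit 0) (nat_lit 5077642789) (nat_lit 336) (nat_lit 173574761) (nat_lit 84) (nat_lit 8103283056) (nat_lit 36) (nat_lit 5) (nat_lit 40) (nat_lit 5) (nat_lit 37) (nat_lit 5) (nat_lit 344) (nat_lit 289) (nat_lit 228)) (XT.lf (nat_lit 0) (nat_lit 4347368201) (nat_lit 336) (nat_lit 2552807825) (nat_lit 420) (nat_lit 6747574360) (nat_lit 32) (nat_lit 5) (nat_lit 36) (nat_lit 5) (nat_lit 37) (nat_lit 5) (nat_lit 345) (nat_lit 289) (nat_lit 227))))) (XT.nd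 (nat_lit 282) (nat_lit 336) (nat_lit 0) (XT.nd (nat_lit 94) (nat_lit 252) (nat_lit 0) (XT.lf (nat_lit 0) (nat_lit 8758720208) (nat_lit 420) (nat_lit 4972361410) (nat_lit 84) (nat_lit 219751215) (nat_lit 32) (nat_lit 5) (nat_lit 37) (nat_lit 5) (nat_lit 33) (nat_lit 5) (nat_lit 346) (nat_lit 289) (nat_lit 226)) (XT.nd (nat_lit 94) (nat_lit 252) (nat_lit 0) (XT.lf (nat_lit 0) (nat_lit 10677135817) (nat_lit 420) (nat_lit 567487816) (nat_lit 84) (nat_lit 3018720848) (nat_lit 32) (nat_lit 5) (nat_lit 37) (nat_lit 5) (nat_lit 33) (nat_lit 5) (nat_lit 347) (nat_lit 289) (nat_lit 225)) (XT.lf (nat_lit 0) (nat_lit 4024758483) (nat_lit 252) (nat_lit 8647054466) (nat_lit 336) (nat_lit 1913311014) (nat_lit 29) (nat_lit 5) (nat_lit 32) (nat_lit 5) (nat_lit 33) (nat_lit 5) (nat_lit 348) (nat_lit 289) (nat_lit 224)))) (XT.nd (nat_lit 94) (nat_lit 336) (nat_lit 0) (XT.lf (nat_lit 0) (nat_lit 8741433010)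 (nat_lit 252) (nat_lit 5970078418) (nat_lit 336) (nat_lit 205985866) (nat_lit 29) (nat_lit 5) (nat_lit 32) (nat_lit 5) (nat_lit 33) (nat_lit 5) (nat_lit 349) (nat_lit 289) (nat_lit 223)) (XT.nd (nat_lit 94) (nat_lit 252) (nat_lit 0) (XT.lf (nat_lit 0) (nat_lit 1500579778) (nat_lit 336) (nat_lit 1700880922) (nat_lit 84) (nat_lit 12059020734) (nat_lit 28) (nat_lit 5) (nat_lit 32) (nat_lit 5) (nat_lit 29) (nat_lit 5) (nat_lit 350) (nat_lit 289) (nat_lit 222)) (XT.lf (nat_lit 0) (nat_lit 2941468135) (nat_lit 252) (nat_lit 321782827) (nat_lit 336) (nat_lit 12350638837) (nat_lit 25) (nat_lit 5) (nat_lit 28) (nat_lit 5) (nat_lit 29) (nat_lit 5) (nat_lit 351) (nat_lit 289) (nat_lit 221)))))) (XT.nd (nat_lit 564) (nat_lit 504) (nat_lit 0) (XT.nd (nat_lit 282) (nat_lit 0) (nat_lit 0) (XT.nd (nat_lit 94) (nat_lit 168) (nat_lit 0) (XT.lf (nat_lit 0) (nat_lit 5103361468) (nat_lit 336) (nat_lit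 8269465905) (nat_lit 84) (nat_lit 2604806018) (nat_lit 25) (nat_lit 5) (nat_lit 29) (nat_lit 5) (nat_lit 26) (nat_lit 5) (nat_lit 352) (nat_lit 289) (nat_lit 220)) (XT.nd (nat_lit 94) (nat_lit 168) (nat_lit 0) (XT.lf (nat_lit 0) (nat_lit 6983050924) (nat_lit 336) (nat_lit 3761542827) (nat_lit 84) (nat_lit 5608684345) (nat_lit 25) (nat_lit 5) (nat_lit 29) (nat_lit 5) (nat_lit 26) (nat_lit 5) (nat_lit 353) (nat_lit 289) (nat_lit 219)) (XT.lf (nat_lit 0) (nat_lit 876399039) (nat_lit 168) (nat_lit 8033174221) (nat_lit 252) (nat_lit 7831430240) (nat_lit 23) (nat_lit 5) (nat_lit 25) (nat_lit 5) (nat_lit 26) (nat_lit 5) (nat_lit 354) (nat_lit 289) (nat_lit 218)))) (XT.nd (nat_lit 94) (nat_lit 0) (nat_lit 0) (XT.lf (nat_lit 0) (nat_lit 5710752762) (nat_lit 168) (nat_lit 5204532744) (nat_lit 252) (nat_lit 6224938093) (nat_lit 23) (nat_lit 5) (nat_lit 25) (nat_lit 5) (nat_lit 26) (nat_lit 5)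 (nat_lit 355) (nat_lit 289) (nat_lit 217)) (XT.nd (nat_lit 94) (nat_lit 0) (nat_lit 0) (XT.lf (nat_lit 0) (nat_lit 10668679431) (nat_lit 168) (nat_lit 2295295524) (nat_lit 252) (nat_lit 4588516107) (nat_lit 23) (nat_lit 5) (nat_lit 25) (nat_lit 5) (nat_lit 26) (nat_lit 5) (nat_lit 356) (nat_lit 289) (nat_lit 216)) (XT.lf (nat_lit 0) (nat_lit 15064467997) (nat_lit 252) (nat_lit 2230306610) (nat_lit 84) (nat_lit 683201136) (nat_lit 23) (nat_lit 5) (nat_lit 26) (nat_lit 5) (nat_lit 24) (nat_lit 5) (nat_lit 357) (nat_lit 289) (nat_lit 215))))) (XT.nd (nat_lit 282) (nat_lit 168) (nat_lit 0) (XT.nd (nat_lit 94) (nat_lit 84) (nat_lit 0) (XT.lf (nat_lit 0) (nat_lit 2570470573) (nat_lit 252) (nat_lit 14690451785) (nat_lit 336) (nat_lit 1154843683) (nat_lit 20) (nat_lit 5) (nat_lit 23) (nat_lit 5) (nat_lit 24) (nat_lit 5) (nat_lit 358) (nat_lit 289) (nat_lit 214)) (XT.nd (nat_lit 94) (nat_lit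 0) (nat_lit 0) (XT.lf (nat_lit 0) (nat_lit 650510018) (nat_lit 336) (nat_lit 11331305405) (nat_lit 84) (nat_lit 6885009038) (nat_lit 19) (nat_lit 5) (nat_lit 23) (nat_lit 5) (nat_lit 20) (nat_lit 5) (nat_lit 359) (nat_lit 289) (nat_lit 213)) (XT.lf (nat_lit 0) (nat_lit 2470301769) (nat_lit 336) (nat_lit 6713910266) (nat_lit 84) (nat_lit 10147896754) (nat_lit 19) (nat_lit 5) (nat_lit 23) (nat_lit 5) (nat_lit 20) (nat_lit 5) (nat_lit 360) (nat_lit 289) (nat_lit 212)))) (XT.nd (nat_lit 94) (nat_lit 168) (nat_lit 0) (XT.lf (nat_lit 0) (nat_lit 4329495332) (nat_lit 336) (nat_lit 1977349963) (nat_lit 84) (nat_lit 13505562565) (nat_lit 19) (nat_lit 5) (nat_lit 23) (nat_lit 5) (nat_lit 20) (nat_lit 5) (nat_lit 361) (nat_lit 289) (nat_lit 211)) (XT.nd (nat_lit 94) (nat_lit 0) (nat_lit 0) (XT.lf (nat_lit 0) (nat_lit 2942066560) (nat_lit 168) (nat_lit 3316942774) (nat_lit 252) (nat_lit 14048255271)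 (nat_lit 17) (nat_lit 5) (nat_lit 19) (nat_lit 5) (nat_lit 20) (nat_lit 5) (nat_lit 362) (nat_lit 289) (nat_lit 210)) (XT.lf (nat_lit 0) (nat_lit 8032885959) (nat_lit 168) (nat_lit 219859351) (nat_lit 252) (nat_lit 12564639781) (nat_lit 17) (nat_lit 5) (nat_lit 19) (nat_lit 5) (nat_lit 20) (nat_lit 5) (nat_lit 363) (nat_lit 289) (nat_lit 209))))))) (XT.nd (nat_lit 1128) (nat_lit 336) (nat_lit 0) (XT.nd (nat_lit 564) (nat_lit 252) (nat_lit 0) (XT.nd (nat_lit 282) (nat_lit 0) (nat_lit 0) (XT.nd (nat_lit 94) (nat_lit 168) (nat_lit 0) (XT.lf (nat_lit 0) (nat_lit 10321972297) (nat_lit 252) (nat_lit 8114099907) (nat_lit 84) (nat_lit 2906880868) (nat_lit 17) (nat_lit 5) (nat_lit 20) (nat_lit 5) (nat_lit 18) (nat_lit 5) (nat_lit 364) (nat_lit 289) (nat_lit 208)) (XT.nd (nat_lit 94) (nat_lit 168) (nat_lit 0) (XT.lf (nat_lit 0) (nat_lit 12442259677) (nat_lit 252) (nat_lit 3323287713) (nat_lit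 84) (nat_lit 6119728183) (nat_lit 17) (nat_lit 5) (nat_lit 20) (nat_lit 5) (nat_lit 18) (nat_lit 5) (nat_lit 365) (nat_lit 289) (nat_lit 207)) (XT.lf (nat_lit 0) (nat_lit 1627371936) (nat_lit 168) (nat_lit 13002174542) (nat_lit 252) (nat_lit 7814878773) (nat_lit 15) (nat_lit 5) (nat_lit 17) (nat_lit 5) (nat_lit 18) (nat_lit 5) (nat_lit 366) (nat_lit 289) (nat_lit 206)))) (XT.nd (nat_lit 94) (nat_lit 0) (nat_lit 0) (XT.lf (nat_lit 0) (nat_lit 6780715568) (nat_lit 168) (nat_lit 10123975211) (nat_lit 252) (nat_lit 6115649116) (nat_lit 15) (nat_lit 5) (nat_lit 17) (nat_lit 5) (nat_lit 18) (nat_lit 5) (nat_lit 367) (nat_lit 289) (nat_lit 205)) (XT.nd (nat_lit 94) (nat_lit 0) (nat_lit 0) (XT.lf (nat_lit 0) (nat_lit 12073213027) (nat_lit 168) (nat_lit 7162954921) (nat_lit 252) (nat_lit 4378431373) (nat_lit 15) (nat_lit 5) (nat_lit 17) (nat_lit 5) (nat_lit 18) (nat_lit 5) (nat_lit 368) (nat_lit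 289) (nat_lit 204)) (XT.lf (nat_lit 0) (nat_lit 17509797475) (nat_lit 168) (nat_lit 4116353693) (nat_lit 252) (nat_lit 2601606275) (nat_lit 15) (nat_lit 5) (nat_lit 17) (nat_lit 5) (nat_lit 18) (nat_lit 5) (nat_lit 369) (nat_lit 289) (nat_lit 203))))) (XT.nd (nat_lit 282) (nat_lit 0) (nat_lit 0) (XT.nd (nat_lit 94) (nat_lit 252) (nat_lit 0) (XT.lf (nat_lit 0) (nat_lit 23095536378) (nat_lit 168) (nat_lit 981331773) (nat_lit 252) (nat_lit 783517635) (nat_lit 15) (nat_lit 5) (nat_lit 17) (nat_lit 5) (nat_lit 18) (nat_lit 5) (nat_lit 370) (nat_lit 289) (nat_lit 202)) (XT.nd (nat_lit 94) (nat_lit 0) (nat_lit 0) (XT.lf (nat_lit 0) (nat_lit 1112072385) (nat_lit 252) (nat_lit 22154454622) (nat_lit 84) (nat_lit 2244471812) (nat_lit 12) (nat_lit 5) (nat_lit 15) (nat_lit 5) (nat_lit 13) (nat_lit 5) (nat_lit 371) (nat_lit 289) (nat_lit 201)) (XT.lf (nat_lit 0) (nat_lit 3065811930) (nat_lit 252)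 (nat_lit 17544637793) (nat_lit 84) (nat_lit 5570641265) (nat_lit 12) (nat_lit 5) (nat_lit 15) (nat_lit 5) (nat_lit 13) (nat_lit 5) (nat_lit 372) (nat_lit 289) (nat_lit 200)))) (XT.nd (nat_lit 94) (nat_lit 0) (nat_lit 0) (XT.lf (nat_lit 0) (nat_lit 5067523034) (nat_lit 252) (nat_lit 12810640425) (nat_lit 84) (nat_lit 8994225723) (nat_lit 12) (nat_lit 5) (nat_lit 15) (nat_lit 5) (nat_lit 13) (nat_lit 5) (nat_lit 373) (nat_lit 289) (nat_lit 199)) (XT.nd (nat_lit 94) (nat_lit 0) (nat_lit 0) (XT.lf (nat_lit 0) (nat_lit 7119071501) (nat_lit 252) (nat_lit 7948049937) (nat_lit 84) (nat_lit 12518416325) (nat_lit 12) (nat_lit 5) (nat_lit 15) (nat_lit 5) (nat_lit 13) (nat_lit 5) (nat_lit 374) (nat_lit 289) (nat_lit 198)) (XT.lf (nat_lit 0) (nat_lit 9222369588) (nat_lit 252) (nat_lit 2952333885) (nat_lit 84) (nat_lit 16146497985) (nat_lit 12) (nat_lit 5) (nat_lit 15) (nat_lit 5) (nat_lit 13) (nat_lit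 5) (nat_lit 375) (nat_lit 289) (nat_lit 197)))))) (XT.nd (nat_lit 564) (nat_lit 168) (nat_lit 0) (XT.nd (nat_lit 282) (nat_lit 0) (nat_lit 0) (XT.nd (nat_lit 94) (nat_lit 0) (nat_lit 0) (XT.lf (nat_lit 0) (nat_lit 2226013471) (nat_lit 168) (nat_lit 9175446649) (nat_lit 252) (nat_lit 17677921314) (nat_lit 10) (nat_lit 5) (nat_lit 12) (nat_lit 5) (nat_lit 13) (nat_lit 5) (nat_lit 376) (nat_lit 289) (nat_lit 196)) (XT.nd (nat_lit 94) (nat_lit 0) (nat_lit 0) (XT.lf (nat_lit 0) (nat_lit 7610565392) (nat_lit 168) (nat_lit 6057039025) (nat_lit 252) (nat_lit 16192893839) (nat_lit 10) (nat_lit 5) (nat_lit 12) (nat_lit 5) (nat_lit 13) (nat_lit 5) (nat_lit 377) (nat_lit 289) (nat_lit 195)) (XT.lf (nat_lit 0) (nat_lit 13145634802) (nat_lit 168) (nat_lit 2847390232) (nat_lit 252) (nat_lit 14673181556) (nat_lit 10) (nat_lit 5) (nat_lit 12) (nat_lit 5) (nat_lit 13) (nat_lit 5) (nat_lit 378) (nat_lit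 289) (nat_lit 194)))) (XT.nd (nat_lit 94) (nat_lit 0) (nat_lit 0) (XT.lf (nat_lit 0) (nat_lit 18384417959) (nat_lit 252) (nat_lit 12665404925) (nat_lit 84) (nat_lit 447294173) (nat_lit 10) (nat_lit 5) (nat_lit 13) (nat_lit 5) (nat_lit 11) (nat_lit 4) (nat_lit 379) (nat_lit 289) (nat_lit 193)) (XT.nd (nat_lit 94) (nat_lit 0) (nat_lit 0) (XT.lf (nat_lit 0) (nat_lit 20868691363) (nat_lit 252) (nat_lit 7704585893) (nat_lit 84) (nat_lit 3779961845) (nat_lit 10) (nat_lit 5) (nat_lit 13) (nat_lit 5) (nat_lit 11) (nat_lit 4) (nat_lit 380) (nat_lit 289) (nat_lit 192)) (XT.lf (nat_lit 0) (nat_lit 23419914384) (nat_lit 252) (nat_lit 2605244225) (nat_lit 84) (nat_lit 7211087746) (nat_lit 10) (nat_lit 5) (nat_lit 13) (nat_lit 5) (nat_lit 11) (nat_lit 4) (nat_lit 381) (nat_lit 289) (nat_lit 191))))) (XT.nd (nat_lit 282) (nat_lit 84) (nat_lit 0) (XT.nd (nat_lit 94) (nat_lit 0) (nat_lit 0) (XT.lf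 (nat_lit 0) (nat_lit 2691602999) (nat_lit 84) (nat_lit 23375563066) (nat_lit 168) (nat_lit 8078968081) (nat_lit 9) (nat_lit 5) (nat_lit 10) (nat_lit 5) (nat_lit 11) (nat_lit 4) (nat_lit 382) (nat_lit 289) (nat_lit 190)) (XT.nd (nat_lit 94) (nat_lit 0) (nat_lit 0) (XT.lf (nat_lit 0) (nat_lit 8193228336) (nat_lit 84) (nat_lit 20620835432) (nat_lit 168) (nat_lit 6269651167) (nat_lit 9) (nat_lit 5) (nat_lit 10) (nat_lit 5) (nat_lit 11) (nat_lit 4) (nat_lit 383) (nat_lit 289) (nat_lit 189)) (XT.lf (nat_lit 0) (nat_lit 13851190712) (nat_lit 84) (nat_lit 17785601420) (nat_lit 168) (nat_lit 4413888165) (nat_lit 9) (nat_lit 5) (nat_lit 10) (nat_lit 5) (nat_lit 11) (nat_lit 4) (nat_lit 384) (nat_lit 289) (nat_lit 188)))) (XT.nd (nat_lit 188) (nat_lit 84) (nat_lit 0) (XT.nd (nat_lit 94) (nat_lit 0) (nat_lit 0) (XT.lf (nat_lit 0) (nat_lit 19670763941) (nat_lit 84) (nat_lit 14867218295) (nat_lit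 168) (nat_lit 2509949310) (nat_lit 9) (nat_lit 5) (nat_lit 10) (nat_lit 5) (nat_lit 11) (nat_lit 4) (nat_lit 385) (nat_lit 289) (nat_lit 187)) (XT.lf (nat_lit 0) (nat_lit 25657372473) (nat_lit 84) (nat_lit 11862965818) (nat_lit 168) (nat_lit 556059930) (nat_lit 9) (nat_lit 5) (nat_lit 10) (nat_lit 5) (nat_lit 11) (nat_lit 4) (nat_lit 386) (nat_lit 289) (nat_lit 186))) (XT.nd (nat_lit 94) (nat_lit 0) (nat_lit 0) (XT.lf (nat_lit 0) (nat_lit 1420394970) (nat_lit 168) (nat_lit 7334822731) (nat_lit 84) (nat_lit 30381375476) (nat_lit 8) (nat_lit 5) (nat_lit 10) (nat_lit 5) (nat_lit 9) (nat_lit 5) (nat_lit 387) (nat_lit 289) (nat_lit 185)) (XT.lf (nat_lit 0) (nat_lit 3438206990) (nat_lit 168) (nat_lit 2111474227) (nat_lit 84) (nat_lit 34680082113) (nat_lit 8) (nat_lit 5) (nat_lit 10) (nat_lit 5) (nat_lit 9) (nat_lit 5) (nat_lit 388) (nat_lit 289) (nat_lit 184))))))))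
noncomputable def xc91 : XT := (XT.nd (nat_lit 2256) (nat_lit 84) (nat_lit 0) (XT.nd (nat_lit 1128) (nat_lit 84) (nat_lit 0) (XT.nd (nat_lit 564) (nat_lit 84) (nat_lit 0) (XT.nd (nat_lit 282) (nat_lit 0) (nat_lit 0) (XT.nd (nat_lit 94) (nat_lit 0) (nat_lit 0) (XT.lf (nat_lit 0) (nat_lit 3328465822) (nat_lit 168) (nat_lit 2215013282) (nat_lit 252) (nat_lit 35812595944) (nat_lit 6) (nat_lit 5) (nat_lit 8) (nat_lit 5) (nat_lit 9) (nat_lit 5) (nat_lit 389) (nat_lit 289) (nat_lit 183)) (XT.nd (nat_lit 94) (nat_lit 0) (nat_lit 0) (XT.lf (nat_lit 0) (nat_lit 7740380984) (nat_lit 252) (nat_lit 33559668888) (nat_lit 84) (nat_lit 1216459874) (nat_lit 6) (nat_lit 5) (nat_lit 9) (nat_lit 5) (nat_lit 7) (nat_lit 4) (nat_lit 390) (nat_lit 289) (nat_lit 182)) (XT.lf (nat_lit 0) (nat_lit 10020251531) (nat_lit 252) (nat_lit 28987998814) (nat_lit 84) (nat_lit 4704230696) (nat_lit 6) (nat_lit 5) (nat_lit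 9) (nat_lit 5) (nat_lit 7) (nat_lit 4) (nat_lit 391) (nat_lit 289) (nat_lit 181)))) (XT.nd (nat_lit 94) (nat_lit 0) (nat_lit 0) (XT.lf (nat_lit 0) (nat_lit 12363242619) (nat_lit 252) (nat_lit 24286364524) (nat_lit 84) (nat_lit 8296177734) (nat_lit 6) (nat_lit 5) (nat_lit 9) (nat_lit 5) (nat_lit 7) (nat_lit 4) (nat_lit 392) (nat_lit 289) (nat_lit 180)) (XT.nd (nat_lit 94) (nat_lit 0) (nat_lit 0) (XT.lf (nat_lit 0) (nat_lit 14771538160) (nat_lit 252) (nat_lit 19450383603) (nat_lit 84) (nat_lit 11995649057) (nat_lit 6) (nat_lit 5) (nat_lit 9) (nat_lit 5) (nat_lit 7) (nat_lit 4) (nat_lit 393) (nat_lit 289) (nat_lit 179)) (XT.lf (nat_lit 0) (nat_lit 17247382938) (nat_lit 252) (nat_lit 14475548409) (nat_lit 84) (nat_lit 15806092961) (nat_lit 6) (nat_lit 5) (nat_lit 9) (nat_lit 5) (nat_lit 7) (nat_lit 4) (nat_lit 394) (nat_lit 289) (nat_lit 178))))) (XT.nd (nat_lit 282) (nat_lit 0) (nat_lit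 0) (XT.nd (nat_lit 94) (nat_lit 84) (nat_lit 0) (XT.lf (nat_lit 0) (nat_lit 19793084700) (nat_lit 252) (nat_lit 9357221876) (nat_lit 84) (nat_lit 19731061179) (nat_lit 6) (nat_lit 5) (nat_lit 9) (nat_lit 5) (nat_lit 7) (nat_lit 4) (nat_lit 395) (nat_lit 289) (nat_lit 177)) (XT.nd (nat_lit 94) (nat_lit 84) (nat_lit 0) (XT.lf (nat_lit 0) (nat_lit 22411016306) (nat_lit 252) (nat_lit 4090633186) (nat_lit 84) (nat_lit 23774212192) (nat_lit 6) (nat_lit 5) (nat_lit 9) (nat_lit 5) (nat_lit 7) (nat_lit 4) (nat_lit 396) (nat_lit 289) (nat_lit 176)) (XT.lf (nat_lit 0) (nat_lit 1356456243) (nat_lit 84) (nat_lit 23760617914) (nat_lit 168) (nat_lit 26596314611) (nat_lit 5) (nat_lit 5) (nat_lit 6) (nat_lit 5) (nat_lit 7) (nat_lit 4) (nat_lit 397) (nat_lit 289) (nat_lit 175)))) (XT.nd (nat_lit 94) (nat_lit 0) (nat_lit 0) (XT.lf (nat_lit 0) (nat_lit 7049133821) (nat_lit 84) (nat_lit 20894193856) (nat_lit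 168) (nat_lit 25251045294) (nat_lit 5) (nat_lit 5) (nat_lit 6) (nat_lit 5) (nat_lit 7) (nat_lit 4) (nat_lit 398) (nat_lit 289) (nat_lit 174)) (XT.nd (nat_lit 94) (nat_lit 0) (nat_lit 0) (XT.lf (nat_lit 0) (nat_lit 12908593912) (nat_lit 84) (nat_lit 17942403333) (nat_lit 168) (nat_lit 23870481317) (nat_lit 5) (nat_lit 5) (nat_lit 6) (nat_lit 5) (nat_lit 7) (nat_lit 4) (nat_lit 399) (nat_lit 289) (nat_lit 173)) (XT.lf (nat_lit 0) (nat_lit 18940298147) (nat_lit 84) (nat_lit 14902494967) (nat_lit 168) (nat_lit 22453335849) (nat_lit 5) (nat_lit 5) (nat_lit 6) (nat_lit 5) (nat_lit 7) (nat_lit 4) (nat_lit 400) (nat_lit 289) (nat_lit 172)))))) (XT.nd (nat_lit 564) (nat_lit 84) (nat_lit 0) (XT.nd (nat_lit 282) (nat_lit 0) (nat_lit 0) (XT.nd (nat_lit 94) (nat_lit 0) (nat_lit 0) (XT.lf (nat_lit 0) (nat_lit 25149868706) (nat_lit 84) (nat_lit 11771635243) (nat_lit 168) (nat_lit 20998287962) (nat_lit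 5) (nat_lit 5) (nat_lit 6) (nat_lit 5) (nat_lit 7) (nat_lit 4) (nat_lit 401) (nat_lit 289) (nat_lit 171)) (XT.nd (nat_lit 94) (nat_lit 0) (nat_lit 0) (XT.lf (nat_lit 0) (nat_lit 31543093559) (nat_lit 84) (nat_lit 8546905874) (nat_lit 168) (nat_lit 19503981400) (nat_lit 5) (nat_lit 5) (nat_lit 6) (nat_lit 5) (nat_lit 7) (nat_lit 4) (nat_lit 402) (nat_lit 289) (nat_lit 170)) (XT.lf (nat_lit 0) (nat_lit 38125931860) (nat_lit 84) (nat_lit 5225301074) (nat_lit 168) (nat_lit 17969023311) (nat_lit 5) (nat_lit 5) (nat_lit 6) (nat_lit 5) (nat_lit 7) (nat_lit 4) (nat_lit 403) (nat_lit 289) (nat_lit 169)))) (XT.nd (nat_lit 94) (nat_lit 0) (nat_lit 0) (XT.lf (nat_lit 0) (nat_lit 44904519506) (nat_lit 84) (nat_lit 1803724758) (nat_lit 168) (nat_lit 16391982954) (nat_lit 5) (nat_lit 5) (nat_lit 6) (nat_lit 5) (nat_lit 7) (nat_lit 4) (nat_lit 404) (nat_lit 289) (nat_lit 168)) (XT.nd (nat_lit 94)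 (nat_lit 0) (nat_lit 0) (XT.lf (nat_lit 0) (nat_lit 50181235166) (nat_lit 168) (nat_lit 13067450678) (nat_lit 0) (nat_lit 1686337776) (nat_lit 5) (nat_lit 5) (nat_lit 7) (nat_lit 4) (nat_lit 5) (nat_lit 4) (nat_lit 405) (nat_lit 289) (nat_lit 167)) (XT.lf (nat_lit 0) (nat_lit 53775303392) (nat_lit 168) (nat_lit 7806633773) (nat_lit 0) (nat_lit 5244360830) (nat_lit 5) (nat_lit 5) (nat_lit 7) (nat_lit 4) (nat_lit 5) (nat_lit 4) (nat_lit 406) (nat_lit 289) (nat_lit 166))))) (XT.nd (nat_lit 282) (nat_lit 0) (nat_lit 0) (XT.nd (nat_lit 94) (nat_lit 84) (nat_lit 0) (XT.lf (nat_lit 0) (nat_lit 57475905820) (nat_lit 168) (nat_lit 2390460191) (nat_lit 0) (nat_lit 8910001887) (nat_lit 5) (nat_lit 5) (nat_lit 7) (nat_lit 4) (nat_lit 5) (nat_lit 4) (nat_lit 407) (nat_lit 289) (nat_lit 165)) (XT.nd (nat_lit 94) (nat_lit 0) (nat_lit 0) (XT.lf (nat_lit 0) (nat_lit 3251631638) (nat_lit 84) (nat_lit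 58067116747) (nat_lit 84) (nat_lit 9467302658) (nat_lit 4) (nat_lit 4) (nat_lit 5) (nat_lit 5) (nat_lit 5) (nat_lit 4) (nat_lit 408) (nat_lit 289) (nat_lit 164)) (XT.lf (nat_lit 0) (nat_lit 9111884445) (nat_lit 84) (nat_lit 56189119766) (nat_lit 84) (nat_lit 7556415129) (nat_lit 4) (nat_lit 4) (nat_lit 5) (nat_lit 5) (nat_lit 5) (nat_lit 4) (nat_lit 409) (nat_lit 289) (nat_lit 163)))) (XT.nd (nat_lit 94) (nat_lit 0) (nat_lit 0) (XT.lf (nat_lit 0) (nat_lit 15146607833) (nat_lit 84) (nat_lit 54255576080) (nat_lit 84) (nat_lit 5590969844) (nat_lit 4) (nat_lit 4) (nat_lit 5) (nat_lit 5) (nat_lit 5) (nat_lit 4) (nat_lit 410) (nat_lit 289) (nat_lit 162)) (XT.nd (nat_lit 94) (nat_lit 0) (nat_lit 0) (XT.lf (nat_lit 0) (nat_lit 21361426796) (nat_lit 84) (nat_lit 52264683425) (nat_lit 84) (nat_lit 3569134805) (nat_lit 4) (nat_lit 4) (nat_lit 5) (nat_lit 5) (nat_lit 5) (nat_lit 4) (nat_lit 411)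 (nat_lit 289) (nat_lit 161)) (XT.lf (nat_lit 0) (nat_lit 27762134198) (nat_lit 84) (nat_lit 50214586080) (nat_lit 84) (nat_lit 1489025447) (nat_lit 4) (nat_lit 4) (nat_lit 5) (nat_lit 5) (nat_lit 5) (nat_lit 4) (nat_lit 412) (nat_lit 289) (nat_lit 160))))))) (XT.nd (nat_lit 43522) (nat_lit 0) (nat_lit 9240) (XT.nd (nat_lit 42958) (nat_lit 0) (nat_lit 12768) (XT.nd (nat_lit 42676) (nat_lit 0) (nat_lit 13692) (XT.nd (nat_lit 42488) (nat_lit 0) (nat_lit 14028) (XT.lf (nat_lit 0) (nat_lit 638174922) (nat_lit 168) (nat_lit 47458536979) (nat_lit 84) (nat_lit 33709860008) (nat_lit 3) (nat_lit 5) (nat_lit 5) (nat_lit 5) (nat_lit 4) (nat_lit 4) (nat_lit 413) (nat_lit 289) (nat_lit 159)) (XT.nd (nat_lit 94) (nat_lit 0) (nat_lit 0) (XT.lf (nat_lit 0) (nat_lit 197862263) (nat_lit 0) (nat_lit 197862263) (nat_lit 252) (nat_lit 2848197012) (nat_lit 170) (nat_lit 5) (nat_lit 170) (nat_lit 3) (nat_lit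 173) (nat_lit 3) (nat_lit 290) (nat_lit 290) (nat_lit 281)) (XT.lf (nat_lit 0) (nat_lit 2874433228) (nat_lit 0) (nat_lit 37584053) (nat_lit 252) (nat_lit 3592327123) (nat_lit 170) (nat_lit 5) (nat_lit 170) (nat_lit 3) (nat_lit 173) (nat_lit 3) (nat_lit 291) (nat_lit 290) (nat_lit 280)))) (XT.nd (nat_lit 94) (nat_lit 336) (nat_lit 0) (XT.lf (nat_lit 0) (nat_lit 5017079480) (nat_lit 252) (nat_lit 1140951668) (nat_lit 336) (nat_lit 366598322) (nat_lit 170) (nat_lit 5) (nat_lit 173) (nat_lit 3) (nat_lit 174) (nat_lit 5) (nat_lit 292) (nat_lit 290) (nat_lit 279)) (XT.nd (nat_lit 94) (nat_lit 0) (nat_lit 0) (XT.lf (nat_lit 0) (nat_lit 559877772) (nat_lit 336) (nat_lit 5145779358) (nat_lit 420) (nat_lit 842538273) (nat_lit 166) (nat_lit 5) (nat_lit 170) (nat_lit 5) (nat_lit 171) (nat_lit 5) (nat_lit 293) (nat_lit 290) (nat_lit 278)) (XT.lf (nat_lit 0) (nat_lit 2590631323) (nat_lit 336) (nat_lit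 2585650490) (nat_lit 420) (nat_lit 1398572695) (nat_lit 166) (nat_lit 5) (nat_lit 170) (nat_lit 5) (nat_lit 171) (nat_lit 5) (nat_lit 294) (nat_lit 290) (nat_lit 277))))) (XT.nd (nat_lit 282) (nat_lit 504) (nat_lit 0) (XT.nd (nat_lit 94) (nat_lit 420) (nat_lit 0) (XT.lf (nat_lit 84) (nat_lit 8620282) (nat_lit 0) (nat_lit 4596773289) (nat_lit 420) (nat_lit 2000060768) (nat_lit 167) (nat_lit 5) (nat_lit 166) (nat_lit 5) (nat_lit 171) (nat_lit 5) (nat_lit 295) (nat_lit 290) (nat_lit 276)) (XT.nd (nat_lit 94) (nat_lit 420) (nat_lit 0) (XT.lf (nat_lit 84) (nat_lit 2693191703) (nat_lit 0) (nat_lit 3939310956) (nat_lit 420) (nat_lit 6700494) (nat_lit 167) (nat_lit 5) (nat_lit 166) (nat_lit 5) (nat_lit 171) (nat_lit 5) (nat_lit 296) (nat_lit 290) (nat_lit 275)) (XT.lf (nat_lit 0) (nat_lit 1931021017) (nat_lit 420) (nat_lit 1279093962) (nat_lit 504) (nat_lit 3466222881) (nat_lit 161) (nat_lit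 5) (nat_lit 166) (nat_lit 5) (nat_lit 167) (nat_lit 5) (nat_lit 297) (nat_lit 290) (nat_lit 274)))) (XT.nd (nat_lit 94) (nat_lit 504) (nat_lit 0) (XT.lf (nat_lit 84) (nat_lit 1455368053) (nat_lit 0) (nat_lit 2413870943) (nat_lit 504) (nat_lit 2847815401) (nat_lit 162) (nat_lit 5) (nat_lit 161) (nat_lit 5) (nat_lit 167) (nat_lit 5) (nat_lit 298) (nat_lit 290) (nat_lit 273)) (XT.nd (nat_lit 94) (nat_lit 504) (nat_lit 0) (XT.lf (nat_lit 84) (nat_lit 4257780053) (nat_lit 0) (nat_lit 1551026969) (nat_lit 504) (nat_lit 952619484) (nat_lit 162) (nat_lit 5) (nat_lit 161) (nat_lit 5) (nat_lit 167) (nat_lit 5) (nat_lit 299) (nat_lit 290) (nat_lit 272)) (XT.lf (nat_lit 84) (nat_lit 291210963) (nat_lit 0) (nat_lit 621653235) (nat_lit 588) (nat_lit 5896657640) (nat_lit 156) (nat_lit 5) (nat_lit 155) (nat_lit 5) (nat_lit 162) (nat_lit 5) (nat_lit 300) (nat_lit 290) (nat_lit 271)))))) (XT.nd (nat_lit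 564) (nat_lit 2436) (nat_lit 0) (XT.nd (nat_lit 282) (nat_lit 672) (nat_lit 0) (XT.nd (nat_lit 94) (nat_lit 504) (nat_lit 0) (XT.lf (nat_lit 0) (nat_lit 2776903878) (nat_lit 504) (nat_lit 3692953105) (nat_lit 84) (nat_lit 390695641) (nat_lit 156) (nat_lit 5) (nat_lit 162) (nat_lit 5) (nat_lit 157) (nat_lit 5) (nat_lit 301) (nat_lit 290) (nat_lit 270)) (XT.nd (nat_lit 94) (nat_lit 504) (nat_lit 0) (XT.lf (nat_lit 0) (nat_lit 4637943778) (nat_lit 504) (nat_lit 832042641) (nat_lit 84) (nat_lit 1445570041) (nat_lit 156) (nat_lit 5) (nat_lit 162) (nat_lit 5) (nat_lit 157) (nat_lit 5) (nat_lit 302) (nat_lit 290) (nat_lit 269)) (XT.lf (nat_lit 0) (nat_lit 2115884415) (nat_lit 504) (nat_lit 4396657127) (nat_lit 588) (nat_lit 461583564) (nat_lit 150) (nat_lit 5) (nat_lit 156) (nat_lit 5) (nat_lit 157) (nat_lit 5) (nat_lit 303) (nat_lit 290) (nat_lit 268)))) (XT.nd (nat_lit 94) (nat_lit 588)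 (nat_lit 0) (XT.lf (nat_lit 0) (nat_lit 1326374061) (nat_lit 588) (nat_lit 1921134268) (nat_lit 84) (nat_lit 3788763922) (nat_lit 149) (nat_lit 5) (nat_lit 156) (nat_lit 5) (nat_lit 150) (nat_lit 5) (nat_lit 304) (nat_lit 290) (nat_lit 267)) (XT.nd (nat_lit 94) (nat_lit 0) (nat_lit 0) (XT.lf (nat_lit 0) (nat_lit 1079782623) (nat_lit 588) (nat_lit 2028326385) (nat_lit 672) (nat_lit 3994153004) (nat_lit 142) (nat_lit 5) (nat_lit 149) (nat_lit 5) (nat_lit 150) (nat_lit 5) (nat_lit 305) (nat_lit 290) (nat_lit 266)) (XT.lf (nat_lit 0) (nat_lit 4170629081) (nat_lit 588) (nat_lit 733181281) (nat_lit 672) (nat_lit 2268201405) (nat_lit 142) (nat_lit 5) (nat_lit 149) (nat_lit 5) (nat_lit 150) (nat_lit 5) (nat_lit 306) (nat_lit 290) (nat_lit 265))))) (XT.nd (nat_lit 282) (nat_lit 1680) (nat_lit 0) (XT.nd (nat_lit 94) (nat_lit 84) (nat_lit 0) (XT.lf (nat_lit 0) (nat_lit 63736957) (nat_lit 672)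 (nat_lit 6638738829) (nat_lit 756) (nat_lit 543503700) (nat_lit 134) (nat_lit 5) (nat_lit 142) (nat_lit 5) (nat_lit 143) (nat_lit 5) (nat_lit 307) (nat_lit 290) (nat_lit 264)) (XT.nd (nat_lit 94) (nat_lit 0) (nat_lit 0) (XT.lf (nat_lit 0) (nat_lit 1189971502) (nat_lit 756) (nat_lit 4099929556) (nat_lit 84) (nat_lit 2032970596) (nat_lit 133) (nat_lit 5) (nat_lit 142) (nat_lit 5) (nat_lit 134) (nat_lit 5) (nat_lit 308) (nat_lit 290) (nat_lit 263)) (XT.lf (nat_lit 0) (nat_lit 2908707483) (nat_lit 756) (nat_lit 972334082) (nat_lit 84) (nat_lit 3523091406) (nat_lit 133) (nat_lit 5) (nat_lit 142) (nat_lit 5) (nat_lit 134) (nat_lit 5) (nat_lit 309) (nat_lit 290) (nat_lit 262)))) (XT.nd (nat_lit 188) (nat_lit 924) (nat_lit 0) (XT.nd (nat_lit 94) (nat_lit 0) (nat_lit 0) (XT.lf (nat_lit 0) (nat_lit 2254269262) (nat_lit 756) (nat_lit 2393350038) (nat_lit 840) (nat_lit 2841693780) (nat_lit 124)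 (nat_lit 5) (nat_lit 133) (nat_lit 5) (nat_lit 134) (nat_lit 5) (nat_lit 310) (nat_lit 290) (nat_lit 261)) (XT.lf (nat_lit 0) (nat_lit 5558583236) (nat_lit 756) (nat_lit 837777666) (nat_lit 840) (nat_lit 1182501449) (nat_lit 124) (nat_lit 5) (nat_lit 133) (nat_lit 5) (nat_lit 134) (nat_lit 5) (nat_lit 311) (nat_lit 290) (nat_lit 260))) (XT.nd (nat_lit 94) (nat_lit 0) (nat_lit 0) (XT.lf (nat_lit 0) (nat_lit 484505548) (nat_lit 924) (nat_lit 6409073233) (nat_lit 84) (nat_lit 778809585) (nat_lit 113) (nat_lit 5) (nat_lit 124) (nat_lit 5) (nat_lit 114) (nat_lit 5) (nat_lit 312) (nat_lit 290) (nat_lit 259)) (XT.lf (nat_lit 0) (nat_lit 2156301499) (nat_lit 924) (nat_lit 3142196577) (nat_lit 84) (nat_lit 2470963270) (nat_lit 113) (nat_lit 5) (nat_lit 124) (nat_lit 5) (nat_lit 114) (nat_lit 5) (nat_lit 313) (nat_lit 290) (nat_lit 258))))))))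
noncomputable def xc92 : XT := (XT.nd (nat_lit 2256) (nat_lit 2100) (nat_lit 0) (XT.nd (nat_lit 1128) (nat_lit 2100) (nat_lit 0) (XT.nd (nat_lit 564) (nat_lit 1092) (nat_lit 0) (XT.nd (nat_lit 282) (nat_lit 1680) (nat_lit 0) (XT.nd (nat_lit 94) (nat_lit 0) (nat_lit 0) (XT.lf (nat_lit 0) (nat_lit 186363853) (nat_lit 924) (nat_lit 3644780798) (nat_lit 1008) (nat_lit 4040231640) (nat_lit 102) (nat_lit 5) (nat_lit 113) (nat_lit 5) (nat_lit 114) (nat_lit 5) (nat_lit 314) (nat_lit 290) (nat_lit 257)) (XT.nd (nat_lit 94) (nat_lit 0) (nat_lit 0) (XT.lf (nat_lit 0) (nat_lit 3641817179) (nat_lit 924) (nat_lit 1899358254) (nat_lit 1008) (nat_lit 2436104808) (nat_lit 102) (nat_lit 5) (nat_lit 113) (nat_lit 5) (nat_lit 114) (nat_lit 5) (nat_lit 315) (nat_lit 290) (nat_lit 256)) (XT.lf (nat_lit 0) (nat_lit 7162774237) (nat_lit 924) (nat_lit 93401614) (nat_lit 1008) (nat_lit 832082225) (nat_lit 102)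 (nat_lit 5) (nat_lit 113) (nat_lit 5) (nat_lit 114) (nat_lit 5) (nat_lit 316) (nat_lit 290) (nat_lit 255)))) (XT.nd (nat_lit 94) (nat_lit 588) (nat_lit 0) (XT.lf (nat_lit 0) (nat_lit 801417395) (nat_lit 1092) (nat_lit 5628656948) (nat_lit 84) (nat_lit 1772747399) (nat_lit 89) (nat_lit 5) (nat_lit 102) (nat_lit 5) (nat_lit 90) (nat_lit 5) (nat_lit 317) (nat_lit 290) (nat_lit 254)) (XT.nd (nat_lit 94) (nat_lit 588) (nat_lit 0) (XT.lf (nat_lit 0) (nat_lit 2432691758) (nat_lit 1092) (nat_lit 2171242536) (nat_lit 84) (nat_lit 3718116923) (nat_lit 89) (nat_lit 5) (nat_lit 102) (nat_lit 5) (nat_lit 90) (nat_lit 5) (nat_lit 318) (nat_lit 290) (nat_lit 253)) (XT.lf (nat_lit 0) (nat_lit 1379473753) (nat_lit 588) (nat_lit 2703844703) (nat_lit 672) (nat_lit 4362892995) (nat_lit 82) (nat_lit 5) (nat_lit 89) (nat_lit 5) (nat_lit 90) (nat_lit 5) (nat_lit 319) (nat_lit 290) (nat_lit 252))))) (XT.nd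 (nat_lit 282) (nat_lit 504) (nat_lit 0) (XT.nd (nat_lit 94) (nat_lit 588) (nat_lit 0) (XT.lf (nat_lit 0) (nat_lit 5045042042) (nat_lit 588) (nat_lit 718775040) (nat_lit 672) (nat_lit 2811322682) (nat_lit 82) (nat_lit 5) (nat_lit 89) (nat_lit 5) (nat_lit 90) (nat_lit 5) (nat_lit 320) (nat_lit 290) (nat_lit 251)) (XT.nd (nat_lit 94) (nat_lit 84) (nat_lit 0) (XT.lf (nat_lit 0) (nat_lit 62660172) (nat_lit 504) (nat_lit 7404931925) (nat_lit 588) (nat_lit 1241617253) (nat_lit 76) (nat_lit 5) (nat_lit 82) (nat_lit 5) (nat_lit 83) (nat_lit 5) (nat_lit 321) (nat_lit 290) (nat_lit 250)) (XT.lf (nat_lit 0) (nat_lit 371327834) (nat_lit 588) (nat_lit 5058423754) (nat_lit 84) (nat_lit 3417736624) (nat_lit 75) (nat_lit 5) (nat_lit 82) (nat_lit 5) (nat_lit 76) (nat_lit 5) (nat_lit 322) (nat_lit 290) (nat_lit 249)))) (XT.nd (nat_lit 94) (nat_lit 504) (nat_lit 0) (XT.lf (nat_lit 0) (nat_lit 1967352192)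 (nat_lit 588) (nat_lit 1412788604) (nat_lit 84) (nat_lit 5611023441) (nat_lit 75) (nat_lit 5) (nat_lit 82) (nat_lit 5) (nat_lit 76) (nat_lit 5) (nat_lit 323) (nat_lit 290) (nat_lit 248)) (XT.nd (nat_lit 94) (nat_lit 0) (nat_lit 0) (XT.lf (nat_lit 0) (nat_lit 2353488939) (nat_lit 504) (nat_lit 1242817262) (nat_lit 588) (nat_lit 5543723215) (nat_lit 69) (nat_lit 5) (nat_lit 75) (nat_lit 5) (nat_lit 76) (nat_lit 5) (nat_lit 324) (nat_lit 290) (nat_lit 247)) (XT.lf (nat_lit 0) (nat_lit 5261097921) (nat_lit 588) (nat_lit 3077073744) (nat_lit 84) (nat_lit 956007763) (nat_lit 69) (nat_lit 5) (nat_lit 76) (nat_lit 5) (nat_lit 70) (nat_lit 5) (nat_lit 325) (nat_lit 290) (nat_lit 246)))))) (XT.nd (nat_lit 564) (nat_lit 840) (nat_lit 0) (XT.nd (nat_lit 282) (nat_lit 756) (nat_lit 0) (XT.nd (nat_lit 94) (nat_lit 84) (nat_lit 0) (XT.lf (nat_lit 0) (nat_lit 709383749) (nat_lit 420) (nat_lit 6249949813)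 (nat_lit 504) (nat_lit 2494546708) (nat_lit 64) (nat_lit 5) (nat_lit 69) (nat_lit 5) (nat_lit 70) (nat_lit 5) (nat_lit 326) (nat_lit 290) (nat_lit 245)) (XT.nd (nat_lit 94) (nat_lit 84) (nat_lit 0) (XT.lf (nat_lit 0) (nat_lit 4639270412) (nat_lit 420) (nat_lit 4065900798) (nat_lit 504) (nat_lit 913719758) (nat_lit 64) (nat_lit 5) (nat_lit 69) (nat_lit 5) (nat_lit 70) (nat_lit 5) (nat_lit 327) (nat_lit 290) (nat_lit 244)) (XT.lf (nat_lit 0) (nat_lit 665079108) (nat_lit 504) (nat_lit 1144086027) (nat_lit 84) (nat_lit 7980957193) (nat_lit 63) (nat_lit 5) (nat_lit 69) (nat_lit 5) (nat_lit 64) (nat_lit 5) (nat_lit 328) (nat_lit 290) (nat_lit 243)))) (XT.nd (nat_lit 94) (nat_lit 336) (nat_lit 0) (XT.lf (nat_lit 0) (nat_lit 2271803950) (nat_lit 504) (nat_lit 7152238804) (nat_lit 84) (nat_lit 542577582) (nat_lit 58) (nat_lit 5) (nat_lit 64) (nat_lit 5) (nat_lit 59) (nat_lit 5) (nat_lit 329)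 (nat_lit 290) (nat_lit 242)) (XT.nd (nat_lit 94) (nat_lit 336) (nat_lit 0) (XT.lf (nat_lit 0) (nat_lit 3924070765) (nat_lit 504) (nat_lit 3285657586) (nat_lit 84) (nat_lit 2939173171) (nat_lit 58) (nat_lit 5) (nat_lit 64) (nat_lit 5) (nat_lit 59) (nat_lit 5) (nat_lit 330) (nat_lit 290) (nat_lit 241)) (XT.lf (nat_lit 0) (nat_lit 676960382) (nat_lit 336) (nat_lit 4923526336) (nat_lit 420) (nat_lit 4737359994) (nat_lit 54) (nat_lit 5) (nat_lit 58) (nat_lit 5) (nat_lit 59) (nat_lit 5) (nat_lit 331) (nat_lit 290) (nat_lit 240))))) (XT.nd (nat_lit 282) (nat_lit 420) (nat_lit 0) (XT.nd (nat_lit 94) (nat_lit 420) (nat_lit 0) (XT.lf (nat_lit 0) (nat_lit 4794986528) (nat_lit 336) (nat_lit 2535041884) (nat_lit 420) (nat_lit 3202753773) (nat_lit 54) (nat_lit 5) (nat_lit 58) (nat_lit 5) (nat_lit 59) (nat_lit 5) (nat_lit 332) (nat_lit 290) (nat_lit 239)) (XT.nd (nat_lit 94) (nat_lit 420) (nat_lit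 0) (XT.lf (nat_lit 0) (nat_lit 9004699424) (nat_lit 336) (nat_lit 76344206) (nat_lit 420) (nat_lit 1653877208) (nat_lit 54) (nat_lit 5) (nat_lit 58) (nat_lit 5) (nat_lit 59) (nat_lit 5) (nat_lit 333) (nat_lit 290) (nat_lit 238)) (XT.lf (nat_lit 0) (nat_lit 2389359649) (nat_lit 420) (nat_lit 8513860094) (nat_lit 504) (nat_lit 39741628) (nat_lit 49) (nat_lit 5) (nat_lit 54) (nat_lit 5) (nat_lit 55) (nat_lit 5) (nat_lit 334) (nat_lit 290) (nat_lit 237)))) (XT.nd (nat_lit 94) (nat_lit 336) (nat_lit 0) (XT.lf (nat_lit 0) (nat_lit 1579637278) (nat_lit 504) (nat_lit 4537047287) (nat_lit 84) (nat_lit 5040790534) (nat_lit 48) (nat_lit 5) (nat_lit 54) (nat_lit 5) (nat_lit 49) (nat_lit 5) (nat_lit 335) (nat_lit 290) (nat_lit 236)) (XT.nd (nat_lit 94) (nat_lit 336) (nat_lit 0) (XT.lf (nat_lit 0) (nat_lit 3218234583) (nat_lit 504) (nat_lit 431694948) (nat_lit 84) (nat_lit 7729776426) (nat_lit 48)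 (nat_lit 5) (nat_lit 54) (nat_lit 5) (nat_lit 49) (nat_lit 5) (nat_lit 336) (nat_lit 290) (nat_lit 235)) (XT.lf (nat_lit 0) (nat_lit 3844126741) (nat_lit 336) (nat_lit 1072385806) (nat_lit 420) (nat_lit 6692178601) (nat_lit 44) (nat_lit 5) (nat_lit 48) (nat_lit 5) (nat_lit 49) (nat_lit 5) (nat_lit 337) (nat_lit 290) (nat_lit 234))))))) (XT.nd (nat_lit 1128) (nat_lit 840) (nat_lit 0) (XT.nd (nat_lit 564) (nat_lit 588) (nat_lit 0) (XT.nd (nat_lit 282) (nat_lit 336) (nat_lit 0) (XT.nd (nat_lit 94) (nat_lit 336) (nat_lit 0) (XT.lf (nat_lit 0) (nat_lit 6658954835) (nat_lit 420) (nat_lit 3633629866) (nat_lit 84) (nat_lit 1552589487) (nat_lit 44) (nat_lit 5) (nat_lit 49) (nat_lit 5) (nat_lit 45) (nat_lit 5) (nat_lit 338) (nat_lit 290) (nat_lit 233)) (XT.nd (nat_lit 94) (nat_lit 0) (nat_lit 0) (XT.lf (nat_lit 0) (nat_lit 592506787) (nat_lit 336) (nat_lit 7851858078) (nat_lit 420) (nat_lit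 3645098085) (nat_lit 40) (nat_lit 5) (nat_lit 44) (nat_lit 5) (nat_lit 45) (nat_lit 5) (nat_lit 339) (nat_lit 290) (nat_lit 232)) (XT.lf (nat_lit 0) (nat_lit 4993200621) (nat_lit 336) (nat_lit 5302462472) (nat_lit 420) (nat_lit 2045463096) (nat_lit 40) (nat_lit 5) (nat_lit 44) (nat_lit 5) (nat_lit 45) (nat_lit 5) (nat_lit 340) (nat_lit 290) (nat_lit 231)))) (XT.nd (nat_lit 94) (nat_lit 336) (nat_lit 0) (XT.lf (nat_lit 0) (nat_lit 9497838660) (nat_lit 336) (nat_lit 2679949224) (nat_lit 420) (nat_lit 423751002) (nat_lit 40) (nat_lit 5) (nat_lit 44) (nat_lit 5) (nat_lit 45) (nat_lit 5) (nat_lit 341) (nat_lit 290) (nat_lit 230)) (XT.nd (nat_lit 94) (nat_lit 0) (nat_lit 0) (XT.lf (nat_lit 0) (nat_lit 1209797076) (nat_lit 336) (nat_lit 11617814606) (nat_lit 84) (nat_lit 42557814) (nat_lit 36) (nat_lit 5) (nat_lit 40) (nat_lit 5) (nat_lit 37) (nat_lit 5) (nat_lit 342) (nat_lit 290) (nat_lit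 229)) (XT.lf (nat_lit 0) (nat_lit 2919582662) (nat_lit 336) (nat_lit 7401632105) (nat_lit 84) (nat_lit 2824825676) (nat_lit 36) (nat_lit 5) (nat_lit 40) (nat_lit 5) (nat_lit 37) (nat_lit 5) (nat_lit 343) (nat_lit 290) (nat_lit 228))))) (XT.nd (nat_lit 282) (nat_lit 252) (nat_lit 0) (XT.nd (nat_lit 94) (nat_lit 336) (nat_lit 0) (XT.lf (nat_lit 0) (nat_lit 4657408110) (nat_lit 336) (nat_lit 3086443752) (nat_lit 84) (nat_lit 5687495515) (nat_lit 36) (nat_lit 5) (nat_lit 40) (nat_lit 5) (nat_lit 37) (nat_lit 5) (nat_lit 344) (nat_lit 290) (nat_lit 227)) (XT.nd (nat_lit 94) (nat_lit 0) (nat_lit 0) (XT.lf (nat_lit 0) (nat_lit 1359156636) (nat_lit 336) (nat_lit 5079219622) (nat_lit 420) (nat_lit 7287562005) (nat_lit 32) (nat_lit 5) (nat_lit 36) (nat_lit 5) (nat_lit 37) (nat_lit 5) (nat_lit 345) (nat_lit 290) (nat_lit 226)) (XT.lf (nat_lit 0) (nat_lit 5977570087) (nat_lit 336) (nat_lit 2305413731)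 (nat_lit 420) (nat_lit 5746519937) (nat_lit 32) (nat_lit 5) (nat_lit 36) (nat_lit 5) (nat_lit 37) (nat_lit 5) (nat_lit 346) (nat_lit 290) (nat_lit 225)))) (XT.nd (nat_lit 94) (nat_lit 252) (nat_lit 0) (XT.lf (nat_lit 0) (nat_lit 10167138269) (nat_lit 420) (nat_lit 3639093231) (nat_lit 84) (nat_lit 536895473) (nat_lit 32) (nat_lit 5) (nat_lit 37) (nat_lit 5) (nat_lit 33) (nat_lit 5) (nat_lit 347) (nat_lit 290) (nat_lit 224)) (XT.nd (nat_lit 94) (nat_lit 0) (nat_lit 0) (XT.lf (nat_lit 0) (nat_lit 875242296) (nat_lit 252) (nat_lit 11244280855) (nat_lit 336) (nat_lit 2546742352) (nat_lit 29) (nat_lit 5) (nat_lit 32) (nat_lit 5) (nat_lit 33) (nat_lit 5) (nat_lit 348) (nat_lit 290) (nat_lit 223)) (XT.lf (nat_lit 0) (nat_lit 5577608128) (nat_lit 252) (nat_lit 8570755109) (nat_lit 336) (nat_lit 850658752) (nat_lit 29) (nat_lit 5) (nat_lit 32) (nat_lit 5) (nat_lit 33) (nat_lit 5) (nat_lit 349)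 (nat_lit 290) (nat_lit 222)))))) (XT.nd (nat_lit 564) (nat_lit 336) (nat_lit 0) (XT.nd (nat_lit 282) (nat_lit 168) (nat_lit 0) (XT.nd (nat_lit 94) (nat_lit 252) (nat_lit 0) (XT.lf (nat_lit 0) (nat_lit 858211758) (nat_lit 336) (nat_lit 4953977197) (nat_lit 84) (nat_lit 9530390413) (nat_lit 28) (nat_lit 5) (nat_lit 32) (nat_lit 5) (nat_lit 29) (nat_lit 5) (nat_lit 350) (nat_lit 290) (nat_lit 221)) (XT.nd (nat_lit 94) (nat_lit 252) (nat_lit 0) (XT.lf (nat_lit 0) (nat_lit 2581340598) (nat_lit 336) (nat_lit 384608881) (nat_lit 84) (nat_lit 12731306538) (nat_lit 28) (nat_lit 5) (nat_lit 32) (nat_lit 5) (nat_lit 29) (nat_lit 5) (nat_lit 351) (nat_lit 290) (nat_lit 220)) (XT.lf (nat_lit 0) (nat_lit 4381067621) (nat_lit 336) (nat_lit 11674569056) (nat_lit 84) (nat_lit 6656012) (nat_lit 25) (nat_lit 5) (nat_lit 29) (nat_lit 5) (nat_lit 26) (nat_lit 5) (nat_lit 352) (nat_lit 290) (nat_lit 219))))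 (XT.nd (nat_lit 94) (nat_lit 168) (nat_lit 0) (XT.lf (nat_lit 0) (nat_lit 6250844975) (nat_lit 336) (nat_lit 7180129146) (nat_lit 84) (nat_lit 3007310505) (nat_lit 25) (nat_lit 5) (nat_lit 29) (nat_lit 5) (nat_lit 26) (nat_lit 5) (nat_lit 353) (nat_lit 290) (nat_lit 218)) (XT.nd (nat_lit 94) (nat_lit 168) (nat_lit 0) (XT.lf (nat_lit 0) (nat_lit 8159059258) (nat_lit 336) (nat_lit 2572922524) (nat_lit 84) (nat_lit 6094634550) (nat_lit 25) (nat_lit 5) (nat_lit 29) (nat_lit 5) (nat_lit 26) (nat_lit 5) (nat_lit 354) (nat_lit 290) (nat_lit 217)) (XT.lf (nat_lit 0) (nat_lit 2195581277) (nat_lit 168) (nat_lit 7933688287) (nat_lit 252) (nat_lit 7097705018) (nat_lit 23) (nat_lit 5) (nat_lit 25) (nat_lit 5) (nat_lit 26) (nat_lit 5) (nat_lit 355) (nat_lit 290) (nat_lit 216))))) (XT.nd (nat_lit 282) (nat_lit 336) (nat_lit 0) (XT.nd (nat_lit 94) (nat_lit 0) (nat_lit 0) (XT.lf (nat_lit 0) (nat_lit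 7140951828) (nat_lit 168) (nat_lit 5027838017) (nat_lit 252) (nat_lit 5470772902) (nat_lit 23) (nat_lit 5) (nat_lit 25) (nat_lit 5) (nat_lit 26) (nat_lit 5) (nat_lit 356) (nat_lit 290) (nat_lit 215)) (XT.nd (nat_lit 94) (nat_lit 0) (nat_lit 0) (XT.lf (nat_lit 0) (nat_lit 12214894168) (nat_lit 168) (nat_lit 2038578451) (nat_lit 252) (nat_lit 3812100288) (nat_lit 23) (nat_lit 5) (nat_lit 25) (nat_lit 5) (nat_lit 26) (nat_lit 5) (nat_lit 357) (nat_lit 290) (nat_lit 214)) (XT.lf (nat_lit 0) (nat_lit 16395546974) (nat_lit 252) (nat_lit 1093550354) (nat_lit 84) (nat_lit 1015985957) (nat_lit 23) (nat_lit 5) (nat_lit 26) (nat_lit 5) (nat_lit 24) (nat_lit 5) (nat_lit 358) (nat_lit 290) (nat_lit 213)))) (XT.nd (nat_lit 188) (nat_lit 0) (nat_lit 0) (XT.nd (nat_lit 94) (nat_lit 84) (nat_lit 0) (XT.lf (nat_lit 0) (nat_lit 3843842310) (nat_lit 252) (nat_lit 14802109553) (nat_lit 336) (nat_lit 311034475)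 (nat_lit 20) (nat_lit 5) (nat_lit 23) (nat_lit 5) (nat_lit 24) (nat_lit 5) (nat_lit 359) (nat_lit 290) (nat_lit 212)) (XT.lf (nat_lit 0) (nat_lit 1506647889) (nat_lit 336) (nat_lit 10504467468) (nat_lit 84) (nat_lit 7411541913) (nat_lit 19) (nat_lit 5) (nat_lit 23) (nat_lit 5) (nat_lit 20) (nat_lit 5) (nat_lit 360) (nat_lit 290) (nat_lit 211))) (XT.nd (nat_lit 94) (nat_lit 0) (nat_lit 0) (XT.lf (nat_lit 0) (nat_lit 3357717264) (nat_lit 336) (nat_lit 5779356319) (nat_lit 84) (nat_lit 10766164963) (nat_lit 19) (nat_lit 5) (nat_lit 23) (nat_lit 5) (nat_lit 20) (nat_lit 5) (nat_lit 361) (nat_lit 290) (nat_lit 210)) (XT.lf (nat_lit 0) (nat_lit 5250165691) (nat_lit 336) (nat_lit 930320784) (nat_lit 84) (nat_lit 14218787292) (nat_lit 19) (nat_lit 5) (nat_lit 23) (nat_lit 5) (nat_lit 20) (nat_lit 5) (nat_lit 362) (nat_lit 290) (nat_lit 209))))))))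
noncomputable def xc93 : XT := (XT.nd (nat_lit 2256) (nat_lit 420) (nat_lit 0) (XT.nd (nat_lit 1128) (nat_lit 252) (nat_lit 0) (XT.nd (nat_lit 564) (nat_lit 252) (nat_lit 0) (XT.nd (nat_lit 282) (nat_lit 168) (nat_lit 0) (XT.nd (nat_lit 94) (nat_lit 0) (nat_lit 0) (XT.lf (nat_lit 0) (nat_lit 4130376834) (nat_lit 168) (nat_lit 3096354145) (nat_lit 252) (nat_lit 13683224123) (nat_lit 17) (nat_lit 5) (nat_lit 19) (nat_lit 5) (nat_lit 20) (nat_lit 5) (nat_lit 363) (nat_lit 290) (nat_lit 208)) (XT.nd (nat_lit 94) (nat_lit 0) (nat_lit 0) (XT.lf (nat_lit 0) (nat_lit 9259872665) (nat_lit 252) (nat_lit 12091535421) (nat_lit 84) (nat_lit 85261341) (nat_lit 17) (nat_lit 5) (nat_lit 20) (nat_lit 5) (nat_lit 18) (nat_lit 5) (nat_lit 364) (nat_lit 290) (nat_lit 207)) (XT.lf (nat_lit 0) (nat_lit 11372836944) (nat_lit 252) (nat_lit 7311287304) (nat_lit 84) (nat_lit 3295121563) (nat_lit 17) (nat_lit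 5) (nat_lit 20) (nat_lit 5) (nat_lit 18) (nat_lit 5) (nat_lit 365) (nat_lit 290) (nat_lit 206)))) (XT.nd (nat_lit 94) (nat_lit 168) (nat_lit 0) (XT.lf (nat_lit 0) (nat_lit 13536877104) (nat_lit 252) (nat_lit 2403662009) (nat_lit 84) (nat_lit 6598603082) (nat_lit 17) (nat_lit 5) (nat_lit 20) (nat_lit 5) (nat_lit 18) (nat_lit 5) (nat_lit 366) (nat_lit 290) (nat_lit 205)) (XT.nd (nat_lit 94) (nat_lit 0) (nat_lit 0) (XT.lf (nat_lit 0) (nat_lit 2690114700) (nat_lit 168) (nat_lit 13090581827) (nat_lit 252) (nat_lit 7335356658) (nat_lit 15) (nat_lit 5) (nat_lit 17) (nat_lit 5) (nat_lit 18) (nat_lit 5) (nat_lit 367) (nat_lit 290) (nat_lit 204)) (XT.lf (nat_lit 0) (nat_lit 7972774428) (nat_lit 168) (nat_lit 10132619484) (nat_lit 252) (nat_lit 5605153388) (nat_lit 15) (nat_lit 5) (nat_lit 17) (nat_lit 5) (nat_lit 18) (nat_lit 5) (nat_lit 368) (nat_lit 290) (nat_lit 203))))) (XT.nd (nat_lit 282)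 (nat_lit 252) (nat_lit 0) (XT.nd (nat_lit 94) (nat_lit 0) (nat_lit 0) (XT.lf (nat_lit 0) (nat_lit 13399816945) (nat_lit 168) (nat_lit 7088984256) (nat_lit 252) (nat_lit 3835131852) (nat_lit 15) (nat_lit 5) (nat_lit 17) (nat_lit 5) (nat_lit 18) (nat_lit 5) (nat_lit 369) (nat_lit 290) (nat_lit 202)) (XT.nd (nat_lit 94) (nat_lit 0) (nat_lit 0) (XT.lf (nat_lit 0) (nat_lit 18976300822) (nat_lit 168) (nat_lit 3956839156) (nat_lit 252) (nat_lit 2023642206) (nat_lit 15) (nat_lit 5) (nat_lit 17) (nat_lit 5) (nat_lit 18) (nat_lit 5) (nat_lit 370) (nat_lit 290) (nat_lit 201)) (XT.lf (nat_lit 0) (nat_lit 24707423928) (nat_lit 168) (nat_lit 733264696) (nat_lit 252) (nat_lit 168995950) (nat_lit 15) (nat_lit 5) (nat_lit 17) (nat_lit 5) (nat_lit 18) (nat_lit 5) (nat_lit 371) (nat_lit 290) (nat_lit 200)))) (XT.nd (nat_lit 94) (nat_lit 0) (nat_lit 0) (XT.lf (nat_lit 0) (nat_lit 1765445338) (nat_lit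 252) (nat_lit 21921138928) (nat_lit 84) (nat_lit 2593969289) (nat_lit 12) (nat_lit 5) (nat_lit 15) (nat_lit 5) (nat_lit 13) (nat_lit 5) (nat_lit 372) (nat_lit 290) (nat_lit 199)) (XT.nd (nat_lit 94) (nat_lit 0) (nat_lit 0) (XT.lf (nat_lit 0) (nat_lit 3761141828) (nat_lit 252) (nat_lit 17196083362) (nat_lit 84) (nat_lit 6014833425) (nat_lit 12) (nat_lit 5) (nat_lit 15) (nat_lit 5) (nat_lit 13) (nat_lit 5) (nat_lit 373) (nat_lit 290) (nat_lit 198)) (XT.lf (nat_lit 0) (nat_lit 5806856527) (nat_lit 252) (nat_lit 12342165814) (nat_lit 84) (nat_lit 9536385499) (nat_lit 12) (nat_lit 5) (nat_lit 15) (nat_lit 5) (nat_lit 13) (nat_lit 5) (nat_lit 374) (nat_lit 290) (nat_lit 197)))))) (XT.nd (nat_lit 564) (nat_lit 84) (nat_lit 0) (XT.nd (nat_lit 282) (nat_lit 0) (nat_lit 0) (XT.nd (nat_lit 94) (nat_lit 168) (nat_lit 0) (XT.lf (nat_lit 0) (nat_lit 7904496257) (nat_lit 252) (nat_lit 7354861925)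 (nat_lit 84) (nat_lit 13161907967) (nat_lit 12) (nat_lit 5) (nat_lit 15) (nat_lit 5) (nat_lit 13) (nat_lit 5) (nat_lit 375) (nat_lit 290) (nat_lit 196)) (XT.nd (nat_lit 94) (nat_lit 168) (nat_lit 0) (XT.lf (nat_lit 0) (nat_lit 10056016236) (nat_lit 252) (nat_lit 2229523005) (nat_lit 84) (nat_lit 16894780195) (nat_lit 12) (nat_lit 5) (nat_lit 15) (nat_lit 5) (nat_lit 13) (nat_lit 5) (nat_lit 376) (nat_lit 290) (nat_lit 195)) (XT.lf (nat_lit 0) (nat_lit 3101108726) (nat_lit 168) (nat_lit 9193076563) (nat_lit 252) (nat_lit 17668136267) (nat_lit 10) (nat_lit 5) (nat_lit 12) (nat_lit 5) (nat_lit 13) (nat_lit 5) (nat_lit 377) (nat_lit 290) (nat_lit 194)))) (XT.nd (nat_lit 94) (nat_lit 0) (nat_lit 0) (XT.lf (nat_lit 0) (nat_lit 8628344362) (nat_lit 168) (nat_lit 5986020687) (nat_lit 252) (nat_lit 16153844831) (nat_lit 10) (nat_lit 5) (nat_lit 12) (nat_lit 5) (nat_lit 13) (nat_lit 5) (nat_lit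 378) (nat_lit 290) (nat_lit 193)) (XT.nd (nat_lit 94) (nat_lit 0) (nat_lit 0) (XT.lf (nat_lit 0) (nat_lit 14311492296) (nat_lit 168) (nat_lit 2684653948) (nat_lit 252) (nat_lit 14603289061) (nat_lit 10) (nat_lit 5) (nat_lit 12) (nat_lit 5) (nat_lit 13) (nat_lit 5) (nat_lit 379) (nat_lit 290) (nat_lit 192)) (XT.lf (nat_lit 0) (nat_lit 19448832917) (nat_lit 252) (nat_lit 12308006774) (nat_lit 84) (nat_lit 699713331) (nat_lit 10) (nat_lit 5) (nat_lit 13) (nat_lit 5) (nat_lit 11) (nat_lit 4) (nat_lit 380) (nat_lit 290) (nat_lit 191))))) (XT.nd (nat_lit 282) (nat_lit 0) (nat_lit 0) (XT.nd (nat_lit 94) (nat_lit 84) (nat_lit 0) (XT.lf (nat_lit 0) (nat_lit 21995250281) (nat_lit 252) (nat_lit 7215954046) (nat_lit 84) (nat_lit 4128520913) (nat_lit 10) (nat_lit 5) (nat_lit 13) (nat_lit 5) (nat_lit 11) (nat_lit 4) (nat_lit 381) (nat_lit 290) (nat_lit 190)) (XT.nd (nat_lit 94) (nat_lit 84) (nat_lit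 0) (XT.lf (nat_lit 0) (nat_lit 24611139767) (nat_lit 252) (nat_lit 1980406400) (nat_lit 84) (nat_lit 7659054600) (nat_lit 10) (nat_lit 5) (nat_lit 13) (nat_lit 5) (nat_lit 11) (nat_lit 4) (nat_lit 382) (nat_lit 290) (nat_lit 189)) (XT.lf (nat_lit 0) (nat_lit 3473499518) (nat_lit 84) (nat_lit 23859897683) (nat_lit 168) (nat_lit 7855563245) (nat_lit 9) (nat_lit 5) (nat_lit 10) (nat_lit 5) (nat_lit 11) (nat_lit 4) (nat_lit 383) (nat_lit 290) (nat_lit 188)))) (XT.nd (nat_lit 94) (nat_lit 0) (nat_lit 0) (XT.lf (nat_lit 0) (nat_lit 9124674114) (nat_lit 84) (nat_lit 21026999044) (nat_lit 168) (nat_lit 6004405265) (nat_lit 9) (nat_lit 5) (nat_lit 10) (nat_lit 5) (nat_lit 11) (nat_lit 4) (nat_lit 384) (nat_lit 290) (nat_lit 187)) (XT.nd (nat_lit 94) (nat_lit 0) (nat_lit 0) (XT.lf (nat_lit 0) (nat_lit 14937663657) (nat_lit 84) (nat_lit 18110881071) (nat_lit 168) (nat_lit 4104932968) (nat_lit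 9) (nat_lit 5) (nat_lit 10) (nat_lit 5) (nat_lit 11) (nat_lit 4) (nat_lit 385) (nat_lit 290) (nat_lit 186)) (XT.lf (nat_lit 0) (nat_lit 20917886461) (nat_lit 84) (nat_lit 15108825639) (nat_lit 168) (nat_lit 2155375846) (nat_lit 9) (nat_lit 5) (nat_lit 10) (nat_lit 5) (nat_lit 11) (nat_lit 4) (nat_lit 386) (nat_lit 290) (nat_lit 185))))))) (XT.nd (nat_lit 1128) (nat_lit 84) (nat_lit 0) (XT.nd (nat_lit 564) (nat_lit 84) (nat_lit 0) (XT.nd (nat_lit 282) (nat_lit 168) (nat_lit 0) (XT.nd (nat_lit 94) (nat_lit 84) (nat_lit 0) (XT.lf (nat_lit 0) (nat_lit 27070916722) (nat_lit 84) (nat_lit 12018034516) (nat_lit 168) (nat_lit 153916709) (nat_lit 9) (nat_lit 5) (nat_lit 10) (nat_lit 5) (nat_lit 11) (nat_lit 4) (nat_lit 387) (nat_lit 290) (nat_lit 184)) (XT.nd (nat_lit 94) (nat_lit 0) (nat_lit 0) (XT.lf (nat_lit 0) (nat_lit 1863002853) (nat_lit 168) (nat_lit 6953177978) (nat_lit 84) (nat_lit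 31520040925) (nat_lit 8) (nat_lit 5) (nat_lit 10) (nat_lit 5) (nat_lit 9) (nat_lit 5) (nat_lit 388) (nat_lit 290) (nat_lit 183)) (XT.lf (nat_lit 0) (nat_lit 3931382716) (nat_lit 168) (nat_lit 1586217748) (nat_lit 84) (nat_lit 35946088818) (nat_lit 8) (nat_lit 5) (nat_lit 10) (nat_lit 5) (nat_lit 9) (nat_lit 5) (nat_lit 389) (nat_lit 290) (nat_lit 182)))) (XT.nd (nat_lit 94) (nat_lit 0) (nat_lit 0) (XT.lf (nat_lit 0) (nat_lit 4016380012) (nat_lit 168) (nat_lit 2079714877) (nat_lit 252) (nat_lit 36529038752) (nat_lit 6) (nat_lit 5) (nat_lit 8) (nat_lit 5) (nat_lit 9) (nat_lit 5) (nat_lit 390) (nat_lit 290) (nat_lit 181)) (XT.nd (nat_lit 94) (nat_lit 0) (nat_lit 0) (XT.lf (nat_lit 0) (nat_lit 8351614346) (nat_lit 252) (nat_lit 34022241575) (nat_lit 84) (nat_lit 1448015328) (nat_lit 6) (nat_lit 5) (nat_lit 9) (nat_lit 5) (nat_lit 7) (nat_lit 4) (nat_lit 391) (nat_lit 290) (nat_lit 180))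 (XT.lf (nat_lit 0) (nat_lit 10690997226) (nat_lit 252) (nat_lit 29326222269) (nat_lit 84) (nat_lit 5038078529) (nat_lit 6) (nat_lit 5) (nat_lit 9) (nat_lit 5) (nat_lit 7) (nat_lit 4) (nat_lit 392) (nat_lit 290) (nat_lit 179))))) (XT.nd (nat_lit 282) (nat_lit 84) (nat_lit 0) (XT.nd (nat_lit 94) (nat_lit 0) (nat_lit 0) (XT.lf (nat_lit 0) (nat_lit 13095793050) (nat_lit 252) (nat_lit 24495687501) (nat_lit 84) (nat_lit 8735722659) (nat_lit 6) (nat_lit 5) (nat_lit 9) (nat_lit 5) (nat_lit 7) (nat_lit 4) (nat_lit 393) (nat_lit 290) (nat_lit 178)) (XT.nd (nat_lit 94) (nat_lit 0) (nat_lit 0) (XT.lf (nat_lit 0) (nat_lit 15568243340) (nat_lit 252) (nat_lit 19526134705) (nat_lit 84) (nat_lit 12544394309) (nat_lit 6) (nat_lit 5) (nat_lit 9) (nat_lit 5) (nat_lit 7) (nat_lit 4) (nat_lit 394) (nat_lit 290) (nat_lit 177)) (XT.lf (nat_lit 0) (nat_lit 18110652680) (nat_lit 252) (nat_lit 14412931739) (nat_lit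 84) (nat_lit 16467643561) (nat_lit 6) (nat_lit 5) (nat_lit 9) (nat_lit 5) (nat_lit 7) (nat_lit 4) (nat_lit 395) (nat_lit 290) (nat_lit 176)))) (XT.nd (nat_lit 94) (nat_lit 84) (nat_lit 0) (XT.lf (nat_lit 0) (nat_lit 20725390859) (nat_lit 252) (nat_lit 9151312562) (nat_lit 84) (nat_lit 20509127294) (nat_lit 6) (nat_lit 5) (nat_lit 9) (nat_lit 5) (nat_lit 7) (nat_lit 4) (nat_lit 396) (nat_lit 290) (nat_lit 175)) (XT.nd (nat_lit 94) (nat_lit 84) (nat_lit 0) (XT.lf (nat_lit 0) (nat_lit 23414895090) (nat_lit 252) (nat_lit 3736372793) (nat_lit 84) (nat_lit 24672612594) (nat_lit 6) (nat_lit 5) (nat_lit 9) (nat_lit 5) (nat_lit 7) (nat_lit 4) (nat_lit 397) (nat_lit 290) (nat_lit 174)) (XT.lf (nat_lit 0) (nat_lit 1874706005) (nat_lit 84) (nat_lit 24325563580) (nat_lit 168) (nat_lit 27105871575) (nat_lit 5) (nat_lit 5) (nat_lit 6) (nat_lit 5) (nat_lit 7) (nat_lit 4) (nat_lit 398) (nat_lit 290)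 (nat_lit 173)))))) (XT.nd (nat_lit 564) (nat_lit 84) (nat_lit 0) (XT.nd (nat_lit 282) (nat_lit 0) (nat_lit 0) (XT.nd (nat_lit 94) (nat_lit 0) (nat_lit 0) (XT.lf (nat_lit 0) (nat_lit 7729538269) (nat_lit 84) (nat_lit 21375441034) (nat_lit 168) (nat_lit 25728368155) (nat_lit 5) (nat_lit 5) (nat_lit 6) (nat_lit 5) (nat_lit 7) (nat_lit 4) (nat_lit 399) (nat_lit 290) (nat_lit 172)) (XT.nd (nat_lit 94) (nat_lit 0) (nat_lit 0) (XT.lf (nat_lit 0) (nat_lit 13756753824) (nat_lit 84) (nat_lit 18337150493) (nat_lit 168) (nat_lit 24314191220) (nat_lit 5) (nat_lit 5) (nat_lit 6) (nat_lit 5) (nat_lit 7) (nat_lit 4) (nat_lit 400) (nat_lit 290) (nat_lit 171)) (XT.lf (nat_lit 0) (nat_lit 19961970669) (nat_lit 84) (nat_lit 15207859950) (nat_lit 168) (nat_lit 22862022609) (nat_lit 5) (nat_lit 5) (nat_lit 6) (nat_lit 5) (nat_lit 7) (nat_lit 4) (nat_lit 401) (nat_lit 290) (nat_lit 170)))) (XT.nd (nat_lit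 94) (nat_lit 0) (nat_lit 0) (XT.lf (nat_lit 0) (nat_lit 26350972714) (nat_lit 84) (nat_lit 11984652579) (nat_lit 168) (nat_lit 21370508748) (nat_lit 5) (nat_lit 5) (nat_lit 6) (nat_lit 5) (nat_lit 7) (nat_lit 4) (nat_lit 402) (nat_lit 290) (nat_lit 169)) (XT.nd (nat_lit 94) (nat_lit 0) (nat_lit 0) (XT.lf (nat_lit 0) (nat_lit 32929715180) (nat_lit 84) (nat_lit 8664524014) (nat_lit 168) (nat_lit 19838259390) (nat_lit 5) (nat_lit 5) (nat_lit 6) (nat_lit 5) (nat_lit 7) (nat_lit 4) (nat_lit 403) (nat_lit 290) (nat_lit 168)) (XT.lf (nat_lit 0) (nat_lit 39704330143) (nat_lit 84) (nat_lit 5244379546) (nat_lit 168) (nat_lit 18263846319) (nat_lit 5) (nat_lit 5) (nat_lit 6) (nat_lit 5) (nat_lit 7) (nat_lit 4) (nat_lit 404) (nat_lit 290) (nat_lit 167))))) (XT.nd (nat_lit 282) (nat_lit 84) (nat_lit 0) (XT.nd (nat_lit 94) (nat_lit 0) (nat_lit 0) (XT.lf (nat_lit 0) (nat_lit 46681132254) (nat_lit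 84) (nat_lit 1721031243) (nat_lit 168) (nat_lit 16645802016) (nat_lit 5) (nat_lit 5) (nat_lit 6) (nat_lit 5) (nat_lit 7) (nat_lit 4) (nat_lit 405) (nat_lit 290) (nat_lit 166)) (XT.nd (nat_lit 94) (nat_lit 0) (nat_lit 0) (XT.lf (nat_lit 0) (nat_lit 51976755181) (nat_lit 168) (nat_lit 13092748852) (nat_lit 0) (nat_lit 1870346856) (nat_lit 5) (nat_lit 5) (nat_lit 7) (nat_lit 4) (nat_lit 5) (nat_lit 4) (nat_lit 406) (nat_lit 290) (nat_lit 165)) (XT.lf (nat_lit 0) (nat_lit 55675026183) (nat_lit 168) (nat_lit 7680266193) (nat_lit 0) (nat_lit 5534707703) (nat_lit 5) (nat_lit 5) (nat_lit 7) (nat_lit 4) (nat_lit 5) (nat_lit 4) (nat_lit 407) (nat_lit 290) (nat_lit 164)))) (XT.nd (nat_lit 188) (nat_lit 0) (nat_lit 0) (XT.nd (nat_lit 94) (nat_lit 84) (nat_lit 0) (XT.lf (nat_lit 0) (nat_lit 59483350836) (nat_lit 168) (nat_lit 2107267438) (nat_lit 0) (nat_lit 9310141807) (nat_lit 5) (nat_lit 5)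 (nat_lit 7) (nat_lit 4) (nat_lit 5) (nat_lit 4) (nat_lit 408) (nat_lit 290) (nat_lit 163)) (XT.lf (nat_lit 0) (nat_lit 3706111927) (nat_lit 84) (nat_lit 59735932058) (nat_lit 84) (nat_lit 9530821430) (nat_lit 4) (nat_lit 4) (nat_lit 5) (nat_lit 5) (nat_lit 5) (nat_lit 4) (nat_lit 409) (nat_lit 290) (nat_lit 162))) (XT.nd (nat_lit 94) (nat_lit 0) (nat_lit 0) (XT.lf (nat_lit 0) (nat_lit 9737398166) (nat_lit 84) (nat_lit 57803664042) (nat_lit 84) (nat_lit 7567611029) (nat_lit 4) (nat_lit 4) (nat_lit 5) (nat_lit 5) (nat_lit 5) (nat_lit 4) (nat_lit 410) (nat_lit 290) (nat_lit 161)) (XT.lf (nat_lit 0) (nat_lit 15948883329) (nat_lit 84) (nat_lit 55814008700) (nat_lit 84) (nat_lit 5547943675) (nat_lit 4) (nat_lit 4) (nat_lit 5) (nat_lit 5) (nat_lit 5) (nat_lit 4) (nat_lit 411) (nat_lit 290) (nat_lit 160))))))))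
noncomputable def xc94 : XT := (XT.nd (nat_lit 44650) (nat_lit 0) (nat_lit 3780) (XT.nd (nat_lit 43522) (nat_lit 0) (nat_lit 10164) (XT.nd (nat_lit 42958) (nat_lit 0) (nat_lit 12768) (XT.nd (nat_lit 42676) (nat_lit 0) (nat_lit 13608) (XT.nd (nat_lit 94) (nat_lit 84) (nat_lit 0) (XT.lf (nat_lit 0) (nat_lit 22346357170) (nat_lit 84) (nat_lit 53765111464) (nat_lit 84) (nat_lit 3469936824) (nat_lit 4) (nat_lit 4) (nat_lit 5) (nat_lit 5) (nat_lit 5) (nat_lit 4) (nat_lit 412) (nat_lit 290) (nat_lit 159)) (XT.nd (nat_lit 94) (nat_lit 84) (nat_lit 0) (XT.lf (nat_lit 0) (nat_lit 28935782806) (nat_lit 84) (nat_lit 51655062548) (nat_lit 84) (nat_lit 1331653559) (nat_lit 4) (nat_lit 4) (nat_lit 5) (nat_lit 5) (nat_lit 5) (nat_lit 4) (nat_lit 413) (nat_lit 290) (nat_lit 158)) (XT.lf (nat_lit 0) (nat_lit 851392843) (nat_lit 168) (nat_lit 48621615527) (nat_lit 84) (nat_lit 34863022632) (nat_lit 3)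 (nat_lit 5) (nat_lit 5) (nat_lit 5) (nat_lit 4) (nat_lit 4) (nat_lit 414) (nat_lit 290) (nat_lit 157)))) (XT.nd (nat_lit 94) (nat_lit 420) (nat_lit 0) (XT.lf (nat_lit 0) (nat_lit 1247689075) (nat_lit 0) (nat_lit 1247689075) (nat_lit 252) (nat_lit 765878603) (nat_lit 170) (nat_lit 5) (nat_lit 170) (nat_lit 3) (nat_lit 173) (nat_lit 3) (nat_lit 291) (nat_lit 291) (nat_lit 279)) (XT.nd (nat_lit 94) (nat_lit 0) (nat_lit 0) (XT.lf (nat_lit 0) (nat_lit 496789261) (nat_lit 420) (nat_lit 1561397291) (nat_lit 420) (nat_lit 4486188791) (nat_lit 165) (nat_lit 3) (nat_lit 170) (nat_lit 3) (nat_lit 170) (nat_lit 5) (nat_lit 292) (nat_lit 291) (nat_lit 278)) (XT.lf (nat_lit 84) (nat_lit 941763105) (nat_lit 0) (nat_lit 1542546541) (nat_lit 420) (nat_lit 4085042159) (nat_lit 166) (nat_lit 5) (nat_lit 165) (nat_lit 3) (nat_lit 170) (nat_lit 5) (nat_lit 293) (nat_lit 291) (nat_lit 277))))) (XT.nd (nat_lit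 282) (nat_lit 504) (nat_lit 0) (XT.nd (nat_lit 94) (nat_lit 336) (nat_lit 0) (XT.lf (nat_lit 84) (nat_lit 3513727061) (nat_lit 0) (nat_lit 956611636) (nat_lit 420) (nat_lit 2127387087) (nat_lit 166) (nat_lit 5) (nat_lit 165) (nat_lit 3) (nat_lit 170) (nat_lit 5) (nat_lit 294) (nat_lit 291) (nat_lit 276)) (XT.nd (nat_lit 94) (nat_lit 336) (nat_lit 0) (XT.lf (nat_lit 84) (nat_lit 6124786385) (nat_lit 0) (nat_lit 316133471) (nat_lit 420) (nat_lit 189093912) (nat_lit 166) (nat_lit 5) (nat_lit 165) (nat_lit 3) (nat_lit 170) (nat_lit 5) (nat_lit 295) (nat_lit 291) (nat_lit 275)) (XT.lf (nat_lit 0) (nat_lit 1722111709) (nat_lit 420) (nat_lit 4532206395) (nat_lit 504) (nat_lit 410609177) (nat_lit 161) (nat_lit 5) (nat_lit 166) (nat_lit 5) (nat_lit 167) (nat_lit 5) (nat_lit 296) (nat_lit 291) (nat_lit 274)))) (XT.nd (nat_lit 94) (nat_lit 504) (nat_lit 0) (XT.lf (nat_lit 0) (nat_lit 3623326412)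 (nat_lit 420) (nat_lit 1887208556) (nat_lit 504) (nat_lit 1192943149) (nat_lit 161) (nat_lit 5) (nat_lit 166) (nat_lit 5) (nat_lit 167) (nat_lit 5) (nat_lit 297) (nat_lit 291) (nat_lit 273)) (XT.nd (nat_lit 94) (nat_lit 504) (nat_lit 0) (XT.lf (nat_lit 84) (nat_lit 813117442) (nat_lit 0) (nat_lit 4706777559) (nat_lit 504) (nat_lit 1225872706) (nat_lit 162) (nat_lit 5) (nat_lit 161) (nat_lit 5) (nat_lit 167) (nat_lit 5) (nat_lit 298) (nat_lit 291) (nat_lit 272)) (XT.lf (nat_lit 0) (nat_lit 620792227) (nat_lit 504) (nat_lit 3203217483) (nat_lit 588) (nat_lit 2967275908) (nat_lit 155) (nat_lit 5) (nat_lit 161) (nat_lit 5) (nat_lit 162) (nat_lit 5) (nat_lit 299) (nat_lit 291) (nat_lit 271)))))) (XT.nd (nat_lit 564) (nat_lit 1512) (nat_lit 0) (XT.nd (nat_lit 282) (nat_lit 1092) (nat_lit 0) (XT.nd (nat_lit 94) (nat_lit 0) (nat_lit 0) (XT.lf (nat_lit 0) (nat_lit 2430202039) (nat_lit 504)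 (nat_lit 444984250) (nat_lit 588) (nat_lit 3965302260) (nat_lit 155) (nat_lit 5) (nat_lit 161) (nat_lit 5) (nat_lit 162) (nat_lit 5) (nat_lit 300) (nat_lit 291) (nat_lit 270)) (XT.nd (nat_lit 94) (nat_lit 0) (nat_lit 0) (XT.lf (nat_lit 84) (nat_lit 2405241462) (nat_lit 0) (nat_lit 1847360720) (nat_lit 588) (nat_lit 2640457491) (nat_lit 156) (nat_lit 5) (nat_lit 155) (nat_lit 5) (nat_lit 162) (nat_lit 5) (nat_lit 301) (nat_lit 291) (nat_lit 269)) (XT.lf (nat_lit 84) (nat_lit 5311709537) (nat_lit 0) (nat_lit 759071487) (nat_lit 588) (nat_lit 878853190) (nat_lit 156) (nat_lit 5) (nat_lit 155) (nat_lit 5) (nat_lit 162) (nat_lit 5) (nat_lit 302) (nat_lit 291) (nat_lit 268)))) (XT.nd (nat_lit 94) (nat_lit 588) (nat_lit 0) (XT.lf (nat_lit 0) (nat_lit 870656114) (nat_lit 588) (nat_lit 5739182317) (nat_lit 84) (nat_lit 399780672) (nat_lit 149) (nat_lit 5) (nat_lit 156) (nat_lit 5) (nat_lit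 150) (nat_lit 5) (nat_lit 303) (nat_lit 291) (nat_lit 267)) (XT.nd (nat_lit 94) (nat_lit 588) (nat_lit 0) (XT.lf (nat_lit 0) (nat_lit 2618406540) (nat_lit 588) (nat_lit 2828454038) (nat_lit 84) (nat_lit 1625942680) (nat_lit 149) (nat_lit 5) (nat_lit 156) (nat_lit 5) (nat_lit 150) (nat_lit 5) (nat_lit 304) (nat_lit 291) (nat_lit 266)) (XT.lf (nat_lit 0) (nat_lit 132228017) (nat_lit 588) (nat_lit 4228535610) (nat_lit 672) (nat_lit 2779464296) (nat_lit 142) (nat_lit 5) (nat_lit 149) (nat_lit 5) (nat_lit 150) (nat_lit 5) (nat_lit 305) (nat_lit 291) (nat_lit 265))))) (XT.nd (nat_lit 282) (nat_lit 756) (nat_lit 0) (XT.nd (nat_lit 94) (nat_lit 756) (nat_lit 0) (XT.lf (nat_lit 0) (nat_lit 3202144813) (nat_lit 588) (nat_lit 2925035916) (nat_lit 672) (nat_lit 1083912510) (nat_lit 142) (nat_lit 5) (nat_lit 149) (nat_lit 5) (nat_lit 150) (nat_lit 5) (nat_lit 306) (nat_lit 291) (nat_lit 264)) (XT.nd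 (nat_lit 94) (nat_lit 672) (nat_lit 0) (XT.lf (nat_lit 0) (nat_lit 592140195) (nat_lit 672) (nat_lit 966348833) (nat_lit 84) (nat_lit 5727678092) (nat_lit 141) (nat_lit 5) (nat_lit 149) (nat_lit 5) (nat_lit 142) (nat_lit 5) (nat_lit 307) (nat_lit 291) (nat_lit 263)) (XT.lf (nat_lit 0) (nat_lit 2161489051) (nat_lit 672) (nat_lit 100673658) (nat_lit 756) (nat_lit 5102546579) (nat_lit 133) (nat_lit 5) (nat_lit 141) (nat_lit 5) (nat_lit 142) (nat_lit 5) (nat_lit 308) (nat_lit 291) (nat_lit 262)))) (XT.nd (nat_lit 94) (nat_lit 756) (nat_lit 0) (XT.lf (nat_lit 0) (nat_lit 3952589503) (nat_lit 756) (nat_lit 2095978156) (nat_lit 84) (nat_lit 1398464399) (nat_lit 133) (nat_lit 5) (nat_lit 142) (nat_lit 5) (nat_lit 134) (nat_lit 5) (nat_lit 309) (nat_lit 291) (nat_lit 261)) (XT.nd (nat_lit 94) (nat_lit 0) (nat_lit 0) (XT.lf (nat_lit 0) (nat_lit 1086384845) (nat_lit 756) (nat_lit 4567041595)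 (nat_lit 840) (nat_lit 1880144388) (nat_lit 124) (nat_lit 5) (nat_lit 133) (nat_lit 5) (nat_lit 134) (nat_lit 5) (nat_lit 310) (nat_lit 291) (nat_lit 260)) (XT.lf (nat_lit 0) (nat_lit 4370198415) (nat_lit 756) (nat_lit 3006073416) (nat_lit 840) (nat_lit 247824028) (nat_lit 124) (nat_lit 5) (nat_lit 133) (nat_lit 5) (nat_lit 134) (nat_lit 5) (nat_lit 311) (nat_lit 291) (nat_lit 259))))))) (XT.nd (nat_lit 1128) (nat_lit 2268) (nat_lit 0) (XT.nd (nat_lit 564) (nat_lit 1176) (nat_lit 0) (XT.nd (nat_lit 282) (nat_lit 2016) (nat_lit 0) (XT.nd (nat_lit 94) (nat_lit 840) (nat_lit 0) (XT.lf (nat_lit 0) (nat_lit 1354314814) (nat_lit 840) (nat_lit 17634768) (nat_lit 84) (nat_lit 6346974718) (nat_lit 123) (nat_lit 5) (nat_lit 133) (nat_lit 5) (nat_lit 124) (nat_lit 5) (nat_lit 312) (nat_lit 291) (nat_lit 258)) (XT.nd (nat_lit 94) (nat_lit 0) (nat_lit 0) (XT.lf (nat_lit 0) (nat_lit 2987393252)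 (nat_lit 924) (nat_lit 4477780138) (nat_lit 84) (nat_lit 352181972) (nat_lit 113) (nat_lit 5) (nat_lit 124) (nat_lit 5) (nat_lit 114) (nat_lit 5) (nat_lit 313) (nat_lit 291) (nat_lit 257)) (XT.lf (nat_lit 0) (nat_lit 4636209923) (nat_lit 924) (nat_lit 1173674153) (nat_lit 84) (nat_lit 2110346147) (nat_lit 113) (nat_lit 5) (nat_lit 124) (nat_lit 5) (nat_lit 114) (nat_lit 5) (nat_lit 314) (nat_lit 291) (nat_lit 256)))) (XT.nd (nat_lit 94) (nat_lit 1092) (nat_lit 0) (XT.lf (nat_lit 0) (nat_lit 2237155960) (nat_lit 924) (nat_lit 4073548325) (nat_lit 1008) (nat_lit 1716680005) (nat_lit 102) (nat_lit 5) (nat_lit 113) (nat_lit 5) (nat_lit 114) (nat_lit 5) (nat_lit 315) (nat_lit 291) (nat_lit 255)) (XT.nd (nat_lit 94) (nat_lit 1092) (nat_lit 0) (XT.lf (nat_lit 0) (nat_lit 5738239047) (nat_lit 924) (nat_lit 2264522862) (nat_lit 1008) (nat_lit 136455467) (nat_lit 102) (nat_lit 5) (nat_lit 113)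 (nat_lit 5) (nat_lit 114) (nat_lit 5) (nat_lit 316) (nat_lit 291) (nat_lit 254)) (XT.lf (nat_lit 0) (nat_lit 1059506693) (nat_lit 1008) (nat_lit 367748070) (nat_lit 1092) (nat_lit 6828176849) (nat_lit 89) (nat_lit 5) (nat_lit 101) (nat_lit 5) (nat_lit 102) (nat_lit 5) (nat_lit 317) (nat_lit 291) (nat_lit 253))))) (XT.nd (nat_lit 282) (nat_lit 588) (nat_lit 0) (XT.nd (nat_lit 94) (nat_lit 588) (nat_lit 0) (XT.lf (nat_lit 0) (nat_lit 3032772837) (nat_lit 1092) (nat_lit 3755380023) (nat_lit 84) (nat_lit 1587438091) (nat_lit 89) (nat_lit 5) (nat_lit 102) (nat_lit 5) (nat_lit 90) (nat_lit 5) (nat_lit 318) (nat_lit 291) (nat_lit 252)) (XT.nd (nat_lit 94) (nat_lit 588) (nat_lit 0) (XT.lf (nat_lit 0) (nat_lit 4648271549) (nat_lit 1092) (nat_lit 252357755) (nat_lit 84) (nat_lit 3600338318) (nat_lit 89) (nat_lit 5) (nat_lit 102) (nat_lit 5) (nat_lit 90) (nat_lit 5) (nat_lit 319) (nat_lit 291)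 (nat_lit 251)) (XT.lf (nat_lit 0) (nat_lit 3388322315) (nat_lit 588) (nat_lit 2916898867) (nat_lit 672) (nat_lit 2325528407) (nat_lit 82) (nat_lit 5) (nat_lit 89) (nat_lit 5) (nat_lit 90) (nat_lit 5) (nat_lit 320) (nat_lit 291) (nat_lit 250)))) (XT.nd (nat_lit 94) (nat_lit 588) (nat_lit 0) (XT.lf (nat_lit 0) (nat_lit 7108407187) (nat_lit 588) (nat_lit 866406221) (nat_lit 672) (nat_lit 791185353) (nat_lit 82) (nat_lit 5) (nat_lit 89) (nat_lit 5) (nat_lit 90) (nat_lit 5) (nat_lit 321) (nat_lit 291) (nat_lit 249)) (XT.nd (nat_lit 94) (nat_lit 0) (nat_lit 0) (XT.lf (nat_lit 0) (nat_lit 766884955) (nat_lit 588) (nat_lit 6885969062) (nat_lit 84) (nat_lit 1252817690) (nat_lit 75) (nat_lit 5) (nat_lit 82) (nat_lit 5) (nat_lit 76) (nat_lit 5) (nat_lit 322) (nat_lit 291) (nat_lit 248)) (XT.lf (nat_lit 0) (nat_lit 2343266770) (nat_lit 588) (nat_lit 3259925174) (nat_lit 84) (nat_lit 3446874129)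 (nat_lit 75) (nat_lit 5) (nat_lit 82) (nat_lit 5) (nat_lit 76) (nat_lit 5) (nat_lit 323) (nat_lit 291) (nat_lit 247)))))) (XT.nd (nat_lit 564) (nat_lit 840) (nat_lit 0) (XT.nd (nat_lit 282) (nat_lit 924) (nat_lit 0) (XT.nd (nat_lit 94) (nat_lit 0) (nat_lit 0) (XT.lf (nat_lit 0) (nat_lit 448978534) (nat_lit 504) (nat_lit 3485297333) (nat_lit 588) (nat_lit 5265937810) (nat_lit 69) (nat_lit 5) (nat_lit 75) (nat_lit 5) (nat_lit 76) (nat_lit 5) (nat_lit 324) (nat_lit 291) (nat_lit 246)) (XT.nd (nat_lit 94) (nat_lit 0) (nat_lit 0) (XT.lf (nat_lit 0) (nat_lit 4303764227) (nat_lit 504) (nat_lit 1266958964) (nat_lit 588) (nat_lit 3784622118) (nat_lit 69) (nat_lit 5) (nat_lit 75) (nat_lit 5) (nat_lit 76) (nat_lit 5) (nat_lit 325) (nat_lit 291) (nat_lit 245)) (XT.lf (nat_lit 0) (nat_lit 7231247441) (nat_lit 588) (nat_lit 1285751640) (nat_lit 84) (nat_lit 999315968) (nat_lit 69) (nat_lit 5) (nat_lit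 76) (nat_lit 5) (nat_lit 70) (nat_lit 5) (nat_lit 326) (nat_lit 291) (nat_lit 244)))) (XT.nd (nat_lit 94) (nat_lit 504) (nat_lit 0) (XT.lf (nat_lit 0) (nat_lit 2598984777) (nat_lit 420) (nat_lit 6347336179) (nat_lit 504) (nat_lit 736055325) (nat_lit 64) (nat_lit 5) (nat_lit 69) (nat_lit 5) (nat_lit 70) (nat_lit 5) (nat_lit 327) (nat_lit 291) (nat_lit 243)) (XT.nd (nat_lit 94) (nat_lit 420) (nat_lit 0) (XT.lf (nat_lit 0) (nat_lit 821682469) (nat_lit 504) (nat_lit 3268219899) (nat_lit 84) (nat_lit 5764283671) (nat_lit 63) (nat_lit 5) (nat_lit 69) (nat_lit 5) (nat_lit 64) (nat_lit 5) (nat_lit 328) (nat_lit 291) (nat_lit 242)) (XT.lf (nat_lit 0) (nat_lit 633822350) (nat_lit 420) (nat_lit 1750448355) (nat_lit 504) (nat_lit 7647869947) (nat_lit 58) (nat_lit 5) (nat_lit 63) (nat_lit 5) (nat_lit 64) (nat_lit 5) (nat_lit 329) (nat_lit 291) (nat_lit 241))))) (XT.nd (nat_lit 282) (nat_lit 504)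 (nat_lit 0) (XT.nd (nat_lit 94) (nat_lit 336) (nat_lit 0) (XT.lf (nat_lit 0) (nat_lit 4002537374) (nat_lit 504) (nat_lit 5532819741) (nat_lit 84) (nat_lit 680204439) (nat_lit 58) (nat_lit 5) (nat_lit 64) (nat_lit 5) (nat_lit 59) (nat_lit 5) (nat_lit 330) (nat_lit 291) (nat_lit 240)) (XT.nd (nat_lit 94) (nat_lit 336) (nat_lit 0) (XT.lf (nat_lit 0) (nat_lit 5656102508) (nat_lit 504) (nat_lit 1601733664) (nat_lit 84) (nat_lit 3147462081) (nat_lit 58) (nat_lit 5) (nat_lit 64) (nat_lit 5) (nat_lit 59) (nat_lit 5) (nat_lit 331) (nat_lit 291) (nat_lit 239)) (XT.lf (nat_lit 0) (nat_lit 2465646049) (nat_lit 336) (nat_lit 4887956203) (nat_lit 420) (nat_lit 3247705409) (nat_lit 54) (nat_lit 5) (nat_lit 58) (nat_lit 5) (nat_lit 59) (nat_lit 5) (nat_lit 332) (nat_lit 291) (nat_lit 238)))) (XT.nd (nat_lit 188) (nat_lit 504) (nat_lit 0) (XT.nd (nat_lit 94) (nat_lit 0) (nat_lit 0) (XT.lf (nat_lit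 0) (nat_lit 6658179991) (nat_lit 336) (nat_lit 2431087495) (nat_lit 420) (nat_lit 1714732889) (nat_lit 54) (nat_lit 5) (nat_lit 58) (nat_lit 5) (nat_lit 59) (nat_lit 5) (nat_lit 333) (nat_lit 291) (nat_lit 237)) (XT.lf (nat_lit 0) (nat_lit 10849475470) (nat_lit 420) (nat_lit 68202469) (nat_lit 84) (nat_lit 96359840) (nat_lit 54) (nat_lit 5) (nat_lit 59) (nat_lit 5) (nat_lit 55) (nat_lit 5) (nat_lit 334) (nat_lit 291) (nat_lit 236))) (XT.nd (nat_lit 94) (nat_lit 0) (nat_lit 0) (XT.lf (nat_lit 0) (nat_lit 1441785642) (nat_lit 504) (nat_lit 7083249247) (nat_lit 84) (nat_lit 2704108289) (nat_lit 48) (nat_lit 5) (nat_lit 54) (nat_lit 5) (nat_lit 49) (nat_lit 5) (nat_lit 335) (nat_lit 291) (nat_lit 235)) (XT.lf (nat_lit 0) (nat_lit 3065981140) (nat_lit 504) (nat_lit 2994759122) (nat_lit 84) (nat_lit 5391149449) (nat_lit 48) (nat_lit 5) (nat_lit 54) (nat_lit 5) (nat_lit 49) (nat_lit 5) (nat_lit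 336) (nat_lit 291) (nat_lit 234))))))))
noncomputable def xc95 : XT := (XT.nd (nat_lit 2256) (nat_lit 840) (nat_lit 0) (XT.nd (nat_lit 1128) (nat_lit 1092) (nat_lit 0) (XT.nd (nat_lit 564) (nat_lit 588) (nat_lit 0) (XT.nd (nat_lit 282) (nat_lit 420) (nat_lit 0) (XT.nd (nat_lit 94) (nat_lit 0) (nat_lit 0) (XT.lf (nat_lit 0) (nat_lit 1211669210) (nat_lit 336) (nat_lit 3512506815) (nat_lit 420) (nat_lit 6958008591) (nat_lit 44) (nat_lit 5) (nat_lit 48) (nat_lit 5) (nat_lit 49) (nat_lit 5) (nat_lit 337) (nat_lit 291) (nat_lit 233)) (XT.nd (nat_lit 94) (nat_lit 0) (nat_lit 0) (XT.lf (nat_lit 0) (nat_lit 5579103020) (nat_lit 336) (nat_lit 858087352) (nat_lit 420) (nat_lit 5482454671) (nat_lit 44) (nat_lit 5) (nat_lit 48) (nat_lit 5) (nat_lit 49) (nat_lit 5) (nat_lit 338) (nat_lit 291) (nat_lit 232)) (XT.lf (nat_lit 0) (nat_lit 8194889310) (nat_lit 420) (nat_lit 2133985071) (nat_lit 84) (nat_lit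 1835981629) (nat_lit 44) (nat_lit 5) (nat_lit 49) (nat_lit 5) (nat_lit 45) (nat_lit 5) (nat_lit 339) (nat_lit 291) (nat_lit 231)))) (XT.nd (nat_lit 94) (nat_lit 84) (nat_lit 0) (XT.lf (nat_lit 0) (nat_lit 2206838857) (nat_lit 336) (nat_lit 7804664883) (nat_lit 420) (nat_lit 2406151968) (nat_lit 40) (nat_lit 5) (nat_lit 44) (nat_lit 5) (nat_lit 45) (nat_lit 5) (nat_lit 340) (nat_lit 291) (nat_lit 230)) (XT.nd (nat_lit 94) (nat_lit 84) (nat_lit 0) (XT.lf (nat_lit 0) (nat_lit 6695966911) (nat_lit 336) (nat_lit 5184975768) (nat_lit 420) (nat_lit 797578409) (nat_lit 40) (nat_lit 5) (nat_lit 44) (nat_lit 5) (nat_lit 45) (nat_lit 5) (nat_lit 341) (nat_lit 291) (nat_lit 229)) (XT.lf (nat_lit 0) (nat_lit 818155942) (nat_lit 420) (nat_lit 1662943825) (nat_lit 84) (nat_lit 10467008504) (nat_lit 39) (nat_lit 5) (nat_lit 44) (nat_lit 5) (nat_lit 40) (nat_lit 5) (nat_lit 342) (nat_lit 291) (nat_lit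 228))))) (XT.nd (nat_lit 282) (nat_lit 336) (nat_lit 0) (XT.nd (nat_lit 94) (nat_lit 0) (nat_lit 0) (XT.lf (nat_lit 0) (nat_lit 2474029476) (nat_lit 336) (nat_lit 10420406045) (nat_lit 84) (nat_lit 331269190) (nat_lit 36) (nat_lit 5) (nat_lit 40) (nat_lit 5) (nat_lit 37) (nat_lit 5) (nat_lit 343) (nat_lit 291) (nat_lit 227)) (XT.nd (nat_lit 94) (nat_lit 0) (nat_lit 0) (XT.lf (nat_lit 0) (nat_lit 4199933265) (nat_lit 336) (nat_lit 6120354462) (nat_lit 84) (nat_lit 3191146080) (nat_lit 36) (nat_lit 5) (nat_lit 40) (nat_lit 5) (nat_lit 37) (nat_lit 5) (nat_lit 344) (nat_lit 291) (nat_lit 226)) (XT.lf (nat_lit 0) (nat_lit 5955855211) (nat_lit 336) (nat_lit 1716819688) (nat_lit 84) (nat_lit 6134177235) (nat_lit 36) (nat_lit 5) (nat_lit 40) (nat_lit 5) (nat_lit 37) (nat_lit 5) (nat_lit 345) (nat_lit 291) (nat_lit 225)))) (XT.nd (nat_lit 94) (nat_lit 0) (nat_lit 0) (XT.lf (nat_lit 0) (nat_lit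 2851759427) (nat_lit 336) (nat_lit 4919962397) (nat_lit 420) (nat_lit 6339636245) (nat_lit 32) (nat_lit 5) (nat_lit 36) (nat_lit 5) (nat_lit 37) (nat_lit 5) (nat_lit 346) (nat_lit 291) (nat_lit 224)) (XT.nd (nat_lit 94) (nat_lit 0) (nat_lit 0) (XT.lf (nat_lit 0) (nat_lit 7569731147) (nat_lit 336) (nat_lit 2069691418) (nat_lit 420) (nat_lit 4786116776) (nat_lit 32) (nat_lit 5) (nat_lit 36) (nat_lit 5) (nat_lit 37) (nat_lit 5) (nat_lit 347) (nat_lit 291) (nat_lit 223)) (XT.lf (nat_lit 0) (nat_lit 11551876891) (nat_lit 420) (nat_lit 2352595661) (nat_lit 84) (nat_lit 845489710) (nat_lit 32) (nat_lit 5) (nat_lit 37) (nat_lit 5) (nat_lit 33) (nat_lit 5) (nat_lit 348) (nat_lit 291) (nat_lit 222)))))) (XT.nd (nat_lit 564) (nat_lit 504) (nat_lit 0) (XT.nd (nat_lit 282) (nat_lit 252) (nat_lit 0) (XT.nd (nat_lit 94) (nat_lit 84) (nat_lit 0) (XT.lf (nat_lit 0) (nat_lit 2287517515) (nat_lit 252)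 (nat_lit 11258849638) (nat_lit 336) (nat_lit 1537461584) (nat_lit 29) (nat_lit 5) (nat_lit 32) (nat_lit 5) (nat_lit 33) (nat_lit 5) (nat_lit 349) (nat_lit 291) (nat_lit 221)) (XT.nd (nat_lit 94) (nat_lit 0) (nat_lit 0) (XT.lf (nat_lit 0) (nat_lit 174883856) (nat_lit 336) (nat_lit 8335778103) (nat_lit 84) (nat_lit 6917299077) (nat_lit 28) (nat_lit 5) (nat_lit 32) (nat_lit 5) (nat_lit 29) (nat_lit 5) (nat_lit 350) (nat_lit 291) (nat_lit 220)) (XT.lf (nat_lit 0) (nat_lit 1887961664) (nat_lit 336) (nat_lit 3779714069) (nat_lit 84) (nat_lit 10115314728) (nat_lit 28) (nat_lit 5) (nat_lit 32) (nat_lit 5) (nat_lit 29) (nat_lit 5) (nat_lit 351) (nat_lit 291) (nat_lit 219)))) (XT.nd (nat_lit 94) (nat_lit 0) (nat_lit 0) (XT.lf (nat_lit 0) (nat_lit 909708007) (nat_lit 252) (nat_lit 2733661438) (nat_lit 336) (nat_lit 12506071541) (nat_lit 25) (nat_lit 5) (nat_lit 28) (nat_lit 5) (nat_lit 29) (nat_lit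 5) (nat_lit 352) (nat_lit 291) (nat_lit 218)) (XT.nd (nat_lit 94) (nat_lit 0) (nat_lit 0) (XT.lf (nat_lit 0) (nat_lit 5476414473) (nat_lit 336) (nat_lit 10731252567) (nat_lit 84) (nat_lit 318943338) (nat_lit 25) (nat_lit 5) (nat_lit 29) (nat_lit 5) (nat_lit 26) (nat_lit 5) (nat_lit 353) (nat_lit 291) (nat_lit 217)) (XT.lf (nat_lit 0) (nat_lit 7375303765) (nat_lit 336) (nat_lit 6136730482) (nat_lit 84) (nat_lit 3403234501) (nat_lit 25) (nat_lit 5) (nat_lit 29) (nat_lit 5) (nat_lit 26) (nat_lit 5) (nat_lit 354) (nat_lit 291) (nat_lit 216))))) (XT.nd (nat_lit 282) (nat_lit 336) (nat_lit 0) (XT.nd (nat_lit 94) (nat_lit 168) (nat_lit 0) (XT.lf (nat_lit 0) (nat_lit 9314689024) (nat_lit 336) (nat_lit 1424765889) (nat_lit 84) (nat_lit 6577164119) (nat_lit 25) (nat_lit 5) (nat_lit 29) (nat_lit 5) (nat_lit 26) (nat_lit 5) (nat_lit 355) (nat_lit 291) (nat_lit 215)) (XT.nd (nat_lit 94) (nat_lit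 0) (nat_lit 0) (XT.lf (nat_lit 0) (nat_lit 3479129971) (nat_lit 168) (nat_lit 7851761389) (nat_lit 252) (nat_lit 6399074055) (nat_lit 23) (nat_lit 5) (nat_lit 25) (nat_lit 5) (nat_lit 26) (nat_lit 5) (nat_lit 356) (nat_lit 291) (nat_lit 214)) (XT.lf (nat_lit 0) (nat_lit 8541259913) (nat_lit 168) (nat_lit 4865688159) (nat_lit 252) (nat_lit 4749329211) (nat_lit 23) (nat_lit 5) (nat_lit 25) (nat_lit 5) (nat_lit 26) (nat_lit 5) (nat_lit 357) (nat_lit 291) (nat_lit 213)))) (XT.nd (nat_lit 94) (nat_lit 336) (nat_lit 0) (XT.lf (nat_lit 0) (nat_lit 13737046263) (nat_lit 168) (nat_lit 1793323524) (nat_lit 252) (nat_lit 3066029373) (nat_lit 23) (nat_lit 5) (nat_lit 25) (nat_lit 5) (nat_lit 26) (nat_lit 5) (nat_lit 358) (nat_lit 291) (nat_lit 212)) (XT.nd (nat_lit 94) (nat_lit 84) (nat_lit 0) (XT.lf (nat_lit 0) (nat_lit 7162380) (nat_lit 252) (nat_lit 17709617104) (nat_lit 336) (nat_lit 1333538847)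 (nat_lit 20) (nat_lit 5) (nat_lit 23) (nat_lit 5) (nat_lit 24) (nat_lit 5) (nat_lit 359) (nat_lit 291) (nat_lit 211)) (XT.lf (nat_lit 0) (nat_lit 496620513) (nat_lit 336) (nat_lit 14435785177) (nat_lit 84) (nat_lit 4584180224) (nat_lit 19) (nat_lit 5) (nat_lit 23) (nat_lit 5) (nat_lit 20) (nat_lit 5) (nat_lit 360) (nat_lit 291) (nat_lit 210))))))) (XT.nd (nat_lit 1128) (nat_lit 420) (nat_lit 0) (XT.nd (nat_lit 564) (nat_lit 252) (nat_lit 0) (XT.nd (nat_lit 282) (nat_lit 0) (nat_lit 0) (XT.nd (nat_lit 94) (nat_lit 168) (nat_lit 0) (XT.lf (nat_lit 0) (nat_lit 2339809977) (nat_lit 336) (nat_lit 9721778932) (nat_lit 84) (nat_lit 7935852001) (nat_lit 19) (nat_lit 5) (nat_lit 23) (nat_lit 5) (nat_lit 20) (nat_lit 5) (nat_lit 361) (nat_lit 291) (nat_lit 209)) (XT.nd (nat_lit 94) (nat_lit 168) (nat_lit 0) (XT.lf (nat_lit 0) (nat_lit 4224615426) (nat_lit 336) (nat_lit 4883514399) (nat_lit 84)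 (nat_lit 11385611797) (nat_lit 19) (nat_lit 5) (nat_lit 23) (nat_lit 5) (nat_lit 20) (nat_lit 5) (nat_lit 362) (nat_lit 291) (nat_lit 208)) (XT.lf (nat_lit 0) (nat_lit 85235496) (nat_lit 168) (nat_lit 6068403746) (nat_lit 252) (nat_lit 14852285201) (nat_lit 17) (nat_lit 5) (nat_lit 19) (nat_lit 5) (nat_lit 20) (nat_lit 5) (nat_lit 363) (nat_lit 291) (nat_lit 207)))) (XT.nd (nat_lit 94) (nat_lit 0) (nat_lit 0) (XT.lf (nat_lit 0) (nat_lit 5290541249) (nat_lit 168) (nat_lit 2888083625) (nat_lit 252) (nat_lit 13354293599) (nat_lit 17) (nat_lit 5) (nat_lit 19) (nat_lit 5) (nat_lit 20) (nat_lit 5) (nat_lit 364) (nat_lit 291) (nat_lit 206)) (XT.nd (nat_lit 94) (nat_lit 0) (nat_lit 0) (XT.lf (nat_lit 0) (nat_lit 10255836095) (nat_lit 252) (nat_lit 11443725396) (nat_lit 84) (nat_lit 377067768) (nat_lit 17) (nat_lit 5) (nat_lit 20) (nat_lit 5) (nat_lit 18) (nat_lit 5) (nat_lit 365) (nat_lit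 291) (nat_lit 205)) (XT.lf (nat_lit 0) (nat_lit 12412986913) (nat_lit 252) (nat_lit 6546038449) (nat_lit 84) (nat_lit 3677739124) (nat_lit 17) (nat_lit 5) (nat_lit 20) (nat_lit 5) (nat_lit 18) (nat_lit 5) (nat_lit 366) (nat_lit 291) (nat_lit 204))))) (XT.nd (nat_lit 282) (nat_lit 84) (nat_lit 0) (XT.nd (nat_lit 94) (nat_lit 168) (nat_lit 0) (XT.lf (nat_lit 0) (nat_lit 14623437873) (nat_lit 252) (nat_lit 1516101078) (nat_lit 84) (nat_lit 7075195463) (nat_lit 17) (nat_lit 5) (nat_lit 20) (nat_lit 5) (nat_lit 18) (nat_lit 5) (nat_lit 367) (nat_lit 291) (nat_lit 203)) (XT.nd (nat_lit 94) (nat_lit 0) (nat_lit 0) (XT.lf (nat_lit 0) (nat_lit 3725842570) (nat_lit 168) (nat_lit 13200367595) (nat_lit 252) (nat_lit 6883721820) (nat_lit 15) (nat_lit 5) (nat_lit 17) (nat_lit 5) (nat_lit 18) (nat_lit 5) (nat_lit 368) (nat_lit 291) (nat_lit 202)) (XT.lf (nat_lit 0) (nat_lit 9143630061) (nat_lit 168)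 (nat_lit 10159609187) (nat_lit 252) (nat_lit 5120299279) (nat_lit 15) (nat_lit 5) (nat_lit 17) (nat_lit 5) (nat_lit 18) (nat_lit 5) (nat_lit 369) (nat_lit 291) (nat_lit 201)))) (XT.nd (nat_lit 94) (nat_lit 84) (nat_lit 0) (XT.lf (nat_lit 0) (nat_lit 14711137192) (nat_lit 168) (nat_lit 7030254406) (nat_lit 252) (nat_lit 3315210208) (nat_lit 15) (nat_lit 5) (nat_lit 17) (nat_lit 5) (nat_lit 18) (nat_lit 5) (nat_lit 370) (nat_lit 291) (nat_lit 200)) (XT.nd (nat_lit 94) (nat_lit 84) (nat_lit 0) (XT.lf (nat_lit 0) (nat_lit 20433553463) (nat_lit 168) (nat_lit 3809386366) (nat_lit 252) (nat_lit 1466772077) (nat_lit 15) (nat_lit 5) (nat_lit 17) (nat_lit 5) (nat_lit 18) (nat_lit 5) (nat_lit 371) (nat_lit 291) (nat_lit 199)) (XT.lf (nat_lit 0) (nat_lit 418140231) (nat_lit 252) (nat_lit 71498123) (nat_lit 84) (nat_lit 25893708007) (nat_lit 14) (nat_lit 5) (nat_lit 17) (nat_lit 5) (nat_lit 15)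 (nat_lit 5) (nat_lit 372) (nat_lit 291) (nat_lit 198)))))) (XT.nd (nat_lit 564) (nat_lit 84) (nat_lit 0) (XT.nd (nat_lit 282) (nat_lit 168) (nat_lit 0) (XT.nd (nat_lit 94) (nat_lit 0) (nat_lit 0) (XT.lf (nat_lit 0) (nat_lit 2402414423) (nat_lit 252) (nat_lit 21735089771) (nat_lit 84) (nat_lit 2937721116) (nat_lit 12) (nat_lit 5) (nat_lit 15) (nat_lit 5) (nat_lit 13) (nat_lit 5) (nat_lit 373) (nat_lit 291) (nat_lit 197)) (XT.nd (nat_lit 94) (nat_lit 0) (nat_lit 0) (XT.lf (nat_lit 0) (nat_lit 4442470764) (nat_lit 252) (nat_lit 16889584386) (nat_lit 84) (nat_lit 6456713997) (nat_lit 12) (nat_lit 5) (nat_lit 15) (nat_lit 5) (nat_lit 13) (nat_lit 5) (nat_lit 374) (nat_lit 291) (nat_lit 196)) (XT.lf (nat_lit 0) (nat_lit 6534622270) (nat_lit 252) (nat_lit 11910439724) (nat_lit 84) (nat_lit 10079754221) (nat_lit 12) (nat_lit 5) (nat_lit 15) (nat_lit 5) (nat_lit 13) (nat_lit 5) (nat_lit 375)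 (nat_lit 291) (nat_lit 195)))) (XT.nd (nat_lit 94) (nat_lit 168) (nat_lit 0) (XT.lf (nat_lit 0) (nat_lit 8680819046) (nat_lit 252) (nat_lit 6793014701) (nat_lit 84) (nat_lit 13810218842) (nat_lit 12) (nat_lit 5) (nat_lit 15) (nat_lit 5) (nat_lit 13) (nat_lit 5) (nat_lit 376) (nat_lit 291) (nat_lit 194)) (XT.nd (nat_lit 94) (nat_lit 168) (nat_lit 0) (XT.lf (nat_lit 0) (nat_lit 10883061571) (nat_lit 252) (nat_lit 1532539340) (nat_lit 84) (nat_lit 17651585043) (nat_lit 12) (nat_lit 5) (nat_lit 15) (nat_lit 5) (nat_lit 13) (nat_lit 5) (nat_lit 377) (nat_lit 291) (nat_lit 193)) (XT.lf (nat_lit 0) (nat_lit 3955585912) (nat_lit 168) (nat_lit 9227056555) (nat_lit 252) (nat_lit 17691087368) (nat_lit 10) (nat_lit 5) (nat_lit 12) (nat_lit 5) (nat_lit 13) (nat_lit 5) (nat_lit 378) (nat_lit 291) (nat_lit 192))))) (XT.nd (nat_lit 282) (nat_lit 84) (nat_lit 0) (XT.nd (nat_lit 94) (nat_lit 0) (nat_lit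 0) (XT.lf (nat_lit 0) (nat_lit 9631364080) (nat_lit 168) (nat_lit 5928129150) (nat_lit 252) (nat_lit 16145631360) (nat_lit 10) (nat_lit 5) (nat_lit 12) (nat_lit 5) (nat_lit 13) (nat_lit 5) (nat_lit 379) (nat_lit 291) (nat_lit 191)) (XT.nd (nat_lit 94) (nat_lit 0) (nat_lit 0) (XT.lf (nat_lit 0) (nat_lit 15468573430) (nat_lit 168) (nat_lit 2531740318) (nat_lit 252) (nat_lit 14562312399) (nat_lit 10) (nat_lit 5) (nat_lit 12) (nat_lit 5) (nat_lit 13) (nat_lit 5) (nat_lit 380) (nat_lit 291) (nat_lit 190)) (XT.lf (nat_lit 0) (nat_lit 20516954774) (nat_lit 252) (nat_lit 11983954588) (nat_lit 84) (nat_lit 945827577) (nat_lit 10) (nat_lit 5) (nat_lit 13) (nat_lit 5) (nat_lit 11) (nat_lit 4) (nat_lit 381) (nat_lit 291) (nat_lit 189)))) (XT.nd (nat_lit 188) (nat_lit 84) (nat_lit 0) (XT.nd (nat_lit 94) (nat_lit 0) (nat_lit 0) (XT.lf (nat_lit 0) (nat_lit 23128323250) (nat_lit 252) (nat_lit 6755264144)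 (nat_lit 84) (nat_lit 4474180263) (nat_lit 10) (nat_lit 5) (nat_lit 13) (nat_lit 5) (nat_lit 11) (nat_lit 4) (nat_lit 382) (nat_lit 291) (nat_lit 188)) (XT.lf (nat_lit 0) (nat_lit 25811738068) (nat_lit 252) (nat_lit 1377992521) (nat_lit 84) (nat_lit 8107615459) (nat_lit 10) (nat_lit 5) (nat_lit 13) (nat_lit 5) (nat_lit 11) (nat_lit 4) (nat_lit 383) (nat_lit 291) (nat_lit 187))) (XT.nd (nat_lit 94) (nat_lit 0) (nat_lit 0) (XT.lf (nat_lit 0) (nat_lit 4238264036) (nat_lit 84) (nat_lit 24373480519) (nat_lit 168) (nat_lit 7653299975) (nat_lit 9) (nat_lit 5) (nat_lit 10) (nat_lit 5) (nat_lit 11) (nat_lit 4) (nat_lit 384) (nat_lit 291) (nat_lit 186)) (XT.lf (nat_lit 0) (nat_lit 10044867850) (nat_lit 84) (nat_lit 21459559590) (nat_lit 168) (nat_lit 5758159936) (nat_lit 9) (nat_lit 5) (nat_lit 10) (nat_lit 5) (nat_lit 11) (nat_lit 4) (nat_lit 385) (nat_lit 291) (nat_lit 185))))))))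
noncomputable def xc96 : XT := (XT.nd (nat_lit 2256) (nat_lit 168) (nat_lit 0) (XT.nd (nat_lit 1128) (nat_lit 84) (nat_lit 0) (XT.nd (nat_lit 564) (nat_lit 0) (nat_lit 0) (XT.nd (nat_lit 282) (nat_lit 168) (nat_lit 0) (XT.nd (nat_lit 94) (nat_lit 84) (nat_lit 0) (XT.lf (nat_lit 0) (nat_lit 16018896932) (nat_lit 84) (nat_lit 18459635141) (nat_lit 168) (nat_lit 3812804811) (nat_lit 9) (nat_lit 5) (nat_lit 10) (nat_lit 5) (nat_lit 11) (nat_lit 4) (nat_lit 386) (nat_lit 291) (nat_lit 184)) (XT.nd (nat_lit 94) (nat_lit 84) (nat_lit 0) (XT.lf (nat_lit 0) (nat_lit 22165919702) (nat_lit 84) (nat_lit 15370910928) (nat_lit 168) (nat_lit 1815421325) (nat_lit 9) (nat_lit 5) (nat_lit 10) (nat_lit 5) (nat_lit 11) (nat_lit 4) (nat_lit 387) (nat_lit 291) (nat_lit 183)) (XT.lf (nat_lit 0) (nat_lit 231100393) (nat_lit 168) (nat_lit 11956995327) (nat_lit 84) (nat_lit 28258153221) (nat_lit 8) (nat_lit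 5) (nat_lit 10) (nat_lit 5) (nat_lit 9) (nat_lit 5) (nat_lit 388) (nat_lit 291) (nat_lit 182)))) (XT.nd (nat_lit 94) (nat_lit 168) (nat_lit 0) (XT.lf (nat_lit 0) (nat_lit 2295723264) (nat_lit 168) (nat_lit 6595775788) (nat_lit 84) (nat_lit 32682345665) (nat_lit 8) (nat_lit 5) (nat_lit 10) (nat_lit 5) (nat_lit 9) (nat_lit 5) (nat_lit 389) (nat_lit 291) (nat_lit 181)) (XT.nd (nat_lit 94) (nat_lit 168) (nat_lit 0) (XT.lf (nat_lit 0) (nat_lit 4416948424) (nat_lit 168) (nat_lit 1079667212) (nat_lit 84) (nat_lit 37240032966) (nat_lit 8) (nat_lit 5) (nat_lit 10) (nat_lit 5) (nat_lit 9) (nat_lit 5) (nat_lit 390) (nat_lit 291) (nat_lit 180)) (XT.lf (nat_lit 0) (nat_lit 4690984879) (nat_lit 168) (nat_lit 1952303348) (nat_lit 252) (nat_lit 37291013636) (nat_lit 6) (nat_lit 5) (nat_lit 8) (nat_lit 5) (nat_lit 9) (nat_lit 5) (nat_lit 391) (nat_lit 291) (nat_lit 179))))) (XT.nd (nat_lit 282) (nat_lit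 0) (nat_lit 0) (XT.nd (nat_lit 94) (nat_lit 0) (nat_lit 0) (XT.lf (nat_lit 0) (nat_lit 8959804300) (nat_lit 252) (nat_lit 34533376740) (nat_lit 84) (nat_lit 1675267219) (nat_lit 6) (nat_lit 5) (nat_lit 9) (nat_lit 5) (nat_lit 7) (nat_lit 4) (nat_lit 392) (nat_lit 291) (nat_lit 178)) (XT.nd (nat_lit 94) (nat_lit 0) (nat_lit 0) (XT.lf (nat_lit 0) (nat_lit 11361205637) (nat_lit 252) (nat_lit 29708124370) (nat_lit 84) (nat_lit 5371139095) (nat_lit 6) (nat_lit 5) (nat_lit 9) (nat_lit 5) (nat_lit 7) (nat_lit 4) (nat_lit 393) (nat_lit 291) (nat_lit 177)) (XT.lf (nat_lit 0) (nat_lit 13830363505) (nat_lit 252) (nat_lit 24743695142) (nat_lit 84) (nat_lit 9178091780) (nat_lit 6) (nat_lit 5) (nat_lit 9) (nat_lit 5) (nat_lit 7) (nat_lit 4) (nat_lit 394) (nat_lit 291) (nat_lit 176)))) (XT.nd (nat_lit 94) (nat_lit 0) (nat_lit 0) (XT.lf (nat_lit 0) (nat_lit 16369579418) (nat_lit 252) (nat_lit 19635461689)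 (nat_lit 84) (nat_lit 13099673752) (nat_lit 6) (nat_lit 5) (nat_lit 9) (nat_lit 5) (nat_lit 7) (nat_lit 4) (nat_lit 395) (nat_lit 291) (nat_lit 175)) (XT.nd (nat_lit 94) (nat_lit 0) (nat_lit 0) (XT.lf (nat_lit 0) (nat_lit 18981220191) (nat_lit 252) (nat_lit 14378662602) (nat_lit 84) (nat_lit 17139540336) (nat_lit 6) (nat_lit 5) (nat_lit 9) (nat_lit 5) (nat_lit 7) (nat_lit 4) (nat_lit 396) (nat_lit 291) (nat_lit 174)) (XT.lf (nat_lit 0) (nat_lit 21667720147) (nat_lit 252) (nat_lit 8968397993) (nat_lit 84) (nat_lit 21301457111) (nat_lit 6) (nat_lit 5) (nat_lit 9) (nat_lit 5) (nat_lit 7) (nat_lit 4) (nat_lit 397) (nat_lit 291) (nat_lit 173)))))) (XT.nd (nat_lit 564) (nat_lit 0) (nat_lit 0) (XT.nd (nat_lit 282) (nat_lit 0) (nat_lit 0) (XT.nd (nat_lit 94) (nat_lit 84) (nat_lit 0) (XT.lf (nat_lit 0) (nat_lit 24431583385) (nat_lit 252) (nat_lit 3399624930) (nat_lit 84) (nat_lit 25589303420)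 (nat_lit 6) (nat_lit 5) (nat_lit 9) (nat_lit 5) (nat_lit 7) (nat_lit 4) (nat_lit 398) (nat_lit 291) (nat_lit 172)) (XT.nd (nat_lit 94) (nat_lit 0) (nat_lit 0) (XT.lf (nat_lit 0) (nat_lit 2380815392) (nat_lit 84) (nat_lit 24918188707) (nat_lit 168) (nat_lit 27649878576) (nat_lit 5) (nat_lit 5) (nat_lit 6) (nat_lit 5) (nat_lit 7) (nat_lit 4) (nat_lit 399) (nat_lit 291) (nat_lit 171)) (XT.lf (nat_lit 0) (nat_lit 8403677234) (nat_lit 84) (nat_lit 21881467346) (nat_lit 168) (nat_lit 26238580916) (nat_lit 5) (nat_lit 5) (nat_lit 6) (nat_lit 5) (nat_lit 7) (nat_lit 4) (nat_lit 400) (nat_lit 291) (nat_lit 170)))) (XT.nd (nat_lit 94) (nat_lit 0) (nat_lit 0) (XT.lf (nat_lit 0) (nat_lit 14604671271) (nat_lit 84) (nat_lit 18753698801) (nat_lit 168) (nat_lit 24789205007) (nat_lit 5) (nat_lit 5) (nat_lit 6) (nat_lit 5) (nat_lit 7) (nat_lit 4) (nat_lit 401) (nat_lit 291) (nat_lit 169)) (XT.nd (nat_lit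 94) (nat_lit 0) (nat_lit 0) (XT.lf (nat_lit 0) (nat_lit 20989577481) (nat_lit 84) (nat_lit 15531967666) (nat_lit 168) (nat_lit 23300399877) (nat_lit 5) (nat_lit 5) (nat_lit 6) (nat_lit 5) (nat_lit 7) (nat_lit 4) (nat_lit 402) (nat_lit 291) (nat_lit 168)) (XT.lf (nat_lit 0) (nat_lit 27564347263) (nat_lit 84) (nat_lit 12213270949) (nat_lit 168) (nat_lit 21770777805) (nat_lit 5) (nat_lit 5) (nat_lit 6) (nat_lit 5) (nat_lit 7) (nat_lit 4) (nat_lit 403) (nat_lit 291) (nat_lit 167))))) (XT.nd (nat_lit 282) (nat_lit 0) (nat_lit 0) (XT.nd (nat_lit 94) (nat_lit 0) (nat_lit 0) (XT.lf (nat_lit 0) (nat_lit 34335108993) (nat_lit 84) (nat_lit 8794515276) (nat_lit 168) (nat_lit 20198913022) (nat_lit 5) (nat_lit 5) (nat_lit 6) (nat_lit 5) (nat_lit 7) (nat_lit 4) (nat_lit 404) (nat_lit 291) (nat_lit 166)) (XT.nd (nat_lit 94) (nat_lit 0) (nat_lit 0) (XT.lf (nat_lit 0) (nat_lit 41308173730) (nat_lit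 84) (nat_lit 5272514010) (nat_lit 168) (nat_lit 18583340385) (nat_lit 5) (nat_lit 5) (nat_lit 6) (nat_lit 5) (nat_lit 7) (nat_lit 4) (nat_lit 405) (nat_lit 291) (nat_lit 165)) (XT.lf (nat_lit 0) (nat_lit 48490041101) (nat_lit 84) (nat_lit 1643984277) (nat_lit 168) (nat_lit 16922554013) (nat_lit 5) (nat_lit 5) (nat_lit 6) (nat_lit 5) (nat_lit 7) (nat_lit 4) (nat_lit 406) (nat_lit 291) (nat_lit 164)))) (XT.nd (nat_lit 94) (nat_lit 0) (nat_lit 0) (XT.lf (nat_lit 0) (nat_lit 53813726528) (nat_lit 168) (nat_lit 13141327047) (nat_lit 0) (nat_lit 2052257470) (nat_lit 5) (nat_lit 5) (nat_lit 7) (nat_lit 4) (nat_lit 5) (nat_lit 4) (nat_lit 407) (nat_lit 291) (nat_lit 163)) (XT.nd (nat_lit 94) (nat_lit 0) (nat_lit 0) (XT.lf (nat_lit 0) (nat_lit 57619857849) (nat_lit 168) (nat_lit 7571800595) (nat_lit 0) (nat_lit 5826487193) (nat_lit 5) (nat_lit 5) (nat_lit 7) (nat_lit 4) (nat_lit 5) (nat_lit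 4) (nat_lit 408) (nat_lit 291) (nat_lit 162)) (XT.lf (nat_lit 0) (nat_lit 61539658527) (nat_lit 168) (nat_lit 1836459023) (nat_lit 0) (nat_lit 9715345486) (nat_lit 5) (nat_lit 5) (nat_lit 7) (nat_lit 4) (nat_lit 5) (nat_lit 4) (nat_lit 409) (nat_lit 291) (nat_lit 161))))))) (XT.nd (nat_lit 43522) (nat_lit 0) (nat_lit 10920) (XT.nd (nat_lit 42958) (nat_lit 0) (nat_lit 13188) (XT.nd (nat_lit 282) (nat_lit 84) (nat_lit 0) (XT.nd (nat_lit 94) (nat_lit 0) (nat_lit 0) (XT.lf (nat_lit 0) (nat_lit 4153732050) (nat_lit 84) (nat_lit 61464255713) (nat_lit 84) (nat_lit 9609930660) (nat_lit 4) (nat_lit 4) (nat_lit 5) (nat_lit 5) (nat_lit 5) (nat_lit 4) (nat_lit 410) (nat_lit 291) (nat_lit 160)) (XT.nd (nat_lit 94) (nat_lit 0) (nat_lit 0) (XT.lf (nat_lit 0) (nat_lit 10361983652) (nat_lit 84) (nat_lit 59475800480) (nat_lit 84) (nat_lit 7592365812) (nat_lit 4) (nat_lit 4) (nat_lit 5) (nat_lit 5) (nat_lit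 5) (nat_lit 4) (nat_lit 411) (nat_lit 291) (nat_lit 159)) (XT.lf (nat_lit 0) (nat_lit 16756321159) (nat_lit 84) (nat_lit 57428067269) (nat_lit 84) (nat_lit 5516398251) (nat_lit 4) (nat_lit 4) (nat_lit 5) (nat_lit 5) (nat_lit 5) (nat_lit 4) (nat_lit 412) (nat_lit 291) (nat_lit 158)))) (XT.nd (nat_lit 94) (nat_lit 84) (nat_lit 0) (XT.lf (nat_lit 0) (nat_lit 23342704763) (nat_lit 84) (nat_lit 55319147378) (nat_lit 84) (nat_lit 3380092958) (nat_lit 4) (nat_lit 4) (nat_lit 5) (nat_lit 5) (nat_lit 5) (nat_lit 4) (nat_lit 413) (nat_lit 291) (nat_lit 157)) (XT.nd (nat_lit 94) (nat_lit 84) (nat_lit 0) (XT.lf (nat_lit 0) (nat_lit 30127273664) (nat_lit 84) (nat_lit 53147075072) (nat_lit 84) (nat_lit 1181458671) (nat_lit 4) (nat_lit 4) (nat_lit 5) (nat_lit 5) (nat_lit 5) (nat_lit 4) (nat_lit 414) (nat_lit 291) (nat_lit 156)) (XT.lf (nat_lit 0) (nat_lit 1059763062) (nat_lit 168) (nat_lit 49839000938)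 (nat_lit 84) (nat_lit 36045526975) (nat_lit 3) (nat_lit 5) (nat_lit 5) (nat_lit 5) (nat_lit 4) (nat_lit 4) (nat_lit 415) (nat_lit 291) (nat_lit 155))))) (XT.nd (nat_lit 282) (nat_lit 420) (nat_lit 0) (XT.nd (nat_lit 94) (nat_lit 0) (nat_lit 0) (XT.lf (nat_lit 0) (nat_lit 1227189055) (nat_lit 420) (nat_lit 1028242397) (nat_lit 420) (nat_lit 1028242397) (nat_lit 165) (nat_lit 3) (nat_lit 170) (nat_lit 3) (nat_lit 170) (nat_lit 5) (nat_lit 292) (nat_lit 292) (nat_lit 277)) (XT.nd (nat_lit 94) (nat_lit 0) (nat_lit 0) (XT.lf (nat_lit 84) (nat_lit 415867711) (nat_lit 0) (nat_lit 3981923317) (nat_lit 420) (nat_lit 2196228880) (nat_lit 166) (nat_lit 5) (nat_lit 165) (nat_lit 3) (nat_lit 170) (nat_lit 5) (nat_lit 293) (nat_lit 292) (nat_lit 276)) (XT.lf (nat_lit 84) (nat_lit 2967824028) (nat_lit 0) (nat_lit 3378076409) (nat_lit 420) (nat_lit 277987498) (nat_lit 166) (nat_lit 5) (nat_lit 165)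 (nat_lit 3) (nat_lit 170) (nat_lit 5) (nat_lit 294) (nat_lit 292) (nat_lit 275)))) (XT.nd (nat_lit 94) (nat_lit 0) (nat_lit 0) (XT.lf (nat_lit 0) (nat_lit 1589395835) (nat_lit 420) (nat_lit 1114238950) (nat_lit 504) (nat_lit 3953491433) (nat_lit 160) (nat_lit 5) (nat_lit 165) (nat_lit 3) (nat_lit 166) (nat_lit 5) (nat_lit 295) (nat_lit 292) (nat_lit 274)) (XT.nd (nat_lit 94) (nat_lit 0) (nat_lit 0) (XT.lf (nat_lit 84) (nat_lit 1493289662) (nat_lit 0) (nat_lit 1956627083) (nat_lit 504) (nat_lit 3243808619) (nat_lit 161) (nat_lit 5) (nat_lit 160) (nat_lit 5) (nat_lit 166) (nat_lit 5) (nat_lit 296) (nat_lit 292) (nat_lit 273)) (XT.lf (nat_lit 84) (nat_lit 4165345090) (nat_lit 0) (nat_lit 1142431249) (nat_lit 504) (nat_lit 1426125790) (nat_lit 161) (nat_lit 5) (nat_lit 160) (nat_lit 5) (nat_lit 166) (nat_lit 5) (nat_lit 297) (nat_lit 292) (nat_lit 272)))))) (XT.nd (nat_lit 564) (nat_lit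 1260) (nat_lit 0) (XT.nd (nat_lit 282) (nat_lit 504) (nat_lit 0) (XT.nd (nat_lit 94) (nat_lit 0) (nat_lit 84) (XT.lf (nat_lit 84) (nat_lit 101790280) (nat_lit 0) (nat_lit 267038385) (nat_lit 588) (nat_lit 6409068252) (nat_lit 155) (nat_lit 5) (nat_lit 154) (nat_lit 5) (nat_lit 161) (nat_lit 5) (nat_lit 298) (nat_lit 292) (nat_lit 271)) (XT.nd (nat_lit 94) (nat_lit 0) (nat_lit 0) (XT.lf (nat_lit 0) (nat_lit 2154154079) (nat_lit 504) (nat_lit 3977492441) (nat_lit 588) (nat_lit 692784442) (nat_lit 155) (nat_lit 5) (nat_lit 161) (nat_lit 5) (nat_lit 162) (nat_lit 5) (nat_lit 299) (nat_lit 292) (nat_lit 270)) (XT.lf (nat_lit 0) (nat_lit 3930594090) (nat_lit 504) (nat_lit 1239925385) (nat_lit 588) (nat_lit 1704385994) (nat_lit 155) (nat_lit 5) (nat_lit 161) (nat_lit 5) (nat_lit 162) (nat_lit 5) (nat_lit 300) (nat_lit 292) (nat_lit 269)))) (XT.nd (nat_lit 94) (nat_lit 588) (nat_lit 0) (XT.lf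 (nat_lit 84) (nat_lit 1573497756) (nat_lit 0) (nat_lit 4139267009) (nat_lit 588) (nat_lit 1216200953) (nat_lit 156) (nat_lit 5) (nat_lit 155) (nat_lit 5) (nat_lit 162) (nat_lit 5) (nat_lit 301) (nat_lit 292) (nat_lit 268)) (XT.nd (nat_lit 94) (nat_lit 0) (nat_lit 0) (XT.lf (nat_lit 0) (nat_lit 502651660) (nat_lit 588) (nat_lit 2531707540) (nat_lit 672) (nat_lit 3952225664) (nat_lit 148) (nat_lit 5) (nat_lit 155) (nat_lit 5) (nat_lit 156) (nat_lit 5) (nat_lit 302) (nat_lit 292) (nat_lit 267)) (XT.lf (nat_lit 84) (nat_lit 333038361) (nat_lit 0) (nat_lit 1857219768) (nat_lit 672) (nat_lit 4857632260) (nat_lit 149) (nat_lit 5) (nat_lit 148) (nat_lit 5) (nat_lit 156) (nat_lit 5) (nat_lit 303) (nat_lit 292) (nat_lit 266))))) (XT.nd (nat_lit 282) (nat_lit 672) (nat_lit 0) (XT.nd (nat_lit 94) (nat_lit 588) (nat_lit 0) (XT.lf (nat_lit 84) (nat_lit 3299853346) (nat_lit 0) (nat_lit 595662404)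 (nat_lit 672) (nat_lit 3217090262) (nat_lit 149) (nat_lit 5) (nat_lit 148) (nat_lit 5) (nat_lit 156) (nat_lit 5) (nat_lit 304) (nat_lit 292) (nat_lit 265)) (XT.nd (nat_lit 94) (nat_lit 672) (nat_lit 0) (XT.lf (nat_lit 0) (nat_lit 5601575448) (nat_lit 588) (nat_lit 869333641) (nat_lit 84) (nat_lit 710454557) (nat_lit 149) (nat_lit 5) (nat_lit 156) (nat_lit 5) (nat_lit 150) (nat_lit 5) (nat_lit 305) (nat_lit 292) (nat_lit 264)) (XT.lf (nat_lit 0) (nat_lit 75648287) (nat_lit 672) (nat_lit 5091942171) (nat_lit 84) (nat_lit 2085969619) (nat_lit 141) (nat_lit 5) (nat_lit 149) (nat_lit 5) (nat_lit 142) (nat_lit 5) (nat_lit 306) (nat_lit 292) (nat_lit 263)))) (XT.nd (nat_lit 94) (nat_lit 672) (nat_lit 0) (XT.lf (nat_lit 0) (nat_lit 1701839602) (nat_lit 672) (nat_lit 2080550863) (nat_lit 84) (nat_lit 3546968445) (nat_lit 141) (nat_lit 5) (nat_lit 149) (nat_lit 5) (nat_lit 142) (nat_lit 5) (nat_lit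 307) (nat_lit 292) (nat_lit 262)) (XT.nd (nat_lit 94) (nat_lit 0) (nat_lit 0) (XT.lf (nat_lit 0) (nat_lit 1004128098) (nat_lit 672) (nat_lit 2329072475) (nat_lit 756) (nat_lit 4076082881) (nat_lit 133) (nat_lit 5) (nat_lit 141) (nat_lit 5) (nat_lit 142) (nat_lit 5) (nat_lit 308) (nat_lit 292) (nat_lit 261)) (XT.lf (nat_lit 0) (nat_lit 4188650240) (nat_lit 672) (nat_lit 794260979) (nat_lit 756) (nat_lit 2510135545) (nat_lit 133) (nat_lit 5) (nat_lit 141) (nat_lit 5) (nat_lit 142) (nat_lit 5) (nat_lit 309) (nat_lit 292) (nat_lit 260))))))))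
noncomputable def xc97 : XT := (XT.nd (nat_lit 2256) (nat_lit 2604) (nat_lit 0) (XT.nd (nat_lit 1128) (nat_lit 2352) (nat_lit 0) (XT.nd (nat_lit 564) (nat_lit 1680) (nat_lit 0) (XT.nd (nat_lit 282) (nat_lit 1764) (nat_lit 0) (XT.nd (nat_lit 94) (nat_lit 840) (nat_lit 0) (XT.lf (nat_lit 0) (nat_lit 6639399073) (nat_lit 756) (nat_lit 156129956) (nat_lit 84) (nat_lit 785604304) (nat_lit 133) (nat_lit 5) (nat_lit 142) (nat_lit 5) (nat_lit 134) (nat_lit 5) (nat_lit 310) (nat_lit 292) (nat_lit 259)) (XT.nd (nat_lit 94) (nat_lit 0) (nat_lit 0) (XT.lf (nat_lit 0) (nat_lit 649536629) (nat_lit 840) (nat_lit 4574640502) (nat_lit 84) (nat_lit 2448272801) (nat_lit 123) (nat_lit 5) (nat_lit 133) (nat_lit 5) (nat_lit 124) (nat_lit 5) (nat_lit 311) (nat_lit 292) (nat_lit 258)) (XT.lf (nat_lit 0) (nat_lit 2221911413) (nat_lit 840) (nat_lit 1360789581) (nat_lit 84) (nat_lit 4185426905) (nat_lit 123)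 (nat_lit 5) (nat_lit 133) (nat_lit 5) (nat_lit 124) (nat_lit 5) (nat_lit 312) (nat_lit 292) (nat_lit 257)))) (XT.nd (nat_lit 94) (nat_lit 924) (nat_lit 0) (XT.lf (nat_lit 0) (nat_lit 1952727150) (nat_lit 840) (nat_lit 1860876858) (nat_lit 924) (nat_lit 4054391007) (nat_lit 113) (nat_lit 5) (nat_lit 123) (nat_lit 5) (nat_lit 124) (nat_lit 5) (nat_lit 313) (nat_lit 292) (nat_lit 256)) (XT.nd (nat_lit 94) (nat_lit 924) (nat_lit 0) (XT.lf (nat_lit 0) (nat_lit 5358902203) (nat_lit 840) (nat_lit 62224868) (nat_lit 924) (nat_lit 2551171396) (nat_lit 113) (nat_lit 5) (nat_lit 123) (nat_lit 5) (nat_lit 124) (nat_lit 5) (nat_lit 314) (nat_lit 292) (nat_lit 255)) (XT.lf (nat_lit 0) (nat_lit 748586208) (nat_lit 924) (nat_lit 6308905509) (nat_lit 1008) (nat_lit 1023286864) (nat_lit 102) (nat_lit 5) (nat_lit 113) (nat_lit 5) (nat_lit 114) (nat_lit 5) (nat_lit 315) (nat_lit 292) (nat_lit 254)))))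 (XT.nd (nat_lit 282) (nat_lit 588) (nat_lit 0) (XT.nd (nat_lit 94) (nat_lit 1008) (nat_lit 0) (XT.lf (nat_lit 0) (nat_lit 523099192) (nat_lit 1008) (nat_lit 3968344221) (nat_lit 84) (nat_lit 3701833618) (nat_lit 101) (nat_lit 5) (nat_lit 113) (nat_lit 5) (nat_lit 102) (nat_lit 5) (nat_lit 316) (nat_lit 292) (nat_lit 253)) (XT.nd (nat_lit 94) (nat_lit 1008) (nat_lit 0) (XT.lf (nat_lit 0) (nat_lit 2051612343) (nat_lit 1008) (nat_lit 549838850) (nat_lit 84) (nat_lit 5709135411) (nat_lit 101) (nat_lit 5) (nat_lit 113) (nat_lit 5) (nat_lit 102) (nat_lit 5) (nat_lit 317) (nat_lit 292) (nat_lit 252)) (XT.lf (nat_lit 0) (nat_lit 2997045055) (nat_lit 1008) (nat_lit 616980276) (nat_lit 1092) (nat_lit 4818184340) (nat_lit 89) (nat_lit 5) (nat_lit 101) (nat_lit 5) (nat_lit 102) (nat_lit 5) (nat_lit 318) (nat_lit 292) (nat_lit 251)))) (XT.nd (nat_lit 94) (nat_lit 588) (nat_lit 0) (XT.lf (nat_lit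 0) (nat_lit 5202604844) (nat_lit 1092) (nat_lit 1945324157) (nat_lit 84) (nat_lit 1410615471) (nat_lit 89) (nat_lit 5) (nat_lit 102) (nat_lit 5) (nat_lit 90) (nat_lit 5) (nat_lit 319) (nat_lit 292) (nat_lit 250)) (XT.nd (nat_lit 94) (nat_lit 0) (nat_lit 0) (XT.lf (nat_lit 0) (nat_lit 1641438143) (nat_lit 588) (nat_lit 5180613722) (nat_lit 672) (nat_lit 1867557074) (nat_lit 82) (nat_lit 5) (nat_lit 89) (nat_lit 5) (nat_lit 90) (nat_lit 5) (nat_lit 320) (nat_lit 292) (nat_lit 249)) (XT.lf (nat_lit 0) (nat_lit 5342990609) (nat_lit 588) (nat_lit 3128902901) (nat_lit 672) (nat_lit 353693180) (nat_lit 82) (nat_lit 5) (nat_lit 89) (nat_lit 5) (nat_lit 90) (nat_lit 5) (nat_lit 321) (nat_lit 292) (nat_lit 248)))))) (XT.nd (nat_lit 564) (nat_lit 840) (nat_lit 0) (XT.nd (nat_lit 282) (nat_lit 924) (nat_lit 0) (XT.nd (nat_lit 94) (nat_lit 0) (nat_lit 0) (XT.lf (nat_lit 0) (nat_lit 146955047) (nat_lit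 504) (nat_lit 997753130) (nat_lit 588) (nat_lit 7822102832) (nat_lit 75) (nat_lit 5) (nat_lit 81) (nat_lit 5) (nat_lit 82) (nat_lit 5) (nat_lit 322) (nat_lit 292) (nat_lit 247)) (XT.nd (nat_lit 94) (nat_lit 0) (nat_lit 0) (XT.lf (nat_lit 0) (nat_lit 2692140224) (nat_lit 588) (nat_lit 5202916434) (nat_lit 84) (nat_lit 1217152293) (nat_lit 75) (nat_lit 5) (nat_lit 82) (nat_lit 5) (nat_lit 76) (nat_lit 5) (nat_lit 323) (nat_lit 292) (nat_lit 246)) (XT.lf (nat_lit 0) (nat_lit 4260216318) (nat_lit 588) (nat_lit 1521489480) (nat_lit 84) (nat_lit 3481464623) (nat_lit 75) (nat_lit 5) (nat_lit 82) (nat_lit 5) (nat_lit 76) (nat_lit 5) (nat_lit 324) (nat_lit 292) (nat_lit 245)))) (XT.nd (nat_lit 94) (nat_lit 420) (nat_lit 0) (XT.lf (nat_lit 0) (nat_lit 2283767025) (nat_lit 504) (nat_lit 3579388462) (nat_lit 588) (nat_lit 3556285164) (nat_lit 69) (nat_lit 5) (nat_lit 75) (nat_lit 5) (nat_lit 76)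 (nat_lit 5) (nat_lit 325) (nat_lit 292) (nat_lit 244)) (XT.nd (nat_lit 94) (nat_lit 420) (nat_lit 0) (XT.lf (nat_lit 0) (nat_lit 6203301340) (nat_lit 504) (nat_lit 1292701144) (nat_lit 588) (nat_lit 2085362747) (nat_lit 69) (nat_lit 5) (nat_lit 75) (nat_lit 5) (nat_lit 76) (nat_lit 5) (nat_lit 326) (nat_lit 292) (nat_lit 243)) (XT.lf (nat_lit 0) (nat_lit 458587825) (nat_lit 420) (nat_lit 8701398029) (nat_lit 504) (nat_lit 589118336) (nat_lit 64) (nat_lit 5) (nat_lit 69) (nat_lit 5) (nat_lit 70) (nat_lit 5) (nat_lit 327) (nat_lit 292) (nat_lit 242))))) (XT.nd (nat_lit 282) (nat_lit 336) (nat_lit 0) (XT.nd (nat_lit 94) (nat_lit 420) (nat_lit 0) (XT.lf (nat_lit 0) (nat_lit 948703109) (nat_lit 504) (nat_lit 5494843588) (nat_lit 84) (nat_lit 3477936067) (nat_lit 63) (nat_lit 5) (nat_lit 69) (nat_lit 5) (nat_lit 64) (nat_lit 5) (nat_lit 328) (nat_lit 292) (nat_lit 241)) (XT.nd (nat_lit 94)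 (nat_lit 420) (nat_lit 0) (XT.lf (nat_lit 0) (nat_lit 2488557680) (nat_lit 504) (nat_lit 1623070179) (nat_lit 84) (nat_lit 5988599972) (nat_lit 63) (nat_lit 5) (nat_lit 69) (nat_lit 5) (nat_lit 64) (nat_lit 5) (nat_lit 329) (nat_lit 292) (nat_lit 240)) (XT.lf (nat_lit 0) (nat_lit 2382253995) (nat_lit 420) (nat_lit 1685128364) (nat_lit 504) (nat_lit 6217572211) (nat_lit 58) (nat_lit 5) (nat_lit 63) (nat_lit 5) (nat_lit 64) (nat_lit 5) (nat_lit 330) (nat_lit 292) (nat_lit 239)))) (XT.nd (nat_lit 94) (nat_lit 336) (nat_lit 0) (XT.lf (nat_lit 0) (nat_lit 5688580678) (nat_lit 504) (nat_lit 3972252471) (nat_lit 84) (nat_lit 814942126) (nat_lit 58) (nat_lit 5) (nat_lit 64) (nat_lit 5) (nat_lit 59) (nat_lit 5) (nat_lit 331) (nat_lit 292) (nat_lit 238)) (XT.nd (nat_lit 94) (nat_lit 0) (nat_lit 0) (XT.lf (nat_lit 0) (nat_lit 29205559) (nat_lit 336) (nat_lit 7317525504) (nat_lit 420) (nat_lit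 3326351660) (nat_lit 54) (nat_lit 5) (nat_lit 58) (nat_lit 5) (nat_lit 59) (nat_lit 5) (nat_lit 332) (nat_lit 292) (nat_lit 237)) (XT.lf (nat_lit 0) (nat_lit 4205077081) (nat_lit 336) (nat_lit 4862430773) (nat_lit 420) (nat_lit 1808804984) (nat_lit 54) (nat_lit 5) (nat_lit 58) (nat_lit 5) (nat_lit 59) (nat_lit 5) (nat_lit 333) (nat_lit 292) (nat_lit 236))))))) (XT.nd (nat_lit 1128) (nat_lit 1092) (nat_lit 0) (XT.nd (nat_lit 564) (nat_lit 672) (nat_lit 0) (XT.nd (nat_lit 282) (nat_lit 336) (nat_lit 0) (XT.nd (nat_lit 94) (nat_lit 504) (nat_lit 0) (XT.lf (nat_lit 0) (nat_lit 8477576785) (nat_lit 336) (nat_lit 2334722717) (nat_lit 420) (nat_lit 274602224) (nat_lit 54) (nat_lit 5) (nat_lit 58) (nat_lit 5) (nat_lit 59) (nat_lit 5) (nat_lit 334) (nat_lit 292) (nat_lit 235)) (XT.nd (nat_lit 94) (nat_lit 0) (nat_lit 0) (XT.lf (nat_lit 0) (nat_lit 1270410536) (nat_lit 504) (nat_lit 9742630626)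 (nat_lit 84) (nat_lit 291039143) (nat_lit 48) (nat_lit 5) (nat_lit 54) (nat_lit 5) (nat_lit 49) (nat_lit 5) (nat_lit 335) (nat_lit 292) (nat_lit 234)) (XT.lf (nat_lit 0) (nat_lit 2880637259) (nat_lit 504) (nat_lit 5670495705) (nat_lit 84) (nat_lit 2976194044) (nat_lit 48) (nat_lit 5) (nat_lit 54) (nat_lit 5) (nat_lit 49) (nat_lit 5) (nat_lit 336) (nat_lit 292) (nat_lit 233)))) (XT.nd (nat_lit 94) (nat_lit 336) (nat_lit 0) (XT.lf (nat_lit 0) (nat_lit 4513263473) (nat_lit 504) (nat_lit 1504343243) (nat_lit 84) (nat_lit 5740872946) (nat_lit 48) (nat_lit 5) (nat_lit 54) (nat_lit 5) (nat_lit 49) (nat_lit 5) (nat_lit 337) (nat_lit 292) (nat_lit 232)) (XT.nd (nat_lit 94) (nat_lit 0) (nat_lit 0) (XT.lf (nat_lit 0) (nat_lit 2816455349) (nat_lit 336) (nat_lit 3381295192) (nat_lit 420) (nat_lit 5799137055) (nat_lit 44) (nat_lit 5) (nat_lit 48) (nat_lit 5) (nat_lit 49) (nat_lit 5) (nat_lit 338)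 (nat_lit 292) (nat_lit 231)) (XT.lf (nat_lit 0) (nat_lit 7272156468) (nat_lit 336) (nat_lit 651808008) (nat_lit 420) (nat_lit 4319171384) (nat_lit 44) (nat_lit 5) (nat_lit 48) (nat_lit 5) (nat_lit 49) (nat_lit 5) (nat_lit 339) (nat_lit 292) (nat_lit 230))))) (XT.nd (nat_lit 282) (nat_lit 252) (nat_lit 0) (XT.nd (nat_lit 94) (nat_lit 420) (nat_lit 0) (XT.lf (nat_lit 0) (nat_lit 9699688785) (nat_lit 420) (nat_lit 683349826) (nat_lit 84) (nat_lit 2114223963) (nat_lit 44) (nat_lit 5) (nat_lit 49) (nat_lit 5) (nat_lit 45) (nat_lit 5) (nat_lit 340) (nat_lit 292) (nat_lit 229)) (XT.nd (nat_lit 94) (nat_lit 84) (nat_lit 0) (XT.lf (nat_lit 0) (nat_lit 3776683521) (nat_lit 336) (nat_lit 7773221483) (nat_lit 420) (nat_lit 1208876488) (nat_lit 40) (nat_lit 5) (nat_lit 44) (nat_lit 5) (nat_lit 45) (nat_lit 5) (nat_lit 341) (nat_lit 292) (nat_lit 228)) (XT.lf (nat_lit 0) (nat_lit 403033319) (nat_lit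 420) (nat_lit 4673302046) (nat_lit 84) (nat_lit 7952589463) (nat_lit 39) (nat_lit 5) (nat_lit 44) (nat_lit 5) (nat_lit 40) (nat_lit 5) (nat_lit 342) (nat_lit 292) (nat_lit 227)))) (XT.nd (nat_lit 94) (nat_lit 252) (nat_lit 0) (XT.lf (nat_lit 0) (nat_lit 2015942715) (nat_lit 420) (nat_lit 272638672) (nat_lit 84) (nat_lit 11019324360) (nat_lit 39) (nat_lit 5) (nat_lit 44) (nat_lit 5) (nat_lit 40) (nat_lit 5) (nat_lit 343) (nat_lit 292) (nat_lit 226)) (XT.nd (nat_lit 94) (nat_lit 0) (nat_lit 0) (XT.lf (nat_lit 0) (nat_lit 3704791840) (nat_lit 336) (nat_lit 9278134812) (nat_lit 84) (nat_lit 611907894) (nat_lit 36) (nat_lit 5) (nat_lit 40) (nat_lit 5) (nat_lit 37) (nat_lit 5) (nat_lit 344) (nat_lit 292) (nat_lit 225)) (XT.lf (nat_lit 0) (nat_lit 5449498267) (nat_lit 336) (nat_lit 4888840232) (nat_lit 84) (nat_lit 3552311530) (nat_lit 36) (nat_lit 5) (nat_lit 40) (nat_lit 5) (nat_lit 37)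 (nat_lit 5) (nat_lit 345) (nat_lit 292) (nat_lit 224)))))) (XT.nd (nat_lit 564) (nat_lit 420) (nat_lit 0) (XT.nd (nat_lit 282) (nat_lit 336) (nat_lit 0) (XT.nd (nat_lit 94) (nat_lit 336) (nat_lit 0) (XT.lf (nat_lit 0) (nat_lit 7226196782) (nat_lit 336) (nat_lit 391529733) (nat_lit 84) (nat_lit 6578691648) (nat_lit 36) (nat_lit 5) (nat_lit 40) (nat_lit 5) (nat_lit 37) (nat_lit 5) (nat_lit 346) (nat_lit 292) (nat_lit 223)) (XT.nd (nat_lit 94) (nat_lit 0) (nat_lit 0) (XT.lf (nat_lit 0) (nat_lit 4304719146) (nat_lit 336) (nat_lit 4774527654) (nat_lit 420) (nat_lit 5431853350) (nat_lit 32) (nat_lit 5) (nat_lit 36) (nat_lit 5) (nat_lit 37) (nat_lit 5) (nat_lit 347) (nat_lit 292) (nat_lit 222)) (XT.lf (nat_lit 0) (nat_lit 9127918687) (nat_lit 336) (nat_lit 1844857111) (nat_lit 420) (nat_lit 3863379104) (nat_lit 32) (nat_lit 5) (nat_lit 36) (nat_lit 5) (nat_lit 37) (nat_lit 5) (nat_lit 348)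 (nat_lit 292) (nat_lit 221)))) (XT.nd (nat_lit 94) (nat_lit 336) (nat_lit 0) (XT.lf (nat_lit 0) (nat_lit 12916190697) (nat_lit 420) (nat_lit 1109100162) (nat_lit 84) (nat_lit 1146357642) (nat_lit 32) (nat_lit 5) (nat_lit 37) (nat_lit 5) (nat_lit 33) (nat_lit 5) (nat_lit 349) (nat_lit 292) (nat_lit 220)) (XT.nd (nat_lit 94) (nat_lit 84) (nat_lit 0) (XT.lf (nat_lit 0) (nat_lit 3661528892) (nat_lit 252) (nat_lit 11293653677) (nat_lit 336) (nat_lit 561350826) (nat_lit 29) (nat_lit 5) (nat_lit 32) (nat_lit 5) (nat_lit 33) (nat_lit 5) (nat_lit 350) (nat_lit 292) (nat_lit 219)) (XT.lf (nat_lit 0) (nat_lit 1153288128) (nat_lit 336) (nat_lit 7306276050) (nat_lit 84) (nat_lit 7412513440) (nat_lit 28) (nat_lit 5) (nat_lit 32) (nat_lit 5) (nat_lit 29) (nat_lit 5) (nat_lit 351) (nat_lit 292) (nat_lit 218))))) (XT.nd (nat_lit 282) (nat_lit 168) (nat_lit 0) (XT.nd (nat_lit 94) (nat_lit 252) (nat_lit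 0) (XT.lf (nat_lit 0) (nat_lit 2890215801) (nat_lit 336) (nat_lit 2647698808) (nat_lit 84) (nat_lit 10701225170) (nat_lit 28) (nat_lit 5) (nat_lit 32) (nat_lit 5) (nat_lit 29) (nat_lit 5) (nat_lit 352) (nat_lit 292) (nat_lit 217)) (XT.nd (nat_lit 94) (nat_lit 0) (nat_lit 0) (XT.lf (nat_lit 0) (nat_lit 2174448461) (nat_lit 252) (nat_lit 2509483493) (nat_lit 336) (nat_lit 11933634002) (nat_lit 25) (nat_lit 5) (nat_lit 28) (nat_lit 5) (nat_lit 29) (nat_lit 5) (nat_lit 353) (nat_lit 292) (nat_lit 216)) (XT.lf (nat_lit 0) (nat_lit 6548882250) (nat_lit 336) (nat_lit 9836004163) (nat_lit 84) (nat_lit 622426480) (nat_lit 25) (nat_lit 5) (nat_lit 29) (nat_lit 5) (nat_lit 26) (nat_lit 5) (nat_lit 354) (nat_lit 292) (nat_lit 215)))) (XT.nd (nat_lit 188) (nat_lit 168) (nat_lit 0) (XT.nd (nat_lit 94) (nat_lit 0) (nat_lit 0) (XT.lf (nat_lit 0) (nat_lit 8479494853) (nat_lit 336) (nat_lit 5135972780)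 (nat_lit 84) (nat_lit 3793502859) (nat_lit 25) (nat_lit 5) (nat_lit 29) (nat_lit 5) (nat_lit 26) (nat_lit 5) (nat_lit 355) (nat_lit 292) (nat_lit 214)) (XT.lf (nat_lit 0) (nat_lit 10452674909) (nat_lit 336) (nat_lit 313748038) (nat_lit 84) (nat_lit 7057261918) (nat_lit 25) (nat_lit 5) (nat_lit 29) (nat_lit 5) (nat_lit 26) (nat_lit 5) (nat_lit 356) (nat_lit 292) (nat_lit 213))) (XT.nd (nat_lit 94) (nat_lit 0) (nat_lit 0) (XT.lf (nat_lit 0) (nat_lit 4730473377) (nat_lit 168) (nat_lit 7786715133) (nat_lit 252) (nat_lit 5733199327) (nat_lit 23) (nat_lit 5) (nat_lit 25) (nat_lit 5) (nat_lit 26) (nat_lit 5) (nat_lit 357) (nat_lit 292) (nat_lit 212)) (XT.lf (nat_lit 0) (nat_lit 9915146998) (nat_lit 168) (nat_lit 4717348101) (nat_lit 252) (nat_lit 4058298451) (nat_lit 23) (nat_lit 5) (nat_lit 25) (nat_lit 5) (nat_lit 26) (nat_lit 5) (nat_lit 358) (nat_lit 292) (nat_lit 211))))))))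
noncomputable def xc98 : XT := (XT.nd (nat_lit 2256) (nat_lit 420) (nat_lit 0) (XT.nd (nat_lit 1128) (nat_lit 420) (nat_lit 0) (XT.nd (nat_lit 564) (nat_lit 168) (nat_lit 0) (XT.nd (nat_lit 282) (nat_lit 168) (nat_lit 0) (XT.nd (nat_lit 94) (nat_lit 336) (nat_lit 0) (XT.lf (nat_lit 0) (nat_lit 15238654181) (nat_lit 168) (nat_lit 1558735766) (nat_lit 252) (nat_lit 2348021031) (nat_lit 23) (nat_lit 5) (nat_lit 25) (nat_lit 5) (nat_lit 26) (nat_lit 5) (nat_lit 359) (nat_lit 292) (nat_lit 210)) (XT.nd (nat_lit 94) (nat_lit 84) (nat_lit 0) (XT.lf (nat_lit 0) (nat_lit 1096601693) (nat_lit 252) (nat_lit 17944953198) (nat_lit 336) (nat_lit 572251399) (nat_lit 20) (nat_lit 5) (nat_lit 23) (nat_lit 5) (nat_lit 24) (nat_lit 5) (nat_lit 360) (nat_lit 292) (nat_lit 209)) (XT.lf (nat_lit 0) (nat_lit 1274824676) (nat_lit 336) (nat_lit 13808292551) (nat_lit 84) (nat_lit 5011985532) (nat_lit 19) (nat_lit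 5) (nat_lit 23) (nat_lit 5) (nat_lit 20) (nat_lit 5) (nat_lit 361) (nat_lit 292) (nat_lit 208)))) (XT.nd (nat_lit 94) (nat_lit 168) (nat_lit 0) (XT.lf (nat_lit 0) (nat_lit 3152216955) (nat_lit 336) (nat_lit 8980475159) (nat_lit 84) (nat_lit 8458968865) (nat_lit 19) (nat_lit 5) (nat_lit 23) (nat_lit 5) (nat_lit 20) (nat_lit 5) (nat_lit 362) (nat_lit 292) (nat_lit 207)) (XT.nd (nat_lit 94) (nat_lit 168) (nat_lit 0) (XT.lf (nat_lit 0) (nat_lit 5073204952) (nat_lit 336) (nat_lit 4023575586) (nat_lit 84) (nat_lit 12007339237) (nat_lit 19) (nat_lit 5) (nat_lit 23) (nat_lit 5) (nat_lit 20) (nat_lit 5) (nat_lit 363) (nat_lit 292) (nat_lit 206)) (XT.lf (nat_lit 0) (nat_lit 1088966770) (nat_lit 168) (nat_lit 5961415146) (nat_lit 252) (nat_lit 14582240016) (nat_lit 17) (nat_lit 5) (nat_lit 19) (nat_lit 5) (nat_lit 20) (nat_lit 5) (nat_lit 364) (nat_lit 292) (nat_lit 205))))) (XT.nd (nat_lit 282)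 (nat_lit 168) (nat_lit 0) (XT.nd (nat_lit 94) (nat_lit 0) (nat_lit 0) (XT.lf (nat_lit 0) (nat_lit 6425536363) (nat_lit 168) (nat_lit 2691378411) (nat_lit 252) (nat_lit 13059774250) (nat_lit 17) (nat_lit 5) (nat_lit 19) (nat_lit 5) (nat_lit 20) (nat_lit 5) (nat_lit 365) (nat_lit 292) (nat_lit 204)) (XT.nd (nat_lit 94) (nat_lit 0) (nat_lit 0) (XT.lf (nat_lit 0) (nat_lit 11240684593) (nat_lit 252) (nat_lit 10836406430) (nat_lit 84) (nat_lit 660792555) (nat_lit 17) (nat_lit 5) (nat_lit 20) (nat_lit 5) (nat_lit 18) (nat_lit 5) (nat_lit 366) (nat_lit 292) (nat_lit 203)) (XT.lf (nat_lit 0) (nat_lit 13444654279) (nat_lit 252) (nat_lit 5815818742) (nat_lit 84) (nat_lit 4055605183) (nat_lit 17) (nat_lit 5) (nat_lit 20) (nat_lit 5) (nat_lit 18) (nat_lit 5) (nat_lit 367) (nat_lit 292) (nat_lit 202)))) (XT.nd (nat_lit 94) (nat_lit 168) (nat_lit 0) (XT.lf (nat_lit 0) (nat_lit 15704179356) (nat_lit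 252) (nat_lit 658011075) (nat_lit 84) (nat_lit 7550449070) (nat_lit 17) (nat_lit 5) (nat_lit 20) (nat_lit 5) (nat_lit 18) (nat_lit 5) (nat_lit 368) (nat_lit 292) (nat_lit 201)) (XT.nd (nat_lit 94) (nat_lit 0) (nat_lit 0) (XT.lf (nat_lit 0) (nat_lit 4737269611) (nat_lit 168) (nat_lit 13331090629) (nat_lit 252) (nat_lit 6458306466) (nat_lit 15) (nat_lit 5) (nat_lit 17) (nat_lit 5) (nat_lit 18) (nat_lit 5) (nat_lit 369) (nat_lit 292) (nat_lit 200)) (XT.lf (nat_lit 0) (nat_lit 10296069907) (nat_lit 168) (nat_lit 10204442268) (nat_lit 252) (nat_lit 4659425520) (nat_lit 15) (nat_lit 5) (nat_lit 17) (nat_lit 5) (nat_lit 18) (nat_lit 5) (nat_lit 370) (nat_lit 292) (nat_lit 199)))))) (XT.nd (nat_lit 564) (nat_lit 168) (nat_lit 0) (XT.nd (nat_lit 282) (nat_lit 0) (nat_lit 0) (XT.nd (nat_lit 94) (nat_lit 252) (nat_lit 0) (XT.lf (nat_lit 0) (nat_lit 16010041140) (nat_lit 168) (nat_lit 6986199272)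 (nat_lit 252) (nat_lit 2817008847) (nat_lit 15) (nat_lit 5) (nat_lit 17) (nat_lit 5) (nat_lit 18) (nat_lit 5) (nat_lit 371) (nat_lit 292) (nat_lit 198)) (XT.nd (nat_lit 94) (nat_lit 252) (nat_lit 0) (XT.lf (nat_lit 0) (nat_lit 21884509328) (nat_lit 168) (nat_lit 3673361902) (nat_lit 252) (nat_lit 929339123) (nat_lit 15) (nat_lit 5) (nat_lit 17) (nat_lit 5) (nat_lit 18) (nat_lit 5) (nat_lit 372) (nat_lit 292) (nat_lit 197)) (XT.lf (nat_lit 0) (nat_lit 747590055) (nat_lit 168) (nat_lit 244913863) (nat_lit 252) (nat_lit 26189406194) (nat_lit 12) (nat_lit 5) (nat_lit 14) (nat_lit 5) (nat_lit 15) (nat_lit 5) (nat_lit 373) (nat_lit 292) (nat_lit 196)))) (XT.nd (nat_lit 94) (nat_lit 0) (nat_lit 0) (XT.lf (nat_lit 0) (nat_lit 3024642461) (nat_lit 252) (nat_lit 21594544324) (nat_lit 84) (nat_lit 3276531242) (nat_lit 12) (nat_lit 5) (nat_lit 15) (nat_lit 5) (nat_lit 13) (nat_lit 5) (nat_lit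 374) (nat_lit 292) (nat_lit 195)) (XT.nd (nat_lit 94) (nat_lit 0) (nat_lit 0) (XT.lf (nat_lit 0) (nat_lit 5111470763) (nat_lit 252) (nat_lit 16623313558) (nat_lit 84) (nat_lit 6897163859) (nat_lit 12) (nat_lit 5) (nat_lit 15) (nat_lit 5) (nat_lit 13) (nat_lit 5) (nat_lit 375) (nat_lit 292) (nat_lit 194)) (XT.lf (nat_lit 0) (nat_lit 7252504392) (nat_lit 252) (nat_lit 11513564477) (nat_lit 84) (nat_lit 10625293264) (nat_lit 12) (nat_lit 5) (nat_lit 15) (nat_lit 5) (nat_lit 13) (nat_lit 5) (nat_lit 376) (nat_lit 292) (nat_lit 193))))) (XT.nd (nat_lit 282) (nat_lit 0) (nat_lit 0) (XT.nd (nat_lit 94) (nat_lit 168) (nat_lit 0) (XT.lf (nat_lit 0) (nat_lit 9449739015) (nat_lit 252) (nat_lit 6260534259) (nat_lit 84) (nat_lit 14464394464) (nat_lit 12) (nat_lit 5) (nat_lit 15) (nat_lit 5) (nat_lit 13) (nat_lit 5) (nat_lit 377) (nat_lit 292) (nat_lit 192)) (XT.nd (nat_lit 94) (nat_lit 168) (nat_lit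 0) (XT.lf (nat_lit 0) (nat_lit 11705222686) (nat_lit 252) (nat_lit 859326529) (nat_lit 84) (nat_lit 18418045903) (nat_lit 12) (nat_lit 5) (nat_lit 15) (nat_lit 5) (nat_lit 13) (nat_lit 5) (nat_lit 378) (nat_lit 292) (nat_lit 191)) (XT.lf (nat_lit 0) (nat_lit 4791633948) (nat_lit 168) (nat_lit 9276957406) (nat_lit 252) (nat_lit 17745832453) (nat_lit 10) (nat_lit 5) (nat_lit 12) (nat_lit 5) (nat_lit 13) (nat_lit 5) (nat_lit 379) (nat_lit 292) (nat_lit 190)))) (XT.nd (nat_lit 94) (nat_lit 0) (nat_lit 0) (XT.lf (nat_lit 0) (nat_lit 10621910054) (nat_lit 168) (nat_lit 5882863421) (nat_lit 252) (nat_lit 16167311186) (nat_lit 10) (nat_lit 5) (nat_lit 12) (nat_lit 5) (nat_lit 13) (nat_lit 5) (nat_lit 380) (nat_lit 292) (nat_lit 189)) (XT.nd (nat_lit 94) (nat_lit 0) (nat_lit 0) (XT.lf (nat_lit 0) (nat_lit 16619266701) (nat_lit 168) (nat_lit 2388073217) (nat_lit 252) (nat_lit 14549306890) (nat_lit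 10) (nat_lit 5) (nat_lit 12) (nat_lit 5) (nat_lit 13) (nat_lit 5) (nat_lit 381) (nat_lit 292) (nat_lit 188)) (XT.lf (nat_lit 0) (nat_lit 21590633341) (nat_lit 252) (nat_lit 11691650703) (nat_lit 84) (nat_lit 1186278399) (nat_lit 10) (nat_lit 5) (nat_lit 13) (nat_lit 5) (nat_lit 11) (nat_lit 4) (nat_lit 382) (nat_lit 292) (nat_lit 187))))))) (XT.nd (nat_lit 1128) (nat_lit 84) (nat_lit 0) (XT.nd (nat_lit 564) (nat_lit 252) (nat_lit 0) (XT.nd (nat_lit 282) (nat_lit 0) (nat_lit 0) (XT.nd (nat_lit 94) (nat_lit 84) (nat_lit 0) (XT.lf (nat_lit 0) (nat_lit 24269794936) (nat_lit 252) (nat_lit 6320830119) (nat_lit 84) (nat_lit 4817661779) (nat_lit 10) (nat_lit 5) (nat_lit 13) (nat_lit 5) (nat_lit 11) (nat_lit 4) (nat_lit 383) (nat_lit 292) (nat_lit 186)) (XT.nd (nat_lit 94) (nat_lit 84) (nat_lit 0) (XT.lf (nat_lit 0) (nat_lit 27023631982) (nat_lit 252) (nat_lit 796222206) (nat_lit 84) (nat_lit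 8557576104) (nat_lit 10) (nat_lit 5) (nat_lit 13) (nat_lit 5) (nat_lit 11) (nat_lit 4) (nat_lit 384) (nat_lit 292) (nat_lit 185)) (XT.lf (nat_lit 0) (nat_lit 4987815923) (nat_lit 84) (nat_lit 24916375172) (nat_lit 168) (nat_lit 7471171196) (nat_lit 9) (nat_lit 5) (nat_lit 10) (nat_lit 5) (nat_lit 11) (nat_lit 4) (nat_lit 385) (nat_lit 292) (nat_lit 184)))) (XT.nd (nat_lit 94) (nat_lit 0) (nat_lit 0) (XT.lf (nat_lit 0) (nat_lit 10955837514) (nat_lit 84) (nat_lit 21918517632) (nat_lit 168) (nat_lit 5529891722) (nat_lit 9) (nat_lit 5) (nat_lit 10) (nat_lit 5) (nat_lit 11) (nat_lit 4) (nat_lit 386) (nat_lit 292) (nat_lit 183)) (XT.nd (nat_lit 94) (nat_lit 0) (nat_lit 0) (XT.lf (nat_lit 0) (nat_lit 17097033426) (nat_lit 84) (nat_lit 18831798180) (nat_lit 168) (nat_lit 3536461341) (nat_lit 9) (nat_lit 5) (nat_lit 10) (nat_lit 5) (nat_lit 11) (nat_lit 4) (nat_lit 387) (nat_lit 292) (nat_lit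 182)) (XT.lf (nat_lit 0) (nat_lit 23417127896) (nat_lit 84) (nat_lit 15653339671) (nat_lit 168) (nat_lit 1489021967) (nat_lit 9) (nat_lit 5) (nat_lit 10) (nat_lit 5) (nat_lit 11) (nat_lit 4) (nat_lit 388) (nat_lit 292) (nat_lit 181))))) (XT.nd (nat_lit 282) (nat_lit 168) (nat_lit 0) (XT.nd (nat_lit 94) (nat_lit 0) (nat_lit 0) (XT.lf (nat_lit 0) (nat_lit 601957349) (nat_lit 168) (nat_lit 11771938896) (nat_lit 84) (nat_lit 29313771366) (nat_lit 8) (nat_lit 5) (nat_lit 10) (nat_lit 5) (nat_lit 9) (nat_lit 5) (nat_lit 389) (nat_lit 292) (nat_lit 180)) (XT.nd (nat_lit 94) (nat_lit 0) (nat_lit 0) (XT.lf (nat_lit 0) (nat_lit 2719648050) (nat_lit 168) (nat_lit 6261230980) (nat_lit 84) (nat_lit 33869713118) (nat_lit 8) (nat_lit 5) (nat_lit 10) (nat_lit 5) (nat_lit 9) (nat_lit 5) (nat_lit 390) (nat_lit 292) (nat_lit 179)) (XT.lf (nat_lit 0) (nat_lit 4896024519) (nat_lit 168) (nat_lit 590330052)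 (nat_lit 84) (nat_lit 38563450455) (nat_lit 8) (nat_lit 5) (nat_lit 10) (nat_lit 5) (nat_lit 9) (nat_lit 5) (nat_lit 391) (nat_lit 292) (nat_lit 178)))) (XT.nd (nat_lit 94) (nat_lit 0) (nat_lit 0) (XT.lf (nat_lit 0) (nat_lit 5353919305) (nat_lit 168) (nat_lit 1832307602) (nat_lit 252) (nat_lit 38098550666) (nat_lit 6) (nat_lit 5) (nat_lit 8) (nat_lit 5) (nat_lit 9) (nat_lit 5) (nat_lit 392) (nat_lit 292) (nat_lit 177)) (XT.nd (nat_lit 94) (nat_lit 0) (nat_lit 0) (XT.lf (nat_lit 0) (nat_lit 9566159104) (nat_lit 252) (nat_lit 35092552748) (nat_lit 84) (nat_lit 1898762222) (nat_lit 6) (nat_lit 5) (nat_lit 9) (nat_lit 5) (nat_lit 7) (nat_lit 4) (nat_lit 393) (nat_lit 292) (nat_lit 176)) (XT.lf (nat_lit 0) (nat_lit 12032123545) (nat_lit 252) (nat_lit 30133093034) (nat_lit 84) (nat_lit 5704047626) (nat_lit 6) (nat_lit 5) (nat_lit 9) (nat_lit 5) (nat_lit 7) (nat_lit 4) (nat_lit 394) (nat_lit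 292) (nat_lit 175)))))) (XT.nd (nat_lit 564) (nat_lit 0) (nat_lit 0) (XT.nd (nat_lit 282) (nat_lit 84) (nat_lit 0) (XT.nd (nat_lit 94) (nat_lit 0) (nat_lit 0) (XT.lf (nat_lit 0) (nat_lit 14568242052) (nat_lit 252) (nat_lit 25029679671) (nat_lit 84) (nat_lit 9624012449) (nat_lit 6) (nat_lit 5) (nat_lit 9) (nat_lit 5) (nat_lit 7) (nat_lit 4) (nat_lit 395) (nat_lit 292) (nat_lit 174)) (XT.nd (nat_lit 94) (nat_lit 0) (nat_lit 0) (XT.lf (nat_lit 0) (nat_lit 17176878550) (nat_lit 252) (nat_lit 19777555743) (nat_lit 84) (nat_lit 13662310509) (nat_lit 6) (nat_lit 5) (nat_lit 9) (nat_lit 5) (nat_lit 7) (nat_lit 4) (nat_lit 396) (nat_lit 292) (nat_lit 173)) (XT.lf (nat_lit 0) (nat_lit 19860464564) (nat_lit 252) (nat_lit 14371825723) (nat_lit 84) (nat_lit 17822705922) (nat_lit 6) (nat_lit 5) (nat_lit 9) (nat_lit 5) (nat_lit 7) (nat_lit 4) (nat_lit 397) (nat_lit 292) (nat_lit 172)))) (XT.nd (nat_lit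 94) (nat_lit 84) (nat_lit 0) (XT.lf (nat_lit 0) (nat_lit 22621501477) (nat_lit 252) (nat_lit 8807450901) (nat_lit 84) (nat_lit 22109076613) (nat_lit 6) (nat_lit 5) (nat_lit 9) (nat_lit 5) (nat_lit 7) (nat_lit 4) (nat_lit 398) (nat_lit 292) (nat_lit 171)) (XT.nd (nat_lit 94) (nat_lit 84) (nat_lit 0) (XT.lf (nat_lit 0) (nat_lit 25462562864) (nat_lit 252) (nat_lit 3079244699) (nat_lit 84) (nat_lit 26525417929) (nat_lit 6) (nat_lit 5) (nat_lit 9) (nat_lit 5) (nat_lit 7) (nat_lit 4) (nat_lit 399) (nat_lit 292) (nat_lit 170)) (XT.lf (nat_lit 0) (nat_lit 2876078748) (nat_lit 84) (nat_lit 25538749200) (nat_lit 168) (nat_lit 28228298671) (nat_lit 5) (nat_lit 5) (nat_lit 6) (nat_lit 5) (nat_lit 7) (nat_lit 4) (nat_lit 400) (nat_lit 292) (nat_lit 169))))) (XT.nd (nat_lit 282) (nat_lit 0) (nat_lit 0) (XT.nd (nat_lit 94) (nat_lit 0) (nat_lit 0) (XT.lf (nat_lit 0) (nat_lit 9072976949) (nat_lit 84)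 (nat_lit 22412456891) (nat_lit 168) (nat_lit 26781631492) (nat_lit 5) (nat_lit 5) (nat_lit 6) (nat_lit 5) (nat_lit 7) (nat_lit 4) (nat_lit 401) (nat_lit 292) (nat_lit 168)) (XT.nd (nat_lit 94) (nat_lit 0) (nat_lit 0) (XT.lf (nat_lit 0) (nat_lit 15453910475) (nat_lit 84) (nat_lit 19192157604) (nat_lit 168) (nat_lit 25295453648) (nat_lit 5) (nat_lit 5) (nat_lit 6) (nat_lit 5) (nat_lit 7) (nat_lit 4) (nat_lit 402) (nat_lit 292) (nat_lit 167)) (XT.lf (nat_lit 0) (nat_lit 22024827025) (nat_lit 84) (nat_lit 15874849681) (nat_lit 168) (nat_lit 23768379863) (nat_lit 5) (nat_lit 5) (nat_lit 6) (nat_lit 5) (nat_lit 7) (nat_lit 4) (nat_lit 403) (nat_lit 292) (nat_lit 166)))) (XT.nd (nat_lit 188) (nat_lit 0) (nat_lit 0) (XT.nd (nat_lit 94) (nat_lit 0) (nat_lit 0) (XT.lf (nat_lit 0) (nat_lit 28791851381) (nat_lit 84) (nat_lit 12457441046) (nat_lit 168) (nat_lit 22198986747) (nat_lit 5) (nat_lit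 5) (nat_lit 6) (nat_lit 5) (nat_lit 7) (nat_lit 4) (nat_lit 404) (nat_lit 292) (nat_lit 165)) (XT.lf (nat_lit 0) (nat_lit 35761291119) (nat_lit 84) (nat_lit 8936746315) (nat_lit 168) (nat_lit 20585811459) (nat_lit 5) (nat_lit 5) (nat_lit 6) (nat_lit 5) (nat_lit 7) (nat_lit 4) (nat_lit 405) (nat_lit 292) (nat_lit 164))) (XT.nd (nat_lit 94) (nat_lit 0) (nat_lit 0) (XT.lf (nat_lit 0) (nat_lit 42939642486) (nat_lit 84) (nat_lit 5309483831) (nat_lit 168) (nat_lit 18927350352) (nat_lit 5) (nat_lit 5) (nat_lit 6) (nat_lit 5) (nat_lit 7) (nat_lit 4) (nat_lit 406) (nat_lit 292) (nat_lit 163)) (XT.lf (nat_lit 0) (nat_lit 50333596459) (nat_lit 84) (nat_lit 1572272607) (nat_lit 168) (nat_lit 17222057567) (nat_lit 5) (nat_lit 5) (nat_lit 6) (nat_lit 5) (nat_lit 7) (nat_lit 4) (nat_lit 407) (nat_lit 292) (nat_lit 162))))))))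
noncomputable def xc99 : XT := (XT.nd (nat_lit 44744) (nat_lit 0) (nat_lit 4200) (XT.nd (nat_lit 43616) (nat_lit 0) (nat_lit 11424) (XT.nd (nat_lit 564) (nat_lit 0) (nat_lit 0) (XT.nd (nat_lit 282) (nat_lit 84) (nat_lit 0) (XT.nd (nat_lit 94) (nat_lit 0) (nat_lit 0) (XT.lf (nat_lit 0) (nat_lit 55694275866) (nat_lit 168) (nat_lit 13212574480) (nat_lit 0) (nat_lit 2232466735) (nat_lit 5) (nat_lit 5) (nat_lit 7) (nat_lit 4) (nat_lit 5) (nat_lit 4) (nat_lit 408) (nat_lit 292) (nat_lit 161)) (XT.nd (nat_lit 94) (nat_lit 0) (nat_lit 0) (XT.lf (nat_lit 0) (nat_lit 59612013127) (nat_lit 168) (nat_lit 7480499541) (nat_lit 0) (nat_lit 6120191985) (nat_lit 5) (nat_lit 5) (nat_lit 7) (nat_lit 4) (nat_lit 5) (nat_lit 4) (nat_lit 409) (nat_lit 292) (nat_lit 160)) (XT.lf (nat_lit 0) (nat_lit 63647135454) (nat_lit 168) (nat_lit 1577165322) (nat_lit 0) (nat_lit 10126204697) (nat_lit 5) (nat_lit 5)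 (nat_lit 7) (nat_lit 4) (nat_lit 5) (nat_lit 4) (nat_lit 410) (nat_lit 292) (nat_lit 159)))) (XT.nd (nat_lit 94) (nat_lit 0) (nat_lit 0) (XT.lf (nat_lit 0) (nat_lit 4595520191) (nat_lit 84) (nat_lit 63253471940) (nat_lit 84) (nat_lit 9704306833) (nat_lit 4) (nat_lit 4) (nat_lit 5) (nat_lit 5) (nat_lit 5) (nat_lit 4) (nat_lit 411) (nat_lit 292) (nat_lit 158)) (XT.nd (nat_lit 94) (nat_lit 0) (nat_lit 0) (XT.lf (nat_lit 0) (nat_lit 10986815666) (nat_lit 84) (nat_lit 61206867754) (nat_lit 84) (nat_lit 7630317244) (nat_lit 4) (nat_lit 4) (nat_lit 5) (nat_lit 5) (nat_lit 5) (nat_lit 4) (nat_lit 412) (nat_lit 292) (nat_lit 157)) (XT.lf (nat_lit 0) (nat_lit 17570248707) (nat_lit 84) (nat_lit 59099042940) (nat_lit 84) (nat_lit 5495930450) (nat_lit 4) (nat_lit 4) (nat_lit 5) (nat_lit 5) (nat_lit 5) (nat_lit 4) (nat_lit 413) (nat_lit 292) (nat_lit 156))))) (XT.nd (nat_lit 42770) (nat_lit 0) (nat_lit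 13104) (XT.nd (nat_lit 94) (nat_lit 0) (nat_lit 0) (XT.lf (nat_lit 0) (nat_lit 24351955761) (nat_lit 84) (nat_lit 56928032785) (nat_lit 84) (nat_lit 3299156977) (nat_lit 4) (nat_lit 4) (nat_lit 5) (nat_lit 5) (nat_lit 5) (nat_lit 4) (nat_lit 414) (nat_lit 292) (nat_lit 155)) (XT.nd (nat_lit 42582) (nat_lit 0) (nat_lit 13524) (XT.lf (nat_lit 0) (nat_lit 31338258090) (nat_lit 84) (nat_lit 54691813680) (nat_lit 84) (nat_lit 1037949203) (nat_lit 4) (nat_lit 4) (nat_lit 5) (nat_lit 5) (nat_lit 5) (nat_lit 4) (nat_lit 415) (nat_lit 292) (nat_lit 154)) (XT.lf (nat_lit 0) (nat_lit 3147615932) (nat_lit 420) (nat_lit 81800981) (nat_lit 420) (nat_lit 81800981) (nat_lit 165) (nat_lit 3) (nat_lit 170) (nat_lit 3) (nat_lit 170) (nat_lit 5) (nat_lit 293) (nat_lit 293) (nat_lit 275)))) (XT.nd (nat_lit 94) (nat_lit 0) (nat_lit 0) (XT.lf (nat_lit 0) (nat_lit 1519849952) (nat_lit 420) (nat_lit 4303607092)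 (nat_lit 504) (nat_lit 829870242) (nat_lit 160) (nat_lit 5) (nat_lit 165) (nat_lit 3) (nat_lit 166) (nat_lit 5) (nat_lit 294) (nat_lit 293) (nat_lit 274)) (XT.nd (nat_lit 94) (nat_lit 0) (nat_lit 0) (XT.lf (nat_lit 0) (nat_lit 3345300369) (nat_lit 420) (nat_lit 1784400080) (nat_lit 504) (nat_lit 1558196587) (nat_lit 160) (nat_lit 5) (nat_lit 165) (nat_lit 3) (nat_lit 166) (nat_lit 5) (nat_lit 295) (nat_lit 293) (nat_lit 273)) (XT.lf (nat_lit 84) (nat_lit 789689436) (nat_lit 0) (nat_lit 4373912384) (nat_lit 504) (nat_lit 1562485088) (nat_lit 161) (nat_lit 5) (nat_lit 160) (nat_lit 5) (nat_lit 166) (nat_lit 5) (nat_lit 296) (nat_lit 293) (nat_lit 272)))))) (XT.nd (nat_lit 564) (nat_lit 672) (nat_lit 0) (XT.nd (nat_lit 282) (nat_lit 504) (nat_lit 0) (XT.nd (nat_lit 94) (nat_lit 0) (nat_lit 0) (XT.lf (nat_lit 0) (nat_lit 215067389) (nat_lit 504) (nat_lit 3327103162) (nat_lit 588) (nat_lit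 3225364515) (nat_lit 154) (nat_lit 5) (nat_lit 160) (nat_lit 5) (nat_lit 161) (nat_lit 5) (nat_lit 297) (nat_lit 293) (nat_lit 271)) (XT.nd (nat_lit 94) (nat_lit 0) (nat_lit 0) (XT.lf (nat_lit 0) (nat_lit 1946342167) (nat_lit 504) (nat_lit 692403849) (nat_lit 588) (nat_lit 4173685859) (nat_lit 154) (nat_lit 5) (nat_lit 160) (nat_lit 5) (nat_lit 161) (nat_lit 5) (nat_lit 298) (nat_lit 293) (nat_lit 270)) (XT.lf (nat_lit 84) (nat_lit 2026485494) (nat_lit 0) (nat_lit 1658051061) (nat_lit 588) (nat_lit 3176139939) (nat_lit 155) (nat_lit 5) (nat_lit 154) (nat_lit 5) (nat_lit 161) (nat_lit 5) (nat_lit 299) (nat_lit 293) (nat_lit 269)))) (XT.nd (nat_lit 94) (nat_lit 504) (nat_lit 0) (XT.lf (nat_lit 84) (nat_lit 4806412094) (nat_lit 0) (nat_lit 612211143) (nat_lit 588) (nat_lit 1494082729) (nat_lit 155) (nat_lit 5) (nat_lit 154) (nat_lit 5) (nat_lit 161) (nat_lit 5) (nat_lit 300) (nat_lit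 293) (nat_lit 268)) (XT.nd (nat_lit 94) (nat_lit 0) (nat_lit 0) (XT.lf (nat_lit 0) (nat_lit 182615414) (nat_lit 588) (nat_lit 6294604474) (nat_lit 672) (nat_lit 491149645) (nat_lit 148) (nat_lit 5) (nat_lit 155) (nat_lit 5) (nat_lit 156) (nat_lit 5) (nat_lit 301) (nat_lit 293) (nat_lit 267)) (XT.lf (nat_lit 0) (nat_lit 1846156312) (nat_lit 588) (nat_lit 3503008472) (nat_lit 672) (nat_lit 1677625763) (nat_lit 148) (nat_lit 5) (nat_lit 155) (nat_lit 5) (nat_lit 156) (nat_lit 5) (nat_lit 302) (nat_lit 293) (nat_lit 266))))) (XT.nd (nat_lit 282) (nat_lit 672) (nat_lit 0) (XT.nd (nat_lit 94) (nat_lit 0) (nat_lit 0) (XT.lf (nat_lit 0) (nat_lit 3500577354) (nat_lit 588) (nat_lit 664467755) (nat_lit 672) (nat_lit 2924293902) (nat_lit 148) (nat_lit 5) (nat_lit 155) (nat_lit 5) (nat_lit 156) (nat_lit 5) (nat_lit 303) (nat_lit 293) (nat_lit 265)) (XT.nd (nat_lit 94) (nat_lit 0) (nat_lit 0) (XT.lf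 (nat_lit 84) (nat_lit 2269386575) (nat_lit 0) (nat_lit 2900546654) (nat_lit 672) (nat_lit 1985442108) (nat_lit 149) (nat_lit 5) (nat_lit 148) (nat_lit 5) (nat_lit 156) (nat_lit 5) (nat_lit 304) (nat_lit 293) (nat_lit 264)) (XT.lf (nat_lit 84) (nat_lit 5270261335) (nat_lit 0) (nat_lit 1570241492) (nat_lit 672) (nat_lit 384931842) (nat_lit 149) (nat_lit 5) (nat_lit 148) (nat_lit 5) (nat_lit 156) (nat_lit 5) (nat_lit 305) (nat_lit 293) (nat_lit 263)))) (XT.nd (nat_lit 94) (nat_lit 0) (nat_lit 84) (XT.lf (nat_lit 84) (nat_lit 1036404405) (nat_lit 0) (nat_lit 156877242) (nat_lit 756) (nat_lit 6105819204) (nat_lit 141) (nat_lit 5) (nat_lit 140) (nat_lit 5) (nat_lit 149) (nat_lit 5) (nat_lit 306) (nat_lit 293) (nat_lit 262)) (XT.nd (nat_lit 94) (nat_lit 0) (nat_lit 0) (XT.lf (nat_lit 0) (nat_lit 2790736341) (nat_lit 672) (nat_lit 3269589576) (nat_lit 84) (nat_lit 1315648470) (nat_lit 141)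 (nat_lit 5) (nat_lit 149) (nat_lit 5) (nat_lit 142) (nat_lit 5) (nat_lit 307) (nat_lit 293) (nat_lit 261)) (XT.lf (nat_lit 0) (nat_lit 4385773115) (nat_lit 672) (nat_lit 224385668) (nat_lit 84) (nat_lit 2847044536) (nat_lit 141) (nat_lit 5) (nat_lit 149) (nat_lit 5) (nat_lit 142) (nat_lit 5) (nat_lit 308) (nat_lit 293) (nat_lit 260))))))) (XT.nd (nat_lit 1128) (nat_lit 2940) (nat_lit 0) (XT.nd (nat_lit 564) (nat_lit 2016) (nat_lit 0) (XT.nd (nat_lit 282) (nat_lit 840) (nat_lit 0) (XT.nd (nat_lit 94) (nat_lit 840) (nat_lit 0) (XT.lf (nat_lit 0) (nat_lit 2936473361) (nat_lit 672) (nat_lit 3070979287) (nat_lit 756) (nat_lit 1534555924) (nat_lit 133) (nat_lit 5) (nat_lit 141) (nat_lit 5) (nat_lit 142) (nat_lit 5) (nat_lit 309) (nat_lit 293) (nat_lit 259)) (XT.nd (nat_lit 94) (nat_lit 840) (nat_lit 0) (XT.lf (nat_lit 0) (nat_lit 6162550087) (nat_lit 672) (nat_lit 1468451999) (nat_lit 756)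 (nat_lit 281923) (nat_lit 133) (nat_lit 5) (nat_lit 141) (nat_lit 5) (nat_lit 142) (nat_lit 5) (nat_lit 310) (nat_lit 293) (nat_lit 258)) (XT.lf (nat_lit 0) (nat_lit 1519257767) (nat_lit 840) (nat_lit 5979386425) (nat_lit 84) (nat_lit 225460389) (nat_lit 123) (nat_lit 5) (nat_lit 133) (nat_lit 5) (nat_lit 124) (nat_lit 5) (nat_lit 311) (nat_lit 293) (nat_lit 257)))) (XT.nd (nat_lit 94) (nat_lit 840) (nat_lit 0) (XT.lf (nat_lit 0) (nat_lit 3067606405) (nat_lit 840) (nat_lit 2784888861) (nat_lit 84) (nat_lit 1968185186) (nat_lit 123) (nat_lit 5) (nat_lit 133) (nat_lit 5) (nat_lit 124) (nat_lit 5) (nat_lit 312) (nat_lit 293) (nat_lit 256)) (XT.nd (nat_lit 94) (nat_lit 0) (nat_lit 0) (XT.lf (nat_lit 0) (nat_lit 480188047) (nat_lit 840) (nat_lit 4141199452) (nat_lit 924) (nat_lit 3300483815) (nat_lit 113) (nat_lit 5) (nat_lit 123) (nat_lit 5) (nat_lit 124) (nat_lit 5) (nat_lit 313) (nat_lit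 293) (nat_lit 255)) (XT.lf (nat_lit 0) (nat_lit 3867781702) (nat_lit 840) (nat_lit 2338341494) (nat_lit 924) (nat_lit 1820902003) (nat_lit 113) (nat_lit 5) (nat_lit 123) (nat_lit 5) (nat_lit 124) (nat_lit 5) (nat_lit 314) (nat_lit 293) (nat_lit 254))))) (XT.nd (nat_lit 282) (nat_lit 1008) (nat_lit 0) (XT.nd (nat_lit 94) (nat_lit 1008) (nat_lit 0) (XT.lf (nat_lit 0) (nat_lit 7323786668) (nat_lit 840) (nat_lit 471309468) (nat_lit 924) (nat_lit 342018015) (nat_lit 113) (nat_lit 5) (nat_lit 123) (nat_lit 5) (nat_lit 124) (nat_lit 5) (nat_lit 315) (nat_lit 293) (nat_lit 253)) (XT.nd (nat_lit 94) (nat_lit 0) (nat_lit 0) (XT.lf (nat_lit 0) (nat_lit 1155710747) (nat_lit 1008) (nat_lit 5624850330) (nat_lit 84) (nat_lit 1470056305) (nat_lit 101) (nat_lit 5) (nat_lit 113) (nat_lit 5) (nat_lit 102) (nat_lit 5) (nat_lit 316) (nat_lit 293) (nat_lit 252)) (XT.lf (nat_lit 0) (nat_lit 2662946139) (nat_lit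 1008) (nat_lit 2225044571) (nat_lit 84) (nat_lit 3480723326) (nat_lit 101) (nat_lit 5) (nat_lit 113) (nat_lit 5) (nat_lit 102) (nat_lit 5) (nat_lit 317) (nat_lit 293) (nat_lit 251)))) (XT.nd (nat_lit 94) (nat_lit 0) (nat_lit 0) (XT.lf (nat_lit 0) (nat_lit 1268883374) (nat_lit 1008) (nat_lit 2918694192) (nat_lit 1092) (nat_lit 4304054399) (nat_lit 89) (nat_lit 5) (nat_lit 101) (nat_lit 5) (nat_lit 102) (nat_lit 5) (nat_lit 318) (nat_lit 293) (nat_lit 250)) (XT.nd (nat_lit 94) (nat_lit 0) (nat_lit 0) (XT.lf (nat_lit 0) (nat_lit 4881828839) (nat_lit 1008) (nat_lit 859851482) (nat_lit 1092) (nat_lit 2877475144) (nat_lit 89) (nat_lit 5) (nat_lit 101) (nat_lit 5) (nat_lit 102) (nat_lit 5) (nat_lit 319) (nat_lit 293) (nat_lit 249)) (XT.lf (nat_lit 0) (nat_lit 7316747504) (nat_lit 1092) (nat_lit 193264832) (nat_lit 84) (nat_lit 1241699684) (nat_lit 89) (nat_lit 5) (nat_lit 102) (nat_lit 5)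 (nat_lit 90) (nat_lit 5) (nat_lit 320) (nat_lit 293) (nat_lit 248)))))) (XT.nd (nat_lit 564) (nat_lit 1260) (nat_lit 0) (XT.nd (nat_lit 282) (nat_lit 504) (nat_lit 0) (XT.nd (nat_lit 94) (nat_lit 504) (nat_lit 0) (XT.lf (nat_lit 0) (nat_lit 55869893) (nat_lit 672) (nat_lit 5402684196) (nat_lit 84) (nat_lit 3429885477) (nat_lit 81) (nat_lit 5) (nat_lit 89) (nat_lit 5) (nat_lit 82) (nat_lit 5) (nat_lit 321) (nat_lit 293) (nat_lit 247)) (XT.nd (nat_lit 94) (nat_lit 504) (nat_lit 0) (XT.lf (nat_lit 0) (nat_lit 1526809334) (nat_lit 672) (nat_lit 1797531566) (nat_lit 84) (nat_lit 5705950758) (nat_lit 81) (nat_lit 5) (nat_lit 89) (nat_lit 5) (nat_lit 82) (nat_lit 5) (nat_lit 322) (nat_lit 293) (nat_lit 246)) (XT.lf (nat_lit 0) (nat_lit 1922802054) (nat_lit 504) (nat_lit 1102431949) (nat_lit 588) (nat_lit 6152077768) (nat_lit 75) (nat_lit 5) (nat_lit 81) (nat_lit 5) (nat_lit 82) (nat_lit 5)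 (nat_lit 323) (nat_lit 293) (nat_lit 245)))) (XT.nd (nat_lit 94) (nat_lit 504) (nat_lit 0) (XT.lf (nat_lit 0) (nat_lit 4564450382) (nat_lit 588) (nat_lit 3580023163) (nat_lit 84) (nat_lit 1184794194) (nat_lit 75) (nat_lit 5) (nat_lit 82) (nat_lit 5) (nat_lit 76) (nat_lit 5) (nat_lit 324) (nat_lit 293) (nat_lit 244)) (XT.nd (nat_lit 94) (nat_lit 0) (nat_lit 0) (XT.lf (nat_lit 0) (nat_lit 165209991) (nat_lit 504) (nat_lit 5963778678) (nat_lit 588) (nat_lit 3357836571) (nat_lit 69) (nat_lit 5) (nat_lit 75) (nat_lit 5) (nat_lit 76) (nat_lit 5) (nat_lit 325) (nat_lit 293) (nat_lit 243)) (XT.lf (nat_lit 0) (nat_lit 4067580701) (nat_lit 504) (nat_lit 3677222882) (nat_lit 588) (nat_lit 1904568165) (nat_lit 69) (nat_lit 5) (nat_lit 75) (nat_lit 5) (nat_lit 76) (nat_lit 5) (nat_lit 326) (nat_lit 293) (nat_lit 242))))) (XT.nd (nat_lit 282) (nat_lit 756) (nat_lit 0) (XT.nd (nat_lit 94) (nat_lit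 504) (nat_lit 0) (XT.lf (nat_lit 0) (nat_lit 8057113768) (nat_lit 504) (nat_lit 1320042946) (nat_lit 588) (nat_lit 441025637) (nat_lit 69) (nat_lit 5) (nat_lit 75) (nat_lit 5) (nat_lit 76) (nat_lit 5) (nat_lit 327) (nat_lit 293) (nat_lit 241)) (XT.nd (nat_lit 94) (nat_lit 0) (nat_lit 0) (XT.lf (nat_lit 0) (nat_lit 1046259423) (nat_lit 504) (nat_lit 7826032540) (nat_lit 84) (nat_lit 1119783265) (nat_lit 63) (nat_lit 5) (nat_lit 69) (nat_lit 5) (nat_lit 64) (nat_lit 5) (nat_lit 328) (nat_lit 293) (nat_lit 240)) (XT.lf (nat_lit 0) (nat_lit 2570162424) (nat_lit 504) (nat_lit 3971231715) (nat_lit 84) (nat_lit 3630003790) (nat_lit 63) (nat_lit 5) (nat_lit 69) (nat_lit 5) (nat_lit 64) (nat_lit 5) (nat_lit 329) (nat_lit 293) (nat_lit 239)))) (XT.nd (nat_lit 188) (nat_lit 336) (nat_lit 0) (XT.nd (nat_lit 94) (nat_lit 420) (nat_lit 0) (XT.lf (nat_lit 0) (nat_lit 4109882909) (nat_lit 504) (nat_lit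 30366903) (nat_lit 84) (nat_lit 6217167721) (nat_lit 63) (nat_lit 5) (nat_lit 69) (nat_lit 5) (nat_lit 64) (nat_lit 5) (nat_lit 330) (nat_lit 293) (nat_lit 238)) (XT.lf (nat_lit 0) (nat_lit 4082488235) (nat_lit 420) (nat_lit 1624866612) (nat_lit 504) (nat_lit 4841697119) (nat_lit 58) (nat_lit 5) (nat_lit 63) (nat_lit 5) (nat_lit 64) (nat_lit 5) (nat_lit 331) (nat_lit 293) (nat_lit 237))) (XT.nd (nat_lit 94) (nat_lit 336) (nat_lit 0) (XT.lf (nat_lit 0) (nat_lit 7334373484) (nat_lit 504) (nat_lit 2465901957) (nat_lit 84) (nat_lit 947124917) (nat_lit 58) (nat_lit 5) (nat_lit 64) (nat_lit 5) (nat_lit 59) (nat_lit 5) (nat_lit 332) (nat_lit 293) (nat_lit 236)) (XT.lf (nat_lit 0) (nat_lit 1643104146) (nat_lit 336) (nat_lit 7372640305) (nat_lit 420) (nat_lit 1936181178) (nat_lit 54) (nat_lit 5) (nat_lit 58) (nat_lit 5) (nat_lit 59) (nat_lit 5) (nat_lit 333) (nat_lit 293) (nat_lit 235))))))))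
noncomputable def xc100 : XT := (XT.nd (nat_lit 2256) (nat_lit 1092) (nat_lit 0) (XT.nd (nat_lit 1128) (nat_lit 1092) (nat_lit 0) (XT.nd (nat_lit 564) (nat_lit 672) (nat_lit 0) (XT.nd (nat_lit 282) (nat_lit 336) (nat_lit 0) (XT.nd (nat_lit 94) (nat_lit 504) (nat_lit 0) (XT.lf (nat_lit 0) (nat_lit 5899928374) (nat_lit 336) (nat_lit 4846601151) (nat_lit 420) (nat_lit 416490563) (nat_lit 54) (nat_lit 5) (nat_lit 58) (nat_lit 5) (nat_lit 59) (nat_lit 5) (nat_lit 334) (nat_lit 293) (nat_lit 234)) (XT.nd (nat_lit 94) (nat_lit 420) (nat_lit 0) (XT.lf (nat_lit 0) (nat_lit 1099122312) (nat_lit 420) (nat_lit 1134947509) (nat_lit 84) (nat_lit 9147239635) (nat_lit 53) (nat_lit 5) (nat_lit 58) (nat_lit 5) (nat_lit 54) (nat_lit 5) (nat_lit 335) (nat_lit 293) (nat_lit 233)) (XT.lf (nat_lit 0) (nat_lit 2662030180) (nat_lit 504) (nat_lit 8461398763) (nat_lit 84) (nat_lit 482659221) (nat_lit 48) (nat_lit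 5) (nat_lit 54) (nat_lit 5) (nat_lit 49) (nat_lit 5) (nat_lit 336) (nat_lit 293) (nat_lit 232)))) (XT.nd (nat_lit 94) (nat_lit 336) (nat_lit 0) (XT.lf (nat_lit 0) (nat_lit 4281515014) (nat_lit 504) (nat_lit 4310632758) (nat_lit 84) (nat_lit 3245563591) (nat_lit 48) (nat_lit 5) (nat_lit 54) (nat_lit 5) (nat_lit 49) (nat_lit 5) (nat_lit 337) (nat_lit 293) (nat_lit 231)) (XT.nd (nat_lit 94) (nat_lit 336) (nat_lit 0) (XT.lf (nat_lit 0) (nat_lit 5925316250) (nat_lit 504) (nat_lit 61503282) (nat_lit 84) (nat_lit 6090622288) (nat_lit 48) (nat_lit 5) (nat_lit 54) (nat_lit 5) (nat_lit 49) (nat_lit 5) (nat_lit 338) (nat_lit 293) (nat_lit 230)) (XT.lf (nat_lit 0) (nat_lit 4378160474) (nat_lit 336) (nat_lit 3260237504) (nat_lit 420) (nat_lit 4685758624) (nat_lit 44) (nat_lit 5) (nat_lit 48) (nat_lit 5) (nat_lit 49) (nat_lit 5) (nat_lit 339) (nat_lit 293) (nat_lit 229))))) (XT.nd (nat_lit 282)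 (nat_lit 336) (nat_lit 0) (XT.nd (nat_lit 94) (nat_lit 336) (nat_lit 0) (XT.lf (nat_lit 0) (nat_lit 8927656373) (nat_lit 336) (nat_lit 452927889) (nat_lit 420) (nat_lit 3198796366) (nat_lit 44) (nat_lit 5) (nat_lit 48) (nat_lit 5) (nat_lit 49) (nat_lit 5) (nat_lit 340) (nat_lit 293) (nat_lit 228)) (XT.nd (nat_lit 94) (nat_lit 0) (nat_lit 0) (XT.lf (nat_lit 0) (nat_lit 737267410) (nat_lit 336) (nat_lit 10447098885) (nat_lit 420) (nat_lit 1658028612) (nat_lit 40) (nat_lit 5) (nat_lit 44) (nat_lit 5) (nat_lit 45) (nat_lit 5) (nat_lit 341) (nat_lit 293) (nat_lit 227)) (XT.lf (nat_lit 0) (nat_lit 5306260941) (nat_lit 336) (nat_lit 7756996576) (nat_lit 420) (nat_lit 49820281) (nat_lit 40) (nat_lit 5) (nat_lit 44) (nat_lit 5) (nat_lit 45) (nat_lit 5) (nat_lit 342) (nat_lit 293) (nat_lit 226)))) (XT.nd (nat_lit 94) (nat_lit 252) (nat_lit 0) (XT.lf (nat_lit 0) (nat_lit 1552698970) (nat_lit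 420) (nat_lit 3419671585) (nat_lit 84) (nat_lit 8420107702) (nat_lit 39) (nat_lit 5) (nat_lit 44) (nat_lit 5) (nat_lit 40) (nat_lit 5) (nat_lit 343) (nat_lit 293) (nat_lit 225)) (XT.nd (nat_lit 94) (nat_lit 0) (nat_lit 0) (XT.lf (nat_lit 0) (nat_lit 1097473970) (nat_lit 252) (nat_lit 2094829306) (nat_lit 336) (nat_lit 10488679844) (nat_lit 36) (nat_lit 5) (nat_lit 39) (nat_lit 5) (nat_lit 40) (nat_lit 5) (nat_lit 344) (nat_lit 293) (nat_lit 224)) (XT.lf (nat_lit 0) (nat_lit 4905350446) (nat_lit 336) (nat_lit 8187245625) (nat_lit 84) (nat_lit 885231957) (nat_lit 36) (nat_lit 5) (nat_lit 40) (nat_lit 5) (nat_lit 37) (nat_lit 5) (nat_lit 345) (nat_lit 293) (nat_lit 223)))))) (XT.nd (nat_lit 564) (nat_lit 420) (nat_lit 0) (XT.nd (nat_lit 282) (nat_lit 336) (nat_lit 0) (XT.nd (nat_lit 94) (nat_lit 336) (nat_lit 0) (XT.lf (nat_lit 0) (nat_lit 6671497756) (nat_lit 336) (nat_lit 3703331848)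 (nat_lit 84) (nat_lit 3909140189) (nat_lit 36) (nat_lit 5) (nat_lit 40) (nat_lit 5) (nat_lit 37) (nat_lit 5) (nat_lit 346) (nat_lit 293) (nat_lit 222)) (XT.nd (nat_lit 94) (nat_lit 0) (nat_lit 0) (XT.lf (nat_lit 0) (nat_lit 911558494) (nat_lit 336) (nat_lit 7569094753) (nat_lit 420) (nat_lit 6119404408) (nat_lit 32) (nat_lit 5) (nat_lit 36) (nat_lit 5) (nat_lit 37) (nat_lit 5) (nat_lit 347) (nat_lit 293) (nat_lit 221)) (XT.lf (nat_lit 0) (nat_lit 5721895676) (nat_lit 336) (nat_lit 4642232734) (nat_lit 420) (nat_lit 4561339453) (nat_lit 32) (nat_lit 5) (nat_lit 36) (nat_lit 5) (nat_lit 37) (nat_lit 5) (nat_lit 348) (nat_lit 293) (nat_lit 220)))) (XT.nd (nat_lit 94) (nat_lit 336) (nat_lit 0) (XT.lf (nat_lit 0) (nat_lit 10656015337) (nat_lit 336) (nat_lit 1630170594) (nat_lit 420) (nat_lit 2975480082) (nat_lit 32) (nat_lit 5) (nat_lit 36) (nat_lit 5) (nat_lit 37) (nat_lit 5) (nat_lit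 349) (nat_lit 293) (nat_lit 219)) (XT.nd (nat_lit 94) (nat_lit 84) (nat_lit 0) (XT.lf (nat_lit 0) (nat_lit 96922301) (nat_lit 252) (nat_lit 14167238129) (nat_lit 336) (nat_lit 1344323210) (nat_lit 29) (nat_lit 5) (nat_lit 32) (nat_lit 5) (nat_lit 33) (nat_lit 5) (nat_lit 350) (nat_lit 293) (nat_lit 218)) (XT.lf (nat_lit 0) (nat_lit 376635200) (nat_lit 336) (nat_lit 10967581949) (nat_lit 84) (nat_lit 4620383377) (nat_lit 28) (nat_lit 5) (nat_lit 32) (nat_lit 5) (nat_lit 29) (nat_lit 5) (nat_lit 351) (nat_lit 293) (nat_lit 217))))) (XT.nd (nat_lit 282) (nat_lit 168) (nat_lit 0) (XT.nd (nat_lit 94) (nat_lit 252) (nat_lit 0) (XT.lf (nat_lit 0) (nat_lit 2104391492) (nat_lit 336) (nat_lit 6321144616) (nat_lit 84) (nat_lit 7906448481) (nat_lit 28) (nat_lit 5) (nat_lit 32) (nat_lit 5) (nat_lit 29) (nat_lit 5) (nat_lit 352) (nat_lit 293) (nat_lit 216)) (XT.nd (nat_lit 94) (nat_lit 252) (nat_lit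 0) (XT.lf (nat_lit 0) (nat_lit 3867641231) (nat_lit 336) (nat_lit 1554582524) (nat_lit 84) (nat_lit 11289167927) (nat_lit 28) (nat_lit 5) (nat_lit 32) (nat_lit 5) (nat_lit 29) (nat_lit 5) (nat_lit 353) (nat_lit 293) (nat_lit 215)) (XT.lf (nat_lit 0) (nat_lit 3405153518) (nat_lit 252) (nat_lit 2296653977) (nat_lit 336) (nat_lit 11400320792) (nat_lit 25) (nat_lit 5) (nat_lit 28) (nat_lit 5) (nat_lit 29) (nat_lit 5) (nat_lit 354) (nat_lit 293) (nat_lit 214)))) (XT.nd (nat_lit 94) (nat_lit 168) (nat_lit 0) (XT.lf (nat_lit 0) (nat_lit 7601128125) (nat_lit 336) (nat_lit 8985734699) (nat_lit 84) (nat_lit 917927411) (nat_lit 25) (nat_lit 5) (nat_lit 29) (nat_lit 5) (nat_lit 26) (nat_lit 5) (nat_lit 355) (nat_lit 293) (nat_lit 213)) (XT.nd (nat_lit 94) (nat_lit 168) (nat_lit 0) (XT.lf (nat_lit 0) (nat_lit 9566055144) (nat_lit 336) (nat_lit 4174736342) (nat_lit 84) (nat_lit 4179002234) (nat_lit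 25) (nat_lit 5) (nat_lit 29) (nat_lit 5) (nat_lit 26) (nat_lit 5) (nat_lit 356) (nat_lit 293) (nat_lit 212)) (XT.lf (nat_lit 0) (nat_lit 778982506) (nat_lit 168) (nat_lit 10804382075) (nat_lit 252) (nat_lit 6764627708) (nat_lit 23) (nat_lit 5) (nat_lit 25) (nat_lit 5) (nat_lit 26) (nat_lit 5) (nat_lit 357) (nat_lit 293) (nat_lit 211))))))) (XT.nd (nat_lit 1128) (nat_lit 420) (nat_lit 0) (XT.nd (nat_lit 564) (nat_lit 336) (nat_lit 0) (XT.nd (nat_lit 282) (nat_lit 336) (nat_lit 0) (XT.nd (nat_lit 94) (nat_lit 0) (nat_lit 0) (XT.lf (nat_lit 0) (nat_lit 5952877535) (nat_lit 168) (nat_lit 7737922515) (nat_lit 252) (nat_lit 5097873254) (nat_lit 23) (nat_lit 5) (nat_lit 25) (nat_lit 5) (nat_lit 26) (nat_lit 5) (nat_lit 358) (nat_lit 293) (nat_lit 210)) (XT.nd (nat_lit 94) (nat_lit 0) (nat_lit 0) (XT.lf (nat_lit 0) (nat_lit 11265930216) (nat_lit 168) (nat_lit 4582130230) (nat_lit 252) (nat_lit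 3395497310) (nat_lit 23) (nat_lit 5) (nat_lit 25) (nat_lit 5) (nat_lit 26) (nat_lit 5) (nat_lit 359) (nat_lit 293) (nat_lit 209)) (XT.lf (nat_lit 0) (nat_lit 16723092869) (nat_lit 168) (nat_lit 1334063692) (nat_lit 252) (nat_lit 1655913085) (nat_lit 23) (nat_lit 5) (nat_lit 25) (nat_lit 5) (nat_lit 26) (nat_lit 5) (nat_lit 360) (nat_lit 293) (nat_lit 208)))) (XT.nd (nat_lit 94) (nat_lit 0) (nat_lit 0) (XT.lf (nat_lit 0) (nat_lit 161768682) (nat_lit 336) (nat_lit 18042706235) (nat_lit 84) (nat_lit 1991840206) (nat_lit 19) (nat_lit 5) (nat_lit 23) (nat_lit 5) (nat_lit 20) (nat_lit 5) (nat_lit 361) (nat_lit 293) (nat_lit 207)) (XT.nd (nat_lit 94) (nat_lit 0) (nat_lit 0) (XT.lf (nat_lit 0) (nat_lit 2031970689) (nat_lit 336) (nat_lit 13225021861) (nat_lit 84) (nat_lit 5436130558) (nat_lit 19) (nat_lit 5) (nat_lit 23) (nat_lit 5) (nat_lit 20) (nat_lit 5) (nat_lit 362) (nat_lit 293) (nat_lit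 206)) (XT.lf (nat_lit 0) (nat_lit 3945984612) (nat_lit 336) (nat_lit 8277950627) (nat_lit 84) (nat_lit 8981888921) (nat_lit 19) (nat_lit 5) (nat_lit 23) (nat_lit 5) (nat_lit 20) (nat_lit 5) (nat_lit 363) (nat_lit 293) (nat_lit 205))))) (XT.nd (nat_lit 282) (nat_lit 168) (nat_lit 0) (XT.nd (nat_lit 94) (nat_lit 168) (nat_lit 0) (XT.lf (nat_lit 0) (nat_lit 5905594511) (nat_lit 336) (nat_lit 3196881345) (nat_lit 84) (nat_lit 12632420315) (nat_lit 19) (nat_lit 5) (nat_lit 23) (nat_lit 5) (nat_lit 20) (nat_lit 5) (nat_lit 364) (nat_lit 293) (nat_lit 204)) (XT.nd (nat_lit 94) (nat_lit 0) (nat_lit 0) (XT.lf (nat_lit 0) (nat_lit 2064517500) (nat_lit 168) (nat_lit 5868589718) (nat_lit 252) (nat_lit 14347090184) (nat_lit 17) (nat_lit 5) (nat_lit 19) (nat_lit 5) (nat_lit 20) (nat_lit 5) (nat_lit 365) (nat_lit 293) (nat_lit 203)) (XT.lf (nat_lit 0) (nat_lit 7538203024) (nat_lit 168) (nat_lit 2505529572)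 (nat_lit 252) (nat_lit 12798090615) (nat_lit 17) (nat_lit 5) (nat_lit 19) (nat_lit 5) (nat_lit 20) (nat_lit 5) (nat_lit 366) (nat_lit 293) (nat_lit 202)))) (XT.nd (nat_lit 94) (nat_lit 168) (nat_lit 0) (XT.lf (nat_lit 0) (nat_lit 12216560724) (nat_lit 252) (nat_lit 10267245893) (nat_lit 84) (nat_lit 937199671) (nat_lit 17) (nat_lit 5) (nat_lit 20) (nat_lit 5) (nat_lit 18) (nat_lit 5) (nat_lit 367) (nat_lit 293) (nat_lit 201)) (XT.nd (nat_lit 94) (nat_lit 168) (nat_lit 0) (XT.lf (nat_lit 0) (nat_lit 14469988425) (nat_lit 252) (nat_lit 5118234112) (nat_lit 84) (nat_lit 4429556438) (nat_lit 17) (nat_lit 5) (nat_lit 20) (nat_lit 5) (nat_lit 18) (nat_lit 5) (nat_lit 368) (nat_lit 293) (nat_lit 200)) (XT.lf (nat_lit 0) (nat_lit 176628406) (nat_lit 168) (nat_lit 16606384735) (nat_lit 252) (nat_lit 7850400576) (nat_lit 15) (nat_lit 5) (nat_lit 17) (nat_lit 5) (nat_lit 18) (nat_lit 5) (nat_lit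 369) (nat_lit 293) (nat_lit 199)))))) (XT.nd (nat_lit 564) (nat_lit 168) (nat_lit 0) (XT.nd (nat_lit 282) (nat_lit 252) (nat_lit 0) (XT.nd (nat_lit 94) (nat_lit 0) (nat_lit 0) (XT.lf (nat_lit 0) (nat_lit 5726983664) (nat_lit 168) (nat_lit 13482361418) (nat_lit 252) (nat_lit 6057541088) (nat_lit 15) (nat_lit 5) (nat_lit 17) (nat_lit 5) (nat_lit 18) (nat_lit 5) (nat_lit 370) (nat_lit 293) (nat_lit 198)) (XT.nd (nat_lit 94) (nat_lit 0) (nat_lit 0) (XT.lf (nat_lit 0) (nat_lit 11432763783) (nat_lit 168) (nat_lit 10266664537) (nat_lit 252) (nat_lit 4220964822) (nat_lit 15) (nat_lit 5) (nat_lit 17) (nat_lit 5) (nat_lit 18) (nat_lit 5) (nat_lit 371) (nat_lit 293) (nat_lit 197)) (XT.lf (nat_lit 0) (nat_lit 17299287147) (nat_lit 168) (nat_lit 6956296725) (nat_lit 252) (nat_lit 2338959896) (nat_lit 15) (nat_lit 5) (nat_lit 17) (nat_lit 5) (nat_lit 18) (nat_lit 5) (nat_lit 372) (nat_lit 293) (nat_lit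 196)))) (XT.nd (nat_lit 94) (nat_lit 252) (nat_lit 0) (XT.lf (nat_lit 0) (nat_lit 23332021971) (nat_lit 168) (nat_lit 3548172373) (nat_lit 252) (nat_lit 409772084) (nat_lit 15) (nat_lit 5) (nat_lit 17) (nat_lit 5) (nat_lit 18) (nat_lit 5) (nat_lit 373) (nat_lit 293) (nat_lit 195)) (XT.nd (nat_lit 94) (nat_lit 0) (nat_lit 0) (XT.lf (nat_lit 0) (nat_lit 1544848633) (nat_lit 168) (nat_lit 7273574) (nat_lit 252) (nat_lit 26454229723) (nat_lit 12) (nat_lit 5) (nat_lit 14) (nat_lit 5) (nat_lit 15) (nat_lit 5) (nat_lit 374) (nat_lit 293) (nat_lit 194)) (XT.lf (nat_lit 0) (nat_lit 3633715208) (nat_lit 252) (nat_lit 21497876319) (nat_lit 84) (nat_lit 3611170373) (nat_lit 12) (nat_lit 5) (nat_lit 15) (nat_lit 5) (nat_lit 13) (nat_lit 5) (nat_lit 375) (nat_lit 293) (nat_lit 193))))) (XT.nd (nat_lit 282) (nat_lit 168) (nat_lit 0) (XT.nd (nat_lit 94) (nat_lit 0) (nat_lit 0) (XT.lf (nat_lit 0) (nat_lit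 5769740936) (nat_lit 252) (nat_lit 16395572381) (nat_lit 84) (nat_lit 7337034777) (nat_lit 12) (nat_lit 5) (nat_lit 15) (nat_lit 5) (nat_lit 13) (nat_lit 5) (nat_lit 376) (nat_lit 293) (nat_lit 192)) (XT.nd (nat_lit 94) (nat_lit 0) (nat_lit 0) (XT.lf (nat_lit 0) (nat_lit 7962118235) (nat_lit 252) (nat_lit 11149763445) (nat_lit 84) (nat_lit 11173939080) (nat_lit 12) (nat_lit 5) (nat_lit 15) (nat_lit 5) (nat_lit 13) (nat_lit 5) (nat_lit 377) (nat_lit 293) (nat_lit 191)) (XT.lf (nat_lit 0) (nat_lit 10212890631) (nat_lit 252) (nat_lit 5755559870) (nat_lit 84) (nat_lit 15125459678) (nat_lit 12) (nat_lit 5) (nat_lit 15) (nat_lit 5) (nat_lit 13) (nat_lit 5) (nat_lit 378) (nat_lit 293) (nat_lit 190)))) (XT.nd (nat_lit 94) (nat_lit 168) (nat_lit 0) (XT.lf (nat_lit 0) (nat_lit 12524156080) (nat_lit 252) (nat_lit 207933692) (nat_lit 84) (nat_lit 19195279803) (nat_lit 12) (nat_lit 5) (nat_lit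 15) (nat_lit 5) (nat_lit 13) (nat_lit 5) (nat_lit 379) (nat_lit 293) (nat_lit 189)) (XT.nd (nat_lit 94) (nat_lit 0) (nat_lit 0) (XT.lf (nat_lit 0) (nat_lit 5611342095) (nat_lit 168) (nat_lit 9342392035) (nat_lit 252) (nat_lit 17831516066) (nat_lit 10) (nat_lit 5) (nat_lit 12) (nat_lit 5) (nat_lit 13) (nat_lit 5) (nat_lit 380) (nat_lit 293) (nat_lit 188)) (XT.lf (nat_lit 0) (nat_lit 11602176167) (nat_lit 168) (nat_lit 5849760751) (nat_lit 252) (nat_lit 16218025289) (nat_lit 10) (nat_lit 5) (nat_lit 12) (nat_lit 5) (nat_lit 13) (nat_lit 5) (nat_lit 381) (nat_lit 293) (nat_lit 187))))))))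
noncomputable def xc101 : XT := (XT.nd (nat_lit 2256) (nat_lit 84) (nat_lit 0) (XT.nd (nat_lit 1128) (nat_lit 84) (nat_lit 0) (XT.nd (nat_lit 564) (nat_lit 252) (nat_lit 0) (XT.nd (nat_lit 282) (nat_lit 84) (nat_lit 0) (XT.nd (nat_lit 94) (nat_lit 0) (nat_lit 0) (XT.lf (nat_lit 0) (nat_lit 17765877064) (nat_lit 168) (nat_lit 2253110823) (nat_lit 252) (nat_lit 14563407621) (nat_lit 10) (nat_lit 5) (nat_lit 12) (nat_lit 5) (nat_lit 13) (nat_lit 5) (nat_lit 382) (nat_lit 293) (nat_lit 186)) (XT.nd (nat_lit 94) (nat_lit 0) (nat_lit 0) (XT.lf (nat_lit 0) (nat_lit 22671673008) (nat_lit 252) (nat_lit 11429603792) (nat_lit 84) (nat_lit 1421677595) (nat_lit 10) (nat_lit 5) (nat_lit 13) (nat_lit 5) (nat_lit 11) (nat_lit 4) (nat_lit 383) (nat_lit 293) (nat_lit 185)) (XT.lf (nat_lit 0) (nat_lit 25421508758) (nat_lit 252) (nat_lit 5911064812) (nat_lit 84) (nat_lit 5159661637) (nat_lit 10) (nat_lit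 5) (nat_lit 13) (nat_lit 5) (nat_lit 11) (nat_lit 4) (nat_lit 384) (nat_lit 293) (nat_lit 184)))) (XT.nd (nat_lit 94) (nat_lit 84) (nat_lit 0) (XT.lf (nat_lit 0) (nat_lit 28248707133) (nat_lit 252) (nat_lit 233406510) (nat_lit 84) (nat_lit 9009720656) (nat_lit 10) (nat_lit 5) (nat_lit 13) (nat_lit 5) (nat_lit 11) (nat_lit 4) (nat_lit 385) (nat_lit 293) (nat_lit 183)) (XT.nd (nat_lit 94) (nat_lit 0) (nat_lit 0) (XT.lf (nat_lit 0) (nat_lit 5723988905) (nat_lit 84) (nat_lit 25488697151) (nat_lit 168) (nat_lit 7308237084) (nat_lit 9) (nat_lit 5) (nat_lit 10) (nat_lit 5) (nat_lit 11) (nat_lit 4) (nat_lit 386) (nat_lit 293) (nat_lit 182)) (XT.lf (nat_lit 0) (nat_lit 11859533161) (nat_lit 84) (nat_lit 22403922183) (nat_lit 168) (nat_lit 5318640946) (nat_lit 9) (nat_lit 5) (nat_lit 10) (nat_lit 5) (nat_lit 11) (nat_lit 4) (nat_lit 387) (nat_lit 293) (nat_lit 181))))) (XT.nd (nat_lit 282) (nat_lit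 168) (nat_lit 0) (XT.nd (nat_lit 94) (nat_lit 84) (nat_lit 0) (XT.lf (nat_lit 0) (nat_lit 18174145908) (nat_lit 84) (nat_lit 19227349689) (nat_lit 168) (nat_lit 3274920528) (nat_lit 9) (nat_lit 5) (nat_lit 10) (nat_lit 5) (nat_lit 11) (nat_lit 4) (nat_lit 388) (nat_lit 293) (nat_lit 180)) (XT.nd (nat_lit 94) (nat_lit 84) (nat_lit 0) (XT.lf (nat_lit 0) (nat_lit 24673713028) (nat_lit 84) (nat_lit 15956018773) (nat_lit 168) (nat_lit 1175170868) (nat_lit 9) (nat_lit 5) (nat_lit 10) (nat_lit 5) (nat_lit 11) (nat_lit 4) (nat_lit 389) (nat_lit 293) (nat_lit 179)) (XT.lf (nat_lit 0) (nat_lit 962768721) (nat_lit 168) (nat_lit 11614062158) (nat_lit 84) (nat_lit 30391474745) (nat_lit 8) (nat_lit 5) (nat_lit 10) (nat_lit 5) (nat_lit 9) (nat_lit 5) (nat_lit 390) (nat_lit 293) (nat_lit 178)))) (XT.nd (nat_lit 94) (nat_lit 168) (nat_lit 0) (XT.lf (nat_lit 0) (nat_lit 3135820083) (nat_lit 168) (nat_lit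 5948241998) (nat_lit 84) (nat_lit 35083569926) (nat_lit 8) (nat_lit 5) (nat_lit 10) (nat_lit 5) (nat_lit 9) (nat_lit 5) (nat_lit 391) (nat_lit 293) (nat_lit 177)) (XT.nd (nat_lit 94) (nat_lit 168) (nat_lit 0) (XT.lf (nat_lit 0) (nat_lit 5369685802) (nat_lit 168) (nat_lit 116790183) (nat_lit 84) (nat_lit 39917885121) (nat_lit 8) (nat_lit 5) (nat_lit 10) (nat_lit 5) (nat_lit 9) (nat_lit 5) (nat_lit 392) (nat_lit 293) (nat_lit 176)) (XT.lf (nat_lit 0) (nat_lit 6006751464) (nat_lit 168) (nat_lit 1719284328) (nat_lit 252) (nat_lit 38951762672) (nat_lit 6) (nat_lit 5) (nat_lit 8) (nat_lit 5) (nat_lit 9) (nat_lit 5) (nat_lit 393) (nat_lit 293) (nat_lit 175)))))) (XT.nd (nat_lit 564) (nat_lit 84) (nat_lit 0) (XT.nd (nat_lit 282) (nat_lit 0) (nat_lit 0) (XT.nd (nat_lit 94) (nat_lit 0) (nat_lit 0) (XT.lf (nat_lit 0) (nat_lit 10171847314) (nat_lit 252) (nat_lit 35699351862) (nat_lit 84) (nat_lit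 2119023674) (nat_lit 6) (nat_lit 5) (nat_lit 9) (nat_lit 5) (nat_lit 7) (nat_lit 4) (nat_lit 394) (nat_lit 293) (nat_lit 174)) (XT.nd (nat_lit 94) (nat_lit 0) (nat_lit 0) (XT.lf (nat_lit 0) (nat_lit 12704961546) (nat_lit 252) (nat_lit 30600613659) (nat_lit 84) (nat_lit 6037419973) (nat_lit 6) (nat_lit 5) (nat_lit 9) (nat_lit 5) (nat_lit 7) (nat_lit 4) (nat_lit 395) (nat_lit 293) (nat_lit 173)) (XT.lf (nat_lit 0) (nat_lit 15310684103) (nat_lit 252) (nat_lit 25353024320) (nat_lit 84) (nat_lit 10074196671) (nat_lit 6) (nat_lit 5) (nat_lit 9) (nat_lit 5) (nat_lit 7) (nat_lit 4) (nat_lit 396) (nat_lit 293) (nat_lit 172)))) (XT.nd (nat_lit 94) (nat_lit 0) (nat_lit 0) (XT.lf (nat_lit 0) (nat_lit 17991443791) (nat_lit 252) (nat_lit 19951692542) (nat_lit 84) (nat_lit 14233116467) (nat_lit 6) (nat_lit 5) (nat_lit 9) (nat_lit 5) (nat_lit 7) (nat_lit 4) (nat_lit 397) (nat_lit 293) (nat_lit 171))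 (XT.nd (nat_lit 94) (nat_lit 0) (nat_lit 0) (XT.lf (nat_lit 0) (nat_lit 20749739359) (nat_lit 252) (nat_lit 14391583717) (nat_lit 84) (nat_lit 18518055909) (nat_lit 6) (nat_lit 5) (nat_lit 9) (nat_lit 5) (nat_lit 7) (nat_lit 4) (nat_lit 398) (nat_lit 293) (nat_lit 170)) (XT.lf (nat_lit 0) (nat_lit 23588141828) (nat_lit 252) (nat_lit 8667515242) (nat_lit 84) (nat_lit 22933009009) (nat_lit 6) (nat_lit 5) (nat_lit 9) (nat_lit 5) (nat_lit 7) (nat_lit 4) (nat_lit 399) (nat_lit 293) (nat_lit 169))))) (XT.nd (nat_lit 282) (nat_lit 0) (nat_lit 0) (XT.nd (nat_lit 94) (nat_lit 84) (nat_lit 0) (XT.lf (nat_lit 0) (nat_lit 26509296886) (nat_lit 252) (nat_lit 2774151685) (nat_lit 84) (nat_lit 27482090968) (nat_lit 6) (nat_lit 5) (nat_lit 9) (nat_lit 5) (nat_lit 7) (nat_lit 4) (nat_lit 400) (nat_lit 293) (nat_lit 168)) (XT.nd (nat_lit 94) (nat_lit 0) (nat_lit 0) (XT.lf (nat_lit 0) (nat_lit 3361731584)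 (nat_lit 84) (nat_lit 26187544565) (nat_lit 168) (nat_lit 28841159215) (nat_lit 5) (nat_lit 5) (nat_lit 6) (nat_lit 5) (nat_lit 7) (nat_lit 4) (nat_lit 401) (nat_lit 293) (nat_lit 167)) (XT.lf (nat_lit 0) (nat_lit 9738811877) (nat_lit 84) (nat_lit 22968634072) (nat_lit 168) (nat_lit 27357529659) (nat_lit 5) (nat_lit 5) (nat_lit 6) (nat_lit 5) (nat_lit 7) (nat_lit 4) (nat_lit 402) (nat_lit 293) (nat_lit 166)))) (XT.nd (nat_lit 94) (nat_lit 0) (nat_lit 0) (XT.lf (nat_lit 0) (nat_lit 16305991053) (nat_lit 84) (nat_lit 19652673187) (nat_lit 168) (nat_lit 25832927541) (nat_lit 5) (nat_lit 5) (nat_lit 6) (nat_lit 5) (nat_lit 7) (nat_lit 4) (nat_lit 403) (nat_lit 293) (nat_lit 165)) (XT.nd (nat_lit 94) (nat_lit 0) (nat_lit 0) (XT.lf (nat_lit 0) (nat_lit 23069390410) (nat_lit 84) (nat_lit 16236571087) (nat_lit 168) (nat_lit 24265931773) (nat_lit 5) (nat_lit 5) (nat_lit 6) (nat_lit 5) (nat_lit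 7) (nat_lit 4) (nat_lit 404) (nat_lit 293) (nat_lit 164)) (XT.lf (nat_lit 0) (nat_lit 30035314144) (nat_lit 84) (nat_lit 12717143605) (nat_lit 168) (nat_lit 22655081752) (nat_lit 5) (nat_lit 5) (nat_lit 6) (nat_lit 5) (nat_lit 7) (nat_lit 4) (nat_lit 405) (nat_lit 293) (nat_lit 163))))))) (XT.nd (nat_lit 43616) (nat_lit 0) (nat_lit 11424) (XT.nd (nat_lit 564) (nat_lit 84) (nat_lit 0) (XT.nd (nat_lit 282) (nat_lit 0) (nat_lit 0) (XT.nd (nat_lit 94) (nat_lit 0) (nat_lit 0) (XT.lf (nat_lit 0) (nat_lit 37210255227) (nat_lit 84) (nat_lit 9091110268) (nat_lit 168) (nat_lit 20998875994) (nat_lit 5) (nat_lit 5) (nat_lit 6) (nat_lit 5) (nat_lit 7) (nat_lit 4) (nat_lit 406) (nat_lit 293) (nat_lit 162)) (XT.nd (nat_lit 94) (nat_lit 0) (nat_lit 0) (XT.lf (nat_lit 0) (nat_lit 44600901455) (nat_lit 84) (nat_lit 5355091232) (nat_lit 168) (nat_lit 19295770745) (nat_lit 5) (nat_lit 5) (nat_lit 6) (nat_lit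 5) (nat_lit 7) (nat_lit 4) (nat_lit 407) (nat_lit 293) (nat_lit 161)) (XT.lf (nat_lit 0) (nat_lit 52214141685) (nat_lit 84) (nat_lit 1505604136) (nat_lit 168) (nat_lit 17544178530) (nat_lit 5) (nat_lit 5) (nat_lit 6) (nat_lit 5) (nat_lit 7) (nat_lit 4) (nat_lit 408) (nat_lit 293) (nat_lit 160)))) (XT.nd (nat_lit 94) (nat_lit 0) (nat_lit 0) (XT.lf (nat_lit 0) (nat_lit 57620545930) (nat_lit 168) (nat_lit 13305940359) (nat_lit 0) (nat_lit 2411356705) (nat_lit 5) (nat_lit 5) (nat_lit 7) (nat_lit 4) (nat_lit 5) (nat_lit 4) (nat_lit 409) (nat_lit 293) (nat_lit 159)) (XT.nd (nat_lit 94) (nat_lit 0) (nat_lit 0) (XT.lf (nat_lit 0) (nat_lit 61653727060) (nat_lit 168) (nat_lit 7405679284) (nat_lit 0) (nat_lit 6416303485) (nat_lit 5) (nat_lit 5) (nat_lit 7) (nat_lit 4) (nat_lit 5) (nat_lit 4) (nat_lit 410) (nat_lit 293) (nat_lit 158)) (XT.lf (nat_lit 0) (nat_lit 65808112779) (nat_lit 168) (nat_lit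 1328564002) (nat_lit 0) (nat_lit 10543303801) (nat_lit 5) (nat_lit 5) (nat_lit 7) (nat_lit 4) (nat_lit 5) (nat_lit 4) (nat_lit 411) (nat_lit 293) (nat_lit 157))))) (XT.nd (nat_lit 282) (nat_lit 0) (nat_lit 0) (XT.nd (nat_lit 94) (nat_lit 0) (nat_lit 0) (XT.lf (nat_lit 0) (nat_lit 5032462908) (nat_lit 84) (nat_lit 65105035155) (nat_lit 84) (nat_lit 9813664197) (nat_lit 4) (nat_lit 4) (nat_lit 5) (nat_lit 5) (nat_lit 5) (nat_lit 4) (nat_lit 412) (nat_lit 293) (nat_lit 156)) (XT.nd (nat_lit 94) (nat_lit 0) (nat_lit 0) (XT.lf (nat_lit 0) (nat_lit 11613034102) (nat_lit 84) (nat_lit 62998272492) (nat_lit 84) (nat_lit 7681138216) (nat_lit 4) (nat_lit 4) (nat_lit 5) (nat_lit 5) (nat_lit 5) (nat_lit 4) (nat_lit 413) (nat_lit 293) (nat_lit 155)) (XT.lf (nat_lit 0) (nat_lit 18391965359) (nat_lit 84) (nat_lit 60828292551) (nat_lit 84) (nat_lit 5486169606) (nat_lit 4) (nat_lit 4) (nat_lit 5) (nat_lit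 5) (nat_lit 5) (nat_lit 4) (nat_lit 414) (nat_lit 293) (nat_lit 154)))) (XT.nd (nat_lit 94) (nat_lit 0) (nat_lit 0) (XT.lf (nat_lit 0) (nat_lit 25375575354) (nat_lit 84) (nat_lit 58593072684) (nat_lit 84) (nat_lit 3226712427) (nat_lit 4) (nat_lit 4) (nat_lit 5) (nat_lit 5) (nat_lit 5) (nat_lit 4) (nat_lit 415) (nat_lit 293) (nat_lit 153)) (XT.nd (nat_lit 42582) (nat_lit 0) (nat_lit 13104) (XT.lf (nat_lit 0) (nat_lit 32570373543) (nat_lit 84) (nat_lit 56290529432) (nat_lit 84) (nat_lit 900660627) (nat_lit 4) (nat_lit 4) (nat_lit 5) (nat_lit 5) (nat_lit 5) (nat_lit 4) (nat_lit 416) (nat_lit 293) (nat_lit 152)) (XT.lf (nat_lit 0) (nat_lit 827568651) (nat_lit 0) (nat_lit 827568651) (nat_lit 420) (nat_lit 1687842678) (nat_lit 160) (nat_lit 5) (nat_lit 160) (nat_lit 3) (nat_lit 165) (nat_lit 3) (nat_lit 294) (nat_lit 294) (nat_lit 273)))))) (XT.nd (nat_lit 564) (nat_lit 1092) (nat_lit 0)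 (XT.nd (nat_lit 282) (nat_lit 0) (nat_lit 84) (XT.nd (nat_lit 94) (nat_lit 588) (nat_lit 0) (XT.lf (nat_lit 0) (nat_lit 4198808638) (nat_lit 0) (nat_lit 894127414) (nat_lit 420) (nat_lit 1629202041) (nat_lit 160) (nat_lit 5) (nat_lit 160) (nat_lit 3) (nat_lit 165) (nat_lit 3) (nat_lit 295) (nat_lit 294) (nat_lit 272)) (XT.nd (nat_lit 94) (nat_lit 0) (nat_lit 84) (XT.lf (nat_lit 84) (nat_lit 23792938) (nat_lit 0) (nat_lit 73388078) (nat_lit 588) (nat_lit 6664937092) (nat_lit 154) (nat_lit 5) (nat_lit 153) (nat_lit 3) (nat_lit 160) (nat_lit 5) (nat_lit 296) (nat_lit 294) (nat_lit 271)) (XT.lf (nat_lit 0) (nat_lit 1808588234) (nat_lit 504) (nat_lit 4163252701) (nat_lit 588) (nat_lit 832576682) (nat_lit 154) (nat_lit 5) (nat_lit 160) (nat_lit 5) (nat_lit 161) (nat_lit 5) (nat_lit 297) (nat_lit 294) (nat_lit 270)))) (XT.nd (nat_lit 94) (nat_lit 0) (nat_lit 0) (XT.lf (nat_lit 0) (nat_lit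 3506946767) (nat_lit 504) (nat_lit 1547418388) (nat_lit 588) (nat_lit 1796219189) (nat_lit 154) (nat_lit 5) (nat_lit 160) (nat_lit 5) (nat_lit 161) (nat_lit 5) (nat_lit 298) (nat_lit 294) (nat_lit 269)) (XT.nd (nat_lit 94) (nat_lit 0) (nat_lit 0) (XT.lf (nat_lit 84) (nat_lit 1135216094) (nat_lit 0) (nat_lit 4069157034) (nat_lit 588) (nat_lit 1695961655) (nat_lit 155) (nat_lit 5) (nat_lit 154) (nat_lit 5) (nat_lit 161) (nat_lit 5) (nat_lit 299) (nat_lit 294) (nat_lit 268)) (XT.lf (nat_lit 84) (nat_lit 3897030173) (nat_lit 0) (nat_lit 3010283398) (nat_lit 588) (nat_lit 46250951) (nat_lit 155) (nat_lit 5) (nat_lit 154) (nat_lit 5) (nat_lit 161) (nat_lit 5) (nat_lit 300) (nat_lit 294) (nat_lit 267))))) (XT.nd (nat_lit 282) (nat_lit 588) (nat_lit 0) (XT.nd (nat_lit 94) (nat_lit 0) (nat_lit 0) (XT.lf (nat_lit 0) (nat_lit 1558827669) (nat_lit 588) (nat_lit 317810506) (nat_lit 672) (nat_lit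 5133681419) (nat_lit 147) (nat_lit 5) (nat_lit 154) (nat_lit 5) (nat_lit 155) (nat_lit 5) (nat_lit 301) (nat_lit 294) (nat_lit 266)) (XT.nd (nat_lit 94) (nat_lit 0) (nat_lit 84) (XT.lf (nat_lit 84) (nat_lit 2519821684) (nat_lit 0) (nat_lit 657318985) (nat_lit 672) (nat_lit 3893216194) (nat_lit 148) (nat_lit 5) (nat_lit 147) (nat_lit 5) (nat_lit 155) (nat_lit 5) (nat_lit 302) (nat_lit 294) (nat_lit 265)) (XT.lf (nat_lit 0) (nat_lit 4796057858) (nat_lit 588) (nat_lit 1724382802) (nat_lit 672) (nat_lit 613773037) (nat_lit 148) (nat_lit 5) (nat_lit 155) (nat_lit 5) (nat_lit 156) (nat_lit 5) (nat_lit 303) (nat_lit 294) (nat_lit 264)))) (XT.nd (nat_lit 188) (nat_lit 0) (nat_lit 0) (XT.nd (nat_lit 94) (nat_lit 672) (nat_lit 0) (XT.lf (nat_lit 84) (nat_lit 1168959912) (nat_lit 0) (nat_lit 5257425747) (nat_lit 672) (nat_lit 775275738) (nat_lit 149) (nat_lit 5) (nat_lit 148) (nat_lit 5) (nat_lit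 156) (nat_lit 5) (nat_lit 304) (nat_lit 294) (nat_lit 263)) (XT.lf (nat_lit 0) (nat_lit 780689126) (nat_lit 672) (nat_lit 3128990912) (nat_lit 756) (nat_lit 3362841962) (nat_lit 140) (nat_lit 5) (nat_lit 148) (nat_lit 5) (nat_lit 149) (nat_lit 5) (nat_lit 305) (nat_lit 294) (nat_lit 262))) (XT.nd (nat_lit 94) (nat_lit 0) (nat_lit 0) (XT.lf (nat_lit 0) (nat_lit 2313786532) (nat_lit 672) (nat_lit 180462570) (nat_lit 756) (nat_lit 4853162749) (nat_lit 140) (nat_lit 5) (nat_lit 148) (nat_lit 5) (nat_lit 149) (nat_lit 5) (nat_lit 306) (nat_lit 294) (nat_lit 261)) (XT.lf (nat_lit 84) (nat_lit 2881376011) (nat_lit 0) (nat_lit 988273159) (nat_lit 756) (nat_lit 3556103911) (nat_lit 141) (nat_lit 5) (nat_lit 140) (nat_lit 5) (nat_lit 149) (nat_lit 5) (nat_lit 307) (nat_lit 294) (nat_lit 260))))))))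
noncomputable def xc102 : XT := (XT.nd (nat_lit 2256) (nat_lit 2772) (nat_lit 0) (XT.nd (nat_lit 1128) (nat_lit 2604) (nat_lit 0) (XT.nd (nat_lit 564) (nat_lit 2856) (nat_lit 0) (XT.nd (nat_lit 282) (nat_lit 756) (nat_lit 0) (XT.nd (nat_lit 94) (nat_lit 756) (nat_lit 0) (XT.lf (nat_lit 0) (nat_lit 5429311714) (nat_lit 672) (nat_lit 1508034852) (nat_lit 84) (nat_lit 570905027) (nat_lit 141) (nat_lit 5) (nat_lit 149) (nat_lit 5) (nat_lit 142) (nat_lit 5) (nat_lit 308) (nat_lit 294) (nat_lit 259)) (XT.nd (nat_lit 94) (nat_lit 84) (nat_lit 0) (XT.lf (nat_lit 0) (nat_lit 1607953207) (nat_lit 672) (nat_lit 5405057367) (nat_lit 756) (nat_lit 581391450) (nat_lit 133) (nat_lit 5) (nat_lit 141) (nat_lit 5) (nat_lit 142) (nat_lit 5) (nat_lit 309) (nat_lit 294) (nat_lit 258)) (XT.lf (nat_lit 0) (nat_lit 909043148) (nat_lit 756) (nat_lit 2877685709) (nat_lit 84) (nat_lit 3897577277) (nat_lit 132)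 (nat_lit 5) (nat_lit 141) (nat_lit 5) (nat_lit 133) (nat_lit 5) (nat_lit 310) (nat_lit 294) (nat_lit 257)))) (XT.nd (nat_lit 94) (nat_lit 0) (nat_lit 0) (XT.lf (nat_lit 0) (nat_lit 290748616) (nat_lit 756) (nat_lit 2097199016) (nat_lit 840) (nat_lit 5390591596) (nat_lit 123) (nat_lit 5) (nat_lit 132) (nat_lit 5) (nat_lit 133) (nat_lit 5) (nat_lit 311) (nat_lit 294) (nat_lit 256)) (XT.nd (nat_lit 94) (nat_lit 0) (nat_lit 0) (XT.lf (nat_lit 0) (nat_lit 3582168385) (nat_lit 756) (nat_lit 313125928) (nat_lit 840) (nat_lit 3981240335) (nat_lit 123) (nat_lit 5) (nat_lit 132) (nat_lit 5) (nat_lit 133) (nat_lit 5) (nat_lit 312) (nat_lit 294) (nat_lit 255)) (XT.lf (nat_lit 0) (nat_lit 5418602600) (nat_lit 840) (nat_lit 1054064850) (nat_lit 84) (nat_lit 1506146743) (nat_lit 123) (nat_lit 5) (nat_lit 133) (nat_lit 5) (nat_lit 124) (nat_lit 5) (nat_lit 313) (nat_lit 294) (nat_lit 254))))) (XT.nd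 (nat_lit 282) (nat_lit 1008) (nat_lit 0) (XT.nd (nat_lit 94) (nat_lit 1008) (nat_lit 0) (XT.lf (nat_lit 0) (nat_lit 2293832374) (nat_lit 840) (nat_lit 4676732264) (nat_lit 924) (nat_lit 1114559118) (nat_lit 113) (nat_lit 5) (nat_lit 123) (nat_lit 5) (nat_lit 124) (nat_lit 5) (nat_lit 314) (nat_lit 294) (nat_lit 253)) (XT.nd (nat_lit 94) (nat_lit 924) (nat_lit 0) (XT.lf (nat_lit 0) (nat_lit 335194883) (nat_lit 924) (nat_lit 2467049766) (nat_lit 84) (nat_lit 5393662919) (nat_lit 112) (nat_lit 5) (nat_lit 123) (nat_lit 5) (nat_lit 113) (nat_lit 5) (nat_lit 315) (nat_lit 294) (nat_lit 252)) (XT.lf (nat_lit 0) (nat_lit 932045190) (nat_lit 924) (nat_lit 841015923) (nat_lit 1008) (nat_lit 6538014097) (nat_lit 101) (nat_lit 5) (nat_lit 112) (nat_lit 5) (nat_lit 113) (nat_lit 5) (nat_lit 316) (nat_lit 294) (nat_lit 251)))) (XT.nd (nat_lit 94) (nat_lit 1008) (nat_lit 0) (XT.lf (nat_lit 0) (nat_lit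 3251315542) (nat_lit 1008) (nat_lit 3989018633) (nat_lit 84) (nat_lit 1189859735) (nat_lit 101) (nat_lit 5) (nat_lit 113) (nat_lit 5) (nat_lit 102) (nat_lit 5) (nat_lit 317) (nat_lit 294) (nat_lit 250)) (XT.nd (nat_lit 94) (nat_lit 1008) (nat_lit 0) (XT.lf (nat_lit 0) (nat_lit 4743342049) (nat_lit 1008) (nat_lit 538247860) (nat_lit 84) (nat_lit 3272652601) (nat_lit 101) (nat_lit 5) (nat_lit 113) (nat_lit 5) (nat_lit 102) (nat_lit 5) (nat_lit 318) (nat_lit 294) (nat_lit 249)) (XT.lf (nat_lit 0) (nat_lit 3046216225) (nat_lit 1008) (nat_lit 3226190994) (nat_lit 1092) (nat_lit 2410251268) (nat_lit 89) (nat_lit 5) (nat_lit 101) (nat_lit 5) (nat_lit 102) (nat_lit 5) (nat_lit 319) (nat_lit 294) (nat_lit 248)))))) (XT.nd (nat_lit 564) (nat_lit 1428) (nat_lit 0) (XT.nd (nat_lit 282) (nat_lit 504) (nat_lit 0) (XT.nd (nat_lit 94) (nat_lit 672) (nat_lit 0) (XT.lf (nat_lit 0) (nat_lit 6718905074)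 (nat_lit 1008) (nat_lit 1096998907) (nat_lit 1092) (nat_lit 1000402560) (nat_lit 89) (nat_lit 5) (nat_lit 101) (nat_lit 5) (nat_lit 102) (nat_lit 5) (nat_lit 320) (nat_lit 294) (nat_lit 247)) (XT.nd (nat_lit 94) (nat_lit 0) (nat_lit 0) (XT.lf (nat_lit 0) (nat_lit 432441215) (nat_lit 672) (nat_lit 7422326295) (nat_lit 84) (nat_lit 1099765362) (nat_lit 81) (nat_lit 5) (nat_lit 89) (nat_lit 5) (nat_lit 82) (nat_lit 5) (nat_lit 321) (nat_lit 294) (nat_lit 246)) (XT.lf (nat_lit 0) (nat_lit 1885070302) (nat_lit 672) (nat_lit 3834563580) (nat_lit 84) (nat_lit 3377421645) (nat_lit 81) (nat_lit 5) (nat_lit 89) (nat_lit 5) (nat_lit 82) (nat_lit 5) (nat_lit 322) (nat_lit 294) (nat_lit 245)))) (XT.nd (nat_lit 94) (nat_lit 504) (nat_lit 0) (XT.lf (nat_lit 0) (nat_lit 3346660737) (nat_lit 672) (nat_lit 169837172) (nat_lit 84) (nat_lit 5728819439) (nat_lit 81) (nat_lit 5) (nat_lit 89) (nat_lit 5)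 (nat_lit 82) (nat_lit 5) (nat_lit 323) (nat_lit 294) (nat_lit 244)) (XT.nd (nat_lit 94) (nat_lit 0) (nat_lit 0) (XT.lf (nat_lit 0) (nat_lit 3648783696) (nat_lit 504) (nat_lit 1205987563) (nat_lit 588) (nat_lit 4543563183) (nat_lit 75) (nat_lit 5) (nat_lit 81) (nat_lit 5) (nat_lit 82) (nat_lit 5) (nat_lit 324) (nat_lit 294) (nat_lit 243)) (XT.lf (nat_lit 0) (nat_lit 6388845280) (nat_lit 588) (nat_lit 2012500455) (nat_lit 84) (nat_lit 1155584533) (nat_lit 75) (nat_lit 5) (nat_lit 82) (nat_lit 5) (nat_lit 76) (nat_lit 5) (nat_lit 325) (nat_lit 294) (nat_lit 242))))) (XT.nd (nat_lit 282) (nat_lit 840) (nat_lit 0) (XT.nd (nat_lit 94) (nat_lit 84) (nat_lit 0) (XT.lf (nat_lit 0) (nat_lit 1831841587) (nat_lit 504) (nat_lit 6135923885) (nat_lit 588) (nat_lit 1752946150) (nat_lit 69) (nat_lit 5) (nat_lit 75) (nat_lit 5) (nat_lit 76) (nat_lit 5) (nat_lit 326) (nat_lit 294) (nat_lit 241)) (XT.nd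 (nat_lit 94) (nat_lit 84) (nat_lit 0) (XT.lf (nat_lit 0) (nat_lit 5805227678) (nat_lit 504) (nat_lit 3778867681) (nat_lit 588) (nat_lit 306011955) (nat_lit 69) (nat_lit 5) (nat_lit 75) (nat_lit 5) (nat_lit 76) (nat_lit 5) (nat_lit 327) (nat_lit 294) (nat_lit 240)) (XT.lf (nat_lit 0) (nat_lit 1129828325) (nat_lit 588) (nat_lit 207365064) (nat_lit 84) (nat_lit 8728358878) (nat_lit 68) (nat_lit 5) (nat_lit 75) (nat_lit 5) (nat_lit 69) (nat_lit 5) (nat_lit 328) (nat_lit 294) (nat_lit 239)))) (XT.nd (nat_lit 94) (nat_lit 420) (nat_lit 0) (XT.lf (nat_lit 0) (nat_lit 2622873406) (nat_lit 504) (nat_lit 6425621097) (nat_lit 84) (nat_lit 1197417696) (nat_lit 63) (nat_lit 5) (nat_lit 69) (nat_lit 5) (nat_lit 64) (nat_lit 5) (nat_lit 329) (nat_lit 294) (nat_lit 238)) (XT.nd (nat_lit 94) (nat_lit 420) (nat_lit 0) (XT.lf (nat_lit 0) (nat_lit 4147587160) (nat_lit 504) (nat_lit 2500723553) (nat_lit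 84) (nat_lit 3784164508) (nat_lit 63) (nat_lit 5) (nat_lit 69) (nat_lit 5) (nat_lit 64) (nat_lit 5) (nat_lit 330) (nat_lit 294) (nat_lit 237)) (XT.lf (nat_lit 0) (nat_lit 1545530371) (nat_lit 420) (nat_lit 4159806280) (nat_lit 504) (nat_lit 4920080257) (nat_lit 58) (nat_lit 5) (nat_lit 63) (nat_lit 5) (nat_lit 64) (nat_lit 5) (nat_lit 331) (nat_lit 294) (nat_lit 236))))))) (XT.nd (nat_lit 1128) (nat_lit 1176) (nat_lit 0) (XT.nd (nat_lit 564) (nat_lit 756) (nat_lit 0) (XT.nd (nat_lit 282) (nat_lit 504) (nat_lit 0) (XT.nd (nat_lit 94) (nat_lit 336) (nat_lit 0) (XT.lf (nat_lit 0) (nat_lit 5739096206) (nat_lit 420) (nat_lit 1569400356) (nat_lit 504) (nat_lit 3516081937) (nat_lit 58) (nat_lit 5) (nat_lit 63) (nat_lit 5) (nat_lit 64) (nat_lit 5) (nat_lit 332) (nat_lit 294) (nat_lit 235)) (XT.nd (nat_lit 94) (nat_lit 336) (nat_lit 0) (XT.lf (nat_lit 0) (nat_lit 8944148016) (nat_lit 504) (nat_lit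 1009372080) (nat_lit 84) (nat_lit 1077072345) (nat_lit 58) (nat_lit 5) (nat_lit 64) (nat_lit 5) (nat_lit 59) (nat_lit 5) (nat_lit 333) (nat_lit 294) (nat_lit 234)) (XT.lf (nat_lit 0) (nat_lit 3211493240) (nat_lit 336) (nat_lit 7439635437) (nat_lit 420) (nat_lit 591365379) (nat_lit 54) (nat_lit 5) (nat_lit 58) (nat_lit 5) (nat_lit 59) (nat_lit 5) (nat_lit 334) (nat_lit 294) (nat_lit 233)))) (XT.nd (nat_lit 94) (nat_lit 420) (nat_lit 0) (XT.lf (nat_lit 0) (nat_lit 914393337) (nat_lit 420) (nat_lit 3916209011) (nat_lit 84) (nat_lit 6630714676) (nat_lit 53) (nat_lit 5) (nat_lit 58) (nat_lit 5) (nat_lit 54) (nat_lit 5) (nat_lit 335) (nat_lit 294) (nat_lit 232)) (XT.nd (nat_lit 94) (nat_lit 0) (nat_lit 0) (XT.lf (nat_lit 0) (nat_lit 296342996) (nat_lit 420) (nat_lit 2134790528) (nat_lit 504) (nat_lit 9256456568) (nat_lit 48) (nat_lit 5) (nat_lit 53) (nat_lit 5) (nat_lit 54) (nat_lit 5) (nat_lit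 336) (nat_lit 294) (nat_lit 231)) (XT.lf (nat_lit 0) (nat_lit 4016694725) (nat_lit 504) (nat_lit 7234227523) (nat_lit 84) (nat_lit 669403937) (nat_lit 48) (nat_lit 5) (nat_lit 54) (nat_lit 5) (nat_lit 49) (nat_lit 5) (nat_lit 337) (nat_lit 294) (nat_lit 230))))) (XT.nd (nat_lit 282) (nat_lit 420) (nat_lit 0) (XT.nd (nat_lit 94) (nat_lit 336) (nat_lit 0) (XT.lf (nat_lit 0) (nat_lit 5648132968) (nat_lit 504) (nat_lit 2999573138) (nat_lit 84) (nat_lit 3512793210) (nat_lit 48) (nat_lit 5) (nat_lit 54) (nat_lit 5) (nat_lit 49) (nat_lit 5) (nat_lit 338) (nat_lit 294) (nat_lit 229)) (XT.nd (nat_lit 94) (nat_lit 0) (nat_lit 0) (XT.lf (nat_lit 0) (nat_lit 1365349333) (nat_lit 336) (nat_lit 5953986639) (nat_lit 420) (nat_lit 5089234001) (nat_lit 44) (nat_lit 5) (nat_lit 48) (nat_lit 5) (nat_lit 49) (nat_lit 5) (nat_lit 339) (nat_lit 294) (nat_lit 228)) (XT.lf (nat_lit 0) (nat_lit 5900947518)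 (nat_lit 336) (nat_lit 3148806159) (nat_lit 420) (nat_lit 3614461050) (nat_lit 44) (nat_lit 5) (nat_lit 48) (nat_lit 5) (nat_lit 49) (nat_lit 5) (nat_lit 340) (nat_lit 294) (nat_lit 227)))) (XT.nd (nat_lit 94) (nat_lit 420) (nat_lit 0) (XT.lf (nat_lit 0) (nat_lit 10549771692) (nat_lit 336) (nat_lit 260859334) (nat_lit 420) (nat_lit 2117982243) (nat_lit 44) (nat_lit 5) (nat_lit 48) (nat_lit 5) (nat_lit 49) (nat_lit 5) (nat_lit 341) (nat_lit 294) (nat_lit 226)) (XT.nd (nat_lit 94) (nat_lit 84) (nat_lit 0) (XT.lf (nat_lit 0) (nat_lit 2130152023) (nat_lit 336) (nat_lit 10521497483) (nat_lit 420) (nat_lit 548873300) (nat_lit 40) (nat_lit 5) (nat_lit 44) (nat_lit 5) (nat_lit 45) (nat_lit 5) (nat_lit 342) (nat_lit 294) (nat_lit 225)) (XT.lf (nat_lit 0) (nat_lit 1052649435) (nat_lit 420) (nat_lit 6691865848) (nat_lit 84) (nat_lit 5735953518) (nat_lit 39) (nat_lit 5) (nat_lit 44) (nat_lit 5)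 (nat_lit 40) (nat_lit 5) (nat_lit 343) (nat_lit 294) (nat_lit 224)))))) (XT.nd (nat_lit 564) (nat_lit 588) (nat_lit 0) (XT.nd (nat_lit 282) (nat_lit 336) (nat_lit 0) (XT.nd (nat_lit 94) (nat_lit 252) (nat_lit 0) (XT.lf (nat_lit 0) (nat_lit 2670647633) (nat_lit 420) (nat_lit 2210014298) (nat_lit 84) (nat_lit 8889029511) (nat_lit 39) (nat_lit 5) (nat_lit 44) (nat_lit 5) (nat_lit 40) (nat_lit 5) (nat_lit 344) (nat_lit 294) (nat_lit 223)) (XT.nd (nat_lit 94) (nat_lit 0) (nat_lit 0) (XT.lf (nat_lit 0) (nat_lit 2433842823) (nat_lit 252) (nat_lit 1907989211) (nat_lit 336) (nat_lit 9726048605) (nat_lit 36) (nat_lit 5) (nat_lit 39) (nat_lit 5) (nat_lit 40) (nat_lit 5) (nat_lit 345) (nat_lit 294) (nat_lit 222)) (XT.lf (nat_lit 0) (nat_lit 6078817903) (nat_lit 336) (nat_lit 7144190462) (nat_lit 84) (nat_lit 1151963189) (nat_lit 36) (nat_lit 5) (nat_lit 40) (nat_lit 5) (nat_lit 37) (nat_lit 5)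 (nat_lit 346) (nat_lit 294) (nat_lit 221)))) (XT.nd (nat_lit 94) (nat_lit 336) (nat_lit 0) (XT.lf (nat_lit 0) (nat_lit 7869004383) (nat_lit 336) (nat_lit 2560269202) (nat_lit 84) (nat_lit 4262417659) (nat_lit 36) (nat_lit 5) (nat_lit 40) (nat_lit 5) (nat_lit 37) (nat_lit 5) (nat_lit 347) (nat_lit 294) (nat_lit 220)) (XT.nd (nat_lit 94) (nat_lit 0) (nat_lit 0) (XT.lf (nat_lit 0) (nat_lit 2184947978) (nat_lit 336) (nat_lit 7531859603) (nat_lit 420) (nat_lit 5301442172) (nat_lit 32) (nat_lit 5) (nat_lit 36) (nat_lit 5) (nat_lit 37) (nat_lit 5) (nat_lit 348) (nat_lit 294) (nat_lit 219)) (XT.lf (nat_lit 0) (nat_lit 7106967139) (nat_lit 336) (nat_lit 4522439633) (nat_lit 420) (nat_lit 3725375532) (nat_lit 32) (nat_lit 5) (nat_lit 36) (nat_lit 5) (nat_lit 37) (nat_lit 5) (nat_lit 349) (nat_lit 294) (nat_lit 218))))) (XT.nd (nat_lit 282) (nat_lit 252) (nat_lit 0) (XT.nd (nat_lit 94) (nat_lit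 336) (nat_lit 0) (XT.lf (nat_lit 0) (nat_lit 12157731732) (nat_lit 336) (nat_lit 1424932540) (nat_lit 420) (nat_lit 2119741842) (nat_lit 32) (nat_lit 5) (nat_lit 36) (nat_lit 5) (nat_lit 37) (nat_lit 5) (nat_lit 350) (nat_lit 294) (nat_lit 217)) (XT.nd (nat_lit 94) (nat_lit 84) (nat_lit 0) (XT.lf (nat_lit 0) (nat_lit 1288979840) (nat_lit 252) (nat_lit 14319702343) (nat_lit 336) (nat_lit 451824295) (nat_lit 29) (nat_lit 5) (nat_lit 32) (nat_lit 5) (nat_lit 33) (nat_lit 5) (nat_lit 351) (nat_lit 294) (nat_lit 216)) (XT.lf (nat_lit 0) (nat_lit 1276139631) (nat_lit 336) (nat_lit 10132382042) (nat_lit 84) (nat_lit 5019820038) (nat_lit 28) (nat_lit 5) (nat_lit 32) (nat_lit 5) (nat_lit 29) (nat_lit 5) (nat_lit 352) (nat_lit 294) (nat_lit 215)))) (XT.nd (nat_lit 188) (nat_lit 252) (nat_lit 0) (XT.nd (nat_lit 94) (nat_lit 0) (nat_lit 0) (XT.lf (nat_lit 0) (nat_lit 3030761226) (nat_lit 336)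 (nat_lit 5377240791) (nat_lit 84) (nat_lit 8400049622) (nat_lit 28) (nat_lit 5) (nat_lit 32) (nat_lit 5) (nat_lit 29) (nat_lit 5) (nat_lit 353) (nat_lit 294) (nat_lit 214)) (XT.lf (nat_lit 0) (nat_lit 4822779233) (nat_lit 336) (nat_lit 497188444) (nat_lit 84) (nat_lit 11880161462) (nat_lit 28) (nat_lit 5) (nat_lit 32) (nat_lit 5) (nat_lit 29) (nat_lit 5) (nat_lit 354) (nat_lit 294) (nat_lit 213))) (XT.nd (nat_lit 94) (nat_lit 0) (nat_lit 0) (XT.lf (nat_lit 0) (nat_lit 4605106349) (nat_lit 252) (nat_lit 2094440875) (nat_lit 336) (nat_lit 10903976263) (nat_lit 25) (nat_lit 5) (nat_lit 28) (nat_lit 5) (nat_lit 29) (nat_lit 5) (nat_lit 355) (nat_lit 294) (nat_lit 212)) (XT.lf (nat_lit 0) (nat_lit 8635692245) (nat_lit 336) (nat_lit 8177530502) (nat_lit 84) (nat_lit 1206228735) (nat_lit 25) (nat_lit 5) (nat_lit 29) (nat_lit 5) (nat_lit 26) (nat_lit 5) (nat_lit 356) (nat_lit 294) (nat_lit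 211))))))))
noncomputable def xc103 : XT := (XT.nd (nat_lit 2256) (nat_lit 420) (nat_lit 0) (XT.nd (nat_lit 1128) (nat_lit 588) (nat_lit 0) (XT.nd (nat_lit 564) (nat_lit 168) (nat_lit 0) (XT.nd (nat_lit 282) (nat_lit 336) (nat_lit 0) (XT.nd (nat_lit 94) (nat_lit 168) (nat_lit 0) (XT.lf (nat_lit 0) (nat_lit 10637509883) (nat_lit 336) (nat_lit 3250067842) (nat_lit 84) (nat_lit 4560583867) (nat_lit 25) (nat_lit 5) (nat_lit 29) (nat_lit 5) (nat_lit 26) (nat_lit 5) (nat_lit 357) (nat_lit 294) (nat_lit 210)) (XT.nd (nat_lit 94) (nat_lit 0) (nat_lit 0) (XT.lf (nat_lit 0) (nat_lit 1846544624) (nat_lit 168) (nat_lit 10857862258) (nat_lit 252) (nat_lit 6185722774) (nat_lit 23) (nat_lit 5) (nat_lit 25) (nat_lit 5) (nat_lit 26) (nat_lit 5) (nat_lit 358) (nat_lit 294) (nat_lit 209)) (XT.lf (nat_lit 0) (nat_lit 7149457146) (nat_lit 168) (nat_lit 7704805230) (nat_lit 252) (nat_lit 4491010727) (nat_lit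 23) (nat_lit 5) (nat_lit 25) (nat_lit 5) (nat_lit 26) (nat_lit 5) (nat_lit 359) (nat_lit 294) (nat_lit 208)))) (XT.nd (nat_lit 94) (nat_lit 336) (nat_lit 0) (XT.lf (nat_lit 0) (nat_lit 12596784535) (nat_lit 168) (nat_lit 4459391706) (nat_lit 252) (nat_lit 2758859960) (nat_lit 23) (nat_lit 5) (nat_lit 25) (nat_lit 5) (nat_lit 26) (nat_lit 5) (nat_lit 360) (nat_lit 294) (nat_lit 207)) (XT.nd (nat_lit 94) (nat_lit 336) (nat_lit 0) (XT.lf (nat_lit 0) (nat_lit 18193604269) (nat_lit 168) (nat_lit 1118596620) (nat_lit 252) (nat_lit 987655928) (nat_lit 23) (nat_lit 5) (nat_lit 25) (nat_lit 5) (nat_lit 26) (nat_lit 5) (nat_lit 361) (nat_lit 294) (nat_lit 206)) (XT.lf (nat_lit 0) (nat_lit 862832443) (nat_lit 336) (nat_lit 17621110866) (nat_lit 84) (nat_lit 2314279273) (nat_lit 19) (nat_lit 5) (nat_lit 23) (nat_lit 5) (nat_lit 20) (nat_lit 5) (nat_lit 362) (nat_lit 294) (nat_lit 205))))) (XT.nd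 (nat_lit 282) (nat_lit 168) (nat_lit 0) (XT.nd (nat_lit 94) (nat_lit 0) (nat_lit 0) (XT.lf (nat_lit 0) (nat_lit 2770081986) (nat_lit 336) (nat_lit 12683572454) (nat_lit 84) (nat_lit 5857504166) (nat_lit 19) (nat_lit 5) (nat_lit 23) (nat_lit 5) (nat_lit 20) (nat_lit 5) (nat_lit 363) (nat_lit 294) (nat_lit 204)) (XT.nd (nat_lit 94) (nat_lit 0) (nat_lit 0) (XT.lf (nat_lit 0) (nat_lit 4723130896) (nat_lit 336) (nat_lit 7611749361) (nat_lit 84) (nat_lit 9505578265) (nat_lit 19) (nat_lit 5) (nat_lit 23) (nat_lit 5) (nat_lit 20) (nat_lit 5) (nat_lit 364) (nat_lit 294) (nat_lit 203)) (XT.lf (nat_lit 0) (nat_lit 6723799620) (nat_lit 336) (nat_lit 2400914118) (nat_lit 84) (nat_lit 13261901956) (nat_lit 19) (nat_lit 5) (nat_lit 23) (nat_lit 5) (nat_lit 20) (nat_lit 5) (nat_lit 365) (nat_lit 294) (nat_lit 202)))) (XT.nd (nat_lit 94) (nat_lit 0) (nat_lit 0) (XT.lf (nat_lit 0) (nat_lit 3014526305)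 (nat_lit 168) (nat_lit 5789331160) (nat_lit 252) (nat_lit 14145354697) (nat_lit 17) (nat_lit 5) (nat_lit 19) (nat_lit 5) (nat_lit 20) (nat_lit 5) (nat_lit 366) (nat_lit 294) (nat_lit 201)) (XT.nd (nat_lit 94) (nat_lit 0) (nat_lit 0) (XT.lf (nat_lit 0) (nat_lit 8631255662) (nat_lit 168) (nat_lit 2329869428) (nat_lit 252) (nat_lit 12567774894) (nat_lit 17) (nat_lit 5) (nat_lit 19) (nat_lit 5) (nat_lit 20) (nat_lit 5) (nat_lit 367) (nat_lit 294) (nat_lit 200)) (XT.lf (nat_lit 0) (nat_lit 13185526157) (nat_lit 252) (nat_lit 9734051359) (nat_lit 84) (nat_lit 1207016677) (nat_lit 17) (nat_lit 5) (nat_lit 20) (nat_lit 5) (nat_lit 18) (nat_lit 5) (nat_lit 368) (nat_lit 294) (nat_lit 199)))))) (XT.nd (nat_lit 564) (nat_lit 336) (nat_lit 0) (XT.nd (nat_lit 282) (nat_lit 84) (nat_lit 0) (XT.nd (nat_lit 94) (nat_lit 168) (nat_lit 0) (XT.lf (nat_lit 0) (nat_lit 15491062479) (nat_lit 252) (nat_lit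 4451022398) (nat_lit 84) (nat_lit 4800397242) (nat_lit 17) (nat_lit 5) (nat_lit 20) (nat_lit 5) (nat_lit 18) (nat_lit 5) (nat_lit 369) (nat_lit 294) (nat_lit 198)) (XT.nd (nat_lit 94) (nat_lit 0) (nat_lit 0) (XT.lf (nat_lit 0) (nat_lit 999619595) (nat_lit 168) (nat_lit 16867067221) (nat_lit 252) (nat_lit 7510860105) (nat_lit 15) (nat_lit 5) (nat_lit 17) (nat_lit 5) (nat_lit 18) (nat_lit 5) (nat_lit 370) (nat_lit 294) (nat_lit 197)) (XT.lf (nat_lit 0) (nat_lit 6697454890) (nat_lit 168) (nat_lit 13653839898) (nat_lit 252) (nat_lit 5679948637) (nat_lit 15) (nat_lit 5) (nat_lit 17) (nat_lit 5) (nat_lit 18) (nat_lit 5) (nat_lit 371) (nat_lit 294) (nat_lit 196)))) (XT.nd (nat_lit 94) (nat_lit 84) (nat_lit 0) (XT.lf (nat_lit 0) (nat_lit 12556272314) (nat_lit 168) (nat_lit 10345867389) (nat_lit 252) (nat_lit 3803438180) (nat_lit 15) (nat_lit 5) (nat_lit 17) (nat_lit 5) (nat_lit 18) (nat_lit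 5) (nat_lit 372) (nat_lit 294) (nat_lit 195)) (XT.nd (nat_lit 94) (nat_lit 84) (nat_lit 0) (XT.lf (nat_lit 0) (nat_lit 18581532899) (nat_lit 168) (nat_lit 6940066319) (nat_lit 252) (nat_lit 1879579630) (nat_lit 15) (nat_lit 5) (nat_lit 17) (nat_lit 5) (nat_lit 18) (nat_lit 5) (nat_lit 373) (nat_lit 294) (nat_lit 194)) (XT.lf (nat_lit 0) (nat_lit 91538041) (nat_lit 252) (nat_lit 3340768613) (nat_lit 84) (nat_lit 24686359308) (nat_lit 14) (nat_lit 5) (nat_lit 17) (nat_lit 5) (nat_lit 15) (nat_lit 5) (nat_lit 374) (nat_lit 294) (nat_lit 193))))) (XT.nd (nat_lit 282) (nat_lit 168) (nat_lit 0) (XT.nd (nat_lit 94) (nat_lit 0) (nat_lit 0) (XT.lf (nat_lit 0) (nat_lit 2099978184) (nat_lit 252) (nat_lit 26538671611) (nat_lit 84) (nat_lit 218710871) (nat_lit 12) (nat_lit 5) (nat_lit 15) (nat_lit 5) (nat_lit 13) (nat_lit 5) (nat_lit 375) (nat_lit 294) (nat_lit 192)) (XT.nd (nat_lit 94) (nat_lit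 0) (nat_lit 0) (XT.lf (nat_lit 0) (nat_lit 4231146587) (nat_lit 252) (nat_lit 21443588955) (nat_lit 84) (nat_lit 3942378378) (nat_lit 12) (nat_lit 5) (nat_lit 15) (nat_lit 5) (nat_lit 13) (nat_lit 5) (nat_lit 376) (nat_lit 294) (nat_lit 191)) (XT.lf (nat_lit 0) (nat_lit 6418812611) (nat_lit 252) (nat_lit 16204784174) (nat_lit 84) (nat_lit 7777151841) (nat_lit 12) (nat_lit 5) (nat_lit 15) (nat_lit 5) (nat_lit 13) (nat_lit 5) (nat_lit 377) (nat_lit 294) (nat_lit 190)))) (XT.nd (nat_lit 94) (nat_lit 168) (nat_lit 0) (XT.lf (nat_lit 0) (nat_lit 8665015390) (nat_lit 252) (nat_lit 10817374152) (nat_lit 84) (nat_lit 11726605668) (nat_lit 12) (nat_lit 5) (nat_lit 15) (nat_lit 5) (nat_lit 13) (nat_lit 5) (nat_lit 378) (nat_lit 294) (nat_lit 189)) (XT.nd (nat_lit 94) (nat_lit 168) (nat_lit 0) (XT.lf (nat_lit 0) (nat_lit 10971848621) (nat_lit 252) (nat_lit 5276337260) (nat_lit 84) (nat_lit 15794421166)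 (nat_lit 12) (nat_lit 5) (nat_lit 15) (nat_lit 5) (nat_lit 13) (nat_lit 5) (nat_lit 379) (nat_lit 294) (nat_lit 188)) (XT.lf (nat_lit 0) (nat_lit 432199179) (nat_lit 168) (nat_lit 12913550802) (nat_lit 252) (nat_lit 19556478253) (nat_lit 10) (nat_lit 5) (nat_lit 12) (nat_lit 5) (nat_lit 13) (nat_lit 5) (nat_lit 380) (nat_lit 294) (nat_lit 187))))))) (XT.nd (nat_lit 1128) (nat_lit 252) (nat_lit 0) (XT.nd (nat_lit 564) (nat_lit 84) (nat_lit 0) (XT.nd (nat_lit 282) (nat_lit 84) (nat_lit 0) (XT.nd (nat_lit 94) (nat_lit 0) (nat_lit 0) (XT.lf (nat_lit 0) (nat_lit 6416706796) (nat_lit 168) (nat_lit 9423013524) (nat_lit 252) (nat_lit 17947365282) (nat_lit 10) (nat_lit 5) (nat_lit 12) (nat_lit 5) (nat_lit 13) (nat_lit 5) (nat_lit 381) (nat_lit 294) (nat_lit 186)) (XT.nd (nat_lit 94) (nat_lit 0) (nat_lit 0) (XT.lf (nat_lit 0) (nat_lit 12574271461) (nat_lit 168) (nat_lit 5828394640) (nat_lit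 252) (nat_lit 16296993788) (nat_lit 10) (nat_lit 5) (nat_lit 12) (nat_lit 5) (nat_lit 13) (nat_lit 5) (nat_lit 382) (nat_lit 294) (nat_lit 185)) (XT.lf (nat_lit 0) (nat_lit 18910632670) (nat_lit 168) (nat_lit 2126343588) (nat_lit 252) (nat_lit 14603825455) (nat_lit 10) (nat_lit 5) (nat_lit 12) (nat_lit 5) (nat_lit 13) (nat_lit 5) (nat_lit 383) (nat_lit 294) (nat_lit 184)))) (XT.nd (nat_lit 94) (nat_lit 84) (nat_lit 0) (XT.lf (nat_lit 0) (nat_lit 23761837431) (nat_lit 252) (nat_lit 11196422925) (nat_lit 84) (nat_lit 1652609293) (nat_lit 10) (nat_lit 5) (nat_lit 13) (nat_lit 5) (nat_lit 11) (nat_lit 4) (nat_lit 384) (nat_lit 294) (nat_lit 183)) (XT.nd (nat_lit 94) (nat_lit 84) (nat_lit 0) (XT.lf (nat_lit 0) (nat_lit 26585271513) (nat_lit 252) (nat_lit 5524474083) (nat_lit 84) (nat_lit 5500852362) (nat_lit 10) (nat_lit 5) (nat_lit 13) (nat_lit 5) (nat_lit 11) (nat_lit 4) (nat_lit 385)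 (nat_lit 294) (nat_lit 182)) (XT.lf (nat_lit 0) (nat_lit 318474475) (nat_lit 84) (nat_lit 29173501481) (nat_lit 168) (nat_lit 9149498500) (nat_lit 9) (nat_lit 5) (nat_lit 10) (nat_lit 5) (nat_lit 11) (nat_lit 4) (nat_lit 386) (nat_lit 294) (nat_lit 181))))) (XT.nd (nat_lit 282) (nat_lit 84) (nat_lit 0) (XT.nd (nat_lit 94) (nat_lit 0) (nat_lit 0) (XT.lf (nat_lit 0) (nat_lit 6448537007) (nat_lit 84) (nat_lit 26090612528) (nat_lit 168) (nat_lit 7163621318) (nat_lit 9) (nat_lit 5) (nat_lit 10) (nat_lit 5) (nat_lit 11) (nat_lit 4) (nat_lit 387) (nat_lit 294) (nat_lit 180)) (XT.nd (nat_lit 94) (nat_lit 0) (nat_lit 0) (XT.lf (nat_lit 0) (nat_lit 12757832855) (nat_lit 84) (nat_lit 22915869343) (nat_lit 168) (nat_lit 5123508035) (nat_lit 9) (nat_lit 5) (nat_lit 10) (nat_lit 5) (nat_lit 11) (nat_lit 4) (nat_lit 388) (nat_lit 294) (nat_lit 179)) (XT.lf (nat_lit 0) (nat_lit 19252242944) (nat_lit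 84) (nat_lit 19646312731) (nat_lit 168) (nat_lit 3027257050) (nat_lit 9) (nat_lit 5) (nat_lit 10) (nat_lit 5) (nat_lit 11) (nat_lit 4) (nat_lit 389) (nat_lit 294) (nat_lit 178)))) (XT.nd (nat_lit 94) (nat_lit 84) (nat_lit 0) (XT.lf (nat_lit 0) (nat_lit 25937820744) (nat_lit 84) (nat_lit 16278895123) (nat_lit 168) (nat_lit 872914439) (nat_lit 9) (nat_lit 5) (nat_lit 10) (nat_lit 5) (nat_lit 11) (nat_lit 4) (nat_lit 390) (nat_lit 294) (nat_lit 177)) (XT.nd (nat_lit 94) (nat_lit 0) (nat_lit 0) (XT.lf (nat_lit 0) (nat_lit 1314499074) (nat_lit 168) (nat_lit 11482257985) (nat_lit 84) (nat_lit 31492578164) (nat_lit 8) (nat_lit 5) (nat_lit 10) (nat_lit 5) (nat_lit 9) (nat_lit 5) (nat_lit 391) (nat_lit 294) (nat_lit 176)) (XT.lf (nat_lit 0) (nat_lit 3545236638) (nat_lit 168) (nat_lit 5655585997) (nat_lit 84) (nat_lit 36325348471) (nat_lit 8) (nat_lit 5) (nat_lit 10) (nat_lit 5) (nat_lit 9)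 (nat_lit 5) (nat_lit 392) (nat_lit 294) (nat_lit 175)))))) (XT.nd (nat_lit 564) (nat_lit 84) (nat_lit 0) (XT.nd (nat_lit 282) (nat_lit 0) (nat_lit 0) (XT.nd (nat_lit 94) (nat_lit 0) (nat_lit 0) (XT.lf (nat_lit 0) (nat_lit 349335215) (nat_lit 168) (nat_lit 5493095046) (nat_lit 252) (nat_lit 40959021566) (nat_lit 6) (nat_lit 5) (nat_lit 8) (nat_lit 5) (nat_lit 9) (nat_lit 5) (nat_lit 393) (nat_lit 294) (nat_lit 174)) (XT.nd (nat_lit 94) (nat_lit 0) (nat_lit 0) (XT.lf (nat_lit 0) (nat_lit 6650983830) (nat_lit 168) (nat_lit 1612816347) (nat_lit 252) (nat_lit 39850842956) (nat_lit 6) (nat_lit 5) (nat_lit 8) (nat_lit 5) (nat_lit 9) (nat_lit 5) (nat_lit 394) (nat_lit 294) (nat_lit 173)) (XT.lf (nat_lit 0) (nat_lit 10778001129) (nat_lit 252) (nat_lit 36353456350) (nat_lit 84) (nat_lit 2336553244) (nat_lit 6) (nat_lit 5) (nat_lit 9) (nat_lit 5) (nat_lit 7) (nat_lit 4) (nat_lit 395) (nat_lit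 294) (nat_lit 172)))) (XT.nd (nat_lit 94) (nat_lit 0) (nat_lit 0) (XT.lf (nat_lit 0) (nat_lit 13380897360) (nat_lit 252) (nat_lit 31110265253) (nat_lit 84) (nat_lit 6371854324) (nat_lit 6) (nat_lit 5) (nat_lit 9) (nat_lit 5) (nat_lit 7) (nat_lit 4) (nat_lit 396) (nat_lit 294) (nat_lit 171)) (XT.nd (nat_lit 94) (nat_lit 0) (nat_lit 0) (XT.lf (nat_lit 0) (nat_lit 16058915704) (nat_lit 252) (nat_lit 25713199471) (nat_lit 84) (nat_lit 10529342871) (nat_lit 6) (nat_lit 5) (nat_lit 9) (nat_lit 5) (nat_lit 7) (nat_lit 4) (nat_lit 397) (nat_lit 294) (nat_lit 170)) (XT.lf (nat_lit 0) (nat_lit 18814552354) (nat_lit 252) (nat_lit 20157228373) (nat_lit 84) (nat_lit 14812894098) (nat_lit 6) (nat_lit 5) (nat_lit 9) (nat_lit 5) (nat_lit 7) (nat_lit 4) (nat_lit 398) (nat_lit 294) (nat_lit 169))))) (XT.nd (nat_lit 282) (nat_lit 84) (nat_lit 0) (XT.nd (nat_lit 94) (nat_lit 0) (nat_lit 0) (XT.lf (nat_lit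 0) (nat_lit 21650375853) (nat_lit 252) (nat_lit 14437173212) (nat_lit 84) (nat_lit 19226500725) (nat_lit 6) (nat_lit 5) (nat_lit 9) (nat_lit 5) (nat_lit 7) (nat_lit 4) (nat_lit 399) (nat_lit 294) (nat_lit 168)) (XT.nd (nat_lit 94) (nat_lit 0) (nat_lit 0) (XT.lf (nat_lit 0) (nat_lit 24569029485) (nat_lit 252) (nat_lit 8547702298) (nat_lit 84) (nat_lit 23774276696) (nat_lit 6) (nat_lit 5) (nat_lit 9) (nat_lit 5) (nat_lit 7) (nat_lit 4) (nat_lit 400) (nat_lit 294) (nat_lit 167)) (XT.lf (nat_lit 0) (nat_lit 27573233742) (nat_lit 252) (nat_lit 2483326026) (nat_lit 84) (nat_lit 28460461013) (nat_lit 6) (nat_lit 5) (nat_lit 9) (nat_lit 5) (nat_lit 7) (nat_lit 4) (nat_lit 401) (nat_lit 294) (nat_lit 166)))) (XT.nd (nat_lit 188) (nat_lit 0) (nat_lit 0) (XT.nd (nat_lit 94) (nat_lit 0) (nat_lit 0) (XT.lf (nat_lit 0) (nat_lit 3838954616) (nat_lit 84) (nat_lit 26864917144) (nat_lit 168) (nat_lit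 29488549981) (nat_lit 5) (nat_lit 5) (nat_lit 6) (nat_lit 5) (nat_lit 7) (nat_lit 4) (nat_lit 402) (nat_lit 294) (nat_lit 165)) (XT.lf (nat_lit 0) (nat_lit 10402508792) (nat_lit 84) (nat_lit 23550262794) (nat_lit 168) (nat_lit 27966345212) (nat_lit 5) (nat_lit 5) (nat_lit 6) (nat_lit 5) (nat_lit 7) (nat_lit 4) (nat_lit 403) (nat_lit 294) (nat_lit 164))) (XT.nd (nat_lit 94) (nat_lit 0) (nat_lit 0) (XT.lf (nat_lit 0) (nat_lit 17162392146) (nat_lit 84) (nat_lit 20135427943) (nat_lit 168) (nat_lit 26401674710) (nat_lit 5) (nat_lit 5) (nat_lit 6) (nat_lit 5) (nat_lit 7) (nat_lit 4) (nat_lit 404) (nat_lit 294) (nat_lit 163)) (XT.lf (nat_lit 0) (nat_lit 24124905596) (nat_lit 84) (nat_lit 16617229608) (nat_lit 168) (nat_lit 24793080038) (nat_lit 5) (nat_lit 5) (nat_lit 6) (nat_lit 5) (nat_lit 7) (nat_lit 4) (nat_lit 405) (nat_lit 294) (nat_lit 162))))))))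
noncomputable def xc104 : XT := (XT.nd (nat_lit 44838) (nat_lit 0) (nat_lit 4956) (XT.nd (nat_lit 43710) (nat_lit 0) (nat_lit 11340) (XT.nd (nat_lit 564) (nat_lit 84) (nat_lit 0) (XT.nd (nat_lit 282) (nat_lit 0) (nat_lit 0) (XT.nd (nat_lit 94) (nat_lit 0) (nat_lit 0) (XT.lf (nat_lit 0) (nat_lit 31296538935) (nat_lit 84) (nat_lit 12992388459) (nat_lit 168) (nat_lit 23139061817) (nat_lit 5) (nat_lit 5) (nat_lit 6) (nat_lit 5) (nat_lit 7) (nat_lit 4) (nat_lit 406) (nat_lit 294) (nat_lit 161)) (XT.nd (nat_lit 94) (nat_lit 0) (nat_lit 0) (XT.lf (nat_lit 0) (nat_lit 38683976876) (nat_lit 84) (nat_lit 9257525765) (nat_lit 168) (nat_lit 21438078329) (nat_lit 5) (nat_lit 5) (nat_lit 6) (nat_lit 5) (nat_lit 7) (nat_lit 4) (nat_lit 407) (nat_lit 294) (nat_lit 160)) (XT.lf (nat_lit 0) (nat_lit 46294105284) (nat_lit 84) (nat_lit 5409160242) (nat_lit 168) (nat_lit 19688544079) (nat_lit 5) (nat_lit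 5) (nat_lit 6) (nat_lit 5) (nat_lit 7) (nat_lit 4) (nat_lit 408) (nat_lit 294) (nat_lit 159)))) (XT.nd (nat_lit 94) (nat_lit 0) (nat_lit 0) (XT.lf (nat_lit 0) (nat_lit 54134017598) (nat_lit 84) (nat_lit 1443704811) (nat_lit 168) (nat_lit 17888828317) (nat_lit 5) (nat_lit 5) (nat_lit 6) (nat_lit 5) (nat_lit 7) (nat_lit 4) (nat_lit 409) (nat_lit 294) (nat_lit 158)) (XT.nd (nat_lit 94) (nat_lit 0) (nat_lit 0) (XT.lf (nat_lit 0) (nat_lit 59594698979) (nat_lit 168) (nat_lit 13420931064) (nat_lit 0) (nat_lit 2589295521) (nat_lit 5) (nat_lit 5) (nat_lit 7) (nat_lit 4) (nat_lit 5) (nat_lit 4) (nat_lit 410) (nat_lit 294) (nat_lit 157)) (XT.lf (nat_lit 0) (nat_lit 63747258482) (nat_lit 168) (nat_lit 7346706898) (nat_lit 0) (nat_lit 6715293043) (nat_lit 5) (nat_lit 5) (nat_lit 7) (nat_lit 4) (nat_lit 5) (nat_lit 4) (nat_lit 411) (nat_lit 294) (nat_lit 156))))) (XT.nd (nat_lit 282) (nat_lit 0)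 (nat_lit 0) (XT.nd (nat_lit 94) (nat_lit 84) (nat_lit 0) (XT.lf (nat_lit 0) (nat_lit 68024949806) (nat_lit 168) (nat_lit 1089877086) (nat_lit 0) (nat_lit 10967221050) (nat_lit 5) (nat_lit 5) (nat_lit 7) (nat_lit 4) (nat_lit 5) (nat_lit 4) (nat_lit 412) (nat_lit 294) (nat_lit 155)) (XT.nd (nat_lit 94) (nat_lit 0) (nat_lit 0) (XT.lf (nat_lit 0) (nat_lit 5465508201) (nat_lit 84) (nat_lit 67020470526) (nat_lit 84) (nat_lit 9937753100) (nat_lit 4) (nat_lit 4) (nat_lit 5) (nat_lit 5) (nat_lit 5) (nat_lit 4) (nat_lit 413) (nat_lit 294) (nat_lit 154)) (XT.lf (nat_lit 0) (nat_lit 12241747124) (nat_lit 84) (nat_lit 64851489823) (nat_lit 84) (nat_lit 7744535085) (nat_lit 4) (nat_lit 4) (nat_lit 5) (nat_lit 5) (nat_lit 5) (nat_lit 4) (nat_lit 414) (nat_lit 294) (nat_lit 153)))) (XT.nd (nat_lit 94) (nat_lit 0) (nat_lit 0) (XT.lf (nat_lit 0) (nat_lit 19222745737) (nat_lit 84) (nat_lit 62617239148)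 (nat_lit 84) (nat_lit 5486775863) (nat_lit 4) (nat_lit 4) (nat_lit 5) (nat_lit 5) (nat_lit 5) (nat_lit 4) (nat_lit 415) (nat_lit 294) (nat_lit 152)) (XT.nd (nat_lit 42676) (nat_lit 0) (nat_lit 12516) (XT.lf (nat_lit 0) (nat_lit 26415011063) (nat_lit 84) (nat_lit 60315635947) (nat_lit 84) (nat_lit 3162370967) (nat_lit 4) (nat_lit 4) (nat_lit 5) (nat_lit 5) (nat_lit 5) (nat_lit 4) (nat_lit 416) (nat_lit 294) (nat_lit 151)) (XT.lf (nat_lit 0) (nat_lit 39974301) (nat_lit 588) (nat_lit 1669920209) (nat_lit 588) (nat_lit 1669920209) (nat_lit 153) (nat_lit 3) (nat_lit 160) (nat_lit 3) (nat_lit 160) (nat_lit 5) (nat_lit 295) (nat_lit 295) (nat_lit 271)))))) (XT.nd (nat_lit 564) (nat_lit 672) (nat_lit 0) (XT.nd (nat_lit 282) (nat_lit 504) (nat_lit 0) (XT.nd (nat_lit 94) (nat_lit 0) (nat_lit 0) (XT.lf (nat_lit 0) (nat_lit 1739352591) (nat_lit 588) (nat_lit 826972768) (nat_lit 588) (nat_lit 4234099110)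 (nat_lit 153) (nat_lit 3) (nat_lit 160) (nat_lit 3) (nat_lit 160) (nat_lit 5) (nat_lit 296) (nat_lit 295) (nat_lit 270)) (XT.nd (nat_lit 94) (nat_lit 0) (nat_lit 0) (XT.lf (nat_lit 84) (nat_lit 1764650185) (nat_lit 0) (nat_lit 1636236816) (nat_lit 588) (nat_lit 3443632546) (nat_lit 154) (nat_lit 5) (nat_lit 153) (nat_lit 3) (nat_lit 160) (nat_lit 5) (nat_lit 297) (nat_lit 295) (nat_lit 269)) (XT.lf (nat_lit 84) (nat_lit 4419798754) (nat_lit 0) (nat_lit 637613793) (nat_lit 588) (nat_lit 1834812561) (nat_lit 154) (nat_lit 5) (nat_lit 153) (nat_lit 3) (nat_lit 160) (nat_lit 5) (nat_lit 298) (nat_lit 295) (nat_lit 268)))) (XT.nd (nat_lit 94) (nat_lit 588) (nat_lit 0) (XT.lf (nat_lit 84) (nat_lit 179530813) (nat_lit 0) (nat_lit 6528535812) (nat_lit 588) (nat_lit 235593598) (nat_lit 155) (nat_lit 5) (nat_lit 154) (nat_lit 5) (nat_lit 161) (nat_lit 5) (nat_lit 299) (nat_lit 295) (nat_lit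 267)) (XT.nd (nat_lit 94) (nat_lit 0) (nat_lit 0) (XT.lf (nat_lit 0) (nat_lit 1354883996) (nat_lit 588) (nat_lit 4087994147) (nat_lit 672) (nat_lit 1554750769) (nat_lit 147) (nat_lit 5) (nat_lit 154) (nat_lit 5) (nat_lit 155) (nat_lit 5) (nat_lit 300) (nat_lit 295) (nat_lit 266)) (XT.lf (nat_lit 0) (nat_lit 2929213304) (nat_lit 588) (nat_lit 1367596103) (nat_lit 672) (nat_lit 2758698887) (nat_lit 147) (nat_lit 5) (nat_lit 154) (nat_lit 5) (nat_lit 155) (nat_lit 5) (nat_lit 301) (nat_lit 295) (nat_lit 265))))) (XT.nd (nat_lit 282) (nat_lit 0) (nat_lit 84) (XT.nd (nat_lit 94) (nat_lit 672) (nat_lit 0) (XT.lf (nat_lit 84) (nat_lit 1430764246) (nat_lit 0) (nat_lit 3077037563) (nat_lit 672) (nat_lit 2609182963) (nat_lit 148) (nat_lit 5) (nat_lit 147) (nat_lit 5) (nat_lit 155) (nat_lit 5) (nat_lit 302) (nat_lit 295) (nat_lit 264)) (XT.nd (nat_lit 94) (nat_lit 672) (nat_lit 0) (XT.lf (nat_lit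 84) (nat_lit 4310025676) (nat_lit 0) (nat_lit 1782257927) (nat_lit 672) (nat_lit 1089827004) (nat_lit 148) (nat_lit 5) (nat_lit 147) (nat_lit 5) (nat_lit 155) (nat_lit 5) (nat_lit 303) (nat_lit 295) (nat_lit 263)) (XT.lf (nat_lit 0) (nat_lit 410474001) (nat_lit 672) (nat_lit 10780021) (nat_lit 756) (nat_lit 6829992869) (nat_lit 139) (nat_lit 5) (nat_lit 147) (nat_lit 5) (nat_lit 148) (nat_lit 5) (nat_lit 304) (nat_lit 295) (nat_lit 262)))) (XT.nd (nat_lit 94) (nat_lit 0) (nat_lit 0) (XT.lf (nat_lit 0) (nat_lit 1919450336) (nat_lit 672) (nat_lit 4380401795) (nat_lit 756) (nat_lit 1023173239) (nat_lit 140) (nat_lit 5) (nat_lit 148) (nat_lit 5) (nat_lit 149) (nat_lit 5) (nat_lit 305) (nat_lit 295) (nat_lit 261)) (XT.nd (nat_lit 94) (nat_lit 0) (nat_lit 0) (XT.lf (nat_lit 0) (nat_lit 3426282654) (nat_lit 672) (nat_lit 1449671308) (nat_lit 756) (nat_lit 2522953817) (nat_lit 140) (nat_lit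 5) (nat_lit 148) (nat_lit 5) (nat_lit 149) (nat_lit 5) (nat_lit 306) (nat_lit 295) (nat_lit 260)) (XT.lf (nat_lit 84) (nat_lit 1568452072) (nat_lit 0) (nat_lit 3375193501) (nat_lit 756) (nat_lit 2534969905) (nat_lit 141) (nat_lit 5) (nat_lit 140) (nat_lit 5) (nat_lit 149) (nat_lit 5) (nat_lit 307) (nat_lit 295) (nat_lit 259))))))) (XT.nd (nat_lit 1128) (nat_lit 2184) (nat_lit 0) (XT.nd (nat_lit 564) (nat_lit 2856) (nat_lit 0) (XT.nd (nat_lit 282) (nat_lit 672) (nat_lit 0) (XT.nd (nat_lit 94) (nat_lit 756) (nat_lit 0) (XT.lf (nat_lit 84) (nat_lit 4676163939) (nat_lit 0) (nat_lit 1796485401) (nat_lit 756) (nat_lit 1089582849) (nat_lit 141) (nat_lit 5) (nat_lit 140) (nat_lit 5) (nat_lit 149) (nat_lit 5) (nat_lit 308) (nat_lit 295) (nat_lit 258)) (XT.nd (nat_lit 94) (nat_lit 0) (nat_lit 84) (XT.lf (nat_lit 84) (nat_lit 196756589) (nat_lit 0) (nat_lit 147900243) (nat_lit 840) (nat_lit 7305465930)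 (nat_lit 132) (nat_lit 5) (nat_lit 131) (nat_lit 5) (nat_lit 141) (nat_lit 5) (nat_lit 309) (nat_lit 295) (nat_lit 257)) (XT.lf (nat_lit 0) (nat_lit 1798010460) (nat_lit 756) (nat_lit 4366929993) (nat_lit 84) (nat_lit 1575847105) (nat_lit 132) (nat_lit 5) (nat_lit 141) (nat_lit 5) (nat_lit 133) (nat_lit 5) (nat_lit 310) (nat_lit 295) (nat_lit 256)))) (XT.nd (nat_lit 94) (nat_lit 756) (nat_lit 0) (XT.lf (nat_lit 0) (nat_lit 3250849264) (nat_lit 756) (nat_lit 1221838223) (nat_lit 84) (nat_lit 3363289690) (nat_lit 132) (nat_lit 5) (nat_lit 141) (nat_lit 5) (nat_lit 133) (nat_lit 5) (nat_lit 311) (nat_lit 295) (nat_lit 255)) (XT.nd (nat_lit 94) (nat_lit 0) (nat_lit 0) (XT.lf (nat_lit 0) (nat_lit 2027150443) (nat_lit 756) (nat_lit 2696019394) (nat_lit 840) (nat_lit 3212032595) (nat_lit 123) (nat_lit 5) (nat_lit 132) (nat_lit 5) (nat_lit 133) (nat_lit 5) (nat_lit 312) (nat_lit 295) (nat_lit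 254)) (XT.lf (nat_lit 0) (nat_lit 5368665285) (nat_lit 756) (nat_lit 840589582) (nat_lit 840) (nat_lit 1829520725) (nat_lit 123) (nat_lit 5) (nat_lit 132) (nat_lit 5) (nat_lit 133) (nat_lit 5) (nat_lit 313) (nat_lit 295) (nat_lit 253))))) (XT.nd (nat_lit 282) (nat_lit 1932) (nat_lit 0) (XT.nd (nat_lit 94) (nat_lit 84) (nat_lit 0) (XT.lf (nat_lit 0) (nat_lit 635587132) (nat_lit 840) (nat_lit 7079576803) (nat_lit 924) (nat_lit 431484356) (nat_lit 113) (nat_lit 5) (nat_lit 123) (nat_lit 5) (nat_lit 124) (nat_lit 5) (nat_lit 314) (nat_lit 295) (nat_lit 252)) (XT.nd (nat_lit 94) (nat_lit 0) (nat_lit 0) (XT.lf (nat_lit 0) (nat_lit 983372728) (nat_lit 924) (nat_lit 4211112945) (nat_lit 84) (nat_lit 3063519006) (nat_lit 112) (nat_lit 5) (nat_lit 123) (nat_lit 5) (nat_lit 113) (nat_lit 5) (nat_lit 315) (nat_lit 295) (nat_lit 251)) (XT.lf (nat_lit 0) (nat_lit 2391493941) (nat_lit 924) (nat_lit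 847787132) (nat_lit 84) (nat_lit 5134936979) (nat_lit 112) (nat_lit 5) (nat_lit 123) (nat_lit 5) (nat_lit 113) (nat_lit 5) (nat_lit 316) (nat_lit 295) (nat_lit 250)))) (XT.nd (nat_lit 94) (nat_lit 1008) (nat_lit 0) (XT.lf (nat_lit 0) (nat_lit 2639511910) (nat_lit 924) (nat_lit 1189557621) (nat_lit 1008) (nat_lit 4665648182) (nat_lit 101) (nat_lit 5) (nat_lit 112) (nat_lit 5) (nat_lit 113) (nat_lit 5) (nat_lit 317) (nat_lit 295) (nat_lit 249)) (XT.nd (nat_lit 94) (nat_lit 1008) (nat_lit 0) (XT.lf (nat_lit 0) (nat_lit 5289879921) (nat_lit 1008) (nat_lit 2409697520) (nat_lit 84) (nat_lit 920272886) (nat_lit 101) (nat_lit 5) (nat_lit 113) (nat_lit 5) (nat_lit 102) (nat_lit 5) (nat_lit 318) (nat_lit 295) (nat_lit 248)) (XT.lf (nat_lit 0) (nat_lit 1119395424) (nat_lit 1008) (nat_lit 5661603594) (nat_lit 1092) (nat_lit 1968556431) (nat_lit 89) (nat_lit 5) (nat_lit 101) (nat_lit 5) (nat_lit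 102) (nat_lit 5) (nat_lit 319) (nat_lit 295) (nat_lit 247)))))) (XT.nd (nat_lit 564) (nat_lit 1008) (nat_lit 0) (XT.nd (nat_lit 282) (nat_lit 504) (nat_lit 0) (XT.nd (nat_lit 94) (nat_lit 672) (nat_lit 0) (XT.lf (nat_lit 0) (nat_lit 4775701829) (nat_lit 1008) (nat_lit 3530365891) (nat_lit 1092) (nat_lit 577816474) (nat_lit 89) (nat_lit 5) (nat_lit 101) (nat_lit 5) (nat_lit 102) (nat_lit 5) (nat_lit 320) (nat_lit 295) (nat_lit 246)) (XT.nd (nat_lit 94) (nat_lit 588) (nat_lit 0) (XT.lf (nat_lit 0) (nat_lit 801904674) (nat_lit 1092) (nat_lit 518755184) (nat_lit 84) (nat_lit 7702806518) (nat_lit 88) (nat_lit 5) (nat_lit 101) (nat_lit 5) (nat_lit 89) (nat_lit 5) (nat_lit 321) (nat_lit 295) (nat_lit 245)) (XT.lf (nat_lit 0) (nat_lit 2218367206) (nat_lit 672) (nat_lit 5969000538) (nat_lit 84) (nat_lit 979842296) (nat_lit 81) (nat_lit 5) (nat_lit 89) (nat_lit 5) (nat_lit 82) (nat_lit 5) (nat_lit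 322) (nat_lit 295) (nat_lit 244)))) (XT.nd (nat_lit 94) (nat_lit 504) (nat_lit 0) (XT.lf (nat_lit 0) (nat_lit 3662731840) (nat_lit 672) (nat_lit 2320634011) (nat_lit 84) (nat_lit 3332736855) (nat_lit 81) (nat_lit 5) (nat_lit 89) (nat_lit 5) (nat_lit 82) (nat_lit 5) (nat_lit 323) (nat_lit 295) (nat_lit 243)) (XT.nd (nat_lit 94) (nat_lit 0) (nat_lit 0) (XT.lf (nat_lit 0) (nat_lit 1437567812) (nat_lit 504) (nat_lit 3694631158) (nat_lit 588) (nat_lit 4338212707) (nat_lit 75) (nat_lit 5) (nat_lit 81) (nat_lit 5) (nat_lit 82) (nat_lit 5) (nat_lit 324) (nat_lit 295) (nat_lit 242)) (XT.lf (nat_lit 0) (nat_lit 5329568538) (nat_lit 504) (nat_lit 1308643892) (nat_lit 588) (nat_lit 2991756060) (nat_lit 75) (nat_lit 5) (nat_lit 81) (nat_lit 5) (nat_lit 82) (nat_lit 5) (nat_lit 325) (nat_lit 295) (nat_lit 241))))) (XT.nd (nat_lit 282) (nat_lit 420) (nat_lit 0) (XT.nd (nat_lit 94) (nat_lit 588) (nat_lit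 0) (XT.lf (nat_lit 0) (nat_lit 8170115554) (nat_lit 588) (nat_lit 495805175) (nat_lit 84) (nat_lit 1129375011) (nat_lit 75) (nat_lit 5) (nat_lit 82) (nat_lit 5) (nat_lit 76) (nat_lit 5) (nat_lit 326) (nat_lit 295) (nat_lit 240)) (XT.nd (nat_lit 94) (nat_lit 84) (nat_lit 0) (XT.lf (nat_lit 0) (nat_lit 3451724675) (nat_lit 504) (nat_lit 6314159727) (nat_lit 588) (nat_lit 199530135) (nat_lit 69) (nat_lit 5) (nat_lit 75) (nat_lit 5) (nat_lit 76) (nat_lit 5) (nat_lit 327) (nat_lit 295) (nat_lit 239)) (XT.lf (nat_lit 0) (nat_lit 1218854981) (nat_lit 588) (nat_lit 2652817600) (nat_lit 84) (nat_lit 6269709401) (nat_lit 68) (nat_lit 5) (nat_lit 75) (nat_lit 5) (nat_lit 69) (nat_lit 5) (nat_lit 328) (nat_lit 295) (nat_lit 238)))) (XT.nd (nat_lit 94) (nat_lit 0) (nat_lit 0) (XT.lf (nat_lit 0) (nat_lit 1321625427) (nat_lit 420) (nat_lit 1338391337) (nat_lit 504) (nat_lit 7663411742) (nat_lit 63)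 (nat_lit 5) (nat_lit 68) (nat_lit 5) (nat_lit 69) (nat_lit 5) (nat_lit 329) (nat_lit 295) (nat_lit 237)) (XT.nd (nat_lit 94) (nat_lit 0) (nat_lit 0) (XT.lf (nat_lit 0) (nat_lit 4156898001) (nat_lit 504) (nat_lit 5079115695) (nat_lit 84) (nat_lit 1274916500) (nat_lit 63) (nat_lit 5) (nat_lit 69) (nat_lit 5) (nat_lit 64) (nat_lit 5) (nat_lit 330) (nat_lit 295) (nat_lit 236)) (XT.lf (nat_lit 0) (nat_lit 5685197783) (nat_lit 504) (nat_lit 1079022262) (nat_lit 84) (nat_lit 3940638356) (nat_lit 63) (nat_lit 5) (nat_lit 69) (nat_lit 5) (nat_lit 64) (nat_lit 5) (nat_lit 331) (nat_lit 295) (nat_lit 235))))))))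
noncomputable def xc105 : XT := (XT.nd (nat_lit 2256) (nat_lit 1092) (nat_lit 0) (XT.nd (nat_lit 1128) (nat_lit 1176) (nat_lit 0) (XT.nd (nat_lit 564) (nat_lit 756) (nat_lit 0) (XT.nd (nat_lit 282) (nat_lit 504) (nat_lit 0) (XT.nd (nat_lit 94) (nat_lit 336) (nat_lit 0) (XT.lf (nat_lit 0) (nat_lit 3077487240) (nat_lit 420) (nat_lit 4186105454) (nat_lit 504) (nat_lit 3641266380) (nat_lit 58) (nat_lit 5) (nat_lit 63) (nat_lit 5) (nat_lit 64) (nat_lit 5) (nat_lit 332) (nat_lit 295) (nat_lit 234)) (XT.nd (nat_lit 94) (nat_lit 336) (nat_lit 0) (XT.lf (nat_lit 0) (nat_lit 7356431493) (nat_lit 420) (nat_lit 1518483561) (nat_lit 504) (nat_lit 2236781383) (nat_lit 58) (nat_lit 5) (nat_lit 63) (nat_lit 5) (nat_lit 64) (nat_lit 5) (nat_lit 333) (nat_lit 295) (nat_lit 233)) (XT.lf (nat_lit 0) (nat_lit 409765478) (nat_lit 336) (nat_lit 10116242556) (nat_lit 420) (nat_lit 799389674) (nat_lit 54)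 (nat_lit 5) (nat_lit 58) (nat_lit 5) (nat_lit 59) (nat_lit 5) (nat_lit 334) (nat_lit 295) (nat_lit 232)))) (XT.nd (nat_lit 94) (nat_lit 420) (nat_lit 0) (XT.lf (nat_lit 0) (nat_lit 697585005) (nat_lit 420) (nat_lit 6813410337) (nat_lit 84) (nat_lit 4033754702) (nat_lit 53) (nat_lit 5) (nat_lit 58) (nat_lit 5) (nat_lit 54) (nat_lit 5) (nat_lit 335) (nat_lit 295) (nat_lit 231)) (XT.nd (nat_lit 94) (nat_lit 420) (nat_lit 0) (XT.lf (nat_lit 0) (nat_lit 2198800308) (nat_lit 420) (nat_lit 2621022520) (nat_lit 84) (nat_lit 6951742817) (nat_lit 53) (nat_lit 5) (nat_lit 58) (nat_lit 5) (nat_lit 54) (nat_lit 5) (nat_lit 336) (nat_lit 295) (nat_lit 230)) (XT.lf (nat_lit 0) (nat_lit 1707776908) (nat_lit 420) (nat_lit 2030925895) (nat_lit 504) (nat_lit 8267073776) (nat_lit 48) (nat_lit 5) (nat_lit 53) (nat_lit 5) (nat_lit 54) (nat_lit 5) (nat_lit 337) (nat_lit 295) (nat_lit 229))))) (XT.nd (nat_lit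 282) (nat_lit 420) (nat_lit 0) (XT.nd (nat_lit 94) (nat_lit 336) (nat_lit 0) (XT.lf (nat_lit 0) (nat_lit 5338002746) (nat_lit 504) (nat_lit 6057238105) (nat_lit 84) (nat_lit 851762780) (nat_lit 48) (nat_lit 5) (nat_lit 54) (nat_lit 5) (nat_lit 49) (nat_lit 5) (nat_lit 338) (nat_lit 295) (nat_lit 228)) (XT.nd (nat_lit 94) (nat_lit 336) (nat_lit 0) (XT.lf (nat_lit 0) (nat_lit 6984030603) (nat_lit 504) (nat_lit 1733442086) (nat_lit 84) (nat_lit 3778437929) (nat_lit 48) (nat_lit 5) (nat_lit 54) (nat_lit 5) (nat_lit 49) (nat_lit 5) (nat_lit 339) (nat_lit 295) (nat_lit 227)) (XT.lf (nat_lit 0) (nat_lit 2753033134) (nat_lit 336) (nat_lit 5932450906) (nat_lit 420) (nat_lit 4067023445) (nat_lit 44) (nat_lit 5) (nat_lit 48) (nat_lit 5) (nat_lit 49) (nat_lit 5) (nat_lit 340) (nat_lit 295) (nat_lit 226)))) (XT.nd (nat_lit 94) (nat_lit 420) (nat_lit 0) (XT.lf (nat_lit 0) (nat_lit 7388782779) (nat_lit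 336) (nat_lit 3046507104) (nat_lit 420) (nat_lit 2582011951) (nat_lit 44) (nat_lit 5) (nat_lit 48) (nat_lit 5) (nat_lit 49) (nat_lit 5) (nat_lit 341) (nat_lit 295) (nat_lit 225)) (XT.nd (nat_lit 94) (nat_lit 420) (nat_lit 0) (XT.lf (nat_lit 0) (nat_lit 12142484730) (nat_lit 336) (nat_lit 75044862) (nat_lit 420) (nat_lit 1073554929) (nat_lit 44) (nat_lit 5) (nat_lit 48) (nat_lit 5) (nat_lit 49) (nat_lit 5) (nat_lit 342) (nat_lit 295) (nat_lit 224)) (XT.lf (nat_lit 0) (nat_lit 515328012) (nat_lit 420) (nat_lit 10092271489) (nat_lit 84) (nat_lit 2964359895) (nat_lit 39) (nat_lit 5) (nat_lit 44) (nat_lit 5) (nat_lit 40) (nat_lit 5) (nat_lit 343) (nat_lit 295) (nat_lit 223)))))) (XT.nd (nat_lit 564) (nat_lit 588) (nat_lit 0) (XT.nd (nat_lit 282) (nat_lit 336) (nat_lit 0) (XT.nd (nat_lit 94) (nat_lit 252) (nat_lit 0) (XT.lf (nat_lit 0) (nat_lit 2122929478) (nat_lit 420) (nat_lit 5623205923)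 (nat_lit 84) (nat_lit 6115415478) (nat_lit 39) (nat_lit 5) (nat_lit 44) (nat_lit 5) (nat_lit 40) (nat_lit 5) (nat_lit 344) (nat_lit 295) (nat_lit 222)) (XT.nd (nat_lit 94) (nat_lit 252) (nat_lit 0) (XT.lf (nat_lit 0) (nat_lit 3759885732) (nat_lit 420) (nat_lit 1040786849) (nat_lit 84) (nat_lit 9360173713) (nat_lit 39) (nat_lit 5) (nat_lit 44) (nat_lit 5) (nat_lit 40) (nat_lit 5) (nat_lit 345) (nat_lit 295) (nat_lit 221)) (XT.lf (nat_lit 0) (nat_lit 3734498857) (nat_lit 252) (nat_lit 1730270422) (nat_lit 336) (nat_lit 9004206889) (nat_lit 36) (nat_lit 5) (nat_lit 39) (nat_lit 5) (nat_lit 40) (nat_lit 5) (nat_lit 346) (nat_lit 295) (nat_lit 220)))) (XT.nd (nat_lit 94) (nat_lit 336) (nat_lit 0) (XT.lf (nat_lit 0) (nat_lit 7228163486) (nat_lit 336) (nat_lit 6145615814) (nat_lit 84) (nat_lit 1412789590) (nat_lit 36) (nat_lit 5) (nat_lit 40) (nat_lit 5) (nat_lit 37) (nat_lit 5) (nat_lit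 347) (nat_lit 295) (nat_lit 219)) (XT.nd (nat_lit 94) (nat_lit 336) (nat_lit 0) (XT.lf (nat_lit 0) (nat_lit 9044953439) (nat_lit 336) (nat_lit 1456277166) (nat_lit 84) (nat_lit 4612899397) (nat_lit 36) (nat_lit 5) (nat_lit 40) (nat_lit 5) (nat_lit 37) (nat_lit 5) (nat_lit 348) (nat_lit 295) (nat_lit 218)) (XT.lf (nat_lit 0) (nat_lit 3424061285) (nat_lit 336) (nat_lit 7509573909) (nat_lit 420) (nat_lit 4517808756) (nat_lit 32) (nat_lit 5) (nat_lit 36) (nat_lit 5) (nat_lit 37) (nat_lit 5) (nat_lit 349) (nat_lit 295) (nat_lit 217))))) (XT.nd (nat_lit 282) (nat_lit 252) (nat_lit 0) (XT.nd (nat_lit 94) (nat_lit 336) (nat_lit 0) (XT.lf (nat_lit 0) (nat_lit 8463442111) (nat_lit 336) (nat_lit 4414552486) (nat_lit 420) (nat_lit 2921387757) (nat_lit 32) (nat_lit 5) (nat_lit 36) (nat_lit 5) (nat_lit 37) (nat_lit 5) (nat_lit 350) (nat_lit 295) (nat_lit 216)) (XT.nd (nat_lit 94) (nat_lit 336) (nat_lit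 0) (XT.lf (nat_lit 0) (nat_lit 13636618497) (nat_lit 336) (nat_lit 1228482000) (nat_lit 420) (nat_lit 1293626083) (nat_lit 32) (nat_lit 5) (nat_lit 36) (nat_lit 5) (nat_lit 37) (nat_lit 5) (nat_lit 351) (nat_lit 295) (nat_lit 215)) (XT.lf (nat_lit 0) (nat_lit 404688203) (nat_lit 336) (nat_lit 14084963556) (nat_lit 84) (nat_lit 2038649202) (nat_lit 28) (nat_lit 5) (nat_lit 32) (nat_lit 5) (nat_lit 29) (nat_lit 5) (nat_lit 352) (nat_lit 295) (nat_lit 214)))) (XT.nd (nat_lit 94) (nat_lit 252) (nat_lit 0) (XT.lf (nat_lit 0) (nat_lit 2150941084) (nat_lit 336) (nat_lit 9340899746) (nat_lit 84) (nat_lit 5416463788) (nat_lit 28) (nat_lit 5) (nat_lit 32) (nat_lit 5) (nat_lit 29) (nat_lit 5) (nat_lit 353) (nat_lit 295) (nat_lit 213)) (XT.nd (nat_lit 94) (nat_lit 252) (nat_lit 0) (XT.lf (nat_lit 0) (nat_lit 3934842006) (nat_lit 336) (nat_lit 4471591765) (nat_lit 84) (nat_lit 8894233244) (nat_lit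 28) (nat_lit 5) (nat_lit 32) (nat_lit 5) (nat_lit 29) (nat_lit 5) (nat_lit 354) (nat_lit 295) (nat_lit 212)) (XT.lf (nat_lit 0) (nat_lit 538345555) (nat_lit 252) (nat_lit 5225048650) (nat_lit 336) (nat_lit 11942194115) (nat_lit 25) (nat_lit 5) (nat_lit 28) (nat_lit 5) (nat_lit 29) (nat_lit 5) (nat_lit 355) (nat_lit 295) (nat_lit 211))))))) (XT.nd (nat_lit 1128) (nat_lit 420) (nat_lit 0) (XT.nd (nat_lit 564) (nat_lit 504) (nat_lit 0) (XT.nd (nat_lit 282) (nat_lit 168) (nat_lit 0) (XT.nd (nat_lit 94) (nat_lit 0) (nat_lit 0) (XT.lf (nat_lit 0) (nat_lit 5777434942) (nat_lit 252) (nat_lit 1902153672) (nat_lit 336) (nat_lit 10442577467) (nat_lit 25) (nat_lit 5) (nat_lit 28) (nat_lit 5) (nat_lit 29) (nat_lit 5) (nat_lit 356) (nat_lit 295) (nat_lit 210)) (XT.nd (nat_lit 94) (nat_lit 0) (nat_lit 0) (XT.lf (nat_lit 0) (nat_lit 9655005910) (nat_lit 336) (nat_lit 7408642747) (nat_lit 84) (nat_lit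 1488076301) (nat_lit 25) (nat_lit 5) (nat_lit 29) (nat_lit 5) (nat_lit 26) (nat_lit 5) (nat_lit 357) (nat_lit 295) (nat_lit 209)) (XT.lf (nat_lit 0) (nat_lit 11696280649) (nat_lit 336) (nat_lit 2359169896) (nat_lit 84) (nat_lit 4939066211) (nat_lit 25) (nat_lit 5) (nat_lit 29) (nat_lit 5) (nat_lit 26) (nat_lit 5) (nat_lit 358) (nat_lit 295) (nat_lit 208)))) (XT.nd (nat_lit 94) (nat_lit 0) (nat_lit 0) (XT.lf (nat_lit 0) (nat_lit 2885397990) (nat_lit 168) (nat_lit 10929671427) (nat_lit 252) (nat_lit 5635582413) (nat_lit 23) (nat_lit 5) (nat_lit 25) (nat_lit 5) (nat_lit 26) (nat_lit 5) (nat_lit 359) (nat_lit 295) (nat_lit 207)) (XT.nd (nat_lit 94) (nat_lit 0) (nat_lit 0) (XT.lf (nat_lit 0) (nat_lit 8323185839) (nat_lit 168) (nat_lit 7686831146) (nat_lit 252) (nat_lit 3910641597) (nat_lit 23) (nat_lit 5) (nat_lit 25) (nat_lit 5) (nat_lit 26) (nat_lit 5) (nat_lit 360) (nat_lit 295) (nat_lit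 206)) (XT.lf (nat_lit 0) (nat_lit 13910752869) (nat_lit 168) (nat_lit 4348531931) (nat_lit 252) (nat_lit 2146430727) (nat_lit 23) (nat_lit 5) (nat_lit 25) (nat_lit 5) (nat_lit 26) (nat_lit 5) (nat_lit 361) (nat_lit 295) (nat_lit 205))))) (XT.nd (nat_lit 282) (nat_lit 168) (nat_lit 0) (XT.nd (nat_lit 94) (nat_lit 336) (nat_lit 0) (XT.lf (nat_lit 0) (nat_lit 19653307275) (nat_lit 168) (nat_lit 911662138) (nat_lit 252) (nat_lit 341305375) (nat_lit 23) (nat_lit 5) (nat_lit 25) (nat_lit 5) (nat_lit 26) (nat_lit 5) (nat_lit 362) (nat_lit 295) (nat_lit 204)) (XT.nd (nat_lit 94) (nat_lit 0) (nat_lit 0) (XT.lf (nat_lit 0) (nat_lit 1544401010) (nat_lit 336) (nat_lit 17244547568) (nat_lit 84) (nat_lit 2631272718) (nat_lit 19) (nat_lit 5) (nat_lit 23) (nat_lit 5) (nat_lit 20) (nat_lit 5) (nat_lit 363) (nat_lit 295) (nat_lit 203)) (XT.lf (nat_lit 0) (nat_lit 3491086207) (nat_lit 336) (nat_lit 12181692652)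 (nat_lit 84) (nat_lit 6276963407) (nat_lit 19) (nat_lit 5) (nat_lit 23) (nat_lit 5) (nat_lit 20) (nat_lit 5) (nat_lit 364) (nat_lit 295) (nat_lit 202)))) (XT.nd (nat_lit 94) (nat_lit 168) (nat_lit 0) (XT.lf (nat_lit 0) (nat_lit 5485582560) (nat_lit 336) (nat_lit 6979555931) (nat_lit 84) (nat_lit 10030975354) (nat_lit 19) (nat_lit 5) (nat_lit 23) (nat_lit 5) (nat_lit 20) (nat_lit 5) (nat_lit 365) (nat_lit 295) (nat_lit 201)) (XT.nd (nat_lit 94) (nat_lit 168) (nat_lit 0) (XT.lf (nat_lit 0) (nat_lit 7529749151) (nat_lit 336) (nat_lit 1633288469) (nat_lit 84) (nat_lit 13896807690) (nat_lit 19) (nat_lit 5) (nat_lit 23) (nat_lit 5) (nat_lit 20) (nat_lit 5) (nat_lit 366) (nat_lit 295) (nat_lit 200)) (XT.lf (nat_lit 0) (nat_lit 3941505567) (nat_lit 168) (nat_lit 5723086012) (nat_lit 252) (nat_lit 13975658432) (nat_lit 17) (nat_lit 5) (nat_lit 19) (nat_lit 5) (nat_lit 20) (nat_lit 5) (nat_lit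 367) (nat_lit 295) (nat_lit 199)))))) (XT.nd (nat_lit 564) (nat_lit 252) (nat_lit 0) (XT.nd (nat_lit 282) (nat_lit 168) (nat_lit 0) (XT.nd (nat_lit 94) (nat_lit 0) (nat_lit 0) (XT.lf (nat_lit 0) (nat_lit 9707291073) (nat_lit 168) (nat_lit 2163769082) (nat_lit 252) (nat_lit 12367461017) (nat_lit 17) (nat_lit 5) (nat_lit 19) (nat_lit 5) (nat_lit 20) (nat_lit 5) (nat_lit 368) (nat_lit 295) (nat_lit 198)) (XT.nd (nat_lit 94) (nat_lit 0) (nat_lit 0) (XT.lf (nat_lit 0) (nat_lit 14149567878) (nat_lit 252) (nat_lit 9234762362) (nat_lit 84) (nat_lit 1470937157) (nat_lit 17) (nat_lit 5) (nat_lit 20) (nat_lit 5) (nat_lit 18) (nat_lit 5) (nat_lit 369) (nat_lit 295) (nat_lit 197)) (XT.lf (nat_lit 0) (nat_lit 16509879412) (nat_lit 252) (nat_lit 3812045229) (nat_lit 84) (nat_lit 5168902053) (nat_lit 17) (nat_lit 5) (nat_lit 20) (nat_lit 5) (nat_lit 18) (nat_lit 5) (nat_lit 370) (nat_lit 295) (nat_lit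 196)))) (XT.nd (nat_lit 94) (nat_lit 0) (nat_lit 0) (XT.lf (nat_lit 0) (nat_lit 1799700656) (nat_lit 168) (nat_lit 17150882556) (nat_lit 252) (nat_lit 7195320216) (nat_lit 15) (nat_lit 5) (nat_lit 17) (nat_lit 5) (nat_lit 18) (nat_lit 5) (nat_lit 371) (nat_lit 295) (nat_lit 195)) (XT.nd (nat_lit 94) (nat_lit 0) (nat_lit 0) (XT.lf (nat_lit 0) (nat_lit 7651043841) (nat_lit 168) (nat_lit 13845233330) (nat_lit 252) (nat_lit 5324139021) (nat_lit 15) (nat_lit 5) (nat_lit 17) (nat_lit 5) (nat_lit 18) (nat_lit 5) (nat_lit 372) (nat_lit 295) (nat_lit 194)) (XT.lf (nat_lit 0) (nat_lit 13669054922) (nat_lit 168) (nat_lit 10441685685) (nat_lit 252) (nat_lit 3405449493) (nat_lit 15) (nat_lit 5) (nat_lit 17) (nat_lit 5) (nat_lit 18) (nat_lit 5) (nat_lit 373) (nat_lit 295) (nat_lit 193))))) (XT.nd (nat_lit 282) (nat_lit 0) (nat_lit 0) (XT.nd (nat_lit 94) (nat_lit 252) (nat_lit 0) (XT.lf (nat_lit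 0) (nat_lit 19859343315) (nat_lit 168) (nat_lit 6937067159) (nat_lit 252) (nat_lit 1437463213) (nat_lit 15) (nat_lit 5) (nat_lit 17) (nat_lit 5) (nat_lit 18) (nat_lit 5) (nat_lit 374) (nat_lit 295) (nat_lit 192)) (XT.nd (nat_lit 94) (nat_lit 168) (nat_lit 0) (XT.lf (nat_lit 0) (nat_lit 569935152) (nat_lit 252) (nat_lit 2752226974) (nat_lit 84) (nat_lit 25651794911) (nat_lit 14) (nat_lit 5) (nat_lit 17) (nat_lit 5) (nat_lit 15) (nat_lit 5) (nat_lit 375) (nat_lit 295) (nat_lit 191)) (XT.lf (nat_lit 0) (nat_lit 2635287213) (nat_lit 252) (nat_lit 26662319480) (nat_lit 84) (nat_lit 438159894) (nat_lit 12) (nat_lit 5) (nat_lit 15) (nat_lit 5) (nat_lit 13) (nat_lit 5) (nat_lit 376) (nat_lit 295) (nat_lit 190)))) (XT.nd (nat_lit 188) (nat_lit 0) (nat_lit 0) (XT.nd (nat_lit 94) (nat_lit 0) (nat_lit 0) (XT.lf (nat_lit 0) (nat_lit 4818383621) (nat_lit 252) (nat_lit 21430308252) (nat_lit 84) (nat_lit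 4270866585) (nat_lit 12) (nat_lit 5) (nat_lit 15) (nat_lit 5) (nat_lit 13) (nat_lit 5) (nat_lit 377) (nat_lit 295) (nat_lit 189)) (XT.lf (nat_lit 0) (nat_lit 7060154182) (nat_lit 252) (nat_lit 16049487517) (nat_lit 84) (nat_lit 8218315785) (nat_lit 12) (nat_lit 5) (nat_lit 15) (nat_lit 5) (nat_lit 13) (nat_lit 5) (nat_lit 378) (nat_lit 295) (nat_lit 188))) (XT.nd (nat_lit 94) (nat_lit 0) (nat_lit 0) (XT.lf (nat_lit 0) (nat_lit 9362688462) (nat_lit 252) (nat_lit 10514841785) (nat_lit 84) (nat_lit 12284186930) (nat_lit 12) (nat_lit 5) (nat_lit 15) (nat_lit 5) (nat_lit 13) (nat_lit 5) (nat_lit 379) (nat_lit 295) (nat_lit 187)) (XT.lf (nat_lit 0) (nat_lit 11728132664) (nat_lit 252) (nat_lit 4821212186) (nat_lit 84) (nat_lit 16472269838) (nat_lit 12) (nat_lit 5) (nat_lit 15) (nat_lit 5) (nat_lit 13) (nat_lit 5) (nat_lit 380) (nat_lit 295) (nat_lit 186))))))))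
noncomputable def xc106 : XT := (XT.nd (nat_lit 2256) (nat_lit 84) (nat_lit 0) (XT.nd (nat_lit 1128) (nat_lit 252) (nat_lit 0) (XT.nd (nat_lit 564) (nat_lit 168) (nat_lit 0) (XT.nd (nat_lit 282) (nat_lit 0) (nat_lit 0) (XT.nd (nat_lit 94) (nat_lit 0) (nat_lit 0) (XT.lf (nat_lit 0) (nat_lit 1058025187) (nat_lit 168) (nat_lit 13111162183) (nat_lit 252) (nat_lit 19738938795) (nat_lit 10) (nat_lit 5) (nat_lit 12) (nat_lit 5) (nat_lit 13) (nat_lit 5) (nat_lit 381) (nat_lit 295) (nat_lit 185)) (XT.nd (nat_lit 94) (nat_lit 0) (nat_lit 0) (XT.lf (nat_lit 0) (nat_lit 7209638123) (nat_lit 168) (nat_lit 9518513273) (nat_lit 252) (nat_lit 18092685803) (nat_lit 10) (nat_lit 5) (nat_lit 12) (nat_lit 5) (nat_lit 13) (nat_lit 5) (nat_lit 382) (nat_lit 295) (nat_lit 184)) (XT.lf (nat_lit 0) (nat_lit 13540226560) (nat_lit 168) (nat_lit 5818372963) (nat_lit 252) (nat_lit 16403512136) (nat_lit 10) (nat_lit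 5) (nat_lit 12) (nat_lit 5) (nat_lit 13) (nat_lit 5) (nat_lit 383) (nat_lit 295) (nat_lit 183)))) (XT.nd (nat_lit 94) (nat_lit 0) (nat_lit 0) (XT.lf (nat_lit 0) (nat_lit 20055691268) (nat_lit 168) (nat_lit 2007292333) (nat_lit 252) (nat_lit 14669843307) (nat_lit 10) (nat_lit 5) (nat_lit 12) (nat_lit 5) (nat_lit 13) (nat_lit 5) (nat_lit 384) (nat_lit 295) (nat_lit 182)) (XT.nd (nat_lit 94) (nat_lit 0) (nat_lit 0) (XT.lf (nat_lit 0) (nat_lit 24862853987) (nat_lit 252) (nat_lit 10990811998) (nat_lit 84) (nat_lit 1879631854) (nat_lit 10) (nat_lit 5) (nat_lit 13) (nat_lit 5) (nat_lit 11) (nat_lit 4) (nat_lit 385) (nat_lit 295) (nat_lit 181)) (XT.lf (nat_lit 0) (nat_lit 27762857797) (nat_lit 252) (nat_lit 5159651269) (nat_lit 84) (nat_lit 5841884773) (nat_lit 10) (nat_lit 5) (nat_lit 13) (nat_lit 5) (nat_lit 11) (nat_lit 4) (nat_lit 386) (nat_lit 295) (nat_lit 180))))) (XT.nd (nat_lit 282)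 (nat_lit 84) (nat_lit 0) (XT.nd (nat_lit 94) (nat_lit 0) (nat_lit 0) (XT.lf (nat_lit 0) (nat_lit 859001351) (nat_lit 84) (nat_lit 29895305599) (nat_lit 168) (nat_lit 9073122173) (nat_lit 9) (nat_lit 5) (nat_lit 10) (nat_lit 5) (nat_lit 11) (nat_lit 4) (nat_lit 387) (nat_lit 295) (nat_lit 179)) (XT.nd (nat_lit 94) (nat_lit 0) (nat_lit 0) (XT.lf (nat_lit 0) (nat_lit 7163140167) (nat_lit 84) (nat_lit 26722336718) (nat_lit 168) (nat_lit 7036507565) (nat_lit 9) (nat_lit 5) (nat_lit 10) (nat_lit 5) (nat_lit 11) (nat_lit 4) (nat_lit 388) (nat_lit 295) (nat_lit 178)) (XT.lf (nat_lit 0) (nat_lit 13652548286) (nat_lit 84) (nat_lit 23454501061) (nat_lit 168) (nat_lit 4943650059) (nat_lit 9) (nat_lit 5) (nat_lit 10) (nat_lit 5) (nat_lit 11) (nat_lit 4) (nat_lit 389) (nat_lit 295) (nat_lit 177)))) (XT.nd (nat_lit 94) (nat_lit 84) (nat_lit 0) (XT.lf (nat_lit 0) (nat_lit 20333274514) (nat_lit 84)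 (nat_lit 20088752662) (nat_lit 168) (nat_lit 2792598890) (nat_lit 9) (nat_lit 5) (nat_lit 10) (nat_lit 5) (nat_lit 11) (nat_lit 4) (nat_lit 390) (nat_lit 295) (nat_lit 176)) (XT.nd (nat_lit 94) (nat_lit 84) (nat_lit 0) (XT.lf (nat_lit 0) (nat_lit 27211545989) (nat_lit 84) (nat_lit 16621954293) (nat_lit 168) (nat_lit 581349056) (nat_lit 9) (nat_lit 5) (nat_lit 10) (nat_lit 5) (nat_lit 11) (nat_lit 4) (nat_lit 391) (nat_lit 295) (nat_lit 175)) (XT.lf (nat_lit 0) (nat_lit 1658067297) (nat_lit 168) (nat_lit 11375500414) (nat_lit 84) (nat_lit 32618399860) (nat_lit 8) (nat_lit 5) (nat_lit 10) (nat_lit 5) (nat_lit 9) (nat_lit 5) (nat_lit 392) (nat_lit 295) (nat_lit 174)))))) (XT.nd (nat_lit 564) (nat_lit 84) (nat_lit 0) (XT.nd (nat_lit 282) (nat_lit 0) (nat_lit 0) (XT.nd (nat_lit 94) (nat_lit 168) (nat_lit 0) (XT.lf (nat_lit 0) (nat_lit 3948852603) (nat_lit 168) (nat_lit 5382114237) (nat_lit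 84) (nat_lit 37596489339) (nat_lit 8) (nat_lit 5) (nat_lit 10) (nat_lit 5) (nat_lit 9) (nat_lit 5) (nat_lit 393) (nat_lit 295) (nat_lit 173)) (XT.nd (nat_lit 94) (nat_lit 0) (nat_lit 0) (XT.lf (nat_lit 0) (nat_lit 804415887) (nat_lit 168) (nat_lit 5508419018) (nat_lit 252) (nat_lit 41929600547) (nat_lit 6) (nat_lit 5) (nat_lit 8) (nat_lit 5) (nat_lit 9) (nat_lit 5) (nat_lit 394) (nat_lit 295) (nat_lit 172)) (XT.lf (nat_lit 0) (nat_lit 7288057908) (nat_lit 168) (nat_lit 1512511059) (nat_lit 252) (nat_lit 40796063231) (nat_lit 6) (nat_lit 5) (nat_lit 8) (nat_lit 5) (nat_lit 9) (nat_lit 5) (nat_lit 395) (nat_lit 295) (nat_lit 171)))) (XT.nd (nat_lit 94) (nat_lit 0) (nat_lit 0) (XT.lf (nat_lit 0) (nat_lit 11385719557) (nat_lit 252) (nat_lit 37054644894) (nat_lit 84) (nat_lit 2551832498) (nat_lit 6) (nat_lit 5) (nat_lit 9) (nat_lit 5) (nat_lit 7) (nat_lit 4) (nat_lit 396) (nat_lit 295)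 (nat_lit 170)) (XT.nd (nat_lit 94) (nat_lit 0) (nat_lit 0) (XT.lf (nat_lit 0) (nat_lit 14061078983) (nat_lit 252) (nat_lit 31661716839) (nat_lit 84) (nat_lit 6707932829) (nat_lit 6) (nat_lit 5) (nat_lit 9) (nat_lit 5) (nat_lit 7) (nat_lit 4) (nat_lit 397) (nat_lit 295) (nat_lit 169)) (XT.lf (nat_lit 0) (nat_lit 16814136664) (nat_lit 252) (nat_lit 26109759055) (nat_lit 84) (nat_lit 10990137583) (nat_lit 6) (nat_lit 5) (nat_lit 9) (nat_lit 5) (nat_lit 7) (nat_lit 4) (nat_lit 398) (nat_lit 295) (nat_lit 168))))) (XT.nd (nat_lit 282) (nat_lit 84) (nat_lit 0) (XT.nd (nat_lit 94) (nat_lit 0) (nat_lit 0) (XT.lf (nat_lit 0) (nat_lit 19647458738) (nat_lit 252) (nat_lit 20393596536) (nat_lit 84) (nat_lit 15402438222) (nat_lit 6) (nat_lit 5) (nat_lit 9) (nat_lit 5) (nat_lit 7) (nat_lit 4) (nat_lit 399) (nat_lit 295) (nat_lit 167)) (XT.nd (nat_lit 94) (nat_lit 0) (nat_lit 0) (XT.lf (nat_lit 0)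 (nat_lit 22563686157) (nat_lit 252) (nat_lit 14507901221) (nat_lit 84) (nat_lit 19948947472) (nat_lit 6) (nat_lit 5) (nat_lit 9) (nat_lit 5) (nat_lit 7) (nat_lit 4) (nat_lit 400) (nat_lit 295) (nat_lit 166)) (XT.lf (nat_lit 0) (nat_lit 25565537152) (nat_lit 252) (nat_lit 8447187024) (nat_lit 84) (nat_lit 24633903158) (nat_lit 6) (nat_lit 5) (nat_lit 9) (nat_lit 5) (nat_lit 7) (nat_lit 4) (nat_lit 401) (nat_lit 295) (nat_lit 165)))) (XT.nd (nat_lit 94) (nat_lit 84) (nat_lit 0) (XT.lf (nat_lit 0) (nat_lit 28655809761) (nat_lit 252) (nat_lit 2205804724) (nat_lit 84) (nat_lit 29461672147) (nat_lit 6) (nat_lit 5) (nat_lit 9) (nat_lit 5) (nat_lit 7) (nat_lit 4) (nat_lit 402) (nat_lit 295) (nat_lit 164)) (XT.nd (nat_lit 94) (nat_lit 0) (nat_lit 0) (XT.lf (nat_lit 0) (nat_lit 4308877579) (nat_lit 84) (nat_lit 27571251462) (nat_lit 168) (nat_lit 30170621446) (nat_lit 5) (nat_lit 5) (nat_lit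 6) (nat_lit 5) (nat_lit 7) (nat_lit 4) (nat_lit 403) (nat_lit 295) (nat_lit 163)) (XT.lf (nat_lit 0) (nat_lit 11065350649) (nat_lit 84) (nat_lit 24157645758) (nat_lit 168) (nat_lit 28608206293) (nat_lit 5) (nat_lit 5) (nat_lit 6) (nat_lit 5) (nat_lit 7) (nat_lit 4) (nat_lit 404) (nat_lit 295) (nat_lit 162))))))) (XT.nd (nat_lit 43804) (nat_lit 0) (nat_lit 11340) (XT.nd (nat_lit 564) (nat_lit 84) (nat_lit 0) (XT.nd (nat_lit 282) (nat_lit 0) (nat_lit 0) (XT.nd (nat_lit 94) (nat_lit 0) (nat_lit 0) (XT.lf (nat_lit 0) (nat_lit 18024556355) (nat_lit 84) (nat_lit 20640639611) (nat_lit 168) (nat_lit 27001799157) (nat_lit 5) (nat_lit 5) (nat_lit 6) (nat_lit 5) (nat_lit 7) (nat_lit 4) (nat_lit 405) (nat_lit 295) (nat_lit 161)) (XT.nd (nat_lit 94) (nat_lit 0) (nat_lit 0) (XT.lf (nat_lit 0) (nat_lit 25192981406) (nat_lit 84) (nat_lit 17016954804) (nat_lit 168) (nat_lit 25349902698) (nat_lit 5)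 (nat_lit 5) (nat_lit 6) (nat_lit 5) (nat_lit 7) (nat_lit 4) (nat_lit 406) (nat_lit 295) (nat_lit 160)) (XT.lf (nat_lit 0) (nat_lit 32577307526) (nat_lit 84) (nat_lit 13283213683) (nat_lit 168) (nat_lit 23650977174) (nat_lit 5) (nat_lit 5) (nat_lit 6) (nat_lit 5) (nat_lit 7) (nat_lit 4) (nat_lit 407) (nat_lit 295) (nat_lit 159)))) (XT.nd (nat_lit 94) (nat_lit 0) (nat_lit 0) (XT.lf (nat_lit 0) (nat_lit 40184417680) (nat_lit 84) (nat_lit 9435936010) (nat_lit 168) (nat_lit 21903439010) (nat_lit 5) (nat_lit 5) (nat_lit 6) (nat_lit 5) (nat_lit 7) (nat_lit 4) (nat_lit 408) (nat_lit 295) (nat_lit 158)) (XT.nd (nat_lit 94) (nat_lit 0) (nat_lit 0) (XT.lf (nat_lit 0) (nat_lit 48021402491) (nat_lit 84) (nat_lit 5471535719) (nat_lit 168) (nat_lit 20105659317) (nat_lit 5) (nat_lit 5) (nat_lit 6) (nat_lit 5) (nat_lit 7) (nat_lit 4) (nat_lit 409) (nat_lit 295) (nat_lit 157)) (XT.lf (nat_lit 0) (nat_lit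 56095566850) (nat_lit 84) (nat_lit 1386317574) (nat_lit 168) (nat_lit 18255962375) (nat_lit 5) (nat_lit 5) (nat_lit 6) (nat_lit 5) (nat_lit 7) (nat_lit 4) (nat_lit 410) (nat_lit 295) (nat_lit 156))))) (XT.nd (nat_lit 282) (nat_lit 84) (nat_lit 0) (XT.nd (nat_lit 94) (nat_lit 0) (nat_lit 0) (XT.lf (nat_lit 0) (nat_lit 61618920179) (nat_lit 168) (nat_lit 13557107528) (nat_lit 0) (nat_lit 2766638513) (nat_lit 5) (nat_lit 5) (nat_lit 7) (nat_lit 4) (nat_lit 5) (nat_lit 4) (nat_lit 411) (nat_lit 295) (nat_lit 155)) (XT.nd (nat_lit 94) (nat_lit 0) (nat_lit 0) (XT.lf (nat_lit 0) (nat_lit 65894893457) (nat_lit 168) (nat_lit 7302997587) (nat_lit 0) (nat_lit 7017623122) (nat_lit 5) (nat_lit 5) (nat_lit 7) (nat_lit 4) (nat_lit 5) (nat_lit 4) (nat_lit 412) (nat_lit 295) (nat_lit 154)) (XT.lf (nat_lit 0) (nat_lit 70300037472) (nat_lit 168) (nat_lit 860368198) (nat_lit 0) (nat_lit 11398529825) (nat_lit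 5) (nat_lit 5) (nat_lit 7) (nat_lit 4) (nat_lit 5) (nat_lit 4) (nat_lit 413) (nat_lit 295) (nat_lit 153)))) (XT.nd (nat_lit 94) (nat_lit 0) (nat_lit 0) (XT.lf (nat_lit 0) (nat_lit 5895568407) (nat_lit 84) (nat_lit 69001374640) (nat_lit 84) (nat_lit 10076358445) (nat_lit 4) (nat_lit 4) (nat_lit 5) (nat_lit 5) (nat_lit 5) (nat_lit 4) (nat_lit 414) (nat_lit 295) (nat_lit 152)) (XT.nd (nat_lit 94) (nat_lit 0) (nat_lit 0) (XT.lf (nat_lit 0) (nat_lit 12874034158) (nat_lit 84) (nat_lit 66768064017) (nat_lit 84) (nat_lit 7820246127) (nat_lit 4) (nat_lit 4) (nat_lit 5) (nat_lit 5) (nat_lit 5) (nat_lit 4) (nat_lit 415) (nat_lit 295) (nat_lit 151)) (XT.lf (nat_lit 0) (nat_lit 20063842779) (nat_lit 84) (nat_lit 64467372601) (nat_lit 84) (nat_lit 5497438615) (nat_lit 4) (nat_lit 4) (nat_lit 5) (nat_lit 5) (nat_lit 5) (nat_lit 4) (nat_lit 416) (nat_lit 295) (nat_lit 150)))))) (XT.nd (nat_lit 564)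 (nat_lit 588) (nat_lit 0) (XT.nd (nat_lit 282) (nat_lit 588) (nat_lit 0) (XT.nd (nat_lit 94) (nat_lit 0) (nat_lit 0) (XT.lf (nat_lit 0) (nat_lit 1682929090) (nat_lit 588) (nat_lit 869157670) (nat_lit 588) (nat_lit 869157670) (nat_lit 153) (nat_lit 3) (nat_lit 160) (nat_lit 3) (nat_lit 160) (nat_lit 5) (nat_lit 296) (nat_lit 296) (nat_lit 269)) (XT.nd (nat_lit 94) (nat_lit 0) (nat_lit 0) (XT.lf (nat_lit 84) (nat_lit 817657617) (nat_lit 0) (nat_lit 4168431475) (nat_lit 588) (nat_lit 1902017266) (nat_lit 154) (nat_lit 5) (nat_lit 153) (nat_lit 3) (nat_lit 160) (nat_lit 5) (nat_lit 297) (nat_lit 296) (nat_lit 268)) (XT.lf (nat_lit 84) (nat_lit 3456403739) (nat_lit 0) (nat_lit 3155098413) (nat_lit 588) (nat_lit 325508988) (nat_lit 154) (nat_lit 5) (nat_lit 153) (nat_lit 3) (nat_lit 160) (nat_lit 5) (nat_lit 298) (nat_lit 296) (nat_lit 267)))) (XT.nd (nat_lit 94) (nat_lit 0) (nat_lit 0)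 (XT.lf (nat_lit 0) (nat_lit 1211312115) (nat_lit 588) (nat_lit 857418518) (nat_lit 672) (nat_lit 4920683554) (nat_lit 146) (nat_lit 5) (nat_lit 153) (nat_lit 3) (nat_lit 154) (nat_lit 5) (nat_lit 299) (nat_lit 296) (nat_lit 266)) (XT.nd (nat_lit 94) (nat_lit 0) (nat_lit 84) (XT.lf (nat_lit 84) (nat_lit 1847973510) (nat_lit 0) (nat_lit 898877594) (nat_lit 672) (nat_lit 4298229464) (nat_lit 147) (nat_lit 5) (nat_lit 146) (nat_lit 5) (nat_lit 154) (nat_lit 5) (nat_lit 300) (nat_lit 296) (nat_lit 265)) (XT.lf (nat_lit 0) (nat_lit 4283342524) (nat_lit 588) (nat_lit 2485121798) (nat_lit 672) (nat_lit 335876352) (nat_lit 147) (nat_lit 5) (nat_lit 154) (nat_lit 5) (nat_lit 155) (nat_lit 5) (nat_lit 301) (nat_lit 296) (nat_lit 264))))) (XT.nd (nat_lit 282) (nat_lit 0) (nat_lit 0) (XT.nd (nat_lit 94) (nat_lit 672) (nat_lit 0) (XT.lf (nat_lit 84) (nat_lit 273105618) (nat_lit 0) (nat_lit 5549289973)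 (nat_lit 672) (nat_lit 1344848663) (nat_lit 148) (nat_lit 5) (nat_lit 147) (nat_lit 5) (nat_lit 155) (nat_lit 5) (nat_lit 302) (nat_lit 296) (nat_lit 263)) (XT.nd (nat_lit 94) (nat_lit 0) (nat_lit 0) (XT.lf (nat_lit 0) (nat_lit 143146963) (nat_lit 672) (nat_lit 4099134800) (nat_lit 756) (nat_lit 2991087405) (nat_lit 139) (nat_lit 5) (nat_lit 147) (nat_lit 5) (nat_lit 148) (nat_lit 5) (nat_lit 303) (nat_lit 296) (nat_lit 262)) (XT.lf (nat_lit 0) (nat_lit 1594483206) (nat_lit 672) (nat_lit 1265518534) (nat_lit 756) (nat_lit 4443189657) (nat_lit 139) (nat_lit 5) (nat_lit 147) (nat_lit 5) (nat_lit 148) (nat_lit 5) (nat_lit 304) (nat_lit 296) (nat_lit 261)))) (XT.nd (nat_lit 188) (nat_lit 0) (nat_lit 84) (XT.nd (nat_lit 94) (nat_lit 0) (nat_lit 84) (XT.lf (nat_lit 84) (nat_lit 1656058340) (nat_lit 0) (nat_lit 1397978531) (nat_lit 756) (nat_lit 4322643446) (nat_lit 140) (nat_lit 5) (nat_lit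 139) (nat_lit 5) (nat_lit 148) (nat_lit 5) (nat_lit 305) (nat_lit 296) (nat_lit 260)) (XT.lf (nat_lit 0) (nat_lit 4521525716) (nat_lit 672) (nat_lit 2793286081) (nat_lit 756) (nat_lit 139143553) (nat_lit 140) (nat_lit 5) (nat_lit 148) (nat_lit 5) (nat_lit 149) (nat_lit 5) (nat_lit 306) (nat_lit 296) (nat_lit 259))) (XT.nd (nat_lit 94) (nat_lit 0) (nat_lit 0) (XT.lf (nat_lit 84) (nat_lit 180121882) (nat_lit 0) (nat_lit 5820284984) (nat_lit 756) (nat_lit 1534616895) (nat_lit 141) (nat_lit 5) (nat_lit 140) (nat_lit 5) (nat_lit 149) (nat_lit 5) (nat_lit 307) (nat_lit 296) (nat_lit 258)) (XT.lf (nat_lit 84) (nat_lit 3271259606) (nat_lit 0) (nat_lit 4234020206) (nat_lit 756) (nat_lit 114271447) (nat_lit 141) (nat_lit 5) (nat_lit 140) (nat_lit 5) (nat_lit 149) (nat_lit 5) (nat_lit 308) (nat_lit 296) (nat_lit 257))))))))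
noncomputable def xc107 : XT := (XT.nd (nat_lit 2256) (nat_lit 2772) (nat_lit 0) (XT.nd (nat_lit 1128) (nat_lit 2604) (nat_lit 0) (XT.nd (nat_lit 564) (nat_lit 2772) (nat_lit 0) (XT.nd (nat_lit 282) (nat_lit 756) (nat_lit 0) (XT.nd (nat_lit 94) (nat_lit 0) (nat_lit 0) (XT.lf (nat_lit 0) (nat_lit 1274566736) (nat_lit 756) (nat_lit 1295824479) (nat_lit 840) (nat_lit 5137702064) (nat_lit 131) (nat_lit 5) (nat_lit 140) (nat_lit 5) (nat_lit 141) (nat_lit 5) (nat_lit 309) (nat_lit 296) (nat_lit 256)) (XT.nd (nat_lit 94) (nat_lit 0) (nat_lit 84) (XT.lf (nat_lit 84) (nat_lit 1854531308) (nat_lit 0) (nat_lit 821068089) (nat_lit 840) (nat_lit 5124929118) (nat_lit 132) (nat_lit 5) (nat_lit 131) (nat_lit 5) (nat_lit 141) (nat_lit 5) (nat_lit 310) (nat_lit 296) (nat_lit 255)) (XT.lf (nat_lit 0) (nat_lit 4097808705) (nat_lit 756) (nat_lit 2809719233) (nat_lit 84) (nat_lit 989283736) (nat_lit 132)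 (nat_lit 5) (nat_lit 141) (nat_lit 5) (nat_lit 133) (nat_lit 5) (nat_lit 311) (nat_lit 296) (nat_lit 254)))) (XT.nd (nat_lit 94) (nat_lit 84) (nat_lit 0) (XT.lf (nat_lit 0) (nat_lit 389832143) (nat_lit 756) (nat_lit 5142246392) (nat_lit 840) (nat_lit 2465277661) (nat_lit 123) (nat_lit 5) (nat_lit 132) (nat_lit 5) (nat_lit 133) (nat_lit 5) (nat_lit 312) (nat_lit 296) (nat_lit 253)) (XT.nd (nat_lit 94) (nat_lit 84) (nat_lit 0) (XT.lf (nat_lit 0) (nat_lit 3715064542) (nat_lit 756) (nat_lit 3281784889) (nat_lit 840) (nat_lit 1104876158) (nat_lit 123) (nat_lit 5) (nat_lit 132) (nat_lit 5) (nat_lit 133) (nat_lit 5) (nat_lit 313) (nat_lit 296) (nat_lit 252)) (XT.lf (nat_lit 0) (nat_lit 249021477) (nat_lit 840) (nat_lit 1102116239) (nat_lit 84) (nat_lit 6859683086) (nat_lit 122) (nat_lit 5) (nat_lit 132) (nat_lit 5) (nat_lit 123) (nat_lit 5) (nat_lit 314) (nat_lit 296) (nat_lit 251))))) (XT.nd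 (nat_lit 282) (nat_lit 1008) (nat_lit 0) (XT.nd (nat_lit 94) (nat_lit 924) (nat_lit 0) (XT.lf (nat_lit 0) (nat_lit 1610010590) (nat_lit 924) (nat_lit 6043749809) (nat_lit 84) (nat_lit 669808144) (nat_lit 112) (nat_lit 5) (nat_lit 123) (nat_lit 5) (nat_lit 113) (nat_lit 5) (nat_lit 315) (nat_lit 296) (nat_lit 250)) (XT.nd (nat_lit 94) (nat_lit 924) (nat_lit 0) (XT.lf (nat_lit 0) (nat_lit 2998249152) (nat_lit 924) (nat_lit 2696903638) (nat_lit 84) (nat_lit 2745365408) (nat_lit 112) (nat_lit 5) (nat_lit 123) (nat_lit 5) (nat_lit 113) (nat_lit 5) (nat_lit 316) (nat_lit 296) (nat_lit 249)) (XT.lf (nat_lit 0) (nat_lit 736060977) (nat_lit 924) (nat_lit 3661596475) (nat_lit 1008) (nat_lit 4164659906) (nat_lit 101) (nat_lit 5) (nat_lit 112) (nat_lit 5) (nat_lit 113) (nat_lit 5) (nat_lit 317) (nat_lit 296) (nat_lit 248)))) (XT.nd (nat_lit 94) (nat_lit 1008) (nat_lit 0) (XT.lf (nat_lit 0) (nat_lit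 4300485327) (nat_lit 924) (nat_lit 1529803650) (nat_lit 1008) (nat_lit 2858147354) (nat_lit 101) (nat_lit 5) (nat_lit 112) (nat_lit 5) (nat_lit 113) (nat_lit 5) (nat_lit 318) (nat_lit 296) (nat_lit 247)) (XT.nd (nat_lit 94) (nat_lit 1008) (nat_lit 0) (XT.lf (nat_lit 0) (nat_lit 7276862149) (nat_lit 1008) (nat_lit 882287914) (nat_lit 84) (nat_lit 660481735) (nat_lit 101) (nat_lit 5) (nat_lit 113) (nat_lit 5) (nat_lit 102) (nat_lit 5) (nat_lit 319) (nat_lit 296) (nat_lit 246)) (XT.lf (nat_lit 0) (nat_lit 2739986983) (nat_lit 1008) (nat_lit 6035137531) (nat_lit 1092) (nat_lit 179773161) (nat_lit 89) (nat_lit 5) (nat_lit 101) (nat_lit 5) (nat_lit 102) (nat_lit 5) (nat_lit 320) (nat_lit 296) (nat_lit 245)))))) (XT.nd (nat_lit 564) (nat_lit 1428) (nat_lit 0) (XT.nd (nat_lit 282) (nat_lit 504) (nat_lit 0) (XT.nd (nat_lit 94) (nat_lit 588) (nat_lit 0) (XT.lf (nat_lit 0) (nat_lit 1174313589)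 (nat_lit 1092) (nat_lit 2645306273) (nat_lit 84) (nat_lit 5275383489) (nat_lit 88) (nat_lit 5) (nat_lit 101) (nat_lit 5) (nat_lit 89) (nat_lit 5) (nat_lit 321) (nat_lit 296) (nat_lit 244)) (XT.nd (nat_lit 94) (nat_lit 0) (nat_lit 0) (XT.lf (nat_lit 0) (nat_lit 1022446292) (nat_lit 588) (nat_lit 1519639431) (nat_lit 672) (nat_lit 6698267539) (nat_lit 81) (nat_lit 5) (nat_lit 88) (nat_lit 5) (nat_lit 89) (nat_lit 5) (nat_lit 322) (nat_lit 296) (nat_lit 243)) (XT.lf (nat_lit 0) (nat_lit 3954667490) (nat_lit 672) (nat_lit 4570333405) (nat_lit 84) (nat_lit 865324234) (nat_lit 81) (nat_lit 5) (nat_lit 89) (nat_lit 5) (nat_lit 82) (nat_lit 5) (nat_lit 323) (nat_lit 296) (nat_lit 242)))) (XT.nd (nat_lit 94) (nat_lit 504) (nat_lit 0) (XT.lf (nat_lit 0) (nat_lit 5393668283) (nat_lit 672) (nat_lit 856486226) (nat_lit 84) (nat_lit 3295515157) (nat_lit 81) (nat_lit 5) (nat_lit 89) (nat_lit 5) (nat_lit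 82) (nat_lit 5) (nat_lit 324) (nat_lit 296) (nat_lit 241)) (XT.nd (nat_lit 94) (nat_lit 0) (nat_lit 0) (XT.lf (nat_lit 0) (nat_lit 3002668347) (nat_lit 504) (nat_lit 3872472885) (nat_lit 588) (nat_lit 2830934370) (nat_lit 75) (nat_lit 5) (nat_lit 81) (nat_lit 5) (nat_lit 82) (nat_lit 5) (nat_lit 325) (nat_lit 296) (nat_lit 240)) (XT.lf (nat_lit 0) (nat_lit 6969601781) (nat_lit 504) (nat_lit 1410616470) (nat_lit 588) (nat_lit 1492101923) (nat_lit 75) (nat_lit 5) (nat_lit 81) (nat_lit 5) (nat_lit 82) (nat_lit 5) (nat_lit 326) (nat_lit 296) (nat_lit 239))))) (XT.nd (nat_lit 282) (nat_lit 840) (nat_lit 0) (XT.nd (nat_lit 94) (nat_lit 84) (nat_lit 0) (XT.lf (nat_lit 0) (nat_lit 994411047) (nat_lit 504) (nat_lit 8928282241) (nat_lit 588) (nat_lit 121480927) (nat_lit 69) (nat_lit 5) (nat_lit 75) (nat_lit 5) (nat_lit 76) (nat_lit 5) (nat_lit 327) (nat_lit 296) (nat_lit 238)) (XT.nd (nat_lit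 94) (nat_lit 0) (nat_lit 0) (XT.lf (nat_lit 0) (nat_lit 1280482214) (nat_lit 588) (nat_lit 5204782523) (nat_lit 84) (nat_lit 3735391464) (nat_lit 68) (nat_lit 5) (nat_lit 75) (nat_lit 5) (nat_lit 69) (nat_lit 5) (nat_lit 328) (nat_lit 296) (nat_lit 237)) (XT.lf (nat_lit 0) (nat_lit 2694130343) (nat_lit 588) (nat_lit 1271630114) (nat_lit 84) (nat_lit 6437871050) (nat_lit 68) (nat_lit 5) (nat_lit 75) (nat_lit 5) (nat_lit 69) (nat_lit 5) (nat_lit 329) (nat_lit 296) (nat_lit 236)))) (XT.nd (nat_lit 94) (nat_lit 420) (nat_lit 0) (XT.lf (nat_lit 0) (nat_lit 2811204785) (nat_lit 420) (nat_lit 1339911412) (nat_lit 504) (nat_lit 6441327334) (nat_lit 63) (nat_lit 5) (nat_lit 68) (nat_lit 5) (nat_lit 69) (nat_lit 5) (nat_lit 330) (nat_lit 296) (nat_lit 235)) (XT.nd (nat_lit 94) (nat_lit 420) (nat_lit 0) (XT.lf (nat_lit 0) (nat_lit 5652430530) (nat_lit 504) (nat_lit 3782423062) (nat_lit 84) (nat_lit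 1352426059) (nat_lit 63) (nat_lit 5) (nat_lit 69) (nat_lit 5) (nat_lit 64) (nat_lit 5) (nat_lit 331) (nat_lit 296) (nat_lit 234)) (XT.lf (nat_lit 0) (nat_lit 304076646) (nat_lit 420) (nat_lit 6885954586) (nat_lit 504) (nat_lit 3798582931) (nat_lit 58) (nat_lit 5) (nat_lit 63) (nat_lit 5) (nat_lit 64) (nat_lit 5) (nat_lit 332) (nat_lit 296) (nat_lit 233))))))) (XT.nd (nat_lit 1128) (nat_lit 1176) (nat_lit 0) (XT.nd (nat_lit 564) (nat_lit 756) (nat_lit 0) (XT.nd (nat_lit 282) (nat_lit 420) (nat_lit 0) (XT.nd (nat_lit 94) (nat_lit 420) (nat_lit 0) (XT.lf (nat_lit 0) (nat_lit 4569032220) (nat_lit 420) (nat_lit 4219300323) (nat_lit 504) (nat_lit 2407589775) (nat_lit 58) (nat_lit 5) (nat_lit 63) (nat_lit 5) (nat_lit 64) (nat_lit 5) (nat_lit 333) (nat_lit 296) (nat_lit 232)) (XT.nd (nat_lit 94) (nat_lit 420) (nat_lit 0) (XT.lf (nat_lit 0) (nat_lit 8938644667) (nat_lit 420) (nat_lit 1471885940)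 (nat_lit 504) (nat_lit 1000053845) (nat_lit 58) (nat_lit 5) (nat_lit 63) (nat_lit 5) (nat_lit 64) (nat_lit 5) (nat_lit 334) (nat_lit 296) (nat_lit 231)) (XT.lf (nat_lit 0) (nat_lit 448495226) (nat_lit 420) (nat_lit 9829251984) (nat_lit 84) (nat_lit 1353939073) (nat_lit 53) (nat_lit 5) (nat_lit 58) (nat_lit 5) (nat_lit 54) (nat_lit 5) (nat_lit 335) (nat_lit 296) (nat_lit 230)))) (XT.nd (nat_lit 94) (nat_lit 420) (nat_lit 0) (XT.lf (nat_lit 0) (nat_lit 1937503813) (nat_lit 420) (nat_lit 5650630937) (nat_lit 84) (nat_lit 4270804964) (nat_lit 53) (nat_lit 5) (nat_lit 58) (nat_lit 5) (nat_lit 54) (nat_lit 5) (nat_lit 336) (nat_lit 296) (nat_lit 229)) (XT.nd (nat_lit 94) (nat_lit 420) (nat_lit 0) (XT.lf (nat_lit 0) (nat_lit 3448625265) (nat_lit 420) (nat_lit 1369592238) (nat_lit 84) (nat_lit 7275882991) (nat_lit 53) (nat_lit 5) (nat_lit 58) (nat_lit 5) (nat_lit 54) (nat_lit 5) (nat_lit 337)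 (nat_lit 296) (nat_lit 228)) (XT.lf (nat_lit 0) (nat_lit 3079907764) (nat_lit 420) (nat_lit 1933913405) (nat_lit 504) (nat_lit 7322619503) (nat_lit 48) (nat_lit 5) (nat_lit 53) (nat_lit 5) (nat_lit 54) (nat_lit 5) (nat_lit 338) (nat_lit 296) (nat_lit 227))))) (XT.nd (nat_lit 282) (nat_lit 420) (nat_lit 0) (XT.nd (nat_lit 94) (nat_lit 336) (nat_lit 0) (XT.lf (nat_lit 0) (nat_lit 6629383366) (nat_lit 504) (nat_lit 4926760480) (nat_lit 84) (nat_lit 1030202470) (nat_lit 48) (nat_lit 5) (nat_lit 54) (nat_lit 5) (nat_lit 49) (nat_lit 5) (nat_lit 339) (nat_lit 296) (nat_lit 226)) (XT.nd (nat_lit 94) (nat_lit 336) (nat_lit 0) (XT.lf (nat_lit 0) (nat_lit 8292584567) (nat_lit 504) (nat_lit 508563848) (nat_lit 84) (nat_lit 4043033175) (nat_lit 48) (nat_lit 5) (nat_lit 54) (nat_lit 5) (nat_lit 49) (nat_lit 5) (nat_lit 340) (nat_lit 296) (nat_lit 225)) (XT.lf (nat_lit 0) (nat_lit 4104047276) (nat_lit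 336) (nat_lit 5922455773) (nat_lit 420) (nat_lit 3083016408) (nat_lit 44) (nat_lit 5) (nat_lit 48) (nat_lit 5) (nat_lit 49) (nat_lit 5) (nat_lit 341) (nat_lit 296) (nat_lit 224)))) (XT.nd (nat_lit 94) (nat_lit 420) (nat_lit 0) (XT.lf (nat_lit 0) (nat_lit 8845449124) (nat_lit 336) (nat_lit 2952877911) (nat_lit 420) (nat_lit 1585347470) (nat_lit 44) (nat_lit 5) (nat_lit 48) (nat_lit 5) (nat_lit 49) (nat_lit 5) (nat_lit 342) (nat_lit 296) (nat_lit 223)) (XT.nd (nat_lit 94) (nat_lit 84) (nat_lit 0) (XT.lf (nat_lit 0) (nat_lit 42353443) (nat_lit 336) (nat_lit 13563668066) (nat_lit 420) (nat_lit 60995052) (nat_lit 40) (nat_lit 5) (nat_lit 44) (nat_lit 5) (nat_lit 45) (nat_lit 5) (nat_lit 343) (nat_lit 296) (nat_lit 222)) (XT.lf (nat_lit 0) (nat_lit 1537751202) (nat_lit 420) (nat_lit 9167394013) (nat_lit 84) (nat_lit 3251839339) (nat_lit 39) (nat_lit 5) (nat_lit 44) (nat_lit 5) (nat_lit 40)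 (nat_lit 5) (nat_lit 344) (nat_lit 296) (nat_lit 221)))))) (XT.nd (nat_lit 564) (nat_lit 588) (nat_lit 0) (XT.nd (nat_lit 282) (nat_lit 336) (nat_lit 0) (XT.nd (nat_lit 94) (nat_lit 252) (nat_lit 0) (XT.lf (nat_lit 0) (nat_lit 3164926540) (nat_lit 420) (nat_lit 4597003589) (nat_lit 84) (nat_lit 6494696837) (nat_lit 39) (nat_lit 5) (nat_lit 44) (nat_lit 5) (nat_lit 40) (nat_lit 5) (nat_lit 345) (nat_lit 296) (nat_lit 220)) (XT.nd (nat_lit 94) (nat_lit 0) (nat_lit 0) (XT.lf (nat_lit 0) (nat_lit 93252138) (nat_lit 252) (nat_lit 4730949507) (nat_lit 336) (nat_lit 9742011528) (nat_lit 36) (nat_lit 5) (nat_lit 39) (nat_lit 5) (nat_lit 40) (nat_lit 5) (nat_lit 346) (nat_lit 296) (nat_lit 219)) (XT.lf (nat_lit 0) (nat_lit 5002904126) (nat_lit 252) (nat_lit 1561072356) (nat_lit 336) (nat_lit 8320602805) (nat_lit 36) (nat_lit 5) (nat_lit 39) (nat_lit 5) (nat_lit 40) (nat_lit 5) (nat_lit 347)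 (nat_lit 296) (nat_lit 218)))) (XT.nd (nat_lit 94) (nat_lit 336) (nat_lit 0) (XT.lf (nat_lit 0) (nat_lit 8356222898) (nat_lit 336) (nat_lit 5188350679) (nat_lit 84) (nat_lit 1668367630) (nat_lit 36) (nat_lit 5) (nat_lit 40) (nat_lit 5) (nat_lit 37) (nat_lit 5) (nat_lit 348) (nat_lit 296) (nat_lit 217)) (XT.nd (nat_lit 94) (nat_lit 336) (nat_lit 0) (XT.lf (nat_lit 0) (nat_lit 10202152373) (nat_lit 336) (nat_lit 388153839) (nat_lit 84) (nat_lit 4961313016) (nat_lit 36) (nat_lit 5) (nat_lit 40) (nat_lit 5) (nat_lit 37) (nat_lit 5) (nat_lit 349) (nat_lit 296) (nat_lit 216)) (XT.lf (nat_lit 0) (nat_lit 4632204266) (nat_lit 336) (nat_lit 7501747251) (nat_lit 420) (nat_lit 3766033072) (nat_lit 32) (nat_lit 5) (nat_lit 36) (nat_lit 5) (nat_lit 37) (nat_lit 5) (nat_lit 350) (nat_lit 296) (nat_lit 215))))) (XT.nd (nat_lit 282) (nat_lit 252) (nat_lit 0) (XT.nd (nat_lit 94) (nat_lit 336) (nat_lit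 0) (XT.lf (nat_lit 0) (nat_lit 9794671165) (nat_lit 336) (nat_lit 4318015205) (nat_lit 420) (nat_lit 2146938405) (nat_lit 32) (nat_lit 5) (nat_lit 36) (nat_lit 5) (nat_lit 37) (nat_lit 5) (nat_lit 351) (nat_lit 296) (nat_lit 214)) (XT.nd (nat_lit 94) (nat_lit 336) (nat_lit 0) (XT.lf (nat_lit 0) (nat_lit 15096077578) (nat_lit 336) (nat_lit 1040194032) (nat_lit 420) (nat_lit 494725221) (nat_lit 32) (nat_lit 5) (nat_lit 36) (nat_lit 5) (nat_lit 37) (nat_lit 5) (nat_lit 352) (nat_lit 296) (nat_lit 213)) (XT.lf (nat_lit 0) (nat_lit 1227360718) (nat_lit 336) (nat_lit 13449253936) (nat_lit 84) (nat_lit 2335629412) (nat_lit 28) (nat_lit 5) (nat_lit 32) (nat_lit 5) (nat_lit 29) (nat_lit 5) (nat_lit 353) (nat_lit 296) (nat_lit 212)))) (XT.nd (nat_lit 188) (nat_lit 252) (nat_lit 0) (XT.nd (nat_lit 94) (nat_lit 0) (nat_lit 0) (XT.lf (nat_lit 0) (nat_lit 3003388619) (nat_lit 336) (nat_lit 8590367260)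 (nat_lit 84) (nat_lit 5811126915) (nat_lit 28) (nat_lit 5) (nat_lit 32) (nat_lit 5) (nat_lit 29) (nat_lit 5) (nat_lit 354) (nat_lit 296) (nat_lit 211)) (XT.lf (nat_lit 0) (nat_lit 4818964069) (nat_lit 336) (nat_lit 3601384360) (nat_lit 84) (nat_lit 9389889246) (nat_lit 28) (nat_lit 5) (nat_lit 32) (nat_lit 5) (nat_lit 29) (nat_lit 5) (nat_lit 355) (nat_lit 296) (nat_lit 210))) (XT.nd (nat_lit 94) (nat_lit 0) (nat_lit 0) (XT.lf (nat_lit 0) (nat_lit 1553647552) (nat_lit 252) (nat_lit 5137544197) (nat_lit 336) (nat_lit 11537017011) (nat_lit 25) (nat_lit 5) (nat_lit 28) (nat_lit 5) (nat_lit 29) (nat_lit 5) (nat_lit 356) (nat_lit 296) (nat_lit 209)) (XT.lf (nat_lit 0) (nat_lit 6925122510) (nat_lit 252) (nat_lit 1719140842) (nat_lit 336) (nat_lit 10014226445) (nat_lit 25) (nat_lit 5) (nat_lit 28) (nat_lit 5) (nat_lit 29) (nat_lit 5) (nat_lit 357) (nat_lit 296) (nat_lit 208))))))))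
noncomputable def xc108 : XT := (XT.nd (nat_lit 2256) (nat_lit 588) (nat_lit 0) (XT.nd (nat_lit 1128) (nat_lit 420) (nat_lit 0) (XT.nd (nat_lit 564) (nat_lit 420) (nat_lit 0) (XT.nd (nat_lit 282) (nat_lit 84) (nat_lit 0) (XT.nd (nat_lit 94) (nat_lit 168) (nat_lit 0) (XT.lf (nat_lit 0) (nat_lit 10661399318) (nat_lit 336) (nat_lit 6676477453) (nat_lit 84) (nat_lit 1764181684) (nat_lit 25) (nat_lit 5) (nat_lit 29) (nat_lit 5) (nat_lit 26) (nat_lit 5) (nat_lit 358) (nat_lit 296) (nat_lit 207)) (XT.nd (nat_lit 94) (nat_lit 168) (nat_lit 0) (XT.lf (nat_lit 0) (nat_lit 12744692918) (nat_lit 336) (nat_lit 1499391244) (nat_lit 84) (nat_lit 5315237416) (nat_lit 25) (nat_lit 5) (nat_lit 29) (nat_lit 5) (nat_lit 26) (nat_lit 5) (nat_lit 359) (nat_lit 296) (nat_lit 206)) (XT.lf (nat_lit 0) (nat_lit 3898313340) (nat_lit 168) (nat_lit 11019390323) (nat_lit 252) (nat_lit 5112331576) (nat_lit 23) (nat_lit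 5) (nat_lit 25) (nat_lit 5) (nat_lit 26) (nat_lit 5) (nat_lit 360) (nat_lit 296) (nat_lit 205)))) (XT.nd (nat_lit 94) (nat_lit 84) (nat_lit 0) (XT.lf (nat_lit 0) (nat_lit 9476905874) (nat_lit 168) (nat_lit 7683511934) (nat_lit 252) (nat_lit 3354903599) (nat_lit 23) (nat_lit 5) (nat_lit 25) (nat_lit 5) (nat_lit 26) (nat_lit 5) (nat_lit 361) (nat_lit 296) (nat_lit 204)) (XT.nd (nat_lit 94) (nat_lit 84) (nat_lit 0) (XT.lf (nat_lit 0) (nat_lit 15210755629) (nat_lit 168) (nat_lit 4248990177) (nat_lit 252) (nat_lit 1556357191) (nat_lit 23) (nat_lit 5) (nat_lit 25) (nat_lit 5) (nat_lit 26) (nat_lit 5) (nat_lit 362) (nat_lit 296) (nat_lit 203)) (XT.lf (nat_lit 0) (nat_lit 279242284) (nat_lit 252) (nat_lit 430466717) (nat_lit 84) (nat_lit 20823050153) (nat_lit 22) (nat_lit 5) (nat_lit 25) (nat_lit 5) (nat_lit 23) (nat_lit 5) (nat_lit 363) (nat_lit 296) (nat_lit 202))))) (XT.nd (nat_lit 282)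 (nat_lit 168) (nat_lit 0) (XT.nd (nat_lit 94) (nat_lit 0) (nat_lit 0) (XT.lf (nat_lit 0) (nat_lit 2208312048) (nat_lit 336) (nat_lit 16910970883) (nat_lit 84) (nat_lit 2943566335) (nat_lit 19) (nat_lit 5) (nat_lit 23) (nat_lit 5) (nat_lit 20) (nat_lit 5) (nat_lit 364) (nat_lit 296) (nat_lit 201)) (XT.nd (nat_lit 94) (nat_lit 0) (nat_lit 0) (XT.lf (nat_lit 0) (nat_lit 4196821621) (nat_lit 336) (nat_lit 11717271137) (nat_lit 84) (nat_lit 6695336046) (nat_lit 19) (nat_lit 5) (nat_lit 23) (nat_lit 5) (nat_lit 20) (nat_lit 5) (nat_lit 365) (nat_lit 296) (nat_lit 200)) (XT.lf (nat_lit 0) (nat_lit 6235181442) (nat_lit 336) (nat_lit 6379186969) (nat_lit 84) (nat_lit 10558993565) (nat_lit 19) (nat_lit 5) (nat_lit 23) (nat_lit 5) (nat_lit 20) (nat_lit 5) (nat_lit 366) (nat_lit 296) (nat_lit 199)))) (XT.nd (nat_lit 94) (nat_lit 168) (nat_lit 0) (XT.lf (nat_lit 0) (nat_lit 8325291474) (nat_lit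 336) (nat_lit 891742725) (nat_lit 84) (nat_lit 14538140227) (nat_lit 19) (nat_lit 5) (nat_lit 23) (nat_lit 5) (nat_lit 20) (nat_lit 5) (nat_lit 367) (nat_lit 296) (nat_lit 198)) (XT.nd (nat_lit 94) (nat_lit 0) (nat_lit 0) (XT.lf (nat_lit 0) (nat_lit 4847849839) (nat_lit 168) (nat_lit 5669341349) (nat_lit 252) (nat_lit 13836726444) (nat_lit 17) (nat_lit 5) (nat_lit 19) (nat_lit 5) (nat_lit 20) (nat_lit 5) (nat_lit 368) (nat_lit 296) (nat_lit 197)) (XT.lf (nat_lit 0) (nat_lit 10768796727) (nat_lit 168) (nat_lit 2006636099) (nat_lit 252) (nat_lit 12195879079) (nat_lit 17) (nat_lit 5) (nat_lit 19) (nat_lit 5) (nat_lit 20) (nat_lit 5) (nat_lit 369) (nat_lit 296) (nat_lit 196)))))) (XT.nd (nat_lit 564) (nat_lit 252) (nat_lit 0) (XT.nd (nat_lit 282) (nat_lit 0) (nat_lit 0) (XT.nd (nat_lit 94) (nat_lit 168) (nat_lit 0) (XT.lf (nat_lit 0) (nat_lit 15110604090) (nat_lit 252) (nat_lit 8767442649)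 (nat_lit 84) (nat_lit 1729623014) (nat_lit 17) (nat_lit 5) (nat_lit 20) (nat_lit 5) (nat_lit 18) (nat_lit 5) (nat_lit 370) (nat_lit 296) (nat_lit 195)) (XT.nd (nat_lit 94) (nat_lit 168) (nat_lit 0) (XT.lf (nat_lit 0) (nat_lit 17528377826) (nat_lit 252) (nat_lit 3199280371) (nat_lit 84) (nat_lit 5535817749) (nat_lit 17) (nat_lit 5) (nat_lit 20) (nat_lit 5) (nat_lit 18) (nat_lit 5) (nat_lit 371) (nat_lit 296) (nat_lit 194)) (XT.lf (nat_lit 0) (nat_lit 2579029543) (nat_lit 168) (nat_lit 17457656322) (nat_lit 252) (nat_lit 6902479873) (nat_lit 15) (nat_lit 5) (nat_lit 17) (nat_lit 5) (nat_lit 18) (nat_lit 5) (nat_lit 372) (nat_lit 296) (nat_lit 193)))) (XT.nd (nat_lit 94) (nat_lit 0) (nat_lit 0) (XT.lf (nat_lit 0) (nat_lit 8590009097) (nat_lit 168) (nat_lit 14056294347) (nat_lit 252) (nat_lit 4988803946) (nat_lit 15) (nat_lit 5) (nat_lit 17) (nat_lit 5) (nat_lit 18) (nat_lit 5) (nat_lit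 373) (nat_lit 296) (nat_lit 192)) (XT.nd (nat_lit 94) (nat_lit 0) (nat_lit 0) (XT.lf (nat_lit 0) (nat_lit 14773477387) (nat_lit 168) (nat_lit 10553795773) (nat_lit 252) (nat_lit 3025680518) (nat_lit 15) (nat_lit 5) (nat_lit 17) (nat_lit 5) (nat_lit 18) (nat_lit 5) (nat_lit 374) (nat_lit 296) (nat_lit 191)) (XT.lf (nat_lit 0) (nat_lit 21135198053) (nat_lit 168) (nat_lit 6946895903) (nat_lit 252) (nat_lit 1011279752) (nat_lit 15) (nat_lit 5) (nat_lit 17) (nat_lit 5) (nat_lit 18) (nat_lit 5) (nat_lit 375) (nat_lit 296) (nat_lit 190))))) (XT.nd (nat_lit 282) (nat_lit 0) (nat_lit 0) (XT.nd (nat_lit 94) (nat_lit 168) (nat_lit 0) (XT.lf (nat_lit 0) (nat_lit 1034994375) (nat_lit 252) (nat_lit 2186435136) (nat_lit 84) (nat_lit 26635303290) (nat_lit 14) (nat_lit 5) (nat_lit 17) (nat_lit 5) (nat_lit 15) (nat_lit 5) (nat_lit 376) (nat_lit 296) (nat_lit 189)) (XT.nd (nat_lit 94) (nat_lit 0) (nat_lit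 0) (XT.lf (nat_lit 0) (nat_lit 3159339497) (nat_lit 252) (nat_lit 26831206418) (nat_lit 84) (nat_lit 651815089) (nat_lit 12) (nat_lit 5) (nat_lit 15) (nat_lit 5) (nat_lit 13) (nat_lit 5) (nat_lit 377) (nat_lit 296) (nat_lit 188)) (XT.lf (nat_lit 0) (nat_lit 5396811108) (nat_lit 252) (nat_lit 21456776842) (nat_lit 84) (nat_lit 4597319936) (nat_lit 12) (nat_lit 5) (nat_lit 15) (nat_lit 5) (nat_lit 13) (nat_lit 5) (nat_lit 378) (nat_lit 296) (nat_lit 187)))) (XT.nd (nat_lit 94) (nat_lit 0) (nat_lit 0) (XT.lf (nat_lit 0) (nat_lit 7695175697) (nat_lit 252) (nat_lit 15928330101) (nat_lit 84) (nat_lit 8661305191) (nat_lit 12) (nat_lit 5) (nat_lit 15) (nat_lit 5) (nat_lit 13) (nat_lit 5) (nat_lit 379) (nat_lit 296) (nat_lit 186)) (XT.nd (nat_lit 94) (nat_lit 0) (nat_lit 0) (XT.lf (nat_lit 0) (nat_lit 10056575583) (nat_lit 252) (nat_lit 10240713103) (nat_lit 84) (nat_lit 12847558914) (nat_lit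 12) (nat_lit 5) (nat_lit 15) (nat_lit 5) (nat_lit 13) (nat_lit 5) (nat_lit 380) (nat_lit 296) (nat_lit 185)) (XT.lf (nat_lit 0) (nat_lit 12483211836) (nat_lit 252) (nat_lit 4388624394) (nat_lit 84) (nat_lit 17159983131) (nat_lit 12) (nat_lit 5) (nat_lit 15) (nat_lit 5) (nat_lit 13) (nat_lit 5) (nat_lit 381) (nat_lit 296) (nat_lit 184))))))) (XT.nd (nat_lit 1128) (nat_lit 252) (nat_lit 0) (XT.nd (nat_lit 564) (nat_lit 168) (nat_lit 0) (XT.nd (nat_lit 282) (nat_lit 0) (nat_lit 0) (XT.nd (nat_lit 94) (nat_lit 0) (nat_lit 0) (XT.lf (nat_lit 0) (nat_lit 1666976651) (nat_lit 168) (nat_lit 13326906300) (nat_lit 252) (nat_lit 19952157438) (nat_lit 10) (nat_lit 5) (nat_lit 12) (nat_lit 5) (nat_lit 13) (nat_lit 5) (nat_lit 382) (nat_lit 296) (nat_lit 183)) (XT.nd (nat_lit 94) (nat_lit 0) (nat_lit 0) (XT.lf (nat_lit 0) (nat_lit 7991965890) (nat_lit 168) (nat_lit 9628619279) (nat_lit 252) (nat_lit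 18266858326) (nat_lit 10) (nat_lit 5) (nat_lit 12) (nat_lit 5) (nat_lit 13) (nat_lit 5) (nat_lit 383) (nat_lit 296) (nat_lit 182)) (XT.lf (nat_lit 0) (nat_lit 14501999757) (nat_lit 168) (nat_lit 5819336214) (nat_lit 252) (nat_lit 16536947552) (nat_lit 10) (nat_lit 5) (nat_lit 12) (nat_lit 5) (nat_lit 13) (nat_lit 5) (nat_lit 384) (nat_lit 296) (nat_lit 181)))) (XT.nd (nat_lit 94) (nat_lit 0) (nat_lit 0) (XT.lf (nat_lit 0) (nat_lit 21203146285) (nat_lit 168) (nat_lit 1895506456) (nat_lit 252) (nat_lit 14760812659) (nat_lit 10) (nat_lit 5) (nat_lit 12) (nat_lit 5) (nat_lit 13) (nat_lit 5) (nat_lit 385) (nat_lit 296) (nat_lit 180)) (XT.nd (nat_lit 94) (nat_lit 0) (nat_lit 0) (XT.lf (nat_lit 0) (nat_lit 25976418045) (nat_lit 252) (nat_lit 10811564502) (nat_lit 84) (nat_lit 2103279673) (nat_lit 10) (nat_lit 5) (nat_lit 13) (nat_lit 5) (nat_lit 11) (nat_lit 4) (nat_lit 386) (nat_lit 296)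 (nat_lit 179)) (XT.lf (nat_lit 0) (nat_lit 28956014230) (nat_lit 252) (nat_lit 4815271974) (nat_lit 84) (nat_lit 6183389827) (nat_lit 10) (nat_lit 5) (nat_lit 13) (nat_lit 5) (nat_lit 11) (nat_lit 4) (nat_lit 387) (nat_lit 296) (nat_lit 178))))) (XT.nd (nat_lit 282) (nat_lit 84) (nat_lit 0) (XT.nd (nat_lit 94) (nat_lit 0) (nat_lit 0) (XT.lf (nat_lit 0) (nat_lit 1384853004) (nat_lit 84) (nat_lit 30650299841) (nat_lit 168) (nat_lit 9015702235) (nat_lit 9) (nat_lit 5) (nat_lit 10) (nat_lit 5) (nat_lit 11) (nat_lit 4) (nat_lit 388) (nat_lit 296) (nat_lit 177)) (XT.nd (nat_lit 94) (nat_lit 0) (nat_lit 0) (XT.lf (nat_lit 0) (nat_lit 7869409551) (nat_lit 84) (nat_lit 27384133393) (nat_lit 168) (nat_lit 6926136171) (nat_lit 9) (nat_lit 5) (nat_lit 10) (nat_lit 5) (nat_lit 11) (nat_lit 4) (nat_lit 389) (nat_lit 296) (nat_lit 176)) (XT.lf (nat_lit 0) (nat_lit 14545430084) (nat_lit 84) (nat_lit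 24020004015) (nat_lit 168) (nat_lit 4778277480) (nat_lit 9) (nat_lit 5) (nat_lit 10) (nat_lit 5) (nat_lit 11) (nat_lit 4) (nat_lit 390) (nat_lit 296) (nat_lit 175)))) (XT.nd (nat_lit 94) (nat_lit 84) (nat_lit 0) (XT.lf (nat_lit 0) (nat_lit 21419137354) (nat_lit 84) (nat_lit 20554775984) (nat_lit 168) (nat_lit 2570124130) (nat_lit 9) (nat_lit 5) (nat_lit 10) (nat_lit 5) (nat_lit 11) (nat_lit 4) (nat_lit 391) (nat_lit 296) (nat_lit 174)) (XT.nd (nat_lit 94) (nat_lit 84) (nat_lit 0) (XT.lf (nat_lit 0) (nat_lit 28496938377) (nat_lit 84) (nat_lit 16985219347) (nat_lit 168) (nat_lit 299617893) (nat_lit 9) (nat_lit 5) (nat_lit 10) (nat_lit 5) (nat_lit 11) (nat_lit 4) (nat_lit 392) (nat_lit 296) (nat_lit 173)) (XT.lf (nat_lit 0) (nat_lit 1994349661) (nat_lit 168) (nat_lit 11292840319) (nat_lit 84) (nat_lit 33770263821) (nat_lit 8) (nat_lit 5) (nat_lit 10) (nat_lit 5) (nat_lit 9) (nat_lit 5)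 (nat_lit 393) (nat_lit 296) (nat_lit 172)))))) (XT.nd (nat_lit 564) (nat_lit 84) (nat_lit 0) (XT.nd (nat_lit 282) (nat_lit 0) (nat_lit 0) (XT.nd (nat_lit 94) (nat_lit 168) (nat_lit 0) (XT.lf (nat_lit 0) (nat_lit 4347583501) (nat_lit 168) (nat_lit 5126747744) (nat_lit 84) (nat_lit 38898443714) (nat_lit 8) (nat_lit 5) (nat_lit 10) (nat_lit 5) (nat_lit 9) (nat_lit 5) (nat_lit 394) (nat_lit 296) (nat_lit 171)) (XT.nd (nat_lit 94) (nat_lit 0) (nat_lit 0) (XT.lf (nat_lit 0) (nat_lit 1247290295) (nat_lit 168) (nat_lit 5533396696) (nat_lit 252) (nat_lit 42947986683) (nat_lit 6) (nat_lit 5) (nat_lit 8) (nat_lit 5) (nat_lit 9) (nat_lit 5) (nat_lit 395) (nat_lit 296) (nat_lit 170)) (XT.lf (nat_lit 0) (nat_lit 7919358718) (nat_lit 168) (nat_lit 1417998988) (nat_lit 252) (nat_lit 41787771764) (nat_lit 6) (nat_lit 5) (nat_lit 8) (nat_lit 5) (nat_lit 9) (nat_lit 5) (nat_lit 396) (nat_lit 296) (nat_lit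 169)))) (XT.nd (nat_lit 94) (nat_lit 0) (nat_lit 0) (XT.lf (nat_lit 0) (nat_lit 11996071437) (nat_lit 252) (nat_lit 37802789286) (nat_lit 84) (nat_lit 2765324388) (nat_lit 6) (nat_lit 5) (nat_lit 9) (nat_lit 5) (nat_lit 7) (nat_lit 4) (nat_lit 397) (nat_lit 296) (nat_lit 168)) (XT.nd (nat_lit 94) (nat_lit 0) (nat_lit 0) (XT.lf (nat_lit 0) (nat_lit 14746627692) (nat_lit 252) (nat_lit 32254724144) (nat_lit 84) (nat_lit 7046223154) (nat_lit 6) (nat_lit 5) (nat_lit 9) (nat_lit 5) (nat_lit 7) (nat_lit 4) (nat_lit 398) (nat_lit 296) (nat_lit 167)) (XT.lf (nat_lit 0) (nat_lit 17577523553) (nat_lit 252) (nat_lit 26542337224) (nat_lit 84) (nat_lit 11457257073) (nat_lit 6) (nat_lit 5) (nat_lit 9) (nat_lit 5) (nat_lit 7) (nat_lit 4) (nat_lit 399) (nat_lit 296) (nat_lit 166))))) (XT.nd (nat_lit 282) (nat_lit 84) (nat_lit 0) (XT.nd (nat_lit 94) (nat_lit 0) (nat_lit 0) (XT.lf (nat_lit 0) (nat_lit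 20491397711) (nat_lit 252) (nat_lit 20660303983) (nat_lit 84) (nat_lit 16002537691) (nat_lit 6) (nat_lit 5) (nat_lit 9) (nat_lit 5) (nat_lit 7) (nat_lit 4) (nat_lit 400) (nat_lit 296) (nat_lit 165)) (XT.nd (nat_lit 94) (nat_lit 0) (nat_lit 0) (XT.lf (nat_lit 0) (nat_lit 23490966201) (nat_lit 252) (nat_lit 14603141750) (nat_lit 84) (nat_lit 20686301686) (nat_lit 6) (nat_lit 5) (nat_lit 9) (nat_lit 5) (nat_lit 7) (nat_lit 4) (nat_lit 401) (nat_lit 296) (nat_lit 164)) (XT.lf (nat_lit 0) (nat_lit 26579024936) (nat_lit 252) (nat_lit 8365204614) (nat_lit 84) (nat_lit 25512914817) (nat_lit 6) (nat_lit 5) (nat_lit 9) (nat_lit 5) (nat_lit 7) (nat_lit 4) (nat_lit 402) (nat_lit 296) (nat_lit 163)))) (XT.nd (nat_lit 188) (nat_lit 0) (nat_lit 0) (XT.nd (nat_lit 94) (nat_lit 84) (nat_lit 0) (XT.lf (nat_lit 0) (nat_lit 29758452311) (nat_lit 252) (nat_lit 1940678165) (nat_lit 84) (nat_lit 30486875993)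 (nat_lit 6) (nat_lit 5) (nat_lit 9) (nat_lit 5) (nat_lit 7) (nat_lit 4) (nat_lit 403) (nat_lit 296) (nat_lit 162)) (XT.lf (nat_lit 0) (nat_lit 4772582836) (nat_lit 84) (nat_lit 28306973659) (nat_lit 168) (nat_lit 30887583242) (nat_lit 5) (nat_lit 5) (nat_lit 6) (nat_lit 5) (nat_lit 7) (nat_lit 4) (nat_lit 404) (nat_lit 296) (nat_lit 161))) (XT.nd (nat_lit 94) (nat_lit 0) (nat_lit 0) (XT.lf (nat_lit 0) (nat_lit 11728580255) (nat_lit 84) (nat_lit 24791123854) (nat_lit 168) (nat_lit 29283297867) (nat_lit 5) (nat_lit 5) (nat_lit 6) (nat_lit 5) (nat_lit 7) (nat_lit 4) (nat_lit 405) (nat_lit 296) (nat_lit 160)) (XT.lf (nat_lit 0) (nat_lit 18893893486) (nat_lit 84) (nat_lit 21168560620) (nat_lit 168) (nat_lit 27633459372) (nat_lit 5) (nat_lit 5) (nat_lit 6) (nat_lit 5) (nat_lit 7) (nat_lit 4) (nat_lit 406) (nat_lit 296) (nat_lit 159))))))))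
noncomputable def xc109 : XT := (XT.nd (nat_lit 45026) (nat_lit 0) (nat_lit 4452) (XT.nd (nat_lit 43898) (nat_lit 0) (nat_lit 10668) (XT.nd (nat_lit 564) (nat_lit 84) (nat_lit 0) (XT.nd (nat_lit 282) (nat_lit 0) (nat_lit 0) (XT.nd (nat_lit 94) (nat_lit 0) (nat_lit 0) (XT.lf (nat_lit 0) (nat_lit 26275201350) (nat_lit 84) (nat_lit 17435907349) (nat_lit 168) (nat_lit 25936529935) (nat_lit 5) (nat_lit 5) (nat_lit 6) (nat_lit 5) (nat_lit 7) (nat_lit 4) (nat_lit 407) (nat_lit 296) (nat_lit 158)) (XT.nd (nat_lit 94) (nat_lit 0) (nat_lit 0) (XT.lf (nat_lit 0) (nat_lit 33879384002) (nat_lit 84) (nat_lit 13589684816) (nat_lit 168) (nat_lit 24190927838) (nat_lit 5) (nat_lit 5) (nat_lit 6) (nat_lit 5) (nat_lit 7) (nat_lit 4) (nat_lit 408) (nat_lit 296) (nat_lit 157)) (XT.lf (nat_lit 0) (nat_lit 41713529334) (nat_lit 84) (nat_lit 9626307940) (nat_lit 168) (nat_lit 22395025999) (nat_lit 5) (nat_lit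 5) (nat_lit 6) (nat_lit 5) (nat_lit 7) (nat_lit 4) (nat_lit 409) (nat_lit 296) (nat_lit 156)))) (XT.nd (nat_lit 94) (nat_lit 0) (nat_lit 0) (XT.lf (nat_lit 0) (nat_lit 49784939592) (nat_lit 84) (nat_lit 5542082438) (nat_lit 168) (nat_lit 20547150449) (nat_lit 5) (nat_lit 5) (nat_lit 6) (nat_lit 5) (nat_lit 7) (nat_lit 4) (nat_lit 410) (nat_lit 296) (nat_lit 155)) (XT.nd (nat_lit 94) (nat_lit 0) (nat_lit 0) (XT.lf (nat_lit 0) (nat_lit 58101138175) (nat_lit 84) (nat_lit 1333201384) (nat_lit 168) (nat_lit 18645578773) (nat_lit 5) (nat_lit 5) (nat_lit 6) (nat_lit 5) (nat_lit 7) (nat_lit 4) (nat_lit 411) (nat_lit 296) (nat_lit 154)) (XT.lf (nat_lit 0) (nat_lit 63695420926) (nat_lit 168) (nat_lit 13714082783) (nat_lit 0) (nat_lit 2943729229) (nat_lit 5) (nat_lit 5) (nat_lit 7) (nat_lit 4) (nat_lit 5) (nat_lit 4) (nat_lit 412) (nat_lit 296) (nat_lit 153))))) (XT.nd (nat_lit 282) (nat_lit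 0) (nat_lit 0) (XT.nd (nat_lit 94) (nat_lit 84) (nat_lit 0) (XT.lf (nat_lit 0) (nat_lit 68098948658) (nat_lit 168) (nat_lit 7274012163) (nat_lit 0) (nat_lit 7323748413) (nat_lit 5) (nat_lit 5) (nat_lit 7) (nat_lit 4) (nat_lit 5) (nat_lit 4) (nat_lit 413) (nat_lit 296) (nat_lit 152)) (XT.nd (nat_lit 94) (nat_lit 84) (nat_lit 0) (XT.lf (nat_lit 0) (nat_lit 72635801779) (nat_lit 168) (nat_lit 639339953) (nat_lit 0) (nat_lit 11837799840) (nat_lit 5) (nat_lit 5) (nat_lit 7) (nat_lit 4) (nat_lit 5) (nat_lit 4) (nat_lit 414) (nat_lit 296) (nat_lit 151)) (XT.lf (nat_lit 0) (nat_lit 6323522951) (nat_lit 84) (nat_lit 71049416293) (nat_lit 84) (nat_lit 10229298257) (nat_lit 4) (nat_lit 4) (nat_lit 5) (nat_lit 5) (nat_lit 5) (nat_lit 4) (nat_lit 415) (nat_lit 296) (nat_lit 150)))) (XT.nd (nat_lit 42864) (nat_lit 0) (nat_lit 11928) (XT.lf (nat_lit 0) (nat_lit 13510948735) (nat_lit 84) (nat_lit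 68749609248) (nat_lit 84) (nat_lit 7908040101) (nat_lit 4) (nat_lit 4) (nat_lit 5) (nat_lit 5) (nat_lit 5) (nat_lit 4) (nat_lit 416) (nat_lit 296) (nat_lit 149)) (XT.nd (nat_lit 94) (nat_lit 588) (nat_lit 0) (XT.lf (nat_lit 0) (nat_lit 3279573852) (nat_lit 588) (nat_lit 94068307) (nat_lit 588) (nat_lit 94068307) (nat_lit 153) (nat_lit 3) (nat_lit 160) (nat_lit 3) (nat_lit 160) (nat_lit 5) (nat_lit 297) (nat_lit 297) (nat_lit 267)) (XT.lf (nat_lit 0) (nat_lit 1143420065) (nat_lit 588) (nat_lit 4566292253) (nat_lit 672) (nat_lit 1275476747) (nat_lit 146) (nat_lit 5) (nat_lit 153) (nat_lit 3) (nat_lit 154) (nat_lit 5) (nat_lit 298) (nat_lit 297) (nat_lit 266)))))) (XT.nd (nat_lit 564) (nat_lit 672) (nat_lit 0) (XT.nd (nat_lit 282) (nat_lit 588) (nat_lit 0) (XT.nd (nat_lit 94) (nat_lit 0) (nat_lit 0) (XT.lf (nat_lit 0) (nat_lit 2643897507) (nat_lit 588) (nat_lit 1962590000) (nat_lit 672)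 (nat_lit 2432142040) (nat_lit 146) (nat_lit 5) (nat_lit 153) (nat_lit 3) (nat_lit 154) (nat_lit 5) (nat_lit 299) (nat_lit 297) (nat_lit 265)) (XT.nd (nat_lit 94) (nat_lit 0) (nat_lit 0) (XT.lf (nat_lit 84) (nat_lit 703984487) (nat_lit 0) (nat_lit 3435213699) (nat_lit 672) (nat_lit 2956552879) (nat_lit 147) (nat_lit 5) (nat_lit 146) (nat_lit 5) (nat_lit 154) (nat_lit 5) (nat_lit 300) (nat_lit 297) (nat_lit 264)) (XT.lf (nat_lit 84) (nat_lit 3463126646) (nat_lit 0) (nat_lit 2180986528) (nat_lit 672) (nat_lit 1512078370) (nat_lit 147) (nat_lit 5) (nat_lit 146) (nat_lit 5) (nat_lit 154) (nat_lit 5) (nat_lit 301) (nat_lit 297) (nat_lit 263)))) (XT.nd (nat_lit 94) (nat_lit 588) (nat_lit 0) (XT.lf (nat_lit 84) (nat_lit 6277053410) (nat_lit 0) (nat_lit 863122338) (nat_lit 672) (nat_lit 80447527) (nat_lit 147) (nat_lit 5) (nat_lit 146) (nat_lit 5) (nat_lit 154) (nat_lit 5) (nat_lit 302) (nat_lit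 297) (nat_lit 262)) (XT.nd (nat_lit 94) (nat_lit 0) (nat_lit 0) (XT.lf (nat_lit 0) (nat_lit 1336853276) (nat_lit 672) (nat_lit 5409647632) (nat_lit 756) (nat_lit 541444136) (nat_lit 139) (nat_lit 5) (nat_lit 147) (nat_lit 5) (nat_lit 148) (nat_lit 5) (nat_lit 303) (nat_lit 297) (nat_lit 261)) (XT.lf (nat_lit 0) (nat_lit 2761994390) (nat_lit 672) (nat_lit 2592401322) (nat_lit 756) (nat_lit 2004361949) (nat_lit 139) (nat_lit 5) (nat_lit 147) (nat_lit 5) (nat_lit 148) (nat_lit 5) (nat_lit 304) (nat_lit 297) (nat_lit 260))))) (XT.nd (nat_lit 282) (nat_lit 672) (nat_lit 0) (XT.nd (nat_lit 94) (nat_lit 0) (nat_lit 0) (XT.lf (nat_lit 84) (nat_lit 285687895) (nat_lit 0) (nat_lit 3896858419) (nat_lit 756) (nat_lit 3251082298) (nat_lit 140) (nat_lit 5) (nat_lit 139) (nat_lit 5) (nat_lit 148) (nat_lit 5) (nat_lit 305) (nat_lit 297) (nat_lit 259)) (XT.nd (nat_lit 94) (nat_lit 0) (nat_lit 0) (XT.lf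 (nat_lit 84) (nat_lit 3276034201) (nat_lit 0) (nat_lit 2347792794) (nat_lit 756) (nat_lit 1888056881) (nat_lit 140) (nat_lit 5) (nat_lit 139) (nat_lit 5) (nat_lit 148) (nat_lit 5) (nat_lit 306) (nat_lit 297) (nat_lit 258)) (XT.lf (nat_lit 84) (nat_lit 6328119823) (nat_lit 0) (nat_lit 732814301) (nat_lit 756) (nat_lit 533475888) (nat_lit 140) (nat_lit 5) (nat_lit 139) (nat_lit 5) (nat_lit 148) (nat_lit 5) (nat_lit 307) (nat_lit 297) (nat_lit 257)))) (XT.nd (nat_lit 94) (nat_lit 0) (nat_lit 0) (XT.lf (nat_lit 0) (nat_lit 824981038) (nat_lit 756) (nat_lit 5898640300) (nat_lit 840) (nat_lit 956561154) (nat_lit 131) (nat_lit 5) (nat_lit 140) (nat_lit 5) (nat_lit 141) (nat_lit 5) (nat_lit 308) (nat_lit 297) (nat_lit 256)) (XT.nd (nat_lit 94) (nat_lit 0) (nat_lit 0) (XT.lf (nat_lit 0) (nat_lit 2188433205) (nat_lit 756) (nat_lit 2863522278) (nat_lit 840) (nat_lit 2717597974) (nat_lit 131)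 (nat_lit 5) (nat_lit 140) (nat_lit 5) (nat_lit 141) (nat_lit 5) (nat_lit 309) (nat_lit 297) (nat_lit 255)) (XT.lf (nat_lit 84) (nat_lit 238547029) (nat_lit 0) (nat_lit 3312498448) (nat_lit 840) (nat_lit 4312278271) (nat_lit 132) (nat_lit 5) (nat_lit 131) (nat_lit 5) (nat_lit 141) (nat_lit 5) (nat_lit 310) (nat_lit 297) (nat_lit 254))))))) (XT.nd (nat_lit 1128) (nat_lit 2604) (nat_lit 0) (XT.nd (nat_lit 564) (nat_lit 2016) (nat_lit 0) (XT.nd (nat_lit 282) (nat_lit 924) (nat_lit 0) (XT.nd (nat_lit 94) (nat_lit 672) (nat_lit 0) (XT.lf (nat_lit 84) (nat_lit 3465865490) (nat_lit 0) (nat_lit 1475502826) (nat_lit 840) (nat_lit 3019366766) (nat_lit 132) (nat_lit 5) (nat_lit 131) (nat_lit 5) (nat_lit 141) (nat_lit 5) (nat_lit 311) (nat_lit 297) (nat_lit 253)) (XT.nd (nat_lit 94) (nat_lit 756) (nat_lit 0) (XT.lf (nat_lit 0) (nat_lit 6335981184) (nat_lit 756) (nat_lit 1304489682) (nat_lit 84)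 (nat_lit 422173599) (nat_lit 132) (nat_lit 5) (nat_lit 141) (nat_lit 5) (nat_lit 133) (nat_lit 5) (nat_lit 312) (nat_lit 297) (nat_lit 252)) (XT.lf (nat_lit 0) (nat_lit 1978126867) (nat_lit 756) (nat_lit 5788745162) (nat_lit 840) (nat_lit 401323531) (nat_lit 123) (nat_lit 5) (nat_lit 132) (nat_lit 5) (nat_lit 133) (nat_lit 5) (nat_lit 313) (nat_lit 297) (nat_lit 251)))) (XT.nd (nat_lit 94) (nat_lit 840) (nat_lit 0) (XT.lf (nat_lit 0) (nat_lit 918017443) (nat_lit 840) (nat_lit 2928363944) (nat_lit 84) (nat_lit 4431448492) (nat_lit 122) (nat_lit 5) (nat_lit 132) (nat_lit 5) (nat_lit 123) (nat_lit 5) (nat_lit 314) (nat_lit 297) (nat_lit 250)) (XT.nd (nat_lit 94) (nat_lit 0) (nat_lit 0) (XT.lf (nat_lit 0) (nat_lit 407310899) (nat_lit 840) (nat_lit 1826500775) (nat_lit 924) (nat_lit 6158286907) (nat_lit 112) (nat_lit 5) (nat_lit 122) (nat_lit 5) (nat_lit 123) (nat_lit 5) (nat_lit 315) (nat_lit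 297) (nat_lit 249)) (XT.lf (nat_lit 0) (nat_lit 3584646301) (nat_lit 924) (nat_lit 4635806531) (nat_lit 84) (nat_lit 289871239) (nat_lit 112) (nat_lit 5) (nat_lit 123) (nat_lit 5) (nat_lit 113) (nat_lit 5) (nat_lit 316) (nat_lit 297) (nat_lit 248))))) (XT.nd (nat_lit 282) (nat_lit 1092) (nat_lit 0) (XT.nd (nat_lit 94) (nat_lit 924) (nat_lit 0) (XT.lf (nat_lit 0) (nat_lit 4958047816) (nat_lit 924) (nat_lit 1233175427) (nat_lit 84) (nat_lit 2441819012) (nat_lit 112) (nat_lit 5) (nat_lit 123) (nat_lit 5) (nat_lit 113) (nat_lit 5) (nat_lit 317) (nat_lit 297) (nat_lit 247)) (XT.nd (nat_lit 94) (nat_lit 0) (nat_lit 0) (XT.lf (nat_lit 0) (nat_lit 2290545742) (nat_lit 924) (nat_lit 4069354018) (nat_lit 1008) (nat_lit 2400325060) (nat_lit 101) (nat_lit 5) (nat_lit 112) (nat_lit 5) (nat_lit 113) (nat_lit 5) (nat_lit 318) (nat_lit 297) (nat_lit 246)) (XT.lf (nat_lit 0) (nat_lit 5919413248) (nat_lit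 924) (nat_lit 1862628196) (nat_lit 1008) (nat_lit 1110242353) (nat_lit 101) (nat_lit 5) (nat_lit 112) (nat_lit 5) (nat_lit 113) (nat_lit 5) (nat_lit 319) (nat_lit 297) (nat_lit 245)))) (XT.nd (nat_lit 94) (nat_lit 0) (nat_lit 0) (XT.lf (nat_lit 0) (nat_lit 190187746) (nat_lit 1092) (nat_lit 8421475617) (nat_lit 84) (nat_lit 417690120) (nat_lit 88) (nat_lit 5) (nat_lit 101) (nat_lit 5) (nat_lit 89) (nat_lit 5) (nat_lit 320) (nat_lit 297) (nat_lit 244)) (XT.nd (nat_lit 94) (nat_lit 0) (nat_lit 0) (XT.lf (nat_lit 0) (nat_lit 1523567393) (nat_lit 1092) (nat_lit 4869051393) (nat_lit 84) (nat_lit 2777411571) (nat_lit 88) (nat_lit 5) (nat_lit 101) (nat_lit 5) (nat_lit 89) (nat_lit 5) (nat_lit 321) (nat_lit 297) (nat_lit 243)) (XT.lf (nat_lit 0) (nat_lit 2864625372) (nat_lit 1092) (nat_lit 1236832714) (nat_lit 84) (nat_lit 5214844255) (nat_lit 88) (nat_lit 5) (nat_lit 101) (nat_lit 5) (nat_lit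 89) (nat_lit 5) (nat_lit 322) (nat_lit 297) (nat_lit 242)))))) (XT.nd (nat_lit 564) (nat_lit 924) (nat_lit 0) (XT.nd (nat_lit 282) (nat_lit 588) (nat_lit 0) (XT.nd (nat_lit 94) (nat_lit 504) (nat_lit 0) (XT.lf (nat_lit 0) (nat_lit 2529530430) (nat_lit 588) (nat_lit 1710174513) (nat_lit 672) (nat_lit 5227822940) (nat_lit 81) (nat_lit 5) (nat_lit 88) (nat_lit 5) (nat_lit 89) (nat_lit 5) (nat_lit 323) (nat_lit 297) (nat_lit 241)) (XT.nd (nat_lit 94) (nat_lit 504) (nat_lit 0) (XT.lf (nat_lit 0) (nat_lit 5646022372) (nat_lit 672) (nat_lit 3222113218) (nat_lit 84) (nat_lit 755838383) (nat_lit 81) (nat_lit 5) (nat_lit 89) (nat_lit 5) (nat_lit 82) (nat_lit 5) (nat_lit 324) (nat_lit 297) (nat_lit 240)) (XT.lf (nat_lit 0) (nat_lit 573622260) (nat_lit 504) (nat_lit 6514531015) (nat_lit 588) (nat_lit 2697531950) (nat_lit 75) (nat_lit 5) (nat_lit 81) (nat_lit 5) (nat_lit 82) (nat_lit 5) (nat_lit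 325) (nat_lit 297) (nat_lit 239)))) (XT.nd (nat_lit 94) (nat_lit 588) (nat_lit 0) (XT.lf (nat_lit 0) (nat_lit 4526223053) (nat_lit 504) (nat_lit 4052077855) (nat_lit 588) (nat_lit 1374174834) (nat_lit 75) (nat_lit 5) (nat_lit 81) (nat_lit 5) (nat_lit 82) (nat_lit 5) (nat_lit 326) (nat_lit 297) (nat_lit 238)) (XT.nd (nat_lit 94) (nat_lit 588) (nat_lit 0) (XT.lf (nat_lit 0) (nat_lit 8573120141) (nat_lit 504) (nat_lit 1512113098) (nat_lit 588) (nat_lit 40279002) (nat_lit 75) (nat_lit 5) (nat_lit 81) (nat_lit 5) (nat_lit 82) (nat_lit 5) (nat_lit 327) (nat_lit 297) (nat_lit 237)) (XT.lf (nat_lit 0) (nat_lit 1314767466) (nat_lit 588) (nat_lit 7865638530) (nat_lit 84) (nat_lit 1123042819) (nat_lit 68) (nat_lit 5) (nat_lit 75) (nat_lit 5) (nat_lit 69) (nat_lit 5) (nat_lit 328) (nat_lit 297) (nat_lit 236))))) (XT.nd (nat_lit 282) (nat_lit 504) (nat_lit 0) (XT.nd (nat_lit 94) (nat_lit 420) (nat_lit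 0) (XT.lf (nat_lit 0) (nat_lit 2714445695) (nat_lit 588) (nat_lit 3946708054) (nat_lit 84) (nat_lit 3825777016) (nat_lit 68) (nat_lit 5) (nat_lit 75) (nat_lit 5) (nat_lit 69) (nat_lit 5) (nat_lit 329) (nat_lit 297) (nat_lit 235)) (XT.nd (nat_lit 94) (nat_lit 0) (nat_lit 0) (XT.lf (nat_lit 0) (nat_lit 67043808) (nat_lit 420) (nat_lit 4063615471) (nat_lit 504) (nat_lit 6546418817) (nat_lit 63) (nat_lit 5) (nat_lit 68) (nat_lit 5) (nat_lit 69) (nat_lit 5) (nat_lit 330) (nat_lit 297) (nat_lit 234)) (XT.lf (nat_lit 0) (nat_lit 4261157513) (nat_lit 420) (nat_lit 1343846105) (nat_lit 504) (nat_lit 5267815888) (nat_lit 63) (nat_lit 5) (nat_lit 68) (nat_lit 5) (nat_lit 69) (nat_lit 5) (nat_lit 331) (nat_lit 297) (nat_lit 233)))) (XT.nd (nat_lit 188) (nat_lit 84) (nat_lit 0) (XT.nd (nat_lit 94) (nat_lit 420) (nat_lit 0) (XT.lf (nat_lit 0) (nat_lit 7113374442) (nat_lit 504) (nat_lit 2531664469)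 (nat_lit 84) (nat_lit 1430088370) (nat_lit 63) (nat_lit 5) (nat_lit 69) (nat_lit 5) (nat_lit 64) (nat_lit 5) (nat_lit 332) (nat_lit 297) (nat_lit 232)) (XT.lf (nat_lit 0) (nat_lit 1667666820) (nat_lit 420) (nat_lit 7005748567) (nat_lit 504) (nat_lit 2610271240) (nat_lit 58) (nat_lit 5) (nat_lit 63) (nat_lit 5) (nat_lit 64) (nat_lit 5) (nat_lit 333) (nat_lit 297) (nat_lit 231))) (XT.nd (nat_lit 94) (nat_lit 84) (nat_lit 0) (XT.lf (nat_lit 0) (nat_lit 6024119161) (nat_lit 420) (nat_lit 4259244499) (nat_lit 504) (nat_lit 1215428006) (nat_lit 58) (nat_lit 5) (nat_lit 63) (nat_lit 5) (nat_lit 64) (nat_lit 5) (nat_lit 334) (nat_lit 297) (nat_lit 230)) (XT.lf (nat_lit 0) (nat_lit 193669377) (nat_lit 504) (nat_lit 1233701175) (nat_lit 84) (nat_lit 10294006120) (nat_lit 57) (nat_lit 5) (nat_lit 63) (nat_lit 5) (nat_lit 58) (nat_lit 5) (nat_lit 335) (nat_lit 297) (nat_lit 229))))))))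
noncomputable def xc110 : XT := (XT.nd (nat_lit 2256) (nat_lit 1260) (nat_lit 0) (XT.nd (nat_lit 1128) (nat_lit 924) (nat_lit 0) (XT.nd (nat_lit 564) (nat_lit 672) (nat_lit 0) (XT.nd (nat_lit 282) (nat_lit 756) (nat_lit 0) (XT.nd (nat_lit 94) (nat_lit 0) (nat_lit 0) (XT.lf (nat_lit 0) (nat_lit 1644060725) (nat_lit 420) (nat_lit 8801276816) (nat_lit 84) (nat_lit 1504547330) (nat_lit 53) (nat_lit 5) (nat_lit 58) (nat_lit 5) (nat_lit 54) (nat_lit 5) (nat_lit 336) (nat_lit 297) (nat_lit 228)) (XT.nd (nat_lit 94) (nat_lit 0) (nat_lit 0) (XT.lf (nat_lit 0) (nat_lit 3143698485) (nat_lit 420) (nat_lit 4533189458) (nat_lit 84) (nat_lit 4508569603) (nat_lit 53) (nat_lit 5) (nat_lit 58) (nat_lit 5) (nat_lit 54) (nat_lit 5) (nat_lit 337) (nat_lit 297) (nat_lit 227)) (XT.lf (nat_lit 0) (nat_lit 4667202923) (nat_lit 420) (nat_lit 158304653) (nat_lit 84) (nat_lit 7603636804) (nat_lit 53) (nat_lit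 5) (nat_lit 58) (nat_lit 5) (nat_lit 54) (nat_lit 5) (nat_lit 338) (nat_lit 297) (nat_lit 226)))) (XT.nd (nat_lit 94) (nat_lit 336) (nat_lit 0) (XT.lf (nat_lit 0) (nat_lit 4416436808) (nat_lit 420) (nat_lit 1843368896) (nat_lit 504) (nat_lit 6420008652) (nat_lit 48) (nat_lit 5) (nat_lit 53) (nat_lit 5) (nat_lit 54) (nat_lit 5) (nat_lit 339) (nat_lit 297) (nat_lit 225)) (XT.nd (nat_lit 94) (nat_lit 336) (nat_lit 0) (XT.lf (nat_lit 0) (nat_lit 7894107650) (nat_lit 504) (nat_lit 3839320372) (nat_lit 84) (nat_lit 1205168494) (nat_lit 48) (nat_lit 5) (nat_lit 54) (nat_lit 5) (nat_lit 49) (nat_lit 5) (nat_lit 340) (nat_lit 297) (nat_lit 224)) (XT.lf (nat_lit 0) (nat_lit 692503464) (nat_lit 336) (nat_lit 8891386026) (nat_lit 420) (nat_lit 3621462602) (nat_lit 44) (nat_lit 5) (nat_lit 48) (nat_lit 5) (nat_lit 49) (nat_lit 5) (nat_lit 341) (nat_lit 297) (nat_lit 223))))) (XT.nd (nat_lit 282)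 (nat_lit 252) (nat_lit 0) (XT.nd (nat_lit 94) (nat_lit 420) (nat_lit 0) (XT.lf (nat_lit 0) (nat_lit 5421975049) (nat_lit 336) (nat_lit 5923635885) (nat_lit 420) (nat_lit 2134257374) (nat_lit 44) (nat_lit 5) (nat_lit 48) (nat_lit 5) (nat_lit 49) (nat_lit 5) (nat_lit 342) (nat_lit 297) (nat_lit 222)) (XT.nd (nat_lit 94) (nat_lit 420) (nat_lit 0) (XT.lf (nat_lit 0) (nat_lit 10274558442) (nat_lit 336) (nat_lit 2867485976) (nat_lit 420) (nat_lit 621561581) (nat_lit 44) (nat_lit 5) (nat_lit 48) (nat_lit 5) (nat_lit 49) (nat_lit 5) (nat_lit 343) (nat_lit 297) (nat_lit 221)) (XT.lf (nat_lit 0) (nat_lit 914567359) (nat_lit 420) (nat_lit 12845882121) (nat_lit 84) (nat_lit 295631943) (nat_lit 39) (nat_lit 5) (nat_lit 44) (nat_lit 5) (nat_lit 40) (nat_lit 5) (nat_lit 344) (nat_lit 297) (nat_lit 220)))) (XT.nd (nat_lit 94) (nat_lit 252) (nat_lit 0) (XT.lf (nat_lit 0) (nat_lit 2532255872) (nat_lit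 420) (nat_lit 8287158670) (nat_lit 84) (nat_lit 3536645854) (nat_lit 39) (nat_lit 5) (nat_lit 44) (nat_lit 5) (nat_lit 40) (nat_lit 5) (nat_lit 345) (nat_lit 297) (nat_lit 219)) (XT.nd (nat_lit 94) (nat_lit 252) (nat_lit 0) (XT.lf (nat_lit 0) (nat_lit 4181404328) (nat_lit 420) (nat_lit 3610097938) (nat_lit 84) (nat_lit 6874499457) (nat_lit 39) (nat_lit 5) (nat_lit 44) (nat_lit 5) (nat_lit 40) (nat_lit 5) (nat_lit 346) (nat_lit 297) (nat_lit 218)) (XT.lf (nat_lit 0) (nat_lit 1214121425) (nat_lit 252) (nat_lit 4661472716) (nat_lit 336) (nat_lit 9110226788) (nat_lit 36) (nat_lit 5) (nat_lit 39) (nat_lit 5) (nat_lit 40) (nat_lit 5) (nat_lit 347) (nat_lit 297) (nat_lit 217)))))) (XT.nd (nat_lit 564) (nat_lit 504) (nat_lit 0) (XT.nd (nat_lit 282) (nat_lit 84) (nat_lit 0) (XT.nd (nat_lit 94) (nat_lit 336) (nat_lit 0) (XT.lf (nat_lit 0) (nat_lit 6242357366) (nat_lit 252) (nat_lit 1399828135)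 (nat_lit 336) (nat_lit 7672831408) (nat_lit 36) (nat_lit 5) (nat_lit 39) (nat_lit 5) (nat_lit 40) (nat_lit 5) (nat_lit 348) (nat_lit 297) (nat_lit 216)) (XT.nd (nat_lit 94) (nat_lit 336) (nat_lit 0) (XT.lf (nat_lit 0) (nat_lit 9465707492) (nat_lit 336) (nat_lit 4269395254) (nat_lit 84) (nat_lit 1919324405) (nat_lit 36) (nat_lit 5) (nat_lit 40) (nat_lit 5) (nat_lit 37) (nat_lit 5) (nat_lit 349) (nat_lit 297) (nat_lit 215)) (XT.lf (nat_lit 0) (nat_lit 660447082) (nat_lit 336) (nat_lit 10689394425) (nat_lit 420) (nat_lit 4654465083) (nat_lit 32) (nat_lit 5) (nat_lit 36) (nat_lit 5) (nat_lit 37) (nat_lit 5) (nat_lit 350) (nat_lit 297) (nat_lit 214)))) (XT.nd (nat_lit 94) (nat_lit 84) (nat_lit 0) (XT.lf (nat_lit 0) (nat_lit 5812526506) (nat_lit 336) (nat_lit 7507930506) (nat_lit 420) (nat_lit 3043776826) (nat_lit 32) (nat_lit 5) (nat_lit 36) (nat_lit 5) (nat_lit 37) (nat_lit 5) (nat_lit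 351) (nat_lit 297) (nat_lit 213)) (XT.nd (nat_lit 94) (nat_lit 84) (nat_lit 0) (XT.lf (nat_lit 0) (nat_lit 11103857773) (nat_lit 336) (nat_lit 4232309263) (nat_lit 420) (nat_lit 1399717288) (nat_lit 32) (nat_lit 5) (nat_lit 36) (nat_lit 5) (nat_lit 37) (nat_lit 5) (nat_lit 352) (nat_lit 297) (nat_lit 212)) (XT.lf (nat_lit 0) (nat_lit 273619783) (nat_lit 420) (nat_lit 583001661) (nat_lit 84) (nat_lit 16262897145) (nat_lit 31) (nat_lit 5) (nat_lit 36) (nat_lit 5) (nat_lit 32) (nat_lit 5) (nat_lit 353) (nat_lit 297) (nat_lit 211))))) (XT.nd (nat_lit 282) (nat_lit 252) (nat_lit 0) (XT.nd (nat_lit 94) (nat_lit 0) (nat_lit 0) (XT.lf (nat_lit 0) (nat_lit 2027550862) (nat_lit 336) (nat_lit 12857354059) (nat_lit 84) (nat_lit 2627968695) (nat_lit 28) (nat_lit 5) (nat_lit 32) (nat_lit 5) (nat_lit 29) (nat_lit 5) (nat_lit 354) (nat_lit 297) (nat_lit 210)) (XT.nd (nat_lit 94) (nat_lit 0) (nat_lit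 0) (XT.lf (nat_lit 0) (nat_lit 3835719623) (nat_lit 336) (nat_lit 7878175193) (nat_lit 84) (nat_lit 6204593644) (nat_lit 28) (nat_lit 5) (nat_lit 32) (nat_lit 5) (nat_lit 29) (nat_lit 5) (nat_lit 355) (nat_lit 297) (nat_lit 209)) (XT.lf (nat_lit 0) (nat_lit 5685350943) (nat_lit 336) (nat_lit 2763955062) (nat_lit 84) (nat_lit 9887883471) (nat_lit 28) (nat_lit 5) (nat_lit 32) (nat_lit 5) (nat_lit 29) (nat_lit 5) (nat_lit 356) (nat_lit 297) (nat_lit 208)))) (XT.nd (nat_lit 94) (nat_lit 0) (nat_lit 0) (XT.lf (nat_lit 0) (nat_lit 2541274336) (nat_lit 252) (nat_lit 5062104291) (nat_lit 336) (nat_lit 11165206805) (nat_lit 25) (nat_lit 5) (nat_lit 28) (nat_lit 5) (nat_lit 29) (nat_lit 5) (nat_lit 357) (nat_lit 297) (nat_lit 207)) (XT.nd (nat_lit 94) (nat_lit 0) (nat_lit 0) (XT.lf (nat_lit 0) (nat_lit 8051017321) (nat_lit 252) (nat_lit 1544787481) (nat_lit 336) (nat_lit 9617142991) (nat_lit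 25) (nat_lit 5) (nat_lit 28) (nat_lit 5) (nat_lit 29) (nat_lit 5) (nat_lit 358) (nat_lit 297) (nat_lit 206)) (XT.lf (nat_lit 0) (nat_lit 11657108874) (nat_lit 336) (nat_lit 5978586063) (nat_lit 84) (nat_lit 2035224521) (nat_lit 25) (nat_lit 5) (nat_lit 29) (nat_lit 5) (nat_lit 26) (nat_lit 5) (nat_lit 359) (nat_lit 297) (nat_lit 205))))))) (XT.nd (nat_lit 1128) (nat_lit 588) (nat_lit 0) (XT.nd (nat_lit 564) (nat_lit 168) (nat_lit 0) (XT.nd (nat_lit 282) (nat_lit 336) (nat_lit 0) (XT.nd (nat_lit 94) (nat_lit 168) (nat_lit 0) (XT.lf (nat_lit 0) (nat_lit 13784983227) (nat_lit 336) (nat_lit 668217484) (nat_lit 84) (nat_lit 5689857695) (nat_lit 25) (nat_lit 5) (nat_lit 29) (nat_lit 5) (nat_lit 26) (nat_lit 5) (nat_lit 360) (nat_lit 297) (nat_lit 204)) (XT.nd (nat_lit 94) (nat_lit 0) (nat_lit 0) (XT.lf (nat_lit 0) (nat_lit 4887930476) (nat_lit 168) (nat_lit 11126645179) (nat_lit 252) (nat_lit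 4614200967) (nat_lit 23) (nat_lit 5) (nat_lit 25) (nat_lit 5) (nat_lit 26) (nat_lit 5) (nat_lit 361) (nat_lit 297) (nat_lit 203)) (XT.lf (nat_lit 0) (nat_lit 10613337310) (nat_lit 168) (nat_lit 7694400858) (nat_lit 252) (nat_lit 2822035690) (nat_lit 23) (nat_lit 5) (nat_lit 25) (nat_lit 5) (nat_lit 26) (nat_lit 5) (nat_lit 362) (nat_lit 297) (nat_lit 202)))) (XT.nd (nat_lit 94) (nat_lit 336) (nat_lit 0) (XT.lf (nat_lit 0) (nat_lit 16499599775) (nat_lit 168) (nat_lit 4160243358) (nat_lit 252) (nat_lit 986883682) (nat_lit 23) (nat_lit 5) (nat_lit 25) (nat_lit 5) (nat_lit 26) (nat_lit 5) (nat_lit 363) (nat_lit 297) (nat_lit 201)) (XT.nd (nat_lit 94) (nat_lit 0) (nat_lit 0) (XT.lf (nat_lit 0) (nat_lit 370697536) (nat_lit 252) (nat_lit 507954171) (nat_lit 336) (nat_lit 21301077033) (nat_lit 19) (nat_lit 5) (nat_lit 22) (nat_lit 5) (nat_lit 23) (nat_lit 5) (nat_lit 364) (nat_lit 297) (nat_lit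 200)) (XT.lf (nat_lit 0) (nat_lit 2856315543) (nat_lit 336) (nat_lit 16618475784) (nat_lit 84) (nat_lit 3251874867) (nat_lit 19) (nat_lit 5) (nat_lit 23) (nat_lit 5) (nat_lit 20) (nat_lit 5) (nat_lit 365) (nat_lit 297) (nat_lit 199))))) (XT.nd (nat_lit 282) (nat_lit 168) (nat_lit 0) (XT.nd (nat_lit 94) (nat_lit 0) (nat_lit 0) (XT.lf (nat_lit 0) (nat_lit 4889043191) (nat_lit 336) (nat_lit 11288328855) (nat_lit 84) (nat_lit 7113422962) (nat_lit 19) (nat_lit 5) (nat_lit 23) (nat_lit 5) (nat_lit 20) (nat_lit 5) (nat_lit 366) (nat_lit 297) (nat_lit 198)) (XT.nd (nat_lit 94) (nat_lit 0) (nat_lit 0) (XT.lf (nat_lit 0) (nat_lit 6973690397) (nat_lit 336) (nat_lit 5808583194) (nat_lit 84) (nat_lit 11090523626) (nat_lit 19) (nat_lit 5) (nat_lit 23) (nat_lit 5) (nat_lit 20) (nat_lit 5) (nat_lit 367) (nat_lit 297) (nat_lit 197)) (XT.lf (nat_lit 0) (nat_lit 9112200272) (nat_lit 336) (nat_lit 174131102)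 (nat_lit 84) (nat_lit 15186883932) (nat_lit 19) (nat_lit 5) (nat_lit 23) (nat_lit 5) (nat_lit 20) (nat_lit 5) (nat_lit 368) (nat_lit 297) (nat_lit 196)))) (XT.nd (nat_lit 94) (nat_lit 0) (nat_lit 0) (XT.lf (nat_lit 0) (nat_lit 5735843787) (nat_lit 168) (nat_lit 5627622625) (nat_lit 252) (nat_lit 13727378612) (nat_lit 17) (nat_lit 5) (nat_lit 19) (nat_lit 5) (nat_lit 20) (nat_lit 5) (nat_lit 369) (nat_lit 297) (nat_lit 195)) (XT.nd (nat_lit 94) (nat_lit 0) (nat_lit 0) (XT.lf (nat_lit 0) (nat_lit 11818158623) (nat_lit 168) (nat_lit 1857912326) (nat_lit 252) (nat_lit 12051850116) (nat_lit 17) (nat_lit 5) (nat_lit 19) (nat_lit 5) (nat_lit 20) (nat_lit 5) (nat_lit 370) (nat_lit 297) (nat_lit 194)) (XT.lf (nat_lit 0) (nat_lit 16070489803) (nat_lit 252) (nat_lit 8330272886) (nat_lit 84) (nat_lit 1983706636) (nat_lit 17) (nat_lit 5) (nat_lit 20) (nat_lit 5) (nat_lit 18) (nat_lit 5) (nat_lit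 371) (nat_lit 297) (nat_lit 193)))))) (XT.nd (nat_lit 564) (nat_lit 336) (nat_lit 0) (XT.nd (nat_lit 282) (nat_lit 84) (nat_lit 0) (XT.nd (nat_lit 94) (nat_lit 168) (nat_lit 0) (XT.lf (nat_lit 0) (nat_lit 18548437447) (nat_lit 252) (nat_lit 2610814527) (nat_lit 84) (nat_lit 5901865838) (nat_lit 17) (nat_lit 5) (nat_lit 20) (nat_lit 5) (nat_lit 18) (nat_lit 5) (nat_lit 372) (nat_lit 297) (nat_lit 192)) (XT.nd (nat_lit 94) (nat_lit 0) (nat_lit 0) (XT.lf (nat_lit 0) (nat_lit 3339661221) (nat_lit 168) (nat_lit 17787261500) (nat_lit 252) (nat_lit 6631118839) (nat_lit 15) (nat_lit 5) (nat_lit 17) (nat_lit 5) (nat_lit 18) (nat_lit 5) (nat_lit 373) (nat_lit 297) (nat_lit 191)) (XT.lf (nat_lit 0) (nat_lit 9516514474) (nat_lit 168) (nat_lit 14286819134) (nat_lit 252) (nat_lit 4672712048) (nat_lit 15) (nat_lit 5) (nat_lit 17) (nat_lit 5) (nat_lit 18) (nat_lit 5) (nat_lit 374) (nat_lit 297) (nat_lit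 190)))) (XT.nd (nat_lit 94) (nat_lit 84) (nat_lit 0) (XT.lf (nat_lit 0) (nat_lit 15871819002) (nat_lit 168) (nat_lit 10681913648) (nat_lit 252) (nat_lit 2662886099) (nat_lit 15) (nat_lit 5) (nat_lit 17) (nat_lit 5) (nat_lit 18) (nat_lit 5) (nat_lit 375) (nat_lit 297) (nat_lit 189)) (XT.nd (nat_lit 94) (nat_lit 84) (nat_lit 0) (XT.lf (nat_lit 0) (nat_lit 22411498616) (nat_lit 168) (nat_lit 6969184891) (nat_lit 252) (nat_lit 599767626) (nat_lit 15) (nat_lit 5) (nat_lit 17) (nat_lit 5) (nat_lit 18) (nat_lit 5) (nat_lit 376) (nat_lit 297) (nat_lit 188)) (XT.lf (nat_lit 0) (nat_lit 1487970685) (nat_lit 252) (nat_lit 1641670162) (nat_lit 84) (nat_lit 27638146934) (nat_lit 14) (nat_lit 5) (nat_lit 17) (nat_lit 5) (nat_lit 15) (nat_lit 5) (nat_lit 377) (nat_lit 297) (nat_lit 187))))) (XT.nd (nat_lit 282) (nat_lit 168) (nat_lit 0) (XT.nd (nat_lit 94) (nat_lit 0) (nat_lit 0) (XT.lf (nat_lit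 0) (nat_lit 3673435757) (nat_lit 252) (nat_lit 27044282288) (nat_lit 84) (nat_lit 860242973) (nat_lit 12) (nat_lit 5) (nat_lit 15) (nat_lit 5) (nat_lit 13) (nat_lit 5) (nat_lit 378) (nat_lit 297) (nat_lit 186)) (XT.nd (nat_lit 94) (nat_lit 0) (nat_lit 0) (XT.lf (nat_lit 0) (nat_lit 5967756031) (nat_lit 252) (nat_lit 21521848148) (nat_lit 84) (nat_lit 4922399043) (nat_lit 12) (nat_lit 5) (nat_lit 15) (nat_lit 5) (nat_lit 13) (nat_lit 5) (nat_lit 379) (nat_lit 297) (nat_lit 185)) (XT.lf (nat_lit 0) (nat_lit 8325233204) (nat_lit 252) (nat_lit 15840062964) (nat_lit 84) (nat_lit 9106878580) (nat_lit 12) (nat_lit 5) (nat_lit 15) (nat_lit 5) (nat_lit 13) (nat_lit 5) (nat_lit 380) (nat_lit 297) (nat_lit 184)))) (XT.nd (nat_lit 188) (nat_lit 168) (nat_lit 0) (XT.nd (nat_lit 94) (nat_lit 0) (nat_lit 0) (XT.lf (nat_lit 0) (nat_lit 10748064693) (nat_lit 252) (nat_lit 9993630719) (nat_lit 84) (nat_lit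 13417581958) (nat_lit 12) (nat_lit 5) (nat_lit 15) (nat_lit 5) (nat_lit 13) (nat_lit 5) (nat_lit 381) (nat_lit 297) (nat_lit 183)) (XT.lf (nat_lit 0) (nat_lit 13238508829) (nat_lit 252) (nat_lit 3977101924) (nat_lit 84) (nat_lit 17858527204) (nat_lit 12) (nat_lit 5) (nat_lit 15) (nat_lit 5) (nat_lit 13) (nat_lit 5) (nat_lit 382) (nat_lit 297) (nat_lit 182))) (XT.nd (nat_lit 94) (nat_lit 0) (nat_lit 0) (XT.lf (nat_lit 0) (nat_lit 2260679101) (nat_lit 168) (nat_lit 13560634085) (nat_lit 252) (nat_lit 20195600859) (nat_lit 10) (nat_lit 5) (nat_lit 12) (nat_lit 5) (nat_lit 13) (nat_lit 5) (nat_lit 383) (nat_lit 297) (nat_lit 181)) (XT.lf (nat_lit 0) (nat_lit 8765445420) (nat_lit 168) (nat_lit 9753094536) (nat_lit 252) (nat_lit 18469335144) (nat_lit 10) (nat_lit 5) (nat_lit 12) (nat_lit 5) (nat_lit 13) (nat_lit 5) (nat_lit 384) (nat_lit 297) (nat_lit 180))))))))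
noncomputable def xc111 : XT := (XT.nd (nat_lit 2256) (nat_lit 84) (nat_lit 0) (XT.nd (nat_lit 1128) (nat_lit 84) (nat_lit 0) (XT.nd (nat_lit 564) (nat_lit 252) (nat_lit 0) (XT.nd (nat_lit 282) (nat_lit 84) (nat_lit 0) (XT.nd (nat_lit 94) (nat_lit 0) (nat_lit 0) (XT.lf (nat_lit 0) (nat_lit 15461482785) (nat_lit 168) (nat_lit 5830955870) (nat_lit 252) (nat_lit 16696735710) (nat_lit 10) (nat_lit 5) (nat_lit 12) (nat_lit 5) (nat_lit 13) (nat_lit 5) (nat_lit 385) (nat_lit 297) (nat_lit 179)) (XT.nd (nat_lit 94) (nat_lit 0) (nat_lit 0) (XT.lf (nat_lit 0) (nat_lit 22355032603) (nat_lit 168) (nat_lit 1790562241) (nat_lit 252) (nat_lit 14876150308) (nat_lit 10) (nat_lit 5) (nat_lit 12) (nat_lit 5) (nat_lit 13) (nat_lit 5) (nat_lit 386) (nat_lit 297) (nat_lit 178)) (XT.lf (nat_lit 0) (nat_lit 27104197034) (nat_lit 252) (nat_lit 10657558613) (nat_lit 84) (nat_lit 2324064879) (nat_lit 10) (nat_lit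 5) (nat_lit 13) (nat_lit 5) (nat_lit 11) (nat_lit 4) (nat_lit 387) (nat_lit 297) (nat_lit 177)))) (XT.nd (nat_lit 94) (nat_lit 84) (nat_lit 0) (XT.lf (nat_lit 0) (nat_lit 30166463503) (nat_lit 252) (nat_lit 4490089160) (nat_lit 84) (nat_lit 6525980378) (nat_lit 10) (nat_lit 5) (nat_lit 13) (nat_lit 5) (nat_lit 11) (nat_lit 4) (nat_lit 388) (nat_lit 297) (nat_lit 176)) (XT.nd (nat_lit 94) (nat_lit 0) (nat_lit 0) (XT.lf (nat_lit 0) (nat_lit 1897436249) (nat_lit 84) (nat_lit 31438872557) (nat_lit 168) (nat_lit 8976563273) (nat_lit 9) (nat_lit 5) (nat_lit 10) (nat_lit 5) (nat_lit 11) (nat_lit 4) (nat_lit 389) (nat_lit 297) (nat_lit 175)) (XT.lf (nat_lit 0) (nat_lit 8568892578) (nat_lit 84) (nat_lit 28076313518) (nat_lit 168) (nat_lit 6831801067) (nat_lit 9) (nat_lit 5) (nat_lit 10) (nat_lit 5) (nat_lit 11) (nat_lit 4) (nat_lit 390) (nat_lit 297) (nat_lit 174))))) (XT.nd (nat_lit 282) (nat_lit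 252) (nat_lit 0) (XT.nd (nat_lit 94) (nat_lit 0) (nat_lit 0) (XT.lf (nat_lit 0) (nat_lit 15438172879) (nat_lit 84) (nat_lit 24612608610) (nat_lit 168) (nat_lit 4626651098) (nat_lit 9) (nat_lit 5) (nat_lit 10) (nat_lit 5) (nat_lit 11) (nat_lit 4) (nat_lit 391) (nat_lit 297) (nat_lit 173)) (XT.nd (nat_lit 94) (nat_lit 0) (nat_lit 0) (XT.lf (nat_lit 0) (nat_lit 22511680042) (nat_lit 84) (nat_lit 21044529298) (nat_lit 168) (nat_lit 2359057936) (nat_lit 9) (nat_lit 5) (nat_lit 10) (nat_lit 5) (nat_lit 11) (nat_lit 4) (nat_lit 392) (nat_lit 297) (nat_lit 172)) (XT.lf (nat_lit 0) (nat_lit 29796007317) (nat_lit 84) (nat_lit 17368749757) (nat_lit 168) (nat_lit 26907947) (nat_lit 9) (nat_lit 5) (nat_lit 10) (nat_lit 5) (nat_lit 11) (nat_lit 4) (nat_lit 393) (nat_lit 297) (nat_lit 171)))) (XT.nd (nat_lit 94) (nat_lit 168) (nat_lit 0) (XT.lf (nat_lit 0) (nat_lit 2324182714) (nat_lit 168) (nat_lit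 11233401362) (nat_lit 84) (nat_lit 34949502044) (nat_lit 8) (nat_lit 5) (nat_lit 10) (nat_lit 5) (nat_lit 9) (nat_lit 5) (nat_lit 394) (nat_lit 297) (nat_lit 170)) (XT.nd (nat_lit 94) (nat_lit 168) (nat_lit 0) (XT.lf (nat_lit 0) (nat_lit 4742308360) (nat_lit 168) (nat_lit 4888473232) (nat_lit 84) (nat_lit 40232675726) (nat_lit 8) (nat_lit 5) (nat_lit 10) (nat_lit 5) (nat_lit 9) (nat_lit 5) (nat_lit 395) (nat_lit 297) (nat_lit 169)) (XT.lf (nat_lit 0) (nat_lit 1679138656) (nat_lit 168) (nat_lit 5567783678) (nat_lit 252) (nat_lit 44014612459) (nat_lit 6) (nat_lit 5) (nat_lit 8) (nat_lit 5) (nat_lit 9) (nat_lit 5) (nat_lit 396) (nat_lit 297) (nat_lit 168)))))) (XT.nd (nat_lit 564) (nat_lit 84) (nat_lit 0) (XT.nd (nat_lit 282) (nat_lit 0) (nat_lit 0) (XT.nd (nat_lit 94) (nat_lit 0) (nat_lit 0) (XT.lf (nat_lit 0) (nat_lit 8546219034) (nat_lit 168) (nat_lit 1328932401) (nat_lit 252) (nat_lit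 42826391707) (nat_lit 6) (nat_lit 5) (nat_lit 8) (nat_lit 5) (nat_lit 9) (nat_lit 5) (nat_lit 397) (nat_lit 297) (nat_lit 167)) (XT.nd (nat_lit 94) (nat_lit 0) (nat_lit 0) (XT.lf (nat_lit 0) (nat_lit 12610098304) (nat_lit 252) (nat_lit 38597851392) (nat_lit 84) (nat_lit 2977474669) (nat_lit 6) (nat_lit 5) (nat_lit 9) (nat_lit 5) (nat_lit 7) (nat_lit 4) (nat_lit 398) (nat_lit 297) (nat_lit 166)) (XT.lf (nat_lit 0) (nat_lit 15438640903) (nat_lit 252) (nat_lit 32889126547) (nat_lit 84) (nat_lit 7387279956) (nat_lit 6) (nat_lit 5) (nat_lit 9) (nat_lit 5) (nat_lit 7) (nat_lit 4) (nat_lit 399) (nat_lit 297) (nat_lit 165)))) (XT.nd (nat_lit 94) (nat_lit 0) (nat_lit 0) (XT.lf (nat_lit 0) (nat_lit 18350232556) (nat_lit 252) (nat_lit 27010645269) (nat_lit 84) (nat_lit 11931368884) (nat_lit 6) (nat_lit 5) (nat_lit 9) (nat_lit 5) (nat_lit 7) (nat_lit 4) (nat_lit 400) (nat_lit 297) (nat_lit 164))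 (XT.nd (nat_lit 94) (nat_lit 0) (nat_lit 0) (XT.lf (nat_lit 0) (nat_lit 21347587173) (nat_lit 252) (nat_lit 20956928199) (nat_lit 84) (nat_lit 16613977021) (nat_lit 6) (nat_lit 5) (nat_lit 9) (nat_lit 5) (nat_lit 7) (nat_lit 4) (nat_lit 401) (nat_lit 297) (nat_lit 163)) (XT.lf (nat_lit 0) (nat_lit 24433498600) (nat_lit 252) (nat_lit 14722332638) (nat_lit 84) (nat_lit 21439469048) (nat_lit 6) (nat_lit 5) (nat_lit 9) (nat_lit 5) (nat_lit 7) (nat_lit 4) (nat_lit 402) (nat_lit 297) (nat_lit 162))))) (XT.nd (nat_lit 282) (nat_lit 0) (nat_lit 0) (XT.nd (nat_lit 94) (nat_lit 84) (nat_lit 0) (XT.lf (nat_lit 0) (nat_lit 27610843232) (nat_lit 252) (nat_lit 8301047289) (nat_lit 84) (nat_lit 26412342829) (nat_lit 6) (nat_lit 5) (nat_lit 9) (nat_lit 5) (nat_lit 7) (nat_lit 4) (nat_lit 403) (nat_lit 297) (nat_lit 161)) (XT.nd (nat_lit 94) (nat_lit 84) (nat_lit 0) (XT.lf (nat_lit 0) (nat_lit 30882582686)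 (nat_lit 252) (nat_lit 1687086843) (nat_lit 84) (nat_lit 31537233603) (nat_lit 6) (nat_lit 5) (nat_lit 9) (nat_lit 5) (nat_lit 7) (nat_lit 4) (nat_lit 404) (nat_lit 297) (nat_lit 160)) (XT.lf (nat_lit 0) (nat_lit 5231108788) (nat_lit 84) (nat_lit 29072551025) (nat_lit 168) (nat_lit 31639702763) (nat_lit 5) (nat_lit 5) (nat_lit 6) (nat_lit 5) (nat_lit 7) (nat_lit 4) (nat_lit 405) (nat_lit 297) (nat_lit 159)))) (XT.nd (nat_lit 94) (nat_lit 0) (nat_lit 0) (XT.lf (nat_lit 0) (nat_lit 12393403764) (nat_lit 84) (nat_lit 25451075640) (nat_lit 168) (nat_lit 29991860354) (nat_lit 5) (nat_lit 5) (nat_lit 6) (nat_lit 5) (nat_lit 7) (nat_lit 4) (nat_lit 406) (nat_lit 297) (nat_lit 158)) (XT.nd (nat_lit 94) (nat_lit 0) (nat_lit 0) (XT.lf (nat_lit 0) (nat_lit 19771784126) (nat_lit 84) (nat_lit 21719477509) (nat_lit 168) (nat_lit 28296866984) (nat_lit 5) (nat_lit 5) (nat_lit 6) (nat_lit 5) (nat_lit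 7) (nat_lit 4) (nat_lit 407) (nat_lit 297) (nat_lit 157)) (XT.lf (nat_lit 0) (nat_lit 27373127299) (nat_lit 84) (nat_lit 17874278391) (nat_lit 168) (nat_lit 26553142742) (nat_lit 5) (nat_lit 5) (nat_lit 6) (nat_lit 5) (nat_lit 7) (nat_lit 4) (nat_lit 408) (nat_lit 297) (nat_lit 156))))))) (XT.nd (nat_lit 43898) (nat_lit 0) (nat_lit 9828) (XT.nd (nat_lit 564) (nat_lit 84) (nat_lit 0) (XT.nd (nat_lit 282) (nat_lit 0) (nat_lit 0) (XT.nd (nat_lit 94) (nat_lit 0) (nat_lit 0) (XT.lf (nat_lit 0) (nat_lit 35204518530) (nat_lit 84) (nat_lit 13911894158) (nat_lit 168) (nat_lit 24759062295) (nat_lit 5) (nat_lit 5) (nat_lit 6) (nat_lit 5) (nat_lit 7) (nat_lit 4) (nat_lit 409) (nat_lit 297) (nat_lit 155)) (XT.nd (nat_lit 94) (nat_lit 0) (nat_lit 0) (XT.lf (nat_lit 0) (nat_lit 43273257497) (nat_lit 84) (nat_lit 9828631451) (nat_lit 168) (nat_lit 22912953370) (nat_lit 5) (nat_lit 5) (nat_lit 6) (nat_lit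 5) (nat_lit 7) (nat_lit 4) (nat_lit 410) (nat_lit 297) (nat_lit 154)) (XT.lf (nat_lit 0) (nat_lit 51586865109) (nat_lit 84) (nat_lit 5620684244) (nat_lit 168) (nat_lit 21013095202) (nat_lit 5) (nat_lit 5) (nat_lit 6) (nat_lit 5) (nat_lit 7) (nat_lit 4) (nat_lit 411) (nat_lit 297) (nat_lit 153)))) (XT.nd (nat_lit 94) (nat_lit 0) (nat_lit 0) (XT.lf (nat_lit 0) (nat_lit 60153090519) (nat_lit 84) (nat_lit 1284130287) (nat_lit 168) (nat_lit 19057716923) (nat_lit 5) (nat_lit 5) (nat_lit 6) (nat_lit 5) (nat_lit 7) (nat_lit 4) (nat_lit 412) (nat_lit 297) (nat_lit 152)) (XT.nd (nat_lit 94) (nat_lit 0) (nat_lit 0) (XT.lf (nat_lit 0) (nat_lit 65826442121) (nat_lit 168) (nat_lit 13891519690) (nat_lit 0) (nat_lit 3120900426) (nat_lit 5) (nat_lit 5) (nat_lit 7) (nat_lit 4) (nat_lit 5) (nat_lit 4) (nat_lit 413) (nat_lit 297) (nat_lit 151)) (XT.lf (nat_lit 0) (nat_lit 70361774694) (nat_lit 168) (nat_lit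 7259254688) (nat_lit 0) (nat_lit 7634116904) (nat_lit 5) (nat_lit 5) (nat_lit 7) (nat_lit 4) (nat_lit 5) (nat_lit 4) (nat_lit 414) (nat_lit 297) (nat_lit 150))))) (XT.nd (nat_lit 43052) (nat_lit 0) (nat_lit 11928) (XT.nd (nat_lit 94) (nat_lit 84) (nat_lit 0) (XT.lf (nat_lit 0) (nat_lit 75034707200) (nat_lit 168) (nat_lit 426131506) (nat_lit 0) (nat_lit 12285598298) (nat_lit 5) (nat_lit 5) (nat_lit 7) (nat_lit 4) (nat_lit 5) (nat_lit 4) (nat_lit 415) (nat_lit 297) (nat_lit 149)) (XT.nd (nat_lit 94) (nat_lit 0) (nat_lit 0) (XT.lf (nat_lit 0) (nat_lit 6750220948) (nat_lit 84) (nat_lit 73166337380) (nat_lit 84) (nat_lit 10396422356) (nat_lit 4) (nat_lit 4) (nat_lit 5) (nat_lit 5) (nat_lit 5) (nat_lit 4) (nat_lit 416) (nat_lit 297) (nat_lit 148)) (XT.lf (nat_lit 0) (nat_lit 14153521206) (nat_lit 84) (nat_lit 70797810454) (nat_lit 84) (nat_lit 8007714904) (nat_lit 4) (nat_lit 4) (nat_lit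 5) (nat_lit 5) (nat_lit 5) (nat_lit 4) (nat_lit 417) (nat_lit 297) (nat_lit 147)))) (XT.nd (nat_lit 94) (nat_lit 0) (nat_lit 0) (XT.lf (nat_lit 0) (nat_lit 650885990) (nat_lit 0) (nat_lit 650885990) (nat_lit 588) (nat_lit 2216561675) (nat_lit 146) (nat_lit 5) (nat_lit 146) (nat_lit 3) (nat_lit 153) (nat_lit 3) (nat_lit 298) (nat_lit 298) (nat_lit 265)) (XT.nd (nat_lit 94) (nat_lit 0) (nat_lit 0) (XT.lf (nat_lit 0) (nat_lit 3956471027) (nat_lit 0) (nat_lit 106806374) (nat_lit 588) (nat_lit 3028301209) (nat_lit 146) (nat_lit 5) (nat_lit 146) (nat_lit 3) (nat_lit 153) (nat_lit 3) (nat_lit 299) (nat_lit 298) (nat_lit 264)) (XT.lf (nat_lit 0) (nat_lit 5522513793) (nat_lit 588) (nat_lit 496951860) (nat_lit 672) (nat_lit 1130553971) (nat_lit 146) (nat_lit 5) (nat_lit 153) (nat_lit 3) (nat_lit 154) (nat_lit 5) (nat_lit 300) (nat_lit 298) (nat_lit 263)))))) (XT.nd (nat_lit 564) (nat_lit 1428)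 (nat_lit 0) (XT.nd (nat_lit 282) (nat_lit 0) (nat_lit 0) (XT.nd (nat_lit 94) (nat_lit 672) (nat_lit 0) (XT.lf (nat_lit 84) (nat_lit 2236832214) (nat_lit 0) (nat_lit 4758236583) (nat_lit 672) (nat_lit 216589911) (nat_lit 147) (nat_lit 5) (nat_lit 146) (nat_lit 5) (nat_lit 154) (nat_lit 5) (nat_lit 301) (nat_lit 298) (nat_lit 262)) (XT.nd (nat_lit 94) (nat_lit 0) (nat_lit 0) (XT.lf (nat_lit 0) (nat_lit 1163596637) (nat_lit 672) (nat_lit 2252807635) (nat_lit 756) (nat_lit 3860332262) (nat_lit 138) (nat_lit 5) (nat_lit 146) (nat_lit 5) (nat_lit 147) (nat_lit 5) (nat_lit 302) (nat_lit 298) (nat_lit 261)) (XT.lf (nat_lit 84) (nat_lit 531709460) (nat_lit 0) (nat_lit 2002517943) (nat_lit 756) (nat_lit 4811381025) (nat_lit 139) (nat_lit 5) (nat_lit 138) (nat_lit 5) (nat_lit 147) (nat_lit 5) (nat_lit 303) (nat_lit 298) (nat_lit 260)))) (XT.nd (nat_lit 94) (nat_lit 0) (nat_lit 84) (XT.lf (nat_lit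 84) (nat_lit 3420230611) (nat_lit 0) (nat_lit 498813476) (nat_lit 756) (nat_lit 3498799993) (nat_lit 139) (nat_lit 5) (nat_lit 138) (nat_lit 5) (nat_lit 147) (nat_lit 5) (nat_lit 304) (nat_lit 298) (nat_lit 259)) (XT.nd (nat_lit 94) (nat_lit 0) (nat_lit 0) (XT.lf (nat_lit 0) (nat_lit 5307170115) (nat_lit 672) (nat_lit 1135732271) (nat_lit 756) (nat_lit 1050985625) (nat_lit 139) (nat_lit 5) (nat_lit 147) (nat_lit 5) (nat_lit 148) (nat_lit 5) (nat_lit 305) (nat_lit 298) (nat_lit 258)) (XT.lf (nat_lit 84) (nat_lit 1816016628) (nat_lit 0) (nat_lit 4896882105) (nat_lit 756) (nat_lit 860509387) (nat_lit 140) (nat_lit 5) (nat_lit 139) (nat_lit 5) (nat_lit 148) (nat_lit 5) (nat_lit 306) (nat_lit 298) (nat_lit 257))))) (XT.nd (nat_lit 282) (nat_lit 756) (nat_lit 0) (XT.nd (nat_lit 94) (nat_lit 0) (nat_lit 0) (XT.lf (nat_lit 0) (nat_lit 460393341) (nat_lit 756) (nat_lit 2808160216) (nat_lit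 840) (nat_lit 4388117293) (nat_lit 130) (nat_lit 5) (nat_lit 139) (nat_lit 5) (nat_lit 140) (nat_lit 5) (nat_lit 307) (nat_lit 298) (nat_lit 256)) (XT.nd (nat_lit 94) (nat_lit 0) (nat_lit 84) (XT.lf (nat_lit 84) (nat_lit 197280956) (nat_lit 0) (nat_lit 1562311027) (nat_lit 840) (nat_lit 5984339587) (nat_lit 131) (nat_lit 5) (nat_lit 130) (nat_lit 5) (nat_lit 140) (nat_lit 5) (nat_lit 308) (nat_lit 298) (nat_lit 255)) (XT.lf (nat_lit 0) (nat_lit 3085156207) (nat_lit 756) (nat_lit 4511762272) (nat_lit 840) (nat_lit 237702606) (nat_lit 131) (nat_lit 5) (nat_lit 140) (nat_lit 5) (nat_lit 141) (nat_lit 5) (nat_lit 309) (nat_lit 298) (nat_lit 254)))) (XT.nd (nat_lit 188) (nat_lit 840) (nat_lit 0) (XT.nd (nat_lit 94) (nat_lit 0) (nat_lit 0) (XT.lf (nat_lit 0) (nat_lit 4423685650) (nat_lit 756) (nat_lit 1429754245) (nat_lit 840) (nat_lit 2075837746) (nat_lit 131) (nat_lit 5) (nat_lit 140)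 (nat_lit 5) (nat_lit 141) (nat_lit 5) (nat_lit 310) (nat_lit 298) (nat_lit 253)) (XT.lf (nat_lit 84) (nat_lit 1753064888) (nat_lit 0) (nat_lit 4025255373) (nat_lit 840) (nat_lit 2249610542) (nat_lit 132) (nat_lit 5) (nat_lit 131) (nat_lit 5) (nat_lit 141) (nat_lit 5) (nat_lit 311) (nat_lit 298) (nat_lit 252))) (XT.nd (nat_lit 94) (nat_lit 840) (nat_lit 0) (XT.lf (nat_lit 84) (nat_lit 5035114207) (nat_lit 0) (nat_lit 2112969382) (nat_lit 840) (nat_lit 982658353) (nat_lit 132) (nat_lit 5) (nat_lit 131) (nat_lit 5) (nat_lit 141) (nat_lit 5) (nat_lit 312) (nat_lit 298) (nat_lit 251)) (XT.lf (nat_lit 84) (nat_lit 152069767) (nat_lit 0) (nat_lit 125288551) (nat_lit 924) (nat_lit 7960763955) (nat_lit 122) (nat_lit 5) (nat_lit 121) (nat_lit 5) (nat_lit 132) (nat_lit 5) (nat_lit 313) (nat_lit 298) (nat_lit 250))))))))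
noncomputable def xc112 : XT := (XT.nd (nat_lit 2256) (nat_lit 2520) (nat_lit 0) (XT.nd (nat_lit 1128) (nat_lit 2352) (nat_lit 0) (XT.nd (nat_lit 564) (nat_lit 1680) (nat_lit 0) (XT.nd (nat_lit 282) (nat_lit 924) (nat_lit 0) (XT.nd (nat_lit 94) (nat_lit 840) (nat_lit 0) (XT.lf (nat_lit 0) (nat_lit 1567601830) (nat_lit 840) (nat_lit 4842469891) (nat_lit 84) (nat_lit 1938332736) (nat_lit 122) (nat_lit 5) (nat_lit 132) (nat_lit 5) (nat_lit 123) (nat_lit 5) (nat_lit 314) (nat_lit 298) (nat_lit 249)) (XT.nd (nat_lit 94) (nat_lit 840) (nat_lit 0) (XT.lf (nat_lit 0) (nat_lit 2860181083) (nat_lit 840) (nat_lit 1529922726) (nat_lit 84) (nat_lit 4073405327) (nat_lit 122) (nat_lit 5) (nat_lit 132) (nat_lit 5) (nat_lit 123) (nat_lit 5) (nat_lit 315) (nat_lit 298) (nat_lit 248)) (XT.lf (nat_lit 0) (nat_lit 1894081017) (nat_lit 840) (nat_lit 2279766519) (nat_lit 924) (nat_lit 4409152117) (nat_lit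 112) (nat_lit 5) (nat_lit 122) (nat_lit 5) (nat_lit 123) (nat_lit 5) (nat_lit 316) (nat_lit 298) (nat_lit 247)))) (XT.nd (nat_lit 94) (nat_lit 924) (nat_lit 0) (XT.lf (nat_lit 0) (nat_lit 5427566129) (nat_lit 840) (nat_lit 79715597) (nat_lit 924) (nat_lit 3199784523) (nat_lit 112) (nat_lit 5) (nat_lit 122) (nat_lit 5) (nat_lit 123) (nat_lit 5) (nat_lit 317) (nat_lit 298) (nat_lit 246)) (XT.nd (nat_lit 94) (nat_lit 0) (nat_lit 0) (XT.lf (nat_lit 0) (nat_lit 188066338) (nat_lit 924) (nat_lit 6681822646) (nat_lit 1008) (nat_lit 1965682547) (nat_lit 101) (nat_lit 5) (nat_lit 112) (nat_lit 5) (nat_lit 113) (nat_lit 5) (nat_lit 318) (nat_lit 298) (nat_lit 245)) (XT.lf (nat_lit 0) (nat_lit 3802496283) (nat_lit 924) (nat_lit 4472323229) (nat_lit 1008) (nat_lit 693447485) (nat_lit 101) (nat_lit 5) (nat_lit 112) (nat_lit 5) (nat_lit 113) (nat_lit 5) (nat_lit 319) (nat_lit 298) (nat_lit 244)))))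 (XT.nd (nat_lit 282) (nat_lit 588) (nat_lit 0) (XT.nd (nat_lit 94) (nat_lit 1008) (nat_lit 0) (XT.lf (nat_lit 0) (nat_lit 571320690) (nat_lit 1008) (nat_lit 1611581428) (nat_lit 84) (nat_lit 6923248434) (nat_lit 100) (nat_lit 5) (nat_lit 112) (nat_lit 5) (nat_lit 101) (nat_lit 5) (nat_lit 320) (nat_lit 298) (nat_lit 243)) (XT.nd (nat_lit 94) (nat_lit 0) (nat_lit 0) (XT.lf (nat_lit 0) (nat_lit 1849991628) (nat_lit 1092) (nat_lit 7192063308) (nat_lit 84) (nat_lit 206562392) (nat_lit 88) (nat_lit 5) (nat_lit 101) (nat_lit 5) (nat_lit 89) (nat_lit 5) (nat_lit 321) (nat_lit 298) (nat_lit 242)) (XT.lf (nat_lit 0) (nat_lit 3174976510) (nat_lit 1092) (nat_lit 3574329471) (nat_lit 84) (nat_lit 2646172704) (nat_lit 88) (nat_lit 5) (nat_lit 101) (nat_lit 5) (nat_lit 89) (nat_lit 5) (nat_lit 322) (nat_lit 298) (nat_lit 241)))) (XT.nd (nat_lit 94) (nat_lit 0) (nat_lit 0) (XT.lf (nat_lit 0) (nat_lit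 129631749) (nat_lit 588) (nat_lit 4381027228) (nat_lit 672) (nat_lit 5037354930) (nat_lit 81) (nat_lit 5) (nat_lit 88) (nat_lit 5) (nat_lit 89) (nat_lit 5) (nat_lit 323) (nat_lit 298) (nat_lit 240)) (XT.nd (nat_lit 94) (nat_lit 0) (nat_lit 0) (XT.lf (nat_lit 0) (nat_lit 3995944400) (nat_lit 588) (nat_lit 1898120800) (nat_lit 672) (nat_lit 3811190756) (nat_lit 81) (nat_lit 5) (nat_lit 88) (nat_lit 5) (nat_lit 89) (nat_lit 5) (nat_lit 324) (nat_lit 298) (nat_lit 239)) (XT.lf (nat_lit 0) (nat_lit 7296888903) (nat_lit 672) (nat_lit 1920347564) (nat_lit 84) (nat_lit 651032399) (nat_lit 81) (nat_lit 5) (nat_lit 89) (nat_lit 5) (nat_lit 82) (nat_lit 5) (nat_lit 325) (nat_lit 298) (nat_lit 238)))))) (XT.nd (nat_lit 564) (nat_lit 840) (nat_lit 0) (XT.nd (nat_lit 282) (nat_lit 924) (nat_lit 0) (XT.nd (nat_lit 94) (nat_lit 84) (nat_lit 0) (XT.lf (nat_lit 0) (nat_lit 1978865255) (nat_lit 504)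 (nat_lit 6774248994) (nat_lit 588) (nat_lit 1283077360) (nat_lit 75) (nat_lit 5) (nat_lit 81) (nat_lit 5) (nat_lit 82) (nat_lit 5) (nat_lit 326) (nat_lit 298) (nat_lit 237)) (XT.nd (nat_lit 94) (nat_lit 0) (nat_lit 0) (XT.lf (nat_lit 0) (nat_lit 35529217) (nat_lit 588) (nat_lit 4197822769) (nat_lit 84) (nat_lit 5976378579) (nat_lit 74) (nat_lit 5) (nat_lit 81) (nat_lit 5) (nat_lit 75) (nat_lit 5) (nat_lit 327) (nat_lit 298) (nat_lit 236)) (XT.lf (nat_lit 0) (nat_lit 1340258241) (nat_lit 588) (nat_lit 259086664) (nat_lit 84) (nat_lit 8789918108) (nat_lit 74) (nat_lit 5) (nat_lit 81) (nat_lit 5) (nat_lit 75) (nat_lit 5) (nat_lit 328) (nat_lit 298) (nat_lit 235)))) (XT.nd (nat_lit 94) (nat_lit 420) (nat_lit 0) (XT.lf (nat_lit 0) (nat_lit 2707871070) (nat_lit 588) (nat_lit 6732729651) (nat_lit 84) (nat_lit 1133209636) (nat_lit 68) (nat_lit 5) (nat_lit 75) (nat_lit 5) (nat_lit 69) (nat_lit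 5) (nat_lit 329) (nat_lit 298) (nat_lit 234)) (XT.nd (nat_lit 94) (nat_lit 420) (nat_lit 0) (XT.lf (nat_lit 0) (nat_lit 4110277133) (nat_lit 588) (nat_lit 2733708115) (nat_lit 84) (nat_lit 3920469692) (nat_lit 68) (nat_lit 5) (nat_lit 75) (nat_lit 5) (nat_lit 69) (nat_lit 5) (nat_lit 330) (nat_lit 298) (nat_lit 233)) (XT.lf (nat_lit 0) (nat_lit 1390950857) (nat_lit 420) (nat_lit 4153115619) (nat_lit 504) (nat_lit 5417454218) (nat_lit 63) (nat_lit 5) (nat_lit 68) (nat_lit 5) (nat_lit 69) (nat_lit 5) (nat_lit 331) (nat_lit 298) (nat_lit 232))))) (XT.nd (nat_lit 282) (nat_lit 420) (nat_lit 0) (XT.nd (nat_lit 94) (nat_lit 420) (nat_lit 0) (XT.lf (nat_lit 0) (nat_lit 5675337480) (nat_lit 420) (nat_lit 1350130037) (nat_lit 504) (nat_lit 4139262135) (nat_lit 63) (nat_lit 5) (nat_lit 68) (nat_lit 5) (nat_lit 69) (nat_lit 5) (nat_lit 332) (nat_lit 298) (nat_lit 231)) (XT.nd (nat_lit 94) (nat_lit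 420) (nat_lit 0) (XT.lf (nat_lit 0) (nat_lit 8543452303) (nat_lit 504) (nat_lit 1323162154) (nat_lit 84) (nat_lit 1508041443) (nat_lit 63) (nat_lit 5) (nat_lit 69) (nat_lit 5) (nat_lit 64) (nat_lit 5) (nat_lit 333) (nat_lit 298) (nat_lit 230)) (XT.lf (nat_lit 0) (nat_lit 2993318849) (nat_lit 420) (nat_lit 7134804432) (nat_lit 504) (nat_lit 1462482517) (nat_lit 58) (nat_lit 5) (nat_lit 63) (nat_lit 5) (nat_lit 64) (nat_lit 5) (nat_lit 334) (nat_lit 298) (nat_lit 229)))) (XT.nd (nat_lit 94) (nat_lit 420) (nat_lit 0) (XT.lf (nat_lit 0) (nat_lit 7446516086) (nat_lit 420) (nat_lit 4305808392) (nat_lit 504) (nat_lit 61343780) (nat_lit 58) (nat_lit 5) (nat_lit 63) (nat_lit 5) (nat_lit 64) (nat_lit 5) (nat_lit 335) (nat_lit 298) (nat_lit 228)) (XT.nd (nat_lit 94) (nat_lit 336) (nat_lit 0) (XT.lf (nat_lit 0) (nat_lit 1332312445) (nat_lit 504) (nat_lit 44581459) (nat_lit 84) (nat_lit 10667154421)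 (nat_lit 57) (nat_lit 5) (nat_lit 63) (nat_lit 5) (nat_lit 58) (nat_lit 5) (nat_lit 336) (nat_lit 298) (nat_lit 227)) (XT.lf (nat_lit 0) (nat_lit 2806696882) (nat_lit 420) (nat_lit 7820371453) (nat_lit 84) (nat_lit 1653389739) (nat_lit 53) (nat_lit 5) (nat_lit 58) (nat_lit 5) (nat_lit 54) (nat_lit 5) (nat_lit 337) (nat_lit 298) (nat_lit 226))))))) (XT.nd (nat_lit 1128) (nat_lit 1092) (nat_lit 0) (XT.nd (nat_lit 564) (nat_lit 672) (nat_lit 0) (XT.nd (nat_lit 282) (nat_lit 336) (nat_lit 0) (XT.nd (nat_lit 94) (nat_lit 420) (nat_lit 0) (XT.lf (nat_lit 0) (nat_lit 4319397827) (nat_lit 420) (nat_lit 3457670858) (nat_lit 84) (nat_lit 4747463720) (nat_lit 53) (nat_lit 5) (nat_lit 58) (nat_lit 5) (nat_lit 54) (nat_lit 5) (nat_lit 338) (nat_lit 298) (nat_lit 225)) (XT.nd (nat_lit 94) (nat_lit 0) (nat_lit 0) (XT.lf (nat_lit 0) (nat_lit 1037168010) (nat_lit 420) (nat_lit 4830831179) (nat_lit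 504) (nat_lit 6908618244) (nat_lit 48) (nat_lit 5) (nat_lit 53) (nat_lit 5) (nat_lit 54) (nat_lit 5) (nat_lit 339) (nat_lit 298) (nat_lit 224)) (XT.lf (nat_lit 0) (nat_lit 5720888622) (nat_lit 420) (nat_lit 1758931632) (nat_lit 504) (nat_lit 5556325721) (nat_lit 48) (nat_lit 5) (nat_lit 53) (nat_lit 5) (nat_lit 54) (nat_lit 5) (nat_lit 340) (nat_lit 298) (nat_lit 223)))) (XT.nd (nat_lit 94) (nat_lit 336) (nat_lit 0) (XT.lf (nat_lit 0) (nat_lit 9135299363) (nat_lit 504) (nat_lit 2791626994) (nat_lit 84) (nat_lit 1377086567) (nat_lit 48) (nat_lit 5) (nat_lit 54) (nat_lit 5) (nat_lit 49) (nat_lit 5) (nat_lit 341) (nat_lit 298) (nat_lit 222)) (XT.nd (nat_lit 94) (nat_lit 0) (nat_lit 0) (XT.lf (nat_lit 0) (nat_lit 1868871467) (nat_lit 336) (nat_lit 8990087842) (nat_lit 420) (nat_lit 2720796282) (nat_lit 44) (nat_lit 5) (nat_lit 48) (nat_lit 5) (nat_lit 49) (nat_lit 5) (nat_lit 342) (nat_lit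 298) (nat_lit 221)) (XT.lf (nat_lit 0) (nat_lit 6710231246) (nat_lit 336) (nat_lit 5935657394) (nat_lit 420) (nat_lit 1217944415) (nat_lit 44) (nat_lit 5) (nat_lit 48) (nat_lit 5) (nat_lit 49) (nat_lit 5) (nat_lit 343) (nat_lit 298) (nat_lit 220))))) (XT.nd (nat_lit 282) (nat_lit 252) (nat_lit 0) (XT.nd (nat_lit 94) (nat_lit 336) (nat_lit 0) (XT.lf (nat_lit 0) (nat_lit 305815794) (nat_lit 420) (nat_lit 2480918941) (nat_lit 84) (nat_lit 11370555537) (nat_lit 43) (nat_lit 5) (nat_lit 48) (nat_lit 5) (nat_lit 44) (nat_lit 5) (nat_lit 344) (nat_lit 298) (nat_lit 219)) (XT.nd (nat_lit 94) (nat_lit 0) (nat_lit 0) (XT.lf (nat_lit 0) (nat_lit 1861284012) (nat_lit 420) (nat_lit 12114691705) (nat_lit 84) (nat_lit 483263551) (nat_lit 39) (nat_lit 5) (nat_lit 44) (nat_lit 5) (nat_lit 40) (nat_lit 5) (nat_lit 345) (nat_lit 298) (nat_lit 218)) (XT.lf (nat_lit 0) (nat_lit 3501507565) (nat_lit 420)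 (nat_lit 7448606892) (nat_lit 84) (nat_lit 3819382766) (nat_lit 39) (nat_lit 5) (nat_lit 44) (nat_lit 5) (nat_lit 40) (nat_lit 5) (nat_lit 346) (nat_lit 298) (nat_lit 217)))) (XT.nd (nat_lit 94) (nat_lit 252) (nat_lit 0) (XT.lf (nat_lit 0) (nat_lit 5174996592) (nat_lit 420) (nat_lit 2659495264) (nat_lit 84) (nat_lit 7255505050) (nat_lit 39) (nat_lit 5) (nat_lit 44) (nat_lit 5) (nat_lit 40) (nat_lit 5) (nat_lit 347) (nat_lit 298) (nat_lit 216)) (XT.nd (nat_lit 94) (nat_lit 0) (nat_lit 0) (XT.lf (nat_lit 0) (nat_lit 2303517882) (nat_lit 252) (nat_lit 4602644262) (nat_lit 336) (nat_lit 8514166531) (nat_lit 36) (nat_lit 5) (nat_lit 39) (nat_lit 5) (nat_lit 40) (nat_lit 5) (nat_lit 348) (nat_lit 298) (nat_lit 215)) (XT.lf (nat_lit 0) (nat_lit 7456004967) (nat_lit 252) (nat_lit 1246002528) (nat_lit 336) (nat_lit 7058625857) (nat_lit 36) (nat_lit 5) (nat_lit 39) (nat_lit 5) (nat_lit 40) (nat_lit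 5) (nat_lit 349) (nat_lit 298) (nat_lit 214)))))) (XT.nd (nat_lit 564) (nat_lit 420) (nat_lit 0) (XT.nd (nat_lit 282) (nat_lit 336) (nat_lit 0) (XT.nd (nat_lit 94) (nat_lit 336) (nat_lit 0) (XT.lf (nat_lit 0) (nat_lit 10559212992) (nat_lit 336) (nat_lit 3385910276) (nat_lit 84) (nat_lit 2166259668) (nat_lit 36) (nat_lit 5) (nat_lit 40) (nat_lit 5) (nat_lit 37) (nat_lit 5) (nat_lit 350) (nat_lit 298) (nat_lit 213)) (XT.nd (nat_lit 94) (nat_lit 0) (nat_lit 0) (XT.lf (nat_lit 0) (nat_lit 1686472743) (nat_lit 336) (nat_lit 10801201239) (nat_lit 420) (nat_lit 3984977293) (nat_lit 32) (nat_lit 5) (nat_lit 36) (nat_lit 5) (nat_lit 37) (nat_lit 5) (nat_lit 351) (nat_lit 298) (nat_lit 212)) (XT.lf (nat_lit 0) (nat_lit 6968031803) (nat_lit 336) (nat_lit 7527713778) (nat_lit 420) (nat_lit 2348826237) (nat_lit 32) (nat_lit 5) (nat_lit 36) (nat_lit 5) (nat_lit 37) (nat_lit 5) (nat_lit 352) (nat_lit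 298) (nat_lit 211)))) (XT.nd (nat_lit 94) (nat_lit 336) (nat_lit 0) (XT.lf (nat_lit 0) (nat_lit 12394068611) (nat_lit 336) (nat_lit 4156951613) (nat_lit 420) (nat_lit 677533674) (nat_lit 32) (nat_lit 5) (nat_lit 36) (nat_lit 5) (nat_lit 37) (nat_lit 5) (nat_lit 353) (nat_lit 298) (nat_lit 210)) (XT.nd (nat_lit 94) (nat_lit 0) (nat_lit 0) (XT.lf (nat_lit 0) (nat_lit 341340352) (nat_lit 252) (nat_lit 671742567) (nat_lit 336) (nat_lit 16611450642) (nat_lit 28) (nat_lit 5) (nat_lit 31) (nat_lit 5) (nat_lit 32) (nat_lit 5) (nat_lit 354) (nat_lit 298) (nat_lit 209)) (XT.lf (nat_lit 0) (nat_lit 2807403926) (nat_lit 336) (nat_lit 12306859821) (nat_lit 84) (nat_lit 2916343382) (nat_lit 28) (nat_lit 5) (nat_lit 32) (nat_lit 5) (nat_lit 29) (nat_lit 5) (nat_lit 355) (nat_lit 298) (nat_lit 208))))) (XT.nd (nat_lit 282) (nat_lit 168) (nat_lit 0) (XT.nd (nat_lit 94) (nat_lit 252) (nat_lit 0) (XT.lf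 (nat_lit 0) (nat_lit 4650067269) (nat_lit 336) (nat_lit 7201863014) (nat_lit 84) (nat_lit 6597622428) (nat_lit 28) (nat_lit 5) (nat_lit 32) (nat_lit 5) (nat_lit 29) (nat_lit 5) (nat_lit 356) (nat_lit 298) (nat_lit 207)) (XT.nd (nat_lit 94) (nat_lit 252) (nat_lit 0) (XT.lf (nat_lit 0) (nat_lit 6536126733) (nat_lit 336) (nat_lit 1956780627) (nat_lit 84) (nat_lit 10389060022) (nat_lit 28) (nat_lit 5) (nat_lit 32) (nat_lit 5) (nat_lit 29) (nat_lit 5) (nat_lit 357) (nat_lit 298) (nat_lit 206)) (XT.lf (nat_lit 0) (nat_lit 3503871506) (nat_lit 252) (nat_lit 4998227655) (nat_lit 336) (nat_lit 10825077513) (nat_lit 25) (nat_lit 5) (nat_lit 28) (nat_lit 5) (nat_lit 29) (nat_lit 5) (nat_lit 358) (nat_lit 298) (nat_lit 205)))) (XT.nd (nat_lit 94) (nat_lit 168) (nat_lit 0) (XT.lf (nat_lit 0) (nat_lit 9157841987) (nat_lit 252) (nat_lit 1378513070) (nat_lit 336) (nat_lit 9249657835) (nat_lit 25)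 (nat_lit 5) (nat_lit 28) (nat_lit 5) (nat_lit 29) (nat_lit 5) (nat_lit 359) (nat_lit 298) (nat_lit 204)) (XT.nd (nat_lit 94) (nat_lit 168) (nat_lit 0) (XT.lf (nat_lit 0) (nat_lit 12644284127) (nat_lit 336) (nat_lit 5312656578) (nat_lit 84) (nat_lit 2301854714) (nat_lit 25) (nat_lit 5) (nat_lit 29) (nat_lit 5) (nat_lit 26) (nat_lit 5) (nat_lit 360) (nat_lit 298) (nat_lit 203)) (XT.lf (nat_lit 0) (nat_lit 139549267) (nat_lit 168) (nat_lit 14681141027) (nat_lit 252) (nat_lit 5925496629) (nat_lit 23) (nat_lit 5) (nat_lit 25) (nat_lit 5) (nat_lit 26) (nat_lit 5) (nat_lit 361) (nat_lit 298) (nat_lit 202))))))))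
noncomputable def xc113 : XT := (XT.nd (nat_lit 2256) (nat_lit 420) (nat_lit 0) (XT.nd (nat_lit 1128) (nat_lit 588) (nat_lit 0) (XT.nd (nat_lit 564) (nat_lit 168) (nat_lit 0) (XT.nd (nat_lit 282) (nat_lit 336) (nat_lit 0) (XT.nd (nat_lit 94) (nat_lit 0) (nat_lit 0) (XT.lf (nat_lit 0) (nat_lit 5856767042) (nat_lit 168) (nat_lit 11251105665) (nat_lit 252) (nat_lit 4139520614) (nat_lit 23) (nat_lit 5) (nat_lit 25) (nat_lit 5) (nat_lit 26) (nat_lit 5) (nat_lit 362) (nat_lit 298) (nat_lit 201)) (XT.nd (nat_lit 94) (nat_lit 0) (nat_lit 0) (XT.lf (nat_lit 0) (nat_lit 11735086674) (nat_lit 168) (nat_lit 7719090704) (nat_lit 252) (nat_lit 2310371772) (nat_lit 23) (nat_lit 5) (nat_lit 25) (nat_lit 5) (nat_lit 26) (nat_lit 5) (nat_lit 363) (nat_lit 298) (nat_lit 200)) (XT.lf (nat_lit 0) (nat_lit 17779987376) (nat_lit 168) (nat_lit 4081803937) (nat_lit 252) (nat_lit 436345142) (nat_lit 23) (nat_lit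 5) (nat_lit 25) (nat_lit 5) (nat_lit 26) (nat_lit 5) (nat_lit 364) (nat_lit 298) (nat_lit 199)))) (XT.nd (nat_lit 94) (nat_lit 0) (nat_lit 0) (XT.lf (nat_lit 0) (nat_lit 1157038275) (nat_lit 252) (nat_lit 308840292) (nat_lit 336) (nat_lit 21381961750) (nat_lit 19) (nat_lit 5) (nat_lit 22) (nat_lit 5) (nat_lit 23) (nat_lit 5) (nat_lit 365) (nat_lit 298) (nat_lit 198)) (XT.nd (nat_lit 94) (nat_lit 0) (nat_lit 0) (XT.lf (nat_lit 0) (nat_lit 3490079656) (nat_lit 336) (nat_lit 16365289962) (nat_lit 84) (nat_lit 3556884248) (nat_lit 19) (nat_lit 5) (nat_lit 23) (nat_lit 5) (nat_lit 20) (nat_lit 5) (nat_lit 366) (nat_lit 298) (nat_lit 197)) (XT.lf (nat_lit 0) (nat_lit 5569428293) (nat_lit 336) (nat_lit 10893011403) (nat_lit 84) (nat_lit 7532000432) (nat_lit 19) (nat_lit 5) (nat_lit 23) (nat_lit 5) (nat_lit 20) (nat_lit 5) (nat_lit 367) (nat_lit 298) (nat_lit 196))))) (XT.nd (nat_lit 282)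 (nat_lit 0) (nat_lit 0) (XT.nd (nat_lit 94) (nat_lit 168) (nat_lit 0) (XT.lf (nat_lit 0) (nat_lit 7702798915) (nat_lit 336) (nat_lit 5265801895) (nat_lit 84) (nat_lit 11626435928) (nat_lit 19) (nat_lit 5) (nat_lit 23) (nat_lit 5) (nat_lit 20) (nat_lit 5) (nat_lit 368) (nat_lit 298) (nat_lit 195)) (XT.nd (nat_lit 94) (nat_lit 0) (nat_lit 0) (XT.lf (nat_lit 0) (nat_lit 532308542) (nat_lit 168) (nat_lit 9365152072) (nat_lit 252) (nat_lit 15316979203) (nat_lit 17) (nat_lit 5) (nat_lit 19) (nat_lit 5) (nat_lit 20) (nat_lit 5) (nat_lit 369) (nat_lit 298) (nat_lit 194)) (XT.lf (nat_lit 0) (nat_lit 6607669685) (nat_lit 168) (nat_lit 5597491640) (nat_lit 252) (nat_lit 13646524619) (nat_lit 17) (nat_lit 5) (nat_lit 19) (nat_lit 5) (nat_lit 20) (nat_lit 5) (nat_lit 370) (nat_lit 298) (nat_lit 193)))) (XT.nd (nat_lit 94) (nat_lit 0) (nat_lit 0) (XT.lf (nat_lit 0) (nat_lit 12857668718) (nat_lit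 168) (nat_lit 1717071831) (nat_lit 252) (nat_lit 11934281204) (nat_lit 17) (nat_lit 5) (nat_lit 19) (nat_lit 5) (nat_lit 20) (nat_lit 5) (nat_lit 371) (nat_lit 298) (nat_lit 192)) (XT.nd (nat_lit 94) (nat_lit 0) (nat_lit 0) (XT.lf (nat_lit 0) (nat_lit 17031022133) (nat_lit 252) (nat_lit 7921543804) (nat_lit 84) (nat_lit 2233792946) (nat_lit 17) (nat_lit 5) (nat_lit 20) (nat_lit 5) (nat_lit 18) (nat_lit 5) (nat_lit 372) (nat_lit 298) (nat_lit 191)) (XT.lf (nat_lit 0) (nat_lit 19571884349) (nat_lit 252) (nat_lit 2044836545) (nat_lit 84) (nat_lit 6267744538) (nat_lit 17) (nat_lit 5) (nat_lit 20) (nat_lit 5) (nat_lit 18) (nat_lit 5) (nat_lit 373) (nat_lit 298) (nat_lit 190)))))) (XT.nd (nat_lit 564) (nat_lit 168) (nat_lit 0) (XT.nd (nat_lit 282) (nat_lit 252) (nat_lit 0) (XT.nd (nat_lit 94) (nat_lit 0) (nat_lit 0) (XT.lf (nat_lit 0) (nat_lit 4083554535) (nat_lit 168) (nat_lit 18139616812)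 (nat_lit 252) (nat_lit 6380093009) (nat_lit 15) (nat_lit 5) (nat_lit 17) (nat_lit 5) (nat_lit 18) (nat_lit 5) (nat_lit 374) (nat_lit 298) (nat_lit 189)) (XT.nd (nat_lit 94) (nat_lit 0) (nat_lit 0) (XT.lf (nat_lit 0) (nat_lit 10432635846) (nat_lit 168) (nat_lit 14536645742) (nat_lit 252) (nat_lit 4374704322) (nat_lit 15) (nat_lit 5) (nat_lit 17) (nat_lit 5) (nat_lit 18) (nat_lit 5) (nat_lit 375) (nat_lit 298) (nat_lit 188)) (XT.lf (nat_lit 0) (nat_lit 16966279362) (nat_lit 168) (nat_lit 10825793237) (nat_lit 252) (nat_lit 2315889692) (nat_lit 15) (nat_lit 5) (nat_lit 17) (nat_lit 5) (nat_lit 18) (nat_lit 5) (nat_lit 376) (nat_lit 298) (nat_lit 187)))) (XT.nd (nat_lit 94) (nat_lit 252) (nat_lit 0) (XT.lf (nat_lit 0) (nat_lit 23690575123) (nat_lit 168) (nat_lit 7003600394) (nat_lit 252) (nat_lit 201730086) (nat_lit 15) (nat_lit 5) (nat_lit 17) (nat_lit 5) (nat_lit 18) (nat_lit 5) (nat_lit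 377) (nat_lit 298) (nat_lit 186)) (XT.nd (nat_lit 94) (nat_lit 168) (nat_lit 0) (XT.lf (nat_lit 0) (nat_lit 1930059138) (nat_lit 252) (nat_lit 1116299532) (nat_lit 84) (nat_lit 28661585879) (nat_lit 14) (nat_lit 5) (nat_lit 17) (nat_lit 5) (nat_lit 15) (nat_lit 5) (nat_lit 378) (nat_lit 298) (nat_lit 185)) (XT.lf (nat_lit 0) (nat_lit 4178819326) (nat_lit 252) (nat_lit 27300609669) (nat_lit 84) (nat_lit 1063983433) (nat_lit 12) (nat_lit 5) (nat_lit 15) (nat_lit 5) (nat_lit 13) (nat_lit 5) (nat_lit 379) (nat_lit 298) (nat_lit 184))))) (XT.nd (nat_lit 282) (nat_lit 168) (nat_lit 0) (XT.nd (nat_lit 94) (nat_lit 0) (nat_lit 0) (XT.lf (nat_lit 0) (nat_lit 6532491734) (nat_lit 252) (nat_lit 21624480949) (nat_lit 84) (nat_lit 5246742131) (nat_lit 12) (nat_lit 5) (nat_lit 15) (nat_lit 5) (nat_lit 13) (nat_lit 5) (nat_lit 380) (nat_lit 298) (nat_lit 183)) (XT.nd (nat_lit 94) (nat_lit 0) (nat_lit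 0) (XT.lf (nat_lit 0) (nat_lit 8951632860) (nat_lit 252) (nat_lit 15783535090) (nat_lit 84) (nat_lit 9555776411) (nat_lit 12) (nat_lit 5) (nat_lit 15) (nat_lit 5) (nat_lit 13) (nat_lit 5) (nat_lit 381) (nat_lit 298) (nat_lit 182)) (XT.lf (nat_lit 0) (nat_lit 11438497595) (nat_lit 252) (nat_lit 9772327717) (nat_lit 84) (nat_lit 13995102746) (nat_lit 12) (nat_lit 5) (nat_lit 15) (nat_lit 5) (nat_lit 13) (nat_lit 5) (nat_lit 382) (nat_lit 298) (nat_lit 181)))) (XT.nd (nat_lit 94) (nat_lit 168) (nat_lit 0) (XT.lf (nat_lit 0) (nat_lit 13995403958) (nat_lit 252) (nat_lit 3585255755) (nat_lit 84) (nat_lit 18568859051) (nat_lit 12) (nat_lit 5) (nat_lit 15) (nat_lit 5) (nat_lit 13) (nat_lit 5) (nat_lit 383) (nat_lit 298) (nat_lit 180)) (XT.nd (nat_lit 94) (nat_lit 0) (nat_lit 0) (XT.lf (nat_lit 0) (nat_lit 2840681188) (nat_lit 168) (nat_lit 13812233974) (nat_lit 252) (nat_lit 20468807268) (nat_lit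 10) (nat_lit 5) (nat_lit 12) (nat_lit 5) (nat_lit 13) (nat_lit 5) (nat_lit 384) (nat_lit 298) (nat_lit 179)) (XT.lf (nat_lit 0) (nat_lit 9531763011) (nat_lit 168) (nat_lit 9891735552) (nat_lit 252) (nat_lit 18699636990) (nat_lit 10) (nat_lit 5) (nat_lit 12) (nat_lit 5) (nat_lit 13) (nat_lit 5) (nat_lit 385) (nat_lit 298) (nat_lit 178))))))) (XT.nd (nat_lit 1128) (nat_lit 84) (nat_lit 0) (XT.nd (nat_lit 564) (nat_lit 252) (nat_lit 0) (XT.nd (nat_lit 282) (nat_lit 84) (nat_lit 0) (XT.nd (nat_lit 94) (nat_lit 0) (nat_lit 0) (XT.lf (nat_lit 0) (nat_lit 16420506290) (nat_lit 168) (nat_lit 5852932849) (nat_lit 252) (nat_lit 16882377637) (nat_lit 10) (nat_lit 5) (nat_lit 12) (nat_lit 5) (nat_lit 13) (nat_lit 5) (nat_lit 386) (nat_lit 298) (nat_lit 177)) (XT.nd (nat_lit 94) (nat_lit 0) (nat_lit 0) (XT.lf (nat_lit 0) (nat_lit 23513332056) (nat_lit 168) (nat_lit 1692061278) (nat_lit 252) (nat_lit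 15015335333) (nat_lit 10) (nat_lit 5) (nat_lit 12) (nat_lit 5) (nat_lit 13) (nat_lit 5) (nat_lit 387) (nat_lit 298) (nat_lit 176)) (XT.lf (nat_lit 0) (nat_lit 28247834351) (nat_lit 252) (nat_lit 10527752586) (nat_lit 84) (nat_lit 2542478947) (nat_lit 10) (nat_lit 5) (nat_lit 13) (nat_lit 5) (nat_lit 11) (nat_lit 4) (nat_lit 388) (nat_lit 298) (nat_lit 175)))) (XT.nd (nat_lit 94) (nat_lit 84) (nat_lit 0) (XT.lf (nat_lit 0) (nat_lit 31395908264) (nat_lit 252) (nat_lit 4182928534) (nat_lit 84) (nat_lit 6870252847) (nat_lit 10) (nat_lit 5) (nat_lit 13) (nat_lit 5) (nat_lit 11) (nat_lit 4) (nat_lit 389) (nat_lit 298) (nat_lit 174)) (XT.nd (nat_lit 94) (nat_lit 0) (nat_lit 0) (XT.lf (nat_lit 0) (nat_lit 2398091235) (nat_lit 84) (nat_lit 32261462077) (nat_lit 168) (nat_lit 8955083751) (nat_lit 9) (nat_lit 5) (nat_lit 10) (nat_lit 5) (nat_lit 11) (nat_lit 4) (nat_lit 390) (nat_lit 298) (nat_lit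 173)) (XT.lf (nat_lit 0) (nat_lit 9263077678) (nat_lit 84) (nat_lit 28799234494) (nat_lit 168) (nat_lit 6752846858) (nat_lit 9) (nat_lit 5) (nat_lit 10) (nat_lit 5) (nat_lit 11) (nat_lit 4) (nat_lit 391) (nat_lit 298) (nat_lit 172))))) (XT.nd (nat_lit 282) (nat_lit 168) (nat_lit 0) (XT.nd (nat_lit 94) (nat_lit 84) (nat_lit 0) (XT.lf (nat_lit 0) (nat_lit 16332420089) (nat_lit 84) (nat_lit 25232588088) (nat_lit 168) (nat_lit 4488079181) (nat_lit 9) (nat_lit 5) (nat_lit 10) (nat_lit 5) (nat_lit 11) (nat_lit 4) (nat_lit 392) (nat_lit 298) (nat_lit 171)) (XT.nd (nat_lit 94) (nat_lit 84) (nat_lit 0) (XT.lf (nat_lit 0) (nat_lit 23612707837) (nat_lit 84) (nat_lit 21558198368) (nat_lit 168) (nat_lit 2158669721) (nat_lit 9) (nat_lit 5) (nat_lit 10) (nat_lit 5) (nat_lit 11) (nat_lit 4) (nat_lit 393) (nat_lit 298) (nat_lit 170)) (XT.lf (nat_lit 0) (nat_lit 232766617) (nat_lit 168) (nat_lit 17537444196)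 (nat_lit 84) (nat_lit 30875530689) (nat_lit 8) (nat_lit 5) (nat_lit 10) (nat_lit 5) (nat_lit 9) (nat_lit 5) (nat_lit 394) (nat_lit 298) (nat_lit 169)))) (XT.nd (nat_lit 94) (nat_lit 168) (nat_lit 0) (XT.lf (nat_lit 0) (nat_lit 2648366006) (nat_lit 168) (nat_lit 11196376191) (nat_lit 84) (nat_lit 36157456739) (nat_lit 8) (nat_lit 5) (nat_lit 10) (nat_lit 5) (nat_lit 9) (nat_lit 5) (nat_lit 395) (nat_lit 298) (nat_lit 168)) (XT.nd (nat_lit 94) (nat_lit 168) (nat_lit 0) (XT.lf (nat_lit 0) (nat_lit 5133872419) (nat_lit 168) (nat_lit 4666339264) (nat_lit 84) (nat_lit 41600664748) (nat_lit 8) (nat_lit 5) (nat_lit 10) (nat_lit 5) (nat_lit 9) (nat_lit 5) (nat_lit 396) (nat_lit 298) (nat_lit 167)) (XT.lf (nat_lit 0) (nat_lit 2101085452) (nat_lit 168) (nat_lit 5611360185) (nat_lit 252) (nat_lit 45129985929) (nat_lit 6) (nat_lit 5) (nat_lit 8) (nat_lit 5) (nat_lit 9) (nat_lit 5) (nat_lit 397)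 (nat_lit 298) (nat_lit 166)))))) (XT.nd (nat_lit 564) (nat_lit 84) (nat_lit 0) (XT.nd (nat_lit 282) (nat_lit 0) (nat_lit 0) (XT.nd (nat_lit 94) (nat_lit 0) (nat_lit 0) (XT.lf (nat_lit 0) (nat_lit 9169923402) (nat_lit 168) (nat_lit 1244984023) (nat_lit 252) (nat_lit 43912419631) (nat_lit 6) (nat_lit 5) (nat_lit 8) (nat_lit 5) (nat_lit 9) (nat_lit 5) (nat_lit 398) (nat_lit 298) (nat_lit 165)) (XT.nd (nat_lit 94) (nat_lit 0) (nat_lit 0) (XT.lf (nat_lit 0) (nat_lit 13228817125) (nat_lit 252) (nat_lit 39439880377) (nat_lit 84) (nat_lit 3188713226) (nat_lit 6) (nat_lit 5) (nat_lit 9) (nat_lit 5) (nat_lit 7) (nat_lit 4) (nat_lit 399) (nat_lit 298) (nat_lit 164)) (XT.lf (nat_lit 0) (nat_lit 16138194904) (nat_lit 252) (nat_lit 33564844262) (nat_lit 84) (nat_lit 7731646296) (nat_lit 6) (nat_lit 5) (nat_lit 9) (nat_lit 5) (nat_lit 7) (nat_lit 4) (nat_lit 400) (nat_lit 298) (nat_lit 163)))) (XT.nd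 (nat_lit 94) (nat_lit 0) (nat_lit 0) (XT.lf (nat_lit 0) (nat_lit 19133402213) (nat_lit 252) (nat_lit 27514468767) (nat_lit 84) (nat_lit 12413133329) (nat_lit 6) (nat_lit 5) (nat_lit 9) (nat_lit 5) (nat_lit 7) (nat_lit 4) (nat_lit 401) (nat_lit 298) (nat_lit 162)) (XT.nd (nat_lit 94) (nat_lit 0) (nat_lit 0) (XT.lf (nat_lit 0) (nat_lit 22217230898) (nat_lit 252) (nat_lit 21283114306) (nat_lit 84) (nat_lit 17237537961) (nat_lit 6) (nat_lit 5) (nat_lit 9) (nat_lit 5) (nat_lit 7) (nat_lit 4) (nat_lit 402) (nat_lit 298) (nat_lit 161)) (XT.lf (nat_lit 0) (nat_lit 25392555411) (nat_lit 252) (nat_lit 14864972605) (nat_lit 84) (nat_lit 22209357043) (nat_lit 6) (nat_lit 5) (nat_lit 9) (nat_lit 5) (nat_lit 7) (nat_lit 4) (nat_lit 403) (nat_lit 298) (nat_lit 160))))) (XT.nd (nat_lit 282) (nat_lit 0) (nat_lit 0) (XT.nd (nat_lit 94) (nat_lit 84) (nat_lit 0) (XT.lf (nat_lit 0) (nat_lit 28662335487)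 (nat_lit 252) (nat_lit 8254061283) (nat_lit 84) (nat_lit 27333224830) (nat_lit 6) (nat_lit 5) (nat_lit 9) (nat_lit 5) (nat_lit 7) (nat_lit 4) (nat_lit 404) (nat_lit 298) (nat_lit 159)) (XT.nd (nat_lit 94) (nat_lit 84) (nat_lit 0) (XT.lf (nat_lit 0) (nat_lit 32029618903) (nat_lit 252) (nat_lit 1444218279) (nat_lit 84) (nat_lit 32613917305) (nat_lit 6) (nat_lit 5) (nat_lit 9) (nat_lit 5) (nat_lit 7) (nat_lit 4) (nat_lit 405) (nat_lit 298) (nat_lit 158)) (XT.lf (nat_lit 0) (nat_lit 5685453103) (nat_lit 84) (nat_lit 29868491616) (nat_lit 168) (nat_lit 32427303920) (nat_lit 5) (nat_lit 5) (nat_lit 6) (nat_lit 5) (nat_lit 7) (nat_lit 4) (nat_lit 406) (nat_lit 298) (nat_lit 157)))) (XT.nd (nat_lit 188) (nat_lit 0) (nat_lit 0) (XT.nd (nat_lit 94) (nat_lit 0) (nat_lit 0) (XT.lf (nat_lit 0) (nat_lit 13060993987) (nat_lit 84) (nat_lit 26137916899) (nat_lit 168) (nat_lit 30734188405) (nat_lit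 5) (nat_lit 5) (nat_lit 6) (nat_lit 5) (nat_lit 7) (nat_lit 4) (nat_lit 407) (nat_lit 298) (nat_lit 156)) (XT.lf (nat_lit 0) (nat_lit 20659583058) (nat_lit 84) (nat_lit 22293710424) (nat_lit 168) (nat_lit 28992285554) (nat_lit 5) (nat_lit 5) (nat_lit 6) (nat_lit 5) (nat_lit 7) (nat_lit 4) (nat_lit 408) (nat_lit 298) (nat_lit 155))) (XT.nd (nat_lit 94) (nat_lit 0) (nat_lit 0) (XT.lf (nat_lit 0) (nat_lit 28488302998) (nat_lit 84) (nat_lit 18332288986) (nat_lit 168) (nat_lit 27199971732) (nat_lit 5) (nat_lit 5) (nat_lit 6) (nat_lit 5) (nat_lit 7) (nat_lit 4) (nat_lit 409) (nat_lit 298) (nat_lit 154)) (XT.lf (nat_lit 0) (nat_lit 36554450993) (nat_lit 84) (nat_lit 14249960127) (nat_lit 168) (nat_lit 25355576315) (nat_lit 5) (nat_lit 5) (nat_lit 6) (nat_lit 5) (nat_lit 7) (nat_lit 4) (nat_lit 410) (nat_lit 298) (nat_lit 153))))))))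
noncomputable def xc114 : XT := (XT.nd (nat_lit 45026) (nat_lit 0) (nat_lit 4116) (XT.nd (nat_lit 43898) (nat_lit 0) (nat_lit 9828) (XT.nd (nat_lit 564) (nat_lit 84) (nat_lit 0) (XT.nd (nat_lit 282) (nat_lit 0) (nat_lit 0) (XT.nd (nat_lit 94) (nat_lit 0) (nat_lit 0) (XT.lf (nat_lit 0) (nat_lit 44865545539) (nat_lit 84) (nat_lit 10042918687) (nat_lit 168) (nat_lit 23457380132) (nat_lit 5) (nat_lit 5) (nat_lit 6) (nat_lit 5) (nat_lit 7) (nat_lit 4) (nat_lit 411) (nat_lit 298) (nat_lit 152)) (XT.nd (nat_lit 94) (nat_lit 0) (nat_lit 0) (XT.lf (nat_lit 0) (nat_lit 53429333446) (nat_lit 84) (nat_lit 5707243264) (nat_lit 168) (nat_lit 21503613866) (nat_lit 5) (nat_lit 5) (nat_lit 6) (nat_lit 5) (nat_lit 7) (nat_lit 4) (nat_lit 412) (nat_lit 298) (nat_lit 151)) (XT.lf (nat_lit 0) (nat_lit 62253797061) (nat_lit 84) (nat_lit 1238892554) (nat_lit 168) (nat_lit 19492456403) (nat_lit 5) (nat_lit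 5) (nat_lit 6) (nat_lit 5) (nat_lit 7) (nat_lit 4) (nat_lit 413) (nat_lit 298) (nat_lit 150)))) (XT.nd (nat_lit 94) (nat_lit 0) (nat_lit 0) (XT.lf (nat_lit 0) (nat_lit 68014257392) (nat_lit 168) (nat_lit 14089128816) (nat_lit 0) (nat_lit 3298475003) (nat_lit 5) (nat_lit 5) (nat_lit 7) (nat_lit 4) (nat_lit 5) (nat_lit 4) (nat_lit 414) (nat_lit 298) (nat_lit 149)) (XT.nd (nat_lit 94) (nat_lit 0) (nat_lit 0) (XT.lf (nat_lit 0) (nat_lit 72685759415) (nat_lit 168) (nat_lit 7258270259) (nat_lit 0) (nat_lit 7949170903) (nat_lit 5) (nat_lit 5) (nat_lit 7) (nat_lit 4) (nat_lit 5) (nat_lit 4) (nat_lit 415) (nat_lit 298) (nat_lit 148)) (XT.lf (nat_lit 0) (nat_lit 77499260044) (nat_lit 168) (nat_lit 220116245) (nat_lit 0) (nat_lit 12742491007) (nat_lit 5) (nat_lit 5) (nat_lit 7) (nat_lit 4) (nat_lit 5) (nat_lit 4) (nat_lit 416) (nat_lit 298) (nat_lit 147))))) (XT.nd (nat_lit 43052) (nat_lit 0)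 (nat_lit 11172) (XT.nd (nat_lit 94) (nat_lit 0) (nat_lit 0) (XT.lf (nat_lit 0) (nat_lit 7176483676) (nat_lit 84) (nat_lit 75353953896) (nat_lit 84) (nat_lit 10577611120) (nat_lit 4) (nat_lit 4) (nat_lit 5) (nat_lit 5) (nat_lit 5) (nat_lit 4) (nat_lit 417) (nat_lit 298) (nat_lit 146)) (XT.nd (nat_lit 42864) (nat_lit 0) (nat_lit 11928) (XT.lf (nat_lit 0) (nat_lit 14802761332) (nat_lit 84) (nat_lit 72914424302) (nat_lit 84) (nat_lit 8119096327) (nat_lit 4) (nat_lit 4) (nat_lit 5) (nat_lit 5) (nat_lit 5) (nat_lit 4) (nat_lit 418) (nat_lit 298) (nat_lit 145)) (XT.lf (nat_lit 0) (nat_lit 1373712504) (nat_lit 0) (nat_lit 1373712504) (nat_lit 588) (nat_lit 826357188) (nat_lit 146) (nat_lit 5) (nat_lit 146) (nat_lit 3) (nat_lit 153) (nat_lit 3) (nat_lit 299) (nat_lit 299) (nat_lit 263)))) (XT.nd (nat_lit 94) (nat_lit 756) (nat_lit 0) (XT.lf (nat_lit 0) (nat_lit 5442165370) (nat_lit 0) (nat_lit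 1473161113) (nat_lit 588) (nat_lit 292075931) (nat_lit 146) (nat_lit 5) (nat_lit 146) (nat_lit 3) (nat_lit 153) (nat_lit 3) (nat_lit 300) (nat_lit 299) (nat_lit 262)) (XT.nd (nat_lit 94) (nat_lit 0) (nat_lit 84) (XT.lf (nat_lit 84) (nat_lit 930677308) (nat_lit 0) (nat_lit 112183985) (nat_lit 756) (nat_lit 6227676536) (nat_lit 138) (nat_lit 5) (nat_lit 137) (nat_lit 3) (nat_lit 146) (nat_lit 5) (nat_lit 301) (nat_lit 299) (nat_lit 261)) (XT.lf (nat_lit 0) (nat_lit 2391417980) (nat_lit 672) (nat_lit 3633836468) (nat_lit 756) (nat_lit 1311318189) (nat_lit 138) (nat_lit 5) (nat_lit 146) (nat_lit 5) (nat_lit 147) (nat_lit 5) (nat_lit 302) (nat_lit 299) (nat_lit 260)))))) (XT.nd (nat_lit 564) (nat_lit 756) (nat_lit 0) (XT.nd (nat_lit 282) (nat_lit 672) (nat_lit 0) (XT.nd (nat_lit 94) (nat_lit 0) (nat_lit 0) (XT.lf (nat_lit 0) (nat_lit 3731407315) (nat_lit 672) (nat_lit 874541430) (nat_lit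 756) (nat_lit 2800618648) (nat_lit 138) (nat_lit 5) (nat_lit 146) (nat_lit 5) (nat_lit 147) (nat_lit 5) (nat_lit 303) (nat_lit 299) (nat_lit 259)) (XT.nd (nat_lit 94) (nat_lit 0) (nat_lit 0) (XT.lf (nat_lit 84) (nat_lit 1981634951) (nat_lit 0) (nat_lit 3100988543) (nat_lit 756) (nat_lit 2397388943) (nat_lit 139) (nat_lit 5) (nat_lit 138) (nat_lit 5) (nat_lit 147) (nat_lit 5) (nat_lit 304) (nat_lit 299) (nat_lit 258)) (XT.lf (nat_lit 84) (nat_lit 4916599658) (nat_lit 0) (nat_lit 1519507095) (nat_lit 756) (nat_lit 1121186272) (nat_lit 139) (nat_lit 5) (nat_lit 138) (nat_lit 5) (nat_lit 147) (nat_lit 5) (nat_lit 305) (nat_lit 299) (nat_lit 257)))) (XT.nd (nat_lit 94) (nat_lit 0) (nat_lit 0) (XT.lf (nat_lit 0) (nat_lit 146701764) (nat_lit 756) (nat_lit 7359406291) (nat_lit 840) (nat_lit 132475006) (nat_lit 130) (nat_lit 5) (nat_lit 139) (nat_lit 5) (nat_lit 140) (nat_lit 5) (nat_lit 306)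 (nat_lit 299) (nat_lit 256)) (XT.nd (nat_lit 94) (nat_lit 0) (nat_lit 0) (XT.lf (nat_lit 0) (nat_lit 1427256650) (nat_lit 756) (nat_lit 4433674474) (nat_lit 840) (nat_lit 1861511853) (nat_lit 130) (nat_lit 5) (nat_lit 139) (nat_lit 5) (nat_lit 140) (nat_lit 5) (nat_lit 307) (nat_lit 299) (nat_lit 255)) (XT.lf (nat_lit 0) (nat_lit 2702179623) (nat_lit 756) (nat_lit 1446721264) (nat_lit 840) (nat_lit 3661699382) (nat_lit 130) (nat_lit 5) (nat_lit 139) (nat_lit 5) (nat_lit 140) (nat_lit 5) (nat_lit 308) (nat_lit 299) (nat_lit 254))))) (XT.nd (nat_lit 282) (nat_lit 756) (nat_lit 0) (XT.nd (nat_lit 94) (nat_lit 0) (nat_lit 0) (XT.lf (nat_lit 84) (nat_lit 1637223905) (nat_lit 0) (nat_lit 2351676601) (nat_lit 840) (nat_lit 3913733115) (nat_lit 131) (nat_lit 5) (nat_lit 130) (nat_lit 5) (nat_lit 140) (nat_lit 5) (nat_lit 309) (nat_lit 299) (nat_lit 253)) (XT.nd (nat_lit 94) (nat_lit 0) (nat_lit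 84) (XT.lf (nat_lit 84) (nat_lit 4819140552) (nat_lit 0) (nat_lit 468545050) (nat_lit 840) (nat_lit 2710972143) (nat_lit 131) (nat_lit 5) (nat_lit 130) (nat_lit 5) (nat_lit 140) (nat_lit 5) (nat_lit 310) (nat_lit 299) (nat_lit 252)) (XT.lf (nat_lit 0) (nat_lit 6599851455) (nat_lit 756) (nat_lit 41721890) (nat_lit 840) (nat_lit 1457185515) (nat_lit 131) (nat_lit 5) (nat_lit 140) (nat_lit 5) (nat_lit 141) (nat_lit 5) (nat_lit 311) (nat_lit 299) (nat_lit 251)))) (XT.nd (nat_lit 94) (nat_lit 840) (nat_lit 0) (XT.lf (nat_lit 84) (nat_lit 3225263331) (nat_lit 0) (nat_lit 4723972303) (nat_lit 840) (nat_lit 253093587) (nat_lit 132) (nat_lit 5) (nat_lit 131) (nat_lit 5) (nat_lit 141) (nat_lit 5) (nat_lit 312) (nat_lit 299) (nat_lit 250)) (XT.nd (nat_lit 94) (nat_lit 0) (nat_lit 0) (XT.lf (nat_lit 0) (nat_lit 971039617) (nat_lit 840) (nat_lit 1753973179) (nat_lit 924) (nat_lit 5585249031) (nat_lit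 121) (nat_lit 5) (nat_lit 131) (nat_lit 5) (nat_lit 132) (nat_lit 5) (nat_lit 313) (nat_lit 299) (nat_lit 249)) (XT.lf (nat_lit 84) (nat_lit 1569899811) (nat_lit 0) (nat_lit 634777377) (nat_lit 924) (nat_lit 6217737920) (nat_lit 122) (nat_lit 5) (nat_lit 121) (nat_lit 5) (nat_lit 132) (nat_lit 5) (nat_lit 314) (nat_lit 299) (nat_lit 248))))))) (XT.nd (nat_lit 1128) (nat_lit 2352) (nat_lit 0) (XT.nd (nat_lit 564) (nat_lit 1596) (nat_lit 0) (XT.nd (nat_lit 282) (nat_lit 1008) (nat_lit 0) (XT.nd (nat_lit 94) (nat_lit 840) (nat_lit 0) (XT.lf (nat_lit 0) (nat_lit 3472361501) (nat_lit 840) (nat_lit 3548143683) (nat_lit 84) (nat_lit 1517899161) (nat_lit 122) (nat_lit 5) (nat_lit 132) (nat_lit 5) (nat_lit 123) (nat_lit 5) (nat_lit 315) (nat_lit 299) (nat_lit 247)) (XT.nd (nat_lit 94) (nat_lit 840) (nat_lit 0) (XT.lf (nat_lit 0) (nat_lit 4749199766) (nat_lit 840) (nat_lit 176338910) (nat_lit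 84) (nat_lit 3733607283) (nat_lit 122) (nat_lit 5) (nat_lit 132) (nat_lit 5) (nat_lit 123) (nat_lit 5) (nat_lit 316) (nat_lit 299) (nat_lit 246)) (XT.lf (nat_lit 0) (nat_lit 3339624967) (nat_lit 840) (nat_lit 2723589585) (nat_lit 924) (nat_lit 2720706138) (nat_lit 112) (nat_lit 5) (nat_lit 122) (nat_lit 5) (nat_lit 123) (nat_lit 5) (nat_lit 317) (nat_lit 299) (nat_lit 245)))) (XT.nd (nat_lit 94) (nat_lit 1008) (nat_lit 0) (XT.lf (nat_lit 0) (nat_lit 6940949134) (nat_lit 840) (nat_lit 444117241) (nat_lit 924) (nat_lit 1528725958) (nat_lit 112) (nat_lit 5) (nat_lit 122) (nat_lit 5) (nat_lit 123) (nat_lit 5) (nat_lit 318) (nat_lit 299) (nat_lit 244)) (XT.nd (nat_lit 94) (nat_lit 84) (nat_lit 0) (XT.lf (nat_lit 0) (nat_lit 1591513876) (nat_lit 924) (nat_lit 7157455013) (nat_lit 1008) (nat_lit 298890625) (nat_lit 101) (nat_lit 5) (nat_lit 112) (nat_lit 5) (nat_lit 113) (nat_lit 5) (nat_lit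 319) (nat_lit 299) (nat_lit 243)) (XT.lf (nat_lit 0) (nat_lit 941475901) (nat_lit 1008) (nat_lit 3920085029) (nat_lit 84) (nat_lit 4324664754) (nat_lit 100) (nat_lit 5) (nat_lit 112) (nat_lit 5) (nat_lit 101) (nat_lit 5) (nat_lit 320) (nat_lit 299) (nat_lit 242))))) (XT.nd (nat_lit 282) (nat_lit 588) (nat_lit 0) (XT.nd (nat_lit 94) (nat_lit 1008) (nat_lit 0) (XT.lf (nat_lit 0) (nat_lit 2181675398) (nat_lit 1008) (nat_lit 304865146) (nat_lit 84) (nat_lit 6843435639) (nat_lit 100) (nat_lit 5) (nat_lit 112) (nat_lit 5) (nat_lit 101) (nat_lit 5) (nat_lit 321) (nat_lit 299) (nat_lit 241)) (XT.nd (nat_lit 94) (nat_lit 0) (nat_lit 0) (XT.lf (nat_lit 0) (nat_lit 3463285624) (nat_lit 1092) (nat_lit 6012822783) (nat_lit 84) (nat_lit 2162116) (nat_lit 88) (nat_lit 5) (nat_lit 101) (nat_lit 5) (nat_lit 89) (nat_lit 5) (nat_lit 322) (nat_lit 299) (nat_lit 240)) (XT.lf (nat_lit 0) (nat_lit 4782561068)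 (nat_lit 1092) (nat_lit 2325100234) (nat_lit 84) (nat_lit 2523738772) (nat_lit 88) (nat_lit 5) (nat_lit 101) (nat_lit 5) (nat_lit 89) (nat_lit 5) (nat_lit 323) (nat_lit 299) (nat_lit 239)))) (XT.nd (nat_lit 94) (nat_lit 0) (nat_lit 0) (XT.lf (nat_lit 0) (nat_lit 1479914666) (nat_lit 588) (nat_lit 4647712861) (nat_lit 672) (nat_lit 3662286264) (nat_lit 81) (nat_lit 5) (nat_lit 88) (nat_lit 5) (nat_lit 89) (nat_lit 5) (nat_lit 324) (nat_lit 299) (nat_lit 238)) (XT.nd (nat_lit 94) (nat_lit 0) (nat_lit 0) (XT.lf (nat_lit 0) (nat_lit 5425603674) (nat_lit 588) (nat_lit 2083901235) (nat_lit 672) (nat_lit 2444151763) (nat_lit 81) (nat_lit 5) (nat_lit 88) (nat_lit 5) (nat_lit 89) (nat_lit 5) (nat_lit 325) (nat_lit 299) (nat_lit 237)) (XT.lf (nat_lit 0) (nat_lit 8911515776) (nat_lit 672) (nat_lit 661249373) (nat_lit 84) (nat_lit 550573125) (nat_lit 81) (nat_lit 5) (nat_lit 89) (nat_lit 5) (nat_lit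 82) (nat_lit 5) (nat_lit 326) (nat_lit 299) (nat_lit 236)))))) (XT.nd (nat_lit 564) (nat_lit 840) (nat_lit 0) (XT.nd (nat_lit 282) (nat_lit 420) (nat_lit 0) (XT.nd (nat_lit 94) (nat_lit 504) (nat_lit 0) (XT.lf (nat_lit 0) (nat_lit 84748980) (nat_lit 588) (nat_lit 6952962976) (nat_lit 84) (nat_lit 3259855523) (nat_lit 74) (nat_lit 5) (nat_lit 81) (nat_lit 5) (nat_lit 75) (nat_lit 5) (nat_lit 327) (nat_lit 299) (nat_lit 235)) (XT.nd (nat_lit 94) (nat_lit 504) (nat_lit 0) (XT.lf (nat_lit 0) (nat_lit 1376057590) (nat_lit 588) (nat_lit 3027259220) (nat_lit 84) (nat_lit 6074270516) (nat_lit 74) (nat_lit 5) (nat_lit 81) (nat_lit 5) (nat_lit 75) (nat_lit 5) (nat_lit 328) (nat_lit 299) (nat_lit 234)) (XT.lf (nat_lit 0) (nat_lit 1014916822) (nat_lit 504) (nat_lit 1676110742) (nat_lit 588) (nat_lit 7972808254) (nat_lit 68) (nat_lit 5) (nat_lit 74) (nat_lit 5) (nat_lit 75) (nat_lit 5) (nat_lit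 329) (nat_lit 299) (nat_lit 233)))) (XT.nd (nat_lit 94) (nat_lit 420) (nat_lit 0) (XT.lf (nat_lit 0) (nat_lit 4064059128) (nat_lit 588) (nat_lit 5646247482) (nat_lit 84) (nat_lit 1145151538) (nat_lit 68) (nat_lit 5) (nat_lit 75) (nat_lit 5) (nat_lit 69) (nat_lit 5) (nat_lit 330) (nat_lit 299) (nat_lit 232)) (XT.nd (nat_lit 94) (nat_lit 420) (nat_lit 0) (XT.lf (nat_lit 0) (nat_lit 5471686078) (nat_lit 588) (nat_lit 1562200120) (nat_lit 84) (nat_lit 4019513859) (nat_lit 68) (nat_lit 5) (nat_lit 75) (nat_lit 5) (nat_lit 69) (nat_lit 5) (nat_lit 331) (nat_lit 299) (nat_lit 231)) (XT.lf (nat_lit 0) (nat_lit 2677604847) (nat_lit 420) (nat_lit 4247550567) (nat_lit 504) (nat_lit 4332382646) (nat_lit 63) (nat_lit 5) (nat_lit 68) (nat_lit 5) (nat_lit 69) (nat_lit 5) (nat_lit 332) (nat_lit 299) (nat_lit 230))))) (XT.nd (nat_lit 282) (nat_lit 420) (nat_lit 0) (XT.nd (nat_lit 94) (nat_lit 420)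 (nat_lit 0) (XT.lf (nat_lit 0) (nat_lit 7057416991) (nat_lit 420) (nat_lit 1358704110) (nat_lit 504) (nat_lit 3052242062) (nat_lit 63) (nat_lit 5) (nat_lit 68) (nat_lit 5) (nat_lit 69) (nat_lit 5) (nat_lit 333) (nat_lit 299) (nat_lit 229)) (XT.nd (nat_lit 94) (nat_lit 420) (nat_lit 0) (XT.lf (nat_lit 0) (nat_lit 9946218075) (nat_lit 504) (nat_lit 153426528) (nat_lit 84) (nat_lit 1586419672) (nat_lit 63) (nat_lit 5) (nat_lit 69) (nat_lit 5) (nat_lit 64) (nat_lit 5) (nat_lit 334) (nat_lit 299) (nat_lit 228)) (XT.lf (nat_lit 0) (nat_lit 4284607593) (nat_lit 420) (nat_lit 7273080666) (nat_lit 504) (nat_lit 351890771) (nat_lit 58) (nat_lit 5) (nat_lit 63) (nat_lit 5) (nat_lit 64) (nat_lit 5) (nat_lit 335) (nat_lit 299) (nat_lit 227)))) (XT.nd (nat_lit 188) (nat_lit 0) (nat_lit 0) (XT.nd (nat_lit 94) (nat_lit 336) (nat_lit 0) (XT.lf (nat_lit 0) (nat_lit 1036612053) (nat_lit 504) (nat_lit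 3311446300) (nat_lit 84) (nat_lit 7792385539) (nat_lit 57) (nat_lit 5) (nat_lit 63) (nat_lit 5) (nat_lit 58) (nat_lit 5) (nat_lit 336) (nat_lit 299) (nat_lit 226)) (XT.lf (nat_lit 0) (nat_lit 1131499257) (nat_lit 336) (nat_lit 1318890637) (nat_lit 420) (nat_lit 9928395141) (nat_lit 53) (nat_lit 5) (nat_lit 57) (nat_lit 5) (nat_lit 58) (nat_lit 5) (nat_lit 337) (nat_lit 299) (nat_lit 225))) (XT.nd (nat_lit 94) (nat_lit 0) (nat_lit 0) (XT.lf (nat_lit 0) (nat_lit 3939528627) (nat_lit 420) (nat_lit 6883319483) (nat_lit 84) (nat_lit 1800792695) (nat_lit 53) (nat_lit 5) (nat_lit 58) (nat_lit 5) (nat_lit 54) (nat_lit 5) (nat_lit 338) (nat_lit 299) (nat_lit 224)) (XT.lf (nat_lit 0) (nat_lit 5467677570) (nat_lit 420) (nat_lit 2420839756) (nat_lit 84) (nat_lit 4987892006) (nat_lit 53) (nat_lit 5) (nat_lit 58) (nat_lit 5) (nat_lit 54) (nat_lit 5) (nat_lit 339) (nat_lit 299) (nat_lit 223))))))))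
noncomputable def xc115 : XT := (XT.nd (nat_lit 2256) (nat_lit 1092) (nat_lit 0) (XT.nd (nat_lit 1128) (nat_lit 1092) (nat_lit 0) (XT.nd (nat_lit 564) (nat_lit 588) (nat_lit 0) (XT.nd (nat_lit 282) (nat_lit 420) (nat_lit 0) (XT.nd (nat_lit 94) (nat_lit 0) (nat_lit 0) (XT.lf (nat_lit 0) (nat_lit 2201756954) (nat_lit 420) (nat_lit 4843262309) (nat_lit 504) (nat_lit 6092035459) (nat_lit 48) (nat_lit 5) (nat_lit 53) (nat_lit 5) (nat_lit 54) (nat_lit 5) (nat_lit 340) (nat_lit 299) (nat_lit 222)) (XT.nd (nat_lit 94) (nat_lit 0) (nat_lit 0) (XT.lf (nat_lit 0) (nat_lit 6996622915) (nat_lit 420) (nat_lit 1680262940) (nat_lit 504) (nat_lit 4728814349) (nat_lit 48) (nat_lit 5) (nat_lit 53) (nat_lit 5) (nat_lit 54) (nat_lit 5) (nat_lit 341) (nat_lit 299) (nat_lit 221)) (XT.lf (nat_lit 0) (nat_lit 10355945137) (nat_lit 504) (nat_lit 1780561489) (nat_lit 84) (nat_lit 1546364010) (nat_lit 48) (nat_lit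 5) (nat_lit 54) (nat_lit 5) (nat_lit 49) (nat_lit 5) (nat_lit 342) (nat_lit 299) (nat_lit 220)))) (XT.nd (nat_lit 94) (nat_lit 84) (nat_lit 0) (XT.lf (nat_lit 0) (nat_lit 3013300150) (nat_lit 336) (nat_lit 9102329350) (nat_lit 420) (nat_lit 1852206982) (nat_lit 44) (nat_lit 5) (nat_lit 48) (nat_lit 5) (nat_lit 49) (nat_lit 5) (nat_lit 343) (nat_lit 299) (nat_lit 219)) (XT.nd (nat_lit 94) (nat_lit 84) (nat_lit 0) (XT.lf (nat_lit 0) (nat_lit 7972073504) (nat_lit 336) (nat_lit 5958216396) (nat_lit 420) (nat_lit 331419426) (nat_lit 44) (nat_lit 5) (nat_lit 48) (nat_lit 5) (nat_lit 49) (nat_lit 5) (nat_lit 344) (nat_lit 299) (nat_lit 218)) (XT.lf (nat_lit 0) (nat_lit 1193723879) (nat_lit 420) (nat_lit 1513638623) (nat_lit 84) (nat_lit 11857584766) (nat_lit 43) (nat_lit 5) (nat_lit 48) (nat_lit 5) (nat_lit 44) (nat_lit 5) (nat_lit 345) (nat_lit 299) (nat_lit 217))))) (XT.nd (nat_lit 282)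 (nat_lit 252) (nat_lit 0) (XT.nd (nat_lit 94) (nat_lit 0) (nat_lit 0) (XT.lf (nat_lit 0) (nat_lit 2782952547) (nat_lit 420) (nat_lit 11427731438) (nat_lit 84) (nat_lit 666140832) (nat_lit 39) (nat_lit 5) (nat_lit 44) (nat_lit 5) (nat_lit 40) (nat_lit 5) (nat_lit 346) (nat_lit 299) (nat_lit 216)) (XT.nd (nat_lit 94) (nat_lit 0) (nat_lit 0) (XT.lf (nat_lit 0) (nat_lit 4448045308) (nat_lit 420) (nat_lit 6648945607) (nat_lit 84) (nat_lit 4100631459) (nat_lit 39) (nat_lit 5) (nat_lit 44) (nat_lit 5) (nat_lit 40) (nat_lit 5) (nat_lit 347) (nat_lit 299) (nat_lit 215)) (XT.lf (nat_lit 0) (nat_lit 6148215870) (nat_lit 420) (nat_lit 1742358532) (nat_lit 84) (nat_lit 7638377044) (nat_lit 39) (nat_lit 5) (nat_lit 44) (nat_lit 5) (nat_lit 40) (nat_lit 5) (nat_lit 348) (nat_lit 299) (nat_lit 214)))) (XT.nd (nat_lit 94) (nat_lit 0) (nat_lit 0) (XT.lf (nat_lit 0) (nat_lit 3364388161) (nat_lit 252)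 (nat_lit 4554035955) (nat_lit 336) (nat_lit 7951662119) (nat_lit 36) (nat_lit 5) (nat_lit 39) (nat_lit 5) (nat_lit 40) (nat_lit 5) (nat_lit 349) (nat_lit 299) (nat_lit 213)) (XT.nd (nat_lit 94) (nat_lit 0) (nat_lit 0) (XT.lf (nat_lit 0) (nat_lit 8646851329) (nat_lit 252) (nat_lit 1099090023) (nat_lit 336) (nat_lit 6475849103) (nat_lit 36) (nat_lit 5) (nat_lit 39) (nat_lit 5) (nat_lit 40) (nat_lit 5) (nat_lit 350) (nat_lit 299) (nat_lit 212)) (XT.lf (nat_lit 0) (nat_lit 11639227732) (nat_lit 336) (nat_lit 2535206983) (nat_lit 84) (nat_lit 2409747758) (nat_lit 36) (nat_lit 5) (nat_lit 40) (nat_lit 5) (nat_lit 37) (nat_lit 5) (nat_lit 351) (nat_lit 299) (nat_lit 211)))))) (XT.nd (nat_lit 564) (nat_lit 420) (nat_lit 0) (XT.nd (nat_lit 282) (nat_lit 252) (nat_lit 0) (XT.nd (nat_lit 94) (nat_lit 84) (nat_lit 0) (XT.lf (nat_lit 0) (nat_lit 2684744644) (nat_lit 336) (nat_lit 10929479240) (nat_lit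 420) (nat_lit 3342936739) (nat_lit 32) (nat_lit 5) (nat_lit 36) (nat_lit 5) (nat_lit 37) (nat_lit 5) (nat_lit 352) (nat_lit 299) (nat_lit 210)) (XT.nd (nat_lit 94) (nat_lit 84) (nat_lit 0) (XT.lf (nat_lit 0) (nat_lit 8101588070) (nat_lit 336) (nat_lit 7560724469) (nat_lit 420) (nat_lit 1679084225) (nat_lit 32) (nat_lit 5) (nat_lit 36) (nat_lit 5) (nat_lit 37) (nat_lit 5) (nat_lit 353) (nat_lit 299) (nat_lit 209)) (XT.lf (nat_lit 0) (nat_lit 21254291) (nat_lit 420) (nat_lit 4070016590) (nat_lit 84) (nat_lit 13646767161) (nat_lit 31) (nat_lit 5) (nat_lit 36) (nat_lit 5) (nat_lit 32) (nat_lit 5) (nat_lit 354) (nat_lit 299) (nat_lit 208)))) (XT.nd (nat_lit 94) (nat_lit 0) (nat_lit 0) (XT.lf (nat_lit 0) (nat_lit 1250143375) (nat_lit 252) (nat_lit 487753683) (nat_lit 336) (nat_lit 16408651137) (nat_lit 28) (nat_lit 5) (nat_lit 31) (nat_lit 5) (nat_lit 32) (nat_lit 5) (nat_lit 355) (nat_lit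 299) (nat_lit 207)) (XT.nd (nat_lit 94) (nat_lit 0) (nat_lit 0) (XT.lf (nat_lit 0) (nat_lit 3568963358) (nat_lit 336) (nat_lit 11795515434) (nat_lit 84) (nat_lit 3201402191) (nat_lit 28) (nat_lit 5) (nat_lit 32) (nat_lit 5) (nat_lit 29) (nat_lit 5) (nat_lit 356) (nat_lit 299) (nat_lit 206)) (XT.lf (nat_lit 0) (nat_lit 5448467570) (nat_lit 336) (nat_lit 6559110058) (nat_lit 84) (nat_lit 6990948105) (nat_lit 28) (nat_lit 5) (nat_lit 32) (nat_lit 5) (nat_lit 29) (nat_lit 5) (nat_lit 357) (nat_lit 299) (nat_lit 205))))) (XT.nd (nat_lit 282) (nat_lit 168) (nat_lit 0) (XT.nd (nat_lit 94) (nat_lit 252) (nat_lit 0) (XT.lf (nat_lit 0) (nat_lit 7373323010) (nat_lit 336) (nat_lit 1177469236) (nat_lit 84) (nat_lit 10894243465) (nat_lit 28) (nat_lit 5) (nat_lit 32) (nat_lit 5) (nat_lit 29) (nat_lit 5) (nat_lit 358) (nat_lit 299) (nat_lit 204)) (XT.nd (nat_lit 94) (nat_lit 0) (nat_lit 0) (XT.lf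 (nat_lit 0) (nat_lit 4443959155) (nat_lit 252) (nat_lit 4945449315) (nat_lit 336) (nat_lit 10515052017) (nat_lit 25) (nat_lit 5) (nat_lit 28) (nat_lit 5) (nat_lit 29) (nat_lit 5) (nat_lit 359) (nat_lit 299) (nat_lit 203)) (XT.lf (nat_lit 0) (nat_lit 10248202239) (nat_lit 252) (nat_lit 1219769384) (nat_lit 336) (nat_lit 8910206249) (nat_lit 25) (nat_lit 5) (nat_lit 28) (nat_lit 5) (nat_lit 29) (nat_lit 5) (nat_lit 360) (nat_lit 299) (nat_lit 202)))) (XT.nd (nat_lit 94) (nat_lit 168) (nat_lit 0) (XT.lf (nat_lit 0) (nat_lit 13624994318) (nat_lit 336) (nat_lit 4676505200) (nat_lit 84) (nat_lit 2564694526) (nat_lit 25) (nat_lit 5) (nat_lit 29) (nat_lit 5) (nat_lit 26) (nat_lit 5) (nat_lit 361) (nat_lit 299) (nat_lit 201)) (XT.nd (nat_lit 94) (nat_lit 0) (nat_lit 0) (XT.lf (nat_lit 0) (nat_lit 936611203) (nat_lit 168) (nat_lit 14922419818) (nat_lit 252) (nat_lit 5510040000) (nat_lit 23)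 (nat_lit 5) (nat_lit 25) (nat_lit 5) (nat_lit 26) (nat_lit 5) (nat_lit 362) (nat_lit 299) (nat_lit 200)) (XT.lf (nat_lit 0) (nat_lit 6807226828) (nat_lit 168) (nat_lit 11392482975) (nat_lit 252) (nat_lit 3686713819) (nat_lit 23) (nat_lit 5) (nat_lit 25) (nat_lit 5) (nat_lit 26) (nat_lit 5) (nat_lit 363) (nat_lit 299) (nat_lit 199))))))) (XT.nd (nat_lit 1128) (nat_lit 420) (nat_lit 0) (XT.nd (nat_lit 564) (nat_lit 336) (nat_lit 0) (XT.nd (nat_lit 282) (nat_lit 0) (nat_lit 0) (XT.nd (nat_lit 94) (nat_lit 336) (nat_lit 0) (XT.lf (nat_lit 0) (nat_lit 12844655164) (nat_lit 168) (nat_lit 7757211842) (nat_lit 252) (nat_lit 1818334776) (nat_lit 23) (nat_lit 5) (nat_lit 25) (nat_lit 5) (nat_lit 26) (nat_lit 5) (nat_lit 364) (nat_lit 299) (nat_lit 198)) (XT.nd (nat_lit 94) (nat_lit 252) (nat_lit 0) (XT.lf (nat_lit 0) (nat_lit 94887570) (nat_lit 252) (nat_lit 3917339961) (nat_lit 84) (nat_lit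 18958645726) (nat_lit 22) (nat_lit 5) (nat_lit 25) (nat_lit 5) (nat_lit 23) (nat_lit 5) (nat_lit 365) (nat_lit 299) (nat_lit 197)) (XT.lf (nat_lit 0) (nat_lit 1921859937) (nat_lit 252) (nat_lit 116280435) (nat_lit 336) (nat_lit 21499675629) (nat_lit 19) (nat_lit 5) (nat_lit 22) (nat_lit 5) (nat_lit 23) (nat_lit 5) (nat_lit 366) (nat_lit 299) (nat_lit 196)))) (XT.nd (nat_lit 94) (nat_lit 0) (nat_lit 0) (XT.lf (nat_lit 0) (nat_lit 4111196240) (nat_lit 336) (nat_lit 16149766573) (nat_lit 84) (nat_lit 3859253729) (nat_lit 19) (nat_lit 5) (nat_lit 23) (nat_lit 5) (nat_lit 20) (nat_lit 5) (nat_lit 367) (nat_lit 299) (nat_lit 195)) (XT.nd (nat_lit 94) (nat_lit 0) (nat_lit 0) (XT.lf (nat_lit 0) (nat_lit 6239582137) (nat_lit 336) (nat_lit 10529581878) (nat_lit 84) (nat_lit 7951822290) (nat_lit 19) (nat_lit 5) (nat_lit 23) (nat_lit 5) (nat_lit 20) (nat_lit 5) (nat_lit 368) (nat_lit 299) (nat_lit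 194)) (XT.lf (nat_lit 0) (nat_lit 8424128423) (nat_lit 336) (nat_lit 4749009863) (nat_lit 84) (nat_lit 12167582740) (nat_lit 19) (nat_lit 5) (nat_lit 23) (nat_lit 5) (nat_lit 20) (nat_lit 5) (nat_lit 369) (nat_lit 299) (nat_lit 193))))) (XT.nd (nat_lit 282) (nat_lit 168) (nat_lit 0) (XT.nd (nat_lit 94) (nat_lit 0) (nat_lit 0) (XT.lf (nat_lit 0) (nat_lit 1221957285) (nat_lit 168) (nat_lit 9457036009) (nat_lit 252) (nat_lit 15300629293) (nat_lit 17) (nat_lit 5) (nat_lit 19) (nat_lit 5) (nat_lit 20) (nat_lit 5) (nat_lit 370) (nat_lit 299) (nat_lit 192)) (XT.nd (nat_lit 94) (nat_lit 0) (nat_lit 0) (XT.lf (nat_lit 0) (nat_lit 7465414504) (nat_lit 168) (nat_lit 5578544649) (nat_lit 252) (nat_lit 13593159253) (nat_lit 17) (nat_lit 5) (nat_lit 19) (nat_lit 5) (nat_lit 20) (nat_lit 5) (nat_lit 371) (nat_lit 299) (nat_lit 191)) (XT.lf (nat_lit 0) (nat_lit 13889531967) (nat_lit 168) (nat_lit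 1583618971) (nat_lit 252) (nat_lit 11842160867) (nat_lit 17) (nat_lit 5) (nat_lit 19) (nat_lit 5) (nat_lit 20) (nat_lit 5) (nat_lit 372) (nat_lit 299) (nat_lit 190)))) (XT.nd (nat_lit 94) (nat_lit 168) (nat_lit 0) (XT.lf (nat_lit 0) (nat_lit 17993945353) (nat_lit 252) (nat_lit 7539649750) (nat_lit 84) (nat_lit 2480461341) (nat_lit 17) (nat_lit 5) (nat_lit 20) (nat_lit 5) (nat_lit 18) (nat_lit 5) (nat_lit 373) (nat_lit 299) (nat_lit 189)) (XT.nd (nat_lit 94) (nat_lit 168) (nat_lit 0) (XT.lf (nat_lit 0) (nat_lit 20600495919) (nat_lit 252) (nat_lit 1499631025) (nat_lit 84) (nat_lit 6634130761) (nat_lit 17) (nat_lit 5) (nat_lit 20) (nat_lit 5) (nat_lit 18) (nat_lit 5) (nat_lit 374) (nat_lit 299) (nat_lit 188)) (XT.lf (nat_lit 0) (nat_lit 4812578697) (nat_lit 168) (nat_lit 18514685199) (nat_lit 252) (nat_lit 6148330015) (nat_lit 15) (nat_lit 5) (nat_lit 17) (nat_lit 5) (nat_lit 18) (nat_lit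 5) (nat_lit 375) (nat_lit 299) (nat_lit 187)))))) (XT.nd (nat_lit 564) (nat_lit 168) (nat_lit 0) (XT.nd (nat_lit 282) (nat_lit 168) (nat_lit 0) (XT.nd (nat_lit 94) (nat_lit 84) (nat_lit 0) (XT.lf (nat_lit 0) (nat_lit 11340367607) (nat_lit 168) (nat_lit 14805652532) (nat_lit 252) (nat_lit 4093689820) (nat_lit 15) (nat_lit 5) (nat_lit 17) (nat_lit 5) (nat_lit 18) (nat_lit 5) (nat_lit 376) (nat_lit 299) (nat_lit 186)) (XT.nd (nat_lit 94) (nat_lit 84) (nat_lit 0) (XT.lf (nat_lit 0) (nat_lit 18058984797) (nat_lit 168) (nat_lit 10985224808) (nat_lit 252) (nat_lit 1983579133) (nat_lit 15) (nat_lit 5) (nat_lit 17) (nat_lit 5) (nat_lit 18) (nat_lit 5) (nat_lit 377) (nat_lit 299) (nat_lit 185)) (XT.lf (nat_lit 0) (nat_lit 180262325) (nat_lit 252) (nat_lit 6867697094) (nat_lit 84) (nat_lit 24792548829) (nat_lit 14) (nat_lit 5) (nat_lit 17) (nat_lit 5) (nat_lit 15) (nat_lit 5) (nat_lit 378) (nat_lit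 299) (nat_lit 184)))) (XT.nd (nat_lit 94) (nat_lit 168) (nat_lit 0) (XT.lf (nat_lit 0) (nat_lit 2362398863) (nat_lit 252) (nat_lit 608775421) (nat_lit 84) (nat_lit 29706880087) (nat_lit 14) (nat_lit 5) (nat_lit 17) (nat_lit 5) (nat_lit 15) (nat_lit 5) (nat_lit 379) (nat_lit 299) (nat_lit 183)) (XT.nd (nat_lit 94) (nat_lit 0) (nat_lit 0) (XT.lf (nat_lit 0) (nat_lit 4676680151) (nat_lit 252) (nat_lit 27599358742) (nat_lit 84) (nat_lit 1263551514) (nat_lit 12) (nat_lit 5) (nat_lit 15) (nat_lit 5) (nat_lit 13) (nat_lit 5) (nat_lit 380) (nat_lit 299) (nat_lit 182)) (XT.lf (nat_lit 0) (nat_lit 7092241875) (nat_lit 252) (nat_lit 21763734305) (nat_lit 84) (nat_lit 5570966884) (nat_lit 12) (nat_lit 5) (nat_lit 15) (nat_lit 5) (nat_lit 13) (nat_lit 5) (nat_lit 381) (nat_lit 299) (nat_lit 181))))) (XT.nd (nat_lit 282) (nat_lit 168) (nat_lit 0) (XT.nd (nat_lit 94) (nat_lit 0) (nat_lit 0) (XT.lf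 (nat_lit 0) (nat_lit 9575634833) (nat_lit 252) (nat_lit 15757688350) (nat_lit 84) (nat_lit 10008722984) (nat_lit 12) (nat_lit 5) (nat_lit 15) (nat_lit 5) (nat_lit 13) (nat_lit 5) (nat_lit 382) (nat_lit 299) (nat_lit 180)) (XT.nd (nat_lit 94) (nat_lit 0) (nat_lit 0) (XT.lf (nat_lit 0) (nat_lit 12129173808) (nat_lit 252) (nat_lit 9575622613) (nat_lit 84) (nat_lit 14580956270) (nat_lit 12) (nat_lit 5) (nat_lit 15) (nat_lit 5) (nat_lit 13) (nat_lit 5) (nat_lit 383) (nat_lit 299) (nat_lit 179)) (XT.lf (nat_lit 0) (nat_lit 14755238967) (nat_lit 252) (nat_lit 3211774762) (nat_lit 84) (nat_lit 19291928540) (nat_lit 12) (nat_lit 5) (nat_lit 15) (nat_lit 5) (nat_lit 13) (nat_lit 5) (nat_lit 384) (nat_lit 299) (nat_lit 178)))) (XT.nd (nat_lit 188) (nat_lit 0) (nat_lit 0) (XT.nd (nat_lit 94) (nat_lit 0) (nat_lit 0) (XT.lf (nat_lit 0) (nat_lit 3408459844) (nat_lit 168) (nat_lit 14081630574) (nat_lit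 252) (nat_lit 20771383414) (nat_lit 10) (nat_lit 5) (nat_lit 12) (nat_lit 5) (nat_lit 13) (nat_lit 5) (nat_lit 385) (nat_lit 299) (nat_lit 177)) (XT.lf (nat_lit 0) (nat_lit 10292541107) (nat_lit 168) (nat_lit 10044370961) (nat_lit 252) (nat_lit 18957350102) (nat_lit 10) (nat_lit 5) (nat_lit 12) (nat_lit 5) (nat_lit 13) (nat_lit 5) (nat_lit 386) (nat_lit 299) (nat_lit 176))) (XT.nd (nat_lit 94) (nat_lit 0) (nat_lit 0) (XT.lf (nat_lit 0) (nat_lit 17380845033) (nat_lit 168) (nat_lit 5884996083) (nat_lit 252) (nat_lit 17093436839) (nat_lit 10) (nat_lit 5) (nat_lit 12) (nat_lit 5) (nat_lit 13) (nat_lit 5) (nat_lit 387) (nat_lit 299) (nat_lit 175)) (XT.lf (nat_lit 0) (nat_lit 24679978665) (nat_lit 168) (nat_lit 1599628965) (nat_lit 252) (nat_lit 15177906262) (nat_lit 10) (nat_lit 5) (nat_lit 12) (nat_lit 5) (nat_lit 13) (nat_lit 5) (nat_lit 388) (nat_lit 299) (nat_lit 174))))))))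
noncomputable def xc116 : XT := (XT.nd (nat_lit 2256) (nat_lit 84) (nat_lit 0) (XT.nd (nat_lit 1128) (nat_lit 84) (nat_lit 0) (XT.nd (nat_lit 564) (nat_lit 252) (nat_lit 0) (XT.nd (nat_lit 282) (nat_lit 0) (nat_lit 0) (XT.nd (nat_lit 94) (nat_lit 84) (nat_lit 0) (XT.lf (nat_lit 0) (nat_lit 29408953097) (nat_lit 252) (nat_lit 10421180434) (nat_lit 84) (nat_lit 2758994221) (nat_lit 10) (nat_lit 5) (nat_lit 13) (nat_lit 5) (nat_lit 11) (nat_lit 4) (nat_lit 389) (nat_lit 299) (nat_lit 173)) (XT.nd (nat_lit 94) (nat_lit 84) (nat_lit 0) (XT.lf (nat_lit 0) (nat_lit 32646034845) (nat_lit 252) (nat_lit 3892684205) (nat_lit 84) (nat_lit 7216788810) (nat_lit 10) (nat_lit 5) (nat_lit 13) (nat_lit 5) (nat_lit 11) (nat_lit 4) (nat_lit 390) (nat_lit 299) (nat_lit 172)) (XT.lf (nat_lit 0) (nat_lit 2888095914) (nat_lit 84) (nat_lit 33118556012) (nat_lit 168) (nat_lit 8950693247) (nat_lit 9) (nat_lit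 5) (nat_lit 10) (nat_lit 5) (nat_lit 11) (nat_lit 4) (nat_lit 391) (nat_lit 299) (nat_lit 171)))) (XT.nd (nat_lit 94) (nat_lit 0) (nat_lit 0) (XT.lf (nat_lit 0) (nat_lit 9953398799) (nat_lit 84) (nat_lit 29553299426) (nat_lit 168) (nat_lit 6688666099) (nat_lit 9) (nat_lit 5) (nat_lit 10) (nat_lit 5) (nat_lit 11) (nat_lit 4) (nat_lit 392) (nat_lit 299) (nat_lit 170)) (XT.nd (nat_lit 94) (nat_lit 0) (nat_lit 0) (XT.lf (nat_lit 0) (nat_lit 17229768481) (nat_lit 84) (nat_lit 25880257738) (nat_lit 168) (nat_lit 4361914765) (nat_lit 9) (nat_lit 5) (nat_lit 10) (nat_lit 5) (nat_lit 11) (nat_lit 4) (nat_lit 393) (nat_lit 299) (nat_lit 169)) (XT.lf (nat_lit 0) (nat_lit 24723987298) (nat_lit 84) (nat_lit 22096007290) (nat_lit 168) (nat_lit 1968270470) (nat_lit 9) (nat_lit 5) (nat_lit 10) (nat_lit 5) (nat_lit 11) (nat_lit 4) (nat_lit 394) (nat_lit 299) (nat_lit 168))))) (XT.nd (nat_lit 282) (nat_lit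 168) (nat_lit 0) (XT.nd (nat_lit 94) (nat_lit 0) (nat_lit 0) (XT.lf (nat_lit 0) (nat_lit 484534883) (nat_lit 168) (nat_lit 17707428329) (nat_lit 84) (nat_lit 31953448214) (nat_lit 8) (nat_lit 5) (nat_lit 10) (nat_lit 5) (nat_lit 9) (nat_lit 5) (nat_lit 395) (nat_lit 299) (nat_lit 167)) (XT.nd (nat_lit 94) (nat_lit 0) (nat_lit 0) (XT.lf (nat_lit 0) (nat_lit 2967664673) (nat_lit 168) (nat_lit 11181022886) (nat_lit 84) (nat_lit 37395482490) (nat_lit 8) (nat_lit 5) (nat_lit 10) (nat_lit 5) (nat_lit 9) (nat_lit 5) (nat_lit 396) (nat_lit 299) (nat_lit 166)) (XT.lf (nat_lit 0) (nat_lit 5523089701) (nat_lit 168) (nat_lit 4459452651) (nat_lit 84) (nat_lit 43003907655) (nat_lit 8) (nat_lit 5) (nat_lit 10) (nat_lit 5) (nat_lit 9) (nat_lit 5) (nat_lit 397) (nat_lit 299) (nat_lit 165)))) (XT.nd (nat_lit 94) (nat_lit 0) (nat_lit 0) (XT.lf (nat_lit 0) (nat_lit 2514203173) (nat_lit 168) (nat_lit 5663929923)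 (nat_lit 252) (nat_lit 46294689383) (nat_lit 6) (nat_lit 5) (nat_lit 8) (nat_lit 5) (nat_lit 9) (nat_lit 5) (nat_lit 398) (nat_lit 299) (nat_lit 164)) (XT.nd (nat_lit 94) (nat_lit 0) (nat_lit 0) (XT.lf (nat_lit 0) (nat_lit 9791711951) (nat_lit 168) (nat_lit 1165845814) (nat_lit 252) (nat_lit 45046424222) (nat_lit 6) (nat_lit 5) (nat_lit 8) (nat_lit 5) (nat_lit 9) (nat_lit 5) (nat_lit 399) (nat_lit 299) (nat_lit 163)) (XT.lf (nat_lit 0) (nat_lit 13853222903) (nat_lit 252) (nat_lit 40329010162) (nat_lit 84) (nat_lit 3399455346) (nat_lit 6) (nat_lit 5) (nat_lit 9) (nat_lit 5) (nat_lit 7) (nat_lit 4) (nat_lit 400) (nat_lit 299) (nat_lit 162)))))) (XT.nd (nat_lit 564) (nat_lit 84) (nat_lit 0) (XT.nd (nat_lit 282) (nat_lit 0) (nat_lit 0) (XT.nd (nat_lit 94) (nat_lit 0) (nat_lit 0) (XT.lf (nat_lit 0) (nat_lit 16846347469) (nat_lit 252) (nat_lit 34281875767) (nat_lit 84) (nat_lit 8079854984)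 (nat_lit 6) (nat_lit 5) (nat_lit 9) (nat_lit 5) (nat_lit 7) (nat_lit 4) (nat_lit 401) (nat_lit 299) (nat_lit 161)) (XT.nd (nat_lit 94) (nat_lit 0) (nat_lit 0) (XT.lf (nat_lit 0) (nat_lit 19928156035) (nat_lit 252) (nat_lit 28053664954) (nat_lit 84) (nat_lit 12903204917) (nat_lit 6) (nat_lit 5) (nat_lit 9) (nat_lit 5) (nat_lit 7) (nat_lit 4) (nat_lit 402) (nat_lit 299) (nat_lit 160)) (XT.lf (nat_lit 0) (nat_lit 23101521170) (nat_lit 252) (nat_lit 21638572378) (nat_lit 84) (nat_lit 17874001012) (nat_lit 6) (nat_lit 5) (nat_lit 9) (nat_lit 5) (nat_lit 7) (nat_lit 4) (nat_lit 403) (nat_lit 299) (nat_lit 159)))) (XT.nd (nat_lit 94) (nat_lit 0) (nat_lit 0) (XT.lf (nat_lit 0) (nat_lit 26369400782) (nat_lit 252) (nat_lit 15030618500) (nat_lit 84) (nat_lit 22996876571) (nat_lit 6) (nat_lit 5) (nat_lit 9) (nat_lit 5) (nat_lit 7) (nat_lit 4) (nat_lit 404) (nat_lit 299) (nat_lit 158)) (XT.nd (nat_lit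 94) (nat_lit 0) (nat_lit 0) (XT.lf (nat_lit 0) (nat_lit 29734840878) (nat_lit 252) (nat_lit 8223644015) (nat_lit 84) (nat_lit 28276606653) (nat_lit 6) (nat_lit 5) (nat_lit 9) (nat_lit 5) (nat_lit 7) (nat_lit 4) (nat_lit 405) (nat_lit 299) (nat_lit 157)) (XT.lf (nat_lit 0) (nat_lit 33200978399) (nat_lit 252) (nat_lit 1211304111) (nat_lit 84) (nat_lit 33718112517) (nat_lit 6) (nat_lit 5) (nat_lit 9) (nat_lit 5) (nat_lit 7) (nat_lit 4) (nat_lit 406) (nat_lit 299) (nat_lit 156))))) (XT.nd (nat_lit 282) (nat_lit 0) (nat_lit 0) (XT.nd (nat_lit 94) (nat_lit 0) (nat_lit 0) (XT.lf (nat_lit 0) (nat_lit 6136575774) (nat_lit 84) (nat_lit 30695343968) (nat_lit 168) (nat_lit 33250766035) (nat_lit 5) (nat_lit 5) (nat_lit 6) (nat_lit 5) (nat_lit 7) (nat_lit 4) (nat_lit 407) (nat_lit 299) (nat_lit 155)) (XT.nd (nat_lit 94) (nat_lit 0) (nat_lit 0) (XT.lf (nat_lit 0) (nat_lit 13732493553) (nat_lit 84)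 (nat_lit 26852100288) (nat_lit 168) (nat_lit 31510629810) (nat_lit 5) (nat_lit 5) (nat_lit 6) (nat_lit 5) (nat_lit 7) (nat_lit 4) (nat_lit 408) (nat_lit 299) (nat_lit 154)) (XT.lf (nat_lit 0) (nat_lit 21558622522) (nat_lit 84) (nat_lit 22891612697) (nat_lit 168) (nat_lit 29720029495) (nat_lit 5) (nat_lit 5) (nat_lit 6) (nat_lit 5) (nat_lit 7) (nat_lit 4) (nat_lit 409) (nat_lit 299) (nat_lit 153)))) (XT.nd (nat_lit 94) (nat_lit 0) (nat_lit 0) (XT.lf (nat_lit 0) (nat_lit 29622257451) (nat_lit 84) (nat_lit 18810189605) (nat_lit 168) (nat_lit 27877296064) (nat_lit 5) (nat_lit 5) (nat_lit 6) (nat_lit 5) (nat_lit 7) (nat_lit 4) (nat_lit 410) (nat_lit 299) (nat_lit 152)) (XT.nd (nat_lit 94) (nat_lit 0) (nat_lit 0) (XT.lf (nat_lit 0) (nat_lit 37930914493) (nat_lit 84) (nat_lit 14604026699) (nat_lit 168) (nat_lit 25980711894) (nat_lit 5) (nat_lit 5) (nat_lit 6) (nat_lit 5) (nat_lit 7) (nat_lit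 4) (nat_lit 411) (nat_lit 299) (nat_lit 151)) (XT.lf (nat_lit 0) (nat_lit 46492338187) (nat_lit 84) (nat_lit 10269203394) (nat_lit 168) (nat_lit 24028509172) (nat_lit 5) (nat_lit 5) (nat_lit 6) (nat_lit 5) (nat_lit 7) (nat_lit 4) (nat_lit 412) (nat_lit 299) (nat_lit 150))))))) (XT.nd (nat_lit 43992) (nat_lit 0) (nat_lit 9072) (XT.nd (nat_lit 43428) (nat_lit 0) (nat_lit 11172) (XT.nd (nat_lit 282) (nat_lit 84) (nat_lit 0) (XT.nd (nat_lit 94) (nat_lit 0) (nat_lit 0) (XT.lf (nat_lit 0) (nat_lit 55314508676) (nat_lit 84) (nat_lit 5801679180) (nat_lit 168) (nat_lit 22018868239) (nat_lit 5) (nat_lit 5) (nat_lit 6) (nat_lit 5) (nat_lit 7) (nat_lit 4) (nat_lit 413) (nat_lit 299) (nat_lit 149)) (XT.nd (nat_lit 94) (nat_lit 0) (nat_lit 0) (XT.lf (nat_lit 0) (nat_lit 64405649148) (nat_lit 84) (nat_lit 1197289857) (nat_lit 168) (nat_lit 19949915901) (nat_lit 5) (nat_lit 5) (nat_lit 6) (nat_lit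 5) (nat_lit 7) (nat_lit 4) (nat_lit 414) (nat_lit 299) (nat_lit 148)) (XT.lf (nat_lit 0) (nat_lit 70261176292) (nat_lit 168) (nat_lit 14306666471) (nat_lit 0) (nat_lit 3476766889) (nat_lit 5) (nat_lit 5) (nat_lit 7) (nat_lit 4) (nat_lit 5) (nat_lit 4) (nat_lit 415) (nat_lit 299) (nat_lit 147)))) (XT.nd (nat_lit 94) (nat_lit 84) (nat_lit 0) (XT.lf (nat_lit 0) (nat_lit 75073331167) (nat_lit 168) (nat_lit 7270642943) (nat_lit 0) (nat_lit 8269348025) (nat_lit 5) (nat_lit 5) (nat_lit 7) (nat_lit 4) (nat_lit 5) (nat_lit 4) (nat_lit 416) (nat_lit 299) (nat_lit 146)) (XT.nd (nat_lit 94) (nat_lit 84) (nat_lit 0) (XT.lf (nat_lit 0) (nat_lit 80032011800) (nat_lit 168) (nat_lit 20699602) (nat_lit 0) (nat_lit 13209043460) (nat_lit 5) (nat_lit 5) (nat_lit 7) (nat_lit 4) (nat_lit 5) (nat_lit 4) (nat_lit 417) (nat_lit 299) (nat_lit 145)) (XT.lf (nat_lit 0) (nat_lit 7603106919) (nat_lit 84) (nat_lit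 77614157043) (nat_lit 84) (nat_lit 10772774349) (nat_lit 4) (nat_lit 4) (nat_lit 5) (nat_lit 5) (nat_lit 5) (nat_lit 4) (nat_lit 418) (nat_lit 299) (nat_lit 144))))) (XT.nd (nat_lit 282) (nat_lit 0) (nat_lit 84) (XT.nd (nat_lit 94) (nat_lit 0) (nat_lit 0) (XT.lf (nat_lit 0) (nat_lit 510041923) (nat_lit 756) (nat_lit 1561961820) (nat_lit 756) (nat_lit 1561961820) (nat_lit 137) (nat_lit 3) (nat_lit 146) (nat_lit 3) (nat_lit 146) (nat_lit 5) (nat_lit 300) (nat_lit 300) (nat_lit 261)) (XT.nd (nat_lit 94) (nat_lit 0) (nat_lit 0) (XT.lf (nat_lit 0) (nat_lit 2313764757) (nat_lit 756) (nat_lit 463221718) (nat_lit 756) (nat_lit 4555265106) (nat_lit 137) (nat_lit 3) (nat_lit 146) (nat_lit 3) (nat_lit 146) (nat_lit 5) (nat_lit 301) (nat_lit 300) (nat_lit 260)) (XT.lf (nat_lit 84) (nat_lit 2299573222) (nat_lit 0) (nat_lit 1319296155) (nat_lit 756) (nat_lit 3780937003) (nat_lit 138) (nat_lit 5)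 (nat_lit 137) (nat_lit 3) (nat_lit 146) (nat_lit 5) (nat_lit 302) (nat_lit 300) (nat_lit 259)))) (XT.nd (nat_lit 94) (nat_lit 0) (nat_lit 0) (XT.lf (nat_lit 0) (nat_lit 4921167051) (nat_lit 672) (nat_lit 2341923573) (nat_lit 756) (nat_lit 208046730) (nat_lit 138) (nat_lit 5) (nat_lit 146) (nat_lit 5) (nat_lit 147) (nat_lit 5) (nat_lit 303) (nat_lit 300) (nat_lit 258)) (XT.nd (nat_lit 94) (nat_lit 0) (nat_lit 0) (XT.lf (nat_lit 84) (nat_lit 470149864) (nat_lit 0) (nat_lit 5763374957) (nat_lit 756) (nat_lit 1312424919) (nat_lit 139) (nat_lit 5) (nat_lit 138) (nat_lit 5) (nat_lit 147) (nat_lit 5) (nat_lit 304) (nat_lit 300) (nat_lit 257)) (XT.lf (nat_lit 84) (nat_lit 3391602878) (nat_lit 0) (nat_lit 4172124427) (nat_lit 756) (nat_lit 60382568) (nat_lit 139) (nat_lit 5) (nat_lit 138) (nat_lit 5) (nat_lit 147) (nat_lit 5) (nat_lit 305) (nat_lit 300) (nat_lit 256)))))) (XT.nd (nat_lit 564)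 (nat_lit 1428) (nat_lit 0) (XT.nd (nat_lit 282) (nat_lit 0) (nat_lit 84) (XT.nd (nat_lit 94) (nat_lit 0) (nat_lit 0) (XT.lf (nat_lit 0) (nat_lit 1159046531) (nat_lit 756) (nat_lit 1341156099) (nat_lit 840) (nat_lit 5205859215) (nat_lit 129) (nat_lit 5) (nat_lit 138) (nat_lit 5) (nat_lit 139) (nat_lit 5) (nat_lit 306) (nat_lit 300) (nat_lit 255)) (XT.nd (nat_lit 94) (nat_lit 0) (nat_lit 84) (XT.lf (nat_lit 84) (nat_lit 1645319221) (nat_lit 0) (nat_lit 740793145) (nat_lit 840) (nat_lit 5405611581) (nat_lit 130) (nat_lit 5) (nat_lit 129) (nat_lit 5) (nat_lit 139) (nat_lit 5) (nat_lit 307) (nat_lit 300) (nat_lit 254)) (XT.lf (nat_lit 0) (nat_lit 3632039034) (nat_lit 756) (nat_lit 3166179567) (nat_lit 840) (nat_lit 1082701217) (nat_lit 130) (nat_lit 5) (nat_lit 139) (nat_lit 5) (nat_lit 140) (nat_lit 5) (nat_lit 308) (nat_lit 300) (nat_lit 253)))) (XT.nd (nat_lit 94) (nat_lit 0) (nat_lit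 0) (XT.lf (nat_lit 0) (nat_lit 4881521806) (nat_lit 756) (nat_lit 128874361) (nat_lit 840) (nat_lit 2963846880) (nat_lit 130) (nat_lit 5) (nat_lit 139) (nat_lit 5) (nat_lit 140) (nat_lit 5) (nat_lit 309) (nat_lit 300) (nat_lit 252)) (XT.nd (nat_lit 94) (nat_lit 0) (nat_lit 0) (XT.lf (nat_lit 84) (nat_lit 3036877043) (nat_lit 0) (nat_lit 3121625723) (nat_lit 840) (nat_lit 1912571752) (nat_lit 131) (nat_lit 5) (nat_lit 130) (nat_lit 5) (nat_lit 140) (nat_lit 5) (nat_lit 310) (nat_lit 300) (nat_lit 251)) (XT.lf (nat_lit 84) (nat_lit 6276874547) (nat_lit 0) (nat_lit 1159158353) (nat_lit 840) (nat_lit 736343909) (nat_lit 131) (nat_lit 5) (nat_lit 130) (nat_lit 5) (nat_lit 140) (nat_lit 5) (nat_lit 311) (nat_lit 300) (nat_lit 250))))) (XT.nd (nat_lit 282) (nat_lit 756) (nat_lit 0) (XT.nd (nat_lit 94) (nat_lit 0) (nat_lit 0) (XT.lf (nat_lit 0) (nat_lit 449070606) (nat_lit 840) (nat_lit 6950830154)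 (nat_lit 924) (nat_lit 877563828) (nat_lit 121) (nat_lit 5) (nat_lit 131) (nat_lit 5) (nat_lit 132) (nat_lit 5) (nat_lit 312) (nat_lit 300) (nat_lit 249)) (XT.nd (nat_lit 94) (nat_lit 0) (nat_lit 0) (XT.lf (nat_lit 0) (nat_lit 1649020337) (nat_lit 840) (nat_lit 3744121635) (nat_lit 924) (nat_lit 2992885311) (nat_lit 121) (nat_lit 5) (nat_lit 131) (nat_lit 5) (nat_lit 132) (nat_lit 5) (nat_lit 313) (nat_lit 300) (nat_lit 248)) (XT.lf (nat_lit 0) (nat_lit 2848573928) (nat_lit 840) (nat_lit 465334954) (nat_lit 924) (nat_lit 5185441101) (nat_lit 121) (nat_lit 5) (nat_lit 131) (nat_lit 5) (nat_lit 132) (nat_lit 5) (nat_lit 314) (nat_lit 300) (nat_lit 247)))) (XT.nd (nat_lit 188) (nat_lit 756) (nat_lit 0) (XT.nd (nat_lit 94) (nat_lit 0) (nat_lit 84) (XT.lf (nat_lit 84) (nat_lit 2947981314) (nat_lit 0) (nat_lit 1130112513) (nat_lit 924) (nat_lit 4538537914) (nat_lit 122) (nat_lit 5) (nat_lit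 121) (nat_lit 5) (nat_lit 132) (nat_lit 5) (nat_lit 315) (nat_lit 300) (nat_lit 246)) (XT.lf (nat_lit 0) (nat_lit 5326224950) (nat_lit 840) (nat_lit 2299250182) (nat_lit 84) (nat_lit 1112894279) (nat_lit 122) (nat_lit 5) (nat_lit 132) (nat_lit 5) (nat_lit 123) (nat_lit 5) (nat_lit 316) (nat_lit 300) (nat_lit 245))) (XT.nd (nat_lit 94) (nat_lit 0) (nat_lit 0) (XT.lf (nat_lit 0) (nat_lit 1159584746) (nat_lit 840) (nat_lit 5442058512) (nat_lit 924) (nat_lit 2262800317) (nat_lit 112) (nat_lit 5) (nat_lit 122) (nat_lit 5) (nat_lit 123) (nat_lit 5) (nat_lit 317) (nat_lit 300) (nat_lit 244)) (XT.lf (nat_lit 0) (nat_lit 4747836615) (nat_lit 840) (nat_lit 3159068835) (nat_lit 924) (nat_lit 1088023891) (nat_lit 112) (nat_lit 5) (nat_lit 122) (nat_lit 5) (nat_lit 123) (nat_lit 5) (nat_lit 318) (nat_lit 300) (nat_lit 243))))))))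
noncomputable def xc117 : XT := (XT.nd (nat_lit 2256) (nat_lit 2436) (nat_lit 0) (XT.nd (nat_lit 1128) (nat_lit 1680) (nat_lit 0) (XT.nd (nat_lit 564) (nat_lit 1680) (nat_lit 0) (XT.nd (nat_lit 282) (nat_lit 1008) (nat_lit 0) (XT.nd (nat_lit 94) (nat_lit 924) (nat_lit 0) (XT.lf (nat_lit 0) (nat_lit 87481571) (nat_lit 924) (nat_lit 709982875) (nat_lit 84) (nat_lit 8333178052) (nat_lit 111) (nat_lit 5) (nat_lit 122) (nat_lit 5) (nat_lit 112) (nat_lit 5) (nat_lit 319) (nat_lit 300) (nat_lit 242)) (XT.nd (nat_lit 94) (nat_lit 0) (nat_lit 0) (XT.lf (nat_lit 0) (nat_lit 1290696193) (nat_lit 1008) (nat_lit 6327760098) (nat_lit 84) (nat_lit 1651516596) (nat_lit 100) (nat_lit 5) (nat_lit 112) (nat_lit 5) (nat_lit 101) (nat_lit 5) (nat_lit 320) (nat_lit 300) (nat_lit 241)) (XT.lf (nat_lit 0) (nat_lit 2515417975) (nat_lit 1008) (nat_lit 2725724729) (nat_lit 84) (nat_lit 4173148861) (nat_lit 100)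 (nat_lit 5) (nat_lit 112) (nat_lit 5) (nat_lit 101) (nat_lit 5) (nat_lit 321) (nat_lit 300) (nat_lit 240)))) (XT.nd (nat_lit 94) (nat_lit 0) (nat_lit 0) (XT.lf (nat_lit 0) (nat_lit 981781855) (nat_lit 1008) (nat_lit 2775573627) (nat_lit 1092) (nat_lit 5806545990) (nat_lit 88) (nat_lit 5) (nat_lit 100) (nat_lit 5) (nat_lit 101) (nat_lit 5) (nat_lit 322) (nat_lit 300) (nat_lit 239)) (XT.nd (nat_lit 94) (nat_lit 0) (nat_lit 0) (XT.lf (nat_lit 0) (nat_lit 4836295429) (nat_lit 1008) (nat_lit 200120280) (nat_lit 1092) (nat_lit 4681945121) (nat_lit 88) (nat_lit 5) (nat_lit 100) (nat_lit 5) (nat_lit 101) (nat_lit 5) (nat_lit 323) (nat_lit 300) (nat_lit 238)) (XT.lf (nat_lit 0) (nat_lit 6350590600) (nat_lit 1092) (nat_lit 1117702002) (nat_lit 84) (nat_lit 2409620217) (nat_lit 88) (nat_lit 5) (nat_lit 101) (nat_lit 5) (nat_lit 89) (nat_lit 5) (nat_lit 324) (nat_lit 300) (nat_lit 237))))) (XT.nd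 (nat_lit 282) (nat_lit 504) (nat_lit 0) (XT.nd (nat_lit 94) (nat_lit 588) (nat_lit 0) (XT.lf (nat_lit 0) (nat_lit 2792314812) (nat_lit 588) (nat_lit 4914913870) (nat_lit 672) (nat_lit 2335287647) (nat_lit 81) (nat_lit 5) (nat_lit 88) (nat_lit 5) (nat_lit 89) (nat_lit 5) (nat_lit 325) (nat_lit 300) (nat_lit 236)) (XT.nd (nat_lit 94) (nat_lit 588) (nat_lit 0) (XT.lf (nat_lit 0) (nat_lit 6822238505) (nat_lit 588) (nat_lit 2267922067) (nat_lit 672) (nat_lit 1122704666) (nat_lit 81) (nat_lit 5) (nat_lit 88) (nat_lit 5) (nat_lit 89) (nat_lit 5) (nat_lit 326) (nat_lit 300) (nat_lit 235)) (XT.lf (nat_lit 0) (nat_lit 108237695) (nat_lit 588) (nat_lit 9819981230) (nat_lit 84) (nat_lit 460898319) (nat_lit 74) (nat_lit 5) (nat_lit 81) (nat_lit 5) (nat_lit 75) (nat_lit 5) (nat_lit 327) (nat_lit 300) (nat_lit 234)))) (XT.nd (nat_lit 94) (nat_lit 504) (nat_lit 0) (XT.lf (nat_lit 0) (nat_lit 1386529416)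 (nat_lit 588) (nat_lit 5906917967) (nat_lit 84) (nat_lit 3276162452) (nat_lit 74) (nat_lit 5) (nat_lit 81) (nat_lit 5) (nat_lit 75) (nat_lit 5) (nat_lit 328) (nat_lit 300) (nat_lit 233)) (XT.nd (nat_lit 94) (nat_lit 504) (nat_lit 0) (XT.lf (nat_lit 0) (nat_lit 2678805790) (nat_lit 588) (nat_lit 1897450656) (nat_lit 84) (nat_lit 6180372520) (nat_lit 74) (nat_lit 5) (nat_lit 81) (nat_lit 5) (nat_lit 75) (nat_lit 5) (nat_lit 329) (nat_lit 300) (nat_lit 232)) (XT.lf (nat_lit 0) (nat_lit 2257644450) (nat_lit 504) (nat_lit 1751023018) (nat_lit 588) (nat_lit 6940987215) (nat_lit 68) (nat_lit 5) (nat_lit 74) (nat_lit 5) (nat_lit 75) (nat_lit 5) (nat_lit 330) (nat_lit 300) (nat_lit 231)))))) (XT.nd (nat_lit 564) (nat_lit 756) (nat_lit 0) (XT.nd (nat_lit 282) (nat_lit 504) (nat_lit 0) (XT.nd (nat_lit 94) (nat_lit 420) (nat_lit 0) (XT.lf (nat_lit 0) (nat_lit 5386931822) (nat_lit 588) (nat_lit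 4602801089) (nat_lit 84) (nat_lit 1158837081) (nat_lit 68) (nat_lit 5) (nat_lit 75) (nat_lit 5) (nat_lit 69) (nat_lit 5) (nat_lit 331) (nat_lit 300) (nat_lit 230)) (XT.nd (nat_lit 94) (nat_lit 420) (nat_lit 0) (XT.lf (nat_lit 0) (nat_lit 6802207338) (nat_lit 588) (nat_lit 428785389) (nat_lit 84) (nat_lit 4122960539) (nat_lit 68) (nat_lit 5) (nat_lit 75) (nat_lit 5) (nat_lit 69) (nat_lit 5) (nat_lit 332) (nat_lit 300) (nat_lit 229)) (XT.lf (nat_lit 0) (nat_lit 3930488433) (nat_lit 420) (nat_lit 4346945335) (nat_lit 504) (nat_lit 3287891940) (nat_lit 63) (nat_lit 5) (nat_lit 68) (nat_lit 5) (nat_lit 69) (nat_lit 5) (nat_lit 333) (nat_lit 300) (nat_lit 228)))) (XT.nd (nat_lit 94) (nat_lit 504) (nat_lit 0) (XT.lf (nat_lit 0) (nat_lit 8410898989) (nat_lit 420) (nat_lit 1369515208) (nat_lit 504) (nat_lit 2003510869) (nat_lit 63) (nat_lit 5) (nat_lit 68) (nat_lit 5) (nat_lit 69) (nat_lit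 5) (nat_lit 334) (nat_lit 300) (nat_lit 227)) (XT.nd (nat_lit 94) (nat_lit 84) (nat_lit 0) (XT.lf (nat_lit 0) (nat_lit 1001024299) (nat_lit 420) (nat_lit 10333974696) (nat_lit 504) (nat_lit 674260175) (nat_lit 58) (nat_lit 5) (nat_lit 63) (nat_lit 5) (nat_lit 64) (nat_lit 5) (nat_lit 335) (nat_lit 300) (nat_lit 226)) (XT.lf (nat_lit 0) (nat_lit 710061365) (nat_lit 504) (nat_lit 6703080983) (nat_lit 84) (nat_lit 4827464377) (nat_lit 57) (nat_lit 5) (nat_lit 63) (nat_lit 5) (nat_lit 58) (nat_lit 5) (nat_lit 336) (nat_lit 300) (nat_lit 225))))) (XT.nd (nat_lit 282) (nat_lit 420) (nat_lit 0) (XT.nd (nat_lit 94) (nat_lit 336) (nat_lit 0) (XT.lf (nat_lit 0) (nat_lit 2102259298) (nat_lit 504) (nat_lit 2294153945) (nat_lit 84) (nat_lit 8083254610) (nat_lit 57) (nat_lit 5) (nat_lit 63) (nat_lit 5) (nat_lit 58) (nat_lit 5) (nat_lit 337) (nat_lit 300) (nat_lit 224)) (XT.nd (nat_lit 94) (nat_lit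 0) (nat_lit 0) (XT.lf (nat_lit 0) (nat_lit 2275184466) (nat_lit 336) (nat_lit 1264601783) (nat_lit 420) (nat_lit 9186386813) (nat_lit 53) (nat_lit 5) (nat_lit 57) (nat_lit 5) (nat_lit 58) (nat_lit 5) (nat_lit 338) (nat_lit 300) (nat_lit 223)) (XT.lf (nat_lit 0) (nat_lit 5045532201) (nat_lit 420) (nat_lit 5987081729) (nat_lit 84) (nat_lit 1947070140) (nat_lit 53) (nat_lit 5) (nat_lit 58) (nat_lit 5) (nat_lit 54) (nat_lit 5) (nat_lit 339) (nat_lit 300) (nat_lit 222)))) (XT.nd (nat_lit 94) (nat_lit 420) (nat_lit 0) (XT.lf (nat_lit 0) (nat_lit 6591470615) (nat_lit 420) (nat_lit 1419629088) (nat_lit 84) (nat_lit 5230249802) (nat_lit 53) (nat_lit 5) (nat_lit 58) (nat_lit 5) (nat_lit 54) (nat_lit 5) (nat_lit 340) (nat_lit 300) (nat_lit 221)) (XT.nd (nat_lit 94) (nat_lit 0) (nat_lit 0) (XT.lf (nat_lit 0) (nat_lit 3335371987) (nat_lit 420) (nat_lit 4864212779) (nat_lit 504) (nat_lit 5311191692)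 (nat_lit 48) (nat_lit 5) (nat_lit 53) (nat_lit 5) (nat_lit 54) (nat_lit 5) (nat_lit 341) (nat_lit 300) (nat_lit 220)) (XT.lf (nat_lit 0) (nat_lit 8246845644) (nat_lit 420) (nat_lit 1607044920) (nat_lit 504) (nat_lit 3934867471) (nat_lit 48) (nat_lit 5) (nat_lit 53) (nat_lit 5) (nat_lit 54) (nat_lit 5) (nat_lit 342) (nat_lit 300) (nat_lit 219))))))) (XT.nd (nat_lit 1128) (nat_lit 1092) (nat_lit 0) (XT.nd (nat_lit 564) (nat_lit 588) (nat_lit 0) (XT.nd (nat_lit 282) (nat_lit 336) (nat_lit 0) (XT.nd (nat_lit 94) (nat_lit 420) (nat_lit 0) (XT.lf (nat_lit 0) (nat_lit 11558904072) (nat_lit 504) (nat_lit 803166033) (nat_lit 84) (nat_lit 1713391043) (nat_lit 48) (nat_lit 5) (nat_lit 54) (nat_lit 5) (nat_lit 49) (nat_lit 5) (nat_lit 343) (nat_lit 300) (nat_lit 218)) (XT.nd (nat_lit 94) (nat_lit 84) (nat_lit 0) (XT.lf (nat_lit 0) (nat_lit 4128851241) (nat_lit 336) (nat_lit 9227909534) (nat_lit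 420) (nat_lit 1013135326) (nat_lit 44) (nat_lit 5) (nat_lit 48) (nat_lit 5) (nat_lit 49) (nat_lit 5) (nat_lit 344) (nat_lit 300) (nat_lit 217)) (XT.lf (nat_lit 0) (nat_lit 517206253) (nat_lit 420) (nat_lit 5468432646) (nat_lit 84) (nat_lit 8688008182) (nat_lit 43) (nat_lit 5) (nat_lit 48) (nat_lit 5) (nat_lit 44) (nat_lit 5) (nat_lit 345) (nat_lit 300) (nat_lit 216)))) (XT.nd (nat_lit 94) (nat_lit 336) (nat_lit 0) (XT.lf (nat_lit 0) (nat_lit 2057126333) (nat_lit 420) (nat_lit 578221705) (nat_lit 84) (nat_lit 12351742746) (nat_lit 43) (nat_lit 5) (nat_lit 48) (nat_lit 5) (nat_lit 44) (nat_lit 5) (nat_lit 346) (nat_lit 300) (nat_lit 215)) (XT.nd (nat_lit 94) (nat_lit 0) (nat_lit 0) (XT.lf (nat_lit 0) (nat_lit 3682018459) (nat_lit 420) (nat_lit 10782410028) (nat_lit 84) (nat_lit 844742534) (nat_lit 39) (nat_lit 5) (nat_lit 44) (nat_lit 5) (nat_lit 40) (nat_lit 5) (nat_lit 347) (nat_lit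 300) (nat_lit 214)) (XT.lf (nat_lit 0) (nat_lit 5374290079) (nat_lit 420) (nat_lit 5885537135) (nat_lit 84) (nat_lit 4380953107) (nat_lit 39) (nat_lit 5) (nat_lit 44) (nat_lit 5) (nat_lit 40) (nat_lit 5) (nat_lit 348) (nat_lit 300) (nat_lit 213))))) (XT.nd (nat_lit 282) (nat_lit 336) (nat_lit 0) (XT.nd (nat_lit 94) (nat_lit 252) (nat_lit 0) (XT.lf (nat_lit 0) (nat_lit 7103461742) (nat_lit 420) (nat_lit 855997461) (nat_lit 84) (nat_lit 8023762340) (nat_lit 39) (nat_lit 5) (nat_lit 44) (nat_lit 5) (nat_lit 40) (nat_lit 5) (nat_lit 349) (nat_lit 300) (nat_lit 212)) (XT.nd (nat_lit 94) (nat_lit 0) (nat_lit 0) (XT.lf (nat_lit 0) (nat_lit 4399537936) (nat_lit 252) (nat_lit 4515251240) (nat_lit 336) (nat_lit 7420671738) (nat_lit 36) (nat_lit 5) (nat_lit 39) (nat_lit 5) (nat_lit 40) (nat_lit 5) (nat_lit 350) (nat_lit 300) (nat_lit 211)) (XT.lf (nat_lit 0) (nat_lit 9817768649) (nat_lit 252)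 (nat_lit 958612997) (nat_lit 336) (nat_lit 5922486064) (nat_lit 36) (nat_lit 5) (nat_lit 39) (nat_lit 5) (nat_lit 40) (nat_lit 5) (nat_lit 351) (nat_lit 300) (nat_lit 210)))) (XT.nd (nat_lit 94) (nat_lit 336) (nat_lit 0) (XT.lf (nat_lit 0) (nat_lit 12708140454) (nat_lit 336) (nat_lit 1714737651) (nat_lit 84) (nat_lit 2650339411) (nat_lit 36) (nat_lit 5) (nat_lit 40) (nat_lit 5) (nat_lit 37) (nat_lit 5) (nat_lit 352) (nat_lit 300) (nat_lit 209)) (XT.nd (nat_lit 94) (nat_lit 0) (nat_lit 0) (XT.lf (nat_lit 0) (nat_lit 3657930294) (nat_lit 336) (nat_lit 11073968716) (nat_lit 420) (nat_lit 2726339236) (nat_lit 32) (nat_lit 5) (nat_lit 36) (nat_lit 5) (nat_lit 37) (nat_lit 5) (nat_lit 353) (nat_lit 300) (nat_lit 208)) (XT.lf (nat_lit 0) (nat_lit 9215936685) (nat_lit 336) (nat_lit 7606625473) (nat_lit 420) (nat_lit 1032563051) (nat_lit 32) (nat_lit 5) (nat_lit 36) (nat_lit 5) (nat_lit 37)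 (nat_lit 5) (nat_lit 354) (nat_lit 300) (nat_lit 207)))))) (XT.nd (nat_lit 564) (nat_lit 504) (nat_lit 0) (XT.nd (nat_lit 282) (nat_lit 252) (nat_lit 0) (XT.nd (nat_lit 94) (nat_lit 252) (nat_lit 0) (XT.lf (nat_lit 0) (nat_lit 685829856) (nat_lit 420) (nat_lit 3342526279) (nat_lit 84) (nat_lit 14236215127) (nat_lit 31) (nat_lit 5) (nat_lit 36) (nat_lit 5) (nat_lit 32) (nat_lit 5) (nat_lit 355) (nat_lit 300) (nat_lit 206)) (XT.nd (nat_lit 94) (nat_lit 0) (nat_lit 0) (XT.lf (nat_lit 0) (nat_lit 2133916095) (nat_lit 252) (nat_lit 310192562) (nat_lit 336) (nat_lit 16242078673) (nat_lit 28) (nat_lit 5) (nat_lit 31) (nat_lit 5) (nat_lit 32) (nat_lit 5) (nat_lit 356) (nat_lit 300) (nat_lit 205)) (XT.lf (nat_lit 0) (nat_lit 4314177571) (nat_lit 336) (nat_lit 11321204822) (nat_lit 84) (nat_lit 3483768241) (nat_lit 28) (nat_lit 5) (nat_lit 32) (nat_lit 5) (nat_lit 29) (nat_lit 5) (nat_lit 357)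 (nat_lit 300) (nat_lit 204)))) (XT.nd (nat_lit 94) (nat_lit 252) (nat_lit 0) (XT.lf (nat_lit 0) (nat_lit 6232866038) (nat_lit 336) (nat_lit 5947727057) (nat_lit 84) (nat_lit 7385283968) (nat_lit 28) (nat_lit 5) (nat_lit 32) (nat_lit 5) (nat_lit 29) (nat_lit 5) (nat_lit 358) (nat_lit 300) (nat_lit 203)) (XT.nd (nat_lit 94) (nat_lit 252) (nat_lit 0) (XT.lf (nat_lit 0) (nat_lit 8198885328) (nat_lit 336) (nat_lit 423752148) (nat_lit 84) (nat_lit 11404240930) (nat_lit 28) (nat_lit 5) (nat_lit 32) (nat_lit 5) (nat_lit 29) (nat_lit 5) (nat_lit 359) (nat_lit 300) (nat_lit 202)) (XT.lf (nat_lit 0) (nat_lit 5363940270) (nat_lit 252) (nat_lit 4903338659) (nat_lit 336) (nat_lit 10233655896) (nat_lit 25) (nat_lit 5) (nat_lit 28) (nat_lit 5) (nat_lit 29) (nat_lit 5) (nat_lit 360) (nat_lit 300) (nat_lit 201))))) (XT.nd (nat_lit 282) (nat_lit 336) (nat_lit 0) (XT.nd (nat_lit 94) (nat_lit 168) (nat_lit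 0) (XT.lf (nat_lit 0) (nat_lit 11324595229) (nat_lit 252) (nat_lit 1068038506) (nat_lit 336) (nat_lit 8597322028) (nat_lit 25) (nat_lit 5) (nat_lit 28) (nat_lit 5) (nat_lit 29) (nat_lit 5) (nat_lit 361) (nat_lit 300) (nat_lit 200)) (XT.nd (nat_lit 94) (nat_lit 168) (nat_lit 0) (XT.lf (nat_lit 0) (nat_lit 14601234601) (nat_lit 336) (nat_lit 4068068475) (nat_lit 84) (nat_lit 2824340546) (nat_lit 25) (nat_lit 5) (nat_lit 29) (nat_lit 5) (nat_lit 26) (nat_lit 5) (nat_lit 362) (nat_lit 300) (nat_lit 199)) (XT.lf (nat_lit 0) (nat_lit 1711426953) (nat_lit 168) (nat_lit 15183844158) (nat_lit 252) (nat_lit 5117192719) (nat_lit 23) (nat_lit 5) (nat_lit 25) (nat_lit 5) (nat_lit 26) (nat_lit 5) (nat_lit 363) (nat_lit 300) (nat_lit 198)))) (XT.nd (nat_lit 188) (nat_lit 336) (nat_lit 0) (XT.nd (nat_lit 94) (nat_lit 0) (nat_lit 0) (XT.lf (nat_lit 0) (nat_lit 7741607603) (nat_lit 168) (nat_lit 11550528052)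 (nat_lit 252) (nat_lit 3254291452) (nat_lit 23) (nat_lit 5) (nat_lit 25) (nat_lit 5) (nat_lit 26) (nat_lit 5) (nat_lit 364) (nat_lit 300) (nat_lit 197)) (XT.lf (nat_lit 0) (nat_lit 13944446404) (nat_lit 168) (nat_lit 7808430418) (nat_lit 252) (nat_lit 1344431093) (nat_lit 23) (nat_lit 5) (nat_lit 25) (nat_lit 5) (nat_lit 26) (nat_lit 5) (nat_lit 365) (nat_lit 300) (nat_lit 196))) (XT.nd (nat_lit 94) (nat_lit 252) (nat_lit 0) (XT.lf (nat_lit 0) (nat_lit 601794420) (nat_lit 252) (nat_lit 3345987309) (nat_lit 84) (nat_lit 19717649129) (nat_lit 22) (nat_lit 5) (nat_lit 25) (nat_lit 5) (nat_lit 23) (nat_lit 5) (nat_lit 366) (nat_lit 300) (nat_lit 195)) (XT.lf (nat_lit 0) (nat_lit 2597635016) (nat_lit 336) (nat_lit 21583748549) (nat_lit 84) (nat_lit 68860133) (nat_lit 19) (nat_lit 5) (nat_lit 23) (nat_lit 5) (nat_lit 20) (nat_lit 5) (nat_lit 367) (nat_lit 300) (nat_lit 194))))))))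
noncomputable def xc118 : XT := (XT.nd (nat_lit 2256) (nat_lit 420) (nat_lit 0) (XT.nd (nat_lit 1128) (nat_lit 336) (nat_lit 0) (XT.nd (nat_lit 564) (nat_lit 252) (nat_lit 0) (XT.nd (nat_lit 282) (nat_lit 168) (nat_lit 0) (XT.nd (nat_lit 94) (nat_lit 0) (nat_lit 0) (XT.lf (nat_lit 0) (nat_lit 4721186066) (nat_lit 336) (nat_lit 15970377447) (nat_lit 84) (nat_lit 4159617893) (nat_lit 19) (nat_lit 5) (nat_lit 23) (nat_lit 5) (nat_lit 20) (nat_lit 5) (nat_lit 368) (nat_lit 300) (nat_lit 193)) (XT.nd (nat_lit 94) (nat_lit 0) (nat_lit 0) (XT.lf (nat_lit 0) (nat_lit 6901042880) (nat_lit 336) (nat_lit 10196414154) (nat_lit 84) (nat_lit 8373621990) (nat_lit 19) (nat_lit 5) (nat_lit 23) (nat_lit 5) (nat_lit 20) (nat_lit 5) (nat_lit 369) (nat_lit 300) (nat_lit 192)) (XT.lf (nat_lit 0) (nat_lit 9139237314) (nat_lit 336) (nat_lit 4256476732) (nat_lit 84) (nat_lit 12714800316) (nat_lit 19) (nat_lit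 5) (nat_lit 23) (nat_lit 5) (nat_lit 20) (nat_lit 5) (nat_lit 370) (nat_lit 300) (nat_lit 191)))) (XT.nd (nat_lit 94) (nat_lit 0) (nat_lit 0) (XT.lf (nat_lit 0) (nat_lit 1893113479) (nat_lit 168) (nat_lit 9563522039) (nat_lit 252) (nat_lit 15312865746) (nat_lit 17) (nat_lit 5) (nat_lit 19) (nat_lit 5) (nat_lit 20) (nat_lit 5) (nat_lit 371) (nat_lit 300) (nat_lit 190)) (XT.nd (nat_lit 94) (nat_lit 0) (nat_lit 0) (XT.lf (nat_lit 0) (nat_lit 8311076610) (nat_lit 168) (nat_lit 5570410584) (nat_lit 252) (nat_lit 13566358000) (nat_lit 17) (nat_lit 5) (nat_lit 19) (nat_lit 5) (nat_lit 20) (nat_lit 5) (nat_lit 372) (nat_lit 300) (nat_lit 189)) (XT.lf (nat_lit 0) (nat_lit 14915872982) (nat_lit 168) (nat_lit 1457086573) (nat_lit 252) (nat_lit 11774554770) (nat_lit 17) (nat_lit 5) (nat_lit 19) (nat_lit 5) (nat_lit 20) (nat_lit 5) (nat_lit 373) (nat_lit 300) (nat_lit 188))))) (XT.nd (nat_lit 282)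 (nat_lit 84) (nat_lit 0) (XT.nd (nat_lit 94) (nat_lit 168) (nat_lit 0) (XT.lf (nat_lit 0) (nat_lit 18960955676) (nat_lit 252) (nat_lit 7183082623) (nat_lit 84) (nat_lit 2724267517) (nat_lit 17) (nat_lit 5) (nat_lit 20) (nat_lit 5) (nat_lit 18) (nat_lit 5) (nat_lit 374) (nat_lit 300) (nat_lit 187)) (XT.nd (nat_lit 94) (nat_lit 168) (nat_lit 0) (XT.lf (nat_lit 0) (nat_lit 21636005587) (nat_lit 252) (nat_lit 973572284) (nat_lit 84) (nat_lit 7001682001) (nat_lit 17) (nat_lit 5) (nat_lit 20) (nat_lit 5) (nat_lit 18) (nat_lit 5) (nat_lit 375) (nat_lit 300) (nat_lit 186)) (XT.lf (nat_lit 0) (nat_lit 5528519412) (nat_lit 168) (nat_lit 18912472421) (nat_lit 252) (nat_lit 5934825107) (nat_lit 15) (nat_lit 5) (nat_lit 17) (nat_lit 5) (nat_lit 18) (nat_lit 5) (nat_lit 376) (nat_lit 300) (nat_lit 185)))) (XT.nd (nat_lit 94) (nat_lit 84) (nat_lit 0) (XT.lf (nat_lit 0) (nat_lit 12241628775) (nat_lit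 168) (nat_lit 15093756742) (nat_lit 252) (nat_lit 3828641597) (nat_lit 15) (nat_lit 5) (nat_lit 17) (nat_lit 5) (nat_lit 18) (nat_lit 5) (nat_lit 377) (nat_lit 300) (nat_lit 184)) (XT.nd (nat_lit 94) (nat_lit 84) (nat_lit 0) (XT.lf (nat_lit 0) (nat_lit 19151994483) (nat_lit 168) (nat_lit 11160033491) (nat_lit 252) (nat_lit 1664902668) (nat_lit 15) (nat_lit 5) (nat_lit 17) (nat_lit 5) (nat_lit 18) (nat_lit 5) (nat_lit 378) (nat_lit 300) (nat_lit 183)) (XT.lf (nat_lit 0) (nat_lit 547157821) (nat_lit 252) (nat_lit 6554766997) (nat_lit 84) (nat_lit 25713188693) (nat_lit 14) (nat_lit 5) (nat_lit 17) (nat_lit 5) (nat_lit 15) (nat_lit 5) (nat_lit 379) (nat_lit 300) (nat_lit 182)))))) (XT.nd (nat_lit 564) (nat_lit 168) (nat_lit 0) (XT.nd (nat_lit 282) (nat_lit 0) (nat_lit 0) (XT.nd (nat_lit 94) (nat_lit 168) (nat_lit 0) (XT.lf (nat_lit 0) (nat_lit 2786076839) (nat_lit 252) (nat_lit 117629316)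 (nat_lit 84) (nat_lit 30775291769) (nat_lit 14) (nat_lit 5) (nat_lit 17) (nat_lit 5) (nat_lit 15) (nat_lit 5) (nat_lit 380) (nat_lit 300) (nat_lit 181)) (XT.nd (nat_lit 94) (nat_lit 0) (nat_lit 0) (XT.lf (nat_lit 0) (nat_lit 5168158590) (nat_lit 252) (nat_lit 27939802535) (nat_lit 84) (nat_lit 1459439116) (nat_lit 12) (nat_lit 5) (nat_lit 15) (nat_lit 5) (nat_lit 13) (nat_lit 5) (nat_lit 381) (nat_lit 300) (nat_lit 180)) (XT.lf (nat_lit 0) (nat_lit 7648184161) (nat_lit 252) (nat_lit 21938762805) (nat_lit 84) (nat_lit 5895672196) (nat_lit 12) (nat_lit 5) (nat_lit 15) (nat_lit 5) (nat_lit 13) (nat_lit 5) (nat_lit 382) (nat_lit 300) (nat_lit 179)))) (XT.nd (nat_lit 94) (nat_lit 0) (nat_lit 0) (XT.lf (nat_lit 0) (nat_lit 10198456999) (nat_lit 252) (nat_lit 15761552767) (nat_lit 84) (nat_lit 10466428255) (nat_lit 12) (nat_lit 5) (nat_lit 15) (nat_lit 5) (nat_lit 13) (nat_lit 5) (nat_lit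 383) (nat_lit 300) (nat_lit 178)) (XT.nd (nat_lit 94) (nat_lit 0) (nat_lit 0) (XT.lf (nat_lit 0) (nat_lit 12821354225) (nat_lit 252) (nat_lit 9402414614) (nat_lit 84) (nat_lit 15175967716) (nat_lit 12) (nat_lit 5) (nat_lit 15) (nat_lit 5) (nat_lit 13) (nat_lit 5) (nat_lit 384) (nat_lit 300) (nat_lit 177)) (XT.lf (nat_lit 0) (nat_lit 15519320656) (nat_lit 252) (nat_lit 2855420963) (nat_lit 84) (nat_lit 20028680364) (nat_lit 12) (nat_lit 5) (nat_lit 15) (nat_lit 5) (nat_lit 13) (nat_lit 5) (nat_lit 385) (nat_lit 300) (nat_lit 176))))) (XT.nd (nat_lit 282) (nat_lit 0) (nat_lit 0) (XT.nd (nat_lit 94) (nat_lit 0) (nat_lit 0) (XT.lf (nat_lit 0) (nat_lit 3965425148) (nat_lit 168) (nat_lit 14368783438) (nat_lit 252) (nat_lit 21103001795) (nat_lit 10) (nat_lit 5) (nat_lit 12) (nat_lit 5) (nat_lit 13) (nat_lit 5) (nat_lit 386) (nat_lit 300) (nat_lit 175)) (XT.nd (nat_lit 94) (nat_lit 0) (nat_lit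 0) (XT.lf (nat_lit 0) (nat_lit 11049343197) (nat_lit 168) (nat_lit 10210860249) (nat_lit 252) (nat_lit 19242123488) (nat_lit 10) (nat_lit 5) (nat_lit 12) (nat_lit 5) (nat_lit 13) (nat_lit 5) (nat_lit 387) (nat_lit 300) (nat_lit 174)) (XT.lf (nat_lit 0) (nat_lit 18344222825) (nat_lit 168) (nat_lit 5926901173) (nat_lit 252) (nat_lit 17329536614) (nat_lit 10) (nat_lit 5) (nat_lit 12) (nat_lit 5) (nat_lit 13) (nat_lit 5) (nat_lit 388) (nat_lit 300) (nat_lit 173)))) (XT.nd (nat_lit 94) (nat_lit 0) (nat_lit 0) (XT.lf (nat_lit 0) (nat_lit 25856863625) (nat_lit 168) (nat_lit 1512913110) (nat_lit 252) (nat_lit 15363458439) (nat_lit 10) (nat_lit 5) (nat_lit 12) (nat_lit 5) (nat_lit 13) (nat_lit 5) (nat_lit 389) (nat_lit 300) (nat_lit 172)) (XT.nd (nat_lit 94) (nat_lit 0) (nat_lit 0) (XT.lf (nat_lit 0) (nat_lit 30589159667) (nat_lit 252) (nat_lit 10336947877) (nat_lit 84) (nat_lit 2974065354)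 (nat_lit 10) (nat_lit 5) (nat_lit 13) (nat_lit 5) (nat_lit 11) (nat_lit 4) (nat_lit 390) (nat_lit 300) (nat_lit 171)) (XT.lf (nat_lit 0) (nat_lit 33918516847) (nat_lit 252) (nat_lit 3618314592) (nat_lit 84) (nat_lit 7566156511) (nat_lit 10) (nat_lit 5) (nat_lit 13) (nat_lit 5) (nat_lit 11) (nat_lit 4) (nat_lit 391) (nat_lit 300) (nat_lit 170))))))) (XT.nd (nat_lit 1128) (nat_lit 84) (nat_lit 0) (XT.nd (nat_lit 564) (nat_lit 168) (nat_lit 0) (XT.nd (nat_lit 282) (nat_lit 84) (nat_lit 0) (XT.nd (nat_lit 94) (nat_lit 0) (nat_lit 0) (XT.lf (nat_lit 0) (nat_lit 3368670256) (nat_lit 84) (nat_lit 34010690669) (nat_lit 168) (nat_lit 8962869867) (nat_lit 9) (nat_lit 5) (nat_lit 10) (nat_lit 5) (nat_lit 11) (nat_lit 4) (nat_lit 392) (nat_lit 300) (nat_lit 169)) (XT.nd (nat_lit 94) (nat_lit 0) (nat_lit 0) (XT.lf (nat_lit 0) (nat_lit 10641239680) (nat_lit 84) (nat_lit 30338956481) (nat_lit 168)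 (nat_lit 6638696736) (nat_lit 9) (nat_lit 5) (nat_lit 10) (nat_lit 5) (nat_lit 11) (nat_lit 4) (nat_lit 393) (nat_lit 300) (nat_lit 168)) (XT.lf (nat_lit 0) (nat_lit 18131772504) (nat_lit 84) (nat_lit 26555974217) (nat_lit 168) (nat_lit 4247553122) (nat_lit 9) (nat_lit 5) (nat_lit 10) (nat_lit 5) (nat_lit 11) (nat_lit 4) (nat_lit 394) (nat_lit 300) (nat_lit 167)))) (XT.nd (nat_lit 94) (nat_lit 84) (nat_lit 0) (XT.lf (nat_lit 0) (nat_lit 25847250691) (nat_lit 84) (nat_lit 22658217744) (nat_lit 168) (nat_lit 1787210229) (nat_lit 9) (nat_lit 5) (nat_lit 10) (nat_lit 5) (nat_lit 11) (nat_lit 4) (nat_lit 395) (nat_lit 300) (nat_lit 166)) (XT.nd (nat_lit 94) (nat_lit 0) (nat_lit 0) (XT.lf (nat_lit 0) (nat_lit 729622701) (nat_lit 168) (nat_lit 17904815476) (nat_lit 84) (nat_lit 33057627409) (nat_lit 8) (nat_lit 5) (nat_lit 10) (nat_lit 5) (nat_lit 9) (nat_lit 5) (nat_lit 396) (nat_lit 300)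 (nat_lit 165)) (XT.lf (nat_lit 0) (nat_lit 3282811877) (nat_lit 168) (nat_lit 11186661627) (nat_lit 84) (nat_lit 38664948364) (nat_lit 8) (nat_lit 5) (nat_lit 10) (nat_lit 5) (nat_lit 9) (nat_lit 5) (nat_lit 397) (nat_lit 300) (nat_lit 164))))) (XT.nd (nat_lit 282) (nat_lit 0) (nat_lit 0) (XT.nd (nat_lit 94) (nat_lit 168) (nat_lit 0) (XT.lf (nat_lit 0) (nat_lit 5910745442) (nat_lit 168) (nat_lit 4266975054) (nat_lit 84) (nat_lit 44443921049) (nat_lit 8) (nat_lit 5) (nat_lit 10) (nat_lit 5) (nat_lit 9) (nat_lit 5) (nat_lit 398) (nat_lit 300) (nat_lit 163)) (XT.nd (nat_lit 94) (nat_lit 0) (nat_lit 0) (XT.lf (nat_lit 0) (nat_lit 2919515851) (nat_lit 168) (nat_lit 5725319012) (nat_lit 252) (nat_lit 47509378180) (nat_lit 6) (nat_lit 5) (nat_lit 8) (nat_lit 5) (nat_lit 9) (nat_lit 5) (nat_lit 399) (nat_lit 300) (nat_lit 162)) (XT.lf (nat_lit 0) (nat_lit 10412784003) (nat_lit 168) (nat_lit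 1091227831) (nat_lit 252) (nat_lit 46229045164) (nat_lit 6) (nat_lit 5) (nat_lit 8) (nat_lit 5) (nat_lit 9) (nat_lit 5) (nat_lit 400) (nat_lit 300) (nat_lit 161)))) (XT.nd (nat_lit 94) (nat_lit 0) (nat_lit 0) (XT.lf (nat_lit 0) (nat_lit 14484291167) (nat_lit 252) (nat_lit 41265457133) (nat_lit 84) (nat_lit 3610102916) (nat_lit 6) (nat_lit 5) (nat_lit 9) (nat_lit 5) (nat_lit 7) (nat_lit 4) (nat_lit 401) (nat_lit 300) (nat_lit 160)) (XT.nd (nat_lit 94) (nat_lit 0) (nat_lit 0) (XT.lf (nat_lit 0) (nat_lit 17564140355) (nat_lit 252) (nat_lit 35040295444) (nat_lit 84) (nat_lit 8432429862) (nat_lit 6) (nat_lit 5) (nat_lit 9) (nat_lit 5) (nat_lit 7) (nat_lit 4) (nat_lit 402) (nat_lit 300) (nat_lit 159)) (XT.lf (nat_lit 0) (nat_lit 20735605026) (nat_lit 252) (nat_lit 28628160312) (nat_lit 84) (nat_lit 13402233729) (nat_lit 6) (nat_lit 5) (nat_lit 9) (nat_lit 5) (nat_lit 7) (nat_lit 4) (nat_lit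 403) (nat_lit 300) (nat_lit 158)))))) (XT.nd (nat_lit 564) (nat_lit 0) (nat_lit 0) (XT.nd (nat_lit 282) (nat_lit 84) (nat_lit 0) (XT.nd (nat_lit 94) (nat_lit 0) (nat_lit 0) (XT.lf (nat_lit 0) (nat_lit 24001641317) (nat_lit 252) (nat_lit 22023074954) (nat_lit 84) (nat_lit 18524146896) (nat_lit 6) (nat_lit 5) (nat_lit 9) (nat_lit 5) (nat_lit 7) (nat_lit 4) (nat_lit 404) (nat_lit 300) (nat_lit 157)) (XT.nd (nat_lit 94) (nat_lit 0) (nat_lit 0) (XT.lf (nat_lit 0) (nat_lit 27365293517) (nat_lit 252) (nat_lit 15218882739) (nat_lit 84) (nat_lit 23802943521) (nat_lit 6) (nat_lit 5) (nat_lit 9) (nat_lit 5) (nat_lit 7) (nat_lit 4) (nat_lit 405) (nat_lit 300) (nat_lit 156)) (XT.lf (nat_lit 0) (nat_lit 30829696901) (nat_lit 252) (nat_lit 8209241447) (nat_lit 84) (nat_lit 29243543996) (nat_lit 6) (nat_lit 5) (nat_lit 9) (nat_lit 5) (nat_lit 7) (nat_lit 4) (nat_lit 406) (nat_lit 300) (nat_lit 155))))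 (XT.nd (nat_lit 94) (nat_lit 84) (nat_lit 0) (XT.lf (nat_lit 0) (nat_lit 34398080656) (nat_lit 252) (nat_lit 987617358) (nat_lit 84) (nat_lit 34851019531) (nat_lit 6) (nat_lit 5) (nat_lit 9) (nat_lit 5) (nat_lit 7) (nat_lit 4) (nat_lit 407) (nat_lit 300) (nat_lit 154)) (XT.nd (nat_lit 94) (nat_lit 0) (nat_lit 0) (XT.lf (nat_lit 0) (nat_lit 6585402011) (nat_lit 84) (nat_lit 31553696881) (nat_lit 168) (nat_lit 34110522871) (nat_lit 5) (nat_lit 5) (nat_lit 6) (nat_lit 5) (nat_lit 7) (nat_lit 4) (nat_lit 408) (nat_lit 300) (nat_lit 153)) (XT.lf (nat_lit 0) (nat_lit 14409017914) (nat_lit 84) (nat_lit 27594115058) (nat_lit 168) (nat_lit 32321584542) (nat_lit 5) (nat_lit 5) (nat_lit 6) (nat_lit 5) (nat_lit 7) (nat_lit 4) (nat_lit 409) (nat_lit 300) (nat_lit 152))))) (XT.nd (nat_lit 282) (nat_lit 0) (nat_lit 0) (XT.nd (nat_lit 94) (nat_lit 0) (nat_lit 0) (XT.lf (nat_lit 0) (nat_lit 22470215339)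 (nat_lit 84) (nat_lit 23513570499) (nat_lit 168) (nat_lit 30480463123) (nat_lit 5) (nat_lit 5) (nat_lit 6) (nat_lit 5) (nat_lit 7) (nat_lit 4) (nat_lit 410) (nat_lit 300) (nat_lit 151)) (XT.nd (nat_lit 94) (nat_lit 0) (nat_lit 0) (XT.lf (nat_lit 0) (nat_lit 30776508168) (nat_lit 84) (nat_lit 19308259711) (nat_lit 168) (nat_lit 28585442497) (nat_lit 5) (nat_lit 5) (nat_lit 6) (nat_lit 5) (nat_lit 7) (nat_lit 4) (nat_lit 411) (nat_lit 300) (nat_lit 150)) (XT.lf (nat_lit 0) (nat_lit 39335638736) (nat_lit 84) (nat_lit 14974262902) (nat_lit 168) (nat_lit 26634756306) (nat_lit 5) (nat_lit 5) (nat_lit 6) (nat_lit 5) (nat_lit 7) (nat_lit 4) (nat_lit 412) (nat_lit 300) (nat_lit 149)))) (XT.nd (nat_lit 188) (nat_lit 0) (nat_lit 0) (XT.nd (nat_lit 94) (nat_lit 0) (nat_lit 0) (XT.lf (nat_lit 0) (nat_lit 48155585048) (nat_lit 84) (nat_lit 10507540333) (nat_lit 168) (nat_lit 24626586305) (nat_lit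 5) (nat_lit 5) (nat_lit 6) (nat_lit 5) (nat_lit 7) (nat_lit 4) (nat_lit 413) (nat_lit 300) (nat_lit 148)) (XT.lf (nat_lit 0) (nat_lit 57244568220) (nat_lit 84) (nat_lit 5903928552) (nat_lit 168) (nat_lit 22559060671) (nat_lit 5) (nat_lit 5) (nat_lit 6) (nat_lit 5) (nat_lit 7) (nat_lit 4) (nat_lit 414) (nat_lit 300) (nat_lit 147))) (XT.nd (nat_lit 94) (nat_lit 0) (nat_lit 0) (XT.lf (nat_lit 0) (nat_lit 66611060134) (nat_lit 84) (nat_lit 1159136509) (nat_lit 168) (nat_lit 20430252252) (nat_lit 5) (nat_lit 5) (nat_lit 6) (nat_lit 5) (nat_lit 7) (nat_lit 4) (nat_lit 415) (nat_lit 300) (nat_lit 146)) (XT.lf (nat_lit 0) (nat_lit 72569547452) (nat_lit 168) (nat_lit 14543932885) (nat_lit 0) (nat_lit 3656081895) (nat_lit 5) (nat_lit 5) (nat_lit 7) (nat_lit 4) (nat_lit 5) (nat_lit 4) (nat_lit 416) (nat_lit 300) (nat_lit 145))))))))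
noncomputable def xc119 : XT := (XT.nd (nat_lit 45120) (nat_lit 0) (nat_lit 3276) (XT.nd (nat_lit 43992) (nat_lit 0) (nat_lit 8064) (XT.nd (nat_lit 43428) (nat_lit 0) (nat_lit 10500) (XT.nd (nat_lit 43146) (nat_lit 0) (nat_lit 11172) (XT.nd (nat_lit 94) (nat_lit 84) (nat_lit 0) (XT.lf (nat_lit 0) (nat_lit 77526962043) (nat_lit 168) (nat_lit 7295993839) (nat_lit 0) (nat_lit 8595082132) (nat_lit 5) (nat_lit 5) (nat_lit 7) (nat_lit 4) (nat_lit 5) (nat_lit 4) (nat_lit 417) (nat_lit 300) (nat_lit 144)) (XT.nd (nat_lit 94) (nat_lit 0) (nat_lit 0) (XT.lf (nat_lit 0) (nat_lit 176233709) (nat_lit 84) (nat_lit 82461077019) (nat_lit 84) (nat_lit 13511336435) (nat_lit 4) (nat_lit 4) (nat_lit 5) (nat_lit 5) (nat_lit 5) (nat_lit 4) (nat_lit 418) (nat_lit 300) (nat_lit 143)) (XT.lf (nat_lit 0) (nat_lit 8030863195) (nat_lit 84) (nat_lit 79948914440) (nat_lit 84) (nat_lit 10981850217) (nat_lit 4) (nat_lit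 4) (nat_lit 5) (nat_lit 5) (nat_lit 5) (nat_lit 4) (nat_lit 419) (nat_lit 300) (nat_lit 142)))) (XT.nd (nat_lit 94) (nat_lit 0) (nat_lit 0) (XT.lf (nat_lit 0) (nat_lit 1791046209) (nat_lit 756) (nat_lit 953859636) (nat_lit 756) (nat_lit 953859636) (nat_lit 137) (nat_lit 3) (nat_lit 146) (nat_lit 3) (nat_lit 146) (nat_lit 5) (nat_lit 301) (nat_lit 301) (nat_lit 259)) (XT.nd (nat_lit 94) (nat_lit 0) (nat_lit 0) (XT.lf (nat_lit 84) (nat_lit 812350939) (nat_lit 0) (nat_lit 4035501740) (nat_lit 756) (nat_lit 2618620537) (nat_lit 138) (nat_lit 5) (nat_lit 137) (nat_lit 3) (nat_lit 146) (nat_lit 5) (nat_lit 302) (nat_lit 301) (nat_lit 258)) (XT.lf (nat_lit 84) (nat_lit 3631531755) (nat_lit 0) (nat_lit 2492535473) (nat_lit 756) (nat_lit 1414708270) (nat_lit 138) (nat_lit 5) (nat_lit 137) (nat_lit 3) (nat_lit 146) (nat_lit 5) (nat_lit 303) (nat_lit 301) (nat_lit 257))))) (XT.nd (nat_lit 282)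 (nat_lit 0) (nat_lit 0) (XT.nd (nat_lit 94) (nat_lit 672) (nat_lit 0) (XT.lf (nat_lit 84) (nat_lit 6513224326) (nat_lit 0) (nat_lit 879387361) (nat_lit 756) (nat_lit 222492251) (nat_lit 138) (nat_lit 5) (nat_lit 137) (nat_lit 3) (nat_lit 146) (nat_lit 5) (nat_lit 304) (nat_lit 301) (nat_lit 256)) (XT.nd (nat_lit 94) (nat_lit 0) (nat_lit 0) (XT.lf (nat_lit 0) (nat_lit 965851962) (nat_lit 756) (nat_lit 5911794988) (nat_lit 840) (nat_lit 816780602) (nat_lit 129) (nat_lit 5) (nat_lit 138) (nat_lit 5) (nat_lit 139) (nat_lit 5) (nat_lit 305) (nat_lit 301) (nat_lit 255)) (XT.lf (nat_lit 0) (nat_lit 2161793169) (nat_lit 756) (nat_lit 3034356437) (nat_lit 840) (nat_lit 2581045785) (nat_lit 129) (nat_lit 5) (nat_lit 138) (nat_lit 5) (nat_lit 139) (nat_lit 5) (nat_lit 306) (nat_lit 301) (nat_lit 254)))) (XT.nd (nat_lit 94) (nat_lit 0) (nat_lit 0) (XT.lf (nat_lit 0) (nat_lit 3350935566) (nat_lit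 756) (nat_lit 93943670) (nat_lit 840) (nat_lit 4419293577) (nat_lit 129) (nat_lit 5) (nat_lit 138) (nat_lit 5) (nat_lit 139) (nat_lit 5) (nat_lit 307) (nat_lit 301) (nat_lit 253)) (XT.nd (nat_lit 94) (nat_lit 0) (nat_lit 84) (XT.lf (nat_lit 84) (nat_lit 2972064560) (nat_lit 0) (nat_lit 1591806248) (nat_lit 840) (nat_lit 3390656106) (nat_lit 130) (nat_lit 5) (nat_lit 129) (nat_lit 5) (nat_lit 139) (nat_lit 5) (nat_lit 308) (nat_lit 301) (nat_lit 252)) (XT.lf (nat_lit 0) (nat_lit 5777197341) (nat_lit 756) (nat_lit 1942609250) (nat_lit 840) (nat_lit 329295815) (nat_lit 130) (nat_lit 5) (nat_lit 139) (nat_lit 5) (nat_lit 140) (nat_lit 5) (nat_lit 309) (nat_lit 301) (nat_lit 251)))))) (XT.nd (nat_lit 564) (nat_lit 1680) (nat_lit 0) (XT.nd (nat_lit 282) (nat_lit 0) (nat_lit 84) (XT.nd (nat_lit 94) (nat_lit 840) (nat_lit 0) (XT.lf (nat_lit 84) (nat_lit 1172739102) (nat_lit 0) (nat_lit 5843193740)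 (nat_lit 840) (nat_lit 1131314114) (nat_lit 131) (nat_lit 5) (nat_lit 130) (nat_lit 5) (nat_lit 140) (nat_lit 5) (nat_lit 310) (nat_lit 301) (nat_lit 250)) (XT.nd (nat_lit 94) (nat_lit 0) (nat_lit 0) (XT.lf (nat_lit 0) (nat_lit 24405246) (nat_lit 840) (nat_lit 3849495985) (nat_lit 924) (nat_lit 4375361833) (nat_lit 120) (nat_lit 5) (nat_lit 130) (nat_lit 5) (nat_lit 131) (nat_lit 5) (nat_lit 311) (nat_lit 301) (nat_lit 249)) (XT.lf (nat_lit 0) (nat_lit 1153834150) (nat_lit 840) (nat_lit 665256983) (nat_lit 924) (nat_lit 6536425226) (nat_lit 120) (nat_lit 5) (nat_lit 130) (nat_lit 5) (nat_lit 131) (nat_lit 5) (nat_lit 312) (nat_lit 301) (nat_lit 248)))) (XT.nd (nat_lit 94) (nat_lit 0) (nat_lit 0) (XT.lf (nat_lit 0) (nat_lit 2310423878) (nat_lit 840) (nat_lit 5823294496) (nat_lit 924) (nat_lit 331817657) (nat_lit 121) (nat_lit 5) (nat_lit 131) (nat_lit 5) (nat_lit 132) (nat_lit 5) (nat_lit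 313) (nat_lit 301) (nat_lit 247)) (XT.nd (nat_lit 94) (nat_lit 0) (nat_lit 0) (XT.lf (nat_lit 0) (nat_lit 3492023657) (nat_lit 840) (nat_lit 2557559539) (nat_lit 924) (nat_lit 2529941526) (nat_lit 121) (nat_lit 5) (nat_lit 131) (nat_lit 5) (nat_lit 132) (nat_lit 5) (nat_lit 314) (nat_lit 301) (nat_lit 246)) (XT.lf (nat_lit 84) (nat_lit 799816714) (nat_lit 0) (nat_lit 3883002804) (nat_lit 924) (nat_lit 4015293539) (nat_lit 122) (nat_lit 5) (nat_lit 121) (nat_lit 5) (nat_lit 132) (nat_lit 5) (nat_lit 315) (nat_lit 301) (nat_lit 245))))) (XT.nd (nat_lit 282) (nat_lit 1008) (nat_lit 0) (XT.nd (nat_lit 94) (nat_lit 756) (nat_lit 0) (XT.lf (nat_lit 84) (nat_lit 4290039840) (nat_lit 0) (nat_lit 1612629058) (nat_lit 924) (nat_lit 2918161505) (nat_lit 122) (nat_lit 5) (nat_lit 121) (nat_lit 5) (nat_lit 132) (nat_lit 5) (nat_lit 316) (nat_lit 301) (nat_lit 244)) (XT.nd (nat_lit 94) (nat_lit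 840) (nat_lit 0) (XT.lf (nat_lit 0) (nat_lit 7134126551) (nat_lit 840) (nat_lit 1092130124) (nat_lit 84) (nat_lit 722110519) (nat_lit 122) (nat_lit 5) (nat_lit 132) (nat_lit 5) (nat_lit 123) (nat_lit 5) (nat_lit 317) (nat_lit 301) (nat_lit 243)) (XT.lf (nat_lit 0) (nat_lit 2460986067) (nat_lit 840) (nat_lit 5951255024) (nat_lit 924) (nat_lit 667550291) (nat_lit 112) (nat_lit 5) (nat_lit 122) (nat_lit 5) (nat_lit 123) (nat_lit 5) (nat_lit 318) (nat_lit 301) (nat_lit 242)))) (XT.nd (nat_lit 94) (nat_lit 924) (nat_lit 0) (XT.lf (nat_lit 0) (nat_lit 483624905) (nat_lit 924) (nat_lit 3098581812) (nat_lit 84) (nat_lit 5633751243) (nat_lit 111) (nat_lit 5) (nat_lit 122) (nat_lit 5) (nat_lit 112) (nat_lit 5) (nat_lit 319) (nat_lit 301) (nat_lit 241)) (XT.nd (nat_lit 94) (nat_lit 0) (nat_lit 0) (XT.lf (nat_lit 0) (nat_lit 509151337) (nat_lit 924) (nat_lit 1121278964) (nat_lit 1008) (nat_lit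 7726695104) (nat_lit 100) (nat_lit 5) (nat_lit 111) (nat_lit 5) (nat_lit 112) (nat_lit 5) (nat_lit 320) (nat_lit 301) (nat_lit 240)) (XT.lf (nat_lit 0) (nat_lit 2829016525) (nat_lit 1008) (nat_lit 5247603556) (nat_lit 84) (nat_lit 1425719915) (nat_lit 100) (nat_lit 5) (nat_lit 112) (nat_lit 5) (nat_lit 101) (nat_lit 5) (nat_lit 321) (nat_lit 301) (nat_lit 239))))))) (XT.nd (nat_lit 1128) (nat_lit 1680) (nat_lit 0) (XT.nd (nat_lit 564) (nat_lit 1428) (nat_lit 0) (XT.nd (nat_lit 282) (nat_lit 672) (nat_lit 0) (XT.nd (nat_lit 94) (nat_lit 1008) (nat_lit 0) (XT.lf (nat_lit 0) (nat_lit 4046653691) (nat_lit 1008) (nat_lit 1572281260) (nat_lit 84) (nat_lit 4033851397) (nat_lit 100) (nat_lit 5) (nat_lit 112) (nat_lit 5) (nat_lit 101) (nat_lit 5) (nat_lit 322) (nat_lit 301) (nat_lit 238)) (XT.nd (nat_lit 94) (nat_lit 0) (nat_lit 0) (XT.lf (nat_lit 0) (nat_lit 2237624988) (nat_lit 1008) (nat_lit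 3057926068) (nat_lit 1092) (nat_lit 4512710333) (nat_lit 88) (nat_lit 5) (nat_lit 100) (nat_lit 5) (nat_lit 101) (nat_lit 5) (nat_lit 323) (nat_lit 301) (nat_lit 237)) (XT.lf (nat_lit 0) (nat_lit 6174783047) (nat_lit 1008) (nat_lit 396731049) (nat_lit 1092) (nat_lit 3397562061) (nat_lit 88) (nat_lit 5) (nat_lit 100) (nat_lit 5) (nat_lit 101) (nat_lit 5) (nat_lit 324) (nat_lit 301) (nat_lit 236)))) (XT.nd (nat_lit 94) (nat_lit 84) (nat_lit 0) (XT.lf (nat_lit 0) (nat_lit 52395657) (nat_lit 588) (nat_lit 7831257745) (nat_lit 672) (nat_lit 2251481585) (nat_lit 81) (nat_lit 5) (nat_lit 88) (nat_lit 5) (nat_lit 89) (nat_lit 5) (nat_lit 325) (nat_lit 301) (nat_lit 235)) (XT.nd (nat_lit 94) (nat_lit 84) (nat_lit 0) (XT.lf (nat_lit 0) (nat_lit 4070381049) (nat_lit 588) (nat_lit 5183105389) (nat_lit 672) (nat_lit 1052477101) (nat_lit 81) (nat_lit 5) (nat_lit 88) (nat_lit 5) (nat_lit 89) (nat_lit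 5) (nat_lit 326) (nat_lit 301) (nat_lit 234)) (XT.lf (nat_lit 0) (nat_lit 153785657) (nat_lit 672) (nat_lit 2295183236) (nat_lit 84) (nat_lit 8034015480) (nat_lit 80) (nat_lit 5) (nat_lit 88) (nat_lit 5) (nat_lit 81) (nat_lit 5) (nat_lit 327) (nat_lit 301) (nat_lit 233))))) (XT.nd (nat_lit 282) (nat_lit 924) (nat_lit 0) (XT.nd (nat_lit 94) (nat_lit 0) (nat_lit 0) (XT.lf (nat_lit 0) (nat_lit 1371683478) (nat_lit 588) (nat_lit 8900747048) (nat_lit 84) (nat_lit 392985786) (nat_lit 74) (nat_lit 5) (nat_lit 81) (nat_lit 5) (nat_lit 75) (nat_lit 5) (nat_lit 328) (nat_lit 301) (nat_lit 232)) (XT.nd (nat_lit 94) (nat_lit 0) (nat_lit 0) (XT.lf (nat_lit 0) (nat_lit 2651713976) (nat_lit 588) (nat_lit 4903171512) (nat_lit 84) (nat_lit 3297994699) (nat_lit 74) (nat_lit 5) (nat_lit 81) (nat_lit 5) (nat_lit 75) (nat_lit 5) (nat_lit 329) (nat_lit 301) (nat_lit 231)) (XT.lf (nat_lit 0) (nat_lit 3947301872)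 (nat_lit 588) (nat_lit 805097124) (nat_lit 84) (nat_lit 6294632557) (nat_lit 74) (nat_lit 5) (nat_lit 81) (nat_lit 5) (nat_lit 75) (nat_lit 5) (nat_lit 330) (nat_lit 301) (nat_lit 230)))) (XT.nd (nat_lit 94) (nat_lit 420) (nat_lit 0) (XT.lf (nat_lit 0) (nat_lit 3467151322) (nat_lit 504) (nat_lit 1826898037) (nat_lit 588) (nat_lit 5952935787) (nat_lit 68) (nat_lit 5) (nat_lit 74) (nat_lit 5) (nat_lit 75) (nat_lit 5) (nat_lit 331) (nat_lit 301) (nat_lit 229)) (XT.nd (nat_lit 94) (nat_lit 420) (nat_lit 0) (XT.lf (nat_lit 0) (nat_lit 6679919912) (nat_lit 588) (nat_lit 3599180519) (nat_lit 84) (nat_lit 1174238965) (nat_lit 68) (nat_lit 5) (nat_lit 75) (nat_lit 5) (nat_lit 69) (nat_lit 5) (nat_lit 332) (nat_lit 301) (nat_lit 228)) (XT.lf (nat_lit 0) (nat_lit 683534309) (nat_lit 420) (nat_lit 7428459159) (nat_lit 504) (nat_lit 3554113741) (nat_lit 63) (nat_lit 5) (nat_lit 68) (nat_lit 5)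 (nat_lit 69) (nat_lit 5) (nat_lit 333) (nat_lit 301) (nat_lit 227)))))) (XT.nd (nat_lit 564) (nat_lit 840) (nat_lit 0) (XT.nd (nat_lit 282) (nat_lit 336) (nat_lit 0) (XT.nd (nat_lit 94) (nat_lit 504) (nat_lit 0) (XT.lf (nat_lit 0) (nat_lit 5152917543) (nat_lit 420) (nat_lit 4451333298) (nat_lit 504) (nat_lit 2280844042) (nat_lit 63) (nat_lit 5) (nat_lit 68) (nat_lit 5) (nat_lit 69) (nat_lit 5) (nat_lit 334) (nat_lit 301) (nat_lit 226)) (XT.nd (nat_lit 94) (nat_lit 504) (nat_lit 0) (XT.lf (nat_lit 0) (nat_lit 9739128583) (nat_lit 420) (nat_lit 1382515920) (nat_lit 504) (nat_lit 989991629) (nat_lit 63) (nat_lit 5) (nat_lit 68) (nat_lit 5) (nat_lit 69) (nat_lit 5) (nat_lit 335) (nat_lit 301) (nat_lit 225)) (XT.lf (nat_lit 0) (nat_lit 352356000) (nat_lit 504) (nat_lit 10222646866) (nat_lit 84) (nat_lit 1769627316) (nat_lit 57) (nat_lit 5) (nat_lit 63) (nat_lit 5) (nat_lit 58) (nat_lit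 5) (nat_lit 336) (nat_lit 301) (nat_lit 224)))) (XT.nd (nat_lit 94) (nat_lit 336) (nat_lit 0) (XT.lf (nat_lit 0) (nat_lit 1734509999) (nat_lit 504) (nat_lit 5824603757) (nat_lit 84) (nat_lit 5024938391) (nat_lit 57) (nat_lit 5) (nat_lit 63) (nat_lit 5) (nat_lit 58) (nat_lit 5) (nat_lit 337) (nat_lit 301) (nat_lit 223)) (XT.nd (nat_lit 94) (nat_lit 336) (nat_lit 0) (XT.lf (nat_lit 0) (nat_lit 3139724905) (nat_lit 504) (nat_lit 1311661915) (nat_lit 84) (nat_lit 8380220196) (nat_lit 57) (nat_lit 5) (nat_lit 63) (nat_lit 5) (nat_lit 58) (nat_lit 5) (nat_lit 338) (nat_lit 301) (nat_lit 222)) (XT.lf (nat_lit 0) (nat_lit 3388659123) (nat_lit 336) (nat_lit 1214267321) (nat_lit 420) (nat_lit 8483557002) (nat_lit 53) (nat_lit 5) (nat_lit 57) (nat_lit 5) (nat_lit 58) (nat_lit 5) (nat_lit 339) (nat_lit 301) (nat_lit 221))))) (XT.nd (nat_lit 282) (nat_lit 420) (nat_lit 0) (XT.nd (nat_lit 94) (nat_lit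 420) (nat_lit 0) (XT.lf (nat_lit 0) (nat_lit 6127545096) (nat_lit 420) (nat_lit 5128785335) (nat_lit 84) (nat_lit 2092524508) (nat_lit 53) (nat_lit 5) (nat_lit 58) (nat_lit 5) (nat_lit 54) (nat_lit 5) (nat_lit 340) (nat_lit 301) (nat_lit 220)) (XT.nd (nat_lit 94) (nat_lit 420) (nat_lit 0) (XT.lf (nat_lit 0) (nat_lit 7693576716) (nat_lit 420) (nat_lit 451129416) (nat_lit 84) (nat_lit 5474924106) (nat_lit 53) (nat_lit 5) (nat_lit 58) (nat_lit 5) (nat_lit 54) (nat_lit 5) (nat_lit 341) (nat_lit 301) (nat_lit 219)) (XT.lf (nat_lit 0) (nat_lit 4441025957) (nat_lit 420) (nat_lit 4893464896) (nat_lit 504) (nat_lit 4563578573) (nat_lit 48) (nat_lit 5) (nat_lit 53) (nat_lit 5) (nat_lit 54) (nat_lit 5) (nat_lit 342) (nat_lit 301) (nat_lit 218)))) (XT.nd (nat_lit 188) (nat_lit 84) (nat_lit 0) (XT.nd (nat_lit 94) (nat_lit 336) (nat_lit 0) (XT.lf (nat_lit 0) (nat_lit 9474619525) (nat_lit 420) (nat_lit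 1538979240) (nat_lit 504) (nat_lit 3172018041) (nat_lit 48) (nat_lit 5) (nat_lit 53) (nat_lit 5) (nat_lit 54) (nat_lit 5) (nat_lit 343) (nat_lit 301) (nat_lit 217)) (XT.lf (nat_lit 0) (nat_lit 146314346) (nat_lit 336) (nat_lit 12602053938) (nat_lit 420) (nat_lit 1733679134) (nat_lit 44) (nat_lit 5) (nat_lit 48) (nat_lit 5) (nat_lit 49) (nat_lit 5) (nat_lit 344) (nat_lit 301) (nat_lit 216))) (XT.nd (nat_lit 94) (nat_lit 84) (nat_lit 0) (XT.lf (nat_lit 0) (nat_lit 5218441386) (nat_lit 336) (nat_lit 9366657918) (nat_lit 420) (nat_lit 201153090) (nat_lit 44) (nat_lit 5) (nat_lit 48) (nat_lit 5) (nat_lit 49) (nat_lit 5) (nat_lit 345) (nat_lit 301) (nat_lit 215)) (XT.lf (nat_lit 0) (nat_lit 1334788641) (nat_lit 420) (nat_lit 4685151230) (nat_lit 84) (nat_lit 9080103510) (nat_lit 43) (nat_lit 5) (nat_lit 48) (nat_lit 5) (nat_lit 44) (nat_lit 5) (nat_lit 346) (nat_lit 301) (nat_lit 214))))))))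
noncomputable def xc120 : XT := (XT.nd (nat_lit 2256) (nat_lit 840) (nat_lit 0) (XT.nd (nat_lit 1128) (nat_lit 756) (nat_lit 0) (XT.nd (nat_lit 564) (nat_lit 672) (nat_lit 0) (XT.nd (nat_lit 282) (nat_lit 252) (nat_lit 0) (XT.nd (nat_lit 94) (nat_lit 0) (nat_lit 0) (XT.lf (nat_lit 0) (nat_lit 334751979) (nat_lit 336) (nat_lit 2566914155) (nat_lit 420) (nat_lit 12522291300) (nat_lit 39) (nat_lit 5) (nat_lit 43) (nat_lit 5) (nat_lit 44) (nat_lit 5) (nat_lit 347) (nat_lit 301) (nat_lit 213)) (XT.nd (nat_lit 94) (nat_lit 0) (nat_lit 0) (XT.lf (nat_lit 0) (nat_lit 4560812211) (nat_lit 420) (nat_lit 10176290552) (nat_lit 84) (nat_lit 1019525161) (nat_lit 39) (nat_lit 5) (nat_lit 44) (nat_lit 5) (nat_lit 40) (nat_lit 5) (nat_lit 348) (nat_lit 301) (nat_lit 212)) (XT.lf (nat_lit 0) (nat_lit 6282552800) (nat_lit 420) (nat_lit 5155889672) (nat_lit 84) (nat_lit 4660890304) (nat_lit 39) (nat_lit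 5) (nat_lit 44) (nat_lit 5) (nat_lit 40) (nat_lit 5) (nat_lit 349) (nat_lit 301) (nat_lit 211)))) (XT.nd (nat_lit 94) (nat_lit 0) (nat_lit 0) (XT.lf (nat_lit 0) (nat_lit 2184850) (nat_lit 252) (nat_lit 8040865461) (nat_lit 336) (nat_lit 8410129833) (nat_lit 36) (nat_lit 5) (nat_lit 39) (nat_lit 5) (nat_lit 40) (nat_lit 5) (nat_lit 350) (nat_lit 301) (nat_lit 210)) (XT.nd (nat_lit 94) (nat_lit 0) (nat_lit 0) (XT.lf (nat_lit 0) (nat_lit 5411641293) (nat_lit 252) (nat_lit 4485923528) (nat_lit 336) (nat_lit 6919272832) (nat_lit 36) (nat_lit 5) (nat_lit 39) (nat_lit 5) (nat_lit 40) (nat_lit 5) (nat_lit 351) (nat_lit 301) (nat_lit 209)) (XT.lf (nat_lit 0) (nat_lit 10971506171) (nat_lit 252) (nat_lit 824120010) (nat_lit 336) (nat_lit 5396636255) (nat_lit 36) (nat_lit 5) (nat_lit 39) (nat_lit 5) (nat_lit 40) (nat_lit 5) (nat_lit 352) (nat_lit 301) (nat_lit 208))))) (XT.nd (nat_lit 282) (nat_lit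 336) (nat_lit 0) (XT.nd (nat_lit 94) (nat_lit 336) (nat_lit 0) (XT.lf (nat_lit 0) (nat_lit 13768247693) (nat_lit 336) (nat_lit 922086678) (nat_lit 84) (nat_lit 2888563488) (nat_lit 36) (nat_lit 5) (nat_lit 40) (nat_lit 5) (nat_lit 37) (nat_lit 5) (nat_lit 353) (nat_lit 301) (nat_lit 207)) (XT.nd (nat_lit 94) (nat_lit 0) (nat_lit 0) (XT.lf (nat_lit 0) (nat_lit 4608570929) (nat_lit 336) (nat_lit 11234447532) (nat_lit 420) (nat_lit 2133287581) (nat_lit 32) (nat_lit 5) (nat_lit 36) (nat_lit 5) (nat_lit 37) (nat_lit 5) (nat_lit 354) (nat_lit 301) (nat_lit 206)) (XT.lf (nat_lit 0) (nat_lit 10313701329) (nat_lit 336) (nat_lit 7665113487) (nat_lit 420) (nat_lit 407377383) (nat_lit 32) (nat_lit 5) (nat_lit 36) (nat_lit 5) (nat_lit 37) (nat_lit 5) (nat_lit 355) (nat_lit 301) (nat_lit 205)))) (XT.nd (nat_lit 94) (nat_lit 252) (nat_lit 0) (XT.lf (nat_lit 0) (nat_lit 1331682343) (nat_lit 420) (nat_lit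 2643047561) (nat_lit 84) (nat_lit 14834079932) (nat_lit 31) (nat_lit 5) (nat_lit 36) (nat_lit 5) (nat_lit 32) (nat_lit 5) (nat_lit 356) (nat_lit 301) (nat_lit 204)) (XT.nd (nat_lit 94) (nat_lit 0) (nat_lit 0) (XT.lf (nat_lit 0) (nat_lit 2995033891) (nat_lit 252) (nat_lit 138539901) (nat_lit 336) (nat_lit 16110338123) (nat_lit 28) (nat_lit 5) (nat_lit 31) (nat_lit 5) (nat_lit 32) (nat_lit 5) (nat_lit 357) (nat_lit 301) (nat_lit 203)) (XT.lf (nat_lit 0) (nat_lit 5044906381) (nat_lit 336) (nat_lit 10881943537) (nat_lit 84) (nat_lit 3764040974) (nat_lit 28) (nat_lit 5) (nat_lit 32) (nat_lit 5) (nat_lit 29) (nat_lit 5) (nat_lit 358) (nat_lit 301) (nat_lit 202)))))) (XT.nd (nat_lit 564) (nat_lit 336) (nat_lit 0) (XT.nd (nat_lit 282) (nat_lit 168) (nat_lit 0) (XT.nd (nat_lit 94) (nat_lit 252) (nat_lit 0) (XT.lf (nat_lit 0) (nat_lit 7005123978) (nat_lit 336) (nat_lit 5365648172) (nat_lit 84)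 (nat_lit 7781323715) (nat_lit 28) (nat_lit 5) (nat_lit 32) (nat_lit 5) (nat_lit 29) (nat_lit 5) (nat_lit 359) (nat_lit 301) (nat_lit 201)) (XT.nd (nat_lit 94) (nat_lit 0) (nat_lit 0) (XT.lf (nat_lit 0) (nat_lit 312826932) (nat_lit 252) (nat_lit 8704955729) (nat_lit 336) (nat_lit 11610120469) (nat_lit 25) (nat_lit 5) (nat_lit 28) (nat_lit 5) (nat_lit 29) (nat_lit 5) (nat_lit 360) (nat_lit 301) (nat_lit 200)) (XT.lf (nat_lit 0) (nat_lit 6266108665) (nat_lit 252) (nat_lit 4871497610) (nat_lit 336) (nat_lit 9979511630) (nat_lit 25) (nat_lit 5) (nat_lit 28) (nat_lit 5) (nat_lit 29) (nat_lit 5) (nat_lit 361) (nat_lit 301) (nat_lit 199)))) (XT.nd (nat_lit 94) (nat_lit 168) (nat_lit 0) (XT.lf (nat_lit 0) (nat_lit 12389417378) (nat_lit 252) (nat_lit 922830971) (nat_lit 336) (nat_lit 8309631835) (nat_lit 25) (nat_lit 5) (nat_lit 28) (nat_lit 5) (nat_lit 29) (nat_lit 5) (nat_lit 362) (nat_lit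 301) (nat_lit 198)) (XT.nd (nat_lit 94) (nat_lit 168) (nat_lit 0) (XT.lf (nat_lit 0) (nat_lit 15574931934) (nat_lit 336) (nat_lit 3485395880) (nat_lit 84) (nat_lit 3081365563) (nat_lit 25) (nat_lit 5) (nat_lit 29) (nat_lit 5) (nat_lit 26) (nat_lit 5) (nat_lit 363) (nat_lit 301) (nat_lit 197)) (XT.lf (nat_lit 0) (nat_lit 2466088118) (nat_lit 168) (nat_lit 15465288337) (nat_lit 252) (nat_lit 4745553632) (nat_lit 23) (nat_lit 5) (nat_lit 25) (nat_lit 5) (nat_lit 26) (nat_lit 5) (nat_lit 364) (nat_lit 301) (nat_lit 196))))) (XT.nd (nat_lit 282) (nat_lit 252) (nat_lit 0) (XT.nd (nat_lit 94) (nat_lit 84) (nat_lit 0) (XT.lf (nat_lit 0) (nat_lit 8662108525) (nat_lit 168) (nat_lit 11725029930) (nat_lit 252) (nat_lit 2840846591) (nat_lit 23) (nat_lit 5) (nat_lit 25) (nat_lit 5) (nat_lit 26) (nat_lit 5) (nat_lit 365) (nat_lit 301) (nat_lit 195)) (XT.nd (nat_lit 94) (nat_lit 84) (nat_lit 0) (XT.lf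 (nat_lit 0) (nat_lit 15036773792) (nat_lit 168) (nat_lit 7872446668) (nat_lit 252) (nat_lit 887245317) (nat_lit 23) (nat_lit 5) (nat_lit 25) (nat_lit 5) (nat_lit 26) (nat_lit 5) (nat_lit 366) (nat_lit 301) (nat_lit 194)) (XT.lf (nat_lit 0) (nat_lit 1094564653) (nat_lit 252) (nat_lit 2797957873) (nat_lit 84) (nat_lit 20490036111) (nat_lit 22) (nat_lit 5) (nat_lit 25) (nat_lit 5) (nat_lit 23) (nat_lit 5) (nat_lit 367) (nat_lit 301) (nat_lit 193)))) (XT.nd (nat_lit 94) (nat_lit 0) (nat_lit 0) (XT.lf (nat_lit 0) (nat_lit 3146195399) (nat_lit 336) (nat_lit 21593259992) (nat_lit 84) (nat_lit 246288006) (nat_lit 19) (nat_lit 5) (nat_lit 23) (nat_lit 5) (nat_lit 20) (nat_lit 5) (nat_lit 368) (nat_lit 301) (nat_lit 192)) (XT.nd (nat_lit 94) (nat_lit 0) (nat_lit 0) (XT.lf (nat_lit 0) (nat_lit 5321503743) (nat_lit 336) (nat_lit 15825706711) (nat_lit 84) (nat_lit 4458588559) (nat_lit 19) (nat_lit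 5) (nat_lit 23) (nat_lit 5) (nat_lit 20) (nat_lit 5) (nat_lit 369) (nat_lit 301) (nat_lit 191)) (XT.lf (nat_lit 0) (nat_lit 7555286470) (nat_lit 336) (nat_lit 9891986565) (nat_lit 84) (nat_lit 8798114564) (nat_lit 19) (nat_lit 5) (nat_lit 23) (nat_lit 5) (nat_lit 20) (nat_lit 5) (nat_lit 370) (nat_lit 301) (nat_lit 190))))))) (XT.nd (nat_lit 1128) (nat_lit 252) (nat_lit 0) (XT.nd (nat_lit 564) (nat_lit 420) (nat_lit 0) (XT.nd (nat_lit 282) (nat_lit 0) (nat_lit 0) (XT.nd (nat_lit 94) (nat_lit 168) (nat_lit 0) (XT.lf (nat_lit 0) (nat_lit 9849625698) (nat_lit 336) (nat_lit 3786568706) (nat_lit 84) (nat_lit 13268910913) (nat_lit 19) (nat_lit 5) (nat_lit 23) (nat_lit 5) (nat_lit 20) (nat_lit 5) (nat_lit 371) (nat_lit 301) (nat_lit 189)) (XT.nd (nat_lit 94) (nat_lit 0) (nat_lit 0) (XT.lf (nat_lit 0) (nat_lit 2547565521) (nat_lit 168) (nat_lit 9684366635) (nat_lit 252) (nat_lit 15352851500)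 (nat_lit 17) (nat_lit 5) (nat_lit 19) (nat_lit 5) (nat_lit 20) (nat_lit 5) (nat_lit 372) (nat_lit 301) (nat_lit 188)) (XT.lf (nat_lit 0) (nat_lit 9146572094) (nat_lit 168) (nat_lit 5572749387) (nat_lit 252) (nat_lit 13565272922) (nat_lit 17) (nat_lit 5) (nat_lit 19) (nat_lit 5) (nat_lit 20) (nat_lit 5) (nat_lit 373) (nat_lit 301) (nat_lit 187)))) (XT.nd (nat_lit 94) (nat_lit 0) (nat_lit 0) (XT.lf (nat_lit 0) (nat_lit 15938742358) (nat_lit 168) (nat_lit 1337034214) (nat_lit 252) (nat_lit 11730601684) (nat_lit 17) (nat_lit 5) (nat_lit 19) (nat_lit 5) (nat_lit 20) (nat_lit 5) (nat_lit 374) (nat_lit 301) (nat_lit 186)) (XT.nd (nat_lit 94) (nat_lit 0) (nat_lit 0) (XT.lf (nat_lit 0) (nat_lit 19933705820) (nat_lit 252) (nat_lit 6850426174) (nat_lit 84) (nat_lit 2965745209) (nat_lit 17) (nat_lit 5) (nat_lit 20) (nat_lit 5) (nat_lit 18) (nat_lit 5) (nat_lit 375) (nat_lit 301) (nat_lit 185))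 (XT.lf (nat_lit 0) (nat_lit 22680107325) (nat_lit 252) (nat_lit 465118680) (nat_lit 84) (nat_lit 7371038118) (nat_lit 17) (nat_lit 5) (nat_lit 20) (nat_lit 5) (nat_lit 18) (nat_lit 5) (nat_lit 376) (nat_lit 301) (nat_lit 184))))) (XT.nd (nat_lit 282) (nat_lit 252) (nat_lit 0) (XT.nd (nat_lit 94) (nat_lit 0) (nat_lit 0) (XT.lf (nat_lit 0) (nat_lit 6233084670) (nat_lit 168) (nat_lit 19333025780) (nat_lit 252) (nat_lit 5738637267) (nat_lit 15) (nat_lit 5) (nat_lit 17) (nat_lit 5) (nat_lit 18) (nat_lit 5) (nat_lit 377) (nat_lit 301) (nat_lit 183)) (XT.nd (nat_lit 94) (nat_lit 0) (nat_lit 0) (XT.lf (nat_lit 0) (nat_lit 13138268788) (nat_lit 168) (nat_lit 15400913166) (nat_lit 252) (nat_lit 3578592902) (nat_lit 15) (nat_lit 5) (nat_lit 17) (nat_lit 5) (nat_lit 18) (nat_lit 5) (nat_lit 378) (nat_lit 301) (nat_lit 182)) (XT.lf (nat_lit 0) (nat_lit 20247306235) (nat_lit 168) (nat_lit 11350077909)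 (nat_lit 252) (nat_lit 1358865200) (nat_lit 15) (nat_lit 5) (nat_lit 17) (nat_lit 5) (nat_lit 18) (nat_lit 5) (nat_lit 379) (nat_lit 301) (nat_lit 181)))) (XT.nd (nat_lit 94) (nat_lit 168) (nat_lit 0) (XT.lf (nat_lit 0) (nat_lit 904026223) (nat_lit 252) (nat_lit 6263281802) (nat_lit 84) (nat_lit 26653360975) (nat_lit 14) (nat_lit 5) (nat_lit 17) (nat_lit 5) (nat_lit 15) (nat_lit 5) (nat_lit 380) (nat_lit 301) (nat_lit 180)) (XT.nd (nat_lit 94) (nat_lit 0) (nat_lit 0) (XT.lf (nat_lit 0) (nat_lit 365905246) (nat_lit 168) (nat_lit 2839856037) (nat_lit 252) (nat_lit 31505812210) (nat_lit 12) (nat_lit 5) (nat_lit 14) (nat_lit 5) (nat_lit 15) (nat_lit 5) (nat_lit 381) (nat_lit 301) (nat_lit 179)) (XT.lf (nat_lit 0) (nat_lit 5654348993) (nat_lit 252) (nat_lit 28321312492) (nat_lit 84) (nat_lit 1652116586) (nat_lit 12) (nat_lit 5) (nat_lit 15) (nat_lit 5) (nat_lit 13) (nat_lit 5) (nat_lit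 382) (nat_lit 301) (nat_lit 178)))))) (XT.nd (nat_lit 564) (nat_lit 84) (nat_lit 0) (XT.nd (nat_lit 282) (nat_lit 168) (nat_lit 0) (XT.nd (nat_lit 94) (nat_lit 0) (nat_lit 0) (XT.lf (nat_lit 0) (nat_lit 8201453899) (nat_lit 252) (nat_lit 22148812152) (nat_lit 84) (nat_lit 6221439836) (nat_lit 12) (nat_lit 5) (nat_lit 15) (nat_lit 5) (nat_lit 13) (nat_lit 5) (nat_lit 383) (nat_lit 301) (nat_lit 177)) (XT.nd (nat_lit 94) (nat_lit 0) (nat_lit 0) (XT.lf (nat_lit 0) (nat_lit 10821278447) (nat_lit 252) (nat_lit 15794242086) (nat_lit 84) (nat_lit 10929589570) (nat_lit 12) (nat_lit 5) (nat_lit 15) (nat_lit 5) (nat_lit 13) (nat_lit 5) (nat_lit 384) (nat_lit 301) (nat_lit 176)) (XT.lf (nat_lit 0) (nat_lit 13516264588) (nat_lit 252) (nat_lit 9251679170) (nat_lit 84) (nat_lit 15780954276) (nat_lit 12) (nat_lit 5) (nat_lit 15) (nat_lit 5) (nat_lit 13) (nat_lit 5) (nat_lit 385) (nat_lit 301) (nat_lit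 175)))) (XT.nd (nat_lit 94) (nat_lit 168) (nat_lit 0) (XT.lf (nat_lit 0) (nat_lit 16288924331) (nat_lit 252) (nat_lit 2515025049) (nat_lit 84) (nat_lit 20780055935) (nat_lit 12) (nat_lit 5) (nat_lit 15) (nat_lit 5) (nat_lit 13) (nat_lit 5) (nat_lit 386) (nat_lit 301) (nat_lit 174)) (XT.nd (nat_lit 94) (nat_lit 0) (nat_lit 0) (XT.lf (nat_lit 0) (nat_lit 4512924923) (nat_lit 168) (nat_lit 14673685936) (nat_lit 252) (nat_lit 21463398084) (nat_lit 10) (nat_lit 5) (nat_lit 12) (nat_lit 5) (nat_lit 13) (nat_lit 5) (nat_lit 387) (nat_lit 301) (nat_lit 173)) (XT.lf (nat_lit 0) (nat_lit 11803678458) (nat_lit 168) (nat_lit 10391092564) (nat_lit 252) (nat_lit 19553666400) (nat_lit 10) (nat_lit 5) (nat_lit 12) (nat_lit 5) (nat_lit 13) (nat_lit 5) (nat_lit 388) (nat_lit 301) (nat_lit 172))))) (XT.nd (nat_lit 282) (nat_lit 84) (nat_lit 0) (XT.nd (nat_lit 94) (nat_lit 0) (nat_lit 0) (XT.lf (nat_lit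 0) (nat_lit 19312317226) (nat_lit 168) (nat_lit 5978429141) (nat_lit 252) (nat_lit 17590357567) (nat_lit 10) (nat_lit 5) (nat_lit 12) (nat_lit 5) (nat_lit 13) (nat_lit 5) (nat_lit 389) (nat_lit 301) (nat_lit 171)) (XT.nd (nat_lit 94) (nat_lit 0) (nat_lit 0) (XT.lf (nat_lit 0) (nat_lit 27045840067) (nat_lit 168) (nat_lit 1431582603) (nat_lit 252) (nat_lit 15571641576) (nat_lit 10) (nat_lit 5) (nat_lit 12) (nat_lit 5) (nat_lit 13) (nat_lit 5) (nat_lit 390) (nat_lit 301) (nat_lit 170)) (XT.lf (nat_lit 0) (nat_lit 31790047207) (nat_lit 252) (nat_lit 10274228544) (nat_lit 84) (nat_lit 3188130680) (nat_lit 10) (nat_lit 5) (nat_lit 13) (nat_lit 5) (nat_lit 11) (nat_lit 4) (nat_lit 391) (nat_lit 301) (nat_lit 169)))) (XT.nd (nat_lit 94) (nat_lit 84) (nat_lit 0) (XT.lf (nat_lit 0) (nat_lit 35215018600) (nat_lit 252) (nat_lit 3358838585) (nat_lit 84) (nat_lit 7918912310) (nat_lit 10) (nat_lit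 5) (nat_lit 13) (nat_lit 5) (nat_lit 11) (nat_lit 4) (nat_lit 392) (nat_lit 301) (nat_lit 168)) (XT.nd (nat_lit 94) (nat_lit 0) (nat_lit 0) (XT.lf (nat_lit 0) (nat_lit 3840980235) (nat_lit 84) (nat_lit 34938450569) (nat_lit 168) (nat_lit 8991137831) (nat_lit 9) (nat_lit 5) (nat_lit 10) (nat_lit 5) (nat_lit 11) (nat_lit 4) (nat_lit 393) (nat_lit 301) (nat_lit 167)) (XT.lf (nat_lit 0) (nat_lit 11327937897) (nat_lit 84) (nat_lit 31156698360) (nat_lit 168) (nat_lit 6602419709) (nat_lit 9) (nat_lit 5) (nat_lit 10) (nat_lit 5) (nat_lit 11) (nat_lit 4) (nat_lit 394) (nat_lit 301) (nat_lit 166))))))))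
noncomputable def xc121 : XT := (XT.nd (nat_lit 2256) (nat_lit 84) (nat_lit 0) (XT.nd (nat_lit 1128) (nat_lit 84) (nat_lit 0) (XT.nd (nat_lit 564) (nat_lit 0) (nat_lit 0) (XT.nd (nat_lit 282) (nat_lit 168) (nat_lit 0) (XT.nd (nat_lit 94) (nat_lit 84) (nat_lit 0) (XT.lf (nat_lit 0) (nat_lit 19039948419) (nat_lit 84) (nat_lit 27260134955) (nat_lit 168) (nat_lit 4144429378) (nat_lit 9) (nat_lit 5) (nat_lit 10) (nat_lit 5) (nat_lit 11) (nat_lit 4) (nat_lit 395) (nat_lit 301) (nat_lit 165)) (XT.nd (nat_lit 94) (nat_lit 84) (nat_lit 0) (XT.lf (nat_lit 0) (nat_lit 26984200203) (nat_lit 84) (nat_lit 23245128349) (nat_lit 168) (nat_lit 1614875733) (nat_lit 9) (nat_lit 5) (nat_lit 10) (nat_lit 5) (nat_lit 11) (nat_lit 4) (nat_lit 396) (nat_lit 301) (nat_lit 164)) (XT.lf (nat_lit 0) (nat_lit 968680965) (nat_lit 168) (nat_lit 18129144127) (nat_lit 84) (nat_lit 34189306116) (nat_lit 8) (nat_lit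 5) (nat_lit 10) (nat_lit 5) (nat_lit 9) (nat_lit 5) (nat_lit 397) (nat_lit 301) (nat_lit 163)))) (XT.nd (nat_lit 94) (nat_lit 168) (nat_lit 0) (XT.lf (nat_lit 0) (nat_lit 3594511112) (nat_lit 168) (nat_lit 11212671581) (nat_lit 84) (nat_lit 39967239995) (nat_lit 8) (nat_lit 5) (nat_lit 10) (nat_lit 5) (nat_lit 9) (nat_lit 5) (nat_lit 398) (nat_lit 301) (nat_lit 162)) (XT.nd (nat_lit 94) (nat_lit 168) (nat_lit 0) (XT.lf (nat_lit 0) (nat_lit 6297598402) (nat_lit 168) (nat_lit 4088119801) (nat_lit 84) (nat_lit 45922243447) (nat_lit 8) (nat_lit 5) (nat_lit 10) (nat_lit 5) (nat_lit 9) (nat_lit 5) (nat_lit 399) (nat_lit 301) (nat_lit 161)) (XT.lf (nat_lit 0) (nat_lit 3318002396) (nat_lit 168) (nat_lit 5795374994) (nat_lit 252) (nat_lit 48774779758) (nat_lit 6) (nat_lit 5) (nat_lit 8) (nat_lit 5) (nat_lit 9) (nat_lit 5) (nat_lit 400) (nat_lit 301) (nat_lit 160))))) (XT.nd (nat_lit 282) (nat_lit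 0) (nat_lit 0) (XT.nd (nat_lit 94) (nat_lit 0) (nat_lit 0) (XT.lf (nat_lit 0) (nat_lit 11034301503) (nat_lit 168) (nat_lit 1020857148) (nat_lit 252) (nat_lit 47460992174) (nat_lit 6) (nat_lit 5) (nat_lit 8) (nat_lit 5) (nat_lit 9) (nat_lit 5) (nat_lit 401) (nat_lit 301) (nat_lit 159)) (XT.nd (nat_lit 94) (nat_lit 0) (nat_lit 0) (XT.lf (nat_lit 0) (nat_lit 15122980346) (nat_lit 252) (nat_lit 42249518048) (nat_lit 84) (nat_lit 3821045567) (nat_lit 6) (nat_lit 5) (nat_lit 9) (nat_lit 5) (nat_lit 7) (nat_lit 4) (nat_lit 402) (nat_lit 301) (nat_lit 158)) (XT.lf (nat_lit 0) (nat_lit 18292601697) (nat_lit 252) (nat_lit 35840251435) (nat_lit 84) (nat_lit 8789887041) (nat_lit 6) (nat_lit 5) (nat_lit 9) (nat_lit 5) (nat_lit 7) (nat_lit 4) (nat_lit 403) (nat_lit 301) (nat_lit 157)))) (XT.nd (nat_lit 94) (nat_lit 0) (nat_lit 0) (XT.lf (nat_lit 0) (nat_lit 21556850092) (nat_lit 252) (nat_lit 29237948346)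 (nat_lit 84) (nat_lit 13910866751) (nat_lit 6) (nat_lit 5) (nat_lit 9) (nat_lit 5) (nat_lit 7) (nat_lit 4) (nat_lit 404) (nat_lit 301) (nat_lit 156)) (XT.nd (nat_lit 94) (nat_lit 0) (nat_lit 0) (XT.lf (nat_lit 0) (nat_lit 24918768154) (nat_lit 252) (nat_lit 22436454744) (nat_lit 84) (nat_lit 19188757987) (nat_lit 6) (nat_lit 5) (nat_lit 9) (nat_lit 5) (nat_lit 7) (nat_lit 4) (nat_lit 405) (nat_lit 301) (nat_lit 155)) (XT.lf (nat_lit 0) (nat_lit 28381489542) (nat_lit 252) (nat_lit 15429430923) (nat_lit 84) (nat_lit 24628480296) (nat_lit 6) (nat_lit 5) (nat_lit 9) (nat_lit 5) (nat_lit 7) (nat_lit 4) (nat_lit 406) (nat_lit 301) (nat_lit 154)))))) (XT.nd (nat_lit 564) (nat_lit 0) (nat_lit 0) (XT.nd (nat_lit 282) (nat_lit 0) (nat_lit 0) (XT.nd (nat_lit 94) (nat_lit 84) (nat_lit 0) (XT.lf (nat_lit 0) (nat_lit 31948241875) (nat_lit 252) (nat_lit 8210345603) (nat_lit 84) (nat_lit 30235104069)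 (nat_lit 6) (nat_lit 5) (nat_lit 9) (nat_lit 5) (nat_lit 7) (nat_lit 4) (nat_lit 407) (nat_lit 301) (nat_lit 153)) (XT.nd (nat_lit 94) (nat_lit 84) (nat_lit 0) (XT.lf (nat_lit 0) (nat_lit 35622349740) (nat_lit 252) (nat_lit 772469841) (nat_lit 84) (nat_lit 36013855268) (nat_lit 6) (nat_lit 5) (nat_lit 9) (nat_lit 5) (nat_lit 7) (nat_lit 4) (nat_lit 408) (nat_lit 301) (nat_lit 152)) (XT.lf (nat_lit 0) (nat_lit 7032824993) (nat_lit 84) (nat_lit 32444179293) (nat_lit 168) (nat_lit 35007061794) (nat_lit 5) (nat_lit 5) (nat_lit 6) (nat_lit 5) (nat_lit 7) (nat_lit 4) (nat_lit 409) (nat_lit 301) (nat_lit 151)))) (XT.nd (nat_lit 94) (nat_lit 0) (nat_lit 0) (XT.lf (nat_lit 0) (nat_lit 15091658205) (nat_lit 84) (nat_lit 28364486852) (nat_lit 168) (nat_lit 33167503918) (nat_lit 5) (nat_lit 5) (nat_lit 6) (nat_lit 5) (nat_lit 7) (nat_lit 4) (nat_lit 410) (nat_lit 301) (nat_lit 150)) (XT.nd (nat_lit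 94) (nat_lit 0) (nat_lit 0) (XT.lf (nat_lit 0) (nat_lit 23395657908) (nat_lit 84) (nat_lit 24160002560) (nat_lit 168) (nat_lit 31273999823) (nat_lit 5) (nat_lit 5) (nat_lit 6) (nat_lit 5) (nat_lit 7) (nat_lit 4) (nat_lit 411) (nat_lit 301) (nat_lit 149)) (XT.lf (nat_lit 0) (nat_lit 31952564299) (nat_lit 84) (nat_lit 19826807396) (nat_lit 168) (nat_lit 29324784564) (nat_lit 5) (nat_lit 5) (nat_lit 6) (nat_lit 5) (nat_lit 7) (nat_lit 4) (nat_lit 412) (nat_lit 301) (nat_lit 148))))) (XT.nd (nat_lit 282) (nat_lit 0) (nat_lit 0) (XT.nd (nat_lit 94) (nat_lit 0) (nat_lit 0) (XT.lf (nat_lit 0) (nat_lit 40770353311) (nat_lit 84) (nat_lit 15360862369) (nat_lit 168) (nat_lit 27318041267) (nat_lit 5) (nat_lit 5) (nat_lit 6) (nat_lit 5) (nat_lit 7) (nat_lit 4) (nat_lit 413) (nat_lit 301) (nat_lit 147)) (XT.nd (nat_lit 94) (nat_lit 0) (nat_lit 0) (XT.lf (nat_lit 0) (nat_lit 49857244048) (nat_lit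 84) (nat_lit 10758004750) (nat_lit 168) (nat_lit 25251899439) (nat_lit 5) (nat_lit 5) (nat_lit 6) (nat_lit 5) (nat_lit 7) (nat_lit 4) (nat_lit 414) (nat_lit 301) (nat_lit 146)) (XT.lf (nat_lit 0) (nat_lit 59221706443) (nat_lit 84) (nat_lit 6013944194) (nat_lit 168) (nat_lit 23124433218) (nat_lit 5) (nat_lit 5) (nat_lit 6) (nat_lit 5) (nat_lit 7) (nat_lit 4) (nat_lit 415) (nat_lit 301) (nat_lit 145)))) (XT.nd (nat_lit 94) (nat_lit 0) (nat_lit 0) (XT.lf (nat_lit 0) (nat_lit 68872469156) (nat_lit 84) (nat_lit 1124258739) (nat_lit 168) (nat_lit 20933659584) (nat_lit 5) (nat_lit 5) (nat_lit 6) (nat_lit 5) (nat_lit 7) (nat_lit 4) (nat_lit 416) (nat_lit 301) (nat_lit 144)) (XT.nd (nat_lit 94) (nat_lit 0) (nat_lit 0) (XT.lf (nat_lit 0) (nat_lit 74941761725) (nat_lit 168) (nat_lit 14800770521) (nat_lit 0) (nat_lit 3836718511) (nat_lit 5) (nat_lit 5) (nat_lit 7) (nat_lit 4) (nat_lit 5) (nat_lit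 4) (nat_lit 417) (nat_lit 301) (nat_lit 143)) (XT.lf (nat_lit 0) (nat_lit 80049171098) (nat_lit 168) (nat_lit 7333979266) (nat_lit 0) (nat_lit 8926804244) (nat_lit 5) (nat_lit 5) (nat_lit 7) (nat_lit 4) (nat_lit 5) (nat_lit 4) (nat_lit 418) (nat_lit 301) (nat_lit 142))))))) (XT.nd (nat_lit 43992) (nat_lit 0) (nat_lit 7056) (XT.nd (nat_lit 43428) (nat_lit 0) (nat_lit 9744) (XT.nd (nat_lit 43146) (nat_lit 0) (nat_lit 10416) (XT.nd (nat_lit 94) (nat_lit 0) (nat_lit 0) (XT.lf (nat_lit 0) (nat_lit 367982077) (nat_lit 84) (nat_lit 84948232219) (nat_lit 84) (nat_lit 13809062611) (nat_lit 4) (nat_lit 4) (nat_lit 5) (nat_lit 5) (nat_lit 5) (nat_lit 4) (nat_lit 419) (nat_lit 301) (nat_lit 141)) (XT.nd (nat_lit 42958) (nat_lit 0) (nat_lit 11172) (XT.lf (nat_lit 0) (nat_lit 8460503876) (nat_lit 84) (nat_lit 82360271440) (nat_lit 84) (nat_lit 11204804301) (nat_lit 4) (nat_lit 4) (nat_lit 5) (nat_lit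 5) (nat_lit 5) (nat_lit 4) (nat_lit 420) (nat_lit 301) (nat_lit 140)) (XT.lf (nat_lit 0) (nat_lit 3036822082) (nat_lit 756) (nat_lit 365793267) (nat_lit 756) (nat_lit 365793267) (nat_lit 137) (nat_lit 3) (nat_lit 146) (nat_lit 3) (nat_lit 146) (nat_lit 5) (nat_lit 302) (nat_lit 302) (nat_lit 257)))) (XT.nd (nat_lit 94) (nat_lit 756) (nat_lit 0) (XT.lf (nat_lit 84) (nat_lit 2060299835) (nat_lit 0) (nat_lit 5258896316) (nat_lit 756) (nat_lit 291031740) (nat_lit 138) (nat_lit 5) (nat_lit 137) (nat_lit 3) (nat_lit 146) (nat_lit 5) (nat_lit 303) (nat_lit 302) (nat_lit 256)) (XT.nd (nat_lit 94) (nat_lit 0) (nat_lit 0) (XT.lf (nat_lit 0) (nat_lit 860090065) (nat_lit 756) (nat_lit 2766007063) (nat_lit 840) (nat_lit 4061041614) (nat_lit 128) (nat_lit 5) (nat_lit 137) (nat_lit 3) (nat_lit 138) (nat_lit 5) (nat_lit 304) (nat_lit 302) (nat_lit 255)) (XT.lf (nat_lit 84) (nat_lit 78183525) (nat_lit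 0) (nat_lit 1918258260) (nat_lit 840) (nat_lit 5771568979) (nat_lit 129) (nat_lit 5) (nat_lit 128) (nat_lit 5) (nat_lit 138) (nat_lit 5) (nat_lit 305) (nat_lit 302) (nat_lit 254))))) (XT.nd (nat_lit 282) (nat_lit 672) (nat_lit 0) (XT.nd (nat_lit 94) (nat_lit 0) (nat_lit 84) (XT.lf (nat_lit 84) (nat_lit 3044800673) (nat_lit 0) (nat_lit 108022893) (nat_lit 840) (nat_lit 4699321073) (nat_lit 129) (nat_lit 5) (nat_lit 128) (nat_lit 5) (nat_lit 138) (nat_lit 5) (nat_lit 306) (nat_lit 302) (nat_lit 253)) (XT.nd (nat_lit 94) (nat_lit 0) (nat_lit 0) (XT.lf (nat_lit 0) (nat_lit 4319942212) (nat_lit 756) (nat_lit 1878384370) (nat_lit 840) (nat_lit 1741613711) (nat_lit 129) (nat_lit 5) (nat_lit 138) (nat_lit 5) (nat_lit 139) (nat_lit 5) (nat_lit 307) (nat_lit 302) (nat_lit 252)) (XT.lf (nat_lit 84) (nat_lit 1138534132) (nat_lit 0) (nat_lit 4355832310) (nat_lit 840) (nat_lit 2537253212) (nat_lit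 130) (nat_lit 5) (nat_lit 129) (nat_lit 5) (nat_lit 139) (nat_lit 5) (nat_lit 308) (nat_lit 302) (nat_lit 251)))) (XT.nd (nat_lit 94) (nat_lit 756) (nat_lit 0) (XT.lf (nat_lit 84) (nat_lit 4264374714) (nat_lit 0) (nat_lit 2420154026) (nat_lit 840) (nat_lit 1442511966) (nat_lit 130) (nat_lit 5) (nat_lit 129) (nat_lit 5) (nat_lit 139) (nat_lit 5) (nat_lit 309) (nat_lit 302) (nat_lit 250)) (XT.nd (nat_lit 94) (nat_lit 756) (nat_lit 0) (XT.lf (nat_lit 84) (nat_lit 7463427552) (nat_lit 0) (nat_lit 409093956) (nat_lit 840) (nat_lit 354360409) (nat_lit 130) (nat_lit 5) (nat_lit 129) (nat_lit 5) (nat_lit 139) (nat_lit 5) (nat_lit 310) (nat_lit 302) (nat_lit 249)) (XT.lf (nat_lit 0) (nat_lit 754824329) (nat_lit 840) (nat_lit 5897672131) (nat_lit 924) (nat_lit 1677236248) (nat_lit 120) (nat_lit 5) (nat_lit 130) (nat_lit 5) (nat_lit 131) (nat_lit 5) (nat_lit 311) (nat_lit 302) (nat_lit 248))))))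 (XT.nd (nat_lit 564) (nat_lit 2688) (nat_lit 0) (XT.nd (nat_lit 282) (nat_lit 0) (nat_lit 84) (XT.nd (nat_lit 94) (nat_lit 0) (nat_lit 0) (XT.lf (nat_lit 0) (nat_lit 1865810815) (nat_lit 840) (nat_lit 2725886825) (nat_lit 924) (nat_lit 3844972893) (nat_lit 120) (nat_lit 5) (nat_lit 130) (nat_lit 5) (nat_lit 131) (nat_lit 5) (nat_lit 312) (nat_lit 302) (nat_lit 247)) (XT.nd (nat_lit 94) (nat_lit 0) (nat_lit 0) (XT.lf (nat_lit 84) (nat_lit 530376799) (nat_lit 0) (nat_lit 2449792177) (nat_lit 924) (nat_lit 5567939830) (nat_lit 121) (nat_lit 5) (nat_lit 120) (nat_lit 5) (nat_lit 131) (nat_lit 5) (nat_lit 313) (nat_lit 302) (nat_lit 246)) (XT.lf (nat_lit 84) (nat_lit 3921087404) (nat_lit 0) (nat_lit 200958666) (nat_lit 924) (nat_lit 4541388965) (nat_lit 121) (nat_lit 5) (nat_lit 120) (nat_lit 5) (nat_lit 131) (nat_lit 5) (nat_lit 314) (nat_lit 302) (nat_lit 245)))) (XT.nd (nat_lit 94) (nat_lit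 0) (nat_lit 0) (XT.lf (nat_lit 0) (nat_lit 5286023740) (nat_lit 840) (nat_lit 1411371015) (nat_lit 924) (nat_lit 2085562922) (nat_lit 121) (nat_lit 5) (nat_lit 131) (nat_lit 5) (nat_lit 132) (nat_lit 5) (nat_lit 315) (nat_lit 302) (nat_lit 244)) (XT.nd (nat_lit 94) (nat_lit 0) (nat_lit 0) (XT.lf (nat_lit 84) (nat_lit 2037677089) (nat_lit 0) (nat_lit 4437404074) (nat_lit 924) (nat_lit 2431648255) (nat_lit 122) (nat_lit 5) (nat_lit 121) (nat_lit 5) (nat_lit 132) (nat_lit 5) (nat_lit 316) (nat_lit 302) (nat_lit 243)) (XT.lf (nat_lit 84) (nat_lit 5599622790) (nat_lit 0) (nat_lit 2083598428) (nat_lit 924) (nat_lit 1351864682) (nat_lit 122) (nat_lit 5) (nat_lit 121) (nat_lit 5) (nat_lit 132) (nat_lit 5) (nat_lit 317) (nat_lit 302) (nat_lit 242))))) (XT.nd (nat_lit 282) (nat_lit 1932) (nat_lit 0) (XT.nd (nat_lit 94) (nat_lit 84) (nat_lit 0) (XT.lf (nat_lit 0) (nat_lit 78265907) (nat_lit 840)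 (nat_lit 8823278418) (nat_lit 924) (nat_lit 266913231) (nat_lit 112) (nat_lit 5) (nat_lit 122) (nat_lit 5) (nat_lit 123) (nat_lit 5) (nat_lit 318) (nat_lit 302) (nat_lit 241)) (XT.nd (nat_lit 94) (nat_lit 0) (nat_lit 0) (XT.lf (nat_lit 0) (nat_lit 860808196) (nat_lit 924) (nat_lit 5586275395) (nat_lit 84) (nat_lit 2857982542) (nat_lit 111) (nat_lit 5) (nat_lit 122) (nat_lit 5) (nat_lit 112) (nat_lit 5) (nat_lit 319) (nat_lit 302) (nat_lit 240)) (XT.lf (nat_lit 0) (nat_lit 1987643424) (nat_lit 924) (nat_lit 2000762565) (nat_lit 84) (nat_lit 5458532377) (nat_lit 111) (nat_lit 5) (nat_lit 122) (nat_lit 5) (nat_lit 112) (nat_lit 5) (nat_lit 320) (nat_lit 302) (nat_lit 239)))) (XT.nd (nat_lit 188) (nat_lit 1008) (nat_lit 0) (XT.nd (nat_lit 94) (nat_lit 0) (nat_lit 0) (XT.lf (nat_lit 0) (nat_lit 1706723396) (nat_lit 924) (nat_lit 1430227996) (nat_lit 1008) (nat_lit 6456812325) (nat_lit 100)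 (nat_lit 5) (nat_lit 111) (nat_lit 5) (nat_lit 112) (nat_lit 5) (nat_lit 321) (nat_lit 302) (nat_lit 238)) (XT.lf (nat_lit 0) (nat_lit 4326277394) (nat_lit 1008) (nat_lit 4209560609) (nat_lit 84) (nat_lit 1209330347) (nat_lit 100) (nat_lit 5) (nat_lit 112) (nat_lit 5) (nat_lit 101) (nat_lit 5) (nat_lit 322) (nat_lit 302) (nat_lit 237))) (XT.nd (nat_lit 94) (nat_lit 1008) (nat_lit 0) (XT.lf (nat_lit 0) (nat_lit 5539278769) (nat_lit 1008) (nat_lit 456406404) (nat_lit 84) (nat_lit 3906149204) (nat_lit 100) (nat_lit 5) (nat_lit 112) (nat_lit 5) (nat_lit 101) (nat_lit 5) (nat_lit 323) (nat_lit 302) (nat_lit 236)) (XT.lf (nat_lit 0) (nat_lit 3459816251) (nat_lit 1008) (nat_lit 3337403678) (nat_lit 1092) (nat_lit 3266063753) (nat_lit 88) (nat_lit 5) (nat_lit 100) (nat_lit 5) (nat_lit 101) (nat_lit 5) (nat_lit 324) (nat_lit 302) (nat_lit 235))))))))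
noncomputable def xc122 : XT := (XT.nd (nat_lit 2256) (nat_lit 1848) (nat_lit 0) (XT.nd (nat_lit 1128) (nat_lit 2016) (nat_lit 0) (XT.nd (nat_lit 564) (nat_lit 924) (nat_lit 0) (XT.nd (nat_lit 282) (nat_lit 504) (nat_lit 0) (XT.nd (nat_lit 94) (nat_lit 672) (nat_lit 0) (XT.lf (nat_lit 0) (nat_lit 7484363191) (nat_lit 1008) (nat_lit 588158618) (nat_lit 1092) (nat_lit 2158036242) (nat_lit 88) (nat_lit 5) (nat_lit 100) (nat_lit 5) (nat_lit 101) (nat_lit 5) (nat_lit 325) (nat_lit 302) (nat_lit 234)) (XT.nd (nat_lit 94) (nat_lit 84) (nat_lit 0) (XT.lf (nat_lit 0) (nat_lit 1209698368) (nat_lit 588) (nat_lit 8186373185) (nat_lit 672) (nat_lit 1006821197) (nat_lit 81) (nat_lit 5) (nat_lit 88) (nat_lit 5) (nat_lit 89) (nat_lit 5) (nat_lit 326) (nat_lit 302) (nat_lit 233)) (XT.lf (nat_lit 0) (nat_lit 186004850) (nat_lit 672) (nat_lit 5264803725) (nat_lit 84) (nat_lit 5129546129) (nat_lit 80)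 (nat_lit 5) (nat_lit 88) (nat_lit 5) (nat_lit 81) (nat_lit 5) (nat_lit 327) (nat_lit 302) (nat_lit 232)))) (XT.nd (nat_lit 94) (nat_lit 504) (nat_lit 0) (XT.lf (nat_lit 0) (nat_lit 1370237121) (nat_lit 672) (nat_lit 1247694287) (nat_lit 84) (nat_lit 8145963987) (nat_lit 80) (nat_lit 5) (nat_lit 88) (nat_lit 5) (nat_lit 81) (nat_lit 5) (nat_lit 328) (nat_lit 302) (nat_lit 231)) (XT.nd (nat_lit 94) (nat_lit 0) (nat_lit 0) (XT.lf (nat_lit 0) (nat_lit 2599658768) (nat_lit 588) (nat_lit 8025495704) (nat_lit 84) (nat_lit 327836834) (nat_lit 74) (nat_lit 5) (nat_lit 81) (nat_lit 5) (nat_lit 75) (nat_lit 5) (nat_lit 329) (nat_lit 302) (nat_lit 230)) (XT.lf (nat_lit 0) (nat_lit 3883726131) (nat_lit 588) (nat_lit 3938608721) (nat_lit 84) (nat_lit 3325226218) (nat_lit 74) (nat_lit 5) (nat_lit 81) (nat_lit 5) (nat_lit 75) (nat_lit 5) (nat_lit 330) (nat_lit 302) (nat_lit 229))))) (XT.nd (nat_lit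 282) (nat_lit 420) (nat_lit 0) (XT.nd (nat_lit 94) (nat_lit 0) (nat_lit 0) (XT.lf (nat_lit 0) (nat_lit 258134158) (nat_lit 504) (nat_lit 4929331479) (nat_lit 588) (nat_lit 6161441696) (nat_lit 68) (nat_lit 5) (nat_lit 74) (nat_lit 5) (nat_lit 75) (nat_lit 5) (nat_lit 331) (nat_lit 302) (nat_lit 228)) (XT.nd (nat_lit 94) (nat_lit 0) (nat_lit 0) (XT.lf (nat_lit 0) (nat_lit 4646657193) (nat_lit 504) (nat_lit 1903846174) (nat_lit 588) (nat_lit 5005523666) (nat_lit 68) (nat_lit 5) (nat_lit 74) (nat_lit 5) (nat_lit 75) (nat_lit 5) (nat_lit 332) (nat_lit 302) (nat_lit 227)) (XT.lf (nat_lit 0) (nat_lit 7946296127) (nat_lit 588) (nat_lit 2632345461) (nat_lit 84) (nat_lit 1191333865) (nat_lit 68) (nat_lit 5) (nat_lit 75) (nat_lit 5) (nat_lit 69) (nat_lit 5) (nat_lit 333) (nat_lit 302) (nat_lit 226)))) (XT.nd (nat_lit 94) (nat_lit 0) (nat_lit 0) (XT.lf (nat_lit 0) (nat_lit 1772215598) (nat_lit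 420) (nat_lit 7629287133) (nat_lit 504) (nat_lit 2588663190) (nat_lit 63) (nat_lit 5) (nat_lit 68) (nat_lit 5) (nat_lit 69) (nat_lit 5) (nat_lit 334) (nat_lit 302) (nat_lit 225)) (XT.nd (nat_lit 94) (nat_lit 0) (nat_lit 0) (XT.lf (nat_lit 0) (nat_lit 6348052483) (nat_lit 420) (nat_lit 4560755999) (nat_lit 504) (nat_lit 1308264003) (nat_lit 63) (nat_lit 5) (nat_lit 68) (nat_lit 5) (nat_lit 69) (nat_lit 5) (nat_lit 335) (nat_lit 302) (nat_lit 224)) (XT.lf (nat_lit 0) (nat_lit 11045303931) (nat_lit 420) (nat_lit 1397664281) (nat_lit 504) (nat_lit 8764585) (nat_lit 63) (nat_lit 5) (nat_lit 68) (nat_lit 5) (nat_lit 69) (nat_lit 5) (nat_lit 336) (nat_lit 302) (nat_lit 223)))))) (XT.nd (nat_lit 564) (nat_lit 756) (nat_lit 0) (XT.nd (nat_lit 282) (nat_lit 756) (nat_lit 0) (XT.nd (nat_lit 94) (nat_lit 0) (nat_lit 0) (XT.lf (nat_lit 0) (nat_lit 1335574605) (nat_lit 504) (nat_lit 9485938117)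 (nat_lit 84) (nat_lit 1870870456) (nat_lit 57) (nat_lit 5) (nat_lit 63) (nat_lit 5) (nat_lit 58) (nat_lit 5) (nat_lit 337) (nat_lit 302) (nat_lit 222)) (XT.nd (nat_lit 94) (nat_lit 0) (nat_lit 0) (XT.lf (nat_lit 0) (nat_lit 2731340497) (nat_lit 504) (nat_lit 4983235532) (nat_lit 84) (nat_lit 5225701483) (nat_lit 57) (nat_lit 5) (nat_lit 63) (nat_lit 5) (nat_lit 58) (nat_lit 5) (nat_lit 338) (nat_lit 302) (nat_lit 221)) (XT.lf (nat_lit 0) (nat_lit 4151761215) (nat_lit 504) (nat_lit 361119805) (nat_lit 84) (nat_lit 8683644270) (nat_lit 57) (nat_lit 5) (nat_lit 63) (nat_lit 5) (nat_lit 58) (nat_lit 5) (nat_lit 339) (nat_lit 302) (nat_lit 220)))) (XT.nd (nat_lit 94) (nat_lit 420) (nat_lit 0) (XT.lf (nat_lit 0) (nat_lit 4474876139) (nat_lit 336) (nat_lit 1167675927) (nat_lit 420) (nat_lit 7817437167) (nat_lit 53) (nat_lit 5) (nat_lit 57) (nat_lit 5) (nat_lit 58) (nat_lit 5) (nat_lit 340)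 (nat_lit 302) (nat_lit 219)) (XT.nd (nat_lit 94) (nat_lit 420) (nat_lit 0) (XT.lf (nat_lit 0) (nat_lit 7188275435) (nat_lit 420) (nat_lit 4305713497) (nat_lit 84) (nat_lit 2237447626) (nat_lit 53) (nat_lit 5) (nat_lit 58) (nat_lit 5) (nat_lit 54) (nat_lit 5) (nat_lit 341) (nat_lit 302) (nat_lit 218)) (XT.lf (nat_lit 0) (nat_lit 497443531) (nat_lit 420) (nat_lit 8284162791) (nat_lit 504) (nat_lit 5229785701) (nat_lit 48) (nat_lit 5) (nat_lit 53) (nat_lit 5) (nat_lit 54) (nat_lit 5) (nat_lit 342) (nat_lit 302) (nat_lit 217))))) (XT.nd (nat_lit 282) (nat_lit 420) (nat_lit 0) (XT.nd (nat_lit 94) (nat_lit 336) (nat_lit 0) (XT.lf (nat_lit 0) (nat_lit 5521589775) (nat_lit 420) (nat_lit 4930822762) (nat_lit 504) (nat_lit 3846824174) (nat_lit 48) (nat_lit 5) (nat_lit 53) (nat_lit 5) (nat_lit 54) (nat_lit 5) (nat_lit 343) (nat_lit 302) (nat_lit 216)) (XT.nd (nat_lit 94) (nat_lit 336) (nat_lit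 0) (XT.lf (nat_lit 0) (nat_lit 10682873966) (nat_lit 420) (nat_lit 1475786000) (nat_lit 504) (nat_lit 2437930295) (nat_lit 48) (nat_lit 5) (nat_lit 53) (nat_lit 5) (nat_lit 54) (nat_lit 5) (nat_lit 344) (nat_lit 302) (nat_lit 215)) (XT.lf (nat_lit 0) (nat_lit 1083532687) (nat_lit 336) (nat_lit 12849830305) (nat_lit 420) (nat_lit 969392701) (nat_lit 44) (nat_lit 5) (nat_lit 48) (nat_lit 5) (nat_lit 49) (nat_lit 5) (nat_lit 345) (nat_lit 302) (nat_lit 214)))) (XT.nd (nat_lit 94) (nat_lit 336) (nat_lit 0) (XT.lf (nat_lit 0) (nat_lit 574237690) (nat_lit 420) (nat_lit 8938201775) (nat_lit 84) (nat_lit 5704620309) (nat_lit 43) (nat_lit 5) (nat_lit 48) (nat_lit 5) (nat_lit 44) (nat_lit 5) (nat_lit 346) (nat_lit 302) (nat_lit 213)) (XT.nd (nat_lit 94) (nat_lit 336) (nat_lit 0) (XT.lf (nat_lit 0) (nat_lit 2130238964) (nat_lit 420) (nat_lit 3934024234) (nat_lit 84) (nat_lit 9477082089) (nat_lit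 43) (nat_lit 5) (nat_lit 48) (nat_lit 5) (nat_lit 44) (nat_lit 5) (nat_lit 347) (nat_lit 302) (nat_lit 212)) (XT.lf (nat_lit 0) (nat_lit 1232421067) (nat_lit 336) (nat_lit 2499397282) (nat_lit 420) (nat_lit 12144015265) (nat_lit 39) (nat_lit 5) (nat_lit 43) (nat_lit 5) (nat_lit 44) (nat_lit 5) (nat_lit 348) (nat_lit 302) (nat_lit 211))))))) (XT.nd (nat_lit 1128) (nat_lit 924) (nat_lit 0) (XT.nd (nat_lit 564) (nat_lit 672) (nat_lit 0) (XT.nd (nat_lit 282) (nat_lit 0) (nat_lit 0) (XT.nd (nat_lit 94) (nat_lit 252) (nat_lit 0) (XT.lf (nat_lit 0) (nat_lit 5421556971) (nat_lit 420) (nat_lit 9607081347) (nat_lit 84) (nat_lit 1190924477) (nat_lit 39) (nat_lit 5) (nat_lit 44) (nat_lit 5) (nat_lit 40) (nat_lit 5) (nat_lit 349) (nat_lit 302) (nat_lit 210)) (XT.nd (nat_lit 94) (nat_lit 252) (nat_lit 0) (XT.lf (nat_lit 0) (nat_lit 7175041890) (nat_lit 420) (nat_lit 4457648331) (nat_lit 84) (nat_lit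 4940968628) (nat_lit 39) (nat_lit 5) (nat_lit 44) (nat_lit 5) (nat_lit 40) (nat_lit 5) (nat_lit 350) (nat_lit 302) (nat_lit 209)) (XT.lf (nat_lit 0) (nat_lit 851639274) (nat_lit 252) (nat_lit 8125922300) (nat_lit 336) (nat_lit 7961396981) (nat_lit 36) (nat_lit 5) (nat_lit 39) (nat_lit 5) (nat_lit 40) (nat_lit 5) (nat_lit 351) (nat_lit 302) (nat_lit 208)))) (XT.nd (nat_lit 94) (nat_lit 0) (nat_lit 0) (XT.lf (nat_lit 0) (nat_lit 6403249597) (nat_lit 252) (nat_lit 4465714616) (nat_lit 336) (nat_lit 6445654988) (nat_lit 36) (nat_lit 5) (nat_lit 39) (nat_lit 5) (nat_lit 40) (nat_lit 5) (nat_lit 352) (nat_lit 302) (nat_lit 207)) (XT.nd (nat_lit 94) (nat_lit 0) (nat_lit 0) (XT.lf (nat_lit 0) (nat_lit 12110698928) (nat_lit 252) (nat_lit 695184178) (nat_lit 336) (nat_lit 4896506856) (nat_lit 36) (nat_lit 5) (nat_lit 39) (nat_lit 5) (nat_lit 40) (nat_lit 5) (nat_lit 353) (nat_lit 302) (nat_lit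 206)) (XT.lf (nat_lit 0) (nat_lit 14821760762) (nat_lit 336) (nat_lit 154962171) (nat_lit 84) (nat_lit 3124928599) (nat_lit 36) (nat_lit 5) (nat_lit 40) (nat_lit 5) (nat_lit 37) (nat_lit 5) (nat_lit 354) (nat_lit 302) (nat_lit 205))))) (XT.nd (nat_lit 282) (nat_lit 252) (nat_lit 0) (XT.nd (nat_lit 94) (nat_lit 84) (nat_lit 0) (XT.lf (nat_lit 0) (nat_lit 5539089981) (nat_lit 336) (nat_lit 11410729590) (nat_lit 420) (nat_lit 1561984848) (nat_lit 32) (nat_lit 5) (nat_lit 36) (nat_lit 5) (nat_lit 37) (nat_lit 5) (nat_lit 355) (nat_lit 302) (nat_lit 204)) (XT.nd (nat_lit 94) (nat_lit 0) (nat_lit 0) (XT.lf (nat_lit 0) (nat_lit 194267705) (nat_lit 420) (nat_lit 7539621980) (nat_lit 84) (nat_lit 11201100883) (nat_lit 31) (nat_lit 5) (nat_lit 36) (nat_lit 5) (nat_lit 32) (nat_lit 5) (nat_lit 356) (nat_lit 302) (nat_lit 203)) (XT.lf (nat_lit 0) (nat_lit 1960560617) (nat_lit 420) (nat_lit 1969453814)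 (nat_lit 84) (nat_lit 15441206286) (nat_lit 31) (nat_lit 5) (nat_lit 36) (nat_lit 5) (nat_lit 32) (nat_lit 5) (nat_lit 357) (nat_lit 302) (nat_lit 202)))) (XT.nd (nat_lit 94) (nat_lit 0) (nat_lit 0) (XT.lf (nat_lit 0) (nat_lit 3808336736) (nat_lit 336) (nat_lit 15984717882) (nat_lit 84) (nat_lit 27139105) (nat_lit 28) (nat_lit 5) (nat_lit 32) (nat_lit 5) (nat_lit 29) (nat_lit 5) (nat_lit 358) (nat_lit 302) (nat_lit 201)) (XT.nd (nat_lit 94) (nat_lit 0) (nat_lit 0) (XT.lf (nat_lit 0) (nat_lit 5762927085) (nat_lit 336) (nat_lit 10475871154) (nat_lit 84) (nat_lit 4042797965) (nat_lit 28) (nat_lit 5) (nat_lit 32) (nat_lit 5) (nat_lit 29) (nat_lit 5) (nat_lit 359) (nat_lit 302) (nat_lit 200)) (XT.lf (nat_lit 0) (nat_lit 7767024438) (nat_lit 336) (nat_lit 4810923486) (nat_lit 84) (nat_lit 8179743316) (nat_lit 28) (nat_lit 5) (nat_lit 32) (nat_lit 5) (nat_lit 29) (nat_lit 5) (nat_lit 360)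 (nat_lit 302) (nat_lit 199)))))) (XT.nd (nat_lit 564) (nat_lit 504) (nat_lit 0) (XT.nd (nat_lit 282) (nat_lit 168) (nat_lit 0) (XT.nd (nat_lit 94) (nat_lit 0) (nat_lit 0) (XT.lf (nat_lit 0) (nat_lit 1036284263) (nat_lit 252) (nat_lit 8796492628) (nat_lit 336) (nat_lit 11415827027) (nat_lit 25) (nat_lit 5) (nat_lit 28) (nat_lit 5) (nat_lit 29) (nat_lit 5) (nat_lit 361) (nat_lit 302) (nat_lit 198)) (XT.nd (nat_lit 94) (nat_lit 0) (nat_lit 0) (XT.lf (nat_lit 0) (nat_lit 7152656478) (nat_lit 252) (nat_lit 4849558915) (nat_lit 336) (nat_lit 9751333157) (nat_lit 25) (nat_lit 5) (nat_lit 28) (nat_lit 5) (nat_lit 29) (nat_lit 5) (nat_lit 362) (nat_lit 302) (nat_lit 197)) (XT.lf (nat_lit 0) (nat_lit 13444971804) (nat_lit 252) (nat_lit 783684007) (nat_lit 336) (nat_lit 8045849885) (nat_lit 25) (nat_lit 5) (nat_lit 28) (nat_lit 5) (nat_lit 29) (nat_lit 5) (nat_lit 363) (nat_lit 302) (nat_lit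 196)))) (XT.nd (nat_lit 94) (nat_lit 168) (nat_lit 0) (XT.lf (nat_lit 0) (nat_lit 16547950664) (nat_lit 336) (nat_lit 2926642849) (nat_lit 84) (nat_lit 3336320330) (nat_lit 25) (nat_lit 5) (nat_lit 29) (nat_lit 5) (nat_lit 26) (nat_lit 5) (nat_lit 364) (nat_lit 302) (nat_lit 195)) (XT.nd (nat_lit 94) (nat_lit 0) (nat_lit 0) (XT.lf (nat_lit 0) (nat_lit 3202586399) (nat_lit 168) (nat_lit 15766667182) (nat_lit 252) (nat_lit 4393802656) (nat_lit 23) (nat_lit 5) (nat_lit 25) (nat_lit 5) (nat_lit 26) (nat_lit 5) (nat_lit 365) (nat_lit 302) (nat_lit 194)) (XT.lf (nat_lit 0) (nat_lit 9570837137) (nat_lit 168) (nat_lit 11915814206) (nat_lit 252) (nat_lit 2445049460) (nat_lit 23) (nat_lit 5) (nat_lit 25) (nat_lit 5) (nat_lit 26) (nat_lit 5) (nat_lit 366) (nat_lit 302) (nat_lit 193))))) (XT.nd (nat_lit 282) (nat_lit 168) (nat_lit 0) (XT.nd (nat_lit 94) (nat_lit 336) (nat_lit 0) (XT.lf (nat_lit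 0) (nat_lit 16123867464) (nat_lit 168) (nat_lit 7948993337) (nat_lit 252) (nat_lit 445435301) (nat_lit 23) (nat_lit 5) (nat_lit 25) (nat_lit 5) (nat_lit 26) (nat_lit 5) (nat_lit 367) (nat_lit 302) (nat_lit 192)) (XT.nd (nat_lit 94) (nat_lit 252) (nat_lit 0) (XT.lf (nat_lit 0) (nat_lit 1574528144) (nat_lit 252) (nat_lit 2271544092) (nat_lit 84) (nat_lit 21276822499) (nat_lit 22) (nat_lit 5) (nat_lit 25) (nat_lit 5) (nat_lit 23) (nat_lit 5) (nat_lit 368) (nat_lit 302) (nat_lit 191)) (XT.lf (nat_lit 0) (nat_lit 3684038716) (nat_lit 336) (nat_lit 21642134624) (nat_lit 84) (nat_lit 418833226) (nat_lit 19) (nat_lit 5) (nat_lit 23) (nat_lit 5) (nat_lit 20) (nat_lit 5) (nat_lit 369) (nat_lit 302) (nat_lit 190)))) (XT.nd (nat_lit 188) (nat_lit 168) (nat_lit 0) (XT.nd (nat_lit 94) (nat_lit 0) (nat_lit 0) (XT.lf (nat_lit 0) (nat_lit 5913542386) (nat_lit 336) (nat_lit 15714444814) (nat_lit 84)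 (nat_lit 4756756591) (nat_lit 19) (nat_lit 5) (nat_lit 23) (nat_lit 5) (nat_lit 20) (nat_lit 5) (nat_lit 370) (nat_lit 302) (nat_lit 189)) (XT.lf (nat_lit 0) (nat_lit 8203731220) (nat_lit 336) (nat_lit 9614875971) (nat_lit 84) (nat_lit 9225998488) (nat_lit 19) (nat_lit 5) (nat_lit 23) (nat_lit 5) (nat_lit 20) (nat_lit 5) (nat_lit 371) (nat_lit 302) (nat_lit 188))) (XT.nd (nat_lit 94) (nat_lit 168) (nat_lit 0) (XT.lf (nat_lit 0) (nat_lit 10556739914) (nat_lit 336) (nat_lit 3337742659) (nat_lit 84) (nat_lit 13830724719) (nat_lit 19) (nat_lit 5) (nat_lit 23) (nat_lit 5) (nat_lit 20) (nat_lit 5) (nat_lit 372) (nat_lit 302) (nat_lit 187)) (XT.lf (nat_lit 0) (nat_lit 3187017365) (nat_lit 168) (nat_lit 9819359959) (nat_lit 252) (nat_lit 15419825613) (nat_lit 17) (nat_lit 5) (nat_lit 19) (nat_lit 5) (nat_lit 20) (nat_lit 5) (nat_lit 373) (nat_lit 302) (nat_lit 186))))))))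
noncomputable def xc123 : XT := (XT.nd (nat_lit 2256) (nat_lit 420) (nat_lit 0) (XT.nd (nat_lit 1128) (nat_lit 252) (nat_lit 0) (XT.nd (nat_lit 564) (nat_lit 252) (nat_lit 0) (XT.nd (nat_lit 282) (nat_lit 168) (nat_lit 0) (XT.nd (nat_lit 94) (nat_lit 0) (nat_lit 0) (XT.lf (nat_lit 0) (nat_lit 9973740769) (nat_lit 168) (nat_lit 5585250456) (nat_lit 252) (nat_lit 13589128794) (nat_lit 17) (nat_lit 5) (nat_lit 19) (nat_lit 5) (nat_lit 20) (nat_lit 5) (nat_lit 374) (nat_lit 302) (nat_lit 185)) (XT.nd (nat_lit 94) (nat_lit 0) (nat_lit 0) (XT.lf (nat_lit 0) (nat_lit 16960122653) (nat_lit 168) (nat_lit 1223046618) (nat_lit 252) (nat_lit 11709509707) (nat_lit 17) (nat_lit 5) (nat_lit 19) (nat_lit 5) (nat_lit 20) (nat_lit 5) (nat_lit 375) (nat_lit 302) (nat_lit 184)) (XT.lf (nat_lit 0) (nat_lit 20913809347) (nat_lit 252) (nat_lit 6540350641) (nat_lit 84) (nat_lit 3205407826) (nat_lit 17) (nat_lit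 5) (nat_lit 20) (nat_lit 5) (nat_lit 18) (nat_lit 5) (nat_lit 376) (nat_lit 302) (nat_lit 183)))) (XT.nd (nat_lit 94) (nat_lit 0) (nat_lit 0) (XT.lf (nat_lit 0) (nat_lit 27751890) (nat_lit 168) (nat_lit 23706983363) (nat_lit 252) (nat_lit 7715346462) (nat_lit 15) (nat_lit 5) (nat_lit 17) (nat_lit 5) (nat_lit 18) (nat_lit 5) (nat_lit 377) (nat_lit 302) (nat_lit 182)) (XT.nd (nat_lit 94) (nat_lit 0) (nat_lit 0) (XT.lf (nat_lit 0) (nat_lit 6927910219) (nat_lit 168) (nat_lit 19776432959) (nat_lit 252) (nat_lit 5558885572) (nat_lit 15) (nat_lit 5) (nat_lit 17) (nat_lit 5) (nat_lit 18) (nat_lit 5) (nat_lit 378) (nat_lit 302) (nat_lit 181)) (XT.lf (nat_lit 0) (nat_lit 14032072991) (nat_lit 168) (nat_lit 15727112939) (nat_lit 252) (nat_lit 3342633598) (nat_lit 15) (nat_lit 5) (nat_lit 17) (nat_lit 5) (nat_lit 18) (nat_lit 5) (nat_lit 379) (nat_lit 302) (nat_lit 180))))) (XT.nd (nat_lit 282)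 (nat_lit 0) (nat_lit 0) (XT.nd (nat_lit 94) (nat_lit 252) (nat_lit 0) (XT.lf (nat_lit 0) (nat_lit 21346862030) (nat_lit 168) (nat_lit 11555248913) (nat_lit 252) (nat_lit 1064524760) (nat_lit 15) (nat_lit 5) (nat_lit 17) (nat_lit 5) (nat_lit 18) (nat_lit 5) (nat_lit 380) (nat_lit 302) (nat_lit 179)) (XT.nd (nat_lit 94) (nat_lit 168) (nat_lit 0) (XT.lf (nat_lit 0) (nat_lit 1251824301) (nat_lit 252) (nat_lit 5992061486) (nat_lit 84) (nat_lit 27614204707) (nat_lit 14) (nat_lit 5) (nat_lit 17) (nat_lit 5) (nat_lit 15) (nat_lit 5) (nat_lit 381) (nat_lit 302) (nat_lit 178)) (XT.lf (nat_lit 0) (nat_lit 837918786) (nat_lit 168) (nat_lit 2781949361) (nat_lit 252) (nat_lit 32156934537) (nat_lit 12) (nat_lit 5) (nat_lit 14) (nat_lit 5) (nat_lit 15) (nat_lit 5) (nat_lit 382) (nat_lit 302) (nat_lit 177)))) (XT.nd (nat_lit 94) (nat_lit 0) (nat_lit 0) (XT.lf (nat_lit 0) (nat_lit 6136303093) (nat_lit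 252) (nat_lit 28743354363) (nat_lit 84) (nat_lit 1842034240) (nat_lit 12) (nat_lit 5) (nat_lit 15) (nat_lit 5) (nat_lit 13) (nat_lit 5) (nat_lit 383) (nat_lit 302) (nat_lit 176)) (XT.nd (nat_lit 94) (nat_lit 0) (nat_lit 0) (XT.lf (nat_lit 0) (nat_lit 8753147351) (nat_lit 252) (nat_lit 22393215032) (nat_lit 84) (nat_lit 6548836032) (nat_lit 12) (nat_lit 5) (nat_lit 15) (nat_lit 5) (nat_lit 13) (nat_lit 5) (nat_lit 384) (nat_lit 302) (nat_lit 175)) (XT.lf (nat_lit 0) (nat_lit 11445242814) (nat_lit 252) (nat_lit 15854949627) (nat_lit 84) (nat_lit 11398893327) (nat_lit 12) (nat_lit 5) (nat_lit 15) (nat_lit 5) (nat_lit 13) (nat_lit 5) (nat_lit 385) (nat_lit 302) (nat_lit 174)))))) (XT.nd (nat_lit 564) (nat_lit 84) (nat_lit 0) (XT.nd (nat_lit 282) (nat_lit 0) (nat_lit 0) (XT.nd (nat_lit 94) (nat_lit 168) (nat_lit 0) (XT.lf (nat_lit 0) (nat_lit 14215098795) (nat_lit 252) (nat_lit 9122463800)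 (nat_lit 84) (nat_lit 16396726885) (nat_lit 12) (nat_lit 5) (nat_lit 15) (nat_lit 5) (nat_lit 13) (nat_lit 5) (nat_lit 386) (nat_lit 302) (nat_lit 173)) (XT.nd (nat_lit 94) (nat_lit 168) (nat_lit 0) (XT.lf (nat_lit 0) (nat_lit 17065297091) (nat_lit 252) (nat_lit 2189482169) (nat_lit 84) (nat_lit 21546995211) (nat_lit 12) (nat_lit 5) (nat_lit 15) (nat_lit 5) (nat_lit 13) (nat_lit 5) (nat_lit 387) (nat_lit 302) (nat_lit 172)) (XT.lf (nat_lit 0) (nat_lit 5052249089) (nat_lit 168) (nat_lit 14996364232) (nat_lit 252) (nat_lit 21852368743) (nat_lit 10) (nat_lit 5) (nat_lit 12) (nat_lit 5) (nat_lit 13) (nat_lit 5) (nat_lit 388) (nat_lit 302) (nat_lit 171)))) (XT.nd (nat_lit 94) (nat_lit 0) (nat_lit 0) (XT.lf (nat_lit 0) (nat_lit 12557006159) (nat_lit 168) (nat_lit 10584985620) (nat_lit 252) (nat_lit 19891745983) (nat_lit 10) (nat_lit 5) (nat_lit 12) (nat_lit 5) (nat_lit 13) (nat_lit 5) (nat_lit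 389) (nat_lit 302) (nat_lit 170)) (XT.nd (nat_lit 94) (nat_lit 0) (nat_lit 0) (XT.lf (nat_lit 0) (nat_lit 20286764016) (nat_lit 168) (nat_lit 6039385262) (nat_lit 252) (nat_lit 17875635301) (nat_lit 10) (nat_lit 5) (nat_lit 12) (nat_lit 5) (nat_lit 13) (nat_lit 5) (nat_lit 390) (nat_lit 302) (nat_lit 169)) (XT.lf (nat_lit 0) (nat_lit 28248727604) (nat_lit 168) (nat_lit 1355326181) (nat_lit 252) (nat_lit 15802157468) (nat_lit 10) (nat_lit 5) (nat_lit 12) (nat_lit 5) (nat_lit 13) (nat_lit 5) (nat_lit 391) (nat_lit 302) (nat_lit 168))))) (XT.nd (nat_lit 282) (nat_lit 0) (nat_lit 0) (XT.nd (nat_lit 94) (nat_lit 84) (nat_lit 0) (XT.lf (nat_lit 0) (nat_lit 33013198933) (nat_lit 252) (nat_lit 10232260415) (nat_lit 84) (nat_lit 3401613504) (nat_lit 10) (nat_lit 5) (nat_lit 13) (nat_lit 5) (nat_lit 11) (nat_lit 4) (nat_lit 392) (nat_lit 302) (nat_lit 167)) (XT.nd (nat_lit 94) (nat_lit 84) (nat_lit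 0) (XT.lf (nat_lit 0) (nat_lit 36537198496) (nat_lit 252) (nat_lit 3113331917) (nat_lit 84) (nat_lit 8275602056) (nat_lit 10) (nat_lit 5) (nat_lit 13) (nat_lit 5) (nat_lit 11) (nat_lit 4) (nat_lit 393) (nat_lit 302) (nat_lit 166)) (XT.lf (nat_lit 0) (nat_lit 4306141590) (nat_lit 84) (nat_lit 35902468073) (nat_lit 168) (nat_lit 9035065213) (nat_lit 9) (nat_lit 5) (nat_lit 10) (nat_lit 5) (nat_lit 11) (nat_lit 4) (nat_lit 394) (nat_lit 302) (nat_lit 165)))) (XT.nd (nat_lit 94) (nat_lit 0) (nat_lit 0) (XT.lf (nat_lit 0) (nat_lit 12014788712) (nat_lit 84) (nat_lit 32007061864) (nat_lit 168) (nat_lit 6579356707) (nat_lit 9) (nat_lit 5) (nat_lit 10) (nat_lit 5) (nat_lit 11) (nat_lit 4) (nat_lit 395) (nat_lit 302) (nat_lit 164)) (XT.nd (nat_lit 94) (nat_lit 0) (nat_lit 0) (XT.lf (nat_lit 0) (nat_lit 19955778227) (nat_lit 84) (nat_lit 27993177659) (nat_lit 168) (nat_lit 4052016278) (nat_lit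 9) (nat_lit 5) (nat_lit 10) (nat_lit 5) (nat_lit 11) (nat_lit 4) (nat_lit 396) (nat_lit 302) (nat_lit 163)) (XT.lf (nat_lit 0) (nat_lit 28136511968) (nat_lit 84) (nat_lit 23857074099) (nat_lit 168) (nat_lit 1450688181) (nat_lit 9) (nat_lit 5) (nat_lit 10) (nat_lit 5) (nat_lit 11) (nat_lit 4) (nat_lit 397) (nat_lit 302) (nat_lit 162))))))) (XT.nd (nat_lit 1128) (nat_lit 168) (nat_lit 0) (XT.nd (nat_lit 564) (nat_lit 0) (nat_lit 0) (XT.nd (nat_lit 282) (nat_lit 168) (nat_lit 0) (XT.nd (nat_lit 94) (nat_lit 0) (nat_lit 0) (XT.lf (nat_lit 0) (nat_lit 1202329926) (nat_lit 168) (nat_lit 18380016115) (nat_lit 84) (nat_lit 35349735451) (nat_lit 8) (nat_lit 5) (nat_lit 10) (nat_lit 5) (nat_lit 9) (nat_lit 5) (nat_lit 398) (nat_lit 302) (nat_lit 161)) (XT.nd (nat_lit 94) (nat_lit 0) (nat_lit 0) (XT.lf (nat_lit 0) (nat_lit 3903438387) (nat_lit 168) (nat_lit 11258487989) (nat_lit 84) (nat_lit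 41303761627) (nat_lit 8) (nat_lit 5) (nat_lit 10) (nat_lit 5) (nat_lit 9) (nat_lit 5) (nat_lit 399) (nat_lit 302) (nat_lit 160)) (XT.lf (nat_lit 0) (nat_lit 6684383051) (nat_lit 168) (nat_lit 3922148885) (nat_lit 84) (nat_lit 47440437449) (nat_lit 8) (nat_lit 5) (nat_lit 10) (nat_lit 5) (nat_lit 9) (nat_lit 5) (nat_lit 400) (nat_lit 302) (nat_lit 159)))) (XT.nd (nat_lit 94) (nat_lit 0) (nat_lit 0) (XT.lf (nat_lit 0) (nat_lit 3710599748) (nat_lit 168) (nat_lit 5873965910) (nat_lit 252) (nat_lit 50091692800) (nat_lit 6) (nat_lit 5) (nat_lit 8) (nat_lit 5) (nat_lit 9) (nat_lit 5) (nat_lit 401) (nat_lit 302) (nat_lit 158)) (XT.nd (nat_lit 94) (nat_lit 0) (nat_lit 0) (XT.lf (nat_lit 0) (nat_lit 11657392278) (nat_lit 168) (nat_lit 954476843) (nat_lit 252) (nat_lit 48743044201) (nat_lit 6) (nat_lit 5) (nat_lit 8) (nat_lit 5) (nat_lit 9) (nat_lit 5) (nat_lit 402) (nat_lit 302) (nat_lit 157))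 (XT.lf (nat_lit 0) (nat_lit 15770234047) (nat_lit 252) (nat_lit 43281568172) (nat_lit 84) (nat_lit 4032661755) (nat_lit 6) (nat_lit 5) (nat_lit 9) (nat_lit 5) (nat_lit 7) (nat_lit 4) (nat_lit 403) (nat_lit 302) (nat_lit 156))))) (XT.nd (nat_lit 282) (nat_lit 0) (nat_lit 0) (XT.nd (nat_lit 94) (nat_lit 0) (nat_lit 0) (XT.lf (nat_lit 0) (nat_lit 19032748305) (nat_lit 252) (nat_lit 36681963696) (nat_lit 84) (nat_lit 9152736076) (nat_lit 6) (nat_lit 5) (nat_lit 9) (nat_lit 5) (nat_lit 7) (nat_lit 4) (nat_lit 404) (nat_lit 302) (nat_lit 155)) (XT.nd (nat_lit 94) (nat_lit 0) (nat_lit 0) (XT.lf (nat_lit 0) (nat_lit 22392984371) (nat_lit 252) (nat_lit 29883087564) (nat_lit 84) (nat_lit 14429749146) (nat_lit 6) (nat_lit 5) (nat_lit 9) (nat_lit 5) (nat_lit 7) (nat_lit 4) (nat_lit 405) (nat_lit 302) (nat_lit 154)) (XT.lf (nat_lit 0) (nat_lit 25854074337) (nat_lit 252) (nat_lit 22878602512) (nat_lit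 84) (nat_lit 19868619694) (nat_lit 6) (nat_lit 5) (nat_lit 9) (nat_lit 5) (nat_lit 7) (nat_lit 4) (nat_lit 406) (nat_lit 302) (nat_lit 153)))) (XT.nd (nat_lit 94) (nat_lit 0) (nat_lit 0) (XT.lf (nat_lit 0) (nat_lit 29419244302) (nat_lit 252) (nat_lit 15661979626) (nat_lit 84) (nat_lit 25474417317) (nat_lit 6) (nat_lit 5) (nat_lit 9) (nat_lit 5) (nat_lit 7) (nat_lit 4) (nat_lit 407) (nat_lit 302) (nat_lit 152)) (XT.nd (nat_lit 94) (nat_lit 0) (nat_lit 0) (XT.lf (nat_lit 0) (nat_lit 33091817377) (nat_lit 252) (nat_lit 8226492257) (nat_lit 84) (nat_lit 31252367205) (nat_lit 6) (nat_lit 5) (nat_lit 9) (nat_lit 5) (nat_lit 7) (nat_lit 4) (nat_lit 408) (nat_lit 302) (nat_lit 151)) (XT.lf (nat_lit 0) (nat_lit 36875216786) (nat_lit 252) (nat_lit 565209753) (nat_lit 84) (nat_lit 37207855013) (nat_lit 6) (nat_lit 5) (nat_lit 9) (nat_lit 5) (nat_lit 7) (nat_lit 4) (nat_lit 409) (nat_lit 302)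 (nat_lit 150)))))) (XT.nd (nat_lit 564) (nat_lit 84) (nat_lit 0) (XT.nd (nat_lit 282) (nat_lit 0) (nat_lit 0) (XT.nd (nat_lit 94) (nat_lit 0) (nat_lit 0) (XT.lf (nat_lit 0) (nat_lit 7479708461) (nat_lit 84) (nat_lit 33367460226) (nat_lit 168) (nat_lit 35940923052) (nat_lit 5) (nat_lit 5) (nat_lit 6) (nat_lit 5) (nat_lit 7) (nat_lit 4) (nat_lit 410) (nat_lit 302) (nat_lit 149)) (XT.nd (nat_lit 94) (nat_lit 0) (nat_lit 0) (XT.lf (nat_lit 0) (nat_lit 15781483987) (nat_lit 84) (nat_lit 29163777579) (nat_lit 168) (nat_lit 34048889889) (nat_lit 5) (nat_lit 5) (nat_lit 6) (nat_lit 5) (nat_lit 7) (nat_lit 4) (nat_lit 411) (nat_lit 302) (nat_lit 148)) (XT.lf (nat_lit 0) (nat_lit 24336233078) (nat_lit 84) (nat_lit 24831359957) (nat_lit 168) (nat_lit 32101101334) (nat_lit 5) (nat_lit 5) (nat_lit 6) (nat_lit 5) (nat_lit 7) (nat_lit 4) (nat_lit 412) (nat_lit 302) (nat_lit 147)))) (XT.nd (nat_lit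 94) (nat_lit 0) (nat_lit 0) (XT.lf (nat_lit 0) (nat_lit 33151929655) (nat_lit 84) (nat_lit 20366169092) (nat_lit 168) (nat_lit 30095741844) (nat_lit 5) (nat_lit 5) (nat_lit 6) (nat_lit 5) (nat_lit 7) (nat_lit 4) (nat_lit 413) (nat_lit 302) (nat_lit 146)) (XT.nd (nat_lit 94) (nat_lit 0) (nat_lit 0) (XT.lf (nat_lit 0) (nat_lit 42236790872) (nat_lit 84) (nat_lit 15764042960) (nat_lit 168) (nat_lit 28030942213) (nat_lit 5) (nat_lit 5) (nat_lit 6) (nat_lit 5) (nat_lit 7) (nat_lit 4) (nat_lit 414) (nat_lit 302) (nat_lit 145)) (XT.lf (nat_lit 0) (nat_lit 51599284771) (nat_lit 84) (nat_lit 11020691896) (nat_lit 168) (nat_lit 25904777834) (nat_lit 5) (nat_lit 5) (nat_lit 6) (nat_lit 5) (nat_lit 7) (nat_lit 4) (nat_lit 415) (nat_lit 302) (nat_lit 144))))) (XT.nd (nat_lit 282) (nat_lit 84) (nat_lit 0) (XT.nd (nat_lit 94) (nat_lit 0) (nat_lit 0) (XT.lf (nat_lit 0) (nat_lit 61248138176) (nat_lit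 84) (nat_lit 6131694600) (nat_lit 168) (nat_lit 23715266896) (nat_lit 5) (nat_lit 5) (nat_lit 6) (nat_lit 5) (nat_lit 7) (nat_lit 4) (nat_lit 416) (nat_lit 302) (nat_lit 143)) (XT.nd (nat_lit 94) (nat_lit 0) (nat_lit 0) (XT.lf (nat_lit 0) (nat_lit 71192344830) (nat_lit 84) (nat_lit 1092494015) (nat_lit 168) (nat_lit 21460368548) (nat_lit 5) (nat_lit 5) (nat_lit 6) (nat_lit 5) (nat_lit 7) (nat_lit 4) (nat_lit 417) (nat_lit 302) (nat_lit 142)) (XT.lf (nat_lit 0) (nat_lit 77380255302) (nat_lit 168) (nat_lit 15077062515) (nat_lit 0) (nat_lit 4018968682) (nat_lit 5) (nat_lit 5) (nat_lit 7) (nat_lit 4) (nat_lit 5) (nat_lit 4) (nat_lit 418) (nat_lit 302) (nat_lit 141)))) (XT.nd (nat_lit 43146) (nat_lit 0) (nat_lit 10416) (XT.nd (nat_lit 94) (nat_lit 84) (nat_lit 0) (XT.lf (nat_lit 0) (nat_lit 82642527569) (nat_lit 168) (nat_lit 7384289081) (nat_lit 0) (nat_lit 9264943417) (nat_lit 5) (nat_lit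 5) (nat_lit 7) (nat_lit 4) (nat_lit 5) (nat_lit 4) (nat_lit 419) (nat_lit 302) (nat_lit 140)) (XT.lf (nat_lit 0) (nat_lit 554640657) (nat_lit 84) (nat_lit 87516584404) (nat_lit 84) (nat_lit 14123192754) (nat_lit 4) (nat_lit 4) (nat_lit 5) (nat_lit 5) (nat_lit 5) (nat_lit 4) (nat_lit 420) (nat_lit 302) (nat_lit 139))) (XT.nd (nat_lit 94) (nat_lit 0) (nat_lit 0) (XT.lf (nat_lit 0) (nat_lit 201855019) (nat_lit 0) (nat_lit 201855019) (nat_lit 756) (nat_lit 3438915027) (nat_lit 128) (nat_lit 5) (nat_lit 128) (nat_lit 3) (nat_lit 137) (nat_lit 3) (nat_lit 303) (nat_lit 303) (nat_lit 255)) (XT.lf (nat_lit 0) (nat_lit 1926425708) (nat_lit 756) (nat_lit 4508628647) (nat_lit 840) (nat_lit 1327974980) (nat_lit 128) (nat_lit 5) (nat_lit 137) (nat_lit 3) (nat_lit 138) (nat_lit 5) (nat_lit 304) (nat_lit 303) (nat_lit 254))))))))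
noncomputable def xc124 : XT := (XT.nd (nat_lit 2256) (nat_lit 3696) (nat_lit 0) (XT.nd (nat_lit 1128) (nat_lit 3276) (nat_lit 0) (XT.nd (nat_lit 564) (nat_lit 0) (nat_lit 0) (XT.nd (nat_lit 282) (nat_lit 756) (nat_lit 0) (XT.nd (nat_lit 94) (nat_lit 0) (nat_lit 0) (XT.lf (nat_lit 0) (nat_lit 3040423099) (nat_lit 756) (nat_lit 1677775969) (nat_lit 840) (nat_lit 3126534967) (nat_lit 128) (nat_lit 5) (nat_lit 137) (nat_lit 3) (nat_lit 138) (nat_lit 5) (nat_lit 305) (nat_lit 303) (nat_lit 253)) (XT.nd (nat_lit 94) (nat_lit 0) (nat_lit 0) (XT.lf (nat_lit 84) (nat_lit 1242699062) (nat_lit 0) (nat_lit 2916074424) (nat_lit 840) (nat_lit 3771408892) (nat_lit 129) (nat_lit 5) (nat_lit 128) (nat_lit 5) (nat_lit 138) (nat_lit 5) (nat_lit 306) (nat_lit 303) (nat_lit 252)) (XT.lf (nat_lit 84) (nat_lit 4266339685) (nat_lit 0) (nat_lit 1021507546) (nat_lit 840) (nat_lit 2731441612) (nat_lit 129)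 (nat_lit 5) (nat_lit 128) (nat_lit 5) (nat_lit 138) (nat_lit 5) (nat_lit 307) (nat_lit 303) (nat_lit 251)))) (XT.nd (nat_lit 94) (nat_lit 840) (nat_lit 0) (XT.lf (nat_lit 0) (nat_lit 6421132462) (nat_lit 756) (nat_lit 760619007) (nat_lit 840) (nat_lit 930619513) (nat_lit 129) (nat_lit 5) (nat_lit 138) (nat_lit 5) (nat_lit 139) (nat_lit 5) (nat_lit 308) (nat_lit 303) (nat_lit 250)) (XT.nd (nat_lit 94) (nat_lit 840) (nat_lit 0) (XT.lf (nat_lit 84) (nat_lit 2337918072) (nat_lit 0) (nat_lit 5246441952) (nat_lit 840) (nat_lit 624390624) (nat_lit 130) (nat_lit 5) (nat_lit 129) (nat_lit 5) (nat_lit 139) (nat_lit 5) (nat_lit 309) (nat_lit 303) (nat_lit 249)) (XT.lf (nat_lit 0) (nat_lit 435453055) (nat_lit 840) (nat_lit 2788040683) (nat_lit 924) (nat_lit 5085659703) (nat_lit 119) (nat_lit 5) (nat_lit 129) (nat_lit 5) (nat_lit 130) (nat_lit 5) (nat_lit 310) (nat_lit 303) (nat_lit 248))))) (XT.nd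 (nat_lit 282) (nat_lit 0) (nat_lit 84) (XT.nd (nat_lit 94) (nat_lit 0) (nat_lit 84) (XT.lf (nat_lit 84) (nat_lit 368064427) (nat_lit 0) (nat_lit 1113410597) (nat_lit 924) (nat_lit 6932269768) (nat_lit 120) (nat_lit 5) (nat_lit 119) (nat_lit 5) (nat_lit 130) (nat_lit 5) (nat_lit 311) (nat_lit 303) (nat_lit 247)) (XT.nd (nat_lit 94) (nat_lit 0) (nat_lit 0) (XT.lf (nat_lit 0) (nat_lit 2563528448) (nat_lit 840) (nat_lit 4874929128) (nat_lit 924) (nat_lit 1083231390) (nat_lit 120) (nat_lit 5) (nat_lit 130) (nat_lit 5) (nat_lit 131) (nat_lit 5) (nat_lit 312) (nat_lit 303) (nat_lit 246)) (XT.lf (nat_lit 0) (nat_lit 3655275165) (nat_lit 840) (nat_lit 1641067455) (nat_lit 924) (nat_lit 3337591707) (nat_lit 120) (nat_lit 5) (nat_lit 130) (nat_lit 5) (nat_lit 131) (nat_lit 5) (nat_lit 313) (nat_lit 303) (nat_lit 245)))) (XT.nd (nat_lit 94) (nat_lit 0) (nat_lit 0) (XT.lf (nat_lit 84) (nat_lit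 1704302008) (nat_lit 0) (nat_lit 3059292506) (nat_lit 924) (nat_lit 3986809273) (nat_lit 121) (nat_lit 5) (nat_lit 120) (nat_lit 5) (nat_lit 131) (nat_lit 5) (nat_lit 314) (nat_lit 303) (nat_lit 244)) (XT.nd (nat_lit 94) (nat_lit 0) (nat_lit 84) (XT.lf (nat_lit 84) (nat_lit 5165321548) (nat_lit 0) (nat_lit 724702227) (nat_lit 924) (nat_lit 2981166502) (nat_lit 121) (nat_lit 5) (nat_lit 120) (nat_lit 5) (nat_lit 131) (nat_lit 5) (nat_lit 315) (nat_lit 303) (nat_lit 243)) (XT.lf (nat_lit 0) (nat_lit 7035788124) (nat_lit 840) (nat_lit 302237503) (nat_lit 924) (nat_lit 1658375322) (nat_lit 121) (nat_lit 5) (nat_lit 131) (nat_lit 5) (nat_lit 132) (nat_lit 5) (nat_lit 316) (nat_lit 303) (nat_lit 242)))))) (XT.nd (nat_lit 564) (nat_lit 1680) (nat_lit 0) (XT.nd (nat_lit 282) (nat_lit 840) (nat_lit 0) (XT.nd (nat_lit 94) (nat_lit 924) (nat_lit 0) (XT.lf (nat_lit 84) (nat_lit 3242059157) (nat_lit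 0) (nat_lit 4983283551) (nat_lit 924) (nat_lit 900084803) (nat_lit 122) (nat_lit 5) (nat_lit 121) (nat_lit 5) (nat_lit 132) (nat_lit 5) (nat_lit 317) (nat_lit 303) (nat_lit 241)) (XT.nd (nat_lit 94) (nat_lit 0) (nat_lit 84) (XT.lf (nat_lit 0) (nat_lit 161533166) (nat_lit 924) (nat_lit 2381013367) (nat_lit 1008) (nat_lit 6716892027) (nat_lit 110) (nat_lit 5) (nat_lit 121) (nat_lit 5) (nat_lit 122) (nat_lit 5) (nat_lit 318) (nat_lit 303) (nat_lit 240)) (XT.lf (nat_lit 0) (nat_lit 1219383020) (nat_lit 924) (nat_lit 8175382414) (nat_lit 84) (nat_lit 3284643) (nat_lit 111) (nat_lit 5) (nat_lit 122) (nat_lit 5) (nat_lit 112) (nat_lit 5) (nat_lit 319) (nat_lit 303) (nat_lit 239)))) (XT.nd (nat_lit 94) (nat_lit 924) (nat_lit 0) (XT.lf (nat_lit 0) (nat_lit 2331747515) (nat_lit 924) (nat_lit 4601471966) (nat_lit 84) (nat_lit 2607234555) (nat_lit 111) (nat_lit 5) (nat_lit 122) (nat_lit 5) (nat_lit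 112) (nat_lit 5) (nat_lit 320) (nat_lit 303) (nat_lit 238)) (XT.nd (nat_lit 94) (nat_lit 924) (nat_lit 0) (XT.lf (nat_lit 0) (nat_lit 3450088948) (nat_lit 924) (nat_lit 939626199) (nat_lit 84) (nat_lit 5298604838) (nat_lit 111) (nat_lit 5) (nat_lit 122) (nat_lit 5) (nat_lit 112) (nat_lit 5) (nat_lit 321) (nat_lit 303) (nat_lit 237)) (XT.lf (nat_lit 0) (nat_lit 2871420841) (nat_lit 924) (nat_lit 1732513741) (nat_lit 1008) (nat_lit 5236968138) (nat_lit 100) (nat_lit 5) (nat_lit 111) (nat_lit 5) (nat_lit 112) (nat_lit 5) (nat_lit 322) (nat_lit 303) (nat_lit 236))))) (XT.nd (nat_lit 282) (nat_lit 672) (nat_lit 0) (XT.nd (nat_lit 94) (nat_lit 1008) (nat_lit 0) (XT.lf (nat_lit 0) (nat_lit 5786462617) (nat_lit 1008) (nat_lit 3210458952) (nat_lit 84) (nat_lit 1001667710) (nat_lit 100) (nat_lit 5) (nat_lit 112) (nat_lit 5) (nat_lit 101) (nat_lit 5) (nat_lit 323) (nat_lit 303) (nat_lit 235))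 (XT.nd (nat_lit 94) (nat_lit 0) (nat_lit 0) (XT.lf (nat_lit 0) (nat_lit 637931290) (nat_lit 1008) (nat_lit 6365591949) (nat_lit 1092) (nat_lit 3157856219) (nat_lit 88) (nat_lit 5) (nat_lit 100) (nat_lit 5) (nat_lit 101) (nat_lit 5) (nat_lit 324) (nat_lit 303) (nat_lit 234)) (XT.lf (nat_lit 0) (nat_lit 4651611651) (nat_lit 1008) (nat_lit 3614606069) (nat_lit 1092) (nat_lit 2062898303) (nat_lit 88) (nat_lit 5) (nat_lit 100) (nat_lit 5) (nat_lit 101) (nat_lit 5) (nat_lit 325) (nat_lit 303) (nat_lit 233)))) (XT.nd (nat_lit 94) (nat_lit 672) (nat_lit 0) (XT.lf (nat_lit 0) (nat_lit 8768309678) (nat_lit 1008) (nat_lit 774910329) (nat_lit 1092) (nat_lit 959742905) (nat_lit 88) (nat_lit 5) (nat_lit 100) (nat_lit 5) (nat_lit 101) (nat_lit 5) (nat_lit 326) (nat_lit 303) (nat_lit 232)) (XT.nd (nat_lit 94) (nat_lit 0) (nat_lit 0) (XT.lf (nat_lit 0) (nat_lit 194565499) (nat_lit 672) (nat_lit 8349246366)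 (nat_lit 84) (nat_lit 2137828287) (nat_lit 80) (nat_lit 5) (nat_lit 88) (nat_lit 5) (nat_lit 81) (nat_lit 5) (nat_lit 327) (nat_lit 303) (nat_lit 231)) (XT.lf (nat_lit 0) (nat_lit 1367022318) (nat_lit 672) (nat_lit 4343008151) (nat_lit 84) (nat_lit 5155578574) (nat_lit 80) (nat_lit 5) (nat_lit 88) (nat_lit 5) (nat_lit 81) (nat_lit 5) (nat_lit 328) (nat_lit 303) (nat_lit 230))))))) (XT.nd (nat_lit 1128) (nat_lit 1428) (nat_lit 0) (XT.nd (nat_lit 564) (nat_lit 1260) (nat_lit 0) (XT.nd (nat_lit 282) (nat_lit 504) (nat_lit 0) (XT.nd (nat_lit 94) (nat_lit 504) (nat_lit 0) (XT.lf (nat_lit 0) (nat_lit 2552628457) (nat_lit 672) (nat_lit 233992121) (nat_lit 84) (nat_lit 8269503919) (nat_lit 80) (nat_lit 5) (nat_lit 88) (nat_lit 5) (nat_lit 81) (nat_lit 5) (nat_lit 329) (nat_lit 303) (nat_lit 229)) (XT.nd (nat_lit 94) (nat_lit 0) (nat_lit 0) (XT.lf (nat_lit 0) (nat_lit 3795484875) (nat_lit 588)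 (nat_lit 7191297605) (nat_lit 84) (nat_lit 265248741) (nat_lit 74) (nat_lit 5) (nat_lit 81) (nat_lit 5) (nat_lit 75) (nat_lit 5) (nat_lit 330) (nat_lit 303) (nat_lit 228)) (XT.lf (nat_lit 0) (nat_lit 5085825506) (nat_lit 588) (nat_lit 3010280309) (nat_lit 84) (nat_lit 3357744668) (nat_lit 74) (nat_lit 5) (nat_lit 81) (nat_lit 5) (nat_lit 75) (nat_lit 5) (nat_lit 331) (nat_lit 303) (nat_lit 227)))) (XT.nd (nat_lit 94) (nat_lit 0) (nat_lit 0) (XT.lf (nat_lit 0) (nat_lit 1305926986) (nat_lit 504) (nat_lit 5101844244) (nat_lit 588) (nat_lit 5254528706) (nat_lit 68) (nat_lit 5) (nat_lit 74) (nat_lit 5) (nat_lit 75) (nat_lit 5) (nat_lit 332) (nat_lit 303) (nat_lit 226)) (XT.nd (nat_lit 94) (nat_lit 0) (nat_lit 0) (XT.lf (nat_lit 0) (nat_lit 5799229919) (nat_lit 504) (nat_lit 1981976453) (nat_lit 588) (nat_lit 4095789290) (nat_lit 68) (nat_lit 5) (nat_lit 74) (nat_lit 5) (nat_lit 75) (nat_lit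 5) (nat_lit 333) (nat_lit 303) (nat_lit 225)) (XT.lf (nat_lit 0) (nat_lit 9189185929) (nat_lit 588) (nat_lit 1699414566) (nat_lit 84) (nat_lit 1210102264) (nat_lit 68) (nat_lit 5) (nat_lit 75) (nat_lit 5) (nat_lit 69) (nat_lit 5) (nat_lit 334) (nat_lit 303) (nat_lit 224))))) (XT.nd (nat_lit 282) (nat_lit 756) (nat_lit 0) (XT.nd (nat_lit 94) (nat_lit 84) (nat_lit 0) (XT.lf (nat_lit 0) (nat_lit 2831416644) (nat_lit 420) (nat_lit 7838085401) (nat_lit 504) (nat_lit 1656994965) (nat_lit 63) (nat_lit 5) (nat_lit 68) (nat_lit 5) (nat_lit 69) (nat_lit 5) (nat_lit 335) (nat_lit 303) (nat_lit 223)) (XT.nd (nat_lit 94) (nat_lit 84) (nat_lit 0) (XT.lf (nat_lit 0) (nat_lit 7518908417) (nat_lit 420) (nat_lit 4675262972) (nat_lit 504) (nat_lit 367329610) (nat_lit 63) (nat_lit 5) (nat_lit 68) (nat_lit 5) (nat_lit 69) (nat_lit 5) (nat_lit 336) (nat_lit 303) (nat_lit 222)) (XT.lf (nat_lit 0) (nat_lit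 923944734) (nat_lit 504) (nat_lit 481334707) (nat_lit 84) (nat_lit 11398897714) (nat_lit 62) (nat_lit 5) (nat_lit 68) (nat_lit 5) (nat_lit 63) (nat_lit 5) (nat_lit 337) (nat_lit 303) (nat_lit 221)))) (XT.nd (nat_lit 94) (nat_lit 336) (nat_lit 0) (XT.lf (nat_lit 0) (nat_lit 2291682256) (nat_lit 504) (nat_lit 8788798569) (nat_lit 84) (nat_lit 1972504688) (nat_lit 57) (nat_lit 5) (nat_lit 63) (nat_lit 5) (nat_lit 58) (nat_lit 5) (nat_lit 338) (nat_lit 303) (nat_lit 220)) (XT.nd (nat_lit 94) (nat_lit 336) (nat_lit 0) (XT.lf (nat_lit 0) (nat_lit 3703213641) (nat_lit 504) (nat_lit 4176315610) (nat_lit 84) (nat_lit 5430023397) (nat_lit 57) (nat_lit 5) (nat_lit 63) (nat_lit 5) (nat_lit 58) (nat_lit 5) (nat_lit 339) (nat_lit 303) (nat_lit 219)) (XT.lf (nat_lit 0) (nat_lit 571696839) (nat_lit 336) (nat_lit 4574965582) (nat_lit 420) (nat_lit 8427864246) (nat_lit 53) (nat_lit 5) (nat_lit 57) (nat_lit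 5) (nat_lit 58) (nat_lit 5) (nat_lit 340) (nat_lit 303) (nat_lit 218)))))) (XT.nd (nat_lit 564) (nat_lit 672) (nat_lit 0) (XT.nd (nat_lit 282) (nat_lit 336) (nat_lit 0) (XT.nd (nat_lit 94) (nat_lit 420) (nat_lit 0) (XT.lf (nat_lit 0) (nat_lit 5536649587) (nat_lit 336) (nat_lit 1124629506) (nat_lit 420) (nat_lit 7185700400) (nat_lit 53) (nat_lit 5) (nat_lit 57) (nat_lit 5) (nat_lit 58) (nat_lit 5) (nat_lit 341) (nat_lit 303) (nat_lit 217)) (XT.nd (nat_lit 94) (nat_lit 420) (nat_lit 0) (XT.lf (nat_lit 0) (nat_lit 8230310836) (nat_lit 420) (nat_lit 3515295774) (nat_lit 84) (nat_lit 2382121575) (nat_lit 53) (nat_lit 5) (nat_lit 58) (nat_lit 5) (nat_lit 54) (nat_lit 5) (nat_lit 342) (nat_lit 303) (nat_lit 216)) (XT.lf (nat_lit 0) (nat_lit 1427405515) (nat_lit 420) (nat_lit 8430070241) (nat_lit 504) (nat_lit 4559488752) (nat_lit 48) (nat_lit 5) (nat_lit 53) (nat_lit 5) (nat_lit 54) (nat_lit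 5) (nat_lit 343) (nat_lit 303) (nat_lit 215)))) (XT.nd (nat_lit 94) (nat_lit 336) (nat_lit 0) (XT.lf (nat_lit 0) (nat_lit 6579801963) (nat_lit 420) (nat_lit 4976111249) (nat_lit 504) (nat_lit 3158684544) (nat_lit 48) (nat_lit 5) (nat_lit 53) (nat_lit 5) (nat_lit 54) (nat_lit 5) (nat_lit 344) (nat_lit 303) (nat_lit 214)) (XT.nd (nat_lit 94) (nat_lit 336) (nat_lit 0) (XT.lf (nat_lit 0) (nat_lit 11874414451) (nat_lit 420) (nat_lit 1417202661) (nat_lit 504) (nat_lit 1730391508) (nat_lit 48) (nat_lit 5) (nat_lit 53) (nat_lit 5) (nat_lit 54) (nat_lit 5) (nat_lit 345) (nat_lit 303) (nat_lit 213)) (XT.lf (nat_lit 0) (nat_lit 1994560409) (nat_lit 336) (nat_lit 13113751199) (nat_lit 420) (nat_lit 229866735) (nat_lit 44) (nat_lit 5) (nat_lit 48) (nat_lit 5) (nat_lit 49) (nat_lit 5) (nat_lit 346) (nat_lit 303) (nat_lit 212))))) (XT.nd (nat_lit 282) (nat_lit 252) (nat_lit 0) (XT.nd (nat_lit 94)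 (nat_lit 336) (nat_lit 0) (XT.lf (nat_lit 0) (nat_lit 1323437579) (nat_lit 420) (nat_lit 8345871206) (nat_lit 84) (nat_lit 5993486206) (nat_lit 43) (nat_lit 5) (nat_lit 48) (nat_lit 5) (nat_lit 44) (nat_lit 5) (nat_lit 347) (nat_lit 303) (nat_lit 211)) (XT.nd (nat_lit 94) (nat_lit 336) (nat_lit 0) (XT.lf (nat_lit 0) (nat_lit 2905683279) (nat_lit 420) (nat_lit 3212705634) (nat_lit 84) (nat_lit 9879526015) (nat_lit 43) (nat_lit 5) (nat_lit 48) (nat_lit 5) (nat_lit 44) (nat_lit 5) (nat_lit 348) (nat_lit 303) (nat_lit 210)) (XT.lf (nat_lit 0) (nat_lit 2105362086) (nat_lit 336) (nat_lit 2438499851) (nat_lit 420) (nat_lit 11799411829) (nat_lit 39) (nat_lit 5) (nat_lit 43) (nat_lit 5) (nat_lit 44) (nat_lit 5) (nat_lit 349) (nat_lit 303) (nat_lit 209)))) (XT.nd (nat_lit 188) (nat_lit 252) (nat_lit 0) (XT.nd (nat_lit 94) (nat_lit 0) (nat_lit 0) (XT.lf (nat_lit 0) (nat_lit 6266375919) (nat_lit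 420) (nat_lit 9072627424) (nat_lit 84) (nat_lit 1359356932) (nat_lit 39) (nat_lit 5) (nat_lit 44) (nat_lit 5) (nat_lit 40) (nat_lit 5) (nat_lit 350) (nat_lit 303) (nat_lit 208)) (XT.lf (nat_lit 0) (nat_lit 8053870402) (nat_lit 420) (nat_lit 3788586695) (nat_lit 84) (nat_lit 5221698108) (nat_lit 39) (nat_lit 5) (nat_lit 44) (nat_lit 5) (nat_lit 40) (nat_lit 5) (nat_lit 351) (nat_lit 303) (nat_lit 207))) (XT.nd (nat_lit 94) (nat_lit 0) (nat_lit 0) (XT.lf (nat_lit 0) (nat_lit 1677116157) (nat_lit 252) (nat_lit 8223342339) (nat_lit 336) (nat_lit 7540775164) (nat_lit 36) (nat_lit 5) (nat_lit 39) (nat_lit 5) (nat_lit 40) (nat_lit 5) (nat_lit 352) (nat_lit 303) (nat_lit 206)) (XT.lf (nat_lit 0) (nat_lit 7376799864) (nat_lit 252) (nat_lit 4454313212) (nat_lit 336) (nat_lit 5998113238) (nat_lit 36) (nat_lit 5) (nat_lit 39) (nat_lit 5) (nat_lit 40) (nat_lit 5) (nat_lit 353) (nat_lit 303) (nat_lit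 205))))))))
noncomputable def xc125 : XT := (XT.nd (nat_lit 2256) (nat_lit 924) (nat_lit 0) (XT.nd (nat_lit 1128) (nat_lit 672) (nat_lit 0) (XT.nd (nat_lit 564) (nat_lit 252) (nat_lit 0) (XT.nd (nat_lit 282) (nat_lit 336) (nat_lit 0) (XT.nd (nat_lit 94) (nat_lit 336) (nat_lit 0) (XT.lf (nat_lit 0) (nat_lit 13237876017) (nat_lit 252) (nat_lit 571401661) (nat_lit 336) (nat_lit 4420406178) (nat_lit 36) (nat_lit 5) (nat_lit 39) (nat_lit 5) (nat_lit 40) (nat_lit 5) (nat_lit 354) (nat_lit 303) (nat_lit 204)) (XT.nd (nat_lit 94) (nat_lit 0) (nat_lit 0) (XT.lf (nat_lit 0) (nat_lit 600919159) (nat_lit 336) (nat_lit 15275854410) (nat_lit 420) (nat_lit 2764966684) (nat_lit 32) (nat_lit 5) (nat_lit 36) (nat_lit 5) (nat_lit 37) (nat_lit 5) (nat_lit 355) (nat_lit 303) (nat_lit 203)) (XT.lf (nat_lit 0) (nat_lit 6451801067) (nat_lit 336) (nat_lit 11602663407) (nat_lit 420) (nat_lit 1010728076) (nat_lit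 32) (nat_lit 5) (nat_lit 36) (nat_lit 5) (nat_lit 37) (nat_lit 5) (nat_lit 356) (nat_lit 303) (nat_lit 202)))) (XT.nd (nat_lit 94) (nat_lit 252) (nat_lit 0) (XT.lf (nat_lit 0) (nat_lit 770218346) (nat_lit 420) (nat_lit 7040539184) (nat_lit 84) (nat_lit 11691176792) (nat_lit 31) (nat_lit 5) (nat_lit 36) (nat_lit 5) (nat_lit 32) (nat_lit 5) (nat_lit 357) (nat_lit 303) (nat_lit 201)) (XT.nd (nat_lit 94) (nat_lit 252) (nat_lit 0) (XT.lf (nat_lit 0) (nat_lit 2574129793) (nat_lit 420) (nat_lit 1319729892) (nat_lit 84) (nat_lit 16058430511) (nat_lit 31) (nat_lit 5) (nat_lit 36) (nat_lit 5) (nat_lit 32) (nat_lit 5) (nat_lit 358) (nat_lit 303) (nat_lit 200)) (XT.lf (nat_lit 0) (nat_lit 4471136791) (nat_lit 336) (nat_lit 15759184357) (nat_lit 84) (nat_lit 185178982) (nat_lit 28) (nat_lit 5) (nat_lit 32) (nat_lit 5) (nat_lit 29) (nat_lit 5) (nat_lit 359) (nat_lit 303) (nat_lit 199))))) (XT.nd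 (nat_lit 282) (nat_lit 0) (nat_lit 0) (XT.nd (nat_lit 94) (nat_lit 252) (nat_lit 0) (XT.lf (nat_lit 0) (nat_lit 6469940207) (nat_lit 336) (nat_lit 10101244131) (nat_lit 84) (nat_lit 4320596637) (nat_lit 28) (nat_lit 5) (nat_lit 32) (nat_lit 5) (nat_lit 29) (nat_lit 5) (nat_lit 360) (nat_lit 303) (nat_lit 198)) (XT.nd (nat_lit 94) (nat_lit 252) (nat_lit 0) (XT.lf (nat_lit 0) (nat_lit 8520277833) (nat_lit 336) (nat_lit 4281711941) (nat_lit 84) (nat_lit 8581202783) (nat_lit 28) (nat_lit 5) (nat_lit 32) (nat_lit 5) (nat_lit 29) (nat_lit 5) (nat_lit 361) (nat_lit 303) (nat_lit 197)) (XT.lf (nat_lit 0) (nat_lit 1739891563) (nat_lit 252) (nat_lit 8901429175) (nat_lit 336) (nat_lit 11248337128) (nat_lit 25) (nat_lit 5) (nat_lit 28) (nat_lit 5) (nat_lit 29) (nat_lit 5) (nat_lit 362) (nat_lit 303) (nat_lit 196)))) (XT.nd (nat_lit 94) (nat_lit 0) (nat_lit 0) (XT.lf (nat_lit 0) (nat_lit 8025681252)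 (nat_lit 252) (nat_lit 4837184549) (nat_lit 336) (nat_lit 9547920764) (nat_lit 25) (nat_lit 5) (nat_lit 28) (nat_lit 5) (nat_lit 29) (nat_lit 5) (nat_lit 363) (nat_lit 303) (nat_lit 195)) (XT.nd (nat_lit 94) (nat_lit 0) (nat_lit 0) (XT.lf (nat_lit 0) (nat_lit 14493475360) (nat_lit 252) (nat_lit 650159886) (nat_lit 336) (nat_lit 7804772957) (nat_lit 25) (nat_lit 5) (nat_lit 28) (nat_lit 5) (nat_lit 29) (nat_lit 5) (nat_lit 364) (nat_lit 303) (nat_lit 194)) (XT.lf (nat_lit 0) (nat_lit 17522097835) (nat_lit 336) (nat_lit 2390064197) (nat_lit 84) (nat_lit 3589735239) (nat_lit 25) (nat_lit 5) (nat_lit 29) (nat_lit 5) (nat_lit 26) (nat_lit 5) (nat_lit 365) (nat_lit 303) (nat_lit 193)))))) (XT.nd (nat_lit 564) (nat_lit 168) (nat_lit 0) (XT.nd (nat_lit 282) (nat_lit 336) (nat_lit 0) (XT.nd (nat_lit 94) (nat_lit 0) (nat_lit 0) (XT.lf (nat_lit 0) (nat_lit 3922820262) (nat_lit 168) (nat_lit 16087934687)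 (nat_lit 252) (nat_lit 4060695917) (nat_lit 23) (nat_lit 5) (nat_lit 25) (nat_lit 5) (nat_lit 26) (nat_lit 5) (nat_lit 366) (nat_lit 303) (nat_lit 192)) (XT.nd (nat_lit 94) (nat_lit 0) (nat_lit 0) (XT.lf (nat_lit 0) (nat_lit 10469816003) (nat_lit 168) (nat_lit 12122741616) (nat_lit 252) (nat_lit 2065642675) (nat_lit 23) (nat_lit 5) (nat_lit 25) (nat_lit 5) (nat_lit 26) (nat_lit 5) (nat_lit 367) (nat_lit 303) (nat_lit 191)) (XT.lf (nat_lit 0) (nat_lit 17207880890) (nat_lit 168) (nat_lit 8037834215) (nat_lit 252) (nat_lit 17727483) (nat_lit 23) (nat_lit 5) (nat_lit 25) (nat_lit 5) (nat_lit 26) (nat_lit 5) (nat_lit 368) (nat_lit 303) (nat_lit 190)))) (XT.nd (nat_lit 94) (nat_lit 252) (nat_lit 0) (XT.lf (nat_lit 0) (nat_lit 2042951264) (nat_lit 252) (nat_lit 1765129436) (nat_lit 84) (nat_lit 22079020018) (nat_lit 22) (nat_lit 5) (nat_lit 25) (nat_lit 5) (nat_lit 23) (nat_lit 5) (nat_lit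 369) (nat_lit 303) (nat_lit 189)) (XT.nd (nat_lit 94) (nat_lit 0) (nat_lit 0) (XT.lf (nat_lit 0) (nat_lit 4212474786) (nat_lit 336) (nat_lit 21729278620) (nat_lit 84) (nat_lit 586959429) (nat_lit 19) (nat_lit 5) (nat_lit 23) (nat_lit 5) (nat_lit 20) (nat_lit 5) (nat_lit 370) (nat_lit 303) (nat_lit 188)) (XT.lf (nat_lit 0) (nat_lit 6498638020) (nat_lit 336) (nat_lit 15635382926) (nat_lit 84) (nat_lit 5054693614) (nat_lit 19) (nat_lit 5) (nat_lit 23) (nat_lit 5) (nat_lit 20) (nat_lit 5) (nat_lit 371) (nat_lit 303) (nat_lit 187))))) (XT.nd (nat_lit 282) (nat_lit 0) (nat_lit 0) (XT.nd (nat_lit 94) (nat_lit 168) (nat_lit 0) (XT.lf (nat_lit 0) (nat_lit 8847742155) (nat_lit 336) (nat_lit 9363752183) (nat_lit 84) (nat_lit 9657957466) (nat_lit 19) (nat_lit 5) (nat_lit 23) (nat_lit 5) (nat_lit 20) (nat_lit 5) (nat_lit 372) (nat_lit 303) (nat_lit 186)) (XT.nd (nat_lit 94) (nat_lit 168) (nat_lit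 0) (XT.lf (nat_lit 0) (nat_lit 11261976801) (nat_lit 336) (nat_lit 2908540573) (nat_lit 84) (nat_lit 14401041710) (nat_lit 19) (nat_lit 5) (nat_lit 23) (nat_lit 5) (nat_lit 20) (nat_lit 5) (nat_lit 373) (nat_lit 303) (nat_lit 185)) (XT.lf (nat_lit 0) (nat_lit 3813094185) (nat_lit 168) (nat_lit 9968324460) (nat_lit 252) (nat_lit 15513099578) (nat_lit 17) (nat_lit 5) (nat_lit 19) (nat_lit 5) (nat_lit 20) (nat_lit 5) (nat_lit 374) (nat_lit 303) (nat_lit 184)))) (XT.nd (nat_lit 94) (nat_lit 0) (nat_lit 0) (XT.lf (nat_lit 0) (nat_lit 10794351836) (nat_lit 168) (nat_lit 5607631185) (nat_lit 252) (nat_lit 13637219498) (nat_lit 17) (nat_lit 5) (nat_lit 19) (nat_lit 5) (nat_lit 20) (nat_lit 5) (nat_lit 375) (nat_lit 303) (nat_lit 183)) (XT.nd (nat_lit 94) (nat_lit 0) (nat_lit 0) (XT.lf (nat_lit 0) (nat_lit 17981934082) (nat_lit 168) (nat_lit 1114732126) (nat_lit 252) (nat_lit 11710552725) (nat_lit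 17) (nat_lit 5) (nat_lit 19) (nat_lit 5) (nat_lit 20) (nat_lit 5) (nat_lit 376) (nat_lit 303) (nat_lit 182)) (XT.lf (nat_lit 0) (nat_lit 21902844808) (nat_lit 252) (nat_lit 6251607708) (nat_lit 84) (nat_lit 3443750008) (nat_lit 17) (nat_lit 5) (nat_lit 20) (nat_lit 5) (nat_lit 18) (nat_lit 5) (nat_lit 377) (nat_lit 303) (nat_lit 181))))))) (XT.nd (nat_lit 1128) (nat_lit 336) (nat_lit 0) (XT.nd (nat_lit 564) (nat_lit 168) (nat_lit 0) (XT.nd (nat_lit 282) (nat_lit 252) (nat_lit 0) (XT.nd (nat_lit 94) (nat_lit 0) (nat_lit 0) (XT.lf (nat_lit 0) (nat_lit 515130068) (nat_lit 168) (nat_lit 24290671312) (nat_lit 252) (nat_lit 7607626517) (nat_lit 15) (nat_lit 5) (nat_lit 17) (nat_lit 5) (nat_lit 18) (nat_lit 5) (nat_lit 378) (nat_lit 303) (nat_lit 180)) (XT.nd (nat_lit 94) (nat_lit 0) (nat_lit 0) (XT.lf (nat_lit 0) (nat_lit 7614564737) (nat_lit 168) (nat_lit 20242820969) (nat_lit 252) (nat_lit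 5394745763) (nat_lit 15) (nat_lit 5) (nat_lit 17) (nat_lit 5) (nat_lit 18) (nat_lit 5) (nat_lit 379) (nat_lit 303) (nat_lit 179)) (XT.lf (nat_lit 0) (nat_lit 14924767837) (nat_lit 168) (nat_lit 16072382430) (nat_lit 252) (nat_lit 3119906780) (nat_lit 15) (nat_lit 5) (nat_lit 17) (nat_lit 5) (nat_lit 18) (nat_lit 5) (nat_lit 380) (nat_lit 303) (nat_lit 178)))) (XT.nd (nat_lit 94) (nat_lit 252) (nat_lit 0) (XT.lf (nat_lit 0) (nat_lit 22452553243) (nat_lit 168) (nat_lit 11775468409) (nat_lit 252) (nat_lit 780989179) (nat_lit 15) (nat_lit 5) (nat_lit 17) (nat_lit 5) (nat_lit 18) (nat_lit 5) (nat_lit 381) (nat_lit 303) (nat_lit 177)) (XT.nd (nat_lit 94) (nat_lit 168) (nat_lit 0) (XT.lf (nat_lit 0) (nat_lit 1591463402) (nat_lit 252) (nat_lit 5739998715) (nat_lit 84) (nat_lit 28596862624) (nat_lit 14) (nat_lit 5) (nat_lit 17) (nat_lit 5) (nat_lit 15) (nat_lit 5) (nat_lit 382) (nat_lit 303)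 (nat_lit 176)) (XT.lf (nat_lit 0) (nat_lit 1297278444) (nat_lit 168) (nat_lit 2730891986) (nat_lit 252) (nat_lit 32847525004) (nat_lit 12) (nat_lit 5) (nat_lit 14) (nat_lit 5) (nat_lit 15) (nat_lit 5) (nat_lit 383) (nat_lit 303) (nat_lit 175))))) (XT.nd (nat_lit 282) (nat_lit 168) (nat_lit 0) (XT.nd (nat_lit 94) (nat_lit 0) (nat_lit 0) (XT.lf (nat_lit 0) (nat_lit 6615033224) (nat_lit 252) (nat_lit 29205484384) (nat_lit 84) (nat_lit 2029623781) (nat_lit 12) (nat_lit 5) (nat_lit 15) (nat_lit 5) (nat_lit 13) (nat_lit 5) (nat_lit 384) (nat_lit 303) (nat_lit 174)) (XT.nd (nat_lit 94) (nat_lit 0) (nat_lit 0) (XT.lf (nat_lit 0) (nat_lit 9304324924) (nat_lit 252) (nat_lit 22671387273) (nat_lit 84) (nat_lit 6878412975) (nat_lit 12) (nat_lit 5) (nat_lit 15) (nat_lit 5) (nat_lit 13) (nat_lit 5) (nat_lit 385) (nat_lit 303) (nat_lit 173)) (XT.lf (nat_lit 0) (nat_lit 12071461446) (nat_lit 252) (nat_lit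 15942944409) (nat_lit 84) (nat_lit 11875016562) (nat_lit 12) (nat_lit 5) (nat_lit 15) (nat_lit 5) (nat_lit 13) (nat_lit 5) (nat_lit 386) (nat_lit 303) (nat_lit 172)))) (XT.nd (nat_lit 94) (nat_lit 168) (nat_lit 0) (XT.lf (nat_lit 0) (nat_lit 14919022052) (nat_lit 252) (nat_lit 9013884178) (nat_lit 84) (nat_lit 17024091900) (nat_lit 12) (nat_lit 5) (nat_lit 15) (nat_lit 5) (nat_lit 13) (nat_lit 5) (nat_lit 387) (nat_lit 303) (nat_lit 171)) (XT.nd (nat_lit 94) (nat_lit 168) (nat_lit 0) (XT.lf (nat_lit 0) (nat_lit 17849660965) (nat_lit 252) (nat_lit 1877747969) (nat_lit 84) (nat_lit 22330438466) (nat_lit 12) (nat_lit 5) (nat_lit 15) (nat_lit 5) (nat_lit 13) (nat_lit 5) (nat_lit 388) (nat_lit 303) (nat_lit 170)) (XT.lf (nat_lit 0) (nat_lit 5584633767) (nat_lit 168) (nat_lit 15336876340) (nat_lit 252) (nat_lit 22269768823) (nat_lit 10) (nat_lit 5) (nat_lit 12) (nat_lit 5) (nat_lit 13) (nat_lit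 5) (nat_lit 389) (nat_lit 303) (nat_lit 169)))))) (XT.nd (nat_lit 564) (nat_lit 252) (nat_lit 0) (XT.nd (nat_lit 282) (nat_lit 84) (nat_lit 0) (XT.nd (nat_lit 94) (nat_lit 0) (nat_lit 0) (XT.lf (nat_lit 0) (nat_lit 13310739845) (nat_lit 168) (nat_lit 10792484692) (nat_lit 252) (nat_lit 20256185112) (nat_lit 10) (nat_lit 5) (nat_lit 12) (nat_lit 5) (nat_lit 13) (nat_lit 5) (nat_lit 390) (nat_lit 303) (nat_lit 168)) (XT.nd (nat_lit 94) (nat_lit 0) (nat_lit 0) (XT.lf (nat_lit 0) (nat_lit 21269161455) (nat_lit 168) (nat_lit 6109597977) (nat_lit 252) (nat_lit 18185158272) (nat_lit 10) (nat_lit 5) (nat_lit 12) (nat_lit 5) (nat_lit 13) (nat_lit 5) (nat_lit 391) (nat_lit 303) (nat_lit 167)) (XT.lf (nat_lit 0) (nat_lit 29467316680) (nat_lit 168) (nat_lit 1283851257) (nat_lit 252) (nat_lit 16054757887) (nat_lit 10) (nat_lit 5) (nat_lit 12) (nat_lit 5) (nat_lit 13) (nat_lit 5) (nat_lit 392) (nat_lit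 303) (nat_lit 166)))) (XT.nd (nat_lit 94) (nat_lit 84) (nat_lit 0) (XT.lf (nat_lit 0) (nat_lit 34260191339) (nat_lit 252) (nat_lit 10210342482) (nat_lit 84) (nat_lit 3614923333) (nat_lit 10) (nat_lit 5) (nat_lit 13) (nat_lit 5) (nat_lit 11) (nat_lit 4) (nat_lit 393) (nat_lit 303) (nat_lit 165)) (XT.nd (nat_lit 94) (nat_lit 84) (nat_lit 0) (XT.lf (nat_lit 0) (nat_lit 37886712210) (nat_lit 252) (nat_lit 2880923766) (nat_lit 84) (nat_lit 8636762414) (nat_lit 10) (nat_lit 5) (nat_lit 13) (nat_lit 5) (nat_lit 11) (nat_lit 4) (nat_lit 394) (nat_lit 303) (nat_lit 164)) (XT.lf (nat_lit 0) (nat_lit 4765223386) (nat_lit 84) (nat_lit 36903423104) (nat_lit 168) (nat_lit 9094261825) (nat_lit 9) (nat_lit 5) (nat_lit 10) (nat_lit 5) (nat_lit 11) (nat_lit 4) (nat_lit 395) (nat_lit 303) (nat_lit 163))))) (XT.nd (nat_lit 282) (nat_lit 252) (nat_lit 0) (XT.nd (nat_lit 94) (nat_lit 0) (nat_lit 0) (XT.lf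 (nat_lit 0) (nat_lit 12703048721) (nat_lit 84) (nat_lit 32890627552) (nat_lit 168) (nat_lit 6569068065) (nat_lit 9) (nat_lit 5) (nat_lit 10) (nat_lit 5) (nat_lit 11) (nat_lit 4) (nat_lit 396) (nat_lit 303) (nat_lit 162)) (XT.nd (nat_lit 94) (nat_lit 0) (nat_lit 0) (XT.lf (nat_lit 0) (nat_lit 20880713422) (nat_lit 84) (nat_lit 28755579911) (nat_lit 168) (nat_lit 3969822090) (nat_lit 9) (nat_lit 5) (nat_lit 10) (nat_lit 5) (nat_lit 11) (nat_lit 4) (nat_lit 397) (nat_lit 303) (nat_lit 161)) (XT.lf (nat_lit 0) (nat_lit 29305839931) (nat_lit 84) (nat_lit 24494425883) (nat_lit 168) (nat_lit 1294101131) (nat_lit 9) (nat_lit 5) (nat_lit 10) (nat_lit 5) (nat_lit 11) (nat_lit 4) (nat_lit 398) (nat_lit 303) (nat_lit 160)))) (XT.nd (nat_lit 188) (nat_lit 168) (nat_lit 0) (XT.nd (nat_lit 94) (nat_lit 0) (nat_lit 0) (XT.lf (nat_lit 0) (nat_lit 1431161253) (nat_lit 168) (nat_lit 18657093985) (nat_lit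 84) (nat_lit 36540181704) (nat_lit 8) (nat_lit 5) (nat_lit 10) (nat_lit 5) (nat_lit 9) (nat_lit 5) (nat_lit 399) (nat_lit 303) (nat_lit 159)) (XT.lf (nat_lit 0) (nat_lit 4210244297) (nat_lit 168) (nat_lit 11323599439) (nat_lit 84) (nat_lit 42675938136) (nat_lit 8) (nat_lit 5) (nat_lit 10) (nat_lit 5) (nat_lit 9) (nat_lit 5) (nat_lit 400) (nat_lit 303) (nat_lit 158))) (XT.nd (nat_lit 94) (nat_lit 168) (nat_lit 0) (XT.lf (nat_lit 0) (nat_lit 7071811651) (nat_lit 168) (nat_lit 3768370149) (nat_lit 84) (nat_lit 49000091880) (nat_lit 8) (nat_lit 5) (nat_lit 10) (nat_lit 5) (nat_lit 9) (nat_lit 5) (nat_lit 401) (nat_lit 303) (nat_lit 157)) (XT.lf (nat_lit 0) (nat_lit 4098205865) (nat_lit 168) (nat_lit 5960979439) (nat_lit 252) (nat_lit 51460986556) (nat_lit 6) (nat_lit 5) (nat_lit 8) (nat_lit 5) (nat_lit 9) (nat_lit 5) (nat_lit 402) (nat_lit 303) (nat_lit 156))))))))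
noncomputable def xc126 : XT := (XT.nd (nat_lit 45308) (nat_lit 0) (nat_lit 5292) (XT.nd (nat_lit 1128) (nat_lit 0) (nat_lit 0) (XT.nd (nat_lit 564) (nat_lit 84) (nat_lit 0) (XT.nd (nat_lit 282) (nat_lit 0) (nat_lit 0) (XT.nd (nat_lit 94) (nat_lit 0) (nat_lit 0) (XT.lf (nat_lit 0) (nat_lit 12283153131) (nat_lit 168) (nat_lit 891845049) (nat_lit 252) (nat_lit 50076048774) (nat_lit 6) (nat_lit 5) (nat_lit 8) (nat_lit 5) (nat_lit 9) (nat_lit 5) (nat_lit 403) (nat_lit 303) (nat_lit 155)) (XT.nd (nat_lit 94) (nat_lit 0) (nat_lit 0) (XT.lf (nat_lit 0) (nat_lit 16426983229) (nat_lit 252) (nat_lit 44362059605) (nat_lit 84) (nat_lit 4245319795) (nat_lit 6) (nat_lit 5) (nat_lit 9) (nat_lit 5) (nat_lit 7) (nat_lit 4) (nat_lit 404) (nat_lit 303) (nat_lit 154)) (XT.lf (nat_lit 0) (nat_lit 19785587873) (nat_lit 252) (nat_lit 37565722242) (nat_lit 84) (nat_lit 9521481104) (nat_lit 6) (nat_lit 5)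 (nat_lit 9) (nat_lit 5) (nat_lit 7) (nat_lit 4) (nat_lit 405) (nat_lit 303) (nat_lit 153)))) (XT.nd (nat_lit 94) (nat_lit 0) (nat_lit 0) (XT.lf (nat_lit 0) (nat_lit 23245095471) (nat_lit 252) (nat_lit 30563699624) (nat_lit 84) (nat_lit 14959525501) (nat_lit 6) (nat_lit 5) (nat_lit 9) (nat_lit 5) (nat_lit 7) (nat_lit 4) (nat_lit 406) (nat_lit 303) (nat_lit 152)) (XT.nd (nat_lit 94) (nat_lit 0) (nat_lit 0) (XT.lf (nat_lit 0) (nat_lit 26808730646) (nat_lit 252) (nat_lit 23349465131) (nat_lit 84) (nat_lit 20564521814) (nat_lit 6) (nat_lit 5) (nat_lit 9) (nat_lit 5) (nat_lit 7) (nat_lit 4) (nat_lit 407) (nat_lit 303) (nat_lit 151)) (XT.lf (nat_lit 0) (nat_lit 30479815079) (nat_lit 252) (nat_lit 15916294341) (nat_lit 84) (nat_lit 26341694485) (nat_lit 6) (nat_lit 5) (nat_lit 9) (nat_lit 5) (nat_lit 7) (nat_lit 4) (nat_lit 408) (nat_lit 303) (nat_lit 150))))) (XT.nd (nat_lit 282) (nat_lit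 0) (nat_lit 0) (XT.nd (nat_lit 94) (nat_lit 84) (nat_lit 0) (XT.lf (nat_lit 0) (nat_lit 34261770606) (nat_lit 252) (nat_lit 8257258762) (nat_lit 84) (nat_lit 32296428446) (nat_lit 6) (nat_lit 5) (nat_lit 9) (nat_lit 5) (nat_lit 7) (nat_lit 4) (nat_lit 409) (nat_lit 303) (nat_lit 149)) (XT.nd (nat_lit 94) (nat_lit 84) (nat_lit 0) (XT.lf (nat_lit 0) (nat_lit 38158122406) (nat_lit 252) (nat_lit 365219368) (nat_lit 84) (nat_lit 38434274133) (nat_lit 6) (nat_lit 5) (nat_lit 9) (nat_lit 5) (nat_lit 7) (nat_lit 4) (nat_lit 410) (nat_lit 303) (nat_lit 148)) (XT.lf (nat_lit 0) (nat_lit 7926889198) (nat_lit 84) (nat_lit 34324248810) (nat_lit 168) (nat_lit 36912699183) (nat_lit 5) (nat_lit 5) (nat_lit 6) (nat_lit 5) (nat_lit 7) (nat_lit 4) (nat_lit 411) (nat_lit 303) (nat_lit 147)))) (XT.nd (nat_lit 94) (nat_lit 0) (nat_lit 0) (XT.lf (nat_lit 0) (nat_lit 16479545854) (nat_lit 84) (nat_lit 29992585350)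 (nat_lit 168) (nat_lit 34966294434) (nat_lit 5) (nat_lit 5) (nat_lit 6) (nat_lit 5) (nat_lit 7) (nat_lit 4) (nat_lit 412) (nat_lit 303) (nat_lit 146)) (XT.nd (nat_lit 94) (nat_lit 0) (nat_lit 0) (XT.lf (nat_lit 0) (nat_lit 25293212911) (nat_lit 84) (nat_lit 25528125972) (nat_lit 168) (nat_lit 32962277142) (nat_lit 5) (nat_lit 5) (nat_lit 6) (nat_lit 5) (nat_lit 7) (nat_lit 4) (nat_lit 413) (nat_lit 303) (nat_lit 145)) (XT.lf (nat_lit 0) (nat_lit 34376105632) (nat_lit 84) (nat_lit 20926709332) (nat_lit 168) (nat_lit 30898779353) (nat_lit 5) (nat_lit 5) (nat_lit 6) (nat_lit 5) (nat_lit 7) (nat_lit 4) (nat_lit 414) (nat_lit 303) (nat_lit 144)))))) (XT.nd (nat_lit 43616) (nat_lit 0) (nat_lit 9576) (XT.nd (nat_lit 282) (nat_lit 0) (nat_lit 0) (XT.nd (nat_lit 94) (nat_lit 0) (nat_lit 0) (XT.lf (nat_lit 0) (nat_lit 43736690223) (nat_lit 84) (nat_lit 16184046427) (nat_lit 168) (nat_lit 28773877670)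 (nat_lit 5) (nat_lit 5) (nat_lit 6) (nat_lit 5) (nat_lit 7) (nat_lit 4) (nat_lit 415) (nat_lit 303) (nat_lit 143)) (XT.nd (nat_lit 94) (nat_lit 0) (nat_lit 0) (XT.lf (nat_lit 0) (nat_lit 53383691729) (nat_lit 84) (nat_lit 11295716599) (nat_lit 168) (nat_lit 26585591464) (nat_lit 5) (nat_lit 5) (nat_lit 6) (nat_lit 5) (nat_lit 7) (nat_lit 4) (nat_lit 416) (nat_lit 303) (nat_lit 142)) (XT.lf (nat_lit 0) (nat_lit 63326102167) (nat_lit 84) (nat_lit 6257163413) (nat_lit 168) (nat_lit 24331881021) (nat_lit 5) (nat_lit 5) (nat_lit 6) (nat_lit 5) (nat_lit 7) (nat_lit 4) (nat_lit 417) (nat_lit 303) (nat_lit 141)))) (XT.nd (nat_lit 94) (nat_lit 0) (nat_lit 0) (XT.lf (nat_lit 0) (nat_lit 73573188904) (nat_lit 84) (nat_lit 1063690409) (nat_lit 168) (nat_lit 22010645648) (nat_lit 5) (nat_lit 5) (nat_lit 6) (nat_lit 5) (nat_lit 7) (nat_lit 4) (nat_lit 418) (nat_lit 303) (nat_lit 140)) (XT.nd (nat_lit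 94) (nat_lit 0) (nat_lit 0) (XT.lf (nat_lit 0) (nat_lit 79887512826) (nat_lit 168) (nat_lit 15372731236) (nat_lit 0) (nat_lit 4203118536) (nat_lit 5) (nat_lit 5) (nat_lit 7) (nat_lit 4) (nat_lit 5) (nat_lit 4) (nat_lit 419) (nat_lit 303) (nat_lit 139)) (XT.lf (nat_lit 0) (nat_lit 85309654079) (nat_lit 168) (nat_lit 7446645091) (nat_lit 0) (nat_lit 9609927589) (nat_lit 5) (nat_lit 5) (nat_lit 7) (nat_lit 4) (nat_lit 5) (nat_lit 4) (nat_lit 420) (nat_lit 303) (nat_lit 138))))) (XT.nd (nat_lit 282) (nat_lit 756) (nat_lit 0) (XT.nd (nat_lit 94) (nat_lit 0) (nat_lit 0) (XT.lf (nat_lit 0) (nat_lit 749213981) (nat_lit 0) (nat_lit 749213981) (nat_lit 756) (nat_lit 2422799073) (nat_lit 128) (nat_lit 5) (nat_lit 128) (nat_lit 3) (nat_lit 137) (nat_lit 3) (nat_lit 304) (nat_lit 304) (nat_lit 253)) (XT.nd (nat_lit 94) (nat_lit 0) (nat_lit 0) (XT.lf (nat_lit 0) (nat_lit 4075058815) (nat_lit 756)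 (nat_lit 3509717849) (nat_lit 840) (nat_lit 340627232) (nat_lit 128) (nat_lit 5) (nat_lit 137) (nat_lit 3) (nat_lit 138) (nat_lit 5) (nat_lit 305) (nat_lit 304) (nat_lit 252)) (XT.lf (nat_lit 0) (nat_lit 5160780881) (nat_lit 756) (nat_lit 625346398) (nat_lit 840) (nat_lit 2225867858) (nat_lit 128) (nat_lit 5) (nat_lit 137) (nat_lit 3) (nat_lit 138) (nat_lit 5) (nat_lit 306) (nat_lit 304) (nat_lit 251)))) (XT.nd (nat_lit 94) (nat_lit 756) (nat_lit 0) (XT.lf (nat_lit 84) (nat_lit 2374481890) (nat_lit 0) (nat_lit 3889242803) (nat_lit 840) (nat_lit 1838314406) (nat_lit 129) (nat_lit 5) (nat_lit 128) (nat_lit 5) (nat_lit 138) (nat_lit 5) (nat_lit 307) (nat_lit 304) (nat_lit 250)) (XT.nd (nat_lit 94) (nat_lit 756) (nat_lit 0) (XT.lf (nat_lit 84) (nat_lit 5458983371) (nat_lit 0) (nat_lit 1909401314) (nat_lit 840) (nat_lit 827747572) (nat_lit 129) (nat_lit 5) (nat_lit 128) (nat_lit 5) (nat_lit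 138) (nat_lit 5) (nat_lit 308) (nat_lit 304) (nat_lit 249)) (XT.lf (nat_lit 0) (nat_lit 176162109) (nat_lit 840) (nat_lit 7967430480) (nat_lit 924) (nat_lit 150763863) (nat_lit 119) (nat_lit 5) (nat_lit 129) (nat_lit 5) (nat_lit 130) (nat_lit 5) (nat_lit 309) (nat_lit 304) (nat_lit 248))))))) (XT.nd (nat_lit 1128) (nat_lit 3528) (nat_lit 0) (XT.nd (nat_lit 564) (nat_lit 756) (nat_lit 0) (XT.nd (nat_lit 282) (nat_lit 0) (nat_lit 84) (XT.nd (nat_lit 94) (nat_lit 0) (nat_lit 0) (XT.lf (nat_lit 0) (nat_lit 1205031792) (nat_lit 840) (nat_lit 4902296411) (nat_lit 924) (nat_lit 2287922054) (nat_lit 119) (nat_lit 5) (nat_lit 129) (nat_lit 5) (nat_lit 130) (nat_lit 5) (nat_lit 310) (nat_lit 304) (nat_lit 247)) (XT.nd (nat_lit 94) (nat_lit 0) (nat_lit 0) (XT.lf (nat_lit 0) (nat_lit 2229561666) (nat_lit 840) (nat_lit 1764726077) (nat_lit 924) (nat_lit 4506329543) (nat_lit 119) (nat_lit 5) (nat_lit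 129) (nat_lit 5) (nat_lit 130) (nat_lit 5) (nat_lit 311) (nat_lit 304) (nat_lit 246)) (XT.lf (nat_lit 84) (nat_lit 1477983131) (nat_lit 0) (nat_lit 1787385346) (nat_lit 924) (nat_lit 5344732762) (nat_lit 120) (nat_lit 5) (nat_lit 119) (nat_lit 5) (nat_lit 130) (nat_lit 5) (nat_lit 312) (nat_lit 304) (nat_lit 245)))) (XT.nd (nat_lit 94) (nat_lit 0) (nat_lit 0) (XT.lf (nat_lit 0) (nat_lit 4322555749) (nat_lit 840) (nat_lit 3891889117) (nat_lit 924) (nat_lit 509076019) (nat_lit 120) (nat_lit 5) (nat_lit 130) (nat_lit 5) (nat_lit 131) (nat_lit 5) (nat_lit 313) (nat_lit 304) (nat_lit 244)) (XT.nd (nat_lit 94) (nat_lit 0) (nat_lit 0) (XT.lf (nat_lit 0) (nat_lit 5397645843) (nat_lit 840) (nat_lit 591879621) (nat_lit 924) (nat_lit 2851594834) (nat_lit 120) (nat_lit 5) (nat_lit 130) (nat_lit 5) (nat_lit 131) (nat_lit 5) (nat_lit 314) (nat_lit 304) (nat_lit 243)) (XT.lf (nat_lit 84) (nat_lit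 2846059167) (nat_lit 0) (nat_lit 3656083865) (nat_lit 924) (nat_lit 2460540496) (nat_lit 121) (nat_lit 5) (nat_lit 120) (nat_lit 5) (nat_lit 131) (nat_lit 5) (nat_lit 315) (nat_lit 304) (nat_lit 242))))) (XT.nd (nat_lit 282) (nat_lit 0) (nat_lit 0) (XT.nd (nat_lit 94) (nat_lit 840) (nat_lit 0) (XT.lf (nat_lit 84) (nat_lit 6381628666) (nat_lit 0) (nat_lit 1234028608) (nat_lit 924) (nat_lit 1473330612) (nat_lit 121) (nat_lit 5) (nat_lit 120) (nat_lit 5) (nat_lit 131) (nat_lit 5) (nat_lit 316) (nat_lit 304) (nat_lit 241)) (XT.nd (nat_lit 94) (nat_lit 924) (nat_lit 0) (XT.lf (nat_lit 84) (nat_lit 788886029) (nat_lit 0) (nat_lit 7964799588) (nat_lit 924) (nat_lit 466017252) (nat_lit 122) (nat_lit 5) (nat_lit 121) (nat_lit 5) (nat_lit 132) (nat_lit 5) (nat_lit 317) (nat_lit 304) (nat_lit 240)) (XT.lf (nat_lit 0) (nat_lit 572013272) (nat_lit 924) (nat_lit 4943915885) (nat_lit 1008) (nat_lit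 3838197087) (nat_lit 110) (nat_lit 5) (nat_lit 121) (nat_lit 5) (nat_lit 122) (nat_lit 5) (nat_lit 318) (nat_lit 304) (nat_lit 239)))) (XT.nd (nat_lit 94) (nat_lit 0) (nat_lit 0) (XT.lf (nat_lit 0) (nat_lit 1603304832) (nat_lit 924) (nat_lit 1375648119) (nat_lit 1008) (nat_lit 6514691251) (nat_lit 110) (nat_lit 5) (nat_lit 121) (nat_lit 5) (nat_lit 122) (nat_lit 5) (nat_lit 319) (nat_lit 304) (nat_lit 238)) (XT.nd (nat_lit 94) (nat_lit 0) (nat_lit 84) (XT.lf (nat_lit 84) (nat_lit 2328856677) (nat_lit 0) (nat_lit 332453778) (nat_lit 1008) (nat_lit 6976503467) (nat_lit 111) (nat_lit 5) (nat_lit 110) (nat_lit 5) (nat_lit 122) (nat_lit 5) (nat_lit 320) (nat_lit 304) (nat_lit 237)) (XT.lf (nat_lit 0) (nat_lit 3762740300) (nat_lit 924) (nat_lit 3654728649) (nat_lit 84) (nat_lit 2368813392) (nat_lit 111) (nat_lit 5) (nat_lit 122) (nat_lit 5) (nat_lit 112) (nat_lit 5) (nat_lit 321) (nat_lit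 304) (nat_lit 236)))))) (XT.nd (nat_lit 564) (nat_lit 1596) (nat_lit 0) (XT.nd (nat_lit 282) (nat_lit 1092) (nat_lit 0) (XT.nd (nat_lit 94) (nat_lit 0) (nat_lit 0) (XT.lf (nat_lit 0) (nat_lit 89685670) (nat_lit 924) (nat_lit 4786100832) (nat_lit 1008) (nat_lit 5064419214) (nat_lit 100) (nat_lit 5) (nat_lit 111) (nat_lit 5) (nat_lit 112) (nat_lit 5) (nat_lit 322) (nat_lit 304) (nat_lit 235)) (XT.nd (nat_lit 94) (nat_lit 0) (nat_lit 0) (XT.lf (nat_lit 0) (nat_lit 4006370739) (nat_lit 924) (nat_lit 2028891602) (nat_lit 1008) (nat_lit 4063418131) (nat_lit 100) (nat_lit 5) (nat_lit 111) (nat_lit 5) (nat_lit 112) (nat_lit 5) (nat_lit 323) (nat_lit 304) (nat_lit 234)) (XT.lf (nat_lit 0) (nat_lit 7213368149) (nat_lit 1008) (nat_lit 2247293170) (nat_lit 84) (nat_lit 802088297) (nat_lit 100) (nat_lit 5) (nat_lit 112) (nat_lit 5) (nat_lit 101) (nat_lit 5) (nat_lit 324) (nat_lit 304) (nat_lit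 233)))) (XT.nd (nat_lit 94) (nat_lit 84) (nat_lit 0) (XT.lf (nat_lit 0) (nat_lit 1709638389) (nat_lit 1008) (nat_lit 6731444093) (nat_lit 1092) (nat_lit 1990557302) (nat_lit 88) (nat_lit 5) (nat_lit 100) (nat_lit 5) (nat_lit 101) (nat_lit 5) (nat_lit 325) (nat_lit 304) (nat_lit 232)) (XT.nd (nat_lit 94) (nat_lit 84) (nat_lit 0) (XT.lf (nat_lit 0) (nat_lit 5816113482) (nat_lit 1008) (nat_lit 3890110645) (nat_lit 1092) (nat_lit 899697364) (nat_lit 88) (nat_lit 5) (nat_lit 100) (nat_lit 5) (nat_lit 101) (nat_lit 5) (nat_lit 326) (nat_lit 304) (nat_lit 231)) (XT.lf (nat_lit 0) (nat_lit 196713182) (nat_lit 1092) (nat_lit 758703222) (nat_lit 84) (nat_lit 9830984354) (nat_lit 87) (nat_lit 5) (nat_lit 100) (nat_lit 5) (nat_lit 88) (nat_lit 5) (nat_lit 327) (nat_lit 304) (nat_lit 230))))) (XT.nd (nat_lit 282) (nat_lit 504) (nat_lit 0) (XT.nd (nat_lit 94) (nat_lit 504) (nat_lit 0) (XT.lf (nat_lit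 0) (nat_lit 1340511014) (nat_lit 672) (nat_lit 7555692315) (nat_lit 84) (nat_lit 2075116012) (nat_lit 80) (nat_lit 5) (nat_lit 88) (nat_lit 5) (nat_lit 81) (nat_lit 5) (nat_lit 328) (nat_lit 304) (nat_lit 229)) (XT.nd (nat_lit 94) (nat_lit 504) (nat_lit 0) (XT.lf (nat_lit 0) (nat_lit 2515039180) (nat_lit 672) (nat_lit 3456903587) (nat_lit 84) (nat_lit 5190294865) (nat_lit 80) (nat_lit 5) (nat_lit 88) (nat_lit 5) (nat_lit 81) (nat_lit 5) (nat_lit 329) (nat_lit 304) (nat_lit 228)) (XT.lf (nat_lit 0) (nat_lit 764197375) (nat_lit 504) (nat_lit 2947538424) (nat_lit 588) (nat_lit 7647897146) (nat_lit 74) (nat_lit 5) (nat_lit 80) (nat_lit 5) (nat_lit 81) (nat_lit 5) (nat_lit 330) (nat_lit 304) (nat_lit 227)))) (XT.nd (nat_lit 188) (nat_lit 504) (nat_lit 0) (XT.nd (nat_lit 94) (nat_lit 0) (nat_lit 0) (XT.lf (nat_lit 0) (nat_lit 4962324213) (nat_lit 588) (nat_lit 6395386626) (nat_lit 84) (nat_lit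 205029587) (nat_lit 74) (nat_lit 5) (nat_lit 81) (nat_lit 5) (nat_lit 75) (nat_lit 5) (nat_lit 331) (nat_lit 304) (nat_lit 226)) (XT.lf (nat_lit 0) (nat_lit 6261118790) (nat_lit 588) (nat_lit 2115392205) (nat_lit 84) (nat_lit 3395450789) (nat_lit 74) (nat_lit 5) (nat_lit 81) (nat_lit 5) (nat_lit 75) (nat_lit 5) (nat_lit 332) (nat_lit 304) (nat_lit 225))) (XT.nd (nat_lit 94) (nat_lit 0) (nat_lit 0) (XT.lf (nat_lit 0) (nat_lit 2324612810) (nat_lit 504) (nat_lit 5278537834) (nat_lit 588) (nat_lit 4384532957) (nat_lit 68) (nat_lit 5) (nat_lit 74) (nat_lit 5) (nat_lit 75) (nat_lit 5) (nat_lit 333) (nat_lit 304) (nat_lit 224)) (XT.lf (nat_lit 0) (nat_lit 6927795656) (nat_lit 504) (nat_lit 2061396790) (nat_lit 588) (nat_lit 3220929332) (nat_lit 68) (nat_lit 5) (nat_lit 74) (nat_lit 5) (nat_lit 75) (nat_lit 5) (nat_lit 334) (nat_lit 304) (nat_lit 223))))))))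
noncomputable def xc127 : XT := (XT.nd (nat_lit 2256) (nat_lit 1428) (nat_lit 0) (XT.nd (nat_lit 1128) (nat_lit 1428) (nat_lit 0) (XT.nd (nat_lit 564) (nat_lit 756) (nat_lit 0) (XT.nd (nat_lit 282) (nat_lit 420) (nat_lit 0) (XT.nd (nat_lit 94) (nat_lit 504) (nat_lit 0) (XT.lf (nat_lit 0) (nat_lit 10411577679) (nat_lit 588) (nat_lit 797655376) (nat_lit 84) (nat_lit 1230528306) (nat_lit 68) (nat_lit 5) (nat_lit 75) (nat_lit 5) (nat_lit 69) (nat_lit 5) (nat_lit 335) (nat_lit 304) (nat_lit 222)) (XT.nd (nat_lit 94) (nat_lit 84) (nat_lit 0) (XT.lf (nat_lit 0) (nat_lit 3863968743) (nat_lit 420) (nat_lit 8054997704) (nat_lit 504) (nat_lit 756382588) (nat_lit 63) (nat_lit 5) (nat_lit 68) (nat_lit 5) (nat_lit 69) (nat_lit 5) (nat_lit 336) (nat_lit 304) (nat_lit 221)) (XT.lf (nat_lit 0) (nat_lit 533665130) (nat_lit 504) (nat_lit 4255676100) (nat_lit 84) (nat_lit 8129129769) (nat_lit 62) (nat_lit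 5) (nat_lit 68) (nat_lit 5) (nat_lit 63) (nat_lit 5) (nat_lit 337) (nat_lit 304) (nat_lit 220)))) (XT.nd (nat_lit 94) (nat_lit 0) (nat_lit 0) (XT.lf (nat_lit 0) (nat_lit 423508418) (nat_lit 420) (nat_lit 1410827539) (nat_lit 504) (nat_lit 11335066255) (nat_lit 57) (nat_lit 5) (nat_lit 62) (nat_lit 5) (nat_lit 63) (nat_lit 5) (nat_lit 338) (nat_lit 304) (nat_lit 219)) (XT.nd (nat_lit 94) (nat_lit 0) (nat_lit 0) (XT.lf (nat_lit 0) (nat_lit 3223249710) (nat_lit 504) (nat_lit 8128758383) (nat_lit 84) (nat_lit 2074704873) (nat_lit 57) (nat_lit 5) (nat_lit 63) (nat_lit 5) (nat_lit 58) (nat_lit 5) (nat_lit 339) (nat_lit 304) (nat_lit 218)) (XT.lf (nat_lit 0) (nat_lit 4652664384) (nat_lit 504) (nat_lit 3401326553) (nat_lit 84) (nat_lit 5638172298) (nat_lit 57) (nat_lit 5) (nat_lit 63) (nat_lit 5) (nat_lit 58) (nat_lit 5) (nat_lit 340) (nat_lit 304) (nat_lit 217))))) (XT.nd (nat_lit 282) (nat_lit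 420) (nat_lit 0) (XT.nd (nat_lit 94) (nat_lit 0) (nat_lit 0) (XT.lf (nat_lit 0) (nat_lit 1484717489) (nat_lit 336) (nat_lit 4639927851) (nat_lit 420) (nat_lit 7841332383) (nat_lit 53) (nat_lit 5) (nat_lit 57) (nat_lit 5) (nat_lit 58) (nat_lit 5) (nat_lit 341) (nat_lit 304) (nat_lit 216)) (XT.nd (nat_lit 94) (nat_lit 0) (nat_lit 0) (XT.lf (nat_lit 0) (nat_lit 6576664045) (nat_lit 336) (nat_lit 1084942425) (nat_lit 420) (nat_lit 6586152889) (nat_lit 53) (nat_lit 5) (nat_lit 57) (nat_lit 5) (nat_lit 58) (nat_lit 5) (nat_lit 342) (nat_lit 304) (nat_lit 215)) (XT.lf (nat_lit 0) (nat_lit 9256126782) (nat_lit 420) (nat_lit 2755098976) (nat_lit 84) (nat_lit 2526819495) (nat_lit 53) (nat_lit 5) (nat_lit 58) (nat_lit 5) (nat_lit 54) (nat_lit 5) (nat_lit 343) (nat_lit 304) (nat_lit 214)))) (XT.nd (nat_lit 94) (nat_lit 0) (nat_lit 0) (XT.lf (nat_lit 0) (nat_lit 2332026478) (nat_lit 420) (nat_lit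 8587069713) (nat_lit 504) (nat_lit 3917718277) (nat_lit 48) (nat_lit 5) (nat_lit 53) (nat_lit 5) (nat_lit 54) (nat_lit 5) (nat_lit 344) (nat_lit 304) (nat_lit 213)) (XT.nd (nat_lit 94) (nat_lit 0) (nat_lit 0) (XT.lf (nat_lit 0) (nat_lit 7618277659) (nat_lit 420) (nat_lit 5029175057) (nat_lit 504) (nat_lit 2497035747) (nat_lit 48) (nat_lit 5) (nat_lit 53) (nat_lit 5) (nat_lit 54) (nat_lit 5) (nat_lit 345) (nat_lit 304) (nat_lit 212)) (XT.lf (nat_lit 0) (nat_lit 13051931420) (nat_lit 420) (nat_lit 1362983043) (nat_lit 504) (nat_lit 1047304239) (nat_lit 48) (nat_lit 5) (nat_lit 53) (nat_lit 5) (nat_lit 54) (nat_lit 5) (nat_lit 346) (nat_lit 304) (nat_lit 211)))))) (XT.nd (nat_lit 564) (nat_lit 672) (nat_lit 0) (XT.nd (nat_lit 282) (nat_lit 336) (nat_lit 0) (XT.nd (nat_lit 94) (nat_lit 0) (nat_lit 0) (XT.lf (nat_lit 0) (nat_lit 477189175) (nat_lit 420) (nat_lit 12911645744) (nat_lit 84)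 (nat_lit 2399687772) (nat_lit 43) (nat_lit 5) (nat_lit 48) (nat_lit 5) (nat_lit 44) (nat_lit 5) (nat_lit 347) (nat_lit 304) (nat_lit 210)) (XT.nd (nat_lit 94) (nat_lit 0) (nat_lit 0) (XT.lf (nat_lit 0) (nat_lit 2052540679) (nat_lit 420) (nat_lit 7786675317) (nat_lit 84) (nat_lit 6284671651) (nat_lit 43) (nat_lit 5) (nat_lit 48) (nat_lit 5) (nat_lit 44) (nat_lit 5) (nat_lit 348) (nat_lit 304) (nat_lit 209)) (XT.lf (nat_lit 0) (nat_lit 3663146982) (nat_lit 420) (nat_lit 2518974683) (nat_lit 84) (nat_lit 10288009918) (nat_lit 43) (nat_lit 5) (nat_lit 48) (nat_lit 5) (nat_lit 44) (nat_lit 5) (nat_lit 349) (nat_lit 304) (nat_lit 208)))) (XT.nd (nat_lit 94) (nat_lit 0) (nat_lit 0) (XT.lf (nat_lit 0) (nat_lit 2955921436) (nat_lit 336) (nat_lit 2383911009) (nat_lit 420) (nat_lit 11486835774) (nat_lit 39) (nat_lit 5) (nat_lit 43) (nat_lit 5) (nat_lit 44) (nat_lit 5) (nat_lit 350) (nat_lit 304)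 (nat_lit 207)) (XT.nd (nat_lit 94) (nat_lit 0) (nat_lit 0) (XT.lf (nat_lit 0) (nat_lit 7097299153) (nat_lit 420) (nat_lit 8570902410) (nat_lit 84) (nat_lit 1525221005) (nat_lit 39) (nat_lit 5) (nat_lit 44) (nat_lit 5) (nat_lit 40) (nat_lit 5) (nat_lit 351) (nat_lit 304) (nat_lit 206)) (XT.lf (nat_lit 0) (nat_lit 8921062770) (nat_lit 420) (nat_lit 3146598874) (nat_lit 84) (nat_lit 5503574638) (nat_lit 39) (nat_lit 5) (nat_lit 44) (nat_lit 5) (nat_lit 40) (nat_lit 5) (nat_lit 352) (nat_lit 304) (nat_lit 205))))) (XT.nd (nat_lit 282) (nat_lit 420) (nat_lit 0) (XT.nd (nat_lit 94) (nat_lit 0) (nat_lit 0) (XT.lf (nat_lit 0) (nat_lit 2480852179) (nat_lit 252) (nat_lit 8332932725) (nat_lit 336) (nat_lit 7146646804) (nat_lit 36) (nat_lit 5) (nat_lit 39) (nat_lit 5) (nat_lit 40) (nat_lit 5) (nat_lit 353) (nat_lit 304) (nat_lit 204)) (XT.nd (nat_lit 94) (nat_lit 0) (nat_lit 0) (XT.lf (nat_lit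 0) (nat_lit 8334622680) (nat_lit 252) (nat_lit 4451433559) (nat_lit 336) (nat_lit 5575041761) (nat_lit 36) (nat_lit 5) (nat_lit 39) (nat_lit 5) (nat_lit 40) (nat_lit 5) (nat_lit 354) (nat_lit 304) (nat_lit 203)) (XT.lf (nat_lit 0) (nat_lit 14355468427) (nat_lit 252) (nat_lit 452390222) (nat_lit 336) (nat_lit 3966737520) (nat_lit 36) (nat_lit 5) (nat_lit 39) (nat_lit 5) (nat_lit 40) (nat_lit 5) (nat_lit 355) (nat_lit 304) (nat_lit 202)))) (XT.nd (nat_lit 94) (nat_lit 84) (nat_lit 0) (XT.lf (nat_lit 0) (nat_lit 1338266660) (nat_lit 336) (nat_lit 15592472045) (nat_lit 420) (nat_lit 2269033413) (nat_lit 32) (nat_lit 5) (nat_lit 36) (nat_lit 5) (nat_lit 37) (nat_lit 5) (nat_lit 356) (nat_lit 304) (nat_lit 201)) (XT.nd (nat_lit 94) (nat_lit 84) (nat_lit 0) (XT.lf (nat_lit 0) (nat_lit 7348915539) (nat_lit 336) (nat_lit 11810130791) (nat_lit 420) (nat_lit 477902316) (nat_lit 32) (nat_lit 5)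 (nat_lit 36) (nat_lit 5) (nat_lit 37) (nat_lit 5) (nat_lit 357) (nat_lit 304) (nat_lit 200)) (XT.lf (nat_lit 0) (nat_lit 1330265626) (nat_lit 420) (nat_lit 6569390476) (nat_lit 84) (nat_lit 12187984291) (nat_lit 31) (nat_lit 5) (nat_lit 36) (nat_lit 5) (nat_lit 32) (nat_lit 5) (nat_lit 358) (nat_lit 304) (nat_lit 199))))))) (XT.nd (nat_lit 1128) (nat_lit 672) (nat_lit 0) (XT.nd (nat_lit 564) (nat_lit 252) (nat_lit 0) (XT.nd (nat_lit 282) (nat_lit 252) (nat_lit 0) (XT.nd (nat_lit 94) (nat_lit 252) (nat_lit 0) (XT.lf (nat_lit 0) (nat_lit 3173976809) (nat_lit 420) (nat_lit 691965066) (nat_lit 84) (nat_lit 16686582320) (nat_lit 31) (nat_lit 5) (nat_lit 36) (nat_lit 5) (nat_lit 32) (nat_lit 5) (nat_lit 359) (nat_lit 304) (nat_lit 198)) (XT.nd (nat_lit 94) (nat_lit 0) (nat_lit 0) (XT.lf (nat_lit 0) (nat_lit 5122217669) (nat_lit 336) (nat_lit 15569368899) (nat_lit 84) (nat_lit 338806956)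 (nat_lit 28) (nat_lit 5) (nat_lit 32) (nat_lit 5) (nat_lit 29) (nat_lit 5) (nat_lit 360) (nat_lit 304) (nat_lit 197)) (XT.lf (nat_lit 0) (nat_lit 7167574927) (nat_lit 336) (nat_lit 9756429087) (nat_lit 84) (nat_lit 4597975895) (nat_lit 28) (nat_lit 5) (nat_lit 32) (nat_lit 5) (nat_lit 29) (nat_lit 5) (nat_lit 361) (nat_lit 304) (nat_lit 196)))) (XT.nd (nat_lit 94) (nat_lit 252) (nat_lit 0) (XT.lf (nat_lit 0) (nat_lit 9266527274) (nat_lit 336) (nat_lit 3776274680) (nat_lit 84) (nat_lit 8986347869) (nat_lit 28) (nat_lit 5) (nat_lit 32) (nat_lit 5) (nat_lit 29) (nat_lit 5) (nat_lit 362) (nat_lit 304) (nat_lit 195)) (XT.nd (nat_lit 94) (nat_lit 0) (nat_lit 0) (XT.lf (nat_lit 0) (nat_lit 2425537631) (nat_lit 252) (nat_lit 9019555155) (nat_lit 336) (nat_lit 11106537304) (nat_lit 25) (nat_lit 5) (nat_lit 28) (nat_lit 5) (nat_lit 29) (nat_lit 5) (nat_lit 363) (nat_lit 304) (nat_lit 194)) (XT.lf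 (nat_lit 0) (nat_lit 8887192627) (nat_lit 252) (nat_lit 4834064210) (nat_lit 336) (nat_lit 9368156284) (nat_lit 25) (nat_lit 5) (nat_lit 28) (nat_lit 5) (nat_lit 29) (nat_lit 5) (nat_lit 364) (nat_lit 304) (nat_lit 193))))) (XT.nd (nat_lit 282) (nat_lit 84) (nat_lit 0) (XT.nd (nat_lit 94) (nat_lit 168) (nat_lit 0) (XT.lf (nat_lit 0) (nat_lit 15537065295) (nat_lit 252) (nat_lit 521844368) (nat_lit 336) (nat_lit 7585275696) (nat_lit 25) (nat_lit 5) (nat_lit 28) (nat_lit 5) (nat_lit 29) (nat_lit 5) (nat_lit 365) (nat_lit 304) (nat_lit 192)) (XT.nd (nat_lit 94) (nat_lit 168) (nat_lit 0) (XT.lf (nat_lit 0) (nat_lit 18499128231) (nat_lit 336) (nat_lit 1874007931) (nat_lit 84) (nat_lit 3842121906) (nat_lit 25) (nat_lit 5) (nat_lit 29) (nat_lit 5) (nat_lit 26) (nat_lit 5) (nat_lit 366) (nat_lit 304) (nat_lit 191)) (XT.lf (nat_lit 0) (nat_lit 4628601224) (nat_lit 168) (nat_lit 16429082747)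 (nat_lit 252) (nat_lit 3745061177) (nat_lit 23) (nat_lit 5) (nat_lit 25) (nat_lit 5) (nat_lit 26) (nat_lit 5) (nat_lit 367) (nat_lit 304) (nat_lit 190)))) (XT.nd (nat_lit 94) (nat_lit 84) (nat_lit 0) (XT.lf (nat_lit 0) (nat_lit 11360988965) (nat_lit 168) (nat_lit 12345706728) (nat_lit 252) (nat_lit 1701436752) (nat_lit 23) (nat_lit 5) (nat_lit 25) (nat_lit 5) (nat_lit 26) (nat_lit 5) (nat_lit 368) (nat_lit 304) (nat_lit 189)) (XT.nd (nat_lit 94) (nat_lit 0) (nat_lit 0) (XT.lf (nat_lit 0) (nat_lit 389087081) (nat_lit 252) (nat_lit 7745614418) (nat_lit 84) (nat_lit 17897748780) (nat_lit 22) (nat_lit 5) (nat_lit 25) (nat_lit 5) (nat_lit 23) (nat_lit 5) (nat_lit 369) (nat_lit 304) (nat_lit 188)) (XT.lf (nat_lit 0) (nat_lit 2501041119) (nat_lit 252) (nat_lit 1277182704) (nat_lit 84) (nat_lit 22897638269) (nat_lit 22) (nat_lit 5) (nat_lit 25) (nat_lit 5) (nat_lit 23) (nat_lit 5) (nat_lit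 370) (nat_lit 304) (nat_lit 187)))))) (XT.nd (nat_lit 564) (nat_lit 252) (nat_lit 0) (XT.nd (nat_lit 282) (nat_lit 168) (nat_lit 0) (XT.nd (nat_lit 94) (nat_lit 0) (nat_lit 0) (XT.lf (nat_lit 0) (nat_lit 4732756771) (nat_lit 336) (nat_lit 21853701314) (nat_lit 84) (nat_lit 751108196) (nat_lit 19) (nat_lit 5) (nat_lit 23) (nat_lit 5) (nat_lit 20) (nat_lit 5) (nat_lit 371) (nat_lit 304) (nat_lit 186)) (XT.nd (nat_lit 94) (nat_lit 0) (nat_lit 0) (XT.lf (nat_lit 0) (nat_lit 7078073749) (nat_lit 336) (nat_lit 15587407688) (nat_lit 84) (nat_lit 5352953640) (nat_lit 19) (nat_lit 5) (nat_lit 23) (nat_lit 5) (nat_lit 20) (nat_lit 5) (nat_lit 372) (nat_lit 304) (nat_lit 185)) (XT.lf (nat_lit 0) (nat_lit 9488635110) (nat_lit 336) (nat_lit 9137372721) (nat_lit 84) (nat_lit 10094662124) (nat_lit 19) (nat_lit 5) (nat_lit 23) (nat_lit 5) (nat_lit 20) (nat_lit 5) (nat_lit 373) (nat_lit 304) (nat_lit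 184)))) (XT.nd (nat_lit 94) (nat_lit 168) (nat_lit 0) (XT.lf (nat_lit 0) (nat_lit 11966687751) (nat_lit 336) (nat_lit 2497584303) (nat_lit 84) (nat_lit 14980653418) (nat_lit 19) (nat_lit 5) (nat_lit 23) (nat_lit 5) (nat_lit 20) (nat_lit 5) (nat_lit 374) (nat_lit 304) (nat_lit 183)) (XT.nd (nat_lit 94) (nat_lit 0) (nat_lit 0) (XT.lf (nat_lit 0) (nat_lit 4427347732) (nat_lit 168) (nat_lit 10131113581) (nat_lit 252) (nat_lit 15632053882) (nat_lit 17) (nat_lit 5) (nat_lit 19) (nat_lit 5) (nat_lit 20) (nat_lit 5) (nat_lit 375) (nat_lit 304) (nat_lit 182)) (XT.lf (nat_lit 0) (nat_lit 11610109262) (nat_lit 168) (nat_lit 5639635611) (nat_lit 252) (nat_lit 13708904648) (nat_lit 17) (nat_lit 5) (nat_lit 19) (nat_lit 5) (nat_lit 20) (nat_lit 5) (nat_lit 376) (nat_lit 304) (nat_lit 181))))) (XT.nd (nat_lit 282) (nat_lit 84) (nat_lit 0) (XT.nd (nat_lit 94) (nat_lit 168) (nat_lit 0) (XT.lf (nat_lit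 0) (nat_lit 19006039916) (nat_lit 168) (nat_lit 1011721274) (nat_lit 252) (nat_lit 11733067100) (nat_lit 17) (nat_lit 5) (nat_lit 19) (nat_lit 5) (nat_lit 20) (nat_lit 5) (nat_lit 377) (nat_lit 304) (nat_lit 180)) (XT.nd (nat_lit 94) (nat_lit 168) (nat_lit 0) (XT.lf (nat_lit 0) (nat_lit 22902359686) (nat_lit 252) (nat_lit 5983025764) (nat_lit 84) (nat_lit 3681249097) (nat_lit 17) (nat_lit 5) (nat_lit 20) (nat_lit 5) (nat_lit 18) (nat_lit 5) (nat_lit 378) (nat_lit 304) (nat_lit 179)) (XT.lf (nat_lit 0) (nat_lit 988799684) (nat_lit 168) (nat_lit 24901411113) (nat_lit 252) (nat_lit 7517114480) (nat_lit 15) (nat_lit 5) (nat_lit 17) (nat_lit 5) (nat_lit 18) (nat_lit 5) (nat_lit 379) (nat_lit 304) (nat_lit 178)))) (XT.nd (nat_lit 188) (nat_lit 84) (nat_lit 0) (XT.nd (nat_lit 94) (nat_lit 0) (nat_lit 0) (XT.lf (nat_lit 0) (nat_lit 8294554734) (nat_lit 168) (nat_lit 20732355199) (nat_lit 252)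 (nat_lit 5245447033) (nat_lit 15) (nat_lit 5) (nat_lit 17) (nat_lit 5) (nat_lit 18) (nat_lit 5) (nat_lit 380) (nat_lit 304) (nat_lit 177)) (XT.lf (nat_lit 0) (nat_lit 15818025834) (nat_lit 168) (nat_lit 16436782231) (nat_lit 252) (nat_lit 2909605608) (nat_lit 15) (nat_lit 5) (nat_lit 17) (nat_lit 5) (nat_lit 18) (nat_lit 5) (nat_lit 381) (nat_lit 304) (nat_lit 176))) (XT.nd (nat_lit 94) (nat_lit 84) (nat_lit 0) (XT.lf (nat_lit 0) (nat_lit 23566225647) (nat_lit 168) (nat_lit 12010688284) (nat_lit 252) (nat_lit 507412956) (nat_lit 15) (nat_lit 5) (nat_lit 17) (nat_lit 5) (nat_lit 18) (nat_lit 5) (nat_lit 382) (nat_lit 304) (nat_lit 175)) (XT.lf (nat_lit 0) (nat_lit 1923812488) (nat_lit 252) (nat_lit 5506054630) (nat_lit 84) (nat_lit 29602483162) (nat_lit 14) (nat_lit 5) (nat_lit 17) (nat_lit 5) (nat_lit 15) (nat_lit 5) (nat_lit 383) (nat_lit 304) (nat_lit 174))))))))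
noncomputable def xc128 : XT := (XT.nd (nat_lit 2256) (nat_lit 84) (nat_lit 0) (XT.nd (nat_lit 1128) (nat_lit 336) (nat_lit 0) (XT.nd (nat_lit 564) (nat_lit 168) (nat_lit 0) (XT.nd (nat_lit 282) (nat_lit 0) (nat_lit 0) (XT.nd (nat_lit 94) (nat_lit 0) (nat_lit 0) (XT.lf (nat_lit 0) (nat_lit 1745208165) (nat_lit 168) (nat_lit 2686384216) (nat_lit 252) (nat_lit 33577664939) (nat_lit 12) (nat_lit 5) (nat_lit 14) (nat_lit 5) (nat_lit 15) (nat_lit 5) (nat_lit 384) (nat_lit 304) (nat_lit 173)) (XT.nd (nat_lit 94) (nat_lit 0) (nat_lit 0) (XT.lf (nat_lit 0) (nat_lit 7091515359) (nat_lit 252) (nat_lit 29707345744) (nat_lit 84) (nat_lit 2215299661) (nat_lit 12) (nat_lit 5) (nat_lit 15) (nat_lit 5) (nat_lit 13) (nat_lit 5) (nat_lit 385) (nat_lit 304) (nat_lit 172)) (XT.lf (nat_lit 0) (nat_lit 9856014191) (nat_lit 252) (nat_lit 22982824279) (nat_lit 84) (nat_lit 7210710259) (nat_lit 12) (nat_lit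 5) (nat_lit 15) (nat_lit 5) (nat_lit 13) (nat_lit 5) (nat_lit 386) (nat_lit 304) (nat_lit 171)))) (XT.nd (nat_lit 94) (nat_lit 0) (nat_lit 0) (XT.lf (nat_lit 0) (nat_lit 12701016416) (nat_lit 252) (nat_lit 16057567538) (nat_lit 84) (nat_lit 12358628478) (nat_lit 12) (nat_lit 5) (nat_lit 15) (nat_lit 5) (nat_lit 13) (nat_lit 5) (nat_lit 387) (nat_lit 304) (nat_lit 170)) (XT.nd (nat_lit 94) (nat_lit 0) (nat_lit 0) (XT.lf (nat_lit 0) (nat_lit 15629173874) (nat_lit 252) (nat_lit 8925120458) (nat_lit 84) (nat_lit 17663852718) (nat_lit 12) (nat_lit 5) (nat_lit 15) (nat_lit 5) (nat_lit 13) (nat_lit 5) (nat_lit 388) (nat_lit 304) (nat_lit 169)) (XT.lf (nat_lit 0) (nat_lit 18643215915) (nat_lit 252) (nat_lit 1578834849) (nat_lit 84) (nat_lit 23131328004) (nat_lit 12) (nat_lit 5) (nat_lit 15) (nat_lit 5) (nat_lit 13) (nat_lit 5) (nat_lit 389) (nat_lit 304) (nat_lit 168))))) (XT.nd (nat_lit 282)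 (nat_lit 0) (nat_lit 0) (XT.nd (nat_lit 94) (nat_lit 0) (nat_lit 0) (XT.lf (nat_lit 0) (nat_lit 6111265168) (nat_lit 168) (nat_lit 15695311279) (nat_lit 252) (nat_lit 22715509933) (nat_lit 10) (nat_lit 5) (nat_lit 12) (nat_lit 5) (nat_lit 13) (nat_lit 5) (nat_lit 390) (nat_lit 304) (nat_lit 167)) (XT.nd (nat_lit 94) (nat_lit 0) (nat_lit 0) (XT.lf (nat_lit 0) (nat_lit 14066251300) (nat_lit 168) (nat_lit 11013561681) (nat_lit 252) (nat_lit 20646860388) (nat_lit 10) (nat_lit 5) (nat_lit 12) (nat_lit 5) (nat_lit 13) (nat_lit 5) (nat_lit 391) (nat_lit 304) (nat_lit 166)) (XT.lf (nat_lit 0) (nat_lit 22261074345) (nat_lit 168) (nat_lit 6188917885) (nat_lit 252) (nat_lit 18518765819) (nat_lit 10) (nat_lit 5) (nat_lit 12) (nat_lit 5) (nat_lit 13) (nat_lit 5) (nat_lit 392) (nat_lit 304) (nat_lit 165)))) (XT.nd (nat_lit 94) (nat_lit 0) (nat_lit 0) (XT.lf (nat_lit 0) (nat_lit 30703372735) (nat_lit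 168) (nat_lit 1216882818) (nat_lit 252) (nat_lit 16329242618) (nat_lit 10) (nat_lit 5) (nat_lit 12) (nat_lit 5) (nat_lit 13) (nat_lit 5) (nat_lit 393) (nat_lit 304) (nat_lit 164)) (XT.nd (nat_lit 94) (nat_lit 0) (nat_lit 0) (XT.lf (nat_lit 0) (nat_lit 35532597291) (nat_lit 252) (nat_lit 10207831634) (nat_lit 84) (nat_lit 3828457046) (nat_lit 10) (nat_lit 5) (nat_lit 13) (nat_lit 5) (nat_lit 11) (nat_lit 4) (nat_lit 394) (nat_lit 304) (nat_lit 163)) (XT.lf (nat_lit 0) (nat_lit 39265215827) (nat_lit 252) (nat_lit 2660793541) (nat_lit 84) (nat_lit 9002922116) (nat_lit 10) (nat_lit 5) (nat_lit 13) (nat_lit 5) (nat_lit 11) (nat_lit 4) (nat_lit 395) (nat_lit 304) (nat_lit 162)))))) (XT.nd (nat_lit 564) (nat_lit 168) (nat_lit 0) (XT.nd (nat_lit 282) (nat_lit 84) (nat_lit 0) (XT.nd (nat_lit 94) (nat_lit 0) (nat_lit 0) (XT.lf (nat_lit 0) (nat_lit 5219251381) (nat_lit 84) (nat_lit 37942042965)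 (nat_lit 168) (nat_lit 9168377248) (nat_lit 9) (nat_lit 5) (nat_lit 10) (nat_lit 5) (nat_lit 11) (nat_lit 4) (nat_lit 396) (nat_lit 304) (nat_lit 161)) (XT.nd (nat_lit 94) (nat_lit 0) (nat_lit 0) (XT.lf (nat_lit 0) (nat_lit 13393939323) (nat_lit 84) (nat_lit 33808019494) (nat_lit 168) (nat_lit 6571150792) (nat_lit 9) (nat_lit 5) (nat_lit 10) (nat_lit 5) (nat_lit 11) (nat_lit 4) (nat_lit 397) (nat_lit 304) (nat_lit 160)) (XT.lf (nat_lit 0) (nat_lit 21816178576) (nat_lit 84) (nat_lit 29547858842) (nat_lit 168) (nat_lit 3897388628) (nat_lit 9) (nat_lit 5) (nat_lit 10) (nat_lit 5) (nat_lit 11) (nat_lit 4) (nat_lit 398) (nat_lit 304) (nat_lit 159)))) (XT.nd (nat_lit 94) (nat_lit 84) (nat_lit 0) (XT.lf (nat_lit 0) (nat_lit 30493819550) (nat_lit 84) (nat_lit 25157590092) (nat_lit 168) (nat_lit 1144598531) (nat_lit 9) (nat_lit 5) (nat_lit 10) (nat_lit 5) (nat_lit 11) (nat_lit 4) (nat_lit 399)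 (nat_lit 304) (nat_lit 158)) (XT.nd (nat_lit 94) (nat_lit 0) (nat_lit 0) (XT.lf (nat_lit 0) (nat_lit 1655739977) (nat_lit 168) (nat_lit 18960098547) (nat_lit 84) (nat_lit 37761928208) (nat_lit 8) (nat_lit 5) (nat_lit 10) (nat_lit 5) (nat_lit 9) (nat_lit 5) (nat_lit 400) (nat_lit 304) (nat_lit 157)) (XT.lf (nat_lit 0) (nat_lit 4515555978) (nat_lit 168) (nat_lit 11407545327) (nat_lit 84) (nat_lit 44085217020) (nat_lit 8) (nat_lit 5) (nat_lit 10) (nat_lit 5) (nat_lit 9) (nat_lit 5) (nat_lit 401) (nat_lit 304) (nat_lit 156))))) (XT.nd (nat_lit 282) (nat_lit 0) (nat_lit 0) (XT.nd (nat_lit 94) (nat_lit 168) (nat_lit 0) (XT.lf (nat_lit 0) (nat_lit 7460576229) (nat_lit 168) (nat_lit 3626134633) (nat_lit 84) (nat_lit 50602823925) (nat_lit 8) (nat_lit 5) (nat_lit 10) (nat_lit 5) (nat_lit 9) (nat_lit 5) (nat_lit 402) (nat_lit 304) (nat_lit 155)) (XT.nd (nat_lit 94) (nat_lit 0) (nat_lit 0) (XT.lf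 (nat_lit 0) (nat_lit 4481682539) (nat_lit 168) (nat_lit 6056322104) (nat_lit 252) (nat_lit 52883600324) (nat_lit 6) (nat_lit 5) (nat_lit 8) (nat_lit 5) (nat_lit 9) (nat_lit 5) (nat_lit 403) (nat_lit 304) (nat_lit 154)) (XT.lf (nat_lit 0) (nat_lit 12912652790) (nat_lit 168) (nat_lit 832734052) (nat_lit 252) (nat_lit 51460921499) (nat_lit 6) (nat_lit 5) (nat_lit 8) (nat_lit 5) (nat_lit 9) (nat_lit 5) (nat_lit 404) (nat_lit 304) (nat_lit 153)))) (XT.nd (nat_lit 94) (nat_lit 0) (nat_lit 0) (XT.lf (nat_lit 0) (nat_lit 17094148293) (nat_lit 252) (nat_lit 45491519798) (nat_lit 84) (nat_lit 4459378840) (nat_lit 6) (nat_lit 5) (nat_lit 9) (nat_lit 5) (nat_lit 7) (nat_lit 4) (nat_lit 405) (nat_lit 304) (nat_lit 152)) (XT.nd (nat_lit 94) (nat_lit 0) (nat_lit 0) (XT.lf (nat_lit 0) (nat_lit 20552121101) (nat_lit 252) (nat_lit 38491885572) (nat_lit 84) (nat_lit 9896621927) (nat_lit 6) (nat_lit 5)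 (nat_lit 9) (nat_lit 5) (nat_lit 7) (nat_lit 4) (nat_lit 406) (nat_lit 304) (nat_lit 151)) (XT.lf (nat_lit 0) (nat_lit 24114267634) (nat_lit 252) (nat_lit 31279967659) (nat_lit 84) (nat_lit 15500841023) (nat_lit 6) (nat_lit 5) (nat_lit 9) (nat_lit 5) (nat_lit 7) (nat_lit 4) (nat_lit 407) (nat_lit 304) (nat_lit 150))))))) (XT.nd (nat_lit 1128) (nat_lit 0) (nat_lit 0) (XT.nd (nat_lit 564) (nat_lit 0) (nat_lit 0) (XT.nd (nat_lit 282) (nat_lit 84) (nat_lit 0) (XT.nd (nat_lit 94) (nat_lit 0) (nat_lit 0) (XT.lf (nat_lit 0) (nat_lit 27783908186) (nat_lit 252) (nat_lit 23849043794) (nat_lit 84) (nat_lit 21277259848) (nat_lit 6) (nat_lit 5) (nat_lit 9) (nat_lit 5) (nat_lit 7) (nat_lit 4) (nat_lit 408) (nat_lit 304) (nat_lit 149)) (XT.nd (nat_lit 94) (nat_lit 0) (nat_lit 0) (XT.lf (nat_lit 0) (nat_lit 31564463246) (nat_lit 252) (nat_lit 16192187579) (nat_lit 84) (nat_lit 27231262629) (nat_lit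 6) (nat_lit 5) (nat_lit 9) (nat_lit 5) (nat_lit 7) (nat_lit 4) (nat_lit 409) (nat_lit 304) (nat_lit 148)) (XT.lf (nat_lit 0) (nat_lit 35459456688) (nat_lit 252) (nat_lit 8302262021) (nat_lit 84) (nat_lit 33368399120) (nat_lit 6) (nat_lit 5) (nat_lit 9) (nat_lit 5) (nat_lit 7) (nat_lit 4) (nat_lit 410) (nat_lit 304) (nat_lit 147)))) (XT.nd (nat_lit 94) (nat_lit 84) (nat_lit 0) (XT.lf (nat_lit 0) (nat_lit 39472519053) (nat_lit 252) (nat_lit 171912883) (nat_lit 84) (nat_lit 39694389775) (nat_lit 6) (nat_lit 5) (nat_lit 9) (nat_lit 5) (nat_lit 7) (nat_lit 4) (nat_lit 411) (nat_lit 304) (nat_lit 146)) (XT.nd (nat_lit 94) (nat_lit 0) (nat_lit 0) (XT.lf (nat_lit 0) (nat_lit 8375179371) (nat_lit 84) (nat_lit 35315294380) (nat_lit 168) (nat_lit 37923034525) (nat_lit 5) (nat_lit 5) (nat_lit 6) (nat_lit 5) (nat_lit 7) (nat_lit 4) (nat_lit 412) (nat_lit 304) (nat_lit 145)) (XT.lf (nat_lit 0) (nat_lit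 17186877932) (nat_lit 84) (nat_lit 30851544495) (nat_lit 168) (nat_lit 35920319073) (nat_lit 5) (nat_lit 5) (nat_lit 6) (nat_lit 5) (nat_lit 7) (nat_lit 4) (nat_lit 413) (nat_lit 304) (nat_lit 144))))) (XT.nd (nat_lit 282) (nat_lit 0) (nat_lit 0) (XT.nd (nat_lit 94) (nat_lit 0) (nat_lit 0) (XT.lf (nat_lit 0) (nat_lit 26267861345) (nat_lit 84) (nat_lit 26250816013) (nat_lit 168) (nat_lit 33858083981) (nat_lit 5) (nat_lit 5) (nat_lit 6) (nat_lit 5) (nat_lit 7) (nat_lit 4) (nat_lit 414) (nat_lit 304) (nat_lit 143)) (XT.nd (nat_lit 94) (nat_lit 0) (nat_lit 0) (XT.lf (nat_lit 0) (nat_lit 35626594037) (nat_lit 84) (nat_lit 21508820576) (nat_lit 168) (nat_lit 31734407030) (nat_lit 5) (nat_lit 5) (nat_lit 6) (nat_lit 5) (nat_lit 7) (nat_lit 4) (nat_lit 415) (nat_lit 304) (nat_lit 142)) (XT.lf (nat_lit 0) (nat_lit 45271799327) (nat_lit 84) (nat_lit 16621138147) (nat_lit 168) (nat_lit 29547308729)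 (nat_lit 5) (nat_lit 5) (nat_lit 6) (nat_lit 5) (nat_lit 7) (nat_lit 4) (nat_lit 416) (nat_lit 304) (nat_lit 141)))) (XT.nd (nat_lit 94) (nat_lit 0) (nat_lit 0) (XT.lf (nat_lit 0) (nat_lit 55212467557) (nat_lit 84) (nat_lit 11583212893) (nat_lit 168) (nat_lit 27294750474) (nat_lit 5) (nat_lit 5) (nat_lit 6) (nat_lit 5) (nat_lit 7) (nat_lit 4) (nat_lit 417) (nat_lit 304) (nat_lit 140)) (XT.nd (nat_lit 94) (nat_lit 0) (nat_lit 0) (XT.lf (nat_lit 0) (nat_lit 65457864471) (nat_lit 84) (nat_lit 6390348941) (nat_lit 168) (nat_lit 24974632645) (nat_lit 5) (nat_lit 5) (nat_lit 6) (nat_lit 5) (nat_lit 7) (nat_lit 4) (nat_lit 418) (nat_lit 304) (nat_lit 139)) (XT.lf (nat_lit 0) (nat_lit 76017539852) (nat_lit 84) (nat_lit 1037705996) (nat_lit 168) (nat_lit 22584792649) (nat_lit 5) (nat_lit 5) (nat_lit 6) (nat_lit 5) (nat_lit 7) (nat_lit 4) (nat_lit 419) (nat_lit 304) (nat_lit 138)))))) (XT.nd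 (nat_lit 43710) (nat_lit 0) (nat_lit 9492) (XT.nd (nat_lit 43428) (nat_lit 0) (nat_lit 9492) (XT.nd (nat_lit 43240) (nat_lit 0) (nat_lit 10332) (XT.lf (nat_lit 0) (nat_lit 82466070491) (nat_lit 168) (nat_lit 15687736971) (nat_lit 0) (nat_lit 4389449087) (nat_lit 5) (nat_lit 5) (nat_lit 7) (nat_lit 4) (nat_lit 5) (nat_lit 4) (nat_lit 420) (nat_lit 304) (nat_lit 137)) (XT.nd (nat_lit 94) (nat_lit 0) (nat_lit 0) (XT.lf (nat_lit 0) (nat_lit 1281490706) (nat_lit 0) (nat_lit 1281490706) (nat_lit 756) (nat_lit 1441684289) (nat_lit 128) (nat_lit 5) (nat_lit 128) (nat_lit 3) (nat_lit 137) (nat_lit 3) (nat_lit 305) (nat_lit 305) (nat_lit 251)) (XT.lf (nat_lit 0) (nat_lit 5543727976) (nat_lit 0) (nat_lit 629082198) (nat_lit 756) (nat_lit 1924445056) (nat_lit 128) (nat_lit 5) (nat_lit 128) (nat_lit 3) (nat_lit 137) (nat_lit 3) (nat_lit 306) (nat_lit 305) (nat_lit 250)))) (XT.nd (nat_lit 94) (nat_lit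 840) (nat_lit 0) (XT.lf (nat_lit 84) (nat_lit 402398003) (nat_lit 0) (nat_lit 6828453939) (nat_lit 840) (nat_lit 957962849) (nat_lit 129) (nat_lit 5) (nat_lit 128) (nat_lit 5) (nat_lit 138) (nat_lit 5) (nat_lit 307) (nat_lit 305) (nat_lit 249)) (XT.nd (nat_lit 94) (nat_lit 0) (nat_lit 0) (XT.lf (nat_lit 0) (nat_lit 32609986) (nat_lit 840) (nat_lit 4807341051) (nat_lit 924) (nat_lit 3443644006) (nat_lit 118) (nat_lit 5) (nat_lit 128) (nat_lit 5) (nat_lit 129) (nat_lit 5) (nat_lit 308) (nat_lit 305) (nat_lit 248)) (XT.lf (nat_lit 0) (nat_lit 996692458) (nat_lit 840) (nat_lit 1767008112) (nat_lit 924) (nat_lit 5618694580) (nat_lit 118) (nat_lit 5) (nat_lit 128) (nat_lit 5) (nat_lit 129) (nat_lit 5) (nat_lit 309) (nat_lit 305) (nat_lit 247))))) (XT.nd (nat_lit 282) (nat_lit 0) (nat_lit 84) (XT.nd (nat_lit 94) (nat_lit 0) (nat_lit 84) (XT.lf (nat_lit 84) (nat_lit 1374614465) (nat_lit 0)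 (nat_lit 593505888) (nat_lit 924) (nat_lit 6517058721) (nat_lit 119) (nat_lit 5) (nat_lit 118) (nat_lit 5) (nat_lit 129) (nat_lit 5) (nat_lit 310) (nat_lit 305) (nat_lit 246)) (XT.nd (nat_lit 94) (nat_lit 0) (nat_lit 0) (XT.lf (nat_lit 0) (nat_lit 2969458162) (nat_lit 840) (nat_lit 3977891395) (nat_lit 924) (nat_lit 1644021634) (nat_lit 119) (nat_lit 5) (nat_lit 129) (nat_lit 5) (nat_lit 130) (nat_lit 5) (nat_lit 311) (nat_lit 305) (nat_lit 245)) (XT.lf (nat_lit 0) (nat_lit 3973819092) (nat_lit 840) (nat_lit 775420748) (nat_lit 924) (nat_lit 3952693068) (nat_lit 119) (nat_lit 5) (nat_lit 129) (nat_lit 5) (nat_lit 130) (nat_lit 5) (nat_lit 312) (nat_lit 305) (nat_lit 244)))) (XT.nd (nat_lit 94) (nat_lit 0) (nat_lit 0) (XT.lf (nat_lit 84) (nat_lit 2557242764) (nat_lit 0) (nat_lit 2444377059) (nat_lit 924) (nat_lit 3814743560) (nat_lit 120) (nat_lit 5) (nat_lit 119) (nat_lit 5) (nat_lit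 130) (nat_lit 5) (nat_lit 313) (nat_lit 305) (nat_lit 243)) (XT.nd (nat_lit 94) (nat_lit 0) (nat_lit 84) (XT.lf (nat_lit 84) (nat_lit 5989259513) (nat_lit 0) (nat_lit 47844919) (nat_lit 924) (nat_lit 2898182979) (nat_lit 120) (nat_lit 5) (nat_lit 119) (nat_lit 5) (nat_lit 130) (nat_lit 5) (nat_lit 314) (nat_lit 305) (nat_lit 242)) (XT.lf (nat_lit 84) (nat_lit 433406722) (nat_lit 0) (nat_lit 6668430893) (nat_lit 924) (nat_lit 1956339640) (nat_lit 121) (nat_lit 5) (nat_lit 120) (nat_lit 5) (nat_lit 131) (nat_lit 5) (nat_lit 315) (nat_lit 305) (nat_lit 241))))))))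
noncomputable def xc129 : XT := (XT.nd (nat_lit 2256) (nat_lit 2688) (nat_lit 0) (XT.nd (nat_lit 1128) (nat_lit 2520) (nat_lit 0) (XT.nd (nat_lit 564) (nat_lit 1932) (nat_lit 0) (XT.nd (nat_lit 282) (nat_lit 0) (nat_lit 0) (XT.nd (nat_lit 94) (nat_lit 840) (nat_lit 0) (XT.lf (nat_lit 84) (nat_lit 3958711976) (nat_lit 0) (nat_lit 4241644202) (nat_lit 924) (nat_lit 984681411) (nat_lit 121) (nat_lit 5) (nat_lit 120) (nat_lit 5) (nat_lit 131) (nat_lit 5) (nat_lit 316) (nat_lit 305) (nat_lit 240)) (XT.nd (nat_lit 94) (nat_lit 840) (nat_lit 0) (XT.lf (nat_lit 84) (nat_lit 7573081827) (nat_lit 0) (nat_lit 1730306518) (nat_lit 924) (nat_lit 13537479) (nat_lit 121) (nat_lit 5) (nat_lit 120) (nat_lit 5) (nat_lit 131) (nat_lit 5) (nat_lit 317) (nat_lit 305) (nat_lit 239)) (XT.lf (nat_lit 0) (nat_lit 965980624) (nat_lit 924) (nat_lit 7608229240) (nat_lit 1008) (nat_lit 878614595) (nat_lit 110)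 (nat_lit 5) (nat_lit 121) (nat_lit 5) (nat_lit 122) (nat_lit 5) (nat_lit 318) (nat_lit 305) (nat_lit 238)))) (XT.nd (nat_lit 94) (nat_lit 0) (nat_lit 0) (XT.lf (nat_lit 0) (nat_lit 1983309348) (nat_lit 924) (nat_lit 4050449186) (nat_lit 1008) (nat_lit 3559097367) (nat_lit 110) (nat_lit 5) (nat_lit 121) (nat_lit 5) (nat_lit 122) (nat_lit 5) (nat_lit 319) (nat_lit 305) (nat_lit 237)) (XT.nd (nat_lit 94) (nat_lit 0) (nat_lit 0) (XT.lf (nat_lit 0) (nat_lit 3004669420) (nat_lit 924) (nat_lit 403038029) (nat_lit 1008) (nat_lit 6330532393) (nat_lit 110) (nat_lit 5) (nat_lit 121) (nat_lit 5) (nat_lit 122) (nat_lit 5) (nat_lit 320) (nat_lit 305) (nat_lit 236)) (XT.lf (nat_lit 84) (nat_lit 3406027868) (nat_lit 0) (nat_lit 658773206) (nat_lit 1008) (nat_lit 5823263290) (nat_lit 111) (nat_lit 5) (nat_lit 110) (nat_lit 5) (nat_lit 122) (nat_lit 5) (nat_lit 321) (nat_lit 305) (nat_lit 235))))) (XT.nd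 (nat_lit 282) (nat_lit 1092) (nat_lit 0) (XT.nd (nat_lit 94) (nat_lit 924) (nat_lit 0) (XT.lf (nat_lit 0) (nat_lit 5157615223) (nat_lit 924) (nat_lit 2743162661) (nat_lit 84) (nat_lit 2141910627) (nat_lit 111) (nat_lit 5) (nat_lit 122) (nat_lit 5) (nat_lit 112) (nat_lit 5) (nat_lit 322) (nat_lit 305) (nat_lit 234)) (XT.nd (nat_lit 94) (nat_lit 0) (nat_lit 0) (XT.lf (nat_lit 0) (nat_lit 1106952688) (nat_lit 924) (nat_lit 5169843319) (nat_lit 1008) (nat_lit 3925687772) (nat_lit 100) (nat_lit 5) (nat_lit 111) (nat_lit 5) (nat_lit 112) (nat_lit 5) (nat_lit 323) (nat_lit 305) (nat_lit 233)) (XT.lf (nat_lit 0) (nat_lit 5114551513) (nat_lit 924) (nat_lit 2320083421) (nat_lit 1008) (nat_lit 2932615482) (nat_lit 100) (nat_lit 5) (nat_lit 111) (nat_lit 5) (nat_lit 112) (nat_lit 5) (nat_lit 324) (nat_lit 305) (nat_lit 232)))) (XT.nd (nat_lit 94) (nat_lit 1092) (nat_lit 0) (XT.lf (nat_lit 0) (nat_lit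 8610614700) (nat_lit 1008) (nat_lit 1317214197) (nat_lit 84) (nat_lit 609982597) (nat_lit 100) (nat_lit 5) (nat_lit 112) (nat_lit 5) (nat_lit 101) (nat_lit 5) (nat_lit 325) (nat_lit 305) (nat_lit 231)) (XT.nd (nat_lit 94) (nat_lit 84) (nat_lit 0) (XT.lf (nat_lit 0) (nat_lit 2752260719) (nat_lit 1008) (nat_lit 7098655998) (nat_lit 1092) (nat_lit 862011634) (nat_lit 88) (nat_lit 5) (nat_lit 100) (nat_lit 5) (nat_lit 101) (nat_lit 5) (nat_lit 326) (nat_lit 305) (nat_lit 230)) (XT.lf (nat_lit 0) (nat_lit 222305503) (nat_lit 1092) (nat_lit 3939848417) (nat_lit 84) (nat_lit 6731654727) (nat_lit 87) (nat_lit 5) (nat_lit 100) (nat_lit 5) (nat_lit 88) (nat_lit 5) (nat_lit 327) (nat_lit 305) (nat_lit 229)))))) (XT.nd (nat_lit 564) (nat_lit 1428) (nat_lit 0) (XT.nd (nat_lit 282) (nat_lit 504) (nat_lit 0) (XT.nd (nat_lit 94) (nat_lit 0) (nat_lit 0) (XT.lf (nat_lit 0) (nat_lit 180919536) (nat_lit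 588) (nat_lit 1120878211) (nat_lit 672) (nat_lit 9778982376) (nat_lit 80) (nat_lit 5) (nat_lit 87) (nat_lit 5) (nat_lit 88) (nat_lit 5) (nat_lit 328) (nat_lit 305) (nat_lit 228)) (XT.nd (nat_lit 94) (nat_lit 0) (nat_lit 0) (XT.lf (nat_lit 0) (nat_lit 2454461782) (nat_lit 672) (nat_lit 6799872398) (nat_lit 84) (nat_lit 2018099657) (nat_lit 80) (nat_lit 5) (nat_lit 88) (nat_lit 5) (nat_lit 81) (nat_lit 5) (nat_lit 329) (nat_lit 305) (nat_lit 227)) (XT.lf (nat_lit 0) (nat_lit 3633155664) (nat_lit 672) (nat_lit 2603789830) (nat_lit 84) (nat_lit 5233497641) (nat_lit 80) (nat_lit 5) (nat_lit 88) (nat_lit 5) (nat_lit 81) (nat_lit 5) (nat_lit 330) (nat_lit 305) (nat_lit 226)))) (XT.nd (nat_lit 94) (nat_lit 0) (nat_lit 0) (XT.lf (nat_lit 0) (nat_lit 1738443311) (nat_lit 504) (nat_lit 3106661068) (nat_lit 588) (nat_lit 6829698288) (nat_lit 74) (nat_lit 5) (nat_lit 80) (nat_lit 5) (nat_lit 81)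 (nat_lit 5) (nat_lit 331) (nat_lit 305) (nat_lit 225)) (XT.nd (nat_lit 94) (nat_lit 0) (nat_lit 0) (XT.lf (nat_lit 0) (nat_lit 6103190883) (nat_lit 588) (nat_lit 5635150116) (nat_lit 84) (nat_lit 146997567) (nat_lit 74) (nat_lit 5) (nat_lit 81) (nat_lit 5) (nat_lit 75) (nat_lit 5) (nat_lit 332) (nat_lit 305) (nat_lit 224)) (XT.lf (nat_lit 0) (nat_lit 7412570039) (nat_lit 588) (nat_lit 1251295750) (nat_lit 84) (nat_lit 3438257837) (nat_lit 74) (nat_lit 5) (nat_lit 81) (nat_lit 5) (nat_lit 75) (nat_lit 5) (nat_lit 333) (nat_lit 305) (nat_lit 223))))) (XT.nd (nat_lit 282) (nat_lit 504) (nat_lit 0) (XT.nd (nat_lit 94) (nat_lit 420) (nat_lit 0) (XT.lf (nat_lit 0) (nat_lit 3316937310) (nat_lit 504) (nat_lit 5459610982) (nat_lit 588) (nat_lit 3548746955) (nat_lit 68) (nat_lit 5) (nat_lit 74) (nat_lit 5) (nat_lit 75) (nat_lit 5) (nat_lit 334) (nat_lit 305) (nat_lit 222)) (XT.nd (nat_lit 94)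 (nat_lit 420) (nat_lit 0) (XT.lf (nat_lit 0) (nat_lit 8035148498) (nat_lit 504) (nat_lit 2142214227) (nat_lit 588) (nat_lit 2378288787) (nat_lit 68) (nat_lit 5) (nat_lit 74) (nat_lit 5) (nat_lit 75) (nat_lit 5) (nat_lit 335) (nat_lit 305) (nat_lit 221)) (XT.lf (nat_lit 0) (nat_lit 77078123) (nat_lit 420) (nat_lit 11540018744) (nat_lit 504) (nat_lit 1176286156) (nat_lit 63) (nat_lit 5) (nat_lit 68) (nat_lit 5) (nat_lit 69) (nat_lit 5) (nat_lit 336) (nat_lit 305) (nat_lit 220)))) (XT.nd (nat_lit 94) (nat_lit 420) (nat_lit 0) (XT.lf (nat_lit 0) (nat_lit 113429078) (nat_lit 504) (nat_lit 8165565316) (nat_lit 84) (nat_lit 4757956082) (nat_lit 62) (nat_lit 5) (nat_lit 68) (nat_lit 5) (nat_lit 63) (nat_lit 5) (nat_lit 337) (nat_lit 305) (nat_lit 219)) (XT.nd (nat_lit 94) (nat_lit 420) (nat_lit 0) (XT.lf (nat_lit 0) (nat_lit 1401370419) (nat_lit 504) (nat_lit 3503769129) (nat_lit 84) (nat_lit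 8383179227) (nat_lit 62) (nat_lit 5) (nat_lit 68) (nat_lit 5) (nat_lit 63) (nat_lit 5) (nat_lit 338) (nat_lit 305) (nat_lit 218)) (XT.lf (nat_lit 0) (nat_lit 1311522094) (nat_lit 420) (nat_lit 1413926274) (nat_lit 504) (nat_lit 10822232264) (nat_lit 57) (nat_lit 5) (nat_lit 62) (nat_lit 5) (nat_lit 63) (nat_lit 5) (nat_lit 339) (nat_lit 305) (nat_lit 217))))))) (XT.nd (nat_lit 1128) (nat_lit 1176) (nat_lit 0) (XT.nd (nat_lit 564) (nat_lit 756) (nat_lit 0) (XT.nd (nat_lit 282) (nat_lit 420) (nat_lit 0) (XT.nd (nat_lit 94) (nat_lit 336) (nat_lit 0) (XT.lf (nat_lit 0) (nat_lit 4132725368) (nat_lit 504) (nat_lit 7503490105) (nat_lit 84) (nat_lit 2177641651) (nat_lit 57) (nat_lit 5) (nat_lit 63) (nat_lit 5) (nat_lit 58) (nat_lit 5) (nat_lit 340) (nat_lit 305) (nat_lit 216)) (XT.nd (nat_lit 94) (nat_lit 336) (nat_lit 0) (XT.lf (nat_lit 0) (nat_lit 5582110284) (nat_lit 504) (nat_lit 2655885243)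 (nat_lit 84) (nat_lit 5850415316) (nat_lit 57) (nat_lit 5) (nat_lit 63) (nat_lit 5) (nat_lit 58) (nat_lit 5) (nat_lit 341) (nat_lit 305) (nat_lit 215)) (XT.lf (nat_lit 0) (nat_lit 2373011744) (nat_lit 336) (nat_lit 4711456598) (nat_lit 420) (nat_lit 7286834421) (nat_lit 53) (nat_lit 5) (nat_lit 57) (nat_lit 5) (nat_lit 58) (nat_lit 5) (nat_lit 342) (nat_lit 305) (nat_lit 214)))) (XT.nd (nat_lit 94) (nat_lit 420) (nat_lit 0) (XT.lf (nat_lit 0) (nat_lit 7597483416) (nat_lit 336) (nat_lit 1048440804) (nat_lit 420) (nat_lit 6016725893) (nat_lit 53) (nat_lit 5) (nat_lit 57) (nat_lit 5) (nat_lit 58) (nat_lit 5) (nat_lit 343) (nat_lit 305) (nat_lit 213)) (XT.nd (nat_lit 94) (nat_lit 420) (nat_lit 0) (XT.lf (nat_lit 0) (nat_lit 10268094546) (nat_lit 420) (nat_lit 2022818561) (nat_lit 84) (nat_lit 2671806355) (nat_lit 53) (nat_lit 5) (nat_lit 58) (nat_lit 5) (nat_lit 54) (nat_lit 5) (nat_lit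 344) (nat_lit 305) (nat_lit 212)) (XT.lf (nat_lit 0) (nat_lit 3213729421) (nat_lit 420) (nat_lit 8755115974) (nat_lit 504) (nat_lit 3302438138) (nat_lit 48) (nat_lit 5) (nat_lit 53) (nat_lit 5) (nat_lit 54) (nat_lit 5) (nat_lit 345) (nat_lit 305) (nat_lit 211))))) (XT.nd (nat_lit 282) (nat_lit 336) (nat_lit 0) (XT.nd (nat_lit 94) (nat_lit 420) (nat_lit 0) (XT.lf (nat_lit 0) (nat_lit 8639517129) (nat_lit 420) (nat_lit 5089877834) (nat_lit 504) (nat_lit 1859866352) (nat_lit 48) (nat_lit 5) (nat_lit 53) (nat_lit 5) (nat_lit 54) (nat_lit 5) (nat_lit 346) (nat_lit 305) (nat_lit 210)) (XT.nd (nat_lit 94) (nat_lit 420) (nat_lit 0) (XT.lf (nat_lit 0) (nat_lit 14218008668) (nat_lit 420) (nat_lit 1312896381) (nat_lit 504) (nat_lit 386679009) (nat_lit 48) (nat_lit 5) (nat_lit 53) (nat_lit 5) (nat_lit 54) (nat_lit 5) (nat_lit 347) (nat_lit 305) (nat_lit 209)) (XT.lf (nat_lit 0) (nat_lit 1159369560)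 (nat_lit 420) (nat_lit 12518581936) (nat_lit 84) (nat_lit 2576296690) (nat_lit 43) (nat_lit 5) (nat_lit 48) (nat_lit 5) (nat_lit 44) (nat_lit 5) (nat_lit 348) (nat_lit 305) (nat_lit 208)))) (XT.nd (nat_lit 94) (nat_lit 336) (nat_lit 0) (XT.lf (nat_lit 0) (nat_lit 2763490023) (nat_lit 420) (nat_lit 7258591033) (nat_lit 84) (nat_lit 6578641570) (nat_lit 43) (nat_lit 5) (nat_lit 48) (nat_lit 5) (nat_lit 44) (nat_lit 5) (nat_lit 349) (nat_lit 305) (nat_lit 207)) (XT.nd (nat_lit 94) (nat_lit 336) (nat_lit 0) (XT.lf (nat_lit 0) (nat_lit 4404561554) (nat_lit 420) (nat_lit 1850728059) (nat_lit 84) (nat_lit 10703102239) (nat_lit 43) (nat_lit 5) (nat_lit 48) (nat_lit 5) (nat_lit 44) (nat_lit 5) (nat_lit 350) (nat_lit 305) (nat_lit 206)) (XT.lf (nat_lit 0) (nat_lit 3786333869) (nat_lit 336) (nat_lit 2335340836) (nat_lit 420) (nat_lit 11204750157) (nat_lit 39) (nat_lit 5) (nat_lit 43) (nat_lit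 5) (nat_lit 44) (nat_lit 5) (nat_lit 351) (nat_lit 305) (nat_lit 205)))))) (XT.nd (nat_lit 564) (nat_lit 588) (nat_lit 0) (XT.nd (nat_lit 282) (nat_lit 336) (nat_lit 0) (XT.nd (nat_lit 94) (nat_lit 252) (nat_lit 0) (XT.lf (nat_lit 0) (nat_lit 7916270214) (nat_lit 420) (nat_lit 8100000958) (nat_lit 84) (nat_lit 1688898480) (nat_lit 39) (nat_lit 5) (nat_lit 44) (nat_lit 5) (nat_lit 40) (nat_lit 5) (nat_lit 352) (nat_lit 305) (nat_lit 204)) (XT.nd (nat_lit 94) (nat_lit 252) (nat_lit 0) (XT.lf (nat_lit 0) (nat_lit 9778561194) (nat_lit 420) (nat_lit 2529692006) (nat_lit 84) (nat_lit 5787081304) (nat_lit 39) (nat_lit 5) (nat_lit 44) (nat_lit 5) (nat_lit 40) (nat_lit 5) (nat_lit 353) (nat_lit 305) (nat_lit 203)) (XT.lf (nat_lit 0) (nat_lit 3264976851) (nat_lit 252) (nat_lit 8454528749) (nat_lit 336) (nat_lit 6777491606) (nat_lit 36) (nat_lit 5) (nat_lit 39) (nat_lit 5) (nat_lit 40) (nat_lit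 5) (nat_lit 354) (nat_lit 305) (nat_lit 202)))) (XT.nd (nat_lit 94) (nat_lit 336) (nat_lit 0) (XT.lf (nat_lit 0) (nat_lit 9278949672) (nat_lit 252) (nat_lit 4456814139) (nat_lit 336) (nat_lit 5174927950) (nat_lit 36) (nat_lit 5) (nat_lit 39) (nat_lit 5) (nat_lit 40) (nat_lit 5) (nat_lit 355) (nat_lit 305) (nat_lit 201)) (XT.nd (nat_lit 94) (nat_lit 336) (nat_lit 0) (XT.lf (nat_lit 0) (nat_lit 15465816453) (nat_lit 252) (nat_lit 337787878) (nat_lit 336) (nat_lit 3533993381) (nat_lit 36) (nat_lit 5) (nat_lit 39) (nat_lit 5) (nat_lit 40) (nat_lit 5) (nat_lit 356) (nat_lit 305) (nat_lit 200)) (XT.lf (nat_lit 0) (nat_lit 2055900976) (nat_lit 336) (nat_lit 15928200287) (nat_lit 420) (nat_lit 1792178172) (nat_lit 32) (nat_lit 5) (nat_lit 36) (nat_lit 5) (nat_lit 37) (nat_lit 5) (nat_lit 357) (nat_lit 305) (nat_lit 199))))) (XT.nd (nat_lit 282) (nat_lit 504) (nat_lit 0) (XT.nd (nat_lit 94)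 (nat_lit 0) (nat_lit 0) (XT.lf (nat_lit 0) (nat_lit 37258859) (nat_lit 420) (nat_lit 11995397865) (nat_lit 84) (nat_lit 8194901856) (nat_lit 31) (nat_lit 5) (nat_lit 36) (nat_lit 5) (nat_lit 32) (nat_lit 5) (nat_lit 358) (nat_lit 305) (nat_lit 198)) (XT.nd (nat_lit 94) (nat_lit 0) (nat_lit 0) (XT.lf (nat_lit 0) (nat_lit 1875916075) (nat_lit 420) (nat_lit 6124470822) (nat_lit 84) (nat_lit 12692233204) (nat_lit 31) (nat_lit 5) (nat_lit 36) (nat_lit 5) (nat_lit 32) (nat_lit 5) (nat_lit 359) (nat_lit 305) (nat_lit 197)) (XT.lf (nat_lit 0) (nat_lit 3761615691) (nat_lit 420) (nat_lit 84346382) (nat_lit 84) (nat_lit 17326486547) (nat_lit 31) (nat_lit 5) (nat_lit 36) (nat_lit 5) (nat_lit 32) (nat_lit 5) (nat_lit 360) (nat_lit 305) (nat_lit 196)))) (XT.nd (nat_lit 188) (nat_lit 252) (nat_lit 0) (XT.nd (nat_lit 94) (nat_lit 0) (nat_lit 0) (XT.lf (nat_lit 0) (nat_lit 5763127245) (nat_lit 336)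 (nat_lit 15413849003) (nat_lit 84) (nat_lit 488437771) (nat_lit 28) (nat_lit 5) (nat_lit 32) (nat_lit 5) (nat_lit 29) (nat_lit 5) (nat_lit 361) (nat_lit 305) (nat_lit 195)) (XT.lf (nat_lit 0) (nat_lit 7857394220) (nat_lit 336) (nat_lit 9439896496) (nat_lit 84) (nat_lit 4875457667) (nat_lit 28) (nat_lit 5) (nat_lit 32) (nat_lit 5) (nat_lit 29) (nat_lit 5) (nat_lit 362) (nat_lit 305) (nat_lit 194))) (XT.nd (nat_lit 94) (nat_lit 252) (nat_lit 0) (XT.lf (nat_lit 0) (nat_lit 10007353606) (nat_lit 336) (nat_lit 3292968785) (nat_lit 84) (nat_lit 9395811675) (nat_lit 28) (nat_lit 5) (nat_lit 32) (nat_lit 5) (nat_lit 29) (nat_lit 5) (nat_lit 363) (nat_lit 305) (nat_lit 193)) (XT.lf (nat_lit 0) (nat_lit 3095021497) (nat_lit 252) (nat_lit 9150690890) (nat_lit 336) (nat_lit 10989394739) (nat_lit 25) (nat_lit 5) (nat_lit 28) (nat_lit 5) (nat_lit 29) (nat_lit 5) (nat_lit 364) (nat_lit 305) (nat_lit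 192))))))))
noncomputable def xc130 : XT := (XT.nd (nat_lit 2256) (nat_lit 588) (nat_lit 0) (XT.nd (nat_lit 1128) (nat_lit 420) (nat_lit 0) (XT.nd (nat_lit 564) (nat_lit 420) (nat_lit 0) (XT.nd (nat_lit 282) (nat_lit 252) (nat_lit 0) (XT.nd (nat_lit 94) (nat_lit 0) (nat_lit 0) (XT.lf (nat_lit 0) (nat_lit 9739118682) (nat_lit 252) (nat_lit 4839913921) (nat_lit 336) (nat_lit 9210998593) (nat_lit 25) (nat_lit 5) (nat_lit 28) (nat_lit 5) (nat_lit 29) (nat_lit 5) (nat_lit 365) (nat_lit 305) (nat_lit 191)) (XT.nd (nat_lit 94) (nat_lit 0) (nat_lit 0) (XT.lf (nat_lit 0) (nat_lit 16577805573) (nat_lit 252) (nat_lit 398345229) (nat_lit 336) (nat_lit 7386306211) (nat_lit 25) (nat_lit 5) (nat_lit 28) (nat_lit 5) (nat_lit 29) (nat_lit 5) (nat_lit 366) (nat_lit 305) (nat_lit 190)) (XT.lf (nat_lit 0) (nat_lit 19480749166) (nat_lit 336) (nat_lit 1376909413) (nat_lit 84) (nat_lit 4093974677) (nat_lit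 25) (nat_lit 5) (nat_lit 29) (nat_lit 5) (nat_lit 26) (nat_lit 5) (nat_lit 367) (nat_lit 305) (nat_lit 189)))) (XT.nd (nat_lit 94) (nat_lit 84) (nat_lit 0) (XT.lf (nat_lit 0) (nat_lit 5321659798) (nat_lit 168) (nat_lit 16790140007) (nat_lit 252) (nat_lit 3445793528) (nat_lit 23) (nat_lit 5) (nat_lit 25) (nat_lit 5) (nat_lit 26) (nat_lit 5) (nat_lit 368) (nat_lit 305) (nat_lit 188)) (XT.nd (nat_lit 94) (nat_lit 84) (nat_lit 0) (XT.lf (nat_lit 0) (nat_lit 12246227087) (nat_lit 168) (nat_lit 12584636726) (nat_lit 252) (nat_lit 1351305883) (nat_lit 23) (nat_lit 5) (nat_lit 25) (nat_lit 5) (nat_lit 26) (nat_lit 5) (nat_lit 369) (nat_lit 305) (nat_lit 187)) (XT.lf (nat_lit 0) (nat_lit 784037594) (nat_lit 252) (nat_lit 7459379537) (nat_lit 84) (nat_lit 18582713454) (nat_lit 22) (nat_lit 5) (nat_lit 25) (nat_lit 5) (nat_lit 23) (nat_lit 5) (nat_lit 370) (nat_lit 305) (nat_lit 186))))) (XT.nd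 (nat_lit 282) (nat_lit 168) (nat_lit 0) (XT.nd (nat_lit 94) (nat_lit 252) (nat_lit 0) (XT.lf (nat_lit 0) (nat_lit 2949949546) (nat_lit 252) (nat_lit 806252644) (nat_lit 84) (nat_lit 23733686649) (nat_lit 22) (nat_lit 5) (nat_lit 25) (nat_lit 5) (nat_lit 23) (nat_lit 5) (nat_lit 371) (nat_lit 305) (nat_lit 185)) (XT.nd (nat_lit 94) (nat_lit 0) (nat_lit 0) (XT.lf (nat_lit 0) (nat_lit 5246085180) (nat_lit 336) (nat_lit 22014510275) (nat_lit 84) (nat_lit 911700527) (nat_lit 19) (nat_lit 5) (nat_lit 23) (nat_lit 5) (nat_lit 20) (nat_lit 5) (nat_lit 372) (nat_lit 305) (nat_lit 184)) (XT.lf (nat_lit 0) (nat_lit 7653083704) (nat_lit 336) (nat_lit 15569496299) (nat_lit 84) (nat_lit 5652074618) (nat_lit 19) (nat_lit 5) (nat_lit 23) (nat_lit 5) (nat_lit 20) (nat_lit 5) (nat_lit 373) (nat_lit 305) (nat_lit 183)))) (XT.nd (nat_lit 94) (nat_lit 168) (nat_lit 0) (XT.lf (nat_lit 0) (nat_lit 10127680635)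 (nat_lit 336) (nat_lit 8934577902) (nat_lit 84) (nat_lit 10536771641) (nat_lit 19) (nat_lit 5) (nat_lit 23) (nat_lit 5) (nat_lit 20) (nat_lit 5) (nat_lit 374) (nat_lit 305) (nat_lit 182)) (XT.nd (nat_lit 94) (nat_lit 168) (nat_lit 0) (XT.lf (nat_lit 0) (nat_lit 12672182556) (nat_lit 336) (nat_lit 2103570646) (nat_lit 84) (nat_lit 15570344645) (nat_lit 19) (nat_lit 5) (nat_lit 23) (nat_lit 5) (nat_lit 20) (nat_lit 5) (nat_lit 375) (nat_lit 305) (nat_lit 181)) (XT.lf (nat_lit 0) (nat_lit 5031261389) (nat_lit 168) (nat_lit 10307610555) (nat_lit 252) (nat_lit 15776134794) (nat_lit 17) (nat_lit 5) (nat_lit 19) (nat_lit 5) (nat_lit 20) (nat_lit 5) (nat_lit 376) (nat_lit 305) (nat_lit 180)))))) (XT.nd (nat_lit 564) (nat_lit 252) (nat_lit 0) (XT.nd (nat_lit 282) (nat_lit 168) (nat_lit 0) (XT.nd (nat_lit 94) (nat_lit 0) (nat_lit 0) (XT.lf (nat_lit 0) (nat_lit 12422656865) (nat_lit 168) (nat_lit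 5681033135) (nat_lit 252) (nat_lit 13803606435) (nat_lit 17) (nat_lit 5) (nat_lit 19) (nat_lit 5) (nat_lit 20) (nat_lit 5) (nat_lit 377) (nat_lit 305) (nat_lit 179)) (XT.nd (nat_lit 94) (nat_lit 0) (nat_lit 0) (XT.lf (nat_lit 0) (nat_lit 20034251611) (nat_lit 168) (nat_lit 913665448) (nat_lit 252) (nat_lit 11776448575) (nat_lit 17) (nat_lit 5) (nat_lit 19) (nat_lit 5) (nat_lit 20) (nat_lit 5) (nat_lit 378) (nat_lit 305) (nat_lit 178)) (XT.lf (nat_lit 0) (nat_lit 23913874182) (nat_lit 252) (nat_lit 5733505443) (nat_lit 84) (nat_lit 3918366537) (nat_lit 17) (nat_lit 5) (nat_lit 20) (nat_lit 5) (nat_lit 18) (nat_lit 5) (nat_lit 379) (nat_lit 305) (nat_lit 177)))) (XT.nd (nat_lit 94) (nat_lit 0) (nat_lit 0) (XT.lf (nat_lit 0) (nat_lit 1450042668) (nat_lit 168) (nat_lit 25539510803) (nat_lit 252) (nat_lit 7443126747) (nat_lit 15) (nat_lit 5) (nat_lit 17) (nat_lit 5) (nat_lit 18) (nat_lit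 5) (nat_lit 380) (nat_lit 305) (nat_lit 176)) (XT.nd (nat_lit 94) (nat_lit 0) (nat_lit 0) (XT.lf (nat_lit 0) (nat_lit 8969329184) (nat_lit 168) (nat_lit 21245238565) (nat_lit 252) (nat_lit 5110269004) (nat_lit 15) (nat_lit 5) (nat_lit 17) (nat_lit 5) (nat_lit 18) (nat_lit 5) (nat_lit 381) (nat_lit 305) (nat_lit 175)) (XT.lf (nat_lit 0) (nat_lit 16713470234) (nat_lit 168) (nat_lit 16820406238) (nat_lit 252) (nat_lit 2710970319) (nat_lit 15) (nat_lit 5) (nat_lit 17) (nat_lit 5) (nat_lit 18) (nat_lit 5) (nat_lit 382) (nat_lit 305) (nat_lit 174))))) (XT.nd (nat_lit 282) (nat_lit 0) (nat_lit 0) (XT.nd (nat_lit 94) (nat_lit 252) (nat_lit 0) (XT.lf (nat_lit 0) (nat_lit 24689684170) (nat_lit 168) (nat_lit 12260889415) (nat_lit 252) (nat_lit 242994297) (nat_lit 15) (nat_lit 5) (nat_lit 17) (nat_lit 5) (nat_lit 18) (nat_lit 5) (nat_lit 383) (nat_lit 305) (nat_lit 173)) (XT.nd (nat_lit 94) (nat_lit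 168) (nat_lit 0) (XT.lf (nat_lit 0) (nat_lit 2249701008) (nat_lit 252) (nat_lit 5289254876) (nat_lit 84) (nat_lit 30632222386) (nat_lit 14) (nat_lit 5) (nat_lit 17) (nat_lit 5) (nat_lit 15) (nat_lit 5) (nat_lit 384) (nat_lit 305) (nat_lit 172)) (XT.lf (nat_lit 0) (nat_lit 2182874104) (nat_lit 168) (nat_lit 2648147394) (nat_lit 252) (nat_lit 34347505844) (nat_lit 12) (nat_lit 5) (nat_lit 14) (nat_lit 5) (nat_lit 15) (nat_lit 5) (nat_lit 385) (nat_lit 305) (nat_lit 171)))) (XT.nd (nat_lit 94) (nat_lit 0) (nat_lit 0) (XT.lf (nat_lit 0) (nat_lit 7566692000) (nat_lit 252) (nat_lit 30248665314) (nat_lit 84) (nat_lit 2399460353) (nat_lit 12) (nat_lit 5) (nat_lit 15) (nat_lit 5) (nat_lit 13) (nat_lit 5) (nat_lit 386) (nat_lit 305) (nat_lit 170)) (XT.nd (nat_lit 94) (nat_lit 0) (nat_lit 0) (XT.lf (nat_lit 0) (nat_lit 10409212769) (nat_lit 252) (nat_lit 23327097702) (nat_lit 84) (nat_lit 7546256247)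 (nat_lit 12) (nat_lit 5) (nat_lit 15) (nat_lit 5) (nat_lit 13) (nat_lit 5) (nat_lit 387) (nat_lit 305) (nat_lit 169)) (XT.lf (nat_lit 0) (nat_lit 13334963384) (nat_lit 252) (nat_lit 16198228825) (nat_lit 84) (nat_lit 12850391907) (nat_lit 12) (nat_lit 5) (nat_lit 15) (nat_lit 5) (nat_lit 13) (nat_lit 5) (nat_lit 388) (nat_lit 305) (nat_lit 168))))))) (XT.nd (nat_lit 1128) (nat_lit 336) (nat_lit 0) (XT.nd (nat_lit 564) (nat_lit 84) (nat_lit 0) (XT.nd (nat_lit 282) (nat_lit 0) (nat_lit 0) (XT.nd (nat_lit 94) (nat_lit 168) (nat_lit 0) (XT.lf (nat_lit 0) (nat_lit 16346670950) (nat_lit 252) (nat_lit 8855413831) (nat_lit 84) (nat_lit 18316811343) (nat_lit 12) (nat_lit 5) (nat_lit 15) (nat_lit 5) (nat_lit 13) (nat_lit 5) (nat_lit 389) (nat_lit 305) (nat_lit 167)) (XT.nd (nat_lit 94) (nat_lit 168) (nat_lit 0) (XT.lf (nat_lit 0) (nat_lit 19447142694) (nat_lit 252) (nat_lit 1291808447) (nat_lit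 84) (nat_lit 23950609832) (nat_lit 12) (nat_lit 5) (nat_lit 15) (nat_lit 5) (nat_lit 13) (nat_lit 5) (nat_lit 390) (nat_lit 305) (nat_lit 166)) (XT.lf (nat_lit 0) (nat_lit 6633283273) (nat_lit 168) (nat_lit 16071788299) (nat_lit 252) (nat_lit 23189558382) (nat_lit 10) (nat_lit 5) (nat_lit 12) (nat_lit 5) (nat_lit 13) (nat_lit 5) (nat_lit 391) (nat_lit 305) (nat_lit 165)))) (XT.nd (nat_lit 94) (nat_lit 0) (nat_lit 0) (XT.lf (nat_lit 0) (nat_lit 14824874329) (nat_lit 168) (nat_lit 11248214266) (nat_lit 252) (nat_lit 21063700297) (nat_lit 10) (nat_lit 5) (nat_lit 12) (nat_lit 5) (nat_lit 13) (nat_lit 5) (nat_lit 392) (nat_lit 305) (nat_lit 164)) (XT.nd (nat_lit 94) (nat_lit 0) (nat_lit 0) (XT.lf (nat_lit 0) (nat_lit 23264037910) (nat_lit 168) (nat_lit 6277216796) (nat_lit 252) (nat_lit 18876346334) (nat_lit 10) (nat_lit 5) (nat_lit 12) (nat_lit 5) (nat_lit 13) (nat_lit 5) (nat_lit 393)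 (nat_lit 305) (nat_lit 163)) (XT.lf (nat_lit 0) (nat_lit 31958640200) (nat_lit 168) (nat_lit 1154162400) (nat_lit 252) (nat_lit 16625457650) (nat_lit 10) (nat_lit 5) (nat_lit 12) (nat_lit 5) (nat_lit 13) (nat_lit 5) (nat_lit 394) (nat_lit 305) (nat_lit 162))))) (XT.nd (nat_lit 282) (nat_lit 0) (nat_lit 0) (XT.nd (nat_lit 94) (nat_lit 84) (nat_lit 0) (XT.lf (nat_lit 0) (nat_lit 36831989028) (nat_lit 252) (nat_lit 10224139729) (nat_lit 84) (nat_lit 4042599998) (nat_lit 10) (nat_lit 5) (nat_lit 13) (nat_lit 5) (nat_lit 11) (nat_lit 4) (nat_lit 395) (nat_lit 305) (nat_lit 161)) (XT.nd (nat_lit 94) (nat_lit 84) (nat_lit 0) (XT.lf (nat_lit 0) (nat_lit 40674368867) (nat_lit 252) (nat_lit 2452167874) (nat_lit 84) (nat_lit 9374603180) (nat_lit 10) (nat_lit 5) (nat_lit 13) (nat_lit 5) (nat_lit 11) (nat_lit 4) (nat_lit 396) (nat_lit 305) (nat_lit 160)) (XT.lf (nat_lit 0) (nat_lit 5669211211)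 (nat_lit 84) (nat_lit 39019102250) (nat_lit 168) (nat_lit 9257098997) (nat_lit 9) (nat_lit 5) (nat_lit 10) (nat_lit 5) (nat_lit 11) (nat_lit 4) (nat_lit 397) (nat_lit 305) (nat_lit 159)))) (XT.nd (nat_lit 94) (nat_lit 0) (nat_lit 0) (XT.lf (nat_lit 0) (nat_lit 14088650023) (nat_lit 84) (nat_lit 34759905104) (nat_lit 168) (nat_lit 6585236732) (nat_lit 9) (nat_lit 5) (nat_lit 10) (nat_lit 5) (nat_lit 11) (nat_lit 4) (nat_lit 398) (nat_lit 305) (nat_lit 158)) (XT.nd (nat_lit 94) (nat_lit 0) (nat_lit 0) (XT.lf (nat_lit 0) (nat_lit 22763574759) (nat_lit 84) (nat_lit 30370570891) (nat_lit 168) (nat_lit 3834289407) (nat_lit 9) (nat_lit 5) (nat_lit 10) (nat_lit 5) (nat_lit 11) (nat_lit 4) (nat_lit 399) (nat_lit 305) (nat_lit 157)) (XT.lf (nat_lit 0) (nat_lit 31702071357) (nat_lit 84) (nat_lit 25847008289) (nat_lit 168) (nat_lit 1001692853) (nat_lit 9) (nat_lit 5) (nat_lit 10) (nat_lit 5) (nat_lit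 11) (nat_lit 4) (nat_lit 400) (nat_lit 305) (nat_lit 156)))))) (XT.nd (nat_lit 564) (nat_lit 84) (nat_lit 0) (XT.nd (nat_lit 282) (nat_lit 168) (nat_lit 0) (XT.nd (nat_lit 94) (nat_lit 0) (nat_lit 0) (XT.lf (nat_lit 0) (nat_lit 1876606333) (nat_lit 168) (nat_lit 19288806611) (nat_lit 84) (nat_lit 39016277179) (nat_lit 8) (nat_lit 5) (nat_lit 10) (nat_lit 5) (nat_lit 9) (nat_lit 5) (nat_lit 401) (nat_lit 305) (nat_lit 155)) (XT.nd (nat_lit 94) (nat_lit 0) (nat_lit 0) (XT.lf (nat_lit 0) (nat_lit 4819978967) (nat_lit 168) (nat_lit 11509913480) (nat_lit 84) (nat_lit 45533070383) (nat_lit 8) (nat_lit 5) (nat_lit 10) (nat_lit 5) (nat_lit 9) (nat_lit 5) (nat_lit 402) (nat_lit 305) (nat_lit 154)) (XT.lf (nat_lit 0) (nat_lit 7851350458) (nat_lit 168) (nat_lit 3494834087) (nat_lit 84) (nat_lit 52250281240) (nat_lit 8) (nat_lit 5) (nat_lit 10) (nat_lit 5) (nat_lit 9) (nat_lit 5) (nat_lit 403)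 (nat_lit 305) (nat_lit 153)))) (XT.nd (nat_lit 94) (nat_lit 0) (nat_lit 0) (XT.lf (nat_lit 0) (nat_lit 4861858065) (nat_lit 168) (nat_lit 6159918532) (nat_lit 252) (nat_lit 54360543062) (nat_lit 6) (nat_lit 5) (nat_lit 8) (nat_lit 5) (nat_lit 9) (nat_lit 5) (nat_lit 404) (nat_lit 305) (nat_lit 152)) (XT.nd (nat_lit 94) (nat_lit 0) (nat_lit 0) (XT.lf (nat_lit 0) (nat_lit 13546934714) (nat_lit 168) (nat_lit 776929450) (nat_lit 252) (nat_lit 52898645690) (nat_lit 6) (nat_lit 5) (nat_lit 8) (nat_lit 5) (nat_lit 9) (nat_lit 5) (nat_lit 405) (nat_lit 305) (nat_lit 151)) (XT.lf (nat_lit 0) (nat_lit 17772641094) (nat_lit 252) (nat_lit 46670550258) (nat_lit 84) (nat_lit 4675189816) (nat_lit 6) (nat_lit 5) (nat_lit 9) (nat_lit 5) (nat_lit 7) (nat_lit 4) (nat_lit 406) (nat_lit 305) (nat_lit 150))))) (XT.nd (nat_lit 282) (nat_lit 84) (nat_lit 0) (XT.nd (nat_lit 94) (nat_lit 0) (nat_lit 0) (XT.lf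 (nat_lit 0) (nat_lit 21333343746) (nat_lit 252) (nat_lit 39460879270) (nat_lit 84) (nat_lit 10278655065) (nat_lit 6) (nat_lit 5) (nat_lit 9) (nat_lit 5) (nat_lit 7) (nat_lit 4) (nat_lit 407) (nat_lit 305) (nat_lit 149)) (XT.nd (nat_lit 94) (nat_lit 0) (nat_lit 0) (XT.lf (nat_lit 0) (nat_lit 25001583830) (nat_lit 252) (nat_lit 32032134769) (nat_lit 84) (nat_lit 16054342710) (nat_lit 6) (nat_lit 5) (nat_lit 9) (nat_lit 5) (nat_lit 7) (nat_lit 4) (nat_lit 408) (nat_lit 305) (nat_lit 148)) (XT.lf (nat_lit 0) (nat_lit 28780780532) (nat_lit 252) (nat_lit 24377392389) (nat_lit 84) (nat_lit 22007636295) (nat_lit 6) (nat_lit 5) (nat_lit 9) (nat_lit 5) (nat_lit 7) (nat_lit 4) (nat_lit 409) (nat_lit 305) (nat_lit 147)))) (XT.nd (nat_lit 188) (nat_lit 84) (nat_lit 0) (XT.nd (nat_lit 94) (nat_lit 0) (nat_lit 0) (XT.lf (nat_lit 0) (nat_lit 32674456459) (nat_lit 252) (nat_lit 16489517108) (nat_lit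 84) (nat_lit 28144084914) (nat_lit 6) (nat_lit 5) (nat_lit 9) (nat_lit 5) (nat_lit 7) (nat_lit 4) (nat_lit 410) (nat_lit 305) (nat_lit 146)) (XT.lf (nat_lit 0) (nat_lit 36686240924) (nat_lit 252) (nat_lit 8361156600) (nat_lit 84) (nat_lit 34469408380) (nat_lit 6) (nat_lit 5) (nat_lit 9) (nat_lit 5) (nat_lit 7) (nat_lit 4) (nat_lit 411) (nat_lit 305) (nat_lit 145))) (XT.nd (nat_lit 94) (nat_lit 0) (nat_lit 0) (XT.lf (nat_lit 0) (nat_lit 15579511) (nat_lit 84) (nat_lit 40804448369) (nat_lit 168) (nat_lit 40974077597) (nat_lit 5) (nat_lit 5) (nat_lit 6) (nat_lit 5) (nat_lit 7) (nat_lit 4) (nat_lit 412) (nat_lit 305) (nat_lit 144)) (XT.lf (nat_lit 0) (nat_lit 8825368765) (nat_lit 84) (nat_lit 36341386642) (nat_lit 168) (nat_lit 38972624843) (nat_lit 5) (nat_lit 5) (nat_lit 6) (nat_lit 5) (nat_lit 7) (nat_lit 4) (nat_lit 413) (nat_lit 305) (nat_lit 143))))))))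
noncomputable def xc131 : XT := (XT.nd (nat_lit 45496) (nat_lit 0) (nat_lit 3612) (XT.nd (nat_lit 44368) (nat_lit 0) (nat_lit 8736) (XT.nd (nat_lit 564) (nat_lit 0) (nat_lit 0) (XT.nd (nat_lit 282) (nat_lit 0) (nat_lit 0) (XT.nd (nat_lit 94) (nat_lit 0) (nat_lit 0) (XT.lf (nat_lit 0) (nat_lit 17904500279) (nat_lit 84) (nat_lit 31741325629) (nat_lit 168) (nat_lit 36911614482) (nat_lit 5) (nat_lit 5) (nat_lit 6) (nat_lit 5) (nat_lit 7) (nat_lit 4) (nat_lit 414) (nat_lit 305) (nat_lit 142)) (XT.nd (nat_lit 94) (nat_lit 0) (nat_lit 0) (XT.lf (nat_lit 0) (nat_lit 27261436754) (nat_lit 84) (nat_lit 26999977590) (nat_lit 168) (nat_lit 34789125436) (nat_lit 5) (nat_lit 5) (nat_lit 6) (nat_lit 5) (nat_lit 7) (nat_lit 4) (nat_lit 415) (nat_lit 305) (nat_lit 141)) (XT.lf (nat_lit 0) (nat_lit 36904899836) (nat_lit 84) (nat_lit 22112923093) (nat_lit 168) (nat_lit 32603179322) (nat_lit 5) (nat_lit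 5) (nat_lit 6) (nat_lit 5) (nat_lit 7) (nat_lit 4) (nat_lit 416) (nat_lit 305) (nat_lit 140)))) (XT.nd (nat_lit 94) (nat_lit 0) (nat_lit 0) (XT.lf (nat_lit 0) (nat_lit 46843878243) (nat_lit 84) (nat_lit 17075606891) (nat_lit 168) (nat_lit 30351738612) (nat_lit 5) (nat_lit 5) (nat_lit 6) (nat_lit 5) (nat_lit 7) (nat_lit 4) (nat_lit 417) (nat_lit 305) (nat_lit 139)) (XT.nd (nat_lit 94) (nat_lit 0) (nat_lit 0) (XT.lf (nat_lit 0) (nat_lit 57087636144) (nat_lit 84) (nat_lit 11883333678) (nat_lit 168) (nat_lit 28032704724) (nat_lit 5) (nat_lit 5) (nat_lit 6) (nat_lit 5) (nat_lit 7) (nat_lit 4) (nat_lit 418) (nat_lit 305) (nat_lit 138)) (XT.lf (nat_lit 0) (nat_lit 67645721793) (nat_lit 84) (nat_lit 6531263710) (nat_lit 168) (nat_lit 25643916078) (nat_lit 5) (nat_lit 5) (nat_lit 6) (nat_lit 5) (nat_lit 7) (nat_lit 4) (nat_lit 419) (nat_lit 305) (nat_lit 137))))) (XT.nd (nat_lit 43522) (nat_lit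 0) (nat_lit 9492) (XT.nd (nat_lit 43334) (nat_lit 0) (nat_lit 10332) (XT.lf (nat_lit 0) (nat_lit 78527976433) (nat_lit 84) (nat_lit 1014408299) (nat_lit 168) (nat_lit 23183146072) (nat_lit 5) (nat_lit 5) (nat_lit 6) (nat_lit 5) (nat_lit 7) (nat_lit 4) (nat_lit 420) (nat_lit 305) (nat_lit 136)) (XT.nd (nat_lit 94) (nat_lit 0) (nat_lit 0) (XT.lf (nat_lit 0) (nat_lit 1800116042) (nat_lit 0) (nat_lit 1800116042) (nat_lit 756) (nat_lit 492716759) (nat_lit 128) (nat_lit 5) (nat_lit 128) (nat_lit 3) (nat_lit 137) (nat_lit 3) (nat_lit 306) (nat_lit 306) (nat_lit 249)) (XT.lf (nat_lit 0) (nat_lit 6644582813) (nat_lit 0) (nat_lit 1577583016) (nat_lit 756) (nat_lit 56537879) (nat_lit 128) (nat_lit 5) (nat_lit 128) (nat_lit 3) (nat_lit 137) (nat_lit 3) (nat_lit 307) (nat_lit 306) (nat_lit 248)))) (XT.nd (nat_lit 94) (nat_lit 0) (nat_lit 0) (XT.lf (nat_lit 0) (nat_lit 865145385) (nat_lit 840) (nat_lit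 6971471524) (nat_lit 924) (nat_lit 538275222) (nat_lit 118) (nat_lit 5) (nat_lit 128) (nat_lit 5) (nat_lit 129) (nat_lit 5) (nat_lit 308) (nat_lit 306) (nat_lit 247)) (XT.nd (nat_lit 94) (nat_lit 0) (nat_lit 0) (XT.lf (nat_lit 0) (nat_lit 1811415213) (nat_lit 840) (nat_lit 3941308993) (nat_lit 924) (nat_lit 2721629646) (nat_lit 118) (nat_lit 5) (nat_lit 128) (nat_lit 5) (nat_lit 129) (nat_lit 5) (nat_lit 309) (nat_lit 306) (nat_lit 246)) (XT.lf (nat_lit 0) (nat_lit 2751929708) (nat_lit 840) (nat_lit 837246439) (nat_lit 924) (nat_lit 4989026077) (nat_lit 118) (nat_lit 5) (nat_lit 128) (nat_lit 5) (nat_lit 129) (nat_lit 5) (nat_lit 310) (nat_lit 306) (nat_lit 245)))))) (XT.nd (nat_lit 564) (nat_lit 756) (nat_lit 0) (XT.nd (nat_lit 282) (nat_lit 0) (nat_lit 84) (XT.nd (nat_lit 94) (nat_lit 0) (nat_lit 84) (XT.lf (nat_lit 84) (nat_lit 2391798865) (nat_lit 0) (nat_lit 1319493603) (nat_lit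 924) (nat_lit 4974506042) (nat_lit 119) (nat_lit 5) (nat_lit 118) (nat_lit 5) (nat_lit 129) (nat_lit 5) (nat_lit 311) (nat_lit 306) (nat_lit 244)) (XT.nd (nat_lit 94) (nat_lit 0) (nat_lit 0) (XT.lf (nat_lit 0) (nat_lit 4686284414) (nat_lit 840) (nat_lit 3088585429) (nat_lit 924) (nat_lit 1022500669) (nat_lit 119) (nat_lit 5) (nat_lit 129) (nat_lit 5) (nat_lit 130) (nat_lit 5) (nat_lit 312) (nat_lit 306) (nat_lit 243)) (XT.lf (nat_lit 84) (nat_lit 186471421) (nat_lit 0) (nat_lit 5488305425) (nat_lit 924) (nat_lit 3238339544) (nat_lit 120) (nat_lit 5) (nat_lit 119) (nat_lit 5) (nat_lit 130) (nat_lit 5) (nat_lit 313) (nat_lit 306) (nat_lit 242)))) (XT.nd (nat_lit 94) (nat_lit 0) (nat_lit 0) (XT.lf (nat_lit 84) (nat_lit 3608746897) (nat_lit 0) (nat_lit 3086102738) (nat_lit 924) (nat_lit 2337762481) (nat_lit 120) (nat_lit 5) (nat_lit 119) (nat_lit 5) (nat_lit 130) (nat_lit 5) (nat_lit 314)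 (nat_lit 306) (nat_lit 241)) (XT.nd (nat_lit 94) (nat_lit 0) (nat_lit 84) (XT.lf (nat_lit 84) (nat_lit 7117923268) (nat_lit 0) (nat_lit 598261177) (nat_lit 924) (nat_lit 1440753974) (nat_lit 120) (nat_lit 5) (nat_lit 119) (nat_lit 5) (nat_lit 130) (nat_lit 5) (nat_lit 315) (nat_lit 306) (nat_lit 240)) (XT.lf (nat_lit 84) (nat_lit 1440465004) (nat_lit 0) (nat_lit 7333175275) (nat_lit 924) (nat_lit 511519787) (nat_lit 121) (nat_lit 5) (nat_lit 120) (nat_lit 5) (nat_lit 131) (nat_lit 5) (nat_lit 316) (nat_lit 306) (nat_lit 239))))) (XT.nd (nat_lit 282) (nat_lit 0) (nat_lit 84) (XT.nd (nat_lit 94) (nat_lit 0) (nat_lit 0) (XT.lf (nat_lit 0) (nat_lit 436028011) (nat_lit 924) (nat_lit 4376807158) (nat_lit 1008) (nat_lit 4604599328) (nat_lit 109) (nat_lit 5) (nat_lit 120) (nat_lit 5) (nat_lit 121) (nat_lit 5) (nat_lit 317) (nat_lit 306) (nat_lit 238)) (XT.nd (nat_lit 94) (nat_lit 0) (nat_lit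 84) (XT.lf (nat_lit 0) (nat_lit 1374083906) (nat_lit 924) (nat_lit 826413032) (nat_lit 1008) (nat_lit 7354189540) (nat_lit 109) (nat_lit 5) (nat_lit 120) (nat_lit 5) (nat_lit 121) (nat_lit 5) (nat_lit 318) (nat_lit 306) (nat_lit 237)) (XT.lf (nat_lit 0) (nat_lit 2347588162) (nat_lit 924) (nat_lit 6828829165) (nat_lit 1008) (nat_lit 519737360) (nat_lit 110) (nat_lit 5) (nat_lit 121) (nat_lit 5) (nat_lit 122) (nat_lit 5) (nat_lit 319) (nat_lit 306) (nat_lit 236)))) (XT.nd (nat_lit 94) (nat_lit 0) (nat_lit 0) (XT.lf (nat_lit 0) (nat_lit 3355812440) (nat_lit 924) (nat_lit 3191284516) (nat_lit 1008) (nat_lit 3294924742) (nat_lit 110) (nat_lit 5) (nat_lit 121) (nat_lit 5) (nat_lit 122) (nat_lit 5) (nat_lit 320) (nat_lit 306) (nat_lit 235)) (XT.nd (nat_lit 94) (nat_lit 0) (nat_lit 0) (XT.lf (nat_lit 84) (nat_lit 550682698) (nat_lit 0) (nat_lit 3824195189) (nat_lit 1008) (nat_lit 5618314962)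 (nat_lit 111) (nat_lit 5) (nat_lit 110) (nat_lit 5) (nat_lit 122) (nat_lit 5) (nat_lit 321) (nat_lit 306) (nat_lit 234)) (XT.lf (nat_lit 84) (nat_lit 4457064880) (nat_lit 0) (nat_lit 976490524) (nat_lit 1008) (nat_lit 4715391195) (nat_lit 111) (nat_lit 5) (nat_lit 110) (nat_lit 5) (nat_lit 122) (nat_lit 5) (nat_lit 322) (nat_lit 306) (nat_lit 233))))))) (XT.nd (nat_lit 1128) (nat_lit 2184) (nat_lit 0) (XT.nd (nat_lit 564) (nat_lit 1092) (nat_lit 0) (XT.nd (nat_lit 282) (nat_lit 1092) (nat_lit 0) (XT.nd (nat_lit 94) (nat_lit 924) (nat_lit 0) (XT.lf (nat_lit 0) (nat_lit 6520019520) (nat_lit 924) (nat_lit 1864042493) (nat_lit 84) (nat_lit 1925763290) (nat_lit 111) (nat_lit 5) (nat_lit 122) (nat_lit 5) (nat_lit 112) (nat_lit 5) (nat_lit 323) (nat_lit 306) (nat_lit 232)) (XT.nd (nat_lit 94) (nat_lit 0) (nat_lit 0) (XT.lf (nat_lit 0) (nat_lit 2095665196) (nat_lit 924) (nat_lit 5551540256)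 (nat_lit 1008) (nat_lit 2828403869) (nat_lit 100) (nat_lit 5) (nat_lit 111) (nat_lit 5) (nat_lit 112) (nat_lit 5) (nat_lit 324) (nat_lit 306) (nat_lit 231)) (XT.lf (nat_lit 0) (nat_lit 6198802877) (nat_lit 924) (nat_lit 2606779813) (nat_lit 1008) (nat_lit 1841198507) (nat_lit 100) (nat_lit 5) (nat_lit 111) (nat_lit 5) (nat_lit 112) (nat_lit 5) (nat_lit 325) (nat_lit 306) (nat_lit 230)))) (XT.nd (nat_lit 94) (nat_lit 1092) (nat_lit 0) (XT.lf (nat_lit 0) (nat_lit 9981659652) (nat_lit 1008) (nat_lit 417519387) (nat_lit 84) (nat_lit 424773152) (nat_lit 100) (nat_lit 5) (nat_lit 112) (nat_lit 5) (nat_lit 101) (nat_lit 5) (nat_lit 326) (nat_lit 306) (nat_lit 229)) (XT.nd (nat_lit 94) (nat_lit 0) (nat_lit 0) (XT.lf (nat_lit 0) (nat_lit 226363727) (nat_lit 1092) (nat_lit 7239134544) (nat_lit 84) (nat_lit 3539860744) (nat_lit 87) (nat_lit 5) (nat_lit 100) (nat_lit 5) (nat_lit 88) (nat_lit 5)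 (nat_lit 327) (nat_lit 306) (nat_lit 228)) (XT.lf (nat_lit 0) (nat_lit 1293398441) (nat_lit 1092) (nat_lit 3131336354) (nat_lit 84) (nat_lit 6768039514) (nat_lit 87) (nat_lit 5) (nat_lit 100) (nat_lit 5) (nat_lit 88) (nat_lit 5) (nat_lit 328) (nat_lit 306) (nat_lit 227))))) (XT.nd (nat_lit 282) (nat_lit 504) (nat_lit 0) (XT.nd (nat_lit 94) (nat_lit 0) (nat_lit 0) (XT.lf (nat_lit 0) (nat_lit 1107753437) (nat_lit 588) (nat_lit 1275741879) (nat_lit 672) (nat_lit 9002928189) (nat_lit 80) (nat_lit 5) (nat_lit 87) (nat_lit 5) (nat_lit 88) (nat_lit 5) (nat_lit 329) (nat_lit 306) (nat_lit 226)) (XT.nd (nat_lit 94) (nat_lit 0) (nat_lit 0) (XT.lf (nat_lit 0) (nat_lit 3539425238) (nat_lit 672) (nat_lit 6079264206) (nat_lit 84) (nat_lit 1966503263) (nat_lit 80) (nat_lit 5) (nat_lit 88) (nat_lit 5) (nat_lit 81) (nat_lit 5) (nat_lit 330) (nat_lit 306) (nat_lit 225)) (XT.lf (nat_lit 0) (nat_lit 4724323877)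 (nat_lit 672) (nat_lit 1781108444) (nat_lit 84) (nat_lit 5285011060) (nat_lit 80) (nat_lit 5) (nat_lit 88) (nat_lit 5) (nat_lit 81) (nat_lit 5) (nat_lit 331) (nat_lit 306) (nat_lit 224)))) (XT.nd (nat_lit 94) (nat_lit 0) (nat_lit 0) (XT.lf (nat_lit 0) (nat_lit 2686587823) (nat_lit 504) (nat_lit 3266703628) (nat_lit 588) (nat_lit 6048641524) (nat_lit 74) (nat_lit 5) (nat_lit 80) (nat_lit 5) (nat_lit 81) (nat_lit 5) (nat_lit 332) (nat_lit 306) (nat_lit 223)) (XT.nd (nat_lit 94) (nat_lit 0) (nat_lit 0) (XT.lf (nat_lit 0) (nat_lit 7220960670) (nat_lit 588) (nat_lit 4908119485) (nat_lit 84) (nat_lit 90980363) (nat_lit 74) (nat_lit 5) (nat_lit 81) (nat_lit 5) (nat_lit 75) (nat_lit 5) (nat_lit 333) (nat_lit 306) (nat_lit 222)) (XT.lf (nat_lit 0) (nat_lit 8543010408) (nat_lit 588) (nat_lit 415478465) (nat_lit 84) (nat_lit 3486091037) (nat_lit 74) (nat_lit 5) (nat_lit 81) (nat_lit 5) (nat_lit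 75) (nat_lit 5) (nat_lit 334) (nat_lit 306) (nat_lit 221)))))) (XT.nd (nat_lit 564) (nat_lit 756) (nat_lit 0) (XT.nd (nat_lit 282) (nat_lit 504) (nat_lit 0) (XT.nd (nat_lit 94) (nat_lit 420) (nat_lit 0) (XT.lf (nat_lit 0) (nat_lit 4285515206) (nat_lit 504) (nat_lit 5645264486) (nat_lit 588) (nat_lit 2744607427) (nat_lit 68) (nat_lit 5) (nat_lit 74) (nat_lit 5) (nat_lit 75) (nat_lit 5) (nat_lit 335) (nat_lit 306) (nat_lit 220)) (XT.nd (nat_lit 94) (nat_lit 420) (nat_lit 0) (XT.lf (nat_lit 0) (nat_lit 9123959574) (nat_lit 504) (nat_lit 2224535151) (nat_lit 588) (nat_lit 1565351643) (nat_lit 68) (nat_lit 5) (nat_lit 74) (nat_lit 5) (nat_lit 75) (nat_lit 5) (nat_lit 336) (nat_lit 306) (nat_lit 219)) (XT.lf (nat_lit 0) (nat_lit 941560032) (nat_lit 420) (nat_lit 11873972447) (nat_lit 504) (nat_lit 344087728) (nat_lit 63) (nat_lit 5) (nat_lit 68) (nat_lit 5) (nat_lit 69) (nat_lit 5) (nat_lit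 337) (nat_lit 306) (nat_lit 218)))) (XT.nd (nat_lit 94) (nat_lit 420) (nat_lit 0) (XT.lf (nat_lit 0) (nat_lit 942514409) (nat_lit 504) (nat_lit 7561439907) (nat_lit 84) (nat_lit 4907437624) (nat_lit 62) (nat_lit 5) (nat_lit 68) (nat_lit 5) (nat_lit 63) (nat_lit 5) (nat_lit 338) (nat_lit 306) (nat_lit 217)) (XT.nd (nat_lit 94) (nat_lit 420) (nat_lit 0) (XT.lf (nat_lit 0) (nat_lit 2245558809) (nat_lit 504) (nat_lit 2780903980) (nat_lit 84) (nat_lit 8644983004) (nat_lit 62) (nat_lit 5) (nat_lit 68) (nat_lit 5) (nat_lit 63) (nat_lit 5) (nat_lit 339) (nat_lit 306) (nat_lit 216)) (XT.lf (nat_lit 0) (nat_lit 2175243263) (nat_lit 420) (nat_lit 1419528064) (nat_lit 504) (nat_lit 10344689710) (nat_lit 57) (nat_lit 5) (nat_lit 62) (nat_lit 5) (nat_lit 63) (nat_lit 5) (nat_lit 340) (nat_lit 306) (nat_lit 215))))) (XT.nd (nat_lit 282) (nat_lit 420) (nat_lit 0) (XT.nd (nat_lit 94) (nat_lit 336)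 (nat_lit 0) (XT.lf (nat_lit 0) (nat_lit 5022443448) (nat_lit 504) (nat_lit 6910800109) (nat_lit 84) (nat_lit 2281481885) (nat_lit 57) (nat_lit 5) (nat_lit 63) (nat_lit 5) (nat_lit 58) (nat_lit 5) (nat_lit 341) (nat_lit 306) (nat_lit 214)) (XT.nd (nat_lit 94) (nat_lit 336) (nat_lit 0) (XT.lf (nat_lit 0) (nat_lit 6493859480) (nat_lit 504) (nat_lit 1937734476) (nat_lit 84) (nat_lit 6067019067) (nat_lit 57) (nat_lit 5) (nat_lit 63) (nat_lit 5) (nat_lit 58) (nat_lit 5) (nat_lit 342) (nat_lit 306) (nat_lit 213)) (XT.lf (nat_lit 0) (nat_lit 3238954144) (nat_lit 336) (nat_lit 4789485724) (nat_lit 420) (nat_lit 6762389008) (nat_lit 53) (nat_lit 5) (nat_lit 57) (nat_lit 5) (nat_lit 58) (nat_lit 5) (nat_lit 343) (nat_lit 306) (nat_lit 212)))) (XT.nd (nat_lit 188) (nat_lit 420) (nat_lit 0) (XT.nd (nat_lit 94) (nat_lit 0) (nat_lit 0) (XT.lf (nat_lit 0) (nat_lit 8601559268) (nat_lit 336) (nat_lit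 1014961839) (nat_lit 420) (nat_lit 5475468178) (nat_lit 53) (nat_lit 5) (nat_lit 57) (nat_lit 5) (nat_lit 58) (nat_lit 5) (nat_lit 344) (nat_lit 306) (nat_lit 211)) (XT.lf (nat_lit 0) (nat_lit 11268488670) (nat_lit 420) (nat_lit 1316270542) (nat_lit 84) (nat_lit 2817339692) (nat_lit 53) (nat_lit 5) (nat_lit 58) (nat_lit 5) (nat_lit 54) (nat_lit 5) (nat_lit 345) (nat_lit 306) (nat_lit 210))) (XT.nd (nat_lit 94) (nat_lit 0) (nat_lit 0) (XT.lf (nat_lit 0) (nat_lit 4074822407) (nat_lit 420) (nat_lit 8934185433) (nat_lit 504) (nat_lit 2711722059) (nat_lit 48) (nat_lit 5) (nat_lit 53) (nat_lit 5) (nat_lit 54) (nat_lit 5) (nat_lit 346) (nat_lit 306) (nat_lit 209)) (XT.lf (nat_lit 0) (nat_lit 9645913813) (nat_lit 420) (nat_lit 5158101355) (nat_lit 504) (nat_lit 1245270355) (nat_lit 48) (nat_lit 5) (nat_lit 53) (nat_lit 5) (nat_lit 54) (nat_lit 5) (nat_lit 347) (nat_lit 306) (nat_lit 208))))))))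
noncomputable def xc132 : XT := (XT.nd (nat_lit 2256) (nat_lit 1008) (nat_lit 0) (XT.nd (nat_lit 1128) (nat_lit 756) (nat_lit 0) (XT.nd (nat_lit 564) (nat_lit 672) (nat_lit 0) (XT.nd (nat_lit 282) (nat_lit 336) (nat_lit 0) (XT.nd (nat_lit 94) (nat_lit 336) (nat_lit 0) (XT.lf (nat_lit 0) (nat_lit 248267704) (nat_lit 504) (nat_lit 1015867328) (nat_lit 84) (nat_lit 15124272185) (nat_lit 47) (nat_lit 5) (nat_lit 53) (nat_lit 5) (nat_lit 48) (nat_lit 5) (nat_lit 348) (nat_lit 306) (nat_lit 207)) (XT.nd (nat_lit 94) (nat_lit 0) (nat_lit 0) (XT.lf (nat_lit 0) (nat_lit 1823167032) (nat_lit 420) (nat_lit 12160323137) (nat_lit 84) (nat_lit 2752325901) (nat_lit 43) (nat_lit 5) (nat_lit 48) (nat_lit 5) (nat_lit 44) (nat_lit 5) (nat_lit 349) (nat_lit 306) (nat_lit 206)) (XT.lf (nat_lit 0) (nat_lit 3458136891) (nat_lit 420) (nat_lit 6759713234) (nat_lit 84) (nat_lit 6875852023) (nat_lit 43) (nat_lit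 5) (nat_lit 48) (nat_lit 5) (nat_lit 44) (nat_lit 5) (nat_lit 350) (nat_lit 306) (nat_lit 205)))) (XT.nd (nat_lit 94) (nat_lit 336) (nat_lit 0) (XT.lf (nat_lit 0) (nat_lit 5131770932) (nat_lit 420) (nat_lit 1205972480) (nat_lit 84) (nat_lit 11125366463) (nat_lit 43) (nat_lit 5) (nat_lit 48) (nat_lit 5) (nat_lit 44) (nat_lit 5) (nat_lit 351) (nat_lit 306) (nat_lit 204)) (XT.nd (nat_lit 94) (nat_lit 0) (nat_lit 0) (XT.lf (nat_lit 0) (nat_lit 4598729950) (nat_lit 336) (nat_lit 2292519180) (nat_lit 420) (nat_lit 10951720232) (nat_lit 39) (nat_lit 5) (nat_lit 43) (nat_lit 5) (nat_lit 44) (nat_lit 5) (nat_lit 352) (nat_lit 306) (nat_lit 203)) (XT.lf (nat_lit 0) (nat_lit 8725152261) (nat_lit 420) (nat_lit 7658131606) (nat_lit 84) (nat_lit 1850755645) (nat_lit 39) (nat_lit 5) (nat_lit 44) (nat_lit 5) (nat_lit 40) (nat_lit 5) (nat_lit 353) (nat_lit 306) (nat_lit 202))))) (XT.nd (nat_lit 282)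 (nat_lit 420) (nat_lit 0) (XT.nd (nat_lit 94) (nat_lit 252) (nat_lit 0) (XT.lf (nat_lit 0) (nat_lit 10628231674) (nat_lit 420) (nat_lit 1935979207) (nat_lit 84) (nat_lit 6072689662) (nat_lit 39) (nat_lit 5) (nat_lit 44) (nat_lit 5) (nat_lit 40) (nat_lit 5) (nat_lit 354) (nat_lit 306) (nat_lit 201)) (XT.nd (nat_lit 94) (nat_lit 0) (nat_lit 0) (XT.lf (nat_lit 0) (nat_lit 4031519638) (nat_lit 252) (nat_lit 8587992699) (nat_lit 336) (nat_lit 6431880843) (nat_lit 36) (nat_lit 5) (nat_lit 39) (nat_lit 5) (nat_lit 40) (nat_lit 5) (nat_lit 355) (nat_lit 306) (nat_lit 200)) (XT.lf (nat_lit 0) (nat_lit 10211920589) (nat_lit 252) (nat_lit 4470216462) (nat_lit 336) (nat_lit 4796346834) (nat_lit 36) (nat_lit 5) (nat_lit 39) (nat_lit 5) (nat_lit 40) (nat_lit 5) (nat_lit 356) (nat_lit 306) (nat_lit 199)))) (XT.nd (nat_lit 94) (nat_lit 420) (nat_lit 0) (XT.lf (nat_lit 0) (nat_lit 16571176722) (nat_lit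 252) (nat_lit 227251625) (nat_lit 336) (nat_lit 3120750006) (nat_lit 36) (nat_lit 5) (nat_lit 39) (nat_lit 5) (nat_lit 40) (nat_lit 5) (nat_lit 357) (nat_lit 306) (nat_lit 198)) (XT.nd (nat_lit 94) (nat_lit 84) (nat_lit 0) (XT.lf (nat_lit 0) (nat_lit 2755732550) (nat_lit 336) (nat_lit 16283080980) (nat_lit 420) (nat_lit 1332951732) (nat_lit 32) (nat_lit 5) (nat_lit 36) (nat_lit 5) (nat_lit 37) (nat_lit 5) (nat_lit 358) (nat_lit 306) (nat_lit 197)) (XT.lf (nat_lit 0) (nat_lit 527659484) (nat_lit 420) (nat_lit 11738185597) (nat_lit 84) (nat_lit 8571563988) (nat_lit 31) (nat_lit 5) (nat_lit 36) (nat_lit 5) (nat_lit 32) (nat_lit 5) (nat_lit 359) (nat_lit 306) (nat_lit 196)))))) (XT.nd (nat_lit 564) (nat_lit 252) (nat_lit 0) (XT.nd (nat_lit 282) (nat_lit 252) (nat_lit 0) (XT.nd (nat_lit 94) (nat_lit 252) (nat_lit 0) (XT.lf (nat_lit 0) (nat_lit 2408604488) (nat_lit 420) (nat_lit 5704174615)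 (nat_lit 84) (nat_lit 13204625678) (nat_lit 31) (nat_lit 5) (nat_lit 36) (nat_lit 5) (nat_lit 32) (nat_lit 5) (nat_lit 360) (nat_lit 306) (nat_lit 195)) (XT.nd (nat_lit 94) (nat_lit 0) (nat_lit 0) (XT.lf (nat_lit 0) (nat_lit 515228314) (nat_lit 252) (nat_lit 3828375337) (nat_lit 336) (nat_lit 17468847616) (nat_lit 28) (nat_lit 5) (nat_lit 31) (nat_lit 5) (nat_lit 32) (nat_lit 5) (nat_lit 361) (nat_lit 306) (nat_lit 194)) (XT.lf (nat_lit 0) (nat_lit 6395348176) (nat_lit 336) (nat_lit 15291307912) (nat_lit 84) (nat_lit 634466364) (nat_lit 28) (nat_lit 5) (nat_lit 32) (nat_lit 5) (nat_lit 29) (nat_lit 5) (nat_lit 362) (nat_lit 306) (nat_lit 193)))) (XT.nd (nat_lit 94) (nat_lit 252) (nat_lit 0) (XT.lf (nat_lit 0) (nat_lit 8540899712) (nat_lit 336) (nat_lit 9150214752) (nat_lit 84) (nat_lit 5153548379) (nat_lit 28) (nat_lit 5) (nat_lit 32) (nat_lit 5) (nat_lit 29) (nat_lit 5) (nat_lit 363)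 (nat_lit 306) (nat_lit 192)) (XT.nd (nat_lit 94) (nat_lit 252) (nat_lit 0) (XT.lf (nat_lit 0) (nat_lit 10744280182) (nat_lit 336) (nat_lit 2830241374) (nat_lit 84) (nat_lit 9810216196) (nat_lit 28) (nat_lit 5) (nat_lit 32) (nat_lit 5) (nat_lit 29) (nat_lit 5) (nat_lit 364) (nat_lit 306) (nat_lit 191)) (XT.lf (nat_lit 0) (nat_lit 3750058417) (nat_lit 252) (nat_lit 9294685993) (nat_lit 336) (nat_lit 10895952944) (nat_lit 25) (nat_lit 5) (nat_lit 28) (nat_lit 5) (nat_lit 29) (nat_lit 5) (nat_lit 365) (nat_lit 306) (nat_lit 190))))) (XT.nd (nat_lit 282) (nat_lit 252) (nat_lit 0) (XT.nd (nat_lit 94) (nat_lit 0) (nat_lit 0) (XT.lf (nat_lit 0) (nat_lit 10583311918) (nat_lit 252) (nat_lit 4854474710) (nat_lit 336) (nat_lit 9075479383) (nat_lit 25) (nat_lit 5) (nat_lit 28) (nat_lit 5) (nat_lit 29) (nat_lit 5) (nat_lit 366) (nat_lit 306) (nat_lit 189)) (XT.nd (nat_lit 94) (nat_lit 0) (nat_lit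 0) (XT.lf (nat_lit 0) (nat_lit 17617692868) (nat_lit 252) (nat_lit 279290883) (nat_lit 336) (nat_lit 7206881930) (nat_lit 25) (nat_lit 5) (nat_lit 28) (nat_lit 5) (nat_lit 29) (nat_lit 5) (nat_lit 367) (nat_lit 306) (nat_lit 188)) (XT.lf (nat_lit 0) (nat_lit 20468625047) (nat_lit 336) (nat_lit 897285859) (nat_lit 84) (nat_lit 4345772052) (nat_lit 25) (nat_lit 5) (nat_lit 29) (nat_lit 5) (nat_lit 26) (nat_lit 5) (nat_lit 368) (nat_lit 306) (nat_lit 187)))) (XT.nd (nat_lit 94) (nat_lit 84) (nat_lit 0) (XT.lf (nat_lit 0) (nat_lit 6003651101) (nat_lit 168) (nat_lit 17171170807) (nat_lit 252) (nat_lit 3161851335) (nat_lit 23) (nat_lit 5) (nat_lit 25) (nat_lit 5) (nat_lit 26) (nat_lit 5) (nat_lit 369) (nat_lit 306) (nat_lit 186)) (XT.nd (nat_lit 94) (nat_lit 84) (nat_lit 0) (XT.lf (nat_lit 0) (nat_lit 13127334278) (nat_lit 168) (nat_lit 12839490299) (nat_lit 252) (nat_lit 1014183958) (nat_lit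 23) (nat_lit 5) (nat_lit 25) (nat_lit 5) (nat_lit 26) (nat_lit 5) (nat_lit 370) (nat_lit 306) (nat_lit 185)) (XT.lf (nat_lit 0) (nat_lit 1168552413) (nat_lit 252) (nat_lit 7195447923) (nat_lit 84) (nat_lit 19281203947) (nat_lit 22) (nat_lit 5) (nat_lit 25) (nat_lit 5) (nat_lit 23) (nat_lit 5) (nat_lit 371) (nat_lit 306) (nat_lit 184))))))) (XT.nd (nat_lit 1128) (nat_lit 420) (nat_lit 0) (XT.nd (nat_lit 564) (nat_lit 168) (nat_lit 0) (XT.nd (nat_lit 282) (nat_lit 168) (nat_lit 0) (XT.nd (nat_lit 94) (nat_lit 252) (nat_lit 0) (XT.lf (nat_lit 0) (nat_lit 3390776889) (nat_lit 252) (nat_lit 350962888) (nat_lit 84) (nat_lit 24588176206) (nat_lit 22) (nat_lit 5) (nat_lit 25) (nat_lit 5) (nat_lit 23) (nat_lit 5) (nat_lit 372) (nat_lit 306) (nat_lit 183)) (XT.nd (nat_lit 94) (nat_lit 0) (nat_lit 0) (XT.lf (nat_lit 0) (nat_lit 5753611657) (nat_lit 336) (nat_lit 22210906720) (nat_lit 84) (nat_lit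 1069138234) (nat_lit 19) (nat_lit 5) (nat_lit 23) (nat_lit 5) (nat_lit 20) (nat_lit 5) (nat_lit 373) (nat_lit 306) (nat_lit 182)) (XT.lf (nat_lit 0) (nat_lit 8224856783) (nat_lit 336) (nat_lit 15580711913) (nat_lit 84) (nat_lit 5952579902) (nat_lit 19) (nat_lit 5) (nat_lit 23) (nat_lit 5) (nat_lit 20) (nat_lit 5) (nat_lit 374) (nat_lit 306) (nat_lit 181)))) (XT.nd (nat_lit 94) (nat_lit 168) (nat_lit 0) (XT.lf (nat_lit 0) (nat_lit 10766107681) (nat_lit 336) (nat_lit 8754286218) (nat_lit 84) (nat_lit 10984935296) (nat_lit 19) (nat_lit 5) (nat_lit 23) (nat_lit 5) (nat_lit 20) (nat_lit 5) (nat_lit 375) (nat_lit 306) (nat_lit 180)) (XT.nd (nat_lit 94) (nat_lit 168) (nat_lit 0) (XT.lf (nat_lit 0) (nat_lit 13379733063) (nat_lit 336) (nat_lit 1725266690) (nat_lit 84) (nat_lit 16170895100) (nat_lit 19) (nat_lit 5) (nat_lit 23) (nat_lit 5) (nat_lit 20) (nat_lit 5) (nat_lit 376) (nat_lit 306)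 (nat_lit 179)) (XT.lf (nat_lit 0) (nat_lit 5626254950) (nat_lit 168) (nat_lit 10497727297) (nat_lit 252) (nat_lit 15944851367) (nat_lit 17) (nat_lit 5) (nat_lit 19) (nat_lit 5) (nat_lit 20) (nat_lit 5) (nat_lit 377) (nat_lit 306) (nat_lit 178))))) (XT.nd (nat_lit 282) (nat_lit 168) (nat_lit 0) (XT.nd (nat_lit 94) (nat_lit 0) (nat_lit 0) (XT.lf (nat_lit 0) (nat_lit 13233583145) (nat_lit 168) (nat_lit 5731617339) (nat_lit 252) (nat_lit 13920806687) (nat_lit 17) (nat_lit 5) (nat_lit 19) (nat_lit 5) (nat_lit 20) (nat_lit 5) (nat_lit 378) (nat_lit 306) (nat_lit 177)) (XT.nd (nat_lit 94) (nat_lit 0) (nat_lit 0) (XT.lf (nat_lit 0) (nat_lit 21068333699) (nat_lit 168) (nat_lit 820235612) (nat_lit 252) (nat_lit 11840149376) (nat_lit 17) (nat_lit 5) (nat_lit 19) (nat_lit 5) (nat_lit 20) (nat_lit 5) (nat_lit 379) (nat_lit 306) (nat_lit 176)) (XT.lf (nat_lit 0) (nat_lit 24938884816) (nat_lit 252)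 (nat_lit 5502015440) (nat_lit 84) (nat_lit 4155549192) (nat_lit 17) (nat_lit 5) (nat_lit 20) (nat_lit 5) (nat_lit 18) (nat_lit 5) (nat_lit 380) (nat_lit 306) (nat_lit 175)))) (XT.nd (nat_lit 94) (nat_lit 0) (nat_lit 0) (XT.lf (nat_lit 0) (nat_lit 1900079590) (nat_lit 168) (nat_lit 26205319395) (nat_lit 252) (nat_lit 7385030614) (nat_lit 15) (nat_lit 5) (nat_lit 17) (nat_lit 5) (nat_lit 18) (nat_lit 5) (nat_lit 381) (nat_lit 306) (nat_lit 174)) (XT.nd (nat_lit 94) (nat_lit 0) (nat_lit 0) (XT.lf (nat_lit 0) (nat_lit 9640283917) (nat_lit 168) (nat_lit 21781710755) (nat_lit 252) (nat_lit 4988538882) (nat_lit 15) (nat_lit 5) (nat_lit 17) (nat_lit 5) (nat_lit 18) (nat_lit 5) (nat_lit 382) (nat_lit 306) (nat_lit 173)) (XT.lf (nat_lit 0) (nat_lit 17612679497) (nat_lit 168) (nat_lit 17223380824) (nat_lit 252) (nat_lit 2523285413) (nat_lit 15) (nat_lit 5) (nat_lit 17) (nat_lit 5) (nat_lit 18)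 (nat_lit 5) (nat_lit 383) (nat_lit 306) (nat_lit 172)))))) (XT.nd (nat_lit 564) (nat_lit 168) (nat_lit 0) (XT.nd (nat_lit 282) (nat_lit 0) (nat_lit 0) (XT.nd (nat_lit 94) (nat_lit 168) (nat_lit 0) (XT.lf (nat_lit 0) (nat_lit 12765188) (nat_lit 252) (nat_lit 12513182332) (nat_lit 84) (nat_lit 25811799010) (nat_lit 14) (nat_lit 5) (nat_lit 17) (nat_lit 5) (nat_lit 15) (nat_lit 5) (nat_lit 384) (nat_lit 306) (nat_lit 171)) (XT.nd (nat_lit 94) (nat_lit 168) (nat_lit 0) (XT.lf (nat_lit 0) (nat_lit 2569921609) (nat_lit 252) (nat_lit 5088685874) (nat_lit 84) (nat_lit 31687245887) (nat_lit 14) (nat_lit 5) (nat_lit 17) (nat_lit 5) (nat_lit 15) (nat_lit 5) (nat_lit 385) (nat_lit 306) (nat_lit 170)) (XT.lf (nat_lit 0) (nat_lit 2611388505) (nat_lit 168) (nat_lit 2615922757) (nat_lit 252) (nat_lit 35157267561) (nat_lit 12) (nat_lit 5) (nat_lit 14) (nat_lit 5) (nat_lit 15) (nat_lit 5) (nat_lit 386)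 (nat_lit 306) (nat_lit 169)))) (XT.nd (nat_lit 94) (nat_lit 0) (nat_lit 0) (XT.lf (nat_lit 0) (nat_lit 8041474911) (nat_lit 252) (nat_lit 30829250632) (nat_lit 84) (nat_lit 2582489570) (nat_lit 12) (nat_lit 5) (nat_lit 15) (nat_lit 5) (nat_lit 13) (nat_lit 5) (nat_lit 387) (nat_lit 306) (nat_lit 168)) (XT.nd (nat_lit 94) (nat_lit 0) (nat_lit 0) (XT.lf (nat_lit 0) (nat_lit 10964891051) (nat_lit 252) (nat_lit 23703852370) (nat_lit 84) (nat_lit 7885569381) (nat_lit 12) (nat_lit 5) (nat_lit 15) (nat_lit 5) (nat_lit 13) (nat_lit 5) (nat_lit 388) (nat_lit 306) (nat_lit 167)) (XT.lf (nat_lit 0) (nat_lit 13974334335) (nat_lit 252) (nat_lit 16364403636) (nat_lit 84) (nat_lit 13350964716) (nat_lit 12) (nat_lit 5) (nat_lit 15) (nat_lit 5) (nat_lit 13) (nat_lit 5) (nat_lit 389) (nat_lit 306) (nat_lit 166))))) (XT.nd (nat_lit 282) (nat_lit 0) (nat_lit 0) (XT.nd (nat_lit 94) (nat_lit 168) (nat_lit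 0) (XT.lf (nat_lit 0) (nat_lit 17072609880) (nat_lit 252) (nat_lit 8804063297) (nat_lit 84) (nat_lit 18983769896) (nat_lit 12) (nat_lit 5) (nat_lit 15) (nat_lit 5) (nat_lit 13) (nat_lit 5) (nat_lit 390) (nat_lit 306) (nat_lit 165)) (XT.nd (nat_lit 94) (nat_lit 168) (nat_lit 0) (XT.lf (nat_lit 0) (nat_lit 20262605602) (nat_lit 252) (nat_lit 1015784322) (nat_lit 84) (nat_lit 24789235285) (nat_lit 12) (nat_lit 5) (nat_lit 15) (nat_lit 5) (nat_lit 13) (nat_lit 5) (nat_lit 391) (nat_lit 306) (nat_lit 164)) (XT.lf (nat_lit 0) (nat_lit 7151785314) (nat_lit 168) (nat_lit 16466456193) (nat_lit 252) (nat_lit 23691933466) (nat_lit 10) (nat_lit 5) (nat_lit 12) (nat_lit 5) (nat_lit 13) (nat_lit 5) (nat_lit 392) (nat_lit 306) (nat_lit 163)))) (XT.nd (nat_lit 94) (nat_lit 0) (nat_lit 0) (XT.lf (nat_lit 0) (nat_lit 15587908343) (nat_lit 168) (nat_lit 11496465122) (nat_lit 252) (nat_lit 21506683516)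 (nat_lit 10) (nat_lit 5) (nat_lit 12) (nat_lit 5) (nat_lit 13) (nat_lit 5) (nat_lit 393) (nat_lit 306) (nat_lit 162)) (XT.nd (nat_lit 94) (nat_lit 0) (nat_lit 0) (XT.lf (nat_lit 0) (nat_lit 24279561504) (nat_lit 168) (nat_lit 6374386864) (nat_lit 252) (nat_lit 19257835583) (nat_lit 10) (nat_lit 5) (nat_lit 12) (nat_lit 5) (nat_lit 13) (nat_lit 5) (nat_lit 394) (nat_lit 306) (nat_lit 161)) (XT.lf (nat_lit 0) (nat_lit 33234846328) (nat_lit 168) (nat_lit 1095447105) (nat_lit 252) (nat_lit 16943293503) (nat_lit 10) (nat_lit 5) (nat_lit 12) (nat_lit 5) (nat_lit 13) (nat_lit 5) (nat_lit 395) (nat_lit 306) (nat_lit 160))))))))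
noncomputable def xc133 : XT := (XT.nd (nat_lit 2256) (nat_lit 0) (nat_lit 0) (XT.nd (nat_lit 1128) (nat_lit 84) (nat_lit 0) (XT.nd (nat_lit 564) (nat_lit 252) (nat_lit 0) (XT.nd (nat_lit 282) (nat_lit 0) (nat_lit 0) (XT.nd (nat_lit 94) (nat_lit 84) (nat_lit 0) (XT.lf (nat_lit 0) (nat_lit 38159941065) (nat_lit 252) (nat_lit 10258730866) (nat_lit 84) (nat_lit 4257727076) (nat_lit 10) (nat_lit 5) (nat_lit 13) (nat_lit 5) (nat_lit 11) (nat_lit 4) (nat_lit 396) (nat_lit 306) (nat_lit 159)) (XT.nd (nat_lit 94) (nat_lit 84) (nat_lit 0) (XT.lf (nat_lit 0) (nat_lit 42115837229) (nat_lit 252) (nat_lit 2254317770) (nat_lit 84) (nat_lit 9752322065) (nat_lit 10) (nat_lit 5) (nat_lit 13) (nat_lit 5) (nat_lit 11) (nat_lit 4) (nat_lit 397) (nat_lit 306) (nat_lit 158)) (XT.lf (nat_lit 0) (nat_lit 6116051406) (nat_lit 84) (nat_lit 40135422844) (nat_lit 168) (nat_lit 9360150797) (nat_lit 9) (nat_lit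 5) (nat_lit 10) (nat_lit 5) (nat_lit 11) (nat_lit 4) (nat_lit 398) (nat_lit 306) (nat_lit 157)))) (XT.nd (nat_lit 94) (nat_lit 0) (nat_lit 0) (XT.lf (nat_lit 0) (nat_lit 14788341575) (nat_lit 84) (nat_lit 35746995067) (nat_lit 168) (nat_lit 6610990837) (nat_lit 9) (nat_lit 5) (nat_lit 10) (nat_lit 5) (nat_lit 11) (nat_lit 4) (nat_lit 399) (nat_lit 306) (nat_lit 156)) (XT.nd (nat_lit 94) (nat_lit 0) (nat_lit 0) (XT.lf (nat_lit 0) (nat_lit 23724282823) (nat_lit 84) (nat_lit 31224311648) (nat_lit 168) (nat_lit 3780127904) (nat_lit 9) (nat_lit 5) (nat_lit 10) (nat_lit 5) (nat_lit 11) (nat_lit 4) (nat_lit 400) (nat_lit 306) (nat_lit 155)) (XT.lf (nat_lit 0) (nat_lit 32932204383) (nat_lit 84) (nat_lit 26563156972) (nat_lit 168) (nat_lit 864923338) (nat_lit 9) (nat_lit 5) (nat_lit 10) (nat_lit 5) (nat_lit 11) (nat_lit 4) (nat_lit 401) (nat_lit 306) (nat_lit 154))))) (XT.nd (nat_lit 282) (nat_lit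 168) (nat_lit 0) (XT.nd (nat_lit 94) (nat_lit 0) (nat_lit 0) (XT.lf (nat_lit 0) (nat_lit 2094277496) (nat_lit 168) (nat_lit 19643048896) (nat_lit 84) (nat_lit 40304551545) (nat_lit 8) (nat_lit 5) (nat_lit 10) (nat_lit 5) (nat_lit 9) (nat_lit 5) (nat_lit 402) (nat_lit 306) (nat_lit 153)) (XT.nd (nat_lit 94) (nat_lit 0) (nat_lit 0) (XT.lf (nat_lit 0) (nat_lit 5124098961) (nat_lit 168) (nat_lit 11630337946) (nat_lit 84) (nat_lit 47020996897) (nat_lit 8) (nat_lit 5) (nat_lit 10) (nat_lit 5) (nat_lit 9) (nat_lit 5) (nat_lit 403) (nat_lit 306) (nat_lit 152)) (XT.lf (nat_lit 0) (nat_lit 8244791446) (nat_lit 168) (nat_lit 3373898627) (nat_lit 84) (nat_lit 53944144063) (nat_lit 8) (nat_lit 5) (nat_lit 10) (nat_lit 5) (nat_lit 9) (nat_lit 5) (nat_lit 404) (nat_lit 306) (nat_lit 151)))) (XT.nd (nat_lit 94) (nat_lit 0) (nat_lit 0) (XT.lf (nat_lit 0) (nat_lit 5239529775) (nat_lit 168) (nat_lit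 6271710771) (nat_lit 252) (nat_lit 55892893150) (nat_lit 6) (nat_lit 5) (nat_lit 8) (nat_lit 5) (nat_lit 9) (nat_lit 5) (nat_lit 405) (nat_lit 306) (nat_lit 150)) (XT.nd (nat_lit 94) (nat_lit 0) (nat_lit 0) (XT.lf (nat_lit 0) (nat_lit 14187019768) (nat_lit 168) (nat_lit 724229360) (nat_lit 252) (nat_lit 54390272138) (nat_lit 6) (nat_lit 5) (nat_lit 8) (nat_lit 5) (nat_lit 9) (nat_lit 5) (nat_lit 406) (nat_lit 306) (nat_lit 149)) (XT.lf (nat_lit 0) (nat_lit 18463366868) (nat_lit 252) (nat_lit 47899825429) (nat_lit 84) (nat_lit 4893096315) (nat_lit 6) (nat_lit 5) (nat_lit 9) (nat_lit 5) (nat_lit 7) (nat_lit 4) (nat_lit 407) (nat_lit 306) (nat_lit 148)))))) (XT.nd (nat_lit 564) (nat_lit 0) (nat_lit 0) (XT.nd (nat_lit 282) (nat_lit 84) (nat_lit 0) (XT.nd (nat_lit 94) (nat_lit 0) (nat_lit 0) (XT.lf (nat_lit 0) (nat_lit 22130248594) (nat_lit 252) (nat_lit 40473194764) (nat_lit 84) (nat_lit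 10668074764) (nat_lit 6) (nat_lit 5) (nat_lit 9) (nat_lit 5) (nat_lit 7) (nat_lit 4) (nat_lit 408) (nat_lit 306) (nat_lit 147)) (XT.nd (nat_lit 94) (nat_lit 0) (nat_lit 0) (XT.lf (nat_lit 0) (nat_lit 25908127781) (nat_lit 252) (nat_lit 32820502661) (nat_lit 84) (nat_lit 16620680477) (nat_lit 6) (nat_lit 5) (nat_lit 9) (nat_lit 5) (nat_lit 7) (nat_lit 4) (nat_lit 409) (nat_lit 306) (nat_lit 146)) (XT.lf (nat_lit 0) (nat_lit 29800525807) (nat_lit 252) (nat_lit 24934616010) (nat_lit 84) (nat_lit 22756461908) (nat_lit 6) (nat_lit 5) (nat_lit 9) (nat_lit 5) (nat_lit 7) (nat_lit 4) (nat_lit 410) (nat_lit 306) (nat_lit 145)))) (XT.nd (nat_lit 94) (nat_lit 84) (nat_lit 0) (XT.lf (nat_lit 0) (nat_lit 33811070796) (nat_lit 252) (nat_lit 16808184337) (nat_lit 84) (nat_lit 29081138247) (nat_lit 6) (nat_lit 5) (nat_lit 9) (nat_lit 5) (nat_lit 7) (nat_lit 4) (nat_lit 411) (nat_lit 306) (nat_lit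 144)) (XT.nd (nat_lit 94) (nat_lit 84) (nat_lit 0) (XT.lf (nat_lit 0) (nat_lit 37943500994) (nat_lit 252) (nat_lit 8433632957) (nat_lit 84) (nat_lit 35600604755) (nat_lit 6) (nat_lit 5) (nat_lit 9) (nat_lit 5) (nat_lit 7) (nat_lit 4) (nat_lit 412) (nat_lit 306) (nat_lit 143)) (XT.lf (nat_lit 0) (nat_lit 200891607) (nat_lit 84) (nat_lit 42002769524) (nat_lit 168) (nat_lit 42122039520) (nat_lit 5) (nat_lit 5) (nat_lit 6) (nat_lit 5) (nat_lit 7) (nat_lit 4) (nat_lit 413) (nat_lit 306) (nat_lit 142))))) (XT.nd (nat_lit 282) (nat_lit 0) (nat_lit 0) (XT.nd (nat_lit 94) (nat_lit 0) (nat_lit 0) (XT.lf (nat_lit 0) (nat_lit 9278226904) (nat_lit 84) (nat_lit 37403355909) (nat_lit 168) (nat_lit 40062217064) (nat_lit 5) (nat_lit 5) (nat_lit 6) (nat_lit 5) (nat_lit 7) (nat_lit 4) (nat_lit 414) (nat_lit 306) (nat_lit 141)) (XT.nd (nat_lit 94) (nat_lit 0) (nat_lit 0) (XT.lf (nat_lit 0) (nat_lit 18633421172)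 (nat_lit 84) (nat_lit 32662635802) (nat_lit 168) (nat_lit 37940880206) (nat_lit 5) (nat_lit 5) (nat_lit 6) (nat_lit 5) (nat_lit 7) (nat_lit 4) (nat_lit 415) (nat_lit 306) (nat_lit 140)) (XT.lf (nat_lit 0) (nat_lit 28275194431) (nat_lit 84) (nat_lit 27776190357) (nat_lit 168) (nat_lit 35756051636) (nat_lit 5) (nat_lit 5) (nat_lit 6) (nat_lit 5) (nat_lit 7) (nat_lit 4) (nat_lit 416) (nat_lit 306) (nat_lit 139)))) (XT.nd (nat_lit 94) (nat_lit 0) (nat_lit 0) (XT.lf (nat_lit 0) (nat_lit 38212533824) (nat_lit 84) (nat_lit 22739464894) (nat_lit 168) (nat_lit 33505694867) (nat_lit 5) (nat_lit 5) (nat_lit 6) (nat_lit 5) (nat_lit 7) (nat_lit 4) (nat_lit 417) (nat_lit 306) (nat_lit 138)) (XT.nd (nat_lit 94) (nat_lit 0) (nat_lit 0) (XT.lf (nat_lit 0) (nat_lit 48454701992) (nat_lit 84) (nat_lit 17547764657) (nat_lit 168) (nat_lit 31187712330) (nat_lit 5) (nat_lit 5) (nat_lit 6) (nat_lit 5) (nat_lit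 7) (nat_lit 4) (nat_lit 418) (nat_lit 306) (nat_lit 137)) (XT.lf (nat_lit 0) (nat_lit 59011245709) (nat_lit 84) (nat_lit 12196250438) (nat_lit 168) (nat_lit 28799943421) (nat_lit 5) (nat_lit 5) (nat_lit 6) (nat_lit 5) (nat_lit 7) (nat_lit 4) (nat_lit 419) (nat_lit 306) (nat_lit 136))))))) (XT.nd (nat_lit 44462) (nat_lit 0) (nat_lit 6300) (XT.nd (nat_lit 43898) (nat_lit 0) (nat_lit 8736) (XT.nd (nat_lit 43616) (nat_lit 0) (nat_lit 9408) (XT.nd (nat_lit 43428) (nat_lit 0) (nat_lit 9408) (XT.lf (nat_lit 0) (nat_lit 69892004779) (nat_lit 84) (nat_lit 6679934065) (nat_lit 168) (nat_lit 26340162492) (nat_lit 5) (nat_lit 5) (nat_lit 6) (nat_lit 5) (nat_lit 7) (nat_lit 4) (nat_lit 420) (nat_lit 306) (nat_lit 135)) (XT.nd (nat_lit 94) (nat_lit 0) (nat_lit 0) (XT.lf (nat_lit 0) (nat_lit 418213274) (nat_lit 924) (nat_lit 1883874184) (nat_lit 924) (nat_lit 1883874184) (nat_lit 117) (nat_lit 3)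 (nat_lit 128) (nat_lit 3) (nat_lit 128) (nat_lit 5) (nat_lit 307) (nat_lit 307) (nat_lit 247)) (XT.lf (nat_lit 0) (nat_lit 1719740062) (nat_lit 924) (nat_lit 762770520) (nat_lit 924) (nat_lit 5986847311) (nat_lit 117) (nat_lit 3) (nat_lit 128) (nat_lit 3) (nat_lit 128) (nat_lit 5) (nat_lit 308) (nat_lit 307) (nat_lit 246)))) (XT.nd (nat_lit 94) (nat_lit 0) (nat_lit 84) (XT.lf (nat_lit 84) (nat_lit 2364820532) (nat_lit 0) (nat_lit 254003893) (nat_lit 924) (nat_lit 5951564073) (nat_lit 118) (nat_lit 5) (nat_lit 117) (nat_lit 3) (nat_lit 128) (nat_lit 5) (nat_lit 309) (nat_lit 307) (nat_lit 245)) (XT.nd (nat_lit 94) (nat_lit 0) (nat_lit 0) (XT.lf (nat_lit 0) (nat_lit 3540061601) (nat_lit 840) (nat_lit 3108553661) (nat_lit 924) (nat_lit 2026322148) (nat_lit 118) (nat_lit 5) (nat_lit 128) (nat_lit 5) (nat_lit 129) (nat_lit 5) (nat_lit 310) (nat_lit 307) (nat_lit 244)) (XT.lf (nat_lit 84)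 (nat_lit 64317778) (nat_lit 0) (nat_lit 4395763977) (nat_lit 924) (nat_lit 4323771408) (nat_lit 119) (nat_lit 5) (nat_lit 118) (nat_lit 5) (nat_lit 129) (nat_lit 5) (nat_lit 311) (nat_lit 307) (nat_lit 243))))) (XT.nd (nat_lit 282) (nat_lit 756) (nat_lit 0) (XT.nd (nat_lit 94) (nat_lit 0) (nat_lit 84) (XT.lf (nat_lit 84) (nat_lit 3382790452) (nat_lit 0) (nat_lit 2026075227) (nat_lit 924) (nat_lit 3487468779) (nat_lit 119) (nat_lit 5) (nat_lit 118) (nat_lit 5) (nat_lit 129) (nat_lit 5) (nat_lit 312) (nat_lit 307) (nat_lit 242)) (XT.nd (nat_lit 94) (nat_lit 0) (nat_lit 0) (XT.lf (nat_lit 0) (nat_lit 6360094191) (nat_lit 840) (nat_lit 2231690230) (nat_lit 924) (nat_lit 421545029) (nat_lit 119) (nat_lit 5) (nat_lit 129) (nat_lit 5) (nat_lit 130) (nat_lit 5) (nat_lit 313) (nat_lit 307) (nat_lit 241)) (XT.lf (nat_lit 84) (nat_lit 1135248744) (nat_lit 0) (nat_lit 6207375958) (nat_lit 924)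 (nat_lit 1791455393) (nat_lit 120) (nat_lit 5) (nat_lit 119) (nat_lit 5) (nat_lit 130) (nat_lit 5) (nat_lit 314) (nat_lit 307) (nat_lit 240)))) (XT.nd (nat_lit 94) (nat_lit 840) (nat_lit 0) (XT.lf (nat_lit 84) (nat_lit 4635260834) (nat_lit 0) (nat_lit 3714199727) (nat_lit 924) (nat_lit 909483674) (nat_lit 120) (nat_lit 5) (nat_lit 119) (nat_lit 5) (nat_lit 130) (nat_lit 5) (nat_lit 315) (nat_lit 307) (nat_lit 239)) (XT.nd (nat_lit 94) (nat_lit 840) (nat_lit 0) (XT.lf (nat_lit 84) (nat_lit 8225720289) (nat_lit 0) (nat_lit 1133226093) (nat_lit 924) (nat_lit 29792281) (nat_lit 120) (nat_lit 5) (nat_lit 119) (nat_lit 5) (nat_lit 130) (nat_lit 5) (nat_lit 316) (nat_lit 307) (nat_lit 238)) (XT.lf (nat_lit 0) (nat_lit 871008410) (nat_lit 924) (nat_lit 7111297292) (nat_lit 1008) (nat_lit 1539788167) (nat_lit 109) (nat_lit 5) (nat_lit 120) (nat_lit 5) (nat_lit 121) (nat_lit 5) (nat_lit 317)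 (nat_lit 307) (nat_lit 237)))))) (XT.nd (nat_lit 564) (nat_lit 2436) (nat_lit 0) (XT.nd (nat_lit 282) (nat_lit 0) (nat_lit 84) (XT.nd (nat_lit 94) (nat_lit 0) (nat_lit 0) (XT.lf (nat_lit 0) (nat_lit 1795577704) (nat_lit 924) (nat_lit 3570343007) (nat_lit 1008) (nat_lit 4293921434) (nat_lit 109) (nat_lit 5) (nat_lit 120) (nat_lit 5) (nat_lit 121) (nat_lit 5) (nat_lit 318) (nat_lit 307) (nat_lit 236)) (XT.nd (nat_lit 94) (nat_lit 0) (nat_lit 84) (XT.lf (nat_lit 84) (nat_lit 63055440) (nat_lit 0) (nat_lit 2659811035) (nat_lit 1008) (nat_lit 7079952418) (nat_lit 110) (nat_lit 5) (nat_lit 109) (nat_lit 5) (nat_lit 121) (nat_lit 5) (nat_lit 319) (nat_lit 307) (nat_lit 235)) (XT.lf (nat_lit 0) (nat_lit 3691964270) (nat_lit 924) (nat_lit 6085402991) (nat_lit 1008) (nat_lit 172605142) (nat_lit 110) (nat_lit 5) (nat_lit 121) (nat_lit 5) (nat_lit 122) (nat_lit 5) (nat_lit 320) (nat_lit 307) (nat_lit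 234)))) (XT.nd (nat_lit 94) (nat_lit 0) (nat_lit 0) (XT.lf (nat_lit 0) (nat_lit 4693209139) (nat_lit 924) (nat_lit 2363812901) (nat_lit 1008) (nat_lit 3044745317) (nat_lit 110) (nat_lit 5) (nat_lit 121) (nat_lit 5) (nat_lit 122) (nat_lit 5) (nat_lit 321) (nat_lit 307) (nat_lit 233)) (XT.nd (nat_lit 94) (nat_lit 0) (nat_lit 0) (XT.lf (nat_lit 84) (nat_lit 1484776314) (nat_lit 0) (nat_lit 4231101543) (nat_lit 1008) (nat_lit 4542828742) (nat_lit 111) (nat_lit 5) (nat_lit 110) (nat_lit 5) (nat_lit 122) (nat_lit 5) (nat_lit 322) (nat_lit 307) (nat_lit 232)) (XT.lf (nat_lit 84) (nat_lit 5484683407) (nat_lit 0) (nat_lit 1286447766) (nat_lit 1008) (nat_lit 3649488803) (nat_lit 111) (nat_lit 5) (nat_lit 110) (nat_lit 5) (nat_lit 122) (nat_lit 5) (nat_lit 323) (nat_lit 307) (nat_lit 231))))) (XT.nd (nat_lit 282) (nat_lit 1680) (nat_lit 0) (XT.nd (nat_lit 94) (nat_lit 924) (nat_lit 0) (XT.lf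 (nat_lit 0) (nat_lit 7853431136) (nat_lit 924) (nat_lit 1014778341) (nat_lit 84) (nat_lit 1719651103) (nat_lit 111) (nat_lit 5) (nat_lit 122) (nat_lit 5) (nat_lit 112) (nat_lit 5) (nat_lit 324) (nat_lit 307) (nat_lit 230)) (XT.nd (nat_lit 94) (nat_lit 0) (nat_lit 0) (XT.lf (nat_lit 0) (nat_lit 3058497225) (nat_lit 924) (nat_lit 5931954013) (nat_lit 1008) (nat_lit 1769306450) (nat_lit 100) (nat_lit 5) (nat_lit 111) (nat_lit 5) (nat_lit 112) (nat_lit 5) (nat_lit 325) (nat_lit 307) (nat_lit 229)) (XT.lf (nat_lit 0) (nat_lit 7261835221) (nat_lit 924) (nat_lit 2889642373) (nat_lit 1008) (nat_lit 785978921) (nat_lit 100) (nat_lit 5) (nat_lit 111) (nat_lit 5) (nat_lit 112) (nat_lit 5) (nat_lit 326) (nat_lit 307) (nat_lit 228)))) (XT.nd (nat_lit 188) (nat_lit 588) (nat_lit 0) (XT.nd (nat_lit 94) (nat_lit 0) (nat_lit 0) (XT.lf (nat_lit 0) (nat_lit 208891637) (nat_lit 1092) (nat_lit 10659636882)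 (nat_lit 84) (nat_lit 252627321) (nat_lit 87) (nat_lit 5) (nat_lit 100) (nat_lit 5) (nat_lit 88) (nat_lit 5) (nat_lit 327) (nat_lit 307) (nat_lit 227)) (XT.lf (nat_lit 0) (nat_lit 1265584172) (nat_lit 1092) (nat_lit 6560882958) (nat_lit 84) (nat_lit 3482480512) (nat_lit 87) (nat_lit 5) (nat_lit 100) (nat_lit 5) (nat_lit 88) (nat_lit 5) (nat_lit 328) (nat_lit 307) (nat_lit 226))) (XT.nd (nat_lit 94) (nat_lit 588) (nat_lit 0) (XT.lf (nat_lit 0) (nat_lit 2334660785) (nat_lit 1092) (nat_lit 2352884253) (nat_lit 84) (nat_lit 6815757648) (nat_lit 87) (nat_lit 5) (nat_lit 100) (nat_lit 5) (nat_lit 88) (nat_lit 5) (nat_lit 329) (nat_lit 307) (nat_lit 225)) (XT.lf (nat_lit 0) (nat_lit 2008753432) (nat_lit 588) (nat_lit 1428291618) (nat_lit 672) (nat_lit 8266739342) (nat_lit 80) (nat_lit 5) (nat_lit 87) (nat_lit 5) (nat_lit 88) (nat_lit 5) (nat_lit 330) (nat_lit 307) (nat_lit 224))))))))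
noncomputable def xc134 : XT := (XT.nd (nat_lit 2256) (nat_lit 1848) (nat_lit 0) (XT.nd (nat_lit 1128) (nat_lit 1512) (nat_lit 0) (XT.nd (nat_lit 564) (nat_lit 924) (nat_lit 0) (XT.nd (nat_lit 282) (nat_lit 504) (nat_lit 0) (XT.nd (nat_lit 94) (nat_lit 504) (nat_lit 0) (XT.lf (nat_lit 0) (nat_lit 4598265158) (nat_lit 672) (nat_lit 5391485827) (nat_lit 84) (nat_lit 1920069125) (nat_lit 80) (nat_lit 5) (nat_lit 88) (nat_lit 5) (nat_lit 81) (nat_lit 5) (nat_lit 331) (nat_lit 307) (nat_lit 223)) (XT.nd (nat_lit 94) (nat_lit 504) (nat_lit 0) (XT.lf (nat_lit 0) (nat_lit 5791357682) (nat_lit 672) (nat_lit 986433796) (nat_lit 84) (nat_lit 5344679828) (nat_lit 80) (nat_lit 5) (nat_lit 88) (nat_lit 5) (nat_lit 81) (nat_lit 5) (nat_lit 332) (nat_lit 307) (nat_lit 222)) (XT.lf (nat_lit 0) (nat_lit 3611156692) (nat_lit 504) (nat_lit 3427932311) (nat_lit 588) (nat_lit 5302175907) (nat_lit 74) (nat_lit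 5) (nat_lit 80) (nat_lit 5) (nat_lit 81) (nat_lit 5) (nat_lit 333) (nat_lit 307) (nat_lit 221)))) (XT.nd (nat_lit 94) (nat_lit 504) (nat_lit 0) (XT.lf (nat_lit 0) (nat_lit 8318380478) (nat_lit 588) (nat_lit 4211961341) (nat_lit 84) (nat_lit 36814534) (nat_lit 74) (nat_lit 5) (nat_lit 81) (nat_lit 5) (nat_lit 75) (nat_lit 5) (nat_lit 334) (nat_lit 307) (nat_lit 220)) (XT.nd (nat_lit 94) (nat_lit 0) (nat_lit 0) (XT.lf (nat_lit 0) (nat_lit 402555250) (nat_lit 504) (nat_lit 9256585493) (nat_lit 588) (nat_lit 3140325243) (nat_lit 68) (nat_lit 5) (nat_lit 74) (nat_lit 5) (nat_lit 75) (nat_lit 5) (nat_lit 335) (nat_lit 307) (nat_lit 219)) (XT.lf (nat_lit 0) (nat_lit 5232838993) (nat_lit 504) (nat_lit 5835701519) (nat_lit 588) (nat_lit 1969686285) (nat_lit 68) (nat_lit 5) (nat_lit 74) (nat_lit 5) (nat_lit 75) (nat_lit 5) (nat_lit 336) (nat_lit 307) (nat_lit 218))))) (XT.nd (nat_lit 282) (nat_lit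 420) (nat_lit 0) (XT.nd (nat_lit 94) (nat_lit 504) (nat_lit 0) (XT.lf (nat_lit 0) (nat_lit 10196785653) (nat_lit 504) (nat_lit 2308465512) (nat_lit 588) (nat_lit 779732081) (nat_lit 68) (nat_lit 5) (nat_lit 74) (nat_lit 5) (nat_lit 75) (nat_lit 5) (nat_lit 337) (nat_lit 307) (nat_lit 217)) (XT.nd (nat_lit 94) (nat_lit 0) (nat_lit 0) (XT.lf (nat_lit 0) (nat_lit 453138970) (nat_lit 504) (nat_lit 11761818841) (nat_lit 84) (nat_lit 1323908854) (nat_lit 62) (nat_lit 5) (nat_lit 68) (nat_lit 5) (nat_lit 63) (nat_lit 5) (nat_lit 338) (nat_lit 307) (nat_lit 216)) (XT.lf (nat_lit 0) (nat_lit 1748401518) (nat_lit 504) (nat_lit 6989363465) (nat_lit 84) (nat_lit 5061435524) (nat_lit 62) (nat_lit 5) (nat_lit 68) (nat_lit 5) (nat_lit 63) (nat_lit 5) (nat_lit 339) (nat_lit 307) (nat_lit 215)))) (XT.nd (nat_lit 94) (nat_lit 420) (nat_lit 0) (XT.lf (nat_lit 0) (nat_lit 3068487487) (nat_lit 504) (nat_lit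 2084880113) (nat_lit 84) (nat_lit 8914788664) (nat_lit 62) (nat_lit 5) (nat_lit 68) (nat_lit 5) (nat_lit 63) (nat_lit 5) (nat_lit 340) (nat_lit 307) (nat_lit 214)) (XT.nd (nat_lit 94) (nat_lit 0) (nat_lit 0) (XT.lf (nat_lit 0) (nat_lit 3016988299) (nat_lit 420) (nat_lit 1427567933) (nat_lit 504) (nat_lit 9900500601) (nat_lit 57) (nat_lit 5) (nat_lit 62) (nat_lit 5) (nat_lit 63) (nat_lit 5) (nat_lit 341) (nat_lit 307) (nat_lit 213)) (XT.lf (nat_lit 0) (nat_lit 5894631703) (nat_lit 504) (nat_lit 6348620549) (nat_lit 84) (nat_lit 2386389081) (nat_lit 57) (nat_lit 5) (nat_lit 63) (nat_lit 5) (nat_lit 58) (nat_lit 5) (nat_lit 342) (nat_lit 307) (nat_lit 212)))))) (XT.nd (nat_lit 564) (nat_lit 756) (nat_lit 0) (XT.nd (nat_lit 282) (nat_lit 420) (nat_lit 0) (XT.nd (nat_lit 94) (nat_lit 336) (nat_lit 0) (XT.lf (nat_lit 0) (nat_lit 7390118210) (nat_lit 504) (nat_lit 1244735027) (nat_lit 84)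 (nat_lit 6288250157) (nat_lit 57) (nat_lit 5) (nat_lit 63) (nat_lit 5) (nat_lit 58) (nat_lit 5) (nat_lit 343) (nat_lit 307) (nat_lit 211)) (XT.nd (nat_lit 94) (nat_lit 0) (nat_lit 0) (XT.lf (nat_lit 0) (nat_lit 4084806791) (nat_lit 336) (nat_lit 4873963050) (nat_lit 420) (nat_lit 6266129548) (nat_lit 53) (nat_lit 5) (nat_lit 57) (nat_lit 5) (nat_lit 58) (nat_lit 5) (nat_lit 344) (nat_lit 307) (nat_lit 210)) (XT.lf (nat_lit 0) (nat_lit 9591238710) (nat_lit 336) (nat_lit 984353172) (nat_lit 420) (nat_lit 4960538905) (nat_lit 53) (nat_lit 5) (nat_lit 57) (nat_lit 5) (nat_lit 58) (nat_lit 5) (nat_lit 345) (nat_lit 307) (nat_lit 209)))) (XT.nd (nat_lit 94) (nat_lit 420) (nat_lit 0) (XT.lf (nat_lit 0) (nat_lit 12259494057) (nat_lit 420) (nat_lit 633383849) (nat_lit 84) (nat_lit 2963670299) (nat_lit 53) (nat_lit 5) (nat_lit 58) (nat_lit 5) (nat_lit 54) (nat_lit 5) (nat_lit 346) (nat_lit 307)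 (nat_lit 208)) (XT.nd (nat_lit 94) (nat_lit 0) (nat_lit 0) (XT.lf (nat_lit 0) (nat_lit 4917506259) (nat_lit 420) (nat_lit 9124275450) (nat_lit 504) (nat_lit 2143746786) (nat_lit 48) (nat_lit 5) (nat_lit 53) (nat_lit 5) (nat_lit 54) (nat_lit 5) (nat_lit 347) (nat_lit 307) (nat_lit 207)) (XT.lf (nat_lit 0) (nat_lit 10639761931) (nat_lit 420) (nat_lit 5233744756) (nat_lit 504) (nat_lit 651440510) (nat_lit 48) (nat_lit 5) (nat_lit 53) (nat_lit 5) (nat_lit 54) (nat_lit 5) (nat_lit 348) (nat_lit 307) (nat_lit 206))))) (XT.nd (nat_lit 282) (nat_lit 336) (nat_lit 0) (XT.nd (nat_lit 94) (nat_lit 336) (nat_lit 0) (XT.lf (nat_lit 0) (nat_lit 857022301) (nat_lit 504) (nat_lit 358302813) (nat_lit 84) (nat_lit 15659725378) (nat_lit 47) (nat_lit 5) (nat_lit 53) (nat_lit 5) (nat_lit 48) (nat_lit 5) (nat_lit 349) (nat_lit 307) (nat_lit 205)) (XT.nd (nat_lit 94) (nat_lit 0) (nat_lit 0) (XT.lf (nat_lit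 0) (nat_lit 2470353180) (nat_lit 420) (nat_lit 11835165006) (nat_lit 84) (nat_lit 2928116059) (nat_lit 43) (nat_lit 5) (nat_lit 48) (nat_lit 5) (nat_lit 44) (nat_lit 5) (nat_lit 350) (nat_lit 307) (nat_lit 204)) (XT.lf (nat_lit 0) (nat_lit 4138246961) (nat_lit 420) (nat_lit 6288247711) (nat_lit 84) (nat_lit 7176751307) (nat_lit 43) (nat_lit 5) (nat_lit 48) (nat_lit 5) (nat_lit 44) (nat_lit 5) (nat_lit 351) (nat_lit 307) (nat_lit 203)))) (XT.nd (nat_lit 94) (nat_lit 336) (nat_lit 0) (XT.lf (nat_lit 0) (nat_lit 5846537526) (nat_lit 420) (nat_lit 582817731) (nat_lit 84) (nat_lit 11555362301) (nat_lit 43) (nat_lit 5) (nat_lit 48) (nat_lit 5) (nat_lit 44) (nat_lit 5) (nat_lit 352) (nat_lit 307) (nat_lit 202)) (XT.nd (nat_lit 94) (nat_lit 0) (nat_lit 0) (XT.lf (nat_lit 0) (nat_lit 5395143102) (nat_lit 336) (nat_lit 2255194565) (nat_lit 420) (nat_lit 10726407749) (nat_lit 39) (nat_lit 5)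 (nat_lit 43) (nat_lit 5) (nat_lit 44) (nat_lit 5) (nat_lit 353) (nat_lit 307) (nat_lit 201)) (XT.lf (nat_lit 0) (nat_lit 9525733904) (nat_lit 420) (nat_lit 7243610067) (nat_lit 84) (nat_lit 2011144432) (nat_lit 39) (nat_lit 5) (nat_lit 44) (nat_lit 5) (nat_lit 40) (nat_lit 5) (nat_lit 354) (nat_lit 307) (nat_lit 200))))))) (XT.nd (nat_lit 1128) (nat_lit 672) (nat_lit 0) (XT.nd (nat_lit 564) (nat_lit 504) (nat_lit 0) (XT.nd (nat_lit 282) (nat_lit 420) (nat_lit 0) (XT.nd (nat_lit 94) (nat_lit 252) (nat_lit 0) (XT.lf (nat_lit 0) (nat_lit 11471869730) (nat_lit 420) (nat_lit 1363672915) (nat_lit 84) (nat_lit 6360860948) (nat_lit 39) (nat_lit 5) (nat_lit 44) (nat_lit 5) (nat_lit 40) (nat_lit 5) (nat_lit 355) (nat_lit 307) (nat_lit 199)) (XT.nd (nat_lit 94) (nat_lit 0) (nat_lit 0) (XT.lf (nat_lit 0) (nat_lit 4782416706) (nat_lit 252) (nat_lit 8733212796) (nat_lit 336) (nat_lit 6108471979)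 (nat_lit 36) (nat_lit 5) (nat_lit 39) (nat_lit 5) (nat_lit 40) (nat_lit 5) (nat_lit 356) (nat_lit 307) (nat_lit 198)) (XT.lf (nat_lit 0) (nat_lit 11135589991) (nat_lit 252) (nat_lit 4491423942) (nat_lit 336) (nat_lit 4437955826) (nat_lit 36) (nat_lit 5) (nat_lit 39) (nat_lit 5) (nat_lit 40) (nat_lit 5) (nat_lit 357) (nat_lit 307) (nat_lit 197)))) (XT.nd (nat_lit 94) (nat_lit 420) (nat_lit 0) (XT.lf (nat_lit 0) (nat_lit 17673728849) (nat_lit 252) (nat_lit 120456240) (nat_lit 336) (nat_lit 2725662257) (nat_lit 36) (nat_lit 5) (nat_lit 39) (nat_lit 5) (nat_lit 40) (nat_lit 5) (nat_lit 358) (nat_lit 307) (nat_lit 196)) (XT.nd (nat_lit 94) (nat_lit 84) (nat_lit 0) (XT.lf (nat_lit 0) (nat_lit 3439581690) (nat_lit 336) (nat_lit 16657189875) (nat_lit 420) (nat_lit 889980807) (nat_lit 32) (nat_lit 5) (nat_lit 36) (nat_lit 5) (nat_lit 37) (nat_lit 5) (nat_lit 359) (nat_lit 307) (nat_lit 195))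 (XT.lf (nat_lit 0) (nat_lit 1004283674) (nat_lit 420) (nat_lit 11510260619) (nat_lit 84) (nat_lit 8952639644) (nat_lit 31) (nat_lit 5) (nat_lit 36) (nat_lit 5) (nat_lit 32) (nat_lit 5) (nat_lit 360) (nat_lit 307) (nat_lit 194))))) (XT.nd (nat_lit 282) (nat_lit 252) (nat_lit 0) (XT.nd (nat_lit 94) (nat_lit 252) (nat_lit 0) (XT.lf (nat_lit 0) (nat_lit 2929698720) (nat_lit 420) (nat_lit 5306989739) (nat_lit 84) (nat_lit 13725857698) (nat_lit 31) (nat_lit 5) (nat_lit 36) (nat_lit 5) (nat_lit 32) (nat_lit 5) (nat_lit 361) (nat_lit 307) (nat_lit 193)) (XT.nd (nat_lit 94) (nat_lit 0) (nat_lit 0) (XT.lf (nat_lit 0) (nat_lit 1099403301) (nat_lit 252) (nat_lit 3817493064) (nat_lit 336) (nat_lit 17556339995) (nat_lit 28) (nat_lit 5) (nat_lit 31) (nat_lit 5) (nat_lit 32) (nat_lit 5) (nat_lit 362) (nat_lit 307) (nat_lit 192)) (XT.lf (nat_lit 0) (nat_lit 7020302584) (nat_lit 336) (nat_lit 15200529015)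 (nat_lit 84) (nat_lit 777269180) (nat_lit 28) (nat_lit 5) (nat_lit 32) (nat_lit 5) (nat_lit 29) (nat_lit 5) (nat_lit 363) (nat_lit 307) (nat_lit 191)))) (XT.nd (nat_lit 94) (nat_lit 252) (nat_lit 0) (XT.lf (nat_lit 0) (nat_lit 9219536289) (nat_lit 336) (nat_lit 8886044598) (nat_lit 84) (nat_lit 5432740347) (nat_lit 28) (nat_lit 5) (nat_lit 32) (nat_lit 5) (nat_lit 29) (nat_lit 5) (nat_lit 364) (nat_lit 307) (nat_lit 190)) (XT.nd (nat_lit 94) (nat_lit 252) (nat_lit 0) (XT.lf (nat_lit 0) (nat_lit 11478777393) (nat_lit 336) (nat_lit 2386624045) (nat_lit 84) (nat_lit 10230173799) (nat_lit 28) (nat_lit 5) (nat_lit 32) (nat_lit 5) (nat_lit 29) (nat_lit 5) (nat_lit 365) (nat_lit 307) (nat_lit 189)) (XT.lf (nat_lit 0) (nat_lit 4392285550) (nat_lit 252) (nat_lit 9451418211) (nat_lit 336) (nat_lit 10825327712) (nat_lit 25) (nat_lit 5) (nat_lit 28) (nat_lit 5) (nat_lit 29) (nat_lit 5) (nat_lit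 366) (nat_lit 307) (nat_lit 188)))))) (XT.nd (nat_lit 564) (nat_lit 420) (nat_lit 0) (XT.nd (nat_lit 282) (nat_lit 252) (nat_lit 0) (XT.nd (nat_lit 94) (nat_lit 0) (nat_lit 0) (XT.lf (nat_lit 0) (nat_lit 11421554939) (nat_lit 252) (nat_lit 4877511392) (nat_lit 336) (nat_lit 8960699192) (nat_lit 25) (nat_lit 5) (nat_lit 28) (nat_lit 5) (nat_lit 29) (nat_lit 5) (nat_lit 367) (nat_lit 307) (nat_lit 187)) (XT.nd (nat_lit 94) (nat_lit 0) (nat_lit 0) (XT.lf (nat_lit 0) (nat_lit 18658662250) (nat_lit 252) (nat_lit 164329081) (nat_lit 336) (nat_lit 7046085715) (nat_lit 25) (nat_lit 5) (nat_lit 28) (nat_lit 5) (nat_lit 29) (nat_lit 5) (nat_lit 368) (nat_lit 307) (nat_lit 186)) (XT.lf (nat_lit 0) (nat_lit 21464381722) (nat_lit 336) (nat_lit 433731157) (nat_lit 84) (nat_lit 4597978042) (nat_lit 25) (nat_lit 5) (nat_lit 29) (nat_lit 5) (nat_lit 26) (nat_lit 5) (nat_lit 369) (nat_lit 307) (nat_lit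 185)))) (XT.nd (nat_lit 94) (nat_lit 84) (nat_lit 0) (XT.lf (nat_lit 0) (nat_lit 6676160164) (nat_lit 168) (nat_lit 17572274225) (nat_lit 252) (nat_lit 2892252424) (nat_lit 23) (nat_lit 5) (nat_lit 25) (nat_lit 5) (nat_lit 26) (nat_lit 5) (nat_lit 370) (nat_lit 307) (nat_lit 184)) (XT.nd (nat_lit 94) (nat_lit 84) (nat_lit 0) (XT.lf (nat_lit 0) (nat_lit 14006052618) (nat_lit 168) (nat_lit 13110256616) (nat_lit 252) (nat_lit 689060807) (nat_lit 23) (nat_lit 5) (nat_lit 25) (nat_lit 5) (nat_lit 26) (nat_lit 5) (nat_lit 371) (nat_lit 307) (nat_lit 183)) (XT.lf (nat_lit 0) (nat_lit 1543651356) (nat_lit 252) (nat_lit 6952664337) (nat_lit 84) (nat_lit 19994096120) (nat_lit 22) (nat_lit 5) (nat_lit 25) (nat_lit 5) (nat_lit 23) (nat_lit 5) (nat_lit 372) (nat_lit 307) (nat_lit 182))))) (XT.nd (nat_lit 282) (nat_lit 168) (nat_lit 0) (XT.nd (nat_lit 94) (nat_lit 0) (nat_lit 0) (XT.lf (nat_lit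 0) (nat_lit 91843268) (nat_lit 252) (nat_lit 3733643397) (nat_lit 336) (nat_lit 25371189283) (nat_lit 19) (nat_lit 5) (nat_lit 22) (nat_lit 5) (nat_lit 23) (nat_lit 5) (nat_lit 373) (nat_lit 307) (nat_lit 181)) (XT.nd (nat_lit 94) (nat_lit 0) (nat_lit 0) (XT.lf (nat_lit 0) (nat_lit 6256442565) (nat_lit 336) (nat_lit 22442181229) (nat_lit 84) (nat_lit 1223805254) (nat_lit 19) (nat_lit 5) (nat_lit 23) (nat_lit 5) (nat_lit 20) (nat_lit 5) (nat_lit 374) (nat_lit 307) (nat_lit 180)) (XT.lf (nat_lit 0) (nat_lit 8794540192) (nat_lit 336) (nat_lit 15620199337) (nat_lit 84) (nat_lit 6254979650) (nat_lit 19) (nat_lit 5) (nat_lit 23) (nat_lit 5) (nat_lit 20) (nat_lit 5) (nat_lit 375) (nat_lit 307) (nat_lit 179)))) (XT.nd (nat_lit 188) (nat_lit 168) (nat_lit 0) (XT.nd (nat_lit 94) (nat_lit 0) (nat_lit 0) (XT.lf (nat_lit 0) (nat_lit 11405107115) (nat_lit 336) (nat_lit 8595489997) (nat_lit 84) (nat_lit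 11439793966) (nat_lit 19) (nat_lit 5) (nat_lit 23) (nat_lit 5) (nat_lit 20) (nat_lit 5) (nat_lit 376) (nat_lit 307) (nat_lit 178)) (XT.lf (nat_lit 0) (nat_lit 14090576656) (nat_lit 336) (nat_lit 1361505444) (nat_lit 84) (nat_lit 16783080992) (nat_lit 19) (nat_lit 5) (nat_lit 23) (nat_lit 5) (nat_lit 20) (nat_lit 5) (nat_lit 377) (nat_lit 307) (nat_lit 177))) (XT.nd (nat_lit 94) (nat_lit 0) (nat_lit 0) (XT.lf (nat_lit 0) (nat_lit 6213689141) (nat_lit 168) (nat_lit 10701403378) (nat_lit 252) (nat_lit 16137772654) (nat_lit 17) (nat_lit 5) (nat_lit 19) (nat_lit 5) (nat_lit 20) (nat_lit 5) (nat_lit 378) (nat_lit 307) (nat_lit 176)) (XT.lf (nat_lit 0) (nat_lit 14044425859) (nat_lit 168) (nat_lit 5791204881) (nat_lit 252) (nat_lit 14060044124) (nat_lit 17) (nat_lit 5) (nat_lit 19) (nat_lit 5) (nat_lit 20) (nat_lit 5) (nat_lit 379) (nat_lit 307) (nat_lit 175))))))))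
noncomputable def xc135 : XT := (XT.nd (nat_lit 2256) (nat_lit 252) (nat_lit 0) (XT.nd (nat_lit 1128) (nat_lit 336) (nat_lit 0) (XT.nd (nat_lit 564) (nat_lit 168) (nat_lit 0) (XT.nd (nat_lit 282) (nat_lit 84) (nat_lit 0) (XT.nd (nat_lit 94) (nat_lit 168) (nat_lit 0) (XT.lf (nat_lit 0) (nat_lit 22110008432) (nat_lit 168) (nat_lit 731121116) (nat_lit 252) (nat_lit 11923675510) (nat_lit 17) (nat_lit 5) (nat_lit 19) (nat_lit 5) (nat_lit 20) (nat_lit 5) (nat_lit 380) (nat_lit 307) (nat_lit 174)) (XT.nd (nat_lit 94) (nat_lit 168) (nat_lit 0) (XT.lf (nat_lit 0) (nat_lit 25978867897) (nat_lit 252) (nat_lit 5287588561) (nat_lit 84) (nat_lit 4393230613) (nat_lit 17) (nat_lit 5) (nat_lit 20) (nat_lit 5) (nat_lit 18) (nat_lit 5) (nat_lit 381) (nat_lit 307) (nat_lit 173)) (XT.lf (nat_lit 0) (nat_lit 2340073744) (nat_lit 168) (nat_lit 26899226289) (nat_lit 252) (nat_lit 7342241577) (nat_lit 15)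 (nat_lit 5) (nat_lit 17) (nat_lit 5) (nat_lit 18) (nat_lit 5) (nat_lit 382) (nat_lit 307) (nat_lit 172)))) (XT.nd (nat_lit 94) (nat_lit 84) (nat_lit 0) (XT.lf (nat_lit 0) (nat_lit 10308765779) (nat_lit 168) (nat_lit 22342047564) (nat_lit 252) (nat_lit 4879628800) (nat_lit 15) (nat_lit 5) (nat_lit 17) (nat_lit 5) (nat_lit 18) (nat_lit 5) (nat_lit 383) (nat_lit 307) (nat_lit 171)) (XT.nd (nat_lit 94) (nat_lit 84) (nat_lit 0) (XT.lf (nat_lit 0) (nat_lit 18517191535) (nat_lit 168) (nat_lit 17645864093) (nat_lit 252) (nat_lit 2345877011) (nat_lit 15) (nat_lit 5) (nat_lit 17) (nat_lit 5) (nat_lit 18) (nat_lit 5) (nat_lit 384) (nat_lit 307) (nat_lit 170)) (XT.lf (nat_lit 0) (nat_lit 256109376) (nat_lit 252) (nat_lit 12547515908) (nat_lit 84) (nat_lit 26714219490) (nat_lit 14) (nat_lit 5) (nat_lit 17) (nat_lit 5) (nat_lit 15) (nat_lit 5) (nat_lit 385) (nat_lit 307) (nat_lit 169))))) (XT.nd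 (nat_lit 282) (nat_lit 0) (nat_lit 0) (XT.nd (nat_lit 94) (nat_lit 168) (nat_lit 0) (XT.lf (nat_lit 0) (nat_lit 2885232698) (nat_lit 252) (nat_lit 4903491319) (nat_lit 84) (nat_lit 32768730636) (nat_lit 14) (nat_lit 5) (nat_lit 17) (nat_lit 5) (nat_lit 15) (nat_lit 5) (nat_lit 386) (nat_lit 307) (nat_lit 168)) (XT.nd (nat_lit 94) (nat_lit 0) (nat_lit 0) (XT.lf (nat_lit 0) (nat_lit 3031813368) (nat_lit 168) (nat_lit 2589470359) (nat_lit 252) (nat_lit 36007236628) (nat_lit 12) (nat_lit 5) (nat_lit 14) (nat_lit 5) (nat_lit 15) (nat_lit 5) (nat_lit 387) (nat_lit 307) (nat_lit 167)) (XT.lf (nat_lit 0) (nat_lit 8516747720) (nat_lit 252) (nat_lit 31448987120) (nat_lit 84) (nat_lit 2764757406) (nat_lit 12) (nat_lit 5) (nat_lit 15) (nat_lit 5) (nat_lit 13) (nat_lit 5) (nat_lit 388) (nat_lit 307) (nat_lit 166)))) (XT.nd (nat_lit 94) (nat_lit 0) (nat_lit 0) (XT.lf (nat_lit 0) (nat_lit 11523994804)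 (nat_lit 252) (nat_lit 24112803430) (nat_lit 84) (nat_lit 8229159432) (nat_lit 12) (nat_lit 5) (nat_lit 15) (nat_lit 5) (nat_lit 13) (nat_lit 5) (nat_lit 389) (nat_lit 307) (nat_lit 165)) (XT.nd (nat_lit 94) (nat_lit 0) (nat_lit 0) (XT.lf (nat_lit 0) (nat_lit 14620140184) (nat_lit 252) (nat_lit 16555629962) (nat_lit 84) (nat_lit 13861001170) (nat_lit 12) (nat_lit 5) (nat_lit 15) (nat_lit 5) (nat_lit 13) (nat_lit 5) (nat_lit 390) (nat_lit 307) (nat_lit 164)) (XT.lf (nat_lit 0) (nat_lit 17808069791) (nat_lit 252) (nat_lit 8770422638) (nat_lit 84) (nat_lit 19665532085) (nat_lit 12) (nat_lit 5) (nat_lit 15) (nat_lit 5) (nat_lit 13) (nat_lit 5) (nat_lit 391) (nat_lit 307) (nat_lit 163)))))) (XT.nd (nat_lit 564) (nat_lit 168) (nat_lit 0) (XT.nd (nat_lit 282) (nat_lit 0) (nat_lit 0) (XT.nd (nat_lit 94) (nat_lit 168) (nat_lit 0) (XT.lf (nat_lit 0) (nat_lit 21090755110) (nat_lit 252) (nat_lit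 749924828) (nat_lit 84) (nat_lit 25648162609) (nat_lit 12) (nat_lit 5) (nat_lit 15) (nat_lit 5) (nat_lit 13) (nat_lit 5) (nat_lit 392) (nat_lit 307) (nat_lit 162)) (XT.nd (nat_lit 94) (nat_lit 0) (nat_lit 0) (XT.lf (nat_lit 0) (nat_lit 7667829078) (nat_lit 168) (nat_lit 16879492682) (nat_lit 252) (nat_lit 24222705916) (nat_lit 10) (nat_lit 5) (nat_lit 12) (nat_lit 5) (nat_lit 13) (nat_lit 5) (nat_lit 393) (nat_lit 307) (nat_lit 161)) (XT.lf (nat_lit 0) (nat_lit 16356621784) (nat_lit 168) (nat_lit 11758361212) (nat_lit 252) (nat_lit 21975837371) (nat_lit 10) (nat_lit 5) (nat_lit 12) (nat_lit 5) (nat_lit 13) (nat_lit 5) (nat_lit 394) (nat_lit 307) (nat_lit 160)))) (XT.nd (nat_lit 94) (nat_lit 0) (nat_lit 0) (XT.lf (nat_lit 0) (nat_lit 25309132161) (nat_lit 168) (nat_lit 6480339773) (nat_lit 252) (nat_lit 19663215164) (nat_lit 10) (nat_lit 5) (nat_lit 12) (nat_lit 5) (nat_lit 13) (nat_lit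 5) (nat_lit 395) (nat_lit 307) (nat_lit 159)) (XT.nd (nat_lit 94) (nat_lit 0) (nat_lit 0) (XT.lf (nat_lit 0) (nat_lit 34533704887) (nat_lit 168) (nat_lit 1040508698) (nat_lit 252) (nat_lit 17282683689) (nat_lit 10) (nat_lit 5) (nat_lit 12) (nat_lit 5) (nat_lit 13) (nat_lit 5) (nat_lit 396) (nat_lit 307) (nat_lit 158)) (XT.lf (nat_lit 0) (nat_lit 39518033018) (nat_lit 252) (nat_lit 10311118829) (nat_lit 84) (nat_lit 4474203701) (nat_lit 10) (nat_lit 5) (nat_lit 13) (nat_lit 5) (nat_lit 11) (nat_lit 4) (nat_lit 397) (nat_lit 307) (nat_lit 157))))) (XT.nd (nat_lit 282) (nat_lit 84) (nat_lit 0) (XT.nd (nat_lit 94) (nat_lit 84) (nat_lit 0) (XT.lf (nat_lit 0) (nat_lit 43591296058) (nat_lit 252) (nat_lit 2066555943) (nat_lit 84) (nat_lit 10136590786) (nat_lit 10) (nat_lit 5) (nat_lit 13) (nat_lit 5) (nat_lit 11) (nat_lit 4) (nat_lit 398) (nat_lit 307) (nat_lit 156)) (XT.nd (nat_lit 94) (nat_lit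 0) (nat_lit 0) (XT.lf (nat_lit 0) (nat_lit 6560686246) (nat_lit 84) (nat_lit 41291874013) (nat_lit 168) (nat_lit 9477290997) (nat_lit 9) (nat_lit 5) (nat_lit 10) (nat_lit 5) (nat_lit 11) (nat_lit 4) (nat_lit 399) (nat_lit 307) (nat_lit 155)) (XT.lf (nat_lit 0) (nat_lit 15494148978) (nat_lit 84) (nat_lit 36770043340) (nat_lit 168) (nat_lit 6648109560) (nat_lit 9) (nat_lit 5) (nat_lit 10) (nat_lit 5) (nat_lit 11) (nat_lit 4) (nat_lit 400) (nat_lit 307) (nat_lit 154)))) (XT.nd (nat_lit 94) (nat_lit 84) (nat_lit 0) (XT.lf (nat_lit 0) (nat_lit 24699666545) (nat_lit 84) (nat_lit 32109715771) (nat_lit 168) (nat_lit 3734535931) (nat_lit 9) (nat_lit 5) (nat_lit 10) (nat_lit 5) (nat_lit 11) (nat_lit 4) (nat_lit 401) (nat_lit 307) (nat_lit 153)) (XT.nd (nat_lit 94) (nat_lit 84) (nat_lit 0) (XT.lf (nat_lit 0) (nat_lit 34185819455) (nat_lit 84) (nat_lit 27306547390) (nat_lit 168) (nat_lit 733854353)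 (nat_lit 9) (nat_lit 5) (nat_lit 10) (nat_lit 5) (nat_lit 11) (nat_lit 4) (nat_lit 402) (nat_lit 307) (nat_lit 152)) (XT.lf (nat_lit 0) (nat_lit 2309249221) (nat_lit 168) (nat_lit 20022708096) (nat_lit 84) (nat_lit 41628096747) (nat_lit 8) (nat_lit 5) (nat_lit 10) (nat_lit 5) (nat_lit 9) (nat_lit 5) (nat_lit 403) (nat_lit 307) (nat_lit 151))))))) (XT.nd (nat_lit 1128) (nat_lit 0) (nat_lit 0) (XT.nd (nat_lit 564) (nat_lit 84) (nat_lit 0) (XT.nd (nat_lit 282) (nat_lit 0) (nat_lit 0) (XT.nd (nat_lit 94) (nat_lit 168) (nat_lit 0) (XT.lf (nat_lit 0) (nat_lit 5428483491) (nat_lit 168) (nat_lit 11768496932) (nat_lit 84) (nat_lit 48550523751) (nat_lit 8) (nat_lit 5) (nat_lit 10) (nat_lit 5) (nat_lit 9) (nat_lit 5) (nat_lit 404) (nat_lit 307) (nat_lit 150)) (XT.nd (nat_lit 94) (nat_lit 168) (nat_lit 0) (XT.lf (nat_lit 0) (nat_lit 8641541438) (nat_lit 168) (nat_lit 3262794537) (nat_lit 84) (nat_lit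 55686127321) (nat_lit 8) (nat_lit 5) (nat_lit 10) (nat_lit 5) (nat_lit 9) (nat_lit 5) (nat_lit 405) (nat_lit 307) (nat_lit 149)) (XT.lf (nat_lit 0) (nat_lit 5615466427) (nat_lit 168) (nat_lit 6391657663) (nat_lit 252) (nat_lit 57481798281) (nat_lit 6) (nat_lit 5) (nat_lit 8) (nat_lit 5) (nat_lit 9) (nat_lit 5) (nat_lit 406) (nat_lit 307) (nat_lit 148)))) (XT.nd (nat_lit 94) (nat_lit 0) (nat_lit 0) (XT.lf (nat_lit 0) (nat_lit 14833908777) (nat_lit 168) (nat_lit 674443669) (nat_lit 252) (nat_lit 55936919015) (nat_lit 6) (nat_lit 5) (nat_lit 8) (nat_lit 5) (nat_lit 9) (nat_lit 5) (nat_lit 407) (nat_lit 307) (nat_lit 147)) (XT.nd (nat_lit 94) (nat_lit 0) (nat_lit 0) (XT.lf (nat_lit 0) (nat_lit 19167226093) (nat_lit 252) (nat_lit 49180091732) (nat_lit 84) (nat_lit 5113435444) (nat_lit 6) (nat_lit 5) (nat_lit 9) (nat_lit 5) (nat_lit 7) (nat_lit 4) (nat_lit 408) (nat_lit 307) (nat_lit 146))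 (XT.lf (nat_lit 0) (nat_lit 22943827379) (nat_lit 252) (nat_lit 41529388258) (nat_lit 84) (nat_lit 11065373969) (nat_lit 6) (nat_lit 5) (nat_lit 9) (nat_lit 5) (nat_lit 7) (nat_lit 4) (nat_lit 409) (nat_lit 307) (nat_lit 145))))) (XT.nd (nat_lit 282) (nat_lit 84) (nat_lit 0) (XT.nd (nat_lit 94) (nat_lit 0) (nat_lit 0) (XT.lf (nat_lit 0) (nat_lit 26834985929) (nat_lit 252) (nat_lit 33645430442) (nat_lit 84) (nat_lit 17200508273) (nat_lit 6) (nat_lit 5) (nat_lit 9) (nat_lit 5) (nat_lit 7) (nat_lit 4) (nat_lit 410) (nat_lit 307) (nat_lit 144)) (XT.nd (nat_lit 94) (nat_lit 0) (nat_lit 0) (XT.lf (nat_lit 0) (nat_lit 30844328709) (nat_lit 252) (nat_lit 25520869608) (nat_lit 84) (nat_lit 23524556941) (nat_lit 6) (nat_lit 5) (nat_lit 9) (nat_lit 5) (nat_lit 7) (nat_lit 4) (nat_lit 411) (nat_lit 307) (nat_lit 143)) (XT.lf (nat_lit 0) (nat_lit 34975592848) (nat_lit 252) (nat_lit 17148132816)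 (nat_lit 84) (nat_lit 30043414652) (nat_lit 6) (nat_lit 5) (nat_lit 9) (nat_lit 5) (nat_lit 7) (nat_lit 4) (nat_lit 412) (nat_lit 307) (nat_lit 142)))) (XT.nd (nat_lit 94) (nat_lit 84) (nat_lit 0) (XT.lf (nat_lit 0) (nat_lit 39232629115) (nat_lit 252) (nat_lit 8519415796) (nat_lit 84) (nat_lit 36763157663) (nat_lit 6) (nat_lit 5) (nat_lit 9) (nat_lit 5) (nat_lit 7) (nat_lit 4) (nat_lit 413) (nat_lit 307) (nat_lit 141)) (XT.nd (nat_lit 94) (nat_lit 0) (nat_lit 0) (XT.lf (nat_lit 0) (nat_lit 381000631) (nat_lit 84) (nat_lit 43242184458) (nat_lit 168) (nat_lit 43312828420) (nat_lit 5) (nat_lit 5) (nat_lit 6) (nat_lit 5) (nat_lit 7) (nat_lit 4) (nat_lit 414) (nat_lit 307) (nat_lit 140)) (XT.lf (nat_lit 0) (nat_lit 9734505075) (nat_lit 84) (nat_lit 38502073403) (nat_lit 168) (nat_lit 41192609105) (nat_lit 5) (nat_lit 5) (nat_lit 6) (nat_lit 5) (nat_lit 7) (nat_lit 4) (nat_lit 415) (nat_lit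 307) (nat_lit 139)))))) (XT.nd (nat_lit 43992) (nat_lit 0) (nat_lit 9408) (XT.nd (nat_lit 282) (nat_lit 0) (nat_lit 0) (XT.nd (nat_lit 94) (nat_lit 0) (nat_lit 0) (XT.lf (nat_lit 0) (nat_lit 19374639321) (nat_lit 84) (nat_lit 33616218697) (nat_lit 168) (nat_lit 39008864478) (nat_lit 5) (nat_lit 5) (nat_lit 6) (nat_lit 5) (nat_lit 7) (nat_lit 4) (nat_lit 416) (nat_lit 307) (nat_lit 138)) (XT.nd (nat_lit 94) (nat_lit 0) (nat_lit 0) (XT.lf (nat_lit 0) (nat_lit 29310388981) (nat_lit 84) (nat_lit 28580066211) (nat_lit 168) (nat_lit 36759559058) (nat_lit 5) (nat_lit 5) (nat_lit 6) (nat_lit 5) (nat_lit 7) (nat_lit 4) (nat_lit 417) (nat_lit 307) (nat_lit 137)) (XT.lf (nat_lit 0) (nat_lit 39551015217) (nat_lit 84) (nat_lit 23388921722) (nat_lit 168) (nat_lit 34442596259) (nat_lit 5) (nat_lit 5) (nat_lit 6) (nat_lit 5) (nat_lit 7) (nat_lit 4) (nat_lit 418) (nat_lit 307) (nat_lit 136)))) (XT.nd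 (nat_lit 94) (nat_lit 0) (nat_lit 0) (XT.lf (nat_lit 0) (nat_lit 50106063365) (nat_lit 84) (nat_lit 18037946541) (nat_lit 168) (nat_lit 32055816427) (nat_lit 5) (nat_lit 5) (nat_lit 6) (nat_lit 5) (nat_lit 7) (nat_lit 4) (nat_lit 419) (nat_lit 307) (nat_lit 135)) (XT.nd (nat_lit 43522) (nat_lit 0) (nat_lit 9408) (XT.lf (nat_lit 0) (nat_lit 60985371834) (nat_lit 84) (nat_lit 12522152999) (nat_lit 168) (nat_lit 29596994835) (nat_lit 5) (nat_lit 5) (nat_lit 6) (nat_lit 5) (nat_lit 7) (nat_lit 4) (nat_lit 420) (nat_lit 307) (nat_lit 134)) (XT.lf (nat_lit 0) (nat_lit 1292892819) (nat_lit 924) (nat_lit 1495412075) (nat_lit 924) (nat_lit 1495412075) (nat_lit 117) (nat_lit 3) (nat_lit 128) (nat_lit 3) (nat_lit 128) (nat_lit 5) (nat_lit 308) (nat_lit 308) (nat_lit 245))))) (XT.nd (nat_lit 282) (nat_lit 0) (nat_lit 84) (XT.nd (nat_lit 94) (nat_lit 0) (nat_lit 0) (XT.lf (nat_lit 84) (nat_lit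 82089518) (nat_lit 0) (nat_lit 3363386781) (nat_lit 924) (nat_lit 5224312392) (nat_lit 118) (nat_lit 5) (nat_lit 117) (nat_lit 3) (nat_lit 128) (nat_lit 5) (nat_lit 309) (nat_lit 308) (nat_lit 244)) (XT.nd (nat_lit 94) (nat_lit 0) (nat_lit 84) (XT.lf (nat_lit 84) (nat_lit 3296205876) (nat_lit 0) (nat_lit 1033662491) (nat_lit 924) (nat_lit 4445711282) (nat_lit 118) (nat_lit 5) (nat_lit 117) (nat_lit 3) (nat_lit 128) (nat_lit 5) (nat_lit 310) (nat_lit 308) (nat_lit 243)) (XT.lf (nat_lit 0) (nat_lit 5223231431) (nat_lit 840) (nat_lit 2306545403) (nat_lit 924) (nat_lit 1355641782) (nat_lit 118) (nat_lit 5) (nat_lit 128) (nat_lit 5) (nat_lit 129) (nat_lit 5) (nat_lit 311) (nat_lit 308) (nat_lit 242)))) (XT.nd (nat_lit 188) (nat_lit 0) (nat_lit 0) (XT.nd (nat_lit 94) (nat_lit 0) (nat_lit 0) (XT.lf (nat_lit 84) (nat_lit 955589827) (nat_lit 0) (nat_lit 5177694467) (nat_lit 924) (nat_lit 2865910212)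 (nat_lit 119) (nat_lit 5) (nat_lit 118) (nat_lit 5) (nat_lit 129) (nat_lit 5) (nat_lit 312) (nat_lit 308) (nat_lit 241)) (XT.lf (nat_lit 84) (nat_lit 4350196430) (nat_lit 0) (nat_lit 2715131675) (nat_lit 924) (nat_lit 2051547227) (nat_lit 119) (nat_lit 5) (nat_lit 118) (nat_lit 5) (nat_lit 129) (nat_lit 5) (nat_lit 313) (nat_lit 308) (nat_lit 240))) (XT.nd (nat_lit 94) (nat_lit 0) (nat_lit 84) (XT.lf (nat_lit 84) (nat_lit 7833011231) (nat_lit 0) (nat_lit 163868693) (nat_lit 924) (nat_lit 1242414762) (nat_lit 119) (nat_lit 5) (nat_lit 118) (nat_lit 5) (nat_lit 129) (nat_lit 5) (nat_lit 314) (nat_lit 308) (nat_lit 239)) (XT.lf (nat_lit 84) (nat_lit 2057582855) (nat_lit 0) (nat_lit 6916223433) (nat_lit 924) (nat_lit 391365443) (nat_lit 120) (nat_lit 5) (nat_lit 119) (nat_lit 5) (nat_lit 130) (nat_lit 5) (nat_lit 315) (nat_lit 308) (nat_lit 238))))))))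
noncomputable def xc136 : XT := (XT.nd (nat_lit 2256) (nat_lit 2856) (nat_lit 0) (XT.nd (nat_lit 1128) (nat_lit 3108) (nat_lit 0) (XT.nd (nat_lit 564) (nat_lit 756) (nat_lit 0) (XT.nd (nat_lit 282) (nat_lit 0) (nat_lit 84) (XT.nd (nat_lit 94) (nat_lit 0) (nat_lit 0) (XT.lf (nat_lit 0) (nat_lit 464626149) (nat_lit 924) (nat_lit 3860755217) (nat_lit 1008) (nat_lit 5169944951) (nat_lit 108) (nat_lit 5) (nat_lit 119) (nat_lit 5) (nat_lit 120) (nat_lit 5) (nat_lit 316) (nat_lit 308) (nat_lit 237)) (XT.nd (nat_lit 94) (nat_lit 0) (nat_lit 84) (XT.lf (nat_lit 0) (nat_lit 1311718438) (nat_lit 924) (nat_lit 328776463) (nat_lit 1008) (nat_lit 7989902025) (nat_lit 108) (nat_lit 5) (nat_lit 119) (nat_lit 5) (nat_lit 120) (nat_lit 5) (nat_lit 317) (nat_lit 308) (nat_lit 236)) (XT.lf (nat_lit 0) (nat_lit 2203570122) (nat_lit 924) (nat_lit 6417930658) (nat_lit 1008) (nat_lit 1147734526) (nat_lit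 109) (nat_lit 5) (nat_lit 120) (nat_lit 5) (nat_lit 121) (nat_lit 5) (nat_lit 318) (nat_lit 308) (nat_lit 235)))) (XT.nd (nat_lit 94) (nat_lit 0) (nat_lit 0) (XT.lf (nat_lit 0) (nat_lit 3117545609) (nat_lit 924) (nat_lit 2794683339) (nat_lit 1008) (nat_lit 4000469395) (nat_lit 109) (nat_lit 5) (nat_lit 120) (nat_lit 5) (nat_lit 121) (nat_lit 5) (nat_lit 319) (nat_lit 308) (nat_lit 234)) (XT.nd (nat_lit 94) (nat_lit 0) (nat_lit 0) (XT.lf (nat_lit 84) (nat_lit 942377060) (nat_lit 0) (nat_lit 3101831734) (nat_lit 1008) (nat_lit 6017029897) (nat_lit 110) (nat_lit 5) (nat_lit 109) (nat_lit 5) (nat_lit 121) (nat_lit 5) (nat_lit 320) (nat_lit 308) (nat_lit 233)) (XT.lf (nat_lit 84) (nat_lit 4837214884) (nat_lit 0) (nat_lit 167140107) (nat_lit 1008) (nat_lit 5210021934) (nat_lit 110) (nat_lit 5) (nat_lit 109) (nat_lit 5) (nat_lit 121) (nat_lit 5) (nat_lit 321) (nat_lit 308) (nat_lit 232)))))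 (XT.nd (nat_lit 282) (nat_lit 924) (nat_lit 0) (XT.nd (nat_lit 94) (nat_lit 0) (nat_lit 0) (XT.lf (nat_lit 0) (nat_lit 5999010726) (nat_lit 924) (nat_lit 1565562010) (nat_lit 1008) (nat_lit 2807678971) (nat_lit 110) (nat_lit 5) (nat_lit 121) (nat_lit 5) (nat_lit 122) (nat_lit 5) (nat_lit 322) (nat_lit 308) (nat_lit 231)) (XT.nd (nat_lit 94) (nat_lit 0) (nat_lit 0) (XT.lf (nat_lit 84) (nat_lit 2393510021) (nat_lit 0) (nat_lit 4633542157) (nat_lit 1008) (nat_lit 3508021595) (nat_lit 111) (nat_lit 5) (nat_lit 110) (nat_lit 5) (nat_lit 122) (nat_lit 5) (nat_lit 323) (nat_lit 308) (nat_lit 230)) (XT.lf (nat_lit 84) (nat_lit 6491474492) (nat_lit 0) (nat_lit 1589447400) (nat_lit 1008) (nat_lit 2622336983) (nat_lit 111) (nat_lit 5) (nat_lit 110) (nat_lit 5) (nat_lit 122) (nat_lit 5) (nat_lit 324) (nat_lit 308) (nat_lit 229)))) (XT.nd (nat_lit 94) (nat_lit 1008) (nat_lit 0) (XT.lf (nat_lit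 0) (nat_lit 9161170209) (nat_lit 924) (nat_lit 192913094) (nat_lit 84) (nat_lit 1522893869) (nat_lit 111) (nat_lit 5) (nat_lit 122) (nat_lit 5) (nat_lit 112) (nat_lit 5) (nat_lit 325) (nat_lit 308) (nat_lit 228)) (XT.nd (nat_lit 94) (nat_lit 84) (nat_lit 0) (XT.lf (nat_lit 0) (nat_lit 3997994882) (nat_lit 924) (nat_lit 6311821683) (nat_lit 1008) (nat_lit 745302632) (nat_lit 100) (nat_lit 5) (nat_lit 111) (nat_lit 5) (nat_lit 112) (nat_lit 5) (nat_lit 326) (nat_lit 308) (nat_lit 227)) (XT.lf (nat_lit 0) (nat_lit 231312962) (nat_lit 1008) (nat_lit 2935578368) (nat_lit 84) (nat_lit 8072511083) (nat_lit 99) (nat_lit 5) (nat_lit 111) (nat_lit 5) (nat_lit 100) (nat_lit 5) (nat_lit 327) (nat_lit 308) (nat_lit 226)))))) (XT.nd (nat_lit 564) (nat_lit 1512) (nat_lit 0) (XT.nd (nat_lit 282) (nat_lit 588) (nat_lit 0) (XT.nd (nat_lit 94) (nat_lit 0) (nat_lit 0) (XT.lf (nat_lit 0) (nat_lit 1216534270)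 (nat_lit 1092) (nat_lit 10114562097) (nat_lit 84) (nat_lit 98367676) (nat_lit 87) (nat_lit 5) (nat_lit 100) (nat_lit 5) (nat_lit 88) (nat_lit 5) (nat_lit 328) (nat_lit 308) (nat_lit 225)) (XT.nd (nat_lit 94) (nat_lit 0) (nat_lit 0) (XT.lf (nat_lit 0) (nat_lit 2275881289) (nat_lit 1092) (nat_lit 5915071952) (nat_lit 84) (nat_lit 3433220054) (nat_lit 87) (nat_lit 5) (nat_lit 100) (nat_lit 5) (nat_lit 88) (nat_lit 5) (nat_lit 329) (nat_lit 308) (nat_lit 224)) (XT.lf (nat_lit 0) (nat_lit 3348901427) (nat_lit 1092) (nat_lit 1602158895) (nat_lit 84) (nat_lit 6874555977) (nat_lit 87) (nat_lit 5) (nat_lit 100) (nat_lit 5) (nat_lit 88) (nat_lit 5) (nat_lit 330) (nat_lit 308) (nat_lit 223)))) (XT.nd (nat_lit 94) (nat_lit 0) (nat_lit 0) (XT.lf (nat_lit 0) (nat_lit 2886350693) (nat_lit 588) (nat_lit 1578877112) (nat_lit 672) (nat_lit 7567865391) (nat_lit 80) (nat_lit 5) (nat_lit 87) (nat_lit 5)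 (nat_lit 88) (nat_lit 5) (nat_lit 331) (nat_lit 308) (nat_lit 222)) (XT.nd (nat_lit 94) (nat_lit 0) (nat_lit 0) (XT.lf (nat_lit 0) (nat_lit 5633711247) (nat_lit 672) (nat_lit 4734287252) (nat_lit 84) (nat_lit 1878556762) (nat_lit 80) (nat_lit 5) (nat_lit 88) (nat_lit 5) (nat_lit 81) (nat_lit 5) (nat_lit 332) (nat_lit 308) (nat_lit 221)) (XT.lf (nat_lit 0) (nat_lit 6836942020) (nat_lit 672) (nat_lit 217464615) (nat_lit 84) (nat_lit 5412368291) (nat_lit 80) (nat_lit 5) (nat_lit 88) (nat_lit 5) (nat_lit 81) (nat_lit 5) (nat_lit 333) (nat_lit 308) (nat_lit 220))))) (XT.nd (nat_lit 282) (nat_lit 504) (nat_lit 0) (XT.nd (nat_lit 94) (nat_lit 504) (nat_lit 0) (XT.lf (nat_lit 0) (nat_lit 4514556466) (nat_lit 504) (nat_lit 3590607498) (nat_lit 588) (nat_lit 4587890705) (nat_lit 74) (nat_lit 5) (nat_lit 80) (nat_lit 5) (nat_lit 81) (nat_lit 5) (nat_lit 334) (nat_lit 308) (nat_lit 219)) (XT.nd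 (nat_lit 94) (nat_lit 504) (nat_lit 0) (XT.lf (nat_lit 0) (nat_lit 9382258801) (nat_lit 504) (nat_lit 15976943) (nat_lit 588) (nat_lit 3528650689) (nat_lit 74) (nat_lit 5) (nat_lit 80) (nat_lit 5) (nat_lit 81) (nat_lit 5) (nat_lit 335) (nat_lit 308) (nat_lit 218)) (XT.lf (nat_lit 0) (nat_lit 1205017795) (nat_lit 504) (nat_lit 9558509415) (nat_lit 588) (nat_lit 2403529862) (nat_lit 68) (nat_lit 5) (nat_lit 74) (nat_lit 5) (nat_lit 75) (nat_lit 5) (nat_lit 336) (nat_lit 308) (nat_lit 217)))) (XT.nd (nat_lit 94) (nat_lit 504) (nat_lit 0) (XT.lf (nat_lit 0) (nat_lit 6161287198) (nat_lit 504) (nat_lit 6031127928) (nat_lit 588) (nat_lit 1221682095) (nat_lit 68) (nat_lit 5) (nat_lit 74) (nat_lit 5) (nat_lit 75) (nat_lit 5) (nat_lit 337) (nat_lit 308) (nat_lit 216)) (XT.nd (nat_lit 94) (nat_lit 504) (nat_lit 0) (XT.lf (nat_lit 0) (nat_lit 11256077276) (nat_lit 504) (nat_lit 2394111029) (nat_lit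 588) (nat_lit 19166176) (nat_lit 68) (nat_lit 5) (nat_lit 74) (nat_lit 5) (nat_lit 75) (nat_lit 5) (nat_lit 338) (nat_lit 308) (nat_lit 215)) (XT.lf (nat_lit 0) (nat_lit 1220502633) (nat_lit 504) (nat_lit 11344203334) (nat_lit 84) (nat_lit 1366761215) (nat_lit 62) (nat_lit 5) (nat_lit 68) (nat_lit 5) (nat_lit 63) (nat_lit 5) (nat_lit 339) (nat_lit 308) (nat_lit 214))))))) (XT.nd (nat_lit 1128) (nat_lit 1260) (nat_lit 0) (XT.nd (nat_lit 564) (nat_lit 840) (nat_lit 0) (XT.nd (nat_lit 282) (nat_lit 336) (nat_lit 0) (XT.nd (nat_lit 94) (nat_lit 420) (nat_lit 0) (XT.lf (nat_lit 0) (nat_lit 2533267683) (nat_lit 504) (nat_lit 6447321909) (nat_lit 84) (nat_lit 5220096754) (nat_lit 62) (nat_lit 5) (nat_lit 68) (nat_lit 5) (nat_lit 63) (nat_lit 5) (nat_lit 340) (nat_lit 308) (nat_lit 213)) (XT.nd (nat_lit 94) (nat_lit 420) (nat_lit 0) (XT.lf (nat_lit 0) (nat_lit 3872306737) (nat_lit 504) (nat_lit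 1413612440) (nat_lit 84) (nat_lit 9192851020) (nat_lit 62) (nat_lit 5) (nat_lit 68) (nat_lit 5) (nat_lit 63) (nat_lit 5) (nat_lit 341) (nat_lit 308) (nat_lit 212)) (XT.lf (nat_lit 0) (nat_lit 3838963576) (nat_lit 420) (nat_lit 1437987336) (nat_lit 504) (nat_lit 9487846454) (nat_lit 57) (nat_lit 5) (nat_lit 62) (nat_lit 5) (nat_lit 63) (nat_lit 5) (nat_lit 342) (nat_lit 308) (nat_lit 211)))) (XT.nd (nat_lit 94) (nat_lit 336) (nat_lit 0) (XT.lf (nat_lit 0) (nat_lit 6751418717) (nat_lit 504) (nat_lit 5815001774) (nat_lit 84) (nat_lit 2492523785) (nat_lit 57) (nat_lit 5) (nat_lit 63) (nat_lit 5) (nat_lit 58) (nat_lit 5) (nat_lit 343) (nat_lit 308) (nat_lit 210)) (XT.nd (nat_lit 94) (nat_lit 336) (nat_lit 0) (XT.lf (nat_lit 0) (nat_lit 8272997937) (nat_lit 504) (nat_lit 574858173) (nat_lit 84) (nat_lit 6514375672) (nat_lit 57) (nat_lit 5) (nat_lit 63) (nat_lit 5) (nat_lit 58) (nat_lit 5)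 (nat_lit 344) (nat_lit 308) (nat_lit 209)) (XT.lf (nat_lit 0) (nat_lit 4912726883) (nat_lit 336) (nat_lit 4964849810) (nat_lit 420) (nat_lit 5796297328) (nat_lit 53) (nat_lit 5) (nat_lit 57) (nat_lit 5) (nat_lit 58) (nat_lit 5) (nat_lit 345) (nat_lit 308) (nat_lit 208))))) (XT.nd (nat_lit 282) (nat_lit 420) (nat_lit 0) (XT.nd (nat_lit 94) (nat_lit 420) (nat_lit 0) (XT.lf (nat_lit 0) (nat_lit 10568771844) (nat_lit 336) (nat_lit 956472296) (nat_lit 420) (nat_lit 4470200929) (nat_lit 53) (nat_lit 5) (nat_lit 57) (nat_lit 5) (nat_lit 58) (nat_lit 5) (nat_lit 346) (nat_lit 308) (nat_lit 207)) (XT.nd (nat_lit 94) (nat_lit 0) (nat_lit 0) (XT.lf (nat_lit 0) (nat_lit 28378635) (nat_lit 420) (nat_lit 13215115557) (nat_lit 504) (nat_lit 3082945777) (nat_lit 48) (nat_lit 5) (nat_lit 53) (nat_lit 5) (nat_lit 54) (nat_lit 5) (nat_lit 347) (nat_lit 308) (nat_lit 206)) (XT.lf (nat_lit 0) (nat_lit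 5743881824) (nat_lit 420) (nat_lit 9325403701) (nat_lit 504) (nat_lit 1596785647) (nat_lit 48) (nat_lit 5) (nat_lit 53) (nat_lit 5) (nat_lit 54) (nat_lit 5) (nat_lit 348) (nat_lit 308) (nat_lit 205)))) (XT.nd (nat_lit 94) (nat_lit 420) (nat_lit 0) (XT.lf (nat_lit 0) (nat_lit 11623263678) (nat_lit 420) (nat_lit 5316723832) (nat_lit 504) (nat_lit 76662043) (nat_lit 48) (nat_lit 5) (nat_lit 53) (nat_lit 5) (nat_lit 54) (nat_lit 5) (nat_lit 349) (nat_lit 308) (nat_lit 204)) (XT.nd (nat_lit 94) (nat_lit 0) (nat_lit 0) (XT.lf (nat_lit 0) (nat_lit 284565574) (nat_lit 336) (nat_lit 1167303931) (nat_lit 420) (nat_lit 15926090096) (nat_lit 43) (nat_lit 5) (nat_lit 47) (nat_lit 5) (nat_lit 48) (nat_lit 5) (nat_lit 350) (nat_lit 308) (nat_lit 203)) (XT.lf (nat_lit 0) (nat_lit 3102615823) (nat_lit 420) (nat_lit 11541515225) (nat_lit 84) (nat_lit 3103997133) (nat_lit 43) (nat_lit 5) (nat_lit 48)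 (nat_lit 5) (nat_lit 44) (nat_lit 5) (nat_lit 351) (nat_lit 308) (nat_lit 202)))))) (XT.nd (nat_lit 564) (nat_lit 672) (nat_lit 0) (XT.nd (nat_lit 282) (nat_lit 252) (nat_lit 0) (XT.nd (nat_lit 94) (nat_lit 336) (nat_lit 0) (XT.lf (nat_lit 0) (nat_lit 4805506133) (nat_lit 420) (nat_lit 5842504539) (nat_lit 84) (nat_lit 7481781012) (nat_lit 43) (nat_lit 5) (nat_lit 48) (nat_lit 5) (nat_lit 44) (nat_lit 5) (nat_lit 352) (nat_lit 308) (nat_lit 201)) (XT.nd (nat_lit 94) (nat_lit 0) (nat_lit 0) (XT.lf (nat_lit 0) (nat_lit 20952042) (nat_lit 336) (nat_lit 6529803710) (nat_lit 420) (nat_lit 11972902633) (nat_lit 39) (nat_lit 5) (nat_lit 43) (nat_lit 5) (nat_lit 44) (nat_lit 5) (nat_lit 353) (nat_lit 308) (nat_lit 200)) (XT.lf (nat_lit 0) (nat_lit 6177516256) (nat_lit 336) (nat_lit 2223133173) (nat_lit 420) (nat_lit 10527565586) (nat_lit 39) (nat_lit 5) (nat_lit 43) (nat_lit 5) (nat_lit 44)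 (nat_lit 5) (nat_lit 354) (nat_lit 308) (nat_lit 199)))) (XT.nd (nat_lit 94) (nat_lit 252) (nat_lit 0) (XT.lf (nat_lit 0) (nat_lit 10319734734) (nat_lit 420) (nat_lit 6854852913) (nat_lit 84) (nat_lit 2170403494) (nat_lit 39) (nat_lit 5) (nat_lit 44) (nat_lit 5) (nat_lit 40) (nat_lit 5) (nat_lit 355) (nat_lit 308) (nat_lit 198)) (XT.nd (nat_lit 94) (nat_lit 252) (nat_lit 0) (XT.lf (nat_lit 0) (nat_lit 12311205818) (nat_lit 420) (nat_lit 811078622) (nat_lit 84) (nat_lit 6652047235) (nat_lit 39) (nat_lit 5) (nat_lit 44) (nat_lit 5) (nat_lit 40) (nat_lit 5) (nat_lit 356) (nat_lit 308) (nat_lit 197)) (XT.lf (nat_lit 0) (nat_lit 5519517272) (nat_lit 252) (nat_lit 8890102207) (nat_lit 336) (nat_lit 5806003612) (nat_lit 36) (nat_lit 5) (nat_lit 39) (nat_lit 5) (nat_lit 40) (nat_lit 5) (nat_lit 357) (nat_lit 308) (nat_lit 196))))) (XT.nd (nat_lit 282) (nat_lit 336) (nat_lit 0) (XT.nd (nat_lit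 94) (nat_lit 336) (nat_lit 0) (XT.lf (nat_lit 0) (nat_lit 12051933579) (nat_lit 252) (nat_lit 4520240834) (nat_lit 336) (nat_lit 4098489781) (nat_lit 36) (nat_lit 5) (nat_lit 39) (nat_lit 5) (nat_lit 40) (nat_lit 5) (nat_lit 358) (nat_lit 308) (nat_lit 195)) (XT.nd (nat_lit 94) (nat_lit 336) (nat_lit 0) (XT.lf (nat_lit 0) (nat_lit 18775581755) (nat_lit 252) (nat_lit 17093148) (nat_lit 336) (nat_lit 2347458781) (nat_lit 36) (nat_lit 5) (nat_lit 39) (nat_lit 5) (nat_lit 40) (nat_lit 5) (nat_lit 359) (nat_lit 308) (nat_lit 194)) (XT.lf (nat_lit 0) (nat_lit 4109184628) (nat_lit 336) (nat_lit 17050635753) (nat_lit 420) (nat_lit 461963254) (nat_lit 32) (nat_lit 5) (nat_lit 36) (nat_lit 5) (nat_lit 37) (nat_lit 5) (nat_lit 360) (nat_lit 308) (nat_lit 193)))) (XT.nd (nat_lit 94) (nat_lit 252) (nat_lit 0) (XT.lf (nat_lit 0) (nat_lit 1468420826) (nat_lit 420) (nat_lit 11310323811) (nat_lit 84)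 (nat_lit 9338695842) (nat_lit 31) (nat_lit 5) (nat_lit 36) (nat_lit 5) (nat_lit 32) (nat_lit 5) (nat_lit 361) (nat_lit 308) (nat_lit 192)) (XT.nd (nat_lit 94) (nat_lit 252) (nat_lit 0) (XT.lf (nat_lit 0) (nat_lit 3440504209) (nat_lit 420) (nat_lit 4931491981) (nat_lit 84) (nat_lit 14256620557) (nat_lit 31) (nat_lit 5) (nat_lit 36) (nat_lit 5) (nat_lit 32) (nat_lit 5) (nat_lit 362) (nat_lit 308) (nat_lit 191)) (XT.lf (nat_lit 0) (nat_lit 1668032082) (nat_lit 252) (nat_lit 3813947615) (nat_lit 336) (nat_lit 17673438317) (nat_lit 28) (nat_lit 5) (nat_lit 31) (nat_lit 5) (nat_lit 32) (nat_lit 5) (nat_lit 363) (nat_lit 308) (nat_lit 190))))))))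
noncomputable def xc137 : XT := (XT.nd (nat_lit 2256) (nat_lit 672) (nat_lit 0) (XT.nd (nat_lit 1128) (nat_lit 420) (nat_lit 0) (XT.nd (nat_lit 564) (nat_lit 504) (nat_lit 0) (XT.nd (nat_lit 282) (nat_lit 252) (nat_lit 0) (XT.nd (nat_lit 94) (nat_lit 0) (nat_lit 0) (XT.lf (nat_lit 0) (nat_lit 7639356489) (nat_lit 336) (nat_lit 15140390602) (nat_lit 84) (nat_lit 917205426) (nat_lit 28) (nat_lit 5) (nat_lit 32) (nat_lit 5) (nat_lit 29) (nat_lit 5) (nat_lit 364) (nat_lit 308) (nat_lit 189)) (XT.nd (nat_lit 94) (nat_lit 0) (nat_lit 0) (XT.lf (nat_lit 0) (nat_lit 9894696448) (nat_lit 336) (nat_lit 8646133889) (nat_lit 84) (nat_lit 5713513106) (nat_lit 28) (nat_lit 5) (nat_lit 32) (nat_lit 5) (nat_lit 29) (nat_lit 5) (nat_lit 365) (nat_lit 308) (nat_lit 188)) (XT.lf (nat_lit 0) (nat_lit 12212266955) (nat_lit 336) (nat_lit 1960727633) (nat_lit 84) (nat_lit 10656288632) (nat_lit 28) (nat_lit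 5) (nat_lit 32) (nat_lit 5) (nat_lit 29) (nat_lit 5) (nat_lit 366) (nat_lit 308) (nat_lit 187)))) (XT.nd (nat_lit 94) (nat_lit 0) (nat_lit 0) (XT.lf (nat_lit 0) (nat_lit 5023267306) (nat_lit 252) (nat_lit 9620792356) (nat_lit 336) (nat_lit 10776703316) (nat_lit 25) (nat_lit 5) (nat_lit 28) (nat_lit 5) (nat_lit 29) (nat_lit 5) (nat_lit 367) (nat_lit 308) (nat_lit 186)) (XT.nd (nat_lit 94) (nat_lit 0) (nat_lit 0) (XT.lf (nat_lit 0) (nat_lit 12255565822) (nat_lit 252) (nat_lit 4908811414) (nat_lit 336) (nat_lit 8865823684) (nat_lit 25) (nat_lit 5) (nat_lit 28) (nat_lit 5) (nat_lit 29) (nat_lit 5) (nat_lit 368) (nat_lit 308) (nat_lit 185)) (XT.lf (nat_lit 0) (nat_lit 19702592594) (nat_lit 252) (nat_lit 53125676) (nat_lit 336) (nat_lit 6903062206) (nat_lit 25) (nat_lit 5) (nat_lit 28) (nat_lit 5) (nat_lit 29) (nat_lit 5) (nat_lit 369) (nat_lit 308) (nat_lit 184))))) (XT.nd (nat_lit 282)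 (nat_lit 336) (nat_lit 0) (XT.nd (nat_lit 94) (nat_lit 0) (nat_lit 0) (XT.lf (nat_lit 0) (nat_lit 15399282) (nat_lit 168) (nat_lit 22454364106) (nat_lit 252) (nat_lit 4835796940) (nat_lit 23) (nat_lit 5) (nat_lit 25) (nat_lit 5) (nat_lit 26) (nat_lit 5) (nat_lit 370) (nat_lit 308) (nat_lit 183)) (XT.nd (nat_lit 94) (nat_lit 0) (nat_lit 0) (XT.lf (nat_lit 0) (nat_lit 7340706946) (nat_lit 168) (nat_lit 17993583221) (nat_lit 252) (nat_lit 2636070490) (nat_lit 23) (nat_lit 5) (nat_lit 25) (nat_lit 5) (nat_lit 26) (nat_lit 5) (nat_lit 371) (nat_lit 308) (nat_lit 182)) (XT.lf (nat_lit 0) (nat_lit 14884067425) (nat_lit 168) (nat_lit 13396954391) (nat_lit 252) (nat_lit 374978666) (nat_lit 23) (nat_lit 5) (nat_lit 25) (nat_lit 5) (nat_lit 26) (nat_lit 5) (nat_lit 372) (nat_lit 308) (nat_lit 181)))) (XT.nd (nat_lit 94) (nat_lit 252) (nat_lit 0) (XT.lf (nat_lit 0) (nat_lit 1910306290) (nat_lit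 252) (nat_lit 6729947106) (nat_lit 84) (nat_lit 20722265948) (nat_lit 22) (nat_lit 5) (nat_lit 25) (nat_lit 5) (nat_lit 23) (nat_lit 5) (nat_lit 373) (nat_lit 308) (nat_lit 180)) (XT.nd (nat_lit 94) (nat_lit 0) (nat_lit 0) (XT.lf (nat_lit 0) (nat_lit 528503348) (nat_lit 252) (nat_lit 3729092926) (nat_lit 336) (nat_lit 25833281595) (nat_lit 19) (nat_lit 5) (nat_lit 22) (nat_lit 5) (nat_lit 23) (nat_lit 5) (nat_lit 374) (nat_lit 308) (nat_lit 179)) (XT.lf (nat_lit 0) (nat_lit 6755642380) (nat_lit 336) (nat_lit 22707709754) (nat_lit 84) (nat_lit 1376068893) (nat_lit 19) (nat_lit 5) (nat_lit 23) (nat_lit 5) (nat_lit 20) (nat_lit 5) (nat_lit 375) (nat_lit 308) (nat_lit 178)))))) (XT.nd (nat_lit 564) (nat_lit 252) (nat_lit 0) (XT.nd (nat_lit 282) (nat_lit 168) (nat_lit 0) (XT.nd (nat_lit 94) (nat_lit 0) (nat_lit 0) (XT.lf (nat_lit 0) (nat_lit 9363242805) (nat_lit 336) (nat_lit 15687181003)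 (nat_lit 84) (nat_lit 6559772163) (nat_lit 19) (nat_lit 5) (nat_lit 23) (nat_lit 5) (nat_lit 20) (nat_lit 5) (nat_lit 376) (nat_lit 308) (nat_lit 177)) (XT.nd (nat_lit 94) (nat_lit 0) (nat_lit 0) (XT.lf (nat_lit 0) (nat_lit 12045835045) (nat_lit 336) (nat_lit 8457251337) (nat_lit 84) (nat_lit 11901981550) (nat_lit 19) (nat_lit 5) (nat_lit 23) (nat_lit 5) (nat_lit 20) (nat_lit 5) (nat_lit 377) (nat_lit 308) (nat_lit 176)) (XT.lf (nat_lit 0) (nat_lit 14805919556) (nat_lit 336) (nat_lit 1011181706) (nat_lit 84) (nat_lit 17407676551) (nat_lit 19) (nat_lit 5) (nat_lit 23) (nat_lit 5) (nat_lit 20) (nat_lit 5) (nat_lit 378) (nat_lit 308) (nat_lit 175)))) (XT.nd (nat_lit 94) (nat_lit 0) (nat_lit 0) (XT.lf (nat_lit 0) (nat_lit 6794869894) (nat_lit 168) (nat_lit 10918605083) (nat_lit 252) (nat_lit 16354525110) (nat_lit 17) (nat_lit 5) (nat_lit 19) (nat_lit 5) (nat_lit 20) (nat_lit 5) (nat_lit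 379) (nat_lit 308) (nat_lit 174)) (XT.nd (nat_lit 94) (nat_lit 0) (nat_lit 0) (XT.lf (nat_lit 0) (nat_lit 14856676377) (nat_lit 168) (nat_lit 5859634464) (nat_lit 252) (nat_lit 14220911800) (nat_lit 17) (nat_lit 5) (nat_lit 19) (nat_lit 5) (nat_lit 20) (nat_lit 5) (nat_lit 380) (nat_lit 308) (nat_lit 173)) (XT.lf (nat_lit 0) (nat_lit 23160960222) (nat_lit 168) (nat_lit 646028578) (nat_lit 252) (nat_lit 12026584240) (nat_lit 17) (nat_lit 5) (nat_lit 19) (nat_lit 5) (nat_lit 20) (nat_lit 5) (nat_lit 381) (nat_lit 308) (nat_lit 172))))) (XT.nd (nat_lit 282) (nat_lit 84) (nat_lit 0) (XT.nd (nat_lit 94) (nat_lit 168) (nat_lit 0) (XT.lf (nat_lit 0) (nat_lit 27035282832) (nat_lit 252) (nat_lit 5089318028) (nat_lit 84) (nat_lit 4631832230) (nat_lit 17) (nat_lit 5) (nat_lit 20) (nat_lit 5) (nat_lit 18) (nat_lit 5) (nat_lit 382) (nat_lit 308) (nat_lit 171)) (XT.nd (nat_lit 94) (nat_lit 0) (nat_lit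 0) (XT.lf (nat_lit 0) (nat_lit 2771135003) (nat_lit 168) (nat_lit 27621660767) (nat_lit 252) (nat_lit 7314220816) (nat_lit 15) (nat_lit 5) (nat_lit 17) (nat_lit 5) (nat_lit 18) (nat_lit 5) (nat_lit 383) (nat_lit 308) (nat_lit 170)) (XT.lf (nat_lit 0) (nat_lit 10976076580) (nat_lit 168) (nat_lit 22926560314) (nat_lit 252) (nat_lit 4782953306) (nat_lit 15) (nat_lit 5) (nat_lit 17) (nat_lit 5) (nat_lit 18) (nat_lit 5) (nat_lit 384) (nat_lit 308) (nat_lit 169)))) (XT.nd (nat_lit 94) (nat_lit 84) (nat_lit 0) (XT.lf (nat_lit 0) (nat_lit 19428507753) (nat_lit 168) (nat_lit 18088045216) (nat_lit 252) (nat_lit 2178110366) (nat_lit 15) (nat_lit 5) (nat_lit 17) (nat_lit 5) (nat_lit 18) (nat_lit 5) (nat_lit 385) (nat_lit 308) (nat_lit 168)) (XT.nd (nat_lit 94) (nat_lit 0) (nat_lit 0) (XT.lf (nat_lit 0) (nat_lit 492606981) (nat_lit 252) (nat_lit 12603856683) (nat_lit 84) (nat_lit 27638558283) (nat_lit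 14) (nat_lit 5) (nat_lit 17) (nat_lit 5) (nat_lit 15) (nat_lit 5) (nat_lit 386) (nat_lit 308) (nat_lit 167)) (XT.lf (nat_lit 0) (nat_lit 3196360861) (nat_lit 252) (nat_lit 4732868882) (nat_lit 84) (nat_lit 33877866804) (nat_lit 14) (nat_lit 5) (nat_lit 17) (nat_lit 5) (nat_lit 15) (nat_lit 5) (nat_lit 387) (nat_lit 308) (nat_lit 166))))))) (XT.nd (nat_lit 1128) (nat_lit 336) (nat_lit 0) (XT.nd (nat_lit 564) (nat_lit 168) (nat_lit 0) (XT.nd (nat_lit 282) (nat_lit 0) (nat_lit 0) (XT.nd (nat_lit 94) (nat_lit 0) (nat_lit 0) (XT.lf (nat_lit 0) (nat_lit 3445163905) (nat_lit 168) (nat_lit 2568568071) (nat_lit 252) (nat_lit 36897764793) (nat_lit 12) (nat_lit 5) (nat_lit 14) (nat_lit 5) (nat_lit 15) (nat_lit 5) (nat_lit 388) (nat_lit 308) (nat_lit 165)) (XT.nd (nat_lit 94) (nat_lit 0) (nat_lit 0) (XT.lf (nat_lit 0) (nat_lit 8993368383) (nat_lit 252) (nat_lit 32107835533) (nat_lit 84) (nat_lit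 2946621434) (nat_lit 12) (nat_lit 5) (nat_lit 15) (nat_lit 5) (nat_lit 13) (nat_lit 5) (nat_lit 389) (nat_lit 308) (nat_lit 164)) (XT.lf (nat_lit 0) (nat_lit 12087447648) (nat_lit 252) (nat_lit 24553733715) (nat_lit 84) (nat_lit 8577528697) (nat_lit 12) (nat_lit 5) (nat_lit 15) (nat_lit 5) (nat_lit 13) (nat_lit 5) (nat_lit 390) (nat_lit 308) (nat_lit 163)))) (XT.nd (nat_lit 94) (nat_lit 0) (nat_lit 0) (XT.lf (nat_lit 0) (nat_lit 15273373264) (nat_lit 252) (nat_lit 16771505682) (nat_lit 84) (nat_lit 14381153237) (nat_lit 12) (nat_lit 5) (nat_lit 15) (nat_lit 5) (nat_lit 13) (nat_lit 5) (nat_lit 391) (nat_lit 308) (nat_lit 162)) (XT.nd (nat_lit 94) (nat_lit 0) (nat_lit 0) (XT.lf (nat_lit 0) (nat_lit 18554114848) (nat_lit 252) (nat_lit 8753897584) (nat_lit 84) (nat_lit 20362904638) (nat_lit 12) (nat_lit 5) (nat_lit 15) (nat_lit 5) (nat_lit 13) (nat_lit 5) (nat_lit 392) (nat_lit 308) (nat_lit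 161)) (XT.lf (nat_lit 0) (nat_lit 21932730393) (nat_lit 252) (nat_lit 493436168) (nat_lit 84) (nat_lit 26528358519) (nat_lit 12) (nat_lit 5) (nat_lit 15) (nat_lit 5) (nat_lit 13) (nat_lit 5) (nat_lit 393) (nat_lit 308) (nat_lit 160))))) (XT.nd (nat_lit 282) (nat_lit 0) (nat_lit 0) (XT.nd (nat_lit 94) (nat_lit 0) (nat_lit 0) (XT.lf (nat_lit 0) (nat_lit 8182436030) (nat_lit 168) (nat_lit 17311103872) (nat_lit 252) (nat_lit 24781996478) (nat_lit 10) (nat_lit 5) (nat_lit 12) (nat_lit 5) (nat_lit 13) (nat_lit 5) (nat_lit 394) (nat_lit 308) (nat_lit 159)) (XT.nd (nat_lit 94) (nat_lit 0) (nat_lit 0) (XT.lf (nat_lit 0) (nat_lit 17132255382) (nat_lit 168) (nat_lit 12033973142) (nat_lit 252) (nat_lit 22471236418) (nat_lit 10) (nat_lit 5) (nat_lit 12) (nat_lit 5) (nat_lit 13) (nat_lit 5) (nat_lit 395) (nat_lit 308) (nat_lit 158)) (XT.lf (nat_lit 0) (nat_lit 26354217996) (nat_lit 168) (nat_lit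 6595005992) (nat_lit 252) (nat_lit 20092511098) (nat_lit 10) (nat_lit 5) (nat_lit 12) (nat_lit 5) (nat_lit 13) (nat_lit 5) (nat_lit 396) (nat_lit 308) (nat_lit 157)))) (XT.nd (nat_lit 94) (nat_lit 0) (nat_lit 0) (XT.lf (nat_lit 0) (nat_lit 35856919707) (nat_lit 168) (nat_lit 989132737) (nat_lit 252) (nat_lit 17643603299) (nat_lit 10) (nat_lit 5) (nat_lit 12) (nat_lit 5) (nat_lit 13) (nat_lit 5) (nat_lit 397) (nat_lit 308) (nat_lit 156)) (XT.nd (nat_lit 94) (nat_lit 0) (nat_lit 0) (XT.lf (nat_lit 0) (nat_lit 40907852347) (nat_lit 252) (nat_lit 10380864698) (nat_lit 84) (nat_lit 4692386788) (nat_lit 10) (nat_lit 5) (nat_lit 13) (nat_lit 5) (nat_lit 11) (nat_lit 4) (nat_lit 398) (nat_lit 308) (nat_lit 155)) (XT.lf (nat_lit 0) (nat_lit 45102432546) (nat_lit 252) (nat_lit 1888234294) (nat_lit 84) (nat_lit 10527917992) (nat_lit 10) (nat_lit 5) (nat_lit 13) (nat_lit 5) (nat_lit 11) (nat_lit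 4) (nat_lit 399) (nat_lit 308) (nat_lit 154)))))) (XT.nd (nat_lit 564) (nat_lit 168) (nat_lit 0) (XT.nd (nat_lit 282) (nat_lit 84) (nat_lit 0) (XT.nd (nat_lit 94) (nat_lit 0) (nat_lit 0) (XT.lf (nat_lit 0) (nat_lit 7003998474) (nat_lit 84) (nat_lit 42489372568) (nat_lit 168) (nat_lit 9608311079) (nat_lit 9) (nat_lit 5) (nat_lit 10) (nat_lit 5) (nat_lit 11) (nat_lit 4) (nat_lit 400) (nat_lit 308) (nat_lit 153)) (XT.nd (nat_lit 94) (nat_lit 0) (nat_lit 0) (XT.lf (nat_lit 0) (nat_lit 16207184332) (nat_lit 84) (nat_lit 37829847236) (nat_lit 168) (nat_lit 6696319348) (nat_lit 9) (nat_lit 5) (nat_lit 10) (nat_lit 5) (nat_lit 11) (nat_lit 4) (nat_lit 401) (nat_lit 308) (nat_lit 152)) (XT.lf (nat_lit 0) (nat_lit 25691075641) (nat_lit 84) (nat_lit 33027456971) (nat_lit 168) (nat_lit 3697172103) (nat_lit 9) (nat_lit 5) (nat_lit 10) (nat_lit 5) (nat_lit 11) (nat_lit 4) (nat_lit 402) (nat_lit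 308) (nat_lit 151)))) (XT.nd (nat_lit 94) (nat_lit 84) (nat_lit 0) (XT.lf (nat_lit 0) (nat_lit 35464512383) (nat_lit 84) (nat_lit 28077725444) (nat_lit 168) (nat_lit 608073827) (nat_lit 9) (nat_lit 5) (nat_lit 10) (nat_lit 5) (nat_lit 11) (nat_lit 4) (nat_lit 403) (nat_lit 308) (nat_lit 150)) (XT.nd (nat_lit 94) (nat_lit 0) (nat_lit 0) (XT.lf (nat_lit 0) (nat_lit 2521997404) (nat_lit 168) (nat_lit 20427717099) (nat_lit 84) (nat_lit 42988282538) (nat_lit 8) (nat_lit 5) (nat_lit 10) (nat_lit 5) (nat_lit 9) (nat_lit 5) (nat_lit 404) (nat_lit 308) (nat_lit 149)) (XT.lf (nat_lit 0) (nat_lit 5733683508) (nat_lit 168) (nat_lit 11924110883) (nat_lit 84) (nat_lit 50123208602) (nat_lit 8) (nat_lit 5) (nat_lit 10) (nat_lit 5) (nat_lit 9) (nat_lit 5) (nat_lit 405) (nat_lit 308) (nat_lit 148))))) (XT.nd (nat_lit 282) (nat_lit 0) (nat_lit 0) (XT.nd (nat_lit 94) (nat_lit 168) (nat_lit 0) (XT.lf (nat_lit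 0) (nat_lit 9042229445) (nat_lit 168) (nat_lit 3161022202) (nat_lit 84) (nat_lit 57477982733) (nat_lit 8) (nat_lit 5) (nat_lit 10) (nat_lit 5) (nat_lit 9) (nat_lit 5) (nat_lit 406) (nat_lit 308) (nat_lit 147)) (XT.nd (nat_lit 94) (nat_lit 0) (nat_lit 0) (XT.lf (nat_lit 0) (nat_lit 5990410480) (nat_lit 168) (nat_lit 6519734257) (nat_lit 252) (nat_lit 59128475484) (nat_lit 6) (nat_lit 5) (nat_lit 8) (nat_lit 5) (nat_lit 9) (nat_lit 5) (nat_lit 407) (nat_lit 308) (nat_lit 146)) (XT.lf (nat_lit 0) (nat_lit 15488584967) (nat_lit 168) (nat_lit 627393330) (nat_lit 252) (nat_lit 57539771900) (nat_lit 6) (nat_lit 5) (nat_lit 8) (nat_lit 5) (nat_lit 9) (nat_lit 5) (nat_lit 408) (nat_lit 308) (nat_lit 145)))) (XT.nd (nat_lit 188) (nat_lit 0) (nat_lit 0) (XT.nd (nat_lit 94) (nat_lit 0) (nat_lit 0) (XT.lf (nat_lit 0) (nat_lit 19885116288) (nat_lit 252) (nat_lit 50512166774) (nat_lit 84) (nat_lit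 5336538644) (nat_lit 6) (nat_lit 5) (nat_lit 9) (nat_lit 5) (nat_lit 7) (nat_lit 4) (nat_lit 409) (nat_lit 308) (nat_lit 144)) (XT.lf (nat_lit 0) (nat_lit 23775072630) (nat_lit 252) (nat_lit 42630079797) (nat_lit 84) (nat_lit 11471045277) (nat_lit 6) (nat_lit 5) (nat_lit 9) (nat_lit 5) (nat_lit 7) (nat_lit 4) (nat_lit 410) (nat_lit 308) (nat_lit 143))) (XT.nd (nat_lit 94) (nat_lit 0) (nat_lit 0) (XT.lf (nat_lit 0) (nat_lit 27783249350) (nat_lit 252) (nat_lit 34507333550) (nat_lit 84) (nat_lit 17794485149) (nat_lit 6) (nat_lit 5) (nat_lit 9) (nat_lit 5) (nat_lit 7) (nat_lit 4) (nat_lit 411) (nat_lit 308) (nat_lit 142)) (XT.lf (nat_lit 0) (nat_lit 31913382490) (nat_lit 252) (nat_lit 26136356784) (nat_lit 84) (nat_lit 24312752367) (nat_lit 6) (nat_lit 5) (nat_lit 9) (nat_lit 5) (nat_lit 7) (nat_lit 4) (nat_lit 412) (nat_lit 308) (nat_lit 141))))))))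
noncomputable def xc138 : XT := (XT.nd (nat_lit 45778) (nat_lit 0) (nat_lit 3612) (XT.nd (nat_lit 44650) (nat_lit 0) (nat_lit 8568) (XT.nd (nat_lit 564) (nat_lit 0) (nat_lit 0) (XT.nd (nat_lit 282) (nat_lit 0) (nat_lit 0) (XT.nd (nat_lit 94) (nat_lit 84) (nat_lit 0) (XT.lf (nat_lit 0) (nat_lit 36169321765) (nat_lit 252) (nat_lit 17509346871) (nat_lit 84) (nat_lit 31031922641) (nat_lit 6) (nat_lit 5) (nat_lit 9) (nat_lit 5) (nat_lit 7) (nat_lit 4) (nat_lit 413) (nat_lit 308) (nat_lit 140)) (XT.nd (nat_lit 94) (nat_lit 84) (nat_lit 0) (XT.lf (nat_lit 0) (nat_lit 40555034157) (nat_lit 252) (nat_lit 8618262534) (nat_lit 84) (nat_lit 37958258940) (nat_lit 6) (nat_lit 5) (nat_lit 9) (nat_lit 5) (nat_lit 7) (nat_lit 4) (nat_lit 414) (nat_lit 308) (nat_lit 139)) (XT.lf (nat_lit 0) (nat_lit 556393743) (nat_lit 84) (nat_lit 44523733361) (nat_lit 168) (nat_lit 44547343086) (nat_lit 5) (nat_lit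 5) (nat_lit 6) (nat_lit 5) (nat_lit 7) (nat_lit 4) (nat_lit 415) (nat_lit 308) (nat_lit 138)))) (XT.nd (nat_lit 94) (nat_lit 0) (nat_lit 0) (XT.lf (nat_lit 0) (nat_lit 10194938256) (nat_lit 84) (nat_lit 39638451631) (nat_lit 168) (nat_lit 42364649809) (nat_lit 5) (nat_lit 5) (nat_lit 6) (nat_lit 5) (nat_lit 7) (nat_lit 4) (nat_lit 416) (nat_lit 308) (nat_lit 137)) (XT.nd (nat_lit 94) (nat_lit 0) (nat_lit 0) (XT.lf (nat_lit 0) (nat_lit 20129145984) (nat_lit 84) (nat_lit 34602854893) (nat_lit 168) (nat_lit 40116364127) (nat_lit 5) (nat_lit 5) (nat_lit 6) (nat_lit 5) (nat_lit 7) (nat_lit 4) (nat_lit 417) (nat_lit 308) (nat_lit 136)) (XT.lf (nat_lit 0) (nat_lit 30368276651) (nat_lit 84) (nat_lit 29412249443) (nat_lit 168) (nat_lit 37800390404) (nat_lit 5) (nat_lit 5) (nat_lit 6) (nat_lit 5) (nat_lit 7) (nat_lit 4) (nat_lit 418) (nat_lit 308) (nat_lit 135))))) (XT.nd (nat_lit 43804) (nat_lit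 0) (nat_lit 9408) (XT.nd (nat_lit 94) (nat_lit 0) (nat_lit 0) (XT.lf (nat_lit 0) (nat_lit 40921874197) (nat_lit 84) (nat_lit 24061797093) (nat_lit 168) (nat_lit 35414569910) (nat_lit 5) (nat_lit 5) (nat_lit 6) (nat_lit 5) (nat_lit 7) (nat_lit 4) (nat_lit 419) (nat_lit 308) (nat_lit 134)) (XT.nd (nat_lit 43616) (nat_lit 0) (nat_lit 9408) (XT.lf (nat_lit 0) (nat_lit 51799775682) (nat_lit 84) (nat_lit 18546510660) (nat_lit 168) (nat_lit 32956678809) (nat_lit 5) (nat_lit 5) (nat_lit 6) (nat_lit 5) (nat_lit 7) (nat_lit 4) (nat_lit 420) (nat_lit 308) (nat_lit 133)) (XT.lf (nat_lit 0) (nat_lit 2143646578) (nat_lit 924) (nat_lit 1121376055) (nat_lit 924) (nat_lit 1121376055) (nat_lit 117) (nat_lit 3) (nat_lit 128) (nat_lit 3) (nat_lit 128) (nat_lit 5) (nat_lit 309) (nat_lit 309) (nat_lit 243)))) (XT.nd (nat_lit 94) (nat_lit 0) (nat_lit 0) (XT.lf (nat_lit 84) (nat_lit 916909664) (nat_lit 0)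 (nat_lit 4216230313) (nat_lit 924) (nat_lit 3746740105) (nat_lit 118) (nat_lit 5) (nat_lit 117) (nat_lit 3) (nat_lit 128) (nat_lit 5) (nat_lit 310) (nat_lit 309) (nat_lit 242)) (XT.nd (nat_lit 94) (nat_lit 0) (nat_lit 84) (XT.lf (nat_lit 84) (nat_lit 4205638859) (nat_lit 0) (nat_lit 1791776389) (nat_lit 924) (nat_lit 2993299455) (nat_lit 118) (nat_lit 5) (nat_lit 117) (nat_lit 3) (nat_lit 128) (nat_lit 5) (nat_lit 311) (nat_lit 309) (nat_lit 241)) (XT.lf (nat_lit 0) (nat_lit 6865382696) (nat_lit 840) (nat_lit 1532887084) (nat_lit 924) (nat_lit 707616570) (nat_lit 118) (nat_lit 5) (nat_lit 128) (nat_lit 5) (nat_lit 129) (nat_lit 5) (nat_lit 312) (nat_lit 309) (nat_lit 240)))))) (XT.nd (nat_lit 564) (nat_lit 0) (nat_lit 168) (XT.nd (nat_lit 282) (nat_lit 0) (nat_lit 84) (XT.nd (nat_lit 94) (nat_lit 924) (nat_lit 0) (XT.lf (nat_lit 84) (nat_lit 1821817839) (nat_lit 0) (nat_lit 5945621148)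 (nat_lit 924) (nat_lit 1457146170) (nat_lit 119) (nat_lit 5) (nat_lit 118) (nat_lit 5) (nat_lit 129) (nat_lit 5) (nat_lit 313) (nat_lit 309) (nat_lit 239)) (XT.nd (nat_lit 94) (nat_lit 924) (nat_lit 0) (XT.lf (nat_lit 84) (nat_lit 5296502304) (nat_lit 0) (nat_lit 3388455124) (nat_lit 924) (nat_lit 662567831) (nat_lit 119) (nat_lit 5) (nat_lit 118) (nat_lit 5) (nat_lit 129) (nat_lit 5) (nat_lit 314) (nat_lit 309) (nat_lit 238)) (XT.lf (nat_lit 0) (nat_lit 125393450) (nat_lit 924) (nat_lit 613686058) (nat_lit 1008) (nat_lit 8736183476) (nat_lit 107) (nat_lit 5) (nat_lit 118) (nat_lit 5) (nat_lit 119) (nat_lit 5) (nat_lit 315) (nat_lit 309) (nat_lit 237)))) (XT.nd (nat_lit 94) (nat_lit 0) (nat_lit 0) (XT.lf (nat_lit 0) (nat_lit 946447232) (nat_lit 924) (nat_lit 6660130608) (nat_lit 1008) (nat_lit 1999636218) (nat_lit 108) (nat_lit 5) (nat_lit 119) (nat_lit 5) (nat_lit 120) (nat_lit 5)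 (nat_lit 316) (nat_lit 309) (nat_lit 236)) (XT.nd (nat_lit 94) (nat_lit 0) (nat_lit 0) (XT.lf (nat_lit 0) (nat_lit 1780499419) (nat_lit 924) (nat_lit 3136606644) (nat_lit 1008) (nat_lit 4824658705) (nat_lit 108) (nat_lit 5) (nat_lit 119) (nat_lit 5) (nat_lit 120) (nat_lit 5) (nat_lit 317) (nat_lit 309) (nat_lit 235)) (XT.lf (nat_lit 84) (nat_lit 489350522) (nat_lit 0) (nat_lit 2130223004) (nat_lit 1008) (nat_lit 7262739305) (nat_lit 109) (nat_lit 5) (nat_lit 108) (nat_lit 5) (nat_lit 120) (nat_lit 5) (nat_lit 318) (nat_lit 309) (nat_lit 234))))) (XT.nd (nat_lit 282) (nat_lit 0) (nat_lit 0) (XT.nd (nat_lit 94) (nat_lit 0) (nat_lit 0) (XT.lf (nat_lit 0) (nat_lit 3500110666) (nat_lit 924) (nat_lit 5757196594) (nat_lit 1008) (nat_lit 769576563) (nat_lit 109) (nat_lit 5) (nat_lit 120) (nat_lit 5) (nat_lit 121) (nat_lit 5) (nat_lit 319) (nat_lit 309) (nat_lit 233)) (XT.nd (nat_lit 94) (nat_lit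 0) (nat_lit 0) (XT.lf (nat_lit 0) (nat_lit 4405489106) (nat_lit 924) (nat_lit 2047477675) (nat_lit 1008) (nat_lit 3723186437) (nat_lit 109) (nat_lit 5) (nat_lit 120) (nat_lit 5) (nat_lit 121) (nat_lit 5) (nat_lit 320) (nat_lit 309) (nat_lit 232)) (XT.lf (nat_lit 84) (nat_lit 1796989707) (nat_lit 0) (nat_lit 3536257332) (nat_lit 1008) (nat_lit 4997115587) (nat_lit 110) (nat_lit 5) (nat_lit 109) (nat_lit 5) (nat_lit 121) (nat_lit 5) (nat_lit 321) (nat_lit 309) (nat_lit 231)))) (XT.nd (nat_lit 94) (nat_lit 0) (nat_lit 84) (XT.lf (nat_lit 84) (nat_lit 5787749494) (nat_lit 0) (nat_lit 500419233) (nat_lit 1008) (nat_lit 4201365556) (nat_lit 110) (nat_lit 5) (nat_lit 109) (nat_lit 5) (nat_lit 121) (nat_lit 5) (nat_lit 322) (nat_lit 309) (nat_lit 230)) (XT.nd (nat_lit 94) (nat_lit 0) (nat_lit 0) (XT.lf (nat_lit 0) (nat_lit 7276564889) (nat_lit 924) (nat_lit 794187502) (nat_lit 1008) (nat_lit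 2582896123) (nat_lit 110) (nat_lit 5) (nat_lit 121) (nat_lit 5) (nat_lit 122) (nat_lit 5) (nat_lit 323) (nat_lit 309) (nat_lit 229)) (XT.lf (nat_lit 84) (nat_lit 3279314941) (nat_lit 0) (nat_lit 5032390259) (nat_lit 1008) (nat_lit 2510770290) (nat_lit 111) (nat_lit 5) (nat_lit 110) (nat_lit 5) (nat_lit 122) (nat_lit 5) (nat_lit 324) (nat_lit 309) (nat_lit 228))))))) (XT.nd (nat_lit 1128) (nat_lit 2184) (nat_lit 0) (XT.nd (nat_lit 564) (nat_lit 1092) (nat_lit 0) (XT.nd (nat_lit 282) (nat_lit 1008) (nat_lit 0) (XT.nd (nat_lit 94) (nat_lit 924) (nat_lit 0) (XT.lf (nat_lit 84) (nat_lit 7479913023) (nat_lit 0) (nat_lit 1886254989) (nat_lit 1008) (nat_lit 1630884546) (nat_lit 111) (nat_lit 5) (nat_lit 110) (nat_lit 5) (nat_lit 122) (nat_lit 5) (nat_lit 325) (nat_lit 309) (nat_lit 227)) (XT.nd (nat_lit 94) (nat_lit 84) (nat_lit 0) (XT.lf (nat_lit 0) (nat_lit 616303309) (nat_lit 924) (nat_lit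 9836220401) (nat_lit 1008) (nat_lit 724659519) (nat_lit 100) (nat_lit 5) (nat_lit 111) (nat_lit 5) (nat_lit 112) (nat_lit 5) (nat_lit 326) (nat_lit 309) (nat_lit 226)) (XT.lf (nat_lit 0) (nat_lit 241575740) (nat_lit 1008) (nat_lit 6447759896) (nat_lit 84) (nat_lit 4672487577) (nat_lit 99) (nat_lit 5) (nat_lit 111) (nat_lit 5) (nat_lit 100) (nat_lit 5) (nat_lit 327) (nat_lit 309) (nat_lit 225)))) (XT.nd (nat_lit 94) (nat_lit 1008) (nat_lit 0) (XT.lf (nat_lit 0) (nat_lit 1203082176) (nat_lit 1008) (nat_lit 2230739803) (nat_lit 84) (nat_lit 8118850616) (nat_lit 99) (nat_lit 5) (nat_lit 111) (nat_lit 5) (nat_lit 100) (nat_lit 5) (nat_lit 328) (nat_lit 309) (nat_lit 224)) (XT.nd (nat_lit 94) (nat_lit 0) (nat_lit 0) (XT.lf (nat_lit 0) (nat_lit 2144506808) (nat_lit 1008) (nat_lit 52123251) (nat_lit 1092) (nat_lit 9552842570) (nat_lit 87) (nat_lit 5) (nat_lit 99) (nat_lit 5) (nat_lit 100)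 (nat_lit 5) (nat_lit 329) (nat_lit 309) (nat_lit 223)) (XT.lf (nat_lit 0) (nat_lit 3259979834) (nat_lit 1092) (nat_lit 5299540278) (nat_lit 84) (nat_lit 3391744776) (nat_lit 87) (nat_lit 5) (nat_lit 100) (nat_lit 5) (nat_lit 88) (nat_lit 5) (nat_lit 330) (nat_lit 309) (nat_lit 222))))) (XT.nd (nat_lit 282) (nat_lit 504) (nat_lit 0) (XT.nd (nat_lit 94) (nat_lit 588) (nat_lit 0) (XT.lf (nat_lit 0) (nat_lit 4338795183) (nat_lit 1092) (nat_lit 876948125) (nat_lit 84) (nat_lit 6944209306) (nat_lit 87) (nat_lit 5) (nat_lit 100) (nat_lit 5) (nat_lit 88) (nat_lit 5) (nat_lit 331) (nat_lit 309) (nat_lit 221)) (XT.nd (nat_lit 94) (nat_lit 0) (nat_lit 0) (XT.lf (nat_lit 0) (nat_lit 3742860319) (nat_lit 588) (nat_lit 1727833925) (nat_lit 672) (nat_lit 6903901095) (nat_lit 80) (nat_lit 5) (nat_lit 87) (nat_lit 5) (nat_lit 88) (nat_lit 5) (nat_lit 332) (nat_lit 309) (nat_lit 220)) (XT.lf (nat_lit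 0) (nat_lit 6648368177) (nat_lit 672) (nat_lit 4105542273) (nat_lit 84) (nat_lit 1841741962) (nat_lit 80) (nat_lit 5) (nat_lit 88) (nat_lit 5) (nat_lit 81) (nat_lit 5) (nat_lit 333) (nat_lit 309) (nat_lit 219)))) (XT.nd (nat_lit 94) (nat_lit 0) (nat_lit 0) (XT.lf (nat_lit 0) (nat_lit 538840408) (nat_lit 504) (nat_lit 7330146669) (nat_lit 588) (nat_lit 4954464559) (nat_lit 74) (nat_lit 5) (nat_lit 80) (nat_lit 5) (nat_lit 81) (nat_lit 5) (nat_lit 334) (nat_lit 309) (nat_lit 218)) (XT.nd (nat_lit 94) (nat_lit 0) (nat_lit 0) (XT.lf (nat_lit 0) (nat_lit 5399082463) (nat_lit 504) (nat_lit 3754984397) (nat_lit 588) (nat_lit 3903506763) (nat_lit 74) (nat_lit 5) (nat_lit 80) (nat_lit 5) (nat_lit 81) (nat_lit 5) (nat_lit 335) (nat_lit 309) (nat_lit 217)) (XT.lf (nat_lit 0) (nat_lit 10395295775) (nat_lit 504) (nat_lit 67944650) (nat_lit 588) (nat_lit 2836284686) (nat_lit 74) (nat_lit 5) (nat_lit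 80) (nat_lit 5) (nat_lit 81) (nat_lit 5) (nat_lit 336) (nat_lit 309) (nat_lit 216)))))) (XT.nd (nat_lit 564) (nat_lit 1176) (nat_lit 0) (XT.nd (nat_lit 282) (nat_lit 420) (nat_lit 0) (XT.nd (nat_lit 94) (nat_lit 84) (nat_lit 0) (XT.lf (nat_lit 0) (nat_lit 1985564614) (nat_lit 504) (nat_lit 9868906293) (nat_lit 588) (nat_lit 1693301688) (nat_lit 68) (nat_lit 5) (nat_lit 74) (nat_lit 5) (nat_lit 75) (nat_lit 5) (nat_lit 337) (nat_lit 309) (nat_lit 215)) (XT.nd (nat_lit 94) (nat_lit 84) (nat_lit 0) (XT.lf (nat_lit 0) (nat_lit 7073132171) (nat_lit 504) (nat_lit 6231752531) (nat_lit 588) (nat_lit 498412048) (nat_lit 68) (nat_lit 5) (nat_lit 74) (nat_lit 5) (nat_lit 75) (nat_lit 5) (nat_lit 338) (nat_lit 309) (nat_lit 214)) (XT.lf (nat_lit 0) (nat_lit 704019828) (nat_lit 588) (nat_lit 1770209040) (nat_lit 84) (nat_lit 11592818095) (nat_lit 67) (nat_lit 5) (nat_lit 74) (nat_lit 5) (nat_lit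 68) (nat_lit 5) (nat_lit 339) (nat_lit 309) (nat_lit 213)))) (XT.nd (nat_lit 94) (nat_lit 0) (nat_lit 0) (XT.lf (nat_lit 0) (nat_lit 1967034353) (nat_lit 504) (nat_lit 10959974682) (nat_lit 84) (nat_lit 1410834720) (nat_lit 62) (nat_lit 5) (nat_lit 68) (nat_lit 5) (nat_lit 63) (nat_lit 5) (nat_lit 340) (nat_lit 309) (nat_lit 212)) (XT.nd (nat_lit 94) (nat_lit 0) (nat_lit 0) (XT.lf (nat_lit 0) (nat_lit 3299186118) (nat_lit 504) (nat_lit 5933416865) (nat_lit 84) (nat_lit 5383572428) (nat_lit 62) (nat_lit 5) (nat_lit 68) (nat_lit 5) (nat_lit 63) (nat_lit 5) (nat_lit 341) (nat_lit 309) (nat_lit 211)) (XT.lf (nat_lit 0) (nat_lit 4659067098) (nat_lit 504) (nat_lit 765124025) (nat_lit 84) (nat_lit 9479432383) (nat_lit 62) (nat_lit 5) (nat_lit 68) (nat_lit 5) (nat_lit 63) (nat_lit 5) (nat_lit 342) (nat_lit 309) (nat_lit 210))))) (XT.nd (nat_lit 282) (nat_lit 420) (nat_lit 0) (XT.nd (nat_lit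 94) (nat_lit 336) (nat_lit 0) (XT.lf (nat_lit 0) (nat_lit 4643272827) (nat_lit 420) (nat_lit 1450733858) (nat_lit 504) (nat_lit 9105021372) (nat_lit 57) (nat_lit 5) (nat_lit 62) (nat_lit 5) (nat_lit 63) (nat_lit 5) (nat_lit 343) (nat_lit 309) (nat_lit 209)) (XT.nd (nat_lit 94) (nat_lit 336) (nat_lit 0) (XT.lf (nat_lit 0) (nat_lit 7594840789) (nat_lit 504) (nat_lit 5308105200) (nat_lit 84) (nat_lit 2600043972) (nat_lit 57) (nat_lit 5) (nat_lit 63) (nat_lit 5) (nat_lit 58) (nat_lit 5) (nat_lit 344) (nat_lit 309) (nat_lit 208)) (XT.lf (nat_lit 0) (nat_lit 75339265) (nat_lit 336) (nat_lit 9069930177) (nat_lit 420) (nat_lit 6671071765) (nat_lit 53) (nat_lit 5) (nat_lit 57) (nat_lit 5) (nat_lit 58) (nat_lit 5) (nat_lit 345) (nat_lit 309) (nat_lit 207)))) (XT.nd (nat_lit 188) (nat_lit 420) (nat_lit 0) (XT.nd (nat_lit 94) (nat_lit 0) (nat_lit 0) (XT.lf (nat_lit 0) (nat_lit 5724773826) (nat_lit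 336) (nat_lit 5062120169) (nat_lit 420) (nat_lit 5351235036) (nat_lit 53) (nat_lit 5) (nat_lit 57) (nat_lit 5) (nat_lit 58) (nat_lit 5) (nat_lit 346) (nat_lit 309) (nat_lit 206)) (XT.lf (nat_lit 0) (nat_lit 11536318815) (nat_lit 336) (nat_lit 931185998) (nat_lit 420) (nat_lit 4002814492) (nat_lit 53) (nat_lit 5) (nat_lit 57) (nat_lit 5) (nat_lit 58) (nat_lit 5) (nat_lit 347) (nat_lit 309) (nat_lit 205))) (XT.nd (nat_lit 94) (nat_lit 0) (nat_lit 0) (XT.lf (nat_lit 0) (nat_lit 682927500) (nat_lit 420) (nat_lit 13545517129) (nat_lit 504) (nat_lit 2583543973) (nat_lit 48) (nat_lit 5) (nat_lit 53) (nat_lit 5) (nat_lit 54) (nat_lit 5) (nat_lit 348) (nat_lit 309) (nat_lit 204)) (XT.lf (nat_lit 0) (nat_lit 6555956833) (nat_lit 420) (nat_lit 9537607597) (nat_lit 504) (nat_lit 1069202468) (nat_lit 48) (nat_lit 5) (nat_lit 53) (nat_lit 5) (nat_lit 54) (nat_lit 5) (nat_lit 349) (nat_lit 309) (nat_lit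 203))))))))
noncomputable def xc139 : XT := (XT.nd (nat_lit 2256) (nat_lit 1092) (nat_lit 0) (XT.nd (nat_lit 1128) (nat_lit 756) (nat_lit 0) (XT.nd (nat_lit 564) (nat_lit 588) (nat_lit 0) (XT.nd (nat_lit 282) (nat_lit 336) (nat_lit 0) (XT.nd (nat_lit 94) (nat_lit 336) (nat_lit 0) (XT.lf (nat_lit 0) (nat_lit 471008381) (nat_lit 504) (nat_lit 4931045638) (nat_lit 84) (nat_lit 12122611295) (nat_lit 47) (nat_lit 5) (nat_lit 53) (nat_lit 5) (nat_lit 48) (nat_lit 5) (nat_lit 350) (nat_lit 309) (nat_lit 202)) (XT.nd (nat_lit 94) (nat_lit 0) (nat_lit 0) (XT.lf (nat_lit 0) (nat_lit 915772693) (nat_lit 336) (nat_lit 1119242533) (nat_lit 420) (nat_lit 15862532108) (nat_lit 43) (nat_lit 5) (nat_lit 47) (nat_lit 5) (nat_lit 48) (nat_lit 5) (nat_lit 351) (nat_lit 309) (nat_lit 201)) (XT.lf (nat_lit 0) (nat_lit 3721564630) (nat_lit 420) (nat_lit 11277887210) (nat_lit 84) (nat_lit 3280289341) (nat_lit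 43) (nat_lit 5) (nat_lit 48) (nat_lit 5) (nat_lit 44) (nat_lit 5) (nat_lit 352) (nat_lit 309) (nat_lit 200)))) (XT.nd (nat_lit 94) (nat_lit 336) (nat_lit 0) (XT.lf (nat_lit 0) (nat_lit 5461526014) (nat_lit 420) (nat_lit 5420891833) (nat_lit 84) (nat_lit 7791377035) (nat_lit 43) (nat_lit 5) (nat_lit 48) (nat_lit 5) (nat_lit 44) (nat_lit 5) (nat_lit 353) (nat_lit 309) (nat_lit 199)) (XT.nd (nat_lit 94) (nat_lit 0) (nat_lit 0) (XT.lf (nat_lit 0) (nat_lit 618229798) (nat_lit 336) (nat_lit 6633321297) (nat_lit 420) (nat_lit 11828678712) (nat_lit 39) (nat_lit 5) (nat_lit 43) (nat_lit 5) (nat_lit 44) (nat_lit 5) (nat_lit 354) (nat_lit 309) (nat_lit 198)) (XT.lf (nat_lit 0) (nat_lit 6947708148) (nat_lit 336) (nat_lit 2196117879) (nat_lit 420) (nat_lit 10354032726) (nat_lit 39) (nat_lit 5) (nat_lit 43) (nat_lit 5) (nat_lit 44) (nat_lit 5) (nat_lit 355) (nat_lit 309) (nat_lit 197))))) (XT.nd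 (nat_lit 282) (nat_lit 336) (nat_lit 0) (XT.nd (nat_lit 94) (nat_lit 252) (nat_lit 0) (XT.lf (nat_lit 0) (nat_lit 11108810552) (nat_lit 420) (nat_lit 6490371632) (nat_lit 84) (nat_lit 2328859230) (nat_lit 39) (nat_lit 5) (nat_lit 44) (nat_lit 5) (nat_lit 40) (nat_lit 5) (nat_lit 356) (nat_lit 309) (nat_lit 196)) (XT.nd (nat_lit 94) (nat_lit 252) (nat_lit 0) (XT.lf (nat_lit 0) (nat_lit 13147910464) (nat_lit 420) (nat_lit 276588964) (nat_lit 84) (nat_lit 6946692540) (nat_lit 39) (nat_lit 5) (nat_lit 44) (nat_lit 5) (nat_lit 40) (nat_lit 5) (nat_lit 357) (nat_lit 309) (nat_lit 195)) (XT.lf (nat_lit 0) (nat_lit 6244589620) (nat_lit 252) (nat_lit 9058598140) (nat_lit 336) (nat_lit 5523290717) (nat_lit 36) (nat_lit 5) (nat_lit 39) (nat_lit 5) (nat_lit 40) (nat_lit 5) (nat_lit 358) (nat_lit 309) (nat_lit 194)))) (XT.nd (nat_lit 94) (nat_lit 336) (nat_lit 0) (XT.lf (nat_lit 0) (nat_lit 12962854201)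 (nat_lit 252) (nat_lit 4556491252) (nat_lit 336) (nat_lit 3776756343) (nat_lit 36) (nat_lit 5) (nat_lit 39) (nat_lit 5) (nat_lit 40) (nat_lit 5) (nat_lit 359) (nat_lit 309) (nat_lit 193)) (XT.nd (nat_lit 94) (nat_lit 336) (nat_lit 0) (XT.lf (nat_lit 0) (nat_lit 19796473688) (nat_lit 336) (nat_lit 1902631470) (nat_lit 84) (nat_lit 81455750) (nat_lit 36) (nat_lit 5) (nat_lit 40) (nat_lit 5) (nat_lit 37) (nat_lit 5) (nat_lit 360) (nat_lit 309) (nat_lit 192)) (XT.lf (nat_lit 0) (nat_lit 4766199230) (nat_lit 336) (nat_lit 17463559631) (nat_lit 420) (nat_lit 47663537) (nat_lit 32) (nat_lit 5) (nat_lit 36) (nat_lit 5) (nat_lit 37) (nat_lit 5) (nat_lit 361) (nat_lit 309) (nat_lit 191)))))) (XT.nd (nat_lit 564) (nat_lit 420) (nat_lit 0) (XT.nd (nat_lit 282) (nat_lit 0) (nat_lit 0) (XT.nd (nat_lit 94) (nat_lit 252) (nat_lit 0) (XT.lf (nat_lit 0) (nat_lit 1921298640) (nat_lit 420) (nat_lit 11137166507)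 (nat_lit 84) (nat_lit 9730291698) (nat_lit 31) (nat_lit 5) (nat_lit 36) (nat_lit 5) (nat_lit 32) (nat_lit 5) (nat_lit 362) (nat_lit 309) (nat_lit 190)) (XT.nd (nat_lit 94) (nat_lit 252) (nat_lit 0) (XT.lf (nat_lit 0) (nat_lit 3942268248) (nat_lit 420) (nat_lit 4576339773) (nat_lit 84) (nat_lit 14797602259) (nat_lit 31) (nat_lit 5) (nat_lit 36) (nat_lit 5) (nat_lit 32) (nat_lit 5) (nat_lit 363) (nat_lit 309) (nat_lit 189)) (XT.lf (nat_lit 0) (nat_lit 2222626205) (nat_lit 252) (nat_lit 3817511876) (nat_lit 336) (nat_lit 17819467407) (nat_lit 28) (nat_lit 5) (nat_lit 31) (nat_lit 5) (nat_lit 32) (nat_lit 5) (nat_lit 364) (nat_lit 309) (nat_lit 188)))) (XT.nd (nat_lit 94) (nat_lit 0) (nat_lit 0) (XT.lf (nat_lit 0) (nat_lit 8253824004) (nat_lit 336) (nat_lit 15109860954) (nat_lit 84) (nat_lit 1054618239) (nat_lit 28) (nat_lit 5) (nat_lit 32) (nat_lit 5) (nat_lit 29) (nat_lit 5) (nat_lit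 365) (nat_lit 309) (nat_lit 187)) (XT.nd (nat_lit 94) (nat_lit 0) (nat_lit 0) (XT.lf (nat_lit 0) (nat_lit 10567724437) (nat_lit 336) (nat_lit 8429312675) (nat_lit 84) (nat_lit 5996334676) (nat_lit 28) (nat_lit 5) (nat_lit 32) (nat_lit 5) (nat_lit 29) (nat_lit 5) (nat_lit 366) (nat_lit 309) (nat_lit 186)) (XT.lf (nat_lit 0) (nat_lit 12946125988) (nat_lit 336) (nat_lit 1551237285) (nat_lit 84) (nat_lit 11089157986) (nat_lit 28) (nat_lit 5) (nat_lit 32) (nat_lit 5) (nat_lit 29) (nat_lit 5) (nat_lit 367) (nat_lit 309) (nat_lit 185))))) (XT.nd (nat_lit 282) (nat_lit 168) (nat_lit 0) (XT.nd (nat_lit 94) (nat_lit 0) (nat_lit 0) (XT.lf (nat_lit 0) (nat_lit 5644500406) (nat_lit 252) (nat_lit 9802739313) (nat_lit 336) (nat_lit 10749328953) (nat_lit 25) (nat_lit 5) (nat_lit 28) (nat_lit 5) (nat_lit 29) (nat_lit 5) (nat_lit 368) (nat_lit 309) (nat_lit 184)) (XT.nd (nat_lit 94) (nat_lit 0) (nat_lit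 0) (XT.lf (nat_lit 0) (nat_lit 13087003216) (nat_lit 252) (nat_lit 4948183785) (nat_lit 336) (nat_lit 8790080158) (nat_lit 25) (nat_lit 5) (nat_lit 28) (nat_lit 5) (nat_lit 29) (nat_lit 5) (nat_lit 369) (nat_lit 309) (nat_lit 183)) (XT.lf (nat_lit 0) (nat_lit 20697217190) (nat_lit 336) (nat_lit 6722919874) (nat_lit 84) (nat_lit 53535722) (nat_lit 25) (nat_lit 5) (nat_lit 29) (nat_lit 5) (nat_lit 26) (nat_lit 5) (nat_lit 370) (nat_lit 309) (nat_lit 182)))) (XT.nd (nat_lit 94) (nat_lit 0) (nat_lit 0) (XT.lf (nat_lit 0) (nat_lit 459703835) (nat_lit 168) (nat_lit 23030729213) (nat_lit 252) (nat_lit 4650263619) (nat_lit 23) (nat_lit 5) (nat_lit 25) (nat_lit 5) (nat_lit 26) (nat_lit 5) (nat_lit 371) (nat_lit 309) (nat_lit 181)) (XT.nd (nat_lit 94) (nat_lit 0) (nat_lit 0) (XT.lf (nat_lit 0) (nat_lit 7998751088) (nat_lit 168) (nat_lit 18435263854) (nat_lit 252) (nat_lit 2392431716) (nat_lit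 23) (nat_lit 5) (nat_lit 25) (nat_lit 5) (nat_lit 26) (nat_lit 5) (nat_lit 372) (nat_lit 309) (nat_lit 180)) (XT.lf (nat_lit 0) (nat_lit 15763012047) (nat_lit 168) (nat_lit 13699631028) (nat_lit 252) (nat_lit 71028844) (nat_lit 23) (nat_lit 5) (nat_lit 25) (nat_lit 5) (nat_lit 26) (nat_lit 5) (nat_lit 373) (nat_lit 309) (nat_lit 179))))))) (XT.nd (nat_lit 1128) (nat_lit 420) (nat_lit 0) (XT.nd (nat_lit 564) (nat_lit 336) (nat_lit 0) (XT.nd (nat_lit 282) (nat_lit 0) (nat_lit 0) (XT.nd (nat_lit 94) (nat_lit 252) (nat_lit 0) (XT.lf (nat_lit 0) (nat_lit 2269444354) (nat_lit 252) (nat_lit 6526283929) (nat_lit 84) (nat_lit 21466591115) (nat_lit 22) (nat_lit 5) (nat_lit 25) (nat_lit 5) (nat_lit 23) (nat_lit 5) (nat_lit 374) (nat_lit 309) (nat_lit 178)) (XT.nd (nat_lit 94) (nat_lit 0) (nat_lit 0) (XT.lf (nat_lit 0) (nat_lit 953004408) (nat_lit 252) (nat_lit 3731526576) (nat_lit 336) (nat_lit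 26328914399) (nat_lit 19) (nat_lit 5) (nat_lit 22) (nat_lit 5) (nat_lit 23) (nat_lit 5) (nat_lit 375) (nat_lit 309) (nat_lit 177)) (XT.lf (nat_lit 0) (nat_lit 7252236903) (nat_lit 336) (nat_lit 23006949907) (nat_lit 84) (nat_lit 1526280999) (nat_lit 19) (nat_lit 5) (nat_lit 23) (nat_lit 5) (nat_lit 20) (nat_lit 5) (nat_lit 376) (nat_lit 309) (nat_lit 176)))) (XT.nd (nat_lit 94) (nat_lit 0) (nat_lit 0) (XT.lf (nat_lit 0) (nat_lit 9932038356) (nat_lit 336) (nat_lit 15780953207) (nat_lit 84) (nat_lit 6867445149) (nat_lit 19) (nat_lit 5) (nat_lit 23) (nat_lit 5) (nat_lit 20) (nat_lit 5) (nat_lit 377) (nat_lit 309) (nat_lit 175)) (XT.nd (nat_lit 94) (nat_lit 0) (nat_lit 0) (XT.lf (nat_lit 0) (nat_lit 12689415993) (nat_lit 336) (nat_lit 8338698285) (nat_lit 84) (nat_lit 12372126342) (nat_lit 19) (nat_lit 5) (nat_lit 23) (nat_lit 5) (nat_lit 20) (nat_lit 5) (nat_lit 378) (nat_lit 309) (nat_lit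 174)) (XT.lf (nat_lit 0) (nat_lit 15526939980) (nat_lit 336) (nat_lit 673248180) (nat_lit 84) (nat_lit 18045455518) (nat_lit 19) (nat_lit 5) (nat_lit 23) (nat_lit 5) (nat_lit 20) (nat_lit 5) (nat_lit 379) (nat_lit 309) (nat_lit 173))))) (XT.nd (nat_lit 282) (nat_lit 168) (nat_lit 0) (XT.nd (nat_lit 94) (nat_lit 0) (nat_lit 0) (XT.lf (nat_lit 0) (nat_lit 7371052389) (nat_lit 168) (nat_lit 11149324548) (nat_lit 252) (nat_lit 16594790177) (nat_lit 17) (nat_lit 5) (nat_lit 19) (nat_lit 5) (nat_lit 20) (nat_lit 5) (nat_lit 380) (nat_lit 309) (nat_lit 172)) (XT.nd (nat_lit 94) (nat_lit 0) (nat_lit 0) (XT.lf (nat_lit 0) (nat_lit 15671783809) (nat_lit 168) (nat_lit 5936765875) (nat_lit 252) (nat_lit 14403054720) (nat_lit 17) (nat_lit 5) (nat_lit 19) (nat_lit 5) (nat_lit 20) (nat_lit 5) (nat_lit 381) (nat_lit 309) (nat_lit 171)) (XT.lf (nat_lit 0) (nat_lit 24222839867) (nat_lit 168) (nat_lit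 564680821) (nat_lit 252) (nat_lit 12148481731) (nat_lit 17) (nat_lit 5) (nat_lit 19) (nat_lit 5) (nat_lit 20) (nat_lit 5) (nat_lit 382) (nat_lit 309) (nat_lit 170)))) (XT.nd (nat_lit 94) (nat_lit 168) (nat_lit 0) (XT.lf (nat_lit 0) (nat_lit 28109575323) (nat_lit 252) (nat_lit 4906353992) (nat_lit 84) (nat_lit 4871764490) (nat_lit 17) (nat_lit 5) (nat_lit 20) (nat_lit 5) (nat_lit 18) (nat_lit 5) (nat_lit 383) (nat_lit 309) (nat_lit 169)) (XT.nd (nat_lit 94) (nat_lit 0) (nat_lit 0) (XT.lf (nat_lit 0) (nat_lit 3194323468) (nat_lit 168) (nat_lit 28373091587) (nat_lit 252) (nat_lit 7300472828) (nat_lit 15) (nat_lit 5) (nat_lit 17) (nat_lit 5) (nat_lit 18) (nat_lit 5) (nat_lit 384) (nat_lit 309) (nat_lit 168)) (XT.lf (nat_lit 0) (nat_lit 11643476836) (nat_lit 168) (nat_lit 23535595358) (nat_lit 252) (nat_lit 4697967019) (nat_lit 15) (nat_lit 5) (nat_lit 17) (nat_lit 5) (nat_lit 18) (nat_lit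 5) (nat_lit 385) (nat_lit 309) (nat_lit 167)))))) (XT.nd (nat_lit 564) (nat_lit 168) (nat_lit 0) (XT.nd (nat_lit 282) (nat_lit 168) (nat_lit 0) (XT.nd (nat_lit 94) (nat_lit 84) (nat_lit 0) (XT.lf (nat_lit 0) (nat_lit 20348096907) (nat_lit 168) (nat_lit 18550143846) (nat_lit 252) (nat_lit 2019387520) (nat_lit 15) (nat_lit 5) (nat_lit 17) (nat_lit 5) (nat_lit 18) (nat_lit 5) (nat_lit 386) (nat_lit 309) (nat_lit 166)) (XT.nd (nat_lit 94) (nat_lit 0) (nat_lit 0) (XT.lf (nat_lit 0) (nat_lit 722898117) (nat_lit 252) (nat_lit 12681646397) (nat_lit 84) (nat_lit 28585853608) (nat_lit 14) (nat_lit 5) (nat_lit 17) (nat_lit 5) (nat_lit 15) (nat_lit 5) (nat_lit 387) (nat_lit 309) (nat_lit 165)) (XT.lf (nat_lit 0) (nat_lit 3504003158) (nat_lit 252) (nat_lit 4576067116) (nat_lit 84) (nat_lit 35015859547) (nat_lit 14) (nat_lit 5) (nat_lit 17) (nat_lit 5) (nat_lit 15) (nat_lit 5) (nat_lit 388) (nat_lit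 309) (nat_lit 164)))) (XT.nd (nat_lit 94) (nat_lit 0) (nat_lit 0) (XT.lf (nat_lit 0) (nat_lit 3852411812) (nat_lit 168) (nat_lit 2553010633) (nat_lit 252) (nat_lit 37829267701) (nat_lit 12) (nat_lit 5) (nat_lit 14) (nat_lit 5) (nat_lit 15) (nat_lit 5) (nat_lit 389) (nat_lit 309) (nat_lit 163)) (XT.nd (nat_lit 94) (nat_lit 0) (nat_lit 0) (XT.lf (nat_lit 0) (nat_lit 9472171538) (nat_lit 252) (nat_lit 32805829626) (nat_lit 84) (nat_lit 3128427729) (nat_lit 12) (nat_lit 5) (nat_lit 15) (nat_lit 5) (nat_lit 13) (nat_lit 5) (nat_lit 390) (nat_lit 309) (nat_lit 162)) (XT.lf (nat_lit 0) (nat_lit 12656153418) (nat_lit 252) (nat_lit 25026491304) (nat_lit 84) (nat_lit 8931173145) (nat_lit 12) (nat_lit 5) (nat_lit 15) (nat_lit 5) (nat_lit 13) (nat_lit 5) (nat_lit 391) (nat_lit 309) (nat_lit 161))))) (XT.nd (nat_lit 282) (nat_lit 168) (nat_lit 0) (XT.nd (nat_lit 94) (nat_lit 0) (nat_lit 0) (XT.lf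 (nat_lit 0) (nat_lit 15935009710) (nat_lit 252) (nat_lit 17011686029) (nat_lit 84) (nat_lit 14912071856) (nat_lit 12) (nat_lit 5) (nat_lit 15) (nat_lit 5) (nat_lit 13) (nat_lit 5) (nat_lit 392) (nat_lit 309) (nat_lit 160)) (XT.nd (nat_lit 94) (nat_lit 0) (nat_lit 0) (XT.lf (nat_lit 0) (nat_lit 19311796651) (nat_lit 252) (nat_lit 8753943162) (nat_lit 84) (nat_lit 21076698686) (nat_lit 12) (nat_lit 5) (nat_lit 15) (nat_lit 5) (nat_lit 13) (nat_lit 5) (nat_lit 393) (nat_lit 309) (nat_lit 159)) (XT.lf (nat_lit 0) (nat_lit 22789661760) (nat_lit 252) (nat_lit 245565621) (nat_lit 84) (nat_lit 27430799714) (nat_lit 12) (nat_lit 5) (nat_lit 15) (nat_lit 5) (nat_lit 13) (nat_lit 5) (nat_lit 394) (nat_lit 309) (nat_lit 158)))) (XT.nd (nat_lit 188) (nat_lit 0) (nat_lit 0) (XT.nd (nat_lit 94) (nat_lit 0) (nat_lit 0) (XT.lf (nat_lit 0) (nat_lit 8696594285) (nat_lit 168) (nat_lit 17761523778) (nat_lit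 252) (nat_lit 25369974633) (nat_lit 10) (nat_lit 5) (nat_lit 12) (nat_lit 5) (nat_lit 13) (nat_lit 5) (nat_lit 395) (nat_lit 309) (nat_lit 157)) (XT.lf (nat_lit 0) (nat_lit 17916025267) (nat_lit 168) (nat_lit 12323394579) (nat_lit 252) (nat_lit 22993001162) (nat_lit 10) (nat_lit 5) (nat_lit 12) (nat_lit 5) (nat_lit 13) (nat_lit 5) (nat_lit 396) (nat_lit 309) (nat_lit 156))) (XT.nd (nat_lit 94) (nat_lit 0) (nat_lit 0) (XT.lf (nat_lit 0) (nat_lit 27416271468) (nat_lit 168) (nat_lit 6718334078) (nat_lit 252) (nat_lit 20545792536) (nat_lit 10) (nat_lit 5) (nat_lit 12) (nat_lit 5) (nat_lit 13) (nat_lit 5) (nat_lit 397) (nat_lit 309) (nat_lit 155)) (XT.lf (nat_lit 0) (nat_lit 37206188112) (nat_lit 168) (nat_lit 941117772) (nat_lit 252) (nat_lit 18026067701) (nat_lit 10) (nat_lit 5) (nat_lit 12) (nat_lit 5) (nat_lit 13) (nat_lit 5) (nat_lit 398) (nat_lit 309) (nat_lit 154))))))))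
noncomputable def xc140 : XT := (XT.nd (nat_lit 45966) (nat_lit 0) (nat_lit 5796) (XT.nd (nat_lit 1128) (nat_lit 84) (nat_lit 0) (XT.nd (nat_lit 564) (nat_lit 252) (nat_lit 0) (XT.nd (nat_lit 282) (nat_lit 0) (nat_lit 0) (XT.nd (nat_lit 94) (nat_lit 84) (nat_lit 0) (XT.lf (nat_lit 0) (nat_lit 42330997041) (nat_lit 252) (nat_lit 10467574623) (nat_lit 84) (nat_lit 4912625649) (nat_lit 10) (nat_lit 5) (nat_lit 13) (nat_lit 5) (nat_lit 11) (nat_lit 4) (nat_lit 399) (nat_lit 309) (nat_lit 153)) (XT.nd (nat_lit 94) (nat_lit 84) (nat_lit 0) (XT.lf (nat_lit 0) (nat_lit 46650948664) (nat_lit 252) (nat_lit 1718741545) (nat_lit 84) (nat_lit 10926809998) (nat_lit 10) (nat_lit 5) (nat_lit 13) (nat_lit 5) (nat_lit 11) (nat_lit 4) (nat_lit 400) (nat_lit 309) (nat_lit 152)) (XT.lf (nat_lit 0) (nat_lit 7446841860) (nat_lit 84) (nat_lit 43728883130) (nat_lit 168) (nat_lit 9753034282) (nat_lit 9) (nat_lit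 5) (nat_lit 10) (nat_lit 5) (nat_lit 11) (nat_lit 4) (nat_lit 401) (nat_lit 309) (nat_lit 151)))) (XT.nd (nat_lit 94) (nat_lit 0) (nat_lit 0) (XT.lf (nat_lit 0) (nat_lit 16928539571) (nat_lit 84) (nat_lit 38927247585) (nat_lit 168) (nat_lit 6755375237) (nat_lit 9) (nat_lit 5) (nat_lit 10) (nat_lit 5) (nat_lit 11) (nat_lit 4) (nat_lit 402) (nat_lit 309) (nat_lit 150)) (XT.nd (nat_lit 94) (nat_lit 0) (nat_lit 0) (XT.lf (nat_lit 0) (nat_lit 26699848671) (nat_lit 84) (nat_lit 33978248083) (nat_lit 168) (nat_lit 3667720413) (nat_lit 9) (nat_lit 5) (nat_lit 10) (nat_lit 5) (nat_lit 11) (nat_lit 4) (nat_lit 403) (nat_lit 309) (nat_lit 149)) (XT.lf (nat_lit 0) (nat_lit 36769877043) (nat_lit 84) (nat_lit 28877271640) (nat_lit 168) (nat_lit 487191792) (nat_lit 9) (nat_lit 5) (nat_lit 10) (nat_lit 5) (nat_lit 11) (nat_lit 4) (nat_lit 404) (nat_lit 309) (nat_lit 148))))) (XT.nd (nat_lit 282) (nat_lit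 168) (nat_lit 0) (XT.nd (nat_lit 94) (nat_lit 0) (nat_lit 0) (XT.lf (nat_lit 0) (nat_lit 2732979546) (nat_lit 168) (nat_lit 20858057363) (nat_lit 84) (nat_lit 44386504761) (nat_lit 8) (nat_lit 5) (nat_lit 10) (nat_lit 5) (nat_lit 9) (nat_lit 5) (nat_lit 405) (nat_lit 309) (nat_lit 147)) (XT.nd (nat_lit 94) (nat_lit 0) (nat_lit 0) (XT.lf (nat_lit 0) (nat_lit 6040234896) (nat_lit 168) (nat_lit 12096940700) (nat_lit 84) (nat_lit 51740641516) (nat_lit 8) (nat_lit 5) (nat_lit 10) (nat_lit 5) (nat_lit 9) (nat_lit 5) (nat_lit 406) (nat_lit 309) (nat_lit 146)) (XT.lf (nat_lit 0) (nat_lit 9447472795) (nat_lit 168) (nat_lit 3068114162) (nat_lit 84) (nat_lit 59321500923) (nat_lit 8) (nat_lit 5) (nat_lit 10) (nat_lit 5) (nat_lit 9) (nat_lit 5) (nat_lit 407) (nat_lit 309) (nat_lit 145)))) (XT.nd (nat_lit 94) (nat_lit 0) (nat_lit 0) (XT.lf (nat_lit 0) (nat_lit 6365080245) (nat_lit 168) (nat_lit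 6655931284) (nat_lit 252) (nat_lit 60834211275) (nat_lit 6) (nat_lit 5) (nat_lit 8) (nat_lit 5) (nat_lit 9) (nat_lit 5) (nat_lit 408) (nat_lit 309) (nat_lit 144)) (XT.nd (nat_lit 94) (nat_lit 0) (nat_lit 0) (XT.lf (nat_lit 0) (nat_lit 16152016300) (nat_lit 168) (nat_lit 582909705) (nat_lit 252) (nat_lit 59200083928) (nat_lit 6) (nat_lit 5) (nat_lit 8) (nat_lit 5) (nat_lit 9) (nat_lit 5) (nat_lit 409) (nat_lit 309) (nat_lit 143)) (XT.lf (nat_lit 0) (nat_lit 20617933751) (nat_lit 252) (nat_lit 51896938708) (nat_lit 84) (nat_lit 5562732461) (nat_lit 6) (nat_lit 5) (nat_lit 9) (nat_lit 5) (nat_lit 7) (nat_lit 4) (nat_lit 410) (nat_lit 309) (nat_lit 142)))))) (XT.nd (nat_lit 564) (nat_lit 0) (nat_lit 0) (XT.nd (nat_lit 282) (nat_lit 84) (nat_lit 0) (XT.nd (nat_lit 94) (nat_lit 0) (nat_lit 0) (XT.lf (nat_lit 0) (nat_lit 24624979472) (nat_lit 252) (nat_lit 43775952488) (nat_lit 84) (nat_lit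 11885581841) (nat_lit 6) (nat_lit 5) (nat_lit 9) (nat_lit 5) (nat_lit 7) (nat_lit 4) (nat_lit 411) (nat_lit 309) (nat_lit 141)) (XT.nd (nat_lit 94) (nat_lit 0) (nat_lit 0) (XT.lf (nat_lit 0) (nat_lit 28754015619) (nat_lit 252) (nat_lit 35406682828) (nat_lit 84) (nat_lit 18403276323) (nat_lit 6) (nat_lit 5) (nat_lit 9) (nat_lit 5) (nat_lit 7) (nat_lit 4) (nat_lit 412) (nat_lit 309) (nat_lit 140)) (XT.lf (nat_lit 0) (nat_lit 33008890886) (nat_lit 252) (nat_lit 26781328692) (nat_lit 84) (nat_lit 25121891080) (nat_lit 6) (nat_lit 5) (nat_lit 9) (nat_lit 5) (nat_lit 7) (nat_lit 4) (nat_lit 413) (nat_lit 309) (nat_lit 139)))) (XT.nd (nat_lit 94) (nat_lit 84) (nat_lit 0) (XT.lf (nat_lit 0) (nat_lit 37393571262) (nat_lit 252) (nat_lit 17891850346) (nat_lit 84) (nat_lit 32047688566) (nat_lit 6) (nat_lit 5) (nat_lit 9) (nat_lit 5) (nat_lit 7) (nat_lit 4) (nat_lit 414) (nat_lit 309) (nat_lit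 138)) (XT.nd (nat_lit 94) (nat_lit 84) (nat_lit 0) (XT.lf (nat_lit 0) (nat_lit 41912143730) (nat_lit 252) (nat_lit 8729961865) (nat_lit 84) (nat_lit 39187124349) (nat_lit 6) (nat_lit 5) (nat_lit 9) (nat_lit 5) (nat_lit 7) (nat_lit 4) (nat_lit 415) (nat_lit 309) (nat_lit 137)) (XT.lf (nat_lit 0) (nat_lit 727534794) (nat_lit 84) (nat_lit 45848502512) (nat_lit 168) (nat_lit 45826535573) (nat_lit 5) (nat_lit 5) (nat_lit 6) (nat_lit 5) (nat_lit 7) (nat_lit 4) (nat_lit 416) (nat_lit 309) (nat_lit 136))))) (XT.nd (nat_lit 43992) (nat_lit 0) (nat_lit 9408) (XT.nd (nat_lit 94) (nat_lit 0) (nat_lit 0) (XT.lf (nat_lit 0) (nat_lit 10660246953) (nat_lit 84) (nat_lit 40813444812) (nat_lit 168) (nat_lit 43579238968) (nat_lit 5) (nat_lit 5) (nat_lit 6) (nat_lit 5) (nat_lit 7) (nat_lit 4) (nat_lit 417) (nat_lit 309) (nat_lit 135)) (XT.nd (nat_lit 94) (nat_lit 0) (nat_lit 0) (XT.lf (nat_lit 0) (nat_lit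 20897927018) (nat_lit 84) (nat_lit 35623362192) (nat_lit 168) (nat_lit 41264224582) (nat_lit 5) (nat_lit 5) (nat_lit 6) (nat_lit 5) (nat_lit 7) (nat_lit 4) (nat_lit 418) (nat_lit 309) (nat_lit 134)) (XT.lf (nat_lit 0) (nat_lit 31450117580) (nat_lit 84) (nat_lit 30273416952) (nat_lit 168) (nat_lit 38879334580) (nat_lit 5) (nat_lit 5) (nat_lit 6) (nat_lit 5) (nat_lit 7) (nat_lit 4) (nat_lit 419) (nat_lit 309) (nat_lit 133)))) (XT.nd (nat_lit 94) (nat_lit 0) (nat_lit 0) (XT.lf (nat_lit 0) (nat_lit 2972756091) (nat_lit 924) (nat_lit 760645562) (nat_lit 924) (nat_lit 760645562) (nat_lit 117) (nat_lit 3) (nat_lit 128) (nat_lit 3) (nat_lit 128) (nat_lit 5) (nat_lit 310) (nat_lit 310) (nat_lit 241)) (XT.nd (nat_lit 94) (nat_lit 0) (nat_lit 0) (XT.lf (nat_lit 84) (nat_lit 1728312139) (nat_lit 0) (nat_lit 5051172406) (nat_lit 924) (nat_lit 2320475006) (nat_lit 118) (nat_lit 5) (nat_lit 117)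 (nat_lit 3) (nat_lit 128) (nat_lit 5) (nat_lit 311) (nat_lit 310) (nat_lit 240)) (XT.lf (nat_lit 84) (nat_lit 5095449430) (nat_lit 0) (nat_lit 2530385427) (nat_lit 924) (nat_lit 1590054841) (nat_lit 118) (nat_lit 5) (nat_lit 117) (nat_lit 3) (nat_lit 128) (nat_lit 5) (nat_lit 312) (nat_lit 310) (nat_lit 239))))))) (XT.nd (nat_lit 1128) (nat_lit 2772) (nat_lit 0) (XT.nd (nat_lit 564) (nat_lit 0) (nat_lit 84) (XT.nd (nat_lit 282) (nat_lit 0) (nat_lit 0) (XT.nd (nat_lit 94) (nat_lit 924) (nat_lit 0) (XT.lf (nat_lit 0) (nat_lit 8470764029) (nat_lit 840) (nat_lit 785305705) (nat_lit 924) (nat_lit 80375425) (nat_lit 118) (nat_lit 5) (nat_lit 128) (nat_lit 5) (nat_lit 129) (nat_lit 5) (nat_lit 313) (nat_lit 310) (nat_lit 238)) (XT.nd (nat_lit 94) (nat_lit 924) (nat_lit 0) (XT.lf (nat_lit 84) (nat_lit 2665345389) (nat_lit 0) (nat_lit 6701375139) (nat_lit 924) (nat_lit 93416285) (nat_lit 119)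 (nat_lit 5) (nat_lit 118) (nat_lit 5) (nat_lit 129) (nat_lit 5) (nat_lit 314) (nat_lit 310) (nat_lit 237)) (XT.lf (nat_lit 0) (nat_lit 669661664) (nat_lit 924) (nat_lit 3371103419) (nat_lit 1008) (nat_lit 5547428540) (nat_lit 107) (nat_lit 5) (nat_lit 118) (nat_lit 5) (nat_lit 119) (nat_lit 5) (nat_lit 315) (nat_lit 310) (nat_lit 236)))) (XT.nd (nat_lit 94) (nat_lit 0) (nat_lit 84) (XT.lf (nat_lit 84) (nat_lit 144918219) (nat_lit 0) (nat_lit 1284544948) (nat_lit 1008) (nat_lit 8291656211) (nat_lit 108) (nat_lit 5) (nat_lit 107) (nat_lit 5) (nat_lit 119) (nat_lit 5) (nat_lit 316) (nat_lit 310) (nat_lit 235)) (XT.nd (nat_lit 94) (nat_lit 0) (nat_lit 0) (XT.lf (nat_lit 0) (nat_lit 2238124496) (nat_lit 924) (nat_lit 6048134923) (nat_lit 1008) (nat_lit 1571271363) (nat_lit 108) (nat_lit 5) (nat_lit 119) (nat_lit 5) (nat_lit 120) (nat_lit 5) (nat_lit 317) (nat_lit 310) (nat_lit 234)) (XT.lf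 (nat_lit 0) (nat_lit 3060076472) (nat_lit 924) (nat_lit 2439991078) (nat_lit 1008) (nat_lit 4498613447) (nat_lit 108) (nat_lit 5) (nat_lit 119) (nat_lit 5) (nat_lit 120) (nat_lit 5) (nat_lit 318) (nat_lit 310) (nat_lit 233))))) (XT.nd (nat_lit 282) (nat_lit 0) (nat_lit 84) (XT.nd (nat_lit 94) (nat_lit 0) (nat_lit 84) (XT.lf (nat_lit 84) (nat_lit 1290333738) (nat_lit 0) (nat_lit 2605808928) (nat_lit 1008) (nat_lit 6248557143) (nat_lit 109) (nat_lit 5) (nat_lit 108) (nat_lit 5) (nat_lit 120) (nat_lit 5) (nat_lit 319) (nat_lit 310) (nat_lit 232)) (XT.nd (nat_lit 94) (nat_lit 0) (nat_lit 0) (XT.lf (nat_lit 0) (nat_lit 4764093808) (nat_lit 924) (nat_lit 5126900681) (nat_lit 1008) (nat_lit 404202098) (nat_lit 109) (nat_lit 5) (nat_lit 120) (nat_lit 5) (nat_lit 121) (nat_lit 5) (nat_lit 320) (nat_lit 310) (nat_lit 231)) (XT.lf (nat_lit 0) (nat_lit 5662796137) (nat_lit 924) (nat_lit 1326498457)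 (nat_lit 1008) (nat_lit 3461077245) (nat_lit 109) (nat_lit 5) (nat_lit 120) (nat_lit 5) (nat_lit 121) (nat_lit 5) (nat_lit 321) (nat_lit 310) (nat_lit 230)))) (XT.nd (nat_lit 94) (nat_lit 0) (nat_lit 0) (XT.lf (nat_lit 84) (nat_lit 2629205552) (nat_lit 0) (nat_lit 3964113882) (nat_lit 1008) (nat_lit 4017043574) (nat_lit 110) (nat_lit 5) (nat_lit 109) (nat_lit 5) (nat_lit 121) (nat_lit 5) (nat_lit 322) (nat_lit 310) (nat_lit 229)) (XT.nd (nat_lit 94) (nat_lit 0) (nat_lit 84) (XT.lf (nat_lit 84) (nat_lit 6720330896) (nat_lit 0) (nat_lit 824596219) (nat_lit 1008) (nat_lit 3230751829) (nat_lit 110) (nat_lit 5) (nat_lit 109) (nat_lit 5) (nat_lit 121) (nat_lit 5) (nat_lit 323) (nat_lit 310) (nat_lit 228)) (XT.lf (nat_lit 0) (nat_lit 8529066793) (nat_lit 924) (nat_lit 47464875) (nat_lit 1008) (nat_lit 2369614693) (nat_lit 110) (nat_lit 5) (nat_lit 121) (nat_lit 5) (nat_lit 122) (nat_lit 5)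 (nat_lit 324) (nat_lit 310) (nat_lit 227)))))) (XT.nd (nat_lit 564) (nat_lit 1092) (nat_lit 0) (XT.nd (nat_lit 282) (nat_lit 1008) (nat_lit 0) (XT.nd (nat_lit 94) (nat_lit 924) (nat_lit 0) (XT.lf (nat_lit 84) (nat_lit 4144506994) (nat_lit 0) (nat_lit 5428486229) (nat_lit 1008) (nat_lit 1548114467) (nat_lit 111) (nat_lit 5) (nat_lit 110) (nat_lit 5) (nat_lit 122) (nat_lit 5) (nat_lit 325) (nat_lit 310) (nat_lit 226)) (XT.nd (nat_lit 94) (nat_lit 924) (nat_lit 0) (XT.lf (nat_lit 84) (nat_lit 8452365778) (nat_lit 0) (nat_lit 2177601708) (nat_lit 1008) (nat_lit 672237601) (nat_lit 111) (nat_lit 5) (nat_lit 110) (nat_lit 5) (nat_lit 122) (nat_lit 5) (nat_lit 326) (nat_lit 310) (nat_lit 225)) (XT.lf (nat_lit 0) (nat_lit 232527430) (nat_lit 1008) (nat_lit 10085014142) (nat_lit 84) (nat_lit 1171212803) (nat_lit 99) (nat_lit 5) (nat_lit 111) (nat_lit 5) (nat_lit 100) (nat_lit 5) (nat_lit 327)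 (nat_lit 310) (nat_lit 224)))) (XT.nd (nat_lit 94) (nat_lit 1008) (nat_lit 0) (XT.lf (nat_lit 0) (nat_lit 1184659653) (nat_lit 1008) (nat_lit 5875728237) (nat_lit 84) (nat_lit 4619557475) (nat_lit 99) (nat_lit 5) (nat_lit 111) (nat_lit 5) (nat_lit 100) (nat_lit 5) (nat_lit 328) (nat_lit 310) (nat_lit 223)) (XT.nd (nat_lit 94) (nat_lit 1008) (nat_lit 0) (XT.lf (nat_lit 0) (nat_lit 2147841414) (nat_lit 1008) (nat_lit 1551190297) (nat_lit 84) (nat_lit 8178704513) (nat_lit 99) (nat_lit 5) (nat_lit 111) (nat_lit 5) (nat_lit 100) (nat_lit 5) (nat_lit 329) (nat_lit 310) (nat_lit 222)) (XT.lf (nat_lit 0) (nat_lit 2952109019) (nat_lit 1008) (nat_lit 200146766) (nat_lit 1092) (nat_lit 8929147683) (nat_lit 87) (nat_lit 5) (nat_lit 99) (nat_lit 5) (nat_lit 100) (nat_lit 5) (nat_lit 330) (nat_lit 310) (nat_lit 221))))) (XT.nd (nat_lit 282) (nat_lit 504) (nat_lit 0) (XT.nd (nat_lit 94) (nat_lit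 588) (nat_lit 0) (XT.lf (nat_lit 0) (nat_lit 4220474526) (nat_lit 1092) (nat_lit 4712247272) (nat_lit 84) (nat_lit 3357744436) (nat_lit 87) (nat_lit 5) (nat_lit 100) (nat_lit 5) (nat_lit 88) (nat_lit 5) (nat_lit 331) (nat_lit 310) (nat_lit 220)) (XT.nd (nat_lit 94) (nat_lit 588) (nat_lit 0) (XT.lf (nat_lit 0) (nat_lit 5306891740) (nat_lit 1092) (nat_lit 175153154) (nat_lit 84) (nat_lit 7024519147) (nat_lit 87) (nat_lit 5) (nat_lit 100) (nat_lit 5) (nat_lit 88) (nat_lit 5) (nat_lit 332) (nat_lit 310) (nat_lit 219)) (XT.lf (nat_lit 0) (nat_lit 4580489081) (nat_lit 588) (nat_lit 1875484540) (nat_lit 672) (nat_lit 6272577634) (nat_lit 80) (nat_lit 5) (nat_lit 87) (nat_lit 5) (nat_lit 88) (nat_lit 5) (nat_lit 333) (nat_lit 310) (nat_lit 218)))) (XT.nd (nat_lit 188) (nat_lit 0) (nat_lit 0) (XT.nd (nat_lit 94) (nat_lit 504) (nat_lit 0) (XT.lf (nat_lit 0) (nat_lit 7644724130) (nat_lit 672)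 (nat_lit 3503240859) (nat_lit 84) (nat_lit 1809415882) (nat_lit 80) (nat_lit 5) (nat_lit 88) (nat_lit 5) (nat_lit 81) (nat_lit 5) (nat_lit 334) (nat_lit 310) (nat_lit 217)) (XT.lf (nat_lit 0) (nat_lit 1277731412) (nat_lit 504) (nat_lit 7608853638) (nat_lit 588) (nat_lit 4306298786) (nat_lit 74) (nat_lit 5) (nat_lit 80) (nat_lit 5) (nat_lit 81) (nat_lit 5) (nat_lit 335) (nat_lit 310) (nat_lit 216))) (XT.nd (nat_lit 94) (nat_lit 0) (nat_lit 0) (XT.lf (nat_lit 0) (nat_lit 6266926328) (nat_lit 504) (nat_lit 3921313668) (nat_lit 588) (nat_lit 3246868359) (nat_lit 74) (nat_lit 5) (nat_lit 80) (nat_lit 5) (nat_lit 81) (nat_lit 5) (nat_lit 336) (nat_lit 310) (nat_lit 215)) (XT.lf (nat_lit 0) (nat_lit 11396960525) (nat_lit 504) (nat_lit 118474556) (nat_lit 588) (nat_lit 2169944610) (nat_lit 74) (nat_lit 5) (nat_lit 80) (nat_lit 5) (nat_lit 81) (nat_lit 5) (nat_lit 337) (nat_lit 310) (nat_lit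 214))))))))
noncomputable def xc141 : XT := (XT.nd (nat_lit 2256) (nat_lit 1764) (nat_lit 0) (XT.nd (nat_lit 1128) (nat_lit 1008) (nat_lit 0) (XT.nd (nat_lit 564) (nat_lit 1176) (nat_lit 0) (XT.nd (nat_lit 282) (nat_lit 420) (nat_lit 0) (XT.nd (nat_lit 94) (nat_lit 84) (nat_lit 0) (XT.lf (nat_lit 0) (nat_lit 2746287892) (nat_lit 504) (nat_lit 10188091308) (nat_lit 588) (nat_lit 1007537793) (nat_lit 68) (nat_lit 5) (nat_lit 74) (nat_lit 5) (nat_lit 75) (nat_lit 5) (nat_lit 338) (nat_lit 310) (nat_lit 213)) (XT.nd (nat_lit 94) (nat_lit 0) (nat_lit 0) (XT.lf (nat_lit 0) (nat_lit 198121823) (nat_lit 588) (nat_lit 6237597604) (nat_lit 84) (nat_lit 7770357641) (nat_lit 67) (nat_lit 5) (nat_lit 74) (nat_lit 5) (nat_lit 68) (nat_lit 5) (nat_lit 339) (nat_lit 310) (nat_lit 212)) (XT.lf (nat_lit 0) (nat_lit 1406379316) (nat_lit 588) (nat_lit 1149911423) (nat_lit 84) (nat_lit 11922314888) (nat_lit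 67) (nat_lit 5) (nat_lit 74) (nat_lit 5) (nat_lit 68) (nat_lit 5) (nat_lit 340) (nat_lit 310) (nat_lit 211)))) (XT.nd (nat_lit 94) (nat_lit 0) (nat_lit 0) (XT.lf (nat_lit 0) (nat_lit 2694731270) (nat_lit 504) (nat_lit 10607423496) (nat_lit 84) (nat_lit 1456173579) (nat_lit 62) (nat_lit 5) (nat_lit 68) (nat_lit 5) (nat_lit 63) (nat_lit 5) (nat_lit 341) (nat_lit 310) (nat_lit 210)) (XT.nd (nat_lit 94) (nat_lit 0) (nat_lit 0) (XT.lf (nat_lit 0) (nat_lit 4048132908) (nat_lit 504) (nat_lit 5445858703) (nat_lit 84) (nat_lit 5552017956) (nat_lit 62) (nat_lit 5) (nat_lit 68) (nat_lit 5) (nat_lit 63) (nat_lit 5) (nat_lit 342) (nat_lit 310) (nat_lit 209)) (XT.lf (nat_lit 0) (nat_lit 5430726132) (nat_lit 504) (nat_lit 137539199) (nat_lit 84) (nat_lit 9774802822) (nat_lit 62) (nat_lit 5) (nat_lit 68) (nat_lit 5) (nat_lit 63) (nat_lit 5) (nat_lit 343) (nat_lit 310) (nat_lit 208))))) (XT.nd (nat_lit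 282) (nat_lit 420) (nat_lit 0) (XT.nd (nat_lit 94) (nat_lit 336) (nat_lit 0) (XT.lf (nat_lit 0) (nat_lit 5431924091) (nat_lit 420) (nat_lit 1465760932) (nat_lit 504) (nat_lit 8750425521) (nat_lit 57) (nat_lit 5) (nat_lit 62) (nat_lit 5) (nat_lit 63) (nat_lit 5) (nat_lit 344) (nat_lit 310) (nat_lit 207)) (XT.nd (nat_lit 94) (nat_lit 336) (nat_lit 0) (XT.lf (nat_lit 0) (nat_lit 8426848452) (nat_lit 504) (nat_lit 4826196592) (nat_lit 84) (nat_lit 2709105410) (nat_lit 57) (nat_lit 5) (nat_lit 63) (nat_lit 5) (nat_lit 58) (nat_lit 5) (nat_lit 345) (nat_lit 310) (nat_lit 206)) (XT.lf (nat_lit 0) (nat_lit 717589826) (nat_lit 336) (nat_lit 9296161073) (nat_lit 420) (nat_lit 6271912323) (nat_lit 53) (nat_lit 5) (nat_lit 57) (nat_lit 5) (nat_lit 58) (nat_lit 5) (nat_lit 346) (nat_lit 310) (nat_lit 205)))) (XT.nd (nat_lit 94) (nat_lit 420) (nat_lit 0) (XT.lf (nat_lit 0) (nat_lit 6522915959) (nat_lit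 336) (nat_lit 5165760793) (nat_lit 420) (nat_lit 4929380677) (nat_lit 53) (nat_lit 5) (nat_lit 57) (nat_lit 5) (nat_lit 58) (nat_lit 5) (nat_lit 347) (nat_lit 310) (nat_lit 204)) (XT.nd (nat_lit 94) (nat_lit 420) (nat_lit 0) (XT.lf (nat_lit 0) (nat_lit 12495956478) (nat_lit 336) (nat_lit 908369833) (nat_lit 420) (nat_lit 3556831281) (nat_lit 53) (nat_lit 5) (nat_lit 57) (nat_lit 5) (nat_lit 58) (nat_lit 5) (nat_lit 348) (nat_lit 310) (nat_lit 203)) (XT.lf (nat_lit 0) (nat_lit 1319049438) (nat_lit 420) (nat_lit 13890856270) (nat_lit 504) (nat_lit 2103901990) (nat_lit 48) (nat_lit 5) (nat_lit 53) (nat_lit 5) (nat_lit 54) (nat_lit 5) (nat_lit 349) (nat_lit 310) (nat_lit 202)))))) (XT.nd (nat_lit 564) (nat_lit 252) (nat_lit 0) (XT.nd (nat_lit 282) (nat_lit 336) (nat_lit 0) (XT.nd (nat_lit 94) (nat_lit 420) (nat_lit 0) (XT.lf (nat_lit 0) (nat_lit 7355652392) (nat_lit 420) (nat_lit 9760943762)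 (nat_lit 504) (nat_lit 559445857) (nat_lit 48) (nat_lit 5) (nat_lit 53) (nat_lit 5) (nat_lit 54) (nat_lit 5) (nat_lit 350) (nat_lit 310) (nat_lit 201)) (XT.nd (nat_lit 94) (nat_lit 336) (nat_lit 0) (XT.lf (nat_lit 0) (nat_lit 1001578239) (nat_lit 504) (nat_lit 4492398931) (nat_lit 84) (nat_lit 12555584567) (nat_lit 47) (nat_lit 5) (nat_lit 53) (nat_lit 5) (nat_lit 48) (nat_lit 5) (nat_lit 351) (nat_lit 310) (nat_lit 200)) (XT.lf (nat_lit 0) (nat_lit 1529682269) (nat_lit 336) (nat_lit 1074681374) (nat_lit 420) (nat_lit 15830011689) (nat_lit 43) (nat_lit 5) (nat_lit 47) (nat_lit 5) (nat_lit 48) (nat_lit 5) (nat_lit 352) (nat_lit 310) (nat_lit 199)))) (XT.nd (nat_lit 94) (nat_lit 336) (nat_lit 0) (XT.lf (nat_lit 0) (nat_lit 4328736423) (nat_lit 420) (nat_lit 11042894200) (nat_lit 84) (nat_lit 3457304025) (nat_lit 43) (nat_lit 5) (nat_lit 48) (nat_lit 5) (nat_lit 44) (nat_lit 5) (nat_lit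 353) (nat_lit 310) (nat_lit 198)) (XT.nd (nat_lit 94) (nat_lit 336) (nat_lit 0) (XT.lf (nat_lit 0) (nat_lit 6107849120) (nat_lit 420) (nat_lit 5021909884) (nat_lit 84) (nat_lit 8105970552) (nat_lit 43) (nat_lit 5) (nat_lit 48) (nat_lit 5) (nat_lit 44) (nat_lit 5) (nat_lit 354) (nat_lit 310) (nat_lit 197)) (XT.lf (nat_lit 0) (nat_lit 1198683852) (nat_lit 336) (nat_lit 6745906321) (nat_lit 420) (nat_lit 11710510921) (nat_lit 39) (nat_lit 5) (nat_lit 43) (nat_lit 5) (nat_lit 44) (nat_lit 5) (nat_lit 355) (nat_lit 310) (nat_lit 196))))) (XT.nd (nat_lit 282) (nat_lit 0) (nat_lit 0) (XT.nd (nat_lit 94) (nat_lit 252) (nat_lit 0) (XT.lf (nat_lit 0) (nat_lit 7707499254) (nat_lit 336) (nat_lit 2173947352) (nat_lit 420) (nat_lit 10204729534) (nat_lit 39) (nat_lit 5) (nat_lit 43) (nat_lit 5) (nat_lit 44) (nat_lit 5) (nat_lit 356) (nat_lit 310) (nat_lit 195)) (XT.nd (nat_lit 94) (nat_lit 252) (nat_lit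 0) (XT.lf (nat_lit 0) (nat_lit 11894558331) (nat_lit 420) (nat_lit 6148767048) (nat_lit 84) (nat_lit 2486826748) (nat_lit 39) (nat_lit 5) (nat_lit 44) (nat_lit 5) (nat_lit 40) (nat_lit 5) (nat_lit 357) (nat_lit 310) (nat_lit 194)) (XT.lf (nat_lit 0) (nat_lit 246283917) (nat_lit 252) (nat_lit 13739758383) (nat_lit 336) (nat_lit 7001393130) (nat_lit 36) (nat_lit 5) (nat_lit 39) (nat_lit 5) (nat_lit 40) (nat_lit 5) (nat_lit 358) (nat_lit 310) (nat_lit 193)))) (XT.nd (nat_lit 94) (nat_lit 0) (nat_lit 0) (XT.lf (nat_lit 0) (nat_lit 6959326778) (nat_lit 252) (nat_lit 9238660999) (nat_lit 336) (nat_lit 5259220177) (nat_lit 36) (nat_lit 5) (nat_lit 39) (nat_lit 5) (nat_lit 40) (nat_lit 5) (nat_lit 359) (nat_lit 310) (nat_lit 192)) (XT.nd (nat_lit 94) (nat_lit 0) (nat_lit 0) (XT.lf (nat_lit 0) (nat_lit 13870187531) (nat_lit 252) (nat_lit 4600018249) (nat_lit 336) (nat_lit 3471631568) (nat_lit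 36) (nat_lit 5) (nat_lit 39) (nat_lit 5) (nat_lit 40) (nat_lit 5) (nat_lit 360) (nat_lit 310) (nat_lit 191)) (XT.lf (nat_lit 0) (nat_lit 20806604774) (nat_lit 336) (nat_lit 1458258034) (nat_lit 84) (nat_lit 176857024) (nat_lit 36) (nat_lit 5) (nat_lit 40) (nat_lit 5) (nat_lit 37) (nat_lit 5) (nat_lit 361) (nat_lit 310) (nat_lit 190))))))) (XT.nd (nat_lit 1128) (nat_lit 672) (nat_lit 0) (XT.nd (nat_lit 564) (nat_lit 420) (nat_lit 0) (XT.nd (nat_lit 282) (nat_lit 252) (nat_lit 0) (XT.nd (nat_lit 94) (nat_lit 0) (nat_lit 0) (XT.lf (nat_lit 0) (nat_lit 346957384) (nat_lit 420) (nat_lit 17545555141) (nat_lit 84) (nat_lit 5061631492) (nat_lit 31) (nat_lit 5) (nat_lit 36) (nat_lit 5) (nat_lit 32) (nat_lit 5) (nat_lit 362) (nat_lit 310) (nat_lit 189)) (XT.nd (nat_lit 94) (nat_lit 0) (nat_lit 0) (XT.lf (nat_lit 0) (nat_lit 2364087228) (nat_lit 420) (nat_lit 10989665555) (nat_lit 84) (nat_lit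 10127979688) (nat_lit 31) (nat_lit 5) (nat_lit 36) (nat_lit 5) (nat_lit 32) (nat_lit 5) (nat_lit 363) (nat_lit 310) (nat_lit 188)) (XT.lf (nat_lit 0) (nat_lit 4436184024) (nat_lit 420) (nat_lit 4240269241) (nat_lit 84) (nat_lit 15349488886) (nat_lit 31) (nat_lit 5) (nat_lit 36) (nat_lit 5) (nat_lit 32) (nat_lit 5) (nat_lit 364) (nat_lit 310) (nat_lit 187)))) (XT.nd (nat_lit 94) (nat_lit 0) (nat_lit 0) (XT.lf (nat_lit 0) (nat_lit 2764625998) (nat_lit 252) (nat_lit 3827978617) (nat_lit 336) (nat_lit 17993825513) (nat_lit 28) (nat_lit 5) (nat_lit 31) (nat_lit 5) (nat_lit 32) (nat_lit 5) (nat_lit 365) (nat_lit 310) (nat_lit 186)) (XT.nd (nat_lit 94) (nat_lit 0) (nat_lit 0) (XT.lf (nat_lit 0) (nat_lit 8864971305) (nat_lit 336) (nat_lit 15107993739) (nat_lit 84) (nat_lit 1189835811) (nat_lit 28) (nat_lit 5) (nat_lit 32) (nat_lit 5) (nat_lit 29) (nat_lit 5) (nat_lit 366) (nat_lit 310) (nat_lit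 185)) (XT.lf (nat_lit 0) (nat_lit 11239920167) (nat_lit 336) (nat_lit 8234488580) (nat_lit 84) (nat_lit 6281662764) (nat_lit 28) (nat_lit 5) (nat_lit 32) (nat_lit 5) (nat_lit 29) (nat_lit 5) (nat_lit 367) (nat_lit 310) (nat_lit 184))))) (XT.nd (nat_lit 282) (nat_lit 168) (nat_lit 0) (XT.nd (nat_lit 94) (nat_lit 252) (nat_lit 0) (XT.lf (nat_lit 0) (nat_lit 13681690882) (nat_lit 336) (nat_lit 1156907805) (nat_lit 84) (nat_lit 11529373594) (nat_lit 28) (nat_lit 5) (nat_lit 32) (nat_lit 5) (nat_lit 29) (nat_lit 5) (nat_lit 368) (nat_lit 310) (nat_lit 183)) (XT.nd (nat_lit 94) (nat_lit 0) (nat_lit 0) (XT.lf (nat_lit 0) (nat_lit 6257418671) (nat_lit 252) (nat_lit 9997215132) (nat_lit 336) (nat_lit 10742515415) (nat_lit 25) (nat_lit 5) (nat_lit 28) (nat_lit 5) (nat_lit 29) (nat_lit 5) (nat_lit 369) (nat_lit 310) (nat_lit 182)) (XT.lf (nat_lit 0) (nat_lit 13917471171) (nat_lit 252) (nat_lit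 4995458084) (nat_lit 336) (nat_lit 8732754278) (nat_lit 25) (nat_lit 5) (nat_lit 28) (nat_lit 5) (nat_lit 29) (nat_lit 5) (nat_lit 370) (nat_lit 310) (nat_lit 181)))) (XT.nd (nat_lit 94) (nat_lit 168) (nat_lit 0) (XT.lf (nat_lit 0) (nat_lit 21648922266) (nat_lit 336) (nat_lit 6509521421) (nat_lit 84) (nat_lit 156050159) (nat_lit 25) (nat_lit 5) (nat_lit 29) (nat_lit 5) (nat_lit 26) (nat_lit 5) (nat_lit 371) (nat_lit 310) (nat_lit 180)) (XT.nd (nat_lit 94) (nat_lit 0) (nat_lit 0) (XT.lf (nat_lit 0) (nat_lit 891493185) (nat_lit 168) (nat_lit 23632052870) (nat_lit 252) (nat_lit 4478847631) (nat_lit 23) (nat_lit 5) (nat_lit 25) (nat_lit 5) (nat_lit 26) (nat_lit 5) (nat_lit 372) (nat_lit 310) (nat_lit 179)) (XT.lf (nat_lit 0) (nat_lit 8651696399) (nat_lit 168) (nat_lit 18897514600) (nat_lit 252) (nat_lit 2160511589) (nat_lit 23) (nat_lit 5) (nat_lit 25) (nat_lit 5) (nat_lit 26) (nat_lit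 5) (nat_lit 373) (nat_lit 310) (nat_lit 178)))))) (XT.nd (nat_lit 564) (nat_lit 336) (nat_lit 0) (XT.nd (nat_lit 282) (nat_lit 0) (nat_lit 0) (XT.nd (nat_lit 94) (nat_lit 252) (nat_lit 0) (XT.lf (nat_lit 0) (nat_lit 219145346) (nat_lit 252) (nat_lit 13796929072) (nat_lit 84) (nat_lit 16423039655) (nat_lit 22) (nat_lit 5) (nat_lit 25) (nat_lit 5) (nat_lit 23) (nat_lit 5) (nat_lit 374) (nat_lit 310) (nat_lit 177)) (XT.nd (nat_lit 94) (nat_lit 252) (nat_lit 0) (XT.lf (nat_lit 0) (nat_lit 2621951008) (nat_lit 252) (nat_lit 6340727928) (nat_lit 84) (nat_lit 22227952583) (nat_lit 22) (nat_lit 5) (nat_lit 25) (nat_lit 5) (nat_lit 23) (nat_lit 5) (nat_lit 375) (nat_lit 310) (nat_lit 176)) (XT.lf (nat_lit 0) (nat_lit 1366491504) (nat_lit 252) (nat_lit 3740738817) (nat_lit 336) (nat_lit 26857989275) (nat_lit 19) (nat_lit 5) (nat_lit 22) (nat_lit 5) (nat_lit 23) (nat_lit 5) (nat_lit 376) (nat_lit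 310) (nat_lit 175)))) (XT.nd (nat_lit 94) (nat_lit 0) (nat_lit 0) (XT.lf (nat_lit 0) (nat_lit 7747216309) (nat_lit 336) (nat_lit 23339437510) (nat_lit 84) (nat_lit 1674779074) (nat_lit 19) (nat_lit 5) (nat_lit 23) (nat_lit 5) (nat_lit 20) (nat_lit 5) (nat_lit 377) (nat_lit 310) (nat_lit 174)) (XT.nd (nat_lit 94) (nat_lit 0) (nat_lit 0) (XT.lf (nat_lit 0) (nat_lit 10501968462) (nat_lit 336) (nat_lit 15900882598) (nat_lit 84) (nat_lit 7178476942) (nat_lit 19) (nat_lit 5) (nat_lit 23) (nat_lit 5) (nat_lit 20) (nat_lit 5) (nat_lit 378) (nat_lit 310) (nat_lit 173)) (XT.lf (nat_lit 0) (nat_lit 13336945908) (nat_lit 336) (nat_lit 8239021251) (nat_lit 84) (nat_lit 12850852359) (nat_lit 19) (nat_lit 5) (nat_lit 23) (nat_lit 5) (nat_lit 20) (nat_lit 5) (nat_lit 379) (nat_lit 310) (nat_lit 172))))) (XT.nd (nat_lit 282) (nat_lit 168) (nat_lit 0) (XT.nd (nat_lit 94) (nat_lit 168) (nat_lit 0) (XT.lf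 (nat_lit 0) (nat_lit 16254791141) (nat_lit 336) (nat_lit 346711811) (nat_lit 84) (nat_lit 18697192574) (nat_lit 19) (nat_lit 5) (nat_lit 23) (nat_lit 5) (nat_lit 20) (nat_lit 5) (nat_lit 380) (nat_lit 310) (nat_lit 171)) (XT.nd (nat_lit 94) (nat_lit 0) (nat_lit 0) (XT.lf (nat_lit 0) (nat_lit 7943444891) (nat_lit 168) (nat_lit 11393578965) (nat_lit 252) (nat_lit 16858302053) (nat_lit 17) (nat_lit 5) (nat_lit 19) (nat_lit 5) (nat_lit 20) (nat_lit 5) (nat_lit 381) (nat_lit 310) (nat_lit 170)) (XT.lf (nat_lit 0) (nat_lit 16491158941) (nat_lit 168) (nat_lit 6022479095) (nat_lit 252) (nat_lit 14606167632) (nat_lit 17) (nat_lit 5) (nat_lit 19) (nat_lit 5) (nat_lit 20) (nat_lit 5) (nat_lit 382) (nat_lit 310) (nat_lit 169)))) (XT.nd (nat_lit 188) (nat_lit 168) (nat_lit 0) (XT.nd (nat_lit 94) (nat_lit 0) (nat_lit 0) (XT.lf (nat_lit 0) (nat_lit 25297268595) (nat_lit 168) (nat_lit 486815876) (nat_lit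 252) (nat_lit 12289020858) (nat_lit 17) (nat_lit 5) (nat_lit 19) (nat_lit 5) (nat_lit 20) (nat_lit 5) (nat_lit 383) (nat_lit 310) (nat_lit 168)) (XT.lf (nat_lit 0) (nat_lit 29203180427) (nat_lit 252) (nat_lit 4737900263) (nat_lit 84) (nat_lit 5113427944) (nat_lit 17) (nat_lit 5) (nat_lit 20) (nat_lit 5) (nat_lit 18) (nat_lit 5) (nat_lit 384) (nat_lit 310) (nat_lit 167))) (XT.nd (nat_lit 94) (nat_lit 0) (nat_lit 0) (XT.lf (nat_lit 0) (nat_lit 3610652910) (nat_lit 168) (nat_lit 29154026655) (nat_lit 252) (nat_lit 7300543219) (nat_lit 15) (nat_lit 5) (nat_lit 17) (nat_lit 5) (nat_lit 18) (nat_lit 5) (nat_lit 385) (nat_lit 310) (nat_lit 166)) (XT.lf (nat_lit 0) (nat_lit 12312189327) (nat_lit 168) (nat_lit 24169533662) (nat_lit 252) (nat_lit 4624162419) (nat_lit 15) (nat_lit 5) (nat_lit 17) (nat_lit 5) (nat_lit 18) (nat_lit 5) (nat_lit 386) (nat_lit 310) (nat_lit 165))))))))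
noncomputable def xc142 : XT := (XT.nd (nat_lit 2256) (nat_lit 84) (nat_lit 0) (XT.nd (nat_lit 1128) (nat_lit 336) (nat_lit 0) (XT.nd (nat_lit 564) (nat_lit 168) (nat_lit 0) (XT.nd (nat_lit 282) (nat_lit 168) (nat_lit 0) (XT.nd (nat_lit 94) (nat_lit 84) (nat_lit 0) (XT.lf (nat_lit 0) (nat_lit 21277398783) (nat_lit 168) (nat_lit 19032409603) (nat_lit 252) (nat_lit 1869145102) (nat_lit 15) (nat_lit 5) (nat_lit 17) (nat_lit 5) (nat_lit 18) (nat_lit 5) (nat_lit 387) (nat_lit 310) (nat_lit 164)) (XT.nd (nat_lit 94) (nat_lit 0) (nat_lit 0) (XT.lf (nat_lit 0) (nat_lit 947592256) (nat_lit 252) (nat_lit 12780382963) (nat_lit 84) (nat_lit 29557154616) (nat_lit 14) (nat_lit 5) (nat_lit 17) (nat_lit 5) (nat_lit 15) (nat_lit 5) (nat_lit 388) (nat_lit 310) (nat_lit 163)) (XT.lf (nat_lit 0) (nat_lit 3808829291) (nat_lit 252) (nat_lit 4432382547) (nat_lit 84) (nat_lit 36183930773) (nat_lit 14) (nat_lit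 5) (nat_lit 17) (nat_lit 5) (nat_lit 15) (nat_lit 5) (nat_lit 389) (nat_lit 310) (nat_lit 162)))) (XT.nd (nat_lit 94) (nat_lit 0) (nat_lit 0) (XT.lf (nat_lit 0) (nat_lit 4254488366) (nat_lit 168) (nat_lit 2542608768) (nat_lit 252) (nat_lit 38802223739) (nat_lit 12) (nat_lit 5) (nat_lit 14) (nat_lit 5) (nat_lit 15) (nat_lit 5) (nat_lit 390) (nat_lit 310) (nat_lit 161)) (XT.nd (nat_lit 94) (nat_lit 0) (nat_lit 0) (XT.lf (nat_lit 0) (nat_lit 9953970730) (nat_lit 252) (nat_lit 33543074015) (nat_lit 84) (nat_lit 3310511858) (nat_lit 12) (nat_lit 5) (nat_lit 15) (nat_lit 5) (nat_lit 13) (nat_lit 5) (nat_lit 391) (nat_lit 310) (nat_lit 160)) (XT.lf (nat_lit 0) (nat_lit 13230998417) (nat_lit 252) (nat_lit 25530987288) (nat_lit 84) (nat_lit 9290583517) (nat_lit 12) (nat_lit 5) (nat_lit 15) (nat_lit 5) (nat_lit 13) (nat_lit 5) (nat_lit 392) (nat_lit 310) (nat_lit 159))))) (XT.nd (nat_lit 282)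 (nat_lit 168) (nat_lit 0) (XT.nd (nat_lit 94) (nat_lit 0) (nat_lit 0) (XT.lf (nat_lit 0) (nat_lit 16606011736) (nat_lit 252) (nat_lit 17275881228) (nat_lit 84) (nat_lit 15454408164) (nat_lit 12) (nat_lit 5) (nat_lit 15) (nat_lit 5) (nat_lit 13) (nat_lit 5) (nat_lit 393) (nat_lit 310) (nat_lit 158)) (XT.nd (nat_lit 94) (nat_lit 0) (nat_lit 0) (XT.lf (nat_lit 0) (nat_lit 20082156551) (nat_lit 252) (nat_lit 8770061212) (nat_lit 84) (nat_lit 21807731128) (nat_lit 12) (nat_lit 5) (nat_lit 15) (nat_lit 5) (nat_lit 13) (nat_lit 5) (nat_lit 394) (nat_lit 310) (nat_lit 157)) (XT.lf (nat_lit 0) (nat_lit 23662672995) (nat_lit 252) (nat_lit 5598924) (nat_lit 84) (nat_lit 28356474371) (nat_lit 12) (nat_lit 5) (nat_lit 15) (nat_lit 5) (nat_lit 13) (nat_lit 5) (nat_lit 395) (nat_lit 310) (nat_lit 156)))) (XT.nd (nat_lit 94) (nat_lit 0) (nat_lit 0) (XT.lf (nat_lit 0) (nat_lit 9211261422) (nat_lit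 168) (nat_lit 18231013915) (nat_lit 252) (nat_lit 25986857440) (nat_lit 10) (nat_lit 5) (nat_lit 12) (nat_lit 5) (nat_lit 13) (nat_lit 5) (nat_lit 396) (nat_lit 310) (nat_lit 155)) (XT.nd (nat_lit 94) (nat_lit 0) (nat_lit 0) (XT.lf (nat_lit 0) (nat_lit 18709125944) (nat_lit 168) (nat_lit 12626741731) (nat_lit 252) (nat_lit 23541296898) (nat_lit 10) (nat_lit 5) (nat_lit 12) (nat_lit 5) (nat_lit 13) (nat_lit 5) (nat_lit 397) (nat_lit 310) (nat_lit 154)) (XT.lf (nat_lit 0) (nat_lit 28496732521) (nat_lit 168) (nat_lit 6850290039) (nat_lit 252) (nat_lit 21023170592) (nat_lit 10) (nat_lit 5) (nat_lit 12) (nat_lit 5) (nat_lit 13) (nat_lit 5) (nat_lit 398) (nat_lit 310) (nat_lit 153)))))) (XT.nd (nat_lit 564) (nat_lit 252) (nat_lit 0) (XT.nd (nat_lit 282) (nat_lit 84) (nat_lit 0) (XT.nd (nat_lit 94) (nat_lit 0) (nat_lit 0) (XT.lf (nat_lit 0) (nat_lit 38583204228) (nat_lit 168) (nat_lit 896274581)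 (nat_lit 252) (nat_lit 18430131364) (nat_lit 10) (nat_lit 5) (nat_lit 12) (nat_lit 5) (nat_lit 13) (nat_lit 5) (nat_lit 399) (nat_lit 310) (nat_lit 152)) (XT.nd (nat_lit 94) (nat_lit 0) (nat_lit 0) (XT.lf (nat_lit 0) (nat_lit 43789078229) (nat_lit 252) (nat_lit 10570897747) (nat_lit 84) (nat_lit 5135262871) (nat_lit 10) (nat_lit 5) (nat_lit 13) (nat_lit 5) (nat_lit 11) (nat_lit 4) (nat_lit 400) (nat_lit 310) (nat_lit 151)) (XT.lf (nat_lit 0) (nat_lit 48238563844) (nat_lit 252) (nat_lit 1557501011) (nat_lit 84) (nat_lit 11333771784) (nat_lit 10) (nat_lit 5) (nat_lit 13) (nat_lit 5) (nat_lit 11) (nat_lit 4) (nat_lit 401) (nat_lit 310) (nat_lit 150)))) (XT.nd (nat_lit 94) (nat_lit 0) (nat_lit 0) (XT.lf (nat_lit 0) (nat_lit 7890043642) (nat_lit 84) (nat_lit 45011418453) (nat_lit 168) (nat_lit 9911314318) (nat_lit 9) (nat_lit 5) (nat_lit 10) (nat_lit 5) (nat_lit 11) (nat_lit 4) (nat_lit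 402) (nat_lit 310) (nat_lit 149)) (XT.nd (nat_lit 94) (nat_lit 0) (nat_lit 0) (XT.lf (nat_lit 0) (nat_lit 17659289074) (nat_lit 84) (nat_lit 40063128968) (nat_lit 168) (nat_lit 6825059545) (nat_lit 9) (nat_lit 5) (nat_lit 10) (nat_lit 5) (nat_lit 11) (nat_lit 4) (nat_lit 403) (nat_lit 310) (nat_lit 148)) (XT.lf (nat_lit 0) (nat_lit 27727315829) (nat_lit 84) (nat_lit 34962841192) (nat_lit 168) (nat_lit 3645888878) (nat_lit 9) (nat_lit 5) (nat_lit 10) (nat_lit 5) (nat_lit 11) (nat_lit 4) (nat_lit 404) (nat_lit 310) (nat_lit 147))))) (XT.nd (nat_lit 282) (nat_lit 168) (nat_lit 0) (XT.nd (nat_lit 94) (nat_lit 84) (nat_lit 0) (XT.lf (nat_lit 0) (nat_lit 38103508361) (nat_lit 84) (nat_lit 29705801123) (nat_lit 168) (nat_lit 370838998) (nat_lit 9) (nat_lit 5) (nat_lit 10) (nat_lit 5) (nat_lit 11) (nat_lit 4) (nat_lit 405) (nat_lit 310) (nat_lit 146)) (XT.nd (nat_lit 94) (nat_lit 0) (nat_lit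 0) (XT.lf (nat_lit 0) (nat_lit 2942636149) (nat_lit 168) (nat_lit 21313757414) (nat_lit 84) (nat_lit 45824187135) (nat_lit 8) (nat_lit 5) (nat_lit 10) (nat_lit 5) (nat_lit 9) (nat_lit 5) (nat_lit 406) (nat_lit 310) (nat_lit 145)) (XT.lf (nat_lit 0) (nat_lit 6348659906) (nat_lit 168) (nat_lit 12286786087) (nat_lit 84) (nat_lit 53404446918) (nat_lit 8) (nat_lit 5) (nat_lit 10) (nat_lit 5) (nat_lit 9) (nat_lit 5) (nat_lit 407) (nat_lit 310) (nat_lit 144)))) (XT.nd (nat_lit 94) (nat_lit 168) (nat_lit 0) (XT.lf (nat_lit 0) (nat_lit 9857878620) (nat_lit 168) (nat_lit 2983633290) (nat_lit 84) (nat_lit 61218513538) (nat_lit 8) (nat_lit 5) (nat_lit 10) (nat_lit 5) (nat_lit 9) (nat_lit 5) (nat_lit 408) (nat_lit 310) (nat_lit 143)) (XT.nd (nat_lit 94) (nat_lit 0) (nat_lit 0) (XT.lf (nat_lit 0) (nat_lit 6740171932) (nat_lit 168) (nat_lit 6800254660) (nat_lit 252) (nat_lit 62600361930) (nat_lit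 6) (nat_lit 5) (nat_lit 8) (nat_lit 5) (nat_lit 9) (nat_lit 5) (nat_lit 409) (nat_lit 310) (nat_lit 142)) (XT.lf (nat_lit 0) (nat_lit 16825157708) (nat_lit 168) (nat_lit 540833938) (nat_lit 252) (nat_lit 60919176061) (nat_lit 6) (nat_lit 5) (nat_lit 8) (nat_lit 5) (nat_lit 9) (nat_lit 5) (nat_lit 410) (nat_lit 310) (nat_lit 141))))))) (XT.nd (nat_lit 45026) (nat_lit 0) (nat_lit 7812) (XT.nd (nat_lit 564) (nat_lit 84) (nat_lit 0) (XT.nd (nat_lit 282) (nat_lit 0) (nat_lit 0) (XT.nd (nat_lit 94) (nat_lit 0) (nat_lit 0) (XT.lf (nat_lit 0) (nat_lit 21366575236) (nat_lit 252) (nat_lit 53335365746) (nat_lit 84) (nat_lit 5792339302) (nat_lit 6) (nat_lit 5) (nat_lit 9) (nat_lit 5) (nat_lit 7) (nat_lit 4) (nat_lit 411) (nat_lit 310) (nat_lit 140)) (XT.nd (nat_lit 94) (nat_lit 0) (nat_lit 0) (XT.lf (nat_lit 0) (nat_lit 25494547374) (nat_lit 252) (nat_lit 44967751863) (nat_lit 84) (nat_lit 12309478268)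 (nat_lit 6) (nat_lit 5) (nat_lit 9) (nat_lit 5) (nat_lit 7) (nat_lit 4) (nat_lit 412) (nat_lit 310) (nat_lit 139)) (XT.lf (nat_lit 0) (nat_lit 29748390626) (nat_lit 252) (nat_lit 36344003718) (nat_lit 84) (nat_lit 19027554212) (nat_lit 6) (nat_lit 5) (nat_lit 9) (nat_lit 5) (nat_lit 7) (nat_lit 4) (nat_lit 413) (nat_lit 310) (nat_lit 138)))) (XT.nd (nat_lit 94) (nat_lit 0) (nat_lit 0) (XT.lf (nat_lit 0) (nat_lit 34132070017) (nat_lit 252) (nat_lit 27456083075) (nat_lit 84) (nat_lit 25952829086) (nat_lit 6) (nat_lit 5) (nat_lit 9) (nat_lit 5) (nat_lit 7) (nat_lit 4) (nat_lit 414) (nat_lit 310) (nat_lit 137)) (XT.nd (nat_lit 94) (nat_lit 0) (nat_lit 0) (XT.lf (nat_lit 0) (nat_lit 38649671597) (nat_lit 252) (nat_lit 18295705460) (nat_lit 84) (nat_lit 33091757971) (nat_lit 6) (nat_lit 5) (nat_lit 9) (nat_lit 5) (nat_lit 7) (nat_lit 4) (nat_lit 415) (nat_lit 310) (nat_lit 136)) (XT.lf (nat_lit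 0) (nat_lit 43305406243) (nat_lit 252) (nat_lit 8854332442) (nat_lit 84) (nat_lit 40450995097) (nat_lit 6) (nat_lit 5) (nat_lit 9) (nat_lit 5) (nat_lit 7) (nat_lit 4) (nat_lit 416) (nat_lit 310) (nat_lit 135))))) (XT.nd (nat_lit 44180) (nat_lit 0) (nat_lit 8484) (XT.nd (nat_lit 94) (nat_lit 0) (nat_lit 0) (XT.lf (nat_lit 0) (nat_lit 894865881) (nat_lit 84) (nat_lit 47217624887) (nat_lit 168) (nat_lit 47151411343) (nat_lit 5) (nat_lit 5) (nat_lit 6) (nat_lit 5) (nat_lit 7) (nat_lit 4) (nat_lit 417) (nat_lit 310) (nat_lit 134)) (XT.nd (nat_lit 43992) (nat_lit 0) (nat_lit 9408) (XT.lf (nat_lit 0) (nat_lit 11131138962) (nat_lit 84) (nat_lit 42028049377) (nat_lit 168) (nat_lit 44837327449) (nat_lit 5) (nat_lit 5) (nat_lit 6) (nat_lit 5) (nat_lit 7) (nat_lit 4) (nat_lit 418) (nat_lit 310) (nat_lit 133)) (XT.lf (nat_lit 0) (nat_lit 3782394549) (nat_lit 924) (nat_lit 412158160) (nat_lit 924)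 (nat_lit 412158160) (nat_lit 117) (nat_lit 3) (nat_lit 128) (nat_lit 3) (nat_lit 128) (nat_lit 5) (nat_lit 311) (nat_lit 311) (nat_lit 239)))) (XT.nd (nat_lit 94) (nat_lit 924) (nat_lit 0) (XT.lf (nat_lit 84) (nat_lit 2518490946) (nat_lit 0) (nat_lit 5870284425) (nat_lit 924) (nat_lit 941355514) (nat_lit 118) (nat_lit 5) (nat_lit 117) (nat_lit 3) (nat_lit 128) (nat_lit 5) (nat_lit 312) (nat_lit 311) (nat_lit 238)) (XT.nd (nat_lit 94) (nat_lit 924) (nat_lit 0) (XT.lf (nat_lit 84) (nat_lit 5967861449) (nat_lit 0) (nat_lit 3251432297) (nat_lit 924) (nat_lit 231922470) (nat_lit 118) (nat_lit 5) (nat_lit 117) (nat_lit 3) (nat_lit 128) (nat_lit 5) (nat_lit 313) (nat_lit 311) (nat_lit 237)) (XT.lf (nat_lit 0) (nat_lit 462219404) (nat_lit 924) (nat_lit 71668136) (nat_lit 1008) (nat_lit 9043016697) (nat_lit 106) (nat_lit 5) (nat_lit 117) (nat_lit 3) (nat_lit 118) (nat_lit 5) (nat_lit 314) (nat_lit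 311) (nat_lit 236)))))) (XT.nd (nat_lit 564) (nat_lit 756) (nat_lit 0) (XT.nd (nat_lit 282) (nat_lit 0) (nat_lit 84) (XT.nd (nat_lit 94) (nat_lit 0) (nat_lit 0) (XT.lf (nat_lit 0) (nat_lit 1204373199) (nat_lit 924) (nat_lit 6229765764) (nat_lit 1008) (nat_lit 2271459518) (nat_lit 107) (nat_lit 5) (nat_lit 118) (nat_lit 5) (nat_lit 119) (nat_lit 5) (nat_lit 315) (nat_lit 311) (nat_lit 235)) (XT.nd (nat_lit 94) (nat_lit 0) (nat_lit 0) (XT.lf (nat_lit 0) (nat_lit 1950115564) (nat_lit 924) (nat_lit 2724192721) (nat_lit 1008) (nat_lit 5164725362) (nat_lit 107) (nat_lit 5) (nat_lit 118) (nat_lit 5) (nat_lit 119) (nat_lit 5) (nat_lit 316) (nat_lit 311) (nat_lit 234)) (XT.lf (nat_lit 84) (nat_lit 893218187) (nat_lit 0) (nat_lit 1809755030) (nat_lit 1008) (nat_lit 7274273113) (nat_lit 108) (nat_lit 5) (nat_lit 107) (nat_lit 5) (nat_lit 119) (nat_lit 5) (nat_lit 317) (nat_lit 311) (nat_lit 233))))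 (XT.nd (nat_lit 94) (nat_lit 0) (nat_lit 0) (XT.lf (nat_lit 0) (nat_lit 3495073350) (nat_lit 924) (nat_lit 5465646144) (nat_lit 1008) (nat_lit 1158671679) (nat_lit 108) (nat_lit 5) (nat_lit 119) (nat_lit 5) (nat_lit 120) (nat_lit 5) (nat_lit 318) (nat_lit 311) (nat_lit 232)) (XT.nd (nat_lit 94) (nat_lit 0) (nat_lit 0) (XT.lf (nat_lit 0) (nat_lit 4306798197) (nat_lit 924) (nat_lit 1768801546) (nat_lit 1008) (nat_lit 4190631961) (nat_lit 108) (nat_lit 5) (nat_lit 119) (nat_lit 5) (nat_lit 120) (nat_lit 5) (nat_lit 319) (nat_lit 311) (nat_lit 231)) (XT.lf (nat_lit 84) (nat_lit 2069602363) (nat_lit 0) (nat_lit 3071879725) (nat_lit 1008) (nat_lit 5276342799) (nat_lit 109) (nat_lit 5) (nat_lit 108) (nat_lit 5) (nat_lit 120) (nat_lit 5) (nat_lit 320) (nat_lit 311) (nat_lit 230))))) (XT.nd (nat_lit 282) (nat_lit 924) (nat_lit 0) (XT.nd (nat_lit 94) (nat_lit 0) (nat_lit 0) (XT.lf (nat_lit 0)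 (nat_lit 5998819387) (nat_lit 924) (nat_lit 4524970367) (nat_lit 1008) (nat_lit 50555863) (nat_lit 109) (nat_lit 5) (nat_lit 120) (nat_lit 5) (nat_lit 121) (nat_lit 5) (nat_lit 321) (nat_lit 311) (nat_lit 229)) (XT.nd (nat_lit 94) (nat_lit 0) (nat_lit 0) (XT.lf (nat_lit 0) (nat_lit 6892696523) (nat_lit 924) (nat_lit 629633260) (nat_lit 1008) (nat_lit 3213204296) (nat_lit 109) (nat_lit 5) (nat_lit 120) (nat_lit 5) (nat_lit 121) (nat_lit 5) (nat_lit 322) (nat_lit 311) (nat_lit 228)) (XT.lf (nat_lit 84) (nat_lit 3441226121) (nat_lit 0) (nat_lit 4386384525) (nat_lit 1008) (nat_lit 3073816290) (nat_lit 110) (nat_lit 5) (nat_lit 109) (nat_lit 5) (nat_lit 121) (nat_lit 5) (nat_lit 323) (nat_lit 311) (nat_lit 227)))) (XT.nd (nat_lit 188) (nat_lit 924) (nat_lit 0) (XT.nd (nat_lit 94) (nat_lit 0) (nat_lit 84) (XT.lf (nat_lit 84) (nat_lit 7637211297) (nat_lit 0) (nat_lit 1140539994) (nat_lit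 1008) (nat_lit 2295254666) (nat_lit 110) (nat_lit 5) (nat_lit 109) (nat_lit 5) (nat_lit 121) (nat_lit 5) (nat_lit 324) (nat_lit 311) (nat_lit 226)) (XT.lf (nat_lit 84) (nat_lit 690632933) (nat_lit 0) (nat_lit 9075787759) (nat_lit 1008) (nat_lit 1483315463) (nat_lit 111) (nat_lit 5) (nat_lit 110) (nat_lit 5) (nat_lit 122) (nat_lit 5) (nat_lit 325) (nat_lit 311) (nat_lit 225))) (XT.nd (nat_lit 94) (nat_lit 1008) (nat_lit 0) (XT.lf (nat_lit 84) (nat_lit 4991294617) (nat_lit 0) (nat_lit 5822640121) (nat_lit 1008) (nat_lit 617246300) (nat_lit 111) (nat_lit 5) (nat_lit 110) (nat_lit 5) (nat_lit 122) (nat_lit 5) (nat_lit 326) (nat_lit 311) (nat_lit 224)) (XT.lf (nat_lit 0) (nat_lit 251185605) (nat_lit 1008) (nat_lit 2210379252) (nat_lit 1092) (nat_lit 9157291547) (nat_lit 98) (nat_lit 5) (nat_lit 110) (nat_lit 5) (nat_lit 111) (nat_lit 5) (nat_lit 327) (nat_lit 311) (nat_lit 223))))))))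
noncomputable def xc143 : XT := (XT.nd (nat_lit 2256) (nat_lit 2184) (nat_lit 0) (XT.nd (nat_lit 1128) (nat_lit 1680) (nat_lit 0) (XT.nd (nat_lit 564) (nat_lit 1008) (nat_lit 0) (XT.nd (nat_lit 282) (nat_lit 1596) (nat_lit 0) (XT.nd (nat_lit 94) (nat_lit 0) (nat_lit 0) (XT.lf (nat_lit 0) (nat_lit 1147199471) (nat_lit 1008) (nat_lit 9648947140) (nat_lit 84) (nat_lit 1015689928) (nat_lit 99) (nat_lit 5) (nat_lit 111) (nat_lit 5) (nat_lit 100) (nat_lit 5) (nat_lit 328) (nat_lit 311) (nat_lit 222)) (XT.nd (nat_lit 94) (nat_lit 0) (nat_lit 0) (XT.lf (nat_lit 0) (nat_lit 2101562270) (nat_lit 1008) (nat_lit 5331685279) (nat_lit 84) (nat_lit 4576701223) (nat_lit 99) (nat_lit 5) (nat_lit 111) (nat_lit 5) (nat_lit 100) (nat_lit 5) (nat_lit 329) (nat_lit 311) (nat_lit 221)) (XT.lf (nat_lit 0) (nat_lit 3068137560) (nat_lit 1008) (nat_lit 894921683) (nat_lit 84) (nat_lit 8251776328) (nat_lit 99)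 (nat_lit 5) (nat_lit 111) (nat_lit 5) (nat_lit 100) (nat_lit 5) (nat_lit 330) (nat_lit 311) (nat_lit 220)))) (XT.nd (nat_lit 94) (nat_lit 588) (nat_lit 0) (XT.lf (nat_lit 0) (nat_lit 3740848944) (nat_lit 1008) (nat_lit 344087031) (nat_lit 1092) (nat_lit 8340601537) (nat_lit 87) (nat_lit 5) (nat_lit 99) (nat_lit 5) (nat_lit 100) (nat_lit 5) (nat_lit 331) (nat_lit 311) (nat_lit 219)) (XT.nd (nat_lit 94) (nat_lit 588) (nat_lit 0) (XT.lf (nat_lit 0) (nat_lit 5159838728) (nat_lit 1092) (nat_lit 4151265480) (nat_lit 84) (nat_lit 3330931848) (nat_lit 87) (nat_lit 5) (nat_lit 100) (nat_lit 5) (nat_lit 88) (nat_lit 5) (nat_lit 332) (nat_lit 311) (nat_lit 218)) (XT.lf (nat_lit 0) (nat_lit 515607038) (nat_lit 588) (nat_lit 5745131943) (nat_lit 672) (nat_lit 6604820390) (nat_lit 80) (nat_lit 5) (nat_lit 87) (nat_lit 5) (nat_lit 88) (nat_lit 5) (nat_lit 333) (nat_lit 311) (nat_lit 217))))) (XT.nd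 (nat_lit 282) (nat_lit 504) (nat_lit 0) (XT.nd (nat_lit 94) (nat_lit 504) (nat_lit 0) (XT.lf (nat_lit 0) (nat_lit 5401342725) (nat_lit 588) (nat_lit 2022139344) (nat_lit 672) (nat_lit 5671754342) (nat_lit 80) (nat_lit 5) (nat_lit 87) (nat_lit 5) (nat_lit 88) (nat_lit 5) (nat_lit 334) (nat_lit 311) (nat_lit 216)) (XT.nd (nat_lit 94) (nat_lit 504) (nat_lit 0) (XT.lf (nat_lit 0) (nat_lit 8625158869) (nat_lit 672) (nat_lit 2925481973) (nat_lit 84) (nat_lit 1781384197) (nat_lit 80) (nat_lit 5) (nat_lit 88) (nat_lit 5) (nat_lit 81) (nat_lit 5) (nat_lit 335) (nat_lit 311) (nat_lit 215)) (XT.lf (nat_lit 0) (nat_lit 1996751666) (nat_lit 504) (nat_lit 7893151723) (nat_lit 588) (nat_lit 3685529146) (nat_lit 74) (nat_lit 5) (nat_lit 80) (nat_lit 5) (nat_lit 81) (nat_lit 5) (nat_lit 336) (nat_lit 311) (nat_lit 214)))) (XT.nd (nat_lit 94) (nat_lit 504) (nat_lit 0) (XT.lf (nat_lit 0) (nat_lit 7120183179)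 (nat_lit 504) (nat_lit 4089842018) (nat_lit 588) (nat_lit 2615935534) (nat_lit 74) (nat_lit 5) (nat_lit 80) (nat_lit 5) (nat_lit 81) (nat_lit 5) (nat_lit 337) (nat_lit 311) (nat_lit 213)) (XT.nd (nat_lit 94) (nat_lit 504) (nat_lit 0) (XT.lf (nat_lit 0) (nat_lit 12389434230) (nat_lit 504) (nat_lit 167702675) (nat_lit 588) (nat_lit 1527624392) (nat_lit 74) (nat_lit 5) (nat_lit 80) (nat_lit 5) (nat_lit 81) (nat_lit 5) (nat_lit 338) (nat_lit 311) (nat_lit 212)) (XT.lf (nat_lit 0) (nat_lit 3489180511) (nat_lit 504) (nat_lit 10516386304) (nat_lit 588) (nat_lit 344243398) (nat_lit 68) (nat_lit 5) (nat_lit 74) (nat_lit 5) (nat_lit 75) (nat_lit 5) (nat_lit 339) (nat_lit 311) (nat_lit 211)))))) (XT.nd (nat_lit 564) (nat_lit 756) (nat_lit 0) (XT.nd (nat_lit 282) (nat_lit 420) (nat_lit 0) (XT.nd (nat_lit 94) (nat_lit 420) (nat_lit 0) (XT.lf (nat_lit 0) (nat_lit 864336222) (nat_lit 588) (nat_lit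 5776090096) (nat_lit 84) (nat_lit 7982256606) (nat_lit 67) (nat_lit 5) (nat_lit 74) (nat_lit 5) (nat_lit 68) (nat_lit 5) (nat_lit 340) (nat_lit 311) (nat_lit 210)) (XT.nd (nat_lit 94) (nat_lit 420) (nat_lit 0) (XT.lf (nat_lit 0) (nat_lit 2090202703) (nat_lit 588) (nat_lit 550376297) (nat_lit 84) (nat_lit 12263795959) (nat_lit 67) (nat_lit 5) (nat_lit 74) (nat_lit 5) (nat_lit 68) (nat_lit 5) (nat_lit 341) (nat_lit 311) (nat_lit 209)) (XT.lf (nat_lit 0) (nat_lit 3405495893) (nat_lit 504) (nat_lit 10284949954) (nat_lit 84) (nat_lit 1502822994) (nat_lit 62) (nat_lit 5) (nat_lit 68) (nat_lit 5) (nat_lit 63) (nat_lit 5) (nat_lit 342) (nat_lit 311) (nat_lit 208)))) (XT.nd (nat_lit 94) (nat_lit 420) (nat_lit 0) (XT.lf (nat_lit 0) (nat_lit 4781993557) (nat_lit 504) (nat_lit 4982959983) (nat_lit 84) (nat_lit 5725593204) (nat_lit 62) (nat_lit 5) (nat_lit 68) (nat_lit 5) (nat_lit 63) (nat_lit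 5) (nat_lit 343) (nat_lit 311) (nat_lit 207)) (XT.nd (nat_lit 94) (nat_lit 0) (nat_lit 0) (XT.lf (nat_lit 0) (nat_lit 480606065) (nat_lit 420) (nat_lit 5713316416) (nat_lit 504) (nat_lit 9603402027) (nat_lit 57) (nat_lit 5) (nat_lit 62) (nat_lit 5) (nat_lit 63) (nat_lit 5) (nat_lit 344) (nat_lit 311) (nat_lit 206)) (XT.lf (nat_lit 0) (nat_lit 6206836278) (nat_lit 420) (nat_lit 1483027578) (nat_lit 504) (nat_lit 8422559004) (nat_lit 57) (nat_lit 5) (nat_lit 62) (nat_lit 5) (nat_lit 63) (nat_lit 5) (nat_lit 345) (nat_lit 311) (nat_lit 205))))) (XT.nd (nat_lit 282) (nat_lit 420) (nat_lit 0) (XT.nd (nat_lit 94) (nat_lit 336) (nat_lit 0) (XT.lf (nat_lit 0) (nat_lit 9249312633) (nat_lit 504) (nat_lit 4367639743) (nat_lit 84) (nat_lit 2819862014) (nat_lit 57) (nat_lit 5) (nat_lit 63) (nat_lit 5) (nat_lit 58) (nat_lit 5) (nat_lit 346) (nat_lit 311) (nat_lit 204)) (XT.nd (nat_lit 94) (nat_lit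 0) (nat_lit 0) (XT.lf (nat_lit 0) (nat_lit 1341846890) (nat_lit 336) (nat_lit 9532659135) (nat_lit 420) (nat_lit 5896271145) (nat_lit 53) (nat_lit 5) (nat_lit 57) (nat_lit 5) (nat_lit 58) (nat_lit 5) (nat_lit 347) (nat_lit 311) (nat_lit 203)) (XT.lf (nat_lit 0) (nat_lit 7309036906) (nat_lit 336) (nat_lit 5275770443) (nat_lit 420) (nat_lit 4529261837) (nat_lit 53) (nat_lit 5) (nat_lit 57) (nat_lit 5) (nat_lit 58) (nat_lit 5) (nat_lit 348) (nat_lit 311) (nat_lit 202)))) (XT.nd (nat_lit 94) (nat_lit 420) (nat_lit 0) (XT.lf (nat_lit 0) (nat_lit 13449684720) (nat_lit 336) (nat_lit 887907635) (nat_lit 420) (nat_lit 3130788840) (nat_lit 53) (nat_lit 5) (nat_lit 57) (nat_lit 5) (nat_lit 58) (nat_lit 5) (nat_lit 349) (nat_lit 311) (nat_lit 201)) (XT.nd (nat_lit 94) (nat_lit 0) (nat_lit 0) (XT.lf (nat_lit 0) (nat_lit 1938466545) (nat_lit 420) (nat_lit 14251317945) (nat_lit 504) (nat_lit 1642544981)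 (nat_lit 48) (nat_lit 5) (nat_lit 53) (nat_lit 5) (nat_lit 54) (nat_lit 5) (nat_lit 350) (nat_lit 311) (nat_lit 200)) (XT.lf (nat_lit 0) (nat_lit 8144809114) (nat_lit 420) (nat_lit 9995487559) (nat_lit 504) (nat_lit 66043799) (nat_lit 48) (nat_lit 5) (nat_lit 53) (nat_lit 5) (nat_lit 54) (nat_lit 5) (nat_lit 351) (nat_lit 311) (nat_lit 199))))))) (XT.nd (nat_lit 1128) (nat_lit 756) (nat_lit 0) (XT.nd (nat_lit 564) (nat_lit 672) (nat_lit 0) (XT.nd (nat_lit 282) (nat_lit 336) (nat_lit 0) (XT.nd (nat_lit 94) (nat_lit 336) (nat_lit 0) (XT.lf (nat_lit 0) (nat_lit 1518034059) (nat_lit 504) (nat_lit 4075190275) (nat_lit 84) (nat_lit 12998593596) (nat_lit 47) (nat_lit 5) (nat_lit 53) (nat_lit 5) (nat_lit 48) (nat_lit 5) (nat_lit 352) (nat_lit 311) (nat_lit 198)) (XT.nd (nat_lit 94) (nat_lit 0) (nat_lit 0) (XT.lf (nat_lit 0) (nat_lit 2127941653) (nat_lit 336) (nat_lit 1033433387) (nat_lit 420)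 (nat_lit 15827535889) (nat_lit 43) (nat_lit 5) (nat_lit 47) (nat_lit 5) (nat_lit 48) (nat_lit 5) (nat_lit 353) (nat_lit 311) (nat_lit 197)) (XT.lf (nat_lit 0) (nat_lit 4925600191) (nat_lit 420) (nat_lit 10835243711) (nat_lit 84) (nat_lit 3635344494) (nat_lit 43) (nat_lit 5) (nat_lit 48) (nat_lit 5) (nat_lit 44) (nat_lit 5) (nat_lit 354) (nat_lit 311) (nat_lit 196)))) (XT.nd (nat_lit 94) (nat_lit 336) (nat_lit 0) (XT.lf (nat_lit 0) (nat_lit 6745953780) (nat_lit 420) (nat_lit 4644145628) (nat_lit 84) (nat_lit 8425988950) (nat_lit 43) (nat_lit 5) (nat_lit 48) (nat_lit 5) (nat_lit 44) (nat_lit 5) (nat_lit 355) (nat_lit 311) (nat_lit 195)) (XT.nd (nat_lit 94) (nat_lit 0) (nat_lit 0) (XT.lf (nat_lit 0) (nat_lit 1763885878) (nat_lit 336) (nat_lit 6867492870) (nat_lit 420) (nat_lit 11617398829) (nat_lit 39) (nat_lit 5) (nat_lit 43) (nat_lit 5) (nat_lit 44) (nat_lit 5) (nat_lit 356) (nat_lit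 311) (nat_lit 194)) (XT.lf (nat_lit 0) (nat_lit 8458597421) (nat_lit 336) (nat_lit 2156435212) (nat_lit 420) (nat_lit 10078653326) (nat_lit 39) (nat_lit 5) (nat_lit 43) (nat_lit 5) (nat_lit 44) (nat_lit 5) (nat_lit 357) (nat_lit 311) (nat_lit 193))))) (XT.nd (nat_lit 282) (nat_lit 420) (nat_lit 0) (XT.nd (nat_lit 94) (nat_lit 252) (nat_lit 0) (XT.lf (nat_lit 0) (nat_lit 12678520915) (nat_lit 420) (nat_lit 5828724056) (nat_lit 84) (nat_lit 2644610784) (nat_lit 39) (nat_lit 5) (nat_lit 44) (nat_lit 5) (nat_lit 40) (nat_lit 5) (nat_lit 358) (nat_lit 311) (nat_lit 192)) (XT.nd (nat_lit 94) (nat_lit 0) (nat_lit 0) (XT.lf (nat_lit 0) (nat_lit 759403568) (nat_lit 252) (nat_lit 14067966661) (nat_lit 336) (nat_lit 6796232095) (nat_lit 36) (nat_lit 5) (nat_lit 39) (nat_lit 5) (nat_lit 40) (nat_lit 5) (nat_lit 359) (nat_lit 311) (nat_lit 191)) (XT.lf (nat_lit 0) (nat_lit 7665351892) (nat_lit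 252) (nat_lit 9430273620) (nat_lit 336) (nat_lit 5012746574) (nat_lit 36) (nat_lit 5) (nat_lit 39) (nat_lit 5) (nat_lit 40) (nat_lit 5) (nat_lit 360) (nat_lit 311) (nat_lit 190)))) (XT.nd (nat_lit 94) (nat_lit 420) (nat_lit 0) (XT.lf (nat_lit 0) (nat_lit 14775707461) (nat_lit 252) (nat_lit 4650682956) (nat_lit 336) (nat_lit 3182055805) (nat_lit 36) (nat_lit 5) (nat_lit 39) (nat_lit 5) (nat_lit 40) (nat_lit 5) (nat_lit 361) (nat_lit 311) (nat_lit 189)) (XT.nd (nat_lit 94) (nat_lit 420) (nat_lit 0) (XT.lf (nat_lit 0) (nat_lit 21824568080) (nat_lit 336) (nat_lit 1029923600) (nat_lit 84) (nat_lit 269714525) (nat_lit 36) (nat_lit 5) (nat_lit 40) (nat_lit 5) (nat_lit 37) (nat_lit 5) (nat_lit 362) (nat_lit 311) (nat_lit 188)) (XT.lf (nat_lit 0) (nat_lit 729418524) (nat_lit 420) (nat_lit 17611530286) (nat_lit 84) (nat_lit 5311703026) (nat_lit 31) (nat_lit 5) (nat_lit 36) (nat_lit 5) (nat_lit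 32) (nat_lit 5) (nat_lit 363) (nat_lit 311) (nat_lit 187)))))) (XT.nd (nat_lit 564) (nat_lit 504) (nat_lit 0) (XT.nd (nat_lit 282) (nat_lit 0) (nat_lit 0) (XT.nd (nat_lit 94) (nat_lit 252) (nat_lit 0) (XT.lf (nat_lit 0) (nat_lit 2797902992) (nat_lit 420) (nat_lit 10866778685) (nat_lit 84) (nat_lit 10532306862) (nat_lit 31) (nat_lit 5) (nat_lit 36) (nat_lit 5) (nat_lit 32) (nat_lit 5) (nat_lit 364) (nat_lit 311) (nat_lit 186)) (XT.nd (nat_lit 94) (nat_lit 252) (nat_lit 0) (XT.lf (nat_lit 0) (nat_lit 4923394439) (nat_lit 420) (nat_lit 3922089554) (nat_lit 84) (nat_lit 15912965916) (nat_lit 31) (nat_lit 5) (nat_lit 36) (nat_lit 5) (nat_lit 32) (nat_lit 5) (nat_lit 365) (nat_lit 311) (nat_lit 185)) (XT.lf (nat_lit 0) (nat_lit 3295405357) (nat_lit 252) (nat_lit 3845159515) (nat_lit 336) (nat_lit 18195980997) (nat_lit 28) (nat_lit 5) (nat_lit 31) (nat_lit 5) (nat_lit 32) (nat_lit 5) (nat_lit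 366) (nat_lit 311) (nat_lit 184)))) (XT.nd (nat_lit 94) (nat_lit 0) (nat_lit 0) (XT.lf (nat_lit 0) (nat_lit 9474020404) (nat_lit 336) (nat_lit 15133923709) (nat_lit 84) (nat_lit 1323172432) (nat_lit 28) (nat_lit 5) (nat_lit 32) (nat_lit 5) (nat_lit 29) (nat_lit 5) (nat_lit 367) (nat_lit 311) (nat_lit 183)) (XT.nd (nat_lit 94) (nat_lit 0) (nat_lit 0) (XT.lf (nat_lit 0) (nat_lit 11912542938) (nat_lit 336) (nat_lit 8060642463) (nat_lit 84) (nat_lit 6569945920) (nat_lit 28) (nat_lit 5) (nat_lit 32) (nat_lit 5) (nat_lit 29) (nat_lit 5) (nat_lit 368) (nat_lit 311) (nat_lit 182)) (XT.lf (nat_lit 0) (nat_lit 14420260977) (nat_lit 336) (nat_lit 776559278) (nat_lit 84) (nat_lit 11977522886) (nat_lit 28) (nat_lit 5) (nat_lit 32) (nat_lit 5) (nat_lit 29) (nat_lit 5) (nat_lit 369) (nat_lit 311) (nat_lit 181))))) (XT.nd (nat_lit 282) (nat_lit 252) (nat_lit 0) (XT.nd (nat_lit 94) (nat_lit 0) (nat_lit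 0) (XT.lf (nat_lit 0) (nat_lit 6863397540) (nat_lit 252) (nat_lit 10204200189) (nat_lit 336) (nat_lit 10755631971) (nat_lit 25) (nat_lit 5) (nat_lit 28) (nat_lit 5) (nat_lit 29) (nat_lit 5) (nat_lit 370) (nat_lit 311) (nat_lit 180)) (XT.nd (nat_lit 94) (nat_lit 0) (nat_lit 0) (XT.lf (nat_lit 0) (nat_lit 14748523728) (nat_lit 252) (nat_lit 5050483520) (nat_lit 336) (nat_lit 8693187001) (nat_lit 25) (nat_lit 5) (nat_lit 28) (nat_lit 5) (nat_lit 29) (nat_lit 5) (nat_lit 371) (nat_lit 311) (nat_lit 179)) (XT.lf (nat_lit 0) (nat_lit 22611762958) (nat_lit 336) (nat_lit 6314492084) (nat_lit 84) (nat_lit 255768739) (nat_lit 25) (nat_lit 5) (nat_lit 29) (nat_lit 5) (nat_lit 26) (nat_lit 5) (nat_lit 372) (nat_lit 311) (nat_lit 178)))) (XT.nd (nat_lit 188) (nat_lit 84) (nat_lit 0) (XT.nd (nat_lit 94) (nat_lit 0) (nat_lit 0) (XT.lf (nat_lit 0) (nat_lit 1311936484) (nat_lit 168) (nat_lit 24258688765)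 (nat_lit 252) (nat_lit 4320809745) (nat_lit 23) (nat_lit 5) (nat_lit 25) (nat_lit 5) (nat_lit 26) (nat_lit 5) (nat_lit 373) (nat_lit 311) (nat_lit 177)) (XT.lf (nat_lit 0) (nat_lit 9300895117) (nat_lit 168) (nat_lit 19380565736) (nat_lit 252) (nat_lit 1939531907) (nat_lit 23) (nat_lit 5) (nat_lit 25) (nat_lit 5) (nat_lit 26) (nat_lit 5) (nat_lit 374) (nat_lit 311) (nat_lit 176))) (XT.nd (nat_lit 94) (nat_lit 0) (nat_lit 0) (XT.lf (nat_lit 0) (nat_lit 499608957) (nat_lit 252) (nat_lit 13848425529) (nat_lit 84) (nat_lit 17025167602) (nat_lit 22) (nat_lit 5) (nat_lit 25) (nat_lit 5) (nat_lit 23) (nat_lit 5) (nat_lit 375) (nat_lit 311) (nat_lit 175)) (XT.lf (nat_lit 0) (nat_lit 2968672911) (nat_lit 252) (nat_lit 6172393942) (nat_lit 84) (nat_lit 23007236104) (nat_lit 22) (nat_lit 5) (nat_lit 25) (nat_lit 5) (nat_lit 23) (nat_lit 5) (nat_lit 376) (nat_lit 311) (nat_lit 174))))))))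
noncomputable def xc144 : XT := (XT.nd (nat_lit 2256) (nat_lit 336) (nat_lit 0) (XT.nd (nat_lit 1128) (nat_lit 420) (nat_lit 0) (XT.nd (nat_lit 564) (nat_lit 168) (nat_lit 0) (XT.nd (nat_lit 282) (nat_lit 168) (nat_lit 0) (XT.nd (nat_lit 94) (nat_lit 0) (nat_lit 0) (XT.lf (nat_lit 0) (nat_lit 1770055043) (nat_lit 252) (nat_lit 3756542747) (nat_lit 336) (nat_lit 27420472168) (nat_lit 19) (nat_lit 5) (nat_lit 22) (nat_lit 5) (nat_lit 23) (nat_lit 5) (nat_lit 377) (nat_lit 311) (nat_lit 173)) (XT.nd (nat_lit 94) (nat_lit 0) (nat_lit 0) (XT.lf (nat_lit 0) (nat_lit 8241538033) (nat_lit 336) (nat_lit 23704783392) (nat_lit 84) (nat_lit 1821887326) (nat_lit 19) (nat_lit 5) (nat_lit 23) (nat_lit 5) (nat_lit 20) (nat_lit 5) (nat_lit 378) (nat_lit 311) (nat_lit 172)) (XT.lf (nat_lit 0) (nat_lit 11074045507) (nat_lit 336) (nat_lit 16046402896) (nat_lit 84) (nat_lit 7493337662) (nat_lit 19) (nat_lit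 5) (nat_lit 23) (nat_lit 5) (nat_lit 20) (nat_lit 5) (nat_lit 379) (nat_lit 311) (nat_lit 171)))) (XT.nd (nat_lit 94) (nat_lit 168) (nat_lit 0) (XT.lf (nat_lit 0) (nat_lit 13989495035) (nat_lit 336) (nat_lit 8157469646) (nat_lit 84) (nat_lit 13338780610) (nat_lit 19) (nat_lit 5) (nat_lit 23) (nat_lit 5) (nat_lit 20) (nat_lit 5) (nat_lit 380) (nat_lit 311) (nat_lit 170)) (XT.nd (nat_lit 94) (nat_lit 168) (nat_lit 0) (XT.lf (nat_lit 0) (nat_lit 16990604123) (nat_lit 336) (nat_lit 30630330) (nat_lit 84) (nat_lit 19363664737) (nat_lit 19) (nat_lit 5) (nat_lit 23) (nat_lit 5) (nat_lit 20) (nat_lit 5) (nat_lit 381) (nat_lit 311) (nat_lit 169)) (XT.lf (nat_lit 0) (nat_lit 8513212375) (nat_lit 168) (nat_lit 11651409863) (nat_lit 252) (nat_lit 17144845610) (nat_lit 17) (nat_lit 5) (nat_lit 19) (nat_lit 5) (nat_lit 20) (nat_lit 5) (nat_lit 382) (nat_lit 311) (nat_lit 168))))) (XT.nd (nat_lit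 282) (nat_lit 168) (nat_lit 0) (XT.nd (nat_lit 94) (nat_lit 0) (nat_lit 0) (XT.lf (nat_lit 0) (nat_lit 17316177973) (nat_lit 168) (nat_lit 6116673474) (nat_lit 252) (nat_lit 14829992964) (nat_lit 17) (nat_lit 5) (nat_lit 19) (nat_lit 5) (nat_lit 20) (nat_lit 5) (nat_lit 383) (nat_lit 311) (nat_lit 167)) (XT.nd (nat_lit 94) (nat_lit 0) (nat_lit 0) (XT.lf (nat_lit 0) (nat_lit 26385841929) (nat_lit 168) (nat_lit 412186050) (nat_lit 252) (nat_lit 12447899162) (nat_lit 17) (nat_lit 5) (nat_lit 19) (nat_lit 5) (nat_lit 20) (nat_lit 5) (nat_lit 384) (nat_lit 311) (nat_lit 166)) (XT.lf (nat_lit 0) (nat_lit 30317525512) (nat_lit 252) (nat_lit 4583211236) (nat_lit 84) (nat_lit 5357214276) (nat_lit 17) (nat_lit 5) (nat_lit 20) (nat_lit 5) (nat_lit 18) (nat_lit 5) (nat_lit 385) (nat_lit 311) (nat_lit 165)))) (XT.nd (nat_lit 94) (nat_lit 0) (nat_lit 0) (XT.lf (nat_lit 0) (nat_lit 4021094021) (nat_lit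 168) (nat_lit 29965012779) (nat_lit 252) (nat_lit 7314016627) (nat_lit 15) (nat_lit 5) (nat_lit 17) (nat_lit 5) (nat_lit 18) (nat_lit 5) (nat_lit 386) (nat_lit 311) (nat_lit 164)) (XT.nd (nat_lit 94) (nat_lit 0) (nat_lit 0) (XT.lf (nat_lit 0) (nat_lit 12983402473) (nat_lit 168) (nat_lit 24828790464) (nat_lit 252) (nat_lit 4561067776) (nat_lit 15) (nat_lit 5) (nat_lit 17) (nat_lit 5) (nat_lit 18) (nat_lit 5) (nat_lit 387) (nat_lit 311) (nat_lit 163)) (XT.lf (nat_lit 0) (nat_lit 22217827706) (nat_lit 168) (nat_lit 19535121632) (nat_lit 252) (nat_lit 1726852249) (nat_lit 15) (nat_lit 5) (nat_lit 17) (nat_lit 5) (nat_lit 18) (nat_lit 5) (nat_lit 388) (nat_lit 311) (nat_lit 162)))))) (XT.nd (nat_lit 564) (nat_lit 168) (nat_lit 0) (XT.nd (nat_lit 282) (nat_lit 0) (nat_lit 0) (XT.nd (nat_lit 94) (nat_lit 168) (nat_lit 0) (XT.lf (nat_lit 0) (nat_lit 1167270269) (nat_lit 252) (nat_lit 12899617852)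 (nat_lit 84) (nat_lit 30553522995) (nat_lit 14) (nat_lit 5) (nat_lit 17) (nat_lit 5) (nat_lit 15) (nat_lit 5) (nat_lit 389) (nat_lit 311) (nat_lit 161)) (XT.nd (nat_lit 94) (nat_lit 168) (nat_lit 0) (XT.lf (nat_lit 0) (nat_lit 4111483651) (nat_lit 252) (nat_lit 4301156935) (nat_lit 84) (nat_lit 37383320876) (nat_lit 14) (nat_lit 5) (nat_lit 17) (nat_lit 5) (nat_lit 15) (nat_lit 5) (nat_lit 390) (nat_lit 311) (nat_lit 160)) (XT.lf (nat_lit 0) (nat_lit 4652287343) (nat_lit 168) (nat_lit 2537188361) (nat_lit 252) (nat_lit 39817173023) (nat_lit 12) (nat_lit 5) (nat_lit 14) (nat_lit 5) (nat_lit 15) (nat_lit 5) (nat_lit 391) (nat_lit 311) (nat_lit 159)))) (XT.nd (nat_lit 94) (nat_lit 0) (nat_lit 0) (XT.lf (nat_lit 0) (nat_lit 10439560547) (nat_lit 252) (nat_lit 34319742242) (nat_lit 84) (nat_lit 3493199805) (nat_lit 12) (nat_lit 5) (nat_lit 15) (nat_lit 5) (nat_lit 13) (nat_lit 5) (nat_lit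 392) (nat_lit 311) (nat_lit 158)) (XT.nd (nat_lit 94) (nat_lit 0) (nat_lit 0) (XT.lf (nat_lit 0) (nat_lit 13812853572) (nat_lit 252) (nat_lit 26067193706) (nat_lit 84) (nat_lit 9656246389) (nat_lit 12) (nat_lit 5) (nat_lit 15) (nat_lit 5) (nat_lit 13) (nat_lit 5) (nat_lit 393) (nat_lit 311) (nat_lit 157)) (XT.lf (nat_lit 0) (nat_lit 17287329820) (nat_lit 252) (nat_lit 17563854314) (nat_lit 84) (nat_lit 16008814684) (nat_lit 12) (nat_lit 5) (nat_lit 15) (nat_lit 5) (nat_lit 13) (nat_lit 5) (nat_lit 394) (nat_lit 311) (nat_lit 156))))) (XT.nd (nat_lit 282) (nat_lit 0) (nat_lit 0) (XT.nd (nat_lit 94) (nat_lit 168) (nat_lit 0) (XT.lf (nat_lit 0) (nat_lit 20866227867) (nat_lit 252) (nat_lit 8801798064) (nat_lit 84) (nat_lit 22556825949) (nat_lit 12) (nat_lit 5) (nat_lit 15) (nat_lit 5) (nat_lit 13) (nat_lit 5) (nat_lit 395) (nat_lit 311) (nat_lit 155)) (XT.nd (nat_lit 94) (nat_lit 0) (nat_lit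 0) (XT.lf (nat_lit 0) (nat_lit 231812708) (nat_lit 168) (nat_lit 24323370522) (nat_lit 252) (nat_lit 29076870520) (nat_lit 10) (nat_lit 5) (nat_lit 12) (nat_lit 5) (nat_lit 13) (nat_lit 5) (nat_lit 396) (nat_lit 311) (nat_lit 154)) (XT.lf (nat_lit 0) (nat_lit 9727367164) (nat_lit 168) (nat_lit 18719862951) (nat_lit 252) (nat_lit 26632908507) (nat_lit 10) (nat_lit 5) (nat_lit 12) (nat_lit 5) (nat_lit 13) (nat_lit 5) (nat_lit 397) (nat_lit 311) (nat_lit 153)))) (XT.nd (nat_lit 94) (nat_lit 0) (nat_lit 0) (XT.lf (nat_lit 0) (nat_lit 19512733133) (nat_lit 168) (nat_lit 12944152882) (nat_lit 252) (nat_lit 24116332666) (nat_lit 10) (nat_lit 5) (nat_lit 12) (nat_lit 5) (nat_lit 13) (nat_lit 5) (nat_lit 398) (nat_lit 311) (nat_lit 152)) (XT.nd (nat_lit 94) (nat_lit 0) (nat_lit 0) (XT.lf (nat_lit 0) (nat_lit 29597031603) (nat_lit 168) (nat_lit 6990856749) (nat_lit 252) (nat_lit 21524797284)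 (nat_lit 10) (nat_lit 5) (nat_lit 12) (nat_lit 5) (nat_lit 13) (nat_lit 5) (nat_lit 399) (nat_lit 311) (nat_lit 151)) (XT.lf (nat_lit 0) (nat_lit 39989662195) (nat_lit 168) (nat_lit 854425454) (nat_lit 252) (nat_lit 18855886779) (nat_lit 10) (nat_lit 5) (nat_lit 12) (nat_lit 5) (nat_lit 13) (nat_lit 5) (nat_lit 400) (nat_lit 311) (nat_lit 150))))))) (XT.nd (nat_lit 1128) (nat_lit 0) (nat_lit 0) (XT.nd (nat_lit 564) (nat_lit 252) (nat_lit 0) (XT.nd (nat_lit 282) (nat_lit 0) (nat_lit 0) (XT.nd (nat_lit 94) (nat_lit 84) (nat_lit 0) (XT.lf (nat_lit 0) (nat_lit 45283722750) (nat_lit 252) (nat_lit 10690524265) (nat_lit 84) (nat_lit 5360635143) (nat_lit 10) (nat_lit 5) (nat_lit 13) (nat_lit 5) (nat_lit 11) (nat_lit 4) (nat_lit 401) (nat_lit 311) (nat_lit 149)) (XT.nd (nat_lit 94) (nat_lit 84) (nat_lit 0) (XT.lf (nat_lit 0) (nat_lit 49867017612) (nat_lit 252) (nat_lit 1403968497) (nat_lit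 84) (nat_lit 11749307966) (nat_lit 10) (nat_lit 5) (nat_lit 13) (nat_lit 5) (nat_lit 11) (nat_lit 4) (nat_lit 402) (nat_lit 311) (nat_lit 148)) (XT.lf (nat_lit 0) (nat_lit 8334406844) (nat_lit 84) (nat_lit 46338039843) (nat_lit 168) (nat_lit 10083034195) (nat_lit 9) (nat_lit 5) (nat_lit 10) (nat_lit 5) (nat_lit 11) (nat_lit 4) (nat_lit 403) (nat_lit 311) (nat_lit 147)))) (XT.nd (nat_lit 94) (nat_lit 0) (nat_lit 0) (XT.lf (nat_lit 0) (nat_lit 18400492166) (nat_lit 84) (nat_lit 41238420028) (nat_lit 168) (nat_lit 6905180652) (nat_lit 9) (nat_lit 5) (nat_lit 10) (nat_lit 5) (nat_lit 11) (nat_lit 4) (nat_lit 404) (nat_lit 311) (nat_lit 146)) (XT.nd (nat_lit 94) (nat_lit 0) (nat_lit 0) (XT.lf (nat_lit 0) (nat_lit 28774801640) (nat_lit 84) (nat_lit 35982027836) (nat_lit 168) (nat_lit 3631408292) (nat_lit 9) (nat_lit 5) (nat_lit 10) (nat_lit 5) (nat_lit 11) (nat_lit 4) (nat_lit 405) (nat_lit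 311) (nat_lit 145)) (XT.lf (nat_lit 0) (nat_lit 39467005210) (nat_lit 84) (nat_lit 30563963758) (nat_lit 168) (nat_lit 258665617) (nat_lit 9) (nat_lit 5) (nat_lit 10) (nat_lit 5) (nat_lit 11) (nat_lit 4) (nat_lit 406) (nat_lit 311) (nat_lit 144))))) (XT.nd (nat_lit 282) (nat_lit 168) (nat_lit 0) (XT.nd (nat_lit 94) (nat_lit 0) (nat_lit 0) (XT.lf (nat_lit 0) (nat_lit 3151392039) (nat_lit 168) (nat_lit 21794891483) (nat_lit 84) (nat_lit 47302783022) (nat_lit 8) (nat_lit 5) (nat_lit 10) (nat_lit 5) (nat_lit 9) (nat_lit 5) (nat_lit 407) (nat_lit 311) (nat_lit 143)) (XT.nd (nat_lit 94) (nat_lit 0) (nat_lit 0) (XT.lf (nat_lit 0) (nat_lit 6659468527) (nat_lit 168) (nat_lit 12493484011) (nat_lit 84) (nat_lit 55116285535) (nat_lit 8) (nat_lit 5) (nat_lit 10) (nat_lit 5) (nat_lit 9) (nat_lit 5) (nat_lit 408) (nat_lit 311) (nat_lit 142)) (XT.lf (nat_lit 0) (nat_lit 10274045276) (nat_lit 168)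 (nat_lit 2907171078) (nat_lit 84) (nat_lit 63170895374) (nat_lit 8) (nat_lit 5) (nat_lit 10) (nat_lit 5) (nat_lit 9) (nat_lit 5) (nat_lit 409) (nat_lit 311) (nat_lit 141)))) (XT.nd (nat_lit 94) (nat_lit 0) (nat_lit 0) (XT.lf (nat_lit 0) (nat_lit 7116361590) (nat_lit 168) (nat_lit 6952725050) (nat_lit 252) (nat_lit 64428353878) (nat_lit 6) (nat_lit 5) (nat_lit 8) (nat_lit 5) (nat_lit 9) (nat_lit 5) (nat_lit 410) (nat_lit 311) (nat_lit 140)) (XT.nd (nat_lit 94) (nat_lit 0) (nat_lit 0) (XT.lf (nat_lit 0) (nat_lit 17508953240) (nat_lit 168) (nat_lit 501016371) (nat_lit 252) (nat_lit 62698437471) (nat_lit 6) (nat_lit 5) (nat_lit 8) (nat_lit 5) (nat_lit 9) (nat_lit 5) (nat_lit 411) (nat_lit 311) (nat_lit 139)) (XT.lf (nat_lit 0) (nat_lit 22131939591) (nat_lit 252) (nat_lit 54828475807) (nat_lit 84) (nat_lit 6025678144) (nat_lit 6) (nat_lit 5) (nat_lit 9) (nat_lit 5) (nat_lit 7) (nat_lit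 4) (nat_lit 412) (nat_lit 311) (nat_lit 138)))))) (XT.nd (nat_lit 44650) (nat_lit 0) (nat_lit 8400) (XT.nd (nat_lit 282) (nat_lit 0) (nat_lit 0) (XT.nd (nat_lit 94) (nat_lit 0) (nat_lit 0) (XT.lf (nat_lit 0) (nat_lit 26384781857) (nat_lit 252) (nat_lit 46206285364) (nat_lit 84) (nat_lit 12743231476) (nat_lit 6) (nat_lit 5) (nat_lit 9) (nat_lit 5) (nat_lit 7) (nat_lit 4) (nat_lit 413) (nat_lit 311) (nat_lit 137)) (XT.nd (nat_lit 94) (nat_lit 0) (nat_lit 0) (XT.lf (nat_lit 0) (nat_lit 30767490361) (nat_lit 252) (nat_lit 37319875587) (nat_lit 84) (nat_lit 19667999452) (nat_lit 6) (nat_lit 5) (nat_lit 9) (nat_lit 5) (nat_lit 7) (nat_lit 4) (nat_lit 414) (nat_lit 311) (nat_lit 136)) (XT.lf (nat_lit 0) (nat_lit 35284150245) (nat_lit 252) (nat_lit 28160963409) (nat_lit 84) (nat_lit 26806436681) (nat_lit 6) (nat_lit 5) (nat_lit 9) (nat_lit 5) (nat_lit 7) (nat_lit 4) (nat_lit 415) (nat_lit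 311) (nat_lit 135)))) (XT.nd (nat_lit 94) (nat_lit 0) (nat_lit 0) (XT.lf (nat_lit 0) (nat_lit 39938971511) (nat_lit 252) (nat_lit 18721011765) (nat_lit 84) (nat_lit 34165196933) (nat_lit 6) (nat_lit 5) (nat_lit 9) (nat_lit 5) (nat_lit 7) (nat_lit 4) (nat_lit 416) (nat_lit 311) (nat_lit 134)) (XT.nd (nat_lit 44180) (nat_lit 0) (nat_lit 9324) (XT.lf (nat_lit 0) (nat_lit 44736292939) (nat_lit 252) (nat_lit 8991221632) (nat_lit 84) (nat_lit 41751139344) (nat_lit 6) (nat_lit 5) (nat_lit 9) (nat_lit 5) (nat_lit 7) (nat_lit 4) (nat_lit 417) (nat_lit 311) (nat_lit 133)) (XT.lf (nat_lit 0) (nat_lit 4574634053) (nat_lit 924) (nat_lit 74905839) (nat_lit 924) (nat_lit 74905839) (nat_lit 117) (nat_lit 3) (nat_lit 128) (nat_lit 3) (nat_lit 128) (nat_lit 5) (nat_lit 312) (nat_lit 312) (nat_lit 237))))) (XT.nd (nat_lit 282) (nat_lit 0) (nat_lit 84) (XT.nd (nat_lit 94) (nat_lit 0) (nat_lit 0) (XT.lf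 (nat_lit 0) (nat_lit 386618584) (nat_lit 924) (nat_lit 6284892297) (nat_lit 1008) (nat_lit 2898881061) (nat_lit 106) (nat_lit 5) (nat_lit 117) (nat_lit 3) (nat_lit 118) (nat_lit 5) (nat_lit 313) (nat_lit 312) (nat_lit 236)) (XT.nd (nat_lit 94) (nat_lit 0) (nat_lit 0) (XT.lf (nat_lit 0) (nat_lit 1063088584) (nat_lit 924) (nat_lit 2882583981) (nat_lit 1008) (nat_lit 5750814910) (nat_lit 106) (nat_lit 5) (nat_lit 117) (nat_lit 3) (nat_lit 118) (nat_lit 5) (nat_lit 314) (nat_lit 312) (nat_lit 235)) (XT.lf (nat_lit 84) (nat_lit 623822096) (nat_lit 0) (nat_lit 1117288000) (nat_lit 1008) (nat_lit 8086133302) (nat_lit 107) (nat_lit 5) (nat_lit 106) (nat_lit 5) (nat_lit 118) (nat_lit 5) (nat_lit 315) (nat_lit 312) (nat_lit 234)))) (XT.nd (nat_lit 94) (nat_lit 0) (nat_lit 0) (XT.lf (nat_lit 0) (nat_lit 2463526797) (nat_lit 924) (nat_lit 5694067064) (nat_lit 1008) (nat_lit 1803879163) (nat_lit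 107) (nat_lit 5) (nat_lit 118) (nat_lit 5) (nat_lit 119) (nat_lit 5) (nat_lit 316) (nat_lit 312) (nat_lit 233)) (XT.nd (nat_lit 94) (nat_lit 0) (nat_lit 0) (XT.lf (nat_lit 0) (nat_lit 3195649679) (nat_lit 924) (nat_lit 2101735382) (nat_lit 1008) (nat_lit 4803012644) (nat_lit 107) (nat_lit 5) (nat_lit 118) (nat_lit 5) (nat_lit 119) (nat_lit 5) (nat_lit 317) (nat_lit 312) (nat_lit 232)) (XT.lf (nat_lit 84) (nat_lit 1620658462) (nat_lit 0) (nat_lit 2322496192) (nat_lit 1008) (nat_lit 6300837482) (nat_lit 108) (nat_lit 5) (nat_lit 107) (nat_lit 5) (nat_lit 119) (nat_lit 5) (nat_lit 318) (nat_lit 312) (nat_lit 231))))))))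
noncomputable def xc145 : XT := (XT.nd (nat_lit 2256) (nat_lit 2856) (nat_lit 0) (XT.nd (nat_lit 1128) (nat_lit 3024) (nat_lit 0) (XT.nd (nat_lit 564) (nat_lit 840) (nat_lit 0) (XT.nd (nat_lit 282) (nat_lit 0) (nat_lit 0) (XT.nd (nat_lit 94) (nat_lit 0) (nat_lit 0) (XT.lf (nat_lit 0) (nat_lit 4720645991) (nat_lit 924) (nat_lit 4910707503) (nat_lit 1008) (nat_lit 760605532) (nat_lit 108) (nat_lit 5) (nat_lit 119) (nat_lit 5) (nat_lit 120) (nat_lit 5) (nat_lit 319) (nat_lit 312) (nat_lit 230)) (XT.nd (nat_lit 94) (nat_lit 0) (nat_lit 0) (XT.lf (nat_lit 0) (nat_lit 5523941693) (nat_lit 924) (nat_lit 1121041114) (nat_lit 1008) (nat_lit 3899605597) (nat_lit 108) (nat_lit 5) (nat_lit 119) (nat_lit 5) (nat_lit 120) (nat_lit 5) (nat_lit 320) (nat_lit 312) (nat_lit 229)) (XT.lf (nat_lit 84) (nat_lit 2829240190) (nat_lit 0) (nat_lit 3529577289) (nat_lit 1008) (nat_lit 4343049225) (nat_lit 109)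 (nat_lit 5) (nat_lit 108) (nat_lit 5) (nat_lit 120) (nat_lit 5) (nat_lit 321) (nat_lit 312) (nat_lit 228)))) (XT.nd (nat_lit 94) (nat_lit 0) (nat_lit 84) (XT.lf (nat_lit 84) (nat_lit 6912018471) (nat_lit 0) (nat_lit 298375749) (nat_lit 1008) (nat_lit 3654031679) (nat_lit 109) (nat_lit 5) (nat_lit 108) (nat_lit 5) (nat_lit 120) (nat_lit 5) (nat_lit 322) (nat_lit 312) (nat_lit 227)) (XT.nd (nat_lit 94) (nat_lit 0) (nat_lit 0) (XT.lf (nat_lit 84) (nat_lit 46050356) (nat_lit 0) (nat_lit 8052679114) (nat_lit 1008) (nat_lit 2933090865) (nat_lit 110) (nat_lit 5) (nat_lit 109) (nat_lit 5) (nat_lit 121) (nat_lit 5) (nat_lit 323) (nat_lit 312) (nat_lit 226)) (XT.lf (nat_lit 84) (nat_lit 4235149662) (nat_lit 0) (nat_lit 4804012584) (nat_lit 1008) (nat_lit 2164593954) (nat_lit 110) (nat_lit 5) (nat_lit 109) (nat_lit 5) (nat_lit 121) (nat_lit 5) (nat_lit 324) (nat_lit 312) (nat_lit 225))))) (XT.nd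 (nat_lit 282) (nat_lit 0) (nat_lit 0) (XT.nd (nat_lit 94) (nat_lit 924) (nat_lit 0) (XT.lf (nat_lit 84) (nat_lit 8540546351) (nat_lit 0) (nat_lit 1449078246) (nat_lit 1008) (nat_lit 1392100441) (nat_lit 110) (nat_lit 5) (nat_lit 109) (nat_lit 5) (nat_lit 121) (nat_lit 5) (nat_lit 325) (nat_lit 312) (nat_lit 224)) (XT.nd (nat_lit 94) (nat_lit 1008) (nat_lit 0) (XT.lf (nat_lit 84) (nat_lit 1408752453) (nat_lit 0) (nat_lit 9576216539) (nat_lit 1008) (nat_lit 579870778) (nat_lit 111) (nat_lit 5) (nat_lit 110) (nat_lit 5) (nat_lit 122) (nat_lit 5) (nat_lit 326) (nat_lit 312) (nat_lit 223)) (XT.lf (nat_lit 0) (nat_lit 278767217) (nat_lit 1008) (nat_lit 5933957094) (nat_lit 1092) (nat_lit 5540109074) (nat_lit 98) (nat_lit 5) (nat_lit 110) (nat_lit 5) (nat_lit 111) (nat_lit 5) (nat_lit 327) (nat_lit 312) (nat_lit 222)))) (XT.nd (nat_lit 94) (nat_lit 0) (nat_lit 84) (XT.lf (nat_lit 0) (nat_lit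 1134167796) (nat_lit 1008) (nat_lit 1600673240) (nat_lit 1092) (nat_lit 9212279482) (nat_lit 98) (nat_lit 5) (nat_lit 110) (nat_lit 5) (nat_lit 111) (nat_lit 5) (nat_lit 328) (nat_lit 312) (nat_lit 221)) (XT.nd (nat_lit 94) (nat_lit 0) (nat_lit 0) (XT.lf (nat_lit 0) (nat_lit 2036475717) (nat_lit 1008) (nat_lit 9243708988) (nat_lit 84) (nat_lit 866708291) (nat_lit 99) (nat_lit 5) (nat_lit 111) (nat_lit 5) (nat_lit 100) (nat_lit 5) (nat_lit 329) (nat_lit 312) (nat_lit 220)) (XT.lf (nat_lit 0) (nat_lit 2994754408) (nat_lit 1008) (nat_lit 4813790498) (nat_lit 84) (nat_lit 4543537230) (nat_lit 99) (nat_lit 5) (nat_lit 111) (nat_lit 5) (nat_lit 100) (nat_lit 5) (nat_lit 330) (nat_lit 312) (nat_lit 219)))))) (XT.nd (nat_lit 564) (nat_lit 1512) (nat_lit 0) (XT.nd (nat_lit 282) (nat_lit 588) (nat_lit 0) (XT.nd (nat_lit 94) (nat_lit 1008) (nat_lit 0) (XT.lf (nat_lit 0) (nat_lit 3966396001) (nat_lit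 1008) (nat_lit 260028926) (nat_lit 84) (nat_lit 8337802799) (nat_lit 99) (nat_lit 5) (nat_lit 111) (nat_lit 5) (nat_lit 100) (nat_lit 5) (nat_lit 331) (nat_lit 312) (nat_lit 218)) (XT.nd (nat_lit 94) (nat_lit 0) (nat_lit 0) (XT.lf (nat_lit 0) (nat_lit 4512742004) (nat_lit 1008) (nat_lit 484331123) (nat_lit 1092) (nat_lit 7785066608) (nat_lit 87) (nat_lit 5) (nat_lit 99) (nat_lit 5) (nat_lit 100) (nat_lit 5) (nat_lit 332) (nat_lit 312) (nat_lit 217)) (XT.lf (nat_lit 0) (nat_lit 6080432634) (nat_lit 1092) (nat_lit 3614773713) (nat_lit 84) (nat_lit 3311041659) (nat_lit 87) (nat_lit 5) (nat_lit 100) (nat_lit 5) (nat_lit 88) (nat_lit 5) (nat_lit 333) (nat_lit 312) (nat_lit 216)))) (XT.nd (nat_lit 94) (nat_lit 0) (nat_lit 0) (XT.lf (nat_lit 0) (nat_lit 1190037493) (nat_lit 588) (nat_lit 6009084363) (nat_lit 672) (nat_lit 6038208814) (nat_lit 80) (nat_lit 5) (nat_lit 87) (nat_lit 5) (nat_lit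 88) (nat_lit 5) (nat_lit 334) (nat_lit 312) (nat_lit 215)) (XT.nd (nat_lit 94) (nat_lit 0) (nat_lit 0) (XT.lf (nat_lit 0) (nat_lit 6207432881) (nat_lit 588) (nat_lit 2168097565) (nat_lit 672) (nat_lit 5099410921) (nat_lit 80) (nat_lit 5) (nat_lit 87) (nat_lit 5) (nat_lit 88) (nat_lit 5) (nat_lit 335) (nat_lit 312) (nat_lit 214)) (XT.lf (nat_lit 0) (nat_lit 9591951370) (nat_lit 672) (nat_lit 2370466801) (nat_lit 84) (nat_lit 1757466314) (nat_lit 80) (nat_lit 5) (nat_lit 88) (nat_lit 5) (nat_lit 81) (nat_lit 5) (nat_lit 336) (nat_lit 312) (nat_lit 213))))) (XT.nd (nat_lit 282) (nat_lit 1008) (nat_lit 0) (XT.nd (nat_lit 94) (nat_lit 0) (nat_lit 0) (XT.lf (nat_lit 0) (nat_lit 2697818897) (nat_lit 504) (nat_lit 8183394834) (nat_lit 588) (nat_lit 3090192050) (nat_lit 74) (nat_lit 5) (nat_lit 80) (nat_lit 5) (nat_lit 81) (nat_lit 5) (nat_lit 337) (nat_lit 312) (nat_lit 212)) (XT.nd (nat_lit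 94) (nat_lit 0) (nat_lit 0) (XT.lf (nat_lit 0) (nat_lit 7960858352) (nat_lit 504) (nat_lit 4260812773) (nat_lit 588) (nat_lit 2008776868) (nat_lit 74) (nat_lit 5) (nat_lit 80) (nat_lit 5) (nat_lit 81) (nat_lit 5) (nat_lit 338) (nat_lit 312) (nat_lit 211)) (XT.lf (nat_lit 0) (nat_lit 13374815609) (nat_lit 504) (nat_lit 215758541) (nat_lit 588) (nat_lit 907422390) (nat_lit 74) (nat_lit 5) (nat_lit 80) (nat_lit 5) (nat_lit 81) (nat_lit 5) (nat_lit 339) (nat_lit 312) (nat_lit 210)))) (XT.nd (nat_lit 94) (nat_lit 420) (nat_lit 0) (XT.lf (nat_lit 0) (nat_lit 292461429) (nat_lit 588) (nat_lit 10558606043) (nat_lit 84) (nat_lit 3920628559) (nat_lit 67) (nat_lit 5) (nat_lit 74) (nat_lit 5) (nat_lit 68) (nat_lit 5) (nat_lit 340) (nat_lit 312) (nat_lit 209)) (XT.nd (nat_lit 94) (nat_lit 420) (nat_lit 0) (XT.lf (nat_lit 0) (nat_lit 1512106035) (nat_lit 588) (nat_lit 5339065107) (nat_lit 84) (nat_lit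 8202441099) (nat_lit 67) (nat_lit 5) (nat_lit 74) (nat_lit 5) (nat_lit 68) (nat_lit 5) (nat_lit 341) (nat_lit 312) (nat_lit 208)) (XT.lf (nat_lit 0) (nat_lit 30740836) (nat_lit 420) (nat_lit 2726867071) (nat_lit 504) (nat_lit 12587092103) (nat_lit 62) (nat_lit 5) (nat_lit 67) (nat_lit 5) (nat_lit 68) (nat_lit 5) (nat_lit 342) (nat_lit 312) (nat_lit 207))))))) (XT.nd (nat_lit 1128) (nat_lit 1260) (nat_lit 0) (XT.nd (nat_lit 564) (nat_lit 840) (nat_lit 0) (XT.nd (nat_lit 282) (nat_lit 336) (nat_lit 0) (XT.nd (nat_lit 94) (nat_lit 420) (nat_lit 0) (XT.lf (nat_lit 0) (nat_lit 4101142433) (nat_lit 504) (nat_lit 9991057563) (nat_lit 84) (nat_lit 1550829218) (nat_lit 62) (nat_lit 5) (nat_lit 68) (nat_lit 5) (nat_lit 63) (nat_lit 5) (nat_lit 343) (nat_lit 312) (nat_lit 206)) (XT.nd (nat_lit 94) (nat_lit 420) (nat_lit 0) (XT.lf (nat_lit 0) (nat_lit 5502569176) (nat_lit 504) (nat_lit 4543129280)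 (nat_lit 84) (nat_lit 5904462647) (nat_lit 62) (nat_lit 5) (nat_lit 68) (nat_lit 5) (nat_lit 63) (nat_lit 5) (nat_lit 344) (nat_lit 312) (nat_lit 205)) (XT.lf (nat_lit 0) (nat_lit 1083790537) (nat_lit 420) (nat_lit 5863104353) (nat_lit 504) (nat_lit 9319992351) (nat_lit 57) (nat_lit 5) (nat_lit 62) (nat_lit 5) (nat_lit 63) (nat_lit 5) (nat_lit 345) (nat_lit 312) (nat_lit 204)))) (XT.nd (nat_lit 94) (nat_lit 336) (nat_lit 0) (XT.lf (nat_lit 0) (nat_lit 6969845374) (nat_lit 420) (nat_lit 1502498163) (nat_lit 504) (nat_lit 8120016104) (nat_lit 57) (nat_lit 5) (nat_lit 62) (nat_lit 5) (nat_lit 63) (nat_lit 5) (nat_lit 346) (nat_lit 312) (nat_lit 203)) (XT.nd (nat_lit 94) (nat_lit 336) (nat_lit 0) (XT.lf (nat_lit 0) (nat_lit 10064030478) (nat_lit 504) (nat_lit 3930890519) (nat_lit 84) (nat_lit 2932466183) (nat_lit 57) (nat_lit 5) (nat_lit 63) (nat_lit 5) (nat_lit 58) (nat_lit 5) (nat_lit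 347) (nat_lit 312) (nat_lit 202)) (XT.lf (nat_lit 0) (nat_lit 1949797735) (nat_lit 336) (nat_lit 9779549906) (nat_lit 420) (nat_lit 5542751340) (nat_lit 53) (nat_lit 5) (nat_lit 57) (nat_lit 5) (nat_lit 58) (nat_lit 5) (nat_lit 348) (nat_lit 312) (nat_lit 201))))) (XT.nd (nat_lit 282) (nat_lit 420) (nat_lit 0) (XT.nd (nat_lit 94) (nat_lit 420) (nat_lit 0) (XT.lf (nat_lit 0) (nat_lit 8084941581) (nat_lit 336) (nat_lit 5392159616) (nat_lit 420) (nat_lit 4149490282) (nat_lit 53) (nat_lit 5) (nat_lit 57) (nat_lit 5) (nat_lit 58) (nat_lit 5) (nat_lit 349) (nat_lit 312) (nat_lit 200)) (XT.nd (nat_lit 94) (nat_lit 420) (nat_lit 0) (XT.lf (nat_lit 0) (nat_lit 14399432444) (nat_lit 336) (nat_lit 869691054) (nat_lit 420) (nat_lit 2723305300) (nat_lit 53) (nat_lit 5) (nat_lit 57) (nat_lit 5) (nat_lit 58) (nat_lit 5) (nat_lit 350) (nat_lit 312) (nat_lit 199)) (XT.lf (nat_lit 0) (nat_lit 2542818463)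 (nat_lit 420) (nat_lit 14627109325) (nat_lit 504) (nat_lit 1198076020) (nat_lit 48) (nat_lit 5) (nat_lit 53) (nat_lit 5) (nat_lit 54) (nat_lit 5) (nat_lit 351) (nat_lit 312) (nat_lit 198)))) (XT.nd (nat_lit 94) (nat_lit 336) (nat_lit 0) (XT.lf (nat_lit 0) (nat_lit 404092458) (nat_lit 504) (nat_lit 9833022307) (nat_lit 84) (nat_lit 8516882560) (nat_lit 47) (nat_lit 5) (nat_lit 53) (nat_lit 5) (nat_lit 48) (nat_lit 5) (nat_lit 352) (nat_lit 312) (nat_lit 197)) (XT.nd (nat_lit 94) (nat_lit 336) (nat_lit 0) (XT.lf (nat_lit 0) (nat_lit 2021748528) (nat_lit 504) (nat_lit 3678009000) (nat_lit 84) (nat_lit 13452150074) (nat_lit 47) (nat_lit 5) (nat_lit 53) (nat_lit 5) (nat_lit 48) (nat_lit 5) (nat_lit 353) (nat_lit 312) (nat_lit 196)) (XT.lf (nat_lit 0) (nat_lit 2712119927) (nat_lit 336) (nat_lit 995323214) (nat_lit 420) (nat_lit 15854196785) (nat_lit 43) (nat_lit 5) (nat_lit 47) (nat_lit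 5) (nat_lit 48) (nat_lit 5) (nat_lit 354) (nat_lit 312) (nat_lit 195)))))) (XT.nd (nat_lit 564) (nat_lit 672) (nat_lit 0) (XT.nd (nat_lit 282) (nat_lit 252) (nat_lit 0) (XT.nd (nat_lit 94) (nat_lit 336) (nat_lit 0) (XT.lf (nat_lit 0) (nat_lit 5513561825) (nat_lit 420) (nat_lit 10653732326) (nat_lit 84) (nat_lit 3814706818) (nat_lit 43) (nat_lit 5) (nat_lit 48) (nat_lit 5) (nat_lit 44) (nat_lit 5) (nat_lit 355) (nat_lit 312) (nat_lit 194)) (XT.nd (nat_lit 94) (nat_lit 336) (nat_lit 0) (XT.lf (nat_lit 0) (nat_lit 7377258782) (nat_lit 420) (nat_lit 4286267450) (nat_lit 84) (nat_lit 8751856726) (nat_lit 43) (nat_lit 5) (nat_lit 48) (nat_lit 5) (nat_lit 44) (nat_lit 5) (nat_lit 356) (nat_lit 312) (nat_lit 193)) (XT.lf (nat_lit 0) (nat_lit 2315332286) (nat_lit 336) (nat_lit 6998033541) (nat_lit 420) (nat_lit 11548418092) (nat_lit 39) (nat_lit 5) (nat_lit 43) (nat_lit 5) (nat_lit 44) (nat_lit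 5) (nat_lit 357) (nat_lit 312) (nat_lit 192)))) (XT.nd (nat_lit 94) (nat_lit 252) (nat_lit 0) (XT.lf (nat_lit 0) (nat_lit 9202643180) (nat_lit 336) (nat_lit 2143409235) (nat_lit 420) (nat_lit 9974874217) (nat_lit 39) (nat_lit 5) (nat_lit 43) (nat_lit 5) (nat_lit 44) (nat_lit 5) (nat_lit 358) (nat_lit 312) (nat_lit 191)) (XT.nd (nat_lit 94) (nat_lit 252) (nat_lit 0) (XT.lf (nat_lit 0) (nat_lit 13462191479) (nat_lit 420) (nat_lit 5529006688) (nat_lit 84) (nat_lit 2802506575) (nat_lit 39) (nat_lit 5) (nat_lit 44) (nat_lit 5) (nat_lit 40) (nat_lit 5) (nat_lit 359) (nat_lit 312) (nat_lit 190)) (XT.lf (nat_lit 0) (nat_lit 1258489195) (nat_lit 252) (nat_lit 14412137769) (nat_lit 336) (nat_lit 6609718948) (nat_lit 36) (nat_lit 5) (nat_lit 39) (nat_lit 5) (nat_lit 40) (nat_lit 5) (nat_lit 360) (nat_lit 312) (nat_lit 189))))) (XT.nd (nat_lit 282) (nat_lit 672) (nat_lit 0) (XT.nd (nat_lit 94)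 (nat_lit 0) (nat_lit 0) (XT.lf (nat_lit 0) (nat_lit 8364223306) (nat_lit 252) (nat_lit 9633440561) (nat_lit 336) (nat_lit 4782888233) (nat_lit 36) (nat_lit 5) (nat_lit 39) (nat_lit 5) (nat_lit 40) (nat_lit 5) (nat_lit 361) (nat_lit 312) (nat_lit 188)) (XT.nd (nat_lit 94) (nat_lit 0) (nat_lit 0) (XT.lf (nat_lit 0) (nat_lit 15681131216) (nat_lit 252) (nat_lit 4708363787) (nat_lit 336) (nat_lit 2907029812) (nat_lit 36) (nat_lit 5) (nat_lit 39) (nat_lit 5) (nat_lit 40) (nat_lit 5) (nat_lit 362) (nat_lit 312) (nat_lit 187)) (XT.lf (nat_lit 0) (nat_lit 22851997274) (nat_lit 336) (nat_lit 616359410) (nat_lit 84) (nat_lit 360275241) (nat_lit 36) (nat_lit 5) (nat_lit 40) (nat_lit 5) (nat_lit 37) (nat_lit 5) (nat_lit 363) (nat_lit 312) (nat_lit 186)))) (XT.nd (nat_lit 188) (nat_lit 252) (nat_lit 0) (XT.nd (nat_lit 94) (nat_lit 0) (nat_lit 0) (XT.lf (nat_lit 0) (nat_lit 1101719208) (nat_lit 420)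 (nat_lit 17707859691) (nat_lit 84) (nat_lit 5564008694) (nat_lit 31) (nat_lit 5) (nat_lit 36) (nat_lit 5) (nat_lit 32) (nat_lit 5) (nat_lit 364) (nat_lit 312) (nat_lit 185)) (XT.lf (nat_lit 0) (nat_lit 3223812291) (nat_lit 420) (nat_lit 10767540159) (nat_lit 84) (nat_lit 10943816013) (nat_lit 31) (nat_lit 5) (nat_lit 36) (nat_lit 5) (nat_lit 32) (nat_lit 5) (nat_lit 365) (nat_lit 312) (nat_lit 184))) (XT.nd (nat_lit 94) (nat_lit 252) (nat_lit 0) (XT.lf (nat_lit 0) (nat_lit 5404995715) (nat_lit 420) (nat_lit 3620678535) (nat_lit 84) (nat_lit 16488719496) (nat_lit 31) (nat_lit 5) (nat_lit 36) (nat_lit 5) (nat_lit 32) (nat_lit 5) (nat_lit 366) (nat_lit 312) (nat_lit 183)) (XT.lf (nat_lit 0) (nat_lit 3816276266) (nat_lit 252) (nat_lit 3868884237) (nat_lit 336) (nat_lit 18425469243) (nat_lit 28) (nat_lit 5) (nat_lit 31) (nat_lit 5) (nat_lit 32) (nat_lit 5) (nat_lit 367) (nat_lit 312) (nat_lit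 182))))))))
noncomputable def xc146 : XT := (XT.nd (nat_lit 2256) (nat_lit 672) (nat_lit 0) (XT.nd (nat_lit 1128) (nat_lit 420) (nat_lit 0) (XT.nd (nat_lit 564) (nat_lit 504) (nat_lit 0) (XT.nd (nat_lit 282) (nat_lit 252) (nat_lit 0) (XT.nd (nat_lit 94) (nat_lit 0) (nat_lit 0) (XT.lf (nat_lit 0) (nat_lit 10082152714) (nat_lit 336) (nat_lit 15186862675) (nat_lit 84) (nat_lit 1454929487) (nat_lit 28) (nat_lit 5) (nat_lit 32) (nat_lit 5) (nat_lit 29) (nat_lit 5) (nat_lit 368) (nat_lit 312) (nat_lit 181)) (XT.nd (nat_lit 94) (nat_lit 0) (nat_lit 0) (XT.lf (nat_lit 0) (nat_lit 12586814968) (nat_lit 336) (nat_lit 7906824349) (nat_lit 84) (nat_lit 6861624632) (nat_lit 28) (nat_lit 5) (nat_lit 32) (nat_lit 5) (nat_lit 29) (nat_lit 5) (nat_lit 369) (nat_lit 312) (nat_lit 180)) (XT.lf (nat_lit 0) (nat_lit 15163102063) (nat_lit 336) (nat_lit 409072935) (nat_lit 84) (nat_lit 12434190197) (nat_lit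 28) (nat_lit 5) (nat_lit 32) (nat_lit 5) (nat_lit 29) (nat_lit 5) (nat_lit 370) (nat_lit 312) (nat_lit 179)))) (XT.nd (nat_lit 94) (nat_lit 0) (nat_lit 0) (XT.lf (nat_lit 0) (nat_lit 7463758354) (nat_lit 252) (nat_lit 10423698422) (nat_lit 336) (nat_lit 10788103450) (nat_lit 25) (nat_lit 5) (nat_lit 28) (nat_lit 5) (nat_lit 29) (nat_lit 5) (nat_lit 371) (nat_lit 312) (nat_lit 178)) (XT.nd (nat_lit 94) (nat_lit 0) (nat_lit 0) (XT.lf (nat_lit 0) (nat_lit 15581669274) (nat_lit 252) (nat_lit 5113128069) (nat_lit 336) (nat_lit 8670771712) (nat_lit 25) (nat_lit 5) (nat_lit 28) (nat_lit 5) (nat_lit 29) (nat_lit 5) (nat_lit 372) (nat_lit 312) (nat_lit 177)) (XT.lf (nat_lit 0) (nat_lit 23587172394) (nat_lit 336) (nat_lit 6136921432) (nat_lit 84) (nat_lit 352958630) (nat_lit 25) (nat_lit 5) (nat_lit 29) (nat_lit 5) (nat_lit 26) (nat_lit 5) (nat_lit 373) (nat_lit 312) (nat_lit 176))))) (XT.nd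 (nat_lit 282) (nat_lit 252) (nat_lit 0) (XT.nd (nat_lit 94) (nat_lit 84) (nat_lit 0) (XT.lf (nat_lit 0) (nat_lit 1722146892) (nat_lit 168) (nat_lit 24911026432) (nat_lit 252) (nat_lit 4175457522) (nat_lit 23) (nat_lit 5) (nat_lit 25) (nat_lit 5) (nat_lit 26) (nat_lit 5) (nat_lit 374) (nat_lit 312) (nat_lit 175)) (XT.nd (nat_lit 94) (nat_lit 84) (nat_lit 0) (XT.lf (nat_lit 0) (nat_lit 9947651942) (nat_lit 168) (nat_lit 19884678808) (nat_lit 252) (nat_lit 1728757955) (nat_lit 23) (nat_lit 5) (nat_lit 25) (nat_lit 5) (nat_lit 26) (nat_lit 5) (nat_lit 375) (nat_lit 312) (nat_lit 174)) (XT.lf (nat_lit 0) (nat_lit 772556991) (nat_lit 252) (nat_lit 13923801840) (nat_lit 84) (nat_lit 17640452154) (nat_lit 22) (nat_lit 5) (nat_lit 25) (nat_lit 5) (nat_lit 23) (nat_lit 5) (nat_lit 376) (nat_lit 312) (nat_lit 173)))) (XT.nd (nat_lit 94) (nat_lit 252) (nat_lit 0) (XT.lf (nat_lit 0) (nat_lit 3310420643)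 (nat_lit 252) (nat_lit 6020455050) (nat_lit 84) (nat_lit 23805333707) (nat_lit 22) (nat_lit 5) (nat_lit 25) (nat_lit 5) (nat_lit 23) (nat_lit 5) (nat_lit 377) (nat_lit 312) (nat_lit 172)) (XT.nd (nat_lit 94) (nat_lit 0) (nat_lit 0) (XT.lf (nat_lit 0) (nat_lit 2164734420) (nat_lit 252) (nat_lit 3778769185) (nat_lit 336) (nat_lit 28016391392) (nat_lit 19) (nat_lit 5) (nat_lit 22) (nat_lit 5) (nat_lit 23) (nat_lit 5) (nat_lit 378) (nat_lit 312) (nat_lit 171)) (XT.lf (nat_lit 0) (nat_lit 8736129517) (nat_lit 336) (nat_lit 24102670413) (nat_lit 84) (nat_lit 1967917661) (nat_lit 19) (nat_lit 5) (nat_lit 23) (nat_lit 5) (nat_lit 20) (nat_lit 5) (nat_lit 379) (nat_lit 312) (nat_lit 170)))))) (XT.nd (nat_lit 564) (nat_lit 252) (nat_lit 0) (XT.nd (nat_lit 282) (nat_lit 0) (nat_lit 0) (XT.nd (nat_lit 94) (nat_lit 168) (nat_lit 0) (XT.lf (nat_lit 0) (nat_lit 11649255374) (nat_lit 336) (nat_lit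 16217011838) (nat_lit 84) (nat_lit 7812490322) (nat_lit 19) (nat_lit 5) (nat_lit 23) (nat_lit 5) (nat_lit 20) (nat_lit 5) (nat_lit 380) (nat_lit 312) (nat_lit 169)) (XT.nd (nat_lit 94) (nat_lit 168) (nat_lit 0) (XT.lf (nat_lit 0) (nat_lit 14648110658) (nat_lit 336) (nat_lit 8093348734) (nat_lit 84) (nat_lit 13836530329) (nat_lit 19) (nat_lit 5) (nat_lit 23) (nat_lit 5) (nat_lit 20) (nat_lit 5) (nat_lit 381) (nat_lit 312) (nat_lit 168)) (XT.lf (nat_lit 0) (nat_lit 281563888) (nat_lit 168) (nat_lit 17456719877) (nat_lit 252) (nat_lit 19766881978) (nat_lit 17) (nat_lit 5) (nat_lit 19) (nat_lit 5) (nat_lit 20) (nat_lit 5) (nat_lit 382) (nat_lit 312) (nat_lit 167)))) (XT.nd (nat_lit 94) (nat_lit 0) (nat_lit 0) (XT.lf (nat_lit 0) (nat_lit 9081479966) (nat_lit 168) (nat_lit 11922882450) (nat_lit 252) (nat_lit 17454254480) (nat_lit 17) (nat_lit 5) (nat_lit 19) (nat_lit 5) (nat_lit 20) (nat_lit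 5) (nat_lit 383) (nat_lit 312) (nat_lit 166)) (XT.nd (nat_lit 94) (nat_lit 0) (nat_lit 0) (XT.lf (nat_lit 0) (nat_lit 18148186093) (nat_lit 168) (nat_lit 6219266959) (nat_lit 252) (nat_lit 15074318921) (nat_lit 17) (nat_lit 5) (nat_lit 19) (nat_lit 5) (nat_lit 20) (nat_lit 5) (nat_lit 384) (nat_lit 312) (nat_lit 165)) (XT.lf (nat_lit 0) (nat_lit 27490133390) (nat_lit 168) (nat_lit 340557034) (nat_lit 252) (nat_lit 12624856951) (nat_lit 17) (nat_lit 5) (nat_lit 19) (nat_lit 5) (nat_lit 20) (nat_lit 5) (nat_lit 385) (nat_lit 312) (nat_lit 164))))) (XT.nd (nat_lit 282) (nat_lit 84) (nat_lit 0) (XT.nd (nat_lit 94) (nat_lit 168) (nat_lit 0) (XT.lf (nat_lit 0) (nat_lit 31454033113) (nat_lit 252) (nat_lit 4441588997) (nat_lit 84) (nat_lit 5603507293) (nat_lit 17) (nat_lit 5) (nat_lit 20) (nat_lit 5) (nat_lit 18) (nat_lit 5) (nat_lit 386) (nat_lit 312) (nat_lit 163)) (XT.nd (nat_lit 94) (nat_lit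 0) (nat_lit 0) (XT.lf (nat_lit 0) (nat_lit 4426577497) (nat_lit 168) (nat_lit 30806635506) (nat_lit 252) (nat_lit 7340514791) (nat_lit 15) (nat_lit 5) (nat_lit 17) (nat_lit 5) (nat_lit 18) (nat_lit 5) (nat_lit 387) (nat_lit 312) (nat_lit 162)) (XT.lf (nat_lit 0) (nat_lit 13658273557) (nat_lit 168) (nat_lit 25513815006) (nat_lit 252) (nat_lit 4508245212) (nat_lit 15) (nat_lit 5) (nat_lit 17) (nat_lit 5) (nat_lit 18) (nat_lit 5) (nat_lit 388) (nat_lit 312) (nat_lit 161)))) (XT.nd (nat_lit 94) (nat_lit 84) (nat_lit 0) (XT.lf (nat_lit 0) (nat_lit 23170775910) (nat_lit 168) (nat_lit 20058588228) (nat_lit 252) (nat_lit 1592008659) (nat_lit 15) (nat_lit 5) (nat_lit 17) (nat_lit 5) (nat_lit 18) (nat_lit 5) (nat_lit 389) (nat_lit 312) (nat_lit 160)) (XT.nd (nat_lit 94) (nat_lit 0) (nat_lit 0) (XT.lf (nat_lit 0) (nat_lit 1382486348) (nat_lit 252) (nat_lit 13038953658) (nat_lit 84) (nat_lit 31576034535)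 (nat_lit 14) (nat_lit 5) (nat_lit 17) (nat_lit 5) (nat_lit 15) (nat_lit 5) (nat_lit 390) (nat_lit 312) (nat_lit 159)) (XT.lf (nat_lit 0) (nat_lit 4412587269) (nat_lit 252) (nat_lit 4181774714) (nat_lit 84) (nat_lit 38615290465) (nat_lit 14) (nat_lit 5) (nat_lit 17) (nat_lit 5) (nat_lit 15) (nat_lit 5) (nat_lit 391) (nat_lit 312) (nat_lit 158))))))) (XT.nd (nat_lit 1128) (nat_lit 336) (nat_lit 0) (XT.nd (nat_lit 564) (nat_lit 0) (nat_lit 0) (XT.nd (nat_lit 282) (nat_lit 168) (nat_lit 0) (XT.nd (nat_lit 94) (nat_lit 0) (nat_lit 0) (XT.lf (nat_lit 0) (nat_lit 5046667794) (nat_lit 168) (nat_lit 2536589677) (nat_lit 252) (nat_lit 40874716537) (nat_lit 12) (nat_lit 5) (nat_lit 14) (nat_lit 5) (nat_lit 15) (nat_lit 5) (nat_lit 392) (nat_lit 312) (nat_lit 157)) (XT.nd (nat_lit 94) (nat_lit 0) (nat_lit 0) (XT.lf (nat_lit 0) (nat_lit 10929718645) (nat_lit 252) (nat_lit 35136075019) (nat_lit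 84) (nat_lit 3676808866) (nat_lit 12) (nat_lit 5) (nat_lit 15) (nat_lit 5) (nat_lit 13) (nat_lit 5) (nat_lit 393) (nat_lit 312) (nat_lit 156)) (XT.lf (nat_lit 0) (nat_lit 14402576495) (nat_lit 252) (nat_lit 26635141665) (nat_lit 84) (nat_lit 10028645183) (nat_lit 12) (nat_lit 5) (nat_lit 15) (nat_lit 5) (nat_lit 13) (nat_lit 5) (nat_lit 394) (nat_lit 312) (nat_lit 155)))) (XT.nd (nat_lit 94) (nat_lit 168) (nat_lit 0) (XT.lf (nat_lit 0) (nat_lit 17979904807) (nat_lit 252) (nat_lit 17875419108) (nat_lit 84) (nat_lit 16575946480) (nat_lit 12) (nat_lit 5) (nat_lit 15) (nat_lit 5) (nat_lit 13) (nat_lit 5) (nat_lit 395) (nat_lit 312) (nat_lit 154)) (XT.nd (nat_lit 94) (nat_lit 168) (nat_lit 0) (XT.lf (nat_lit 0) (nat_lit 21665038023) (nat_lit 252) (nat_lit 8848742368) (nat_lit 84) (nat_lit 23324815528) (nat_lit 12) (nat_lit 5) (nat_lit 15) (nat_lit 5) (nat_lit 13) (nat_lit 5) (nat_lit 396)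 (nat_lit 312) (nat_lit 153)) (XT.lf (nat_lit 0) (nat_lit 462623187) (nat_lit 168) (nat_lit 25003377166) (nat_lit 252) (nat_lit 29823509071) (nat_lit 10) (nat_lit 5) (nat_lit 12) (nat_lit 5) (nat_lit 13) (nat_lit 5) (nat_lit 397) (nat_lit 312) (nat_lit 152))))) (XT.nd (nat_lit 282) (nat_lit 0) (nat_lit 0) (XT.nd (nat_lit 94) (nat_lit 0) (nat_lit 0) (XT.lf (nat_lit 0) (nat_lit 10245815919) (nat_lit 168) (nat_lit 19228386421) (nat_lit 252) (nat_lit 27308437075) (nat_lit 10) (nat_lit 5) (nat_lit 12) (nat_lit 5) (nat_lit 13) (nat_lit 5) (nat_lit 398) (nat_lit 312) (nat_lit 151)) (XT.nd (nat_lit 94) (nat_lit 0) (nat_lit 0) (XT.lf (nat_lit 0) (nat_lit 20328006496) (nat_lit 168) (nat_lit 13275787983) (nat_lit 252) (nat_lit 24718360321) (nat_lit 10) (nat_lit 5) (nat_lit 12) (nat_lit 5) (nat_lit 13) (nat_lit 5) (nat_lit 399) (nat_lit 312) (nat_lit 150)) (XT.lf (nat_lit 0) (nat_lit 30718592576)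 (nat_lit 168) (nat_lit 7140033406) (nat_lit 252) (nat_lit 22050864586) (nat_lit 10) (nat_lit 5) (nat_lit 12) (nat_lit 5) (nat_lit 13) (nat_lit 5) (nat_lit 400) (nat_lit 312) (nat_lit 149)))) (XT.nd (nat_lit 94) (nat_lit 0) (nat_lit 0) (XT.lf (nat_lit 0) (nat_lit 41427259272) (nat_lit 168) (nat_lit 815403524) (nat_lit 252) (nat_lit 19303463484) (nat_lit 10) (nat_lit 5) (nat_lit 12) (nat_lit 5) (nat_lit 13) (nat_lit 5) (nat_lit 401) (nat_lit 312) (nat_lit 148)) (XT.nd (nat_lit 94) (nat_lit 0) (nat_lit 0) (XT.lf (nat_lit 0) (nat_lit 46816575661) (nat_lit 252) (nat_lit 10826183626) (nat_lit 84) (nat_lit 5589074054) (nat_lit 10) (nat_lit 5) (nat_lit 13) (nat_lit 5) (nat_lit 11) (nat_lit 4) (nat_lit 402) (nat_lit 312) (nat_lit 147)) (XT.lf (nat_lit 0) (nat_lit 51538072176) (nat_lit 252) (nat_lit 1257630326) (nat_lit 84) (nat_lit 12173923730) (nat_lit 10) (nat_lit 5) (nat_lit 13) (nat_lit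 5) (nat_lit 11) (nat_lit 4) (nat_lit 403) (nat_lit 312) (nat_lit 146)))))) (XT.nd (nat_lit 564) (nat_lit 168) (nat_lit 0) (XT.nd (nat_lit 282) (nat_lit 84) (nat_lit 0) (XT.nd (nat_lit 94) (nat_lit 0) (nat_lit 0) (XT.lf (nat_lit 0) (nat_lit 8780712477) (nat_lit 84) (nat_lit 47709857645) (nat_lit 168) (nat_lit 10268105114) (nat_lit 9) (nat_lit 5) (nat_lit 10) (nat_lit 5) (nat_lit 11) (nat_lit 4) (nat_lit 404) (nat_lit 312) (nat_lit 145)) (XT.nd (nat_lit 94) (nat_lit 0) (nat_lit 0) (XT.lf (nat_lit 0) (nat_lit 19153195512) (nat_lit 84) (nat_lit 42454093848) (nat_lit 168) (nat_lit 6995571861) (nat_lit 9) (nat_lit 5) (nat_lit 10) (nat_lit 5) (nat_lit 11) (nat_lit 4) (nat_lit 405) (nat_lit 312) (nat_lit 144)) (XT.lf (nat_lit 0) (nat_lit 29843627561) (nat_lit 84) (nat_lit 37036639272) (nat_lit 168) (nat_lit 3624031036) (nat_lit 9) (nat_lit 5) (nat_lit 10) (nat_lit 5) (nat_lit 11) (nat_lit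 4) (nat_lit 406) (nat_lit 312) (nat_lit 143)))) (XT.nd (nat_lit 94) (nat_lit 84) (nat_lit 0) (XT.lf (nat_lit 0) (nat_lit 40861973226) (nat_lit 84) (nat_lit 31452444281) (nat_lit 168) (nat_lit 150340010) (nat_lit 9) (nat_lit 5) (nat_lit 10) (nat_lit 5) (nat_lit 11) (nat_lit 4) (nat_lit 407) (nat_lit 312) (nat_lit 142)) (XT.nd (nat_lit 94) (nat_lit 0) (nat_lit 0) (XT.lf (nat_lit 0) (nat_lit 3359657611) (nat_lit 168) (nat_lit 22301578274) (nat_lit 84) (nat_lit 48823777213) (nat_lit 8) (nat_lit 5) (nat_lit 10) (nat_lit 5) (nat_lit 9) (nat_lit 5) (nat_lit 408) (nat_lit 312) (nat_lit 141)) (XT.lf (nat_lit 0) (nat_lit 6973159790) (nat_lit 168) (nat_lit 12716907287) (nat_lit 84) (nat_lit 56877856359) (nat_lit 8) (nat_lit 5) (nat_lit 10) (nat_lit 5) (nat_lit 9) (nat_lit 5) (nat_lit 409) (nat_lit 312) (nat_lit 140))))) (XT.nd (nat_lit 282) (nat_lit 0) (nat_lit 0) (XT.nd (nat_lit 94) (nat_lit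 168) (nat_lit 0) (XT.lf (nat_lit 0) (nat_lit 10696563705) (nat_lit 168) (nat_lit 2838346021) (nat_lit 84) (nat_lit 65180566528) (nat_lit 8) (nat_lit 5) (nat_lit 10) (nat_lit 5) (nat_lit 9) (nat_lit 5) (nat_lit 410) (nat_lit 312) (nat_lit 139)) (XT.nd (nat_lit 94) (nat_lit 0) (nat_lit 0) (XT.lf (nat_lit 0) (nat_lit 7494306960) (nat_lit 168) (nat_lit 7113377451) (nat_lit 252) (nat_lit 66319684208) (nat_lit 6) (nat_lit 5) (nat_lit 8) (nat_lit 5) (nat_lit 9) (nat_lit 5) (nat_lit 411) (nat_lit 312) (nat_lit 138)) (XT.lf (nat_lit 0) (nat_lit 18204338124) (nat_lit 168) (nat_lit 463315992) (nat_lit 252) (nat_lit 64539326045) (nat_lit 6) (nat_lit 5) (nat_lit 8) (nat_lit 5) (nat_lit 9) (nat_lit 5) (nat_lit 412) (nat_lit 312) (nat_lit 137)))) (XT.nd (nat_lit 188) (nat_lit 0) (nat_lit 0) (XT.nd (nat_lit 94) (nat_lit 0) (nat_lit 0) (XT.lf (nat_lit 0) (nat_lit 22914929343) (nat_lit 252) (nat_lit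 56377366310) (nat_lit 84) (nat_lit 6263065226) (nat_lit 6) (nat_lit 5) (nat_lit 9) (nat_lit 5) (nat_lit 7) (nat_lit 4) (nat_lit 413) (nat_lit 312) (nat_lit 136)) (XT.lf (nat_lit 0) (nat_lit 27296696152) (nat_lit 252) (nat_lit 47492421969) (nat_lit 84) (nat_lit 13187341545) (nat_lit 6) (nat_lit 5) (nat_lit 9) (nat_lit 5) (nat_lit 7) (nat_lit 4) (nat_lit 414) (nat_lit 312) (nat_lit 135))) (XT.nd (nat_lit 94) (nat_lit 0) (nat_lit 0) (XT.lf (nat_lit 0) (nat_lit 31812442656) (nat_lit 252) (nat_lit 38334931166) (nat_lit 84) (nat_lit 20325301900) (nat_lit 6) (nat_lit 5) (nat_lit 9) (nat_lit 5) (nat_lit 7) (nat_lit 4) (nat_lit 415) (nat_lit 312) (nat_lit 134)) (XT.lf (nat_lit 0) (nat_lit 36466378005) (nat_lit 252) (nat_lit 28896358159) (nat_lit 84) (nat_lit 27683599617) (nat_lit 6) (nat_lit 5) (nat_lit 9) (nat_lit 5) (nat_lit 7) (nat_lit 4) (nat_lit 416) (nat_lit 312) (nat_lit 133))))))))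
noncomputable def xc147 : XT := (XT.nd (nat_lit 46436) (nat_lit 0) (nat_lit 2772) (XT.nd (nat_lit 45308) (nat_lit 0) (nat_lit 6216) (XT.nd (nat_lit 44744) (nat_lit 0) (nat_lit 8484) (XT.nd (nat_lit 44462) (nat_lit 0) (nat_lit 8400) (XT.nd (nat_lit 44274) (nat_lit 0) (nat_lit 8400) (XT.lf (nat_lit 0) (nat_lit 41262840154) (nat_lit 252) (nat_lit 19167905210) (nat_lit 84) (nat_lit 35269093401) (nat_lit 6) (nat_lit 5) (nat_lit 9) (nat_lit 5) (nat_lit 7) (nat_lit 4) (nat_lit 417) (nat_lit 312) (nat_lit 132)) (XT.nd (nat_lit 94) (nat_lit 0) (nat_lit 0) (XT.lf (nat_lit 0) (nat_lit 249516506) (nat_lit 0) (nat_lit 249516506) (nat_lit 924) (nat_lit 4347970803) (nat_lit 106) (nat_lit 5) (nat_lit 106) (nat_lit 3) (nat_lit 117) (nat_lit 3) (nat_lit 313) (nat_lit 313) (nat_lit 235)) (XT.lf (nat_lit 0) (nat_lit 1656977258) (nat_lit 924) (nat_lit 5794580638) (nat_lit 1008) (nat_lit 2369163165) (nat_lit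 106) (nat_lit 5) (nat_lit 117) (nat_lit 3) (nat_lit 118) (nat_lit 5) (nat_lit 314) (nat_lit 313) (nat_lit 234)))) (XT.nd (nat_lit 94) (nat_lit 0) (nat_lit 0) (XT.lf (nat_lit 0) (nat_lit 2316581186) (nat_lit 924) (nat_lit 2307401582) (nat_lit 1008) (nat_lit 5328136526) (nat_lit 106) (nat_lit 5) (nat_lit 117) (nat_lit 3) (nat_lit 118) (nat_lit 5) (nat_lit 315) (nat_lit 313) (nat_lit 233)) (XT.nd (nat_lit 94) (nat_lit 0) (nat_lit 84) (XT.lf (nat_lit 84) (nat_lit 1300975187) (nat_lit 0) (nat_lit 1684472805) (nat_lit 1008) (nat_lit 7102630195) (nat_lit 107) (nat_lit 5) (nat_lit 106) (nat_lit 5) (nat_lit 118) (nat_lit 5) (nat_lit 316) (nat_lit 313) (nat_lit 232)) (XT.lf (nat_lit 0) (nat_lit 3689343784) (nat_lit 924) (nat_lit 5184931045) (nat_lit 1008) (nat_lit 1353670219) (nat_lit 107) (nat_lit 5) (nat_lit 118) (nat_lit 5) (nat_lit 119) (nat_lit 5) (nat_lit 317) (nat_lit 313) (nat_lit 231)))))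 (XT.nd (nat_lit 282) (nat_lit 0) (nat_lit 84) (XT.nd (nat_lit 94) (nat_lit 0) (nat_lit 0) (XT.lf (nat_lit 0) (nat_lit 4409601003) (nat_lit 924) (nat_lit 1501853197) (nat_lit 1008) (nat_lit 4460995077) (nat_lit 107) (nat_lit 5) (nat_lit 118) (nat_lit 5) (nat_lit 119) (nat_lit 5) (nat_lit 318) (nat_lit 313) (nat_lit 230)) (XT.nd (nat_lit 94) (nat_lit 0) (nat_lit 84) (XT.lf (nat_lit 84) (nat_lit 2329201964) (nat_lit 0) (nat_lit 2824084835) (nat_lit 1008) (nat_lit 5368240502) (nat_lit 108) (nat_lit 5) (nat_lit 107) (nat_lit 5) (nat_lit 119) (nat_lit 5) (nat_lit 319) (nat_lit 313) (nat_lit 229)) (XT.lf (nat_lit 0) (nat_lit 5918036213) (nat_lit 924) (nat_lit 4381471657) (nat_lit 1008) (nat_lit 375905007) (nat_lit 108) (nat_lit 5) (nat_lit 119) (nat_lit 5) (nat_lit 120) (nat_lit 5) (nat_lit 320) (nat_lit 313) (nat_lit 228)))) (XT.nd (nat_lit 94) (nat_lit 0) (nat_lit 0) (XT.lf (nat_lit 0)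 (nat_lit 6714631215) (nat_lit 924) (nat_lit 494815912) (nat_lit 1008) (nat_lit 3624490174) (nat_lit 108) (nat_lit 5) (nat_lit 119) (nat_lit 5) (nat_lit 120) (nat_lit 5) (nat_lit 321) (nat_lit 313) (nat_lit 227)) (XT.nd (nat_lit 94) (nat_lit 0) (nat_lit 0) (XT.lf (nat_lit 84) (nat_lit 3571232310) (nat_lit 0) (nat_lit 3979993800) (nat_lit 1008) (nat_lit 3445792458) (nat_lit 109) (nat_lit 5) (nat_lit 108) (nat_lit 5) (nat_lit 120) (nat_lit 5) (nat_lit 322) (nat_lit 313) (nat_lit 226)) (XT.lf (nat_lit 84) (nat_lit 7760903723) (nat_lit 0) (nat_lit 638371872) (nat_lit 1008) (nat_lit 2766442168) (nat_lit 109) (nat_lit 5) (nat_lit 108) (nat_lit 5) (nat_lit 120) (nat_lit 5) (nat_lit 323) (nat_lit 313) (nat_lit 225)))))) (XT.nd (nat_lit 564) (nat_lit 1512) (nat_lit 0) (XT.nd (nat_lit 282) (nat_lit 924) (nat_lit 0) (XT.nd (nat_lit 94) (nat_lit 0) (nat_lit 0) (XT.lf (nat_lit 84) (nat_lit 714059421)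 (nat_lit 0) (nat_lit 8575493678) (nat_lit 1008) (nat_lit 2049709563) (nat_lit 110) (nat_lit 5) (nat_lit 109) (nat_lit 5) (nat_lit 121) (nat_lit 5) (nat_lit 324) (nat_lit 313) (nat_lit 224)) (XT.nd (nat_lit 94) (nat_lit 0) (nat_lit 0) (XT.lf (nat_lit 84) (nat_lit 5012978103) (nat_lit 0) (nat_lit 5217904493) (nat_lit 1008) (nat_lit 1286684612) (nat_lit 110) (nat_lit 5) (nat_lit 109) (nat_lit 5) (nat_lit 121) (nat_lit 5) (nat_lit 325) (nat_lit 313) (nat_lit 223)) (XT.lf (nat_lit 84) (nat_lit 9432402029) (nat_lit 0) (nat_lit 1751000174) (nat_lit 1008) (nat_lit 518658314) (nat_lit 110) (nat_lit 5) (nat_lit 109) (nat_lit 5) (nat_lit 121) (nat_lit 5) (nat_lit 326) (nat_lit 313) (nat_lit 222)))) (XT.nd (nat_lit 94) (nat_lit 0) (nat_lit 0) (XT.lf (nat_lit 0) (nat_lit 289393943) (nat_lit 1008) (nat_lit 9786767542) (nat_lit 1092) (nat_lit 1815451735) (nat_lit 98) (nat_lit 5) (nat_lit 110) (nat_lit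 5) (nat_lit 111) (nat_lit 5) (nat_lit 327) (nat_lit 313) (nat_lit 221)) (XT.nd (nat_lit 94) (nat_lit 0) (nat_lit 0) (XT.lf (nat_lit 0) (nat_lit 1136289152) (nat_lit 1008) (nat_lit 5460074877) (nat_lit 1092) (nat_lit 5489846535) (nat_lit 98) (nat_lit 5) (nat_lit 110) (nat_lit 5) (nat_lit 111) (nat_lit 5) (nat_lit 328) (nat_lit 313) (nat_lit 220)) (XT.lf (nat_lit 0) (nat_lit 1992683110) (nat_lit 1008) (nat_lit 1012238934) (nat_lit 1092) (nat_lit 9282529477) (nat_lit 98) (nat_lit 5) (nat_lit 110) (nat_lit 5) (nat_lit 111) (nat_lit 5) (nat_lit 329) (nat_lit 313) (nat_lit 219))))) (XT.nd (nat_lit 282) (nat_lit 588) (nat_lit 0) (XT.nd (nat_lit 94) (nat_lit 1008) (nat_lit 0) (XT.lf (nat_lit 0) (nat_lit 2902752641) (nat_lit 1008) (nat_lit 8867628637) (nat_lit 84) (nat_lit 723797653) (nat_lit 99) (nat_lit 5) (nat_lit 111) (nat_lit 5) (nat_lit 100) (nat_lit 5) (nat_lit 330) (nat_lit 313) (nat_lit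 218)) (XT.nd (nat_lit 94) (nat_lit 1008) (nat_lit 0) (XT.lf (nat_lit 0) (nat_lit 3866589056) (nat_lit 1008) (nat_lit 4320306723) (nat_lit 84) (nat_lit 4519713174) (nat_lit 99) (nat_lit 5) (nat_lit 111) (nat_lit 5) (nat_lit 100) (nat_lit 5) (nat_lit 331) (nat_lit 313) (nat_lit 217)) (XT.lf (nat_lit 0) (nat_lit 362602106) (nat_lit 1008) (nat_lit 4485923682) (nat_lit 1092) (nat_lit 8077547320) (nat_lit 87) (nat_lit 5) (nat_lit 99) (nat_lit 5) (nat_lit 100) (nat_lit 5) (nat_lit 332) (nat_lit 313) (nat_lit 216)))) (XT.nd (nat_lit 94) (nat_lit 588) (nat_lit 0) (XT.lf (nat_lit 0) (nat_lit 5269712084) (nat_lit 1008) (nat_lit 621247690) (nat_lit 1092) (nat_lit 7260530251) (nat_lit 87) (nat_lit 5) (nat_lit 99) (nat_lit 5) (nat_lit 100) (nat_lit 5) (nat_lit 333) (nat_lit 313) (nat_lit 215)) (XT.nd (nat_lit 94) (nat_lit 588) (nat_lit 0) (XT.lf (nat_lit 0) (nat_lit 6984511007) (nat_lit 1092) (nat_lit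 3101050511) (nat_lit 84) (nat_lit 3297829204) (nat_lit 87) (nat_lit 5) (nat_lit 100) (nat_lit 5) (nat_lit 88) (nat_lit 5) (nat_lit 334) (nat_lit 313) (nat_lit 214)) (XT.lf (nat_lit 0) (nat_lit 1846374370) (nat_lit 588) (nat_lit 6276134069) (nat_lit 672) (nat_lit 5499721313) (nat_lit 80) (nat_lit 5) (nat_lit 87) (nat_lit 5) (nat_lit 88) (nat_lit 5) (nat_lit 335) (nat_lit 313) (nat_lit 213))))))) (XT.nd (nat_lit 1128) (nat_lit 1512) (nat_lit 0) (XT.nd (nat_lit 564) (nat_lit 840) (nat_lit 0) (XT.nd (nat_lit 282) (nat_lit 588) (nat_lit 0) (XT.nd (nat_lit 94) (nat_lit 504) (nat_lit 0) (XT.lf (nat_lit 0) (nat_lit 7000683587) (nat_lit 588) (nat_lit 2313648153) (nat_lit 672) (nat_lit 4553640114) (nat_lit 80) (nat_lit 5) (nat_lit 87) (nat_lit 5) (nat_lit 88) (nat_lit 5) (nat_lit 336) (nat_lit 313) (nat_lit 212)) (XT.nd (nat_lit 94) (nat_lit 504) (nat_lit 0) (XT.lf (nat_lit 0) (nat_lit 10547287034)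 (nat_lit 672) (nat_lit 1836492378) (nat_lit 84) (nat_lit 1737494621) (nat_lit 80) (nat_lit 5) (nat_lit 88) (nat_lit 5) (nat_lit 81) (nat_lit 5) (nat_lit 337) (nat_lit 313) (nat_lit 211)) (XT.lf (nat_lit 0) (nat_lit 3382760201) (nat_lit 504) (nat_lit 8479937157) (nat_lit 588) (nat_lit 2518429645) (nat_lit 74) (nat_lit 5) (nat_lit 80) (nat_lit 5) (nat_lit 81) (nat_lit 5) (nat_lit 338) (nat_lit 313) (nat_lit 210)))) (XT.nd (nat_lit 94) (nat_lit 588) (nat_lit 0) (XT.lf (nat_lit 0) (nat_lit 8790873786) (nat_lit 504) (nat_lit 4434466430) (nat_lit 588) (nat_lit 1423562667) (nat_lit 74) (nat_lit 5) (nat_lit 80) (nat_lit 5) (nat_lit 81) (nat_lit 5) (nat_lit 339) (nat_lit 313) (nat_lit 209)) (XT.nd (nat_lit 94) (nat_lit 588) (nat_lit 0) (XT.lf (nat_lit 0) (nat_lit 14355127255) (nat_lit 504) (nat_lit 262765641) (nat_lit 588) (nat_lit 307534750) (nat_lit 74) (nat_lit 5) (nat_lit 80) (nat_lit 5)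 (nat_lit 81) (nat_lit 5) (nat_lit 340) (nat_lit 313) (nat_lit 208)) (XT.lf (nat_lit 0) (nat_lit 903831700) (nat_lit 588) (nat_lit 10288363391) (nat_lit 84) (nat_lit 4015722398) (nat_lit 67) (nat_lit 5) (nat_lit 74) (nat_lit 5) (nat_lit 68) (nat_lit 5) (nat_lit 341) (nat_lit 313) (nat_lit 207))))) (XT.nd (nat_lit 282) (nat_lit 420) (nat_lit 0) (XT.nd (nat_lit 94) (nat_lit 420) (nat_lit 0) (XT.lf (nat_lit 0) (nat_lit 2143175277) (nat_lit 588) (nat_lit 4924984040) (nat_lit 84) (nat_lit 8431066291) (nat_lit 67) (nat_lit 5) (nat_lit 74) (nat_lit 5) (nat_lit 68) (nat_lit 5) (nat_lit 342) (nat_lit 313) (nat_lit 206)) (XT.nd (nat_lit 94) (nat_lit 0) (nat_lit 0) (XT.lf (nat_lit 0) (nat_lit 605418038) (nat_lit 420) (nat_lit 2809995602) (nat_lit 504) (nat_lit 12384379912) (nat_lit 62) (nat_lit 5) (nat_lit 67) (nat_lit 5) (nat_lit 68) (nat_lit 5) (nat_lit 343) (nat_lit 313) (nat_lit 205)) (XT.lf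 (nat_lit 0) (nat_lit 4783402794) (nat_lit 504) (nat_lit 9724347309) (nat_lit 84) (nat_lit 1600239602) (nat_lit 62) (nat_lit 5) (nat_lit 68) (nat_lit 5) (nat_lit 63) (nat_lit 5) (nat_lit 344) (nat_lit 313) (nat_lit 204)))) (XT.nd (nat_lit 94) (nat_lit 420) (nat_lit 0) (XT.lf (nat_lit 0) (nat_lit 6211582328) (nat_lit 504) (nat_lit 4124865377) (nat_lit 84) (nat_lit 6088795536) (nat_lit 62) (nat_lit 5) (nat_lit 68) (nat_lit 5) (nat_lit 63) (nat_lit 5) (nat_lit 345) (nat_lit 313) (nat_lit 203)) (XT.nd (nat_lit 94) (nat_lit 0) (nat_lit 0) (XT.lf (nat_lit 0) (nat_lit 1670828559) (nat_lit 420) (nat_lit 6019154216) (nat_lit 504) (nat_lit 9062217420) (nat_lit 57) (nat_lit 5) (nat_lit 62) (nat_lit 5) (nat_lit 63) (nat_lit 5) (nat_lit 346) (nat_lit 313) (nat_lit 202)) (XT.lf (nat_lit 0) (nat_lit 7722710305) (nat_lit 420) (nat_lit 1524142171) (nat_lit 504) (nat_lit 7841479868) (nat_lit 57) (nat_lit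 5) (nat_lit 62) (nat_lit 5) (nat_lit 63) (nat_lit 5) (nat_lit 347) (nat_lit 313) (nat_lit 201)))))) (XT.nd (nat_lit 564) (nat_lit 672) (nat_lit 0) (XT.nd (nat_lit 282) (nat_lit 504) (nat_lit 0) (XT.nd (nat_lit 94) (nat_lit 336) (nat_lit 0) (XT.lf (nat_lit 0) (nat_lit 10872730875) (nat_lit 504) (nat_lit 3514491259) (nat_lit 84) (nat_lit 3047069126) (nat_lit 57) (nat_lit 5) (nat_lit 63) (nat_lit 5) (nat_lit 58) (nat_lit 5) (nat_lit 348) (nat_lit 313) (nat_lit 200)) (XT.nd (nat_lit 94) (nat_lit 0) (nat_lit 0) (XT.lf (nat_lit 0) (nat_lit 2543048963) (nat_lit 336) (nat_lit 10036974235) (nat_lit 420) (nat_lit 5210038637) (nat_lit 53) (nat_lit 5) (nat_lit 57) (nat_lit 5) (nat_lit 58) (nat_lit 5) (nat_lit 349) (nat_lit 313) (nat_lit 199)) (XT.lf (nat_lit 0) (nat_lit 8852361868) (nat_lit 336) (nat_lit 5514950203) (nat_lit 420) (nat_lit 3788756883) (nat_lit 53) (nat_lit 5) (nat_lit 57) (nat_lit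 5) (nat_lit 58) (nat_lit 5) (nat_lit 350) (nat_lit 313) (nat_lit 198)))) (XT.nd (nat_lit 94) (nat_lit 504) (nat_lit 0) (XT.lf (nat_lit 0) (nat_lit 15347063248) (nat_lit 336) (nat_lit 853619119) (nat_lit 420) (nat_lit 2333074420) (nat_lit 53) (nat_lit 5) (nat_lit 57) (nat_lit 5) (nat_lit 58) (nat_lit 5) (nat_lit 351) (nat_lit 313) (nat_lit 197)) (XT.nd (nat_lit 94) (nat_lit 84) (nat_lit 0) (XT.lf (nat_lit 0) (nat_lit 3133667870) (nat_lit 420) (nat_lit 15018459500) (nat_lit 504) (nat_lit 769171191) (nat_lit 48) (nat_lit 5) (nat_lit 53) (nat_lit 5) (nat_lit 54) (nat_lit 5) (nat_lit 352) (nat_lit 313) (nat_lit 196)) (XT.lf (nat_lit 0) (nat_lit 859544070) (nat_lit 504) (nat_lit 9630074735) (nat_lit 84) (nat_lit 8829984558) (nat_lit 47) (nat_lit 5) (nat_lit 53) (nat_lit 5) (nat_lit 48) (nat_lit 5) (nat_lit 353) (nat_lit 313) (nat_lit 195))))) (XT.nd (nat_lit 282) (nat_lit 336) (nat_lit 0)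 (XT.nd (nat_lit 94) (nat_lit 336) (nat_lit 0) (XT.lf (nat_lit 0) (nat_lit 2514029664) (nat_lit 504) (nat_lit 3299523628) (nat_lit 84) (nat_lit 13916769673) (nat_lit 47) (nat_lit 5) (nat_lit 53) (nat_lit 5) (nat_lit 48) (nat_lit 5) (nat_lit 354) (nat_lit 313) (nat_lit 194)) (XT.nd (nat_lit 94) (nat_lit 0) (nat_lit 0) (XT.lf (nat_lit 0) (nat_lit 3283713139) (nat_lit 336) (nat_lit 960186528) (nat_lit 420) (nat_lit 15909167252) (nat_lit 43) (nat_lit 5) (nat_lit 47) (nat_lit 5) (nat_lit 48) (nat_lit 5) (nat_lit 355) (nat_lit 313) (nat_lit 193)) (XT.lf (nat_lit 0) (nat_lit 6093968599) (nat_lit 420) (nat_lit 10497240809) (nat_lit 84) (nat_lit 3995680595) (nat_lit 43) (nat_lit 5) (nat_lit 48) (nat_lit 5) (nat_lit 44) (nat_lit 5) (nat_lit 356) (nat_lit 313) (nat_lit 192)))) (XT.nd (nat_lit 188) (nat_lit 0) (nat_lit 0) (XT.nd (nat_lit 94) (nat_lit 336) (nat_lit 0) (XT.lf (nat_lit 0) (nat_lit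 8003127769) (nat_lit 420) (nat_lit 3947020288) (nat_lit 84) (nat_lit 9083996356) (nat_lit 43) (nat_lit 5) (nat_lit 48) (nat_lit 5) (nat_lit 44) (nat_lit 5) (nat_lit 357) (nat_lit 313) (nat_lit 191)) (XT.lf (nat_lit 0) (nat_lit 2854449235) (nat_lit 336) (nat_lit 7137498799) (nat_lit 420) (nat_lit 11502716471) (nat_lit 39) (nat_lit 5) (nat_lit 43) (nat_lit 5) (nat_lit 44) (nat_lit 5) (nat_lit 358) (nat_lit 313) (nat_lit 190))) (XT.nd (nat_lit 94) (nat_lit 0) (nat_lit 0) (XT.lf (nat_lit 0) (nat_lit 9941214786) (nat_lit 336) (nat_lit 2134710614) (nat_lit 420) (nat_lit 9892531222) (nat_lit 39) (nat_lit 5) (nat_lit 43) (nat_lit 5) (nat_lit 44) (nat_lit 5) (nat_lit 359) (nat_lit 313) (nat_lit 189)) (XT.lf (nat_lit 0) (nat_lit 14247017767) (nat_lit 420) (nat_lit 5248453458) (nat_lit 84) (nat_lit 2960800688) (nat_lit 39) (nat_lit 5) (nat_lit 44) (nat_lit 5) (nat_lit 40) (nat_lit 5) (nat_lit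 360) (nat_lit 313) (nat_lit 188))))))))
noncomputable def xc148 : XT := (XT.nd (nat_lit 2256) (nat_lit 672) (nat_lit 0) (XT.nd (nat_lit 1128) (nat_lit 672) (nat_lit 0) (XT.nd (nat_lit 564) (nat_lit 504) (nat_lit 0) (XT.nd (nat_lit 282) (nat_lit 420) (nat_lit 0) (XT.nd (nat_lit 94) (nat_lit 0) (nat_lit 0) (XT.lf (nat_lit 0) (nat_lit 1744879184) (nat_lit 252) (nat_lit 14772423700) (nat_lit 336) (nat_lit 6440950513) (nat_lit 36) (nat_lit 5) (nat_lit 39) (nat_lit 5) (nat_lit 40) (nat_lit 5) (nat_lit 361) (nat_lit 313) (nat_lit 187)) (XT.nd (nat_lit 94) (nat_lit 0) (nat_lit 0) (XT.lf (nat_lit 0) (nat_lit 9057439373) (nat_lit 252) (nat_lit 9848187461) (nat_lit 336) (nat_lit 4568723508) (nat_lit 36) (nat_lit 5) (nat_lit 39) (nat_lit 5) (nat_lit 40) (nat_lit 5) (nat_lit 362) (nat_lit 313) (nat_lit 186)) (XT.lf (nat_lit 0) (nat_lit 16588124213) (nat_lit 252) (nat_lit 4772955696) (nat_lit 336)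 (nat_lit 2645611110) (nat_lit 36) (nat_lit 5) (nat_lit 39) (nat_lit 5) (nat_lit 40) (nat_lit 5) (nat_lit 363) (nat_lit 313) (nat_lit 185)))) (XT.nd (nat_lit 94) (nat_lit 420) (nat_lit 0) (XT.lf (nat_lit 0) (nat_lit 23890494285) (nat_lit 336) (nat_lit 216361974) (nat_lit 84) (nat_lit 448774518) (nat_lit 36) (nat_lit 5) (nat_lit 40) (nat_lit 5) (nat_lit 37) (nat_lit 5) (nat_lit 364) (nat_lit 313) (nat_lit 184)) (XT.nd (nat_lit 94) (nat_lit 0) (nat_lit 0) (XT.lf (nat_lit 0) (nat_lit 1464848552) (nat_lit 420) (nat_lit 17833807546) (nat_lit 84) (nat_lit 5818944601) (nat_lit 31) (nat_lit 5) (nat_lit 36) (nat_lit 5) (nat_lit 32) (nat_lit 5) (nat_lit 365) (nat_lit 313) (nat_lit 183)) (XT.lf (nat_lit 0) (nat_lit 3642834903) (nat_lit 420) (nat_lit 10691056702) (nat_lit 84) (nat_lit 11363046799) (nat_lit 31) (nat_lit 5) (nat_lit 36) (nat_lit 5) (nat_lit 32) (nat_lit 5) (nat_lit 366) (nat_lit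 313) (nat_lit 182))))) (XT.nd (nat_lit 282) (nat_lit 252) (nat_lit 0) (XT.nd (nat_lit 94) (nat_lit 252) (nat_lit 0) (XT.lf (nat_lit 0) (nat_lit 5882040816) (nat_lit 420) (nat_lit 3334978539) (nat_lit 84) (nat_lit 17077437686) (nat_lit 31) (nat_lit 5) (nat_lit 36) (nat_lit 5) (nat_lit 32) (nat_lit 5) (nat_lit 367) (nat_lit 313) (nat_lit 181)) (XT.nd (nat_lit 94) (nat_lit 0) (nat_lit 0) (XT.lf (nat_lit 0) (nat_lit 4328493065) (nat_lit 252) (nat_lit 3898999586) (nat_lit 336) (nat_lit 18681889795) (nat_lit 28) (nat_lit 5) (nat_lit 31) (nat_lit 5) (nat_lit 32) (nat_lit 5) (nat_lit 368) (nat_lit 313) (nat_lit 180)) (XT.lf (nat_lit 0) (nat_lit 10690512443) (nat_lit 336) (nat_lit 15266095737) (nat_lit 84) (nat_lit 1585396403) (nat_lit 28) (nat_lit 5) (nat_lit 32) (nat_lit 5) (nat_lit 29) (nat_lit 5) (nat_lit 369) (nat_lit 313) (nat_lit 179)))) (XT.nd (nat_lit 94) (nat_lit 252) (nat_lit 0)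 (XT.lf (nat_lit 0) (nat_lit 13263924753) (nat_lit 336) (nat_lit 7772149599) (nat_lit 84) (nat_lit 7157132378) (nat_lit 28) (nat_lit 5) (nat_lit 32) (nat_lit 5) (nat_lit 29) (nat_lit 5) (nat_lit 370) (nat_lit 313) (nat_lit 178)) (XT.nd (nat_lit 94) (nat_lit 252) (nat_lit 0) (XT.lf (nat_lit 0) (nat_lit 15911449712) (nat_lit 336) (nat_lit 53387266) (nat_lit 84) (nat_lit 12899957932) (nat_lit 28) (nat_lit 5) (nat_lit 32) (nat_lit 5) (nat_lit 29) (nat_lit 5) (nat_lit 371) (nat_lit 313) (nat_lit 177)) (XT.lf (nat_lit 0) (nat_lit 8059772408) (nat_lit 252) (nat_lit 10655736623) (nat_lit 336) (nat_lit 10839407512) (nat_lit 25) (nat_lit 5) (nat_lit 28) (nat_lit 5) (nat_lit 29) (nat_lit 5) (nat_lit 372) (nat_lit 313) (nat_lit 176)))))) (XT.nd (nat_lit 564) (nat_lit 420) (nat_lit 0) (XT.nd (nat_lit 282) (nat_lit 84) (nat_lit 0) (XT.nd (nat_lit 94) (nat_lit 168) (nat_lit 0) (XT.lf (nat_lit 0) (nat_lit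 16418374683) (nat_lit 252) (nat_lit 5183277668) (nat_lit 336) (nat_lit 8664951528) (nat_lit 25) (nat_lit 5) (nat_lit 28) (nat_lit 5) (nat_lit 29) (nat_lit 5) (nat_lit 373) (nat_lit 313) (nat_lit 175)) (XT.nd (nat_lit 94) (nat_lit 168) (nat_lit 0) (XT.lf (nat_lit 0) (nat_lit 24576563687) (nat_lit 336) (nat_lit 5975958467) (nat_lit 84) (nat_lit 447874322) (nat_lit 25) (nat_lit 5) (nat_lit 29) (nat_lit 5) (nat_lit 26) (nat_lit 5) (nat_lit 374) (nat_lit 313) (nat_lit 174)) (XT.lf (nat_lit 0) (nat_lit 2123185315) (nat_lit 168) (nat_lit 25589490884) (nat_lit 252) (nat_lit 4042142640) (nat_lit 23) (nat_lit 5) (nat_lit 25) (nat_lit 5) (nat_lit 26) (nat_lit 5) (nat_lit 375) (nat_lit 313) (nat_lit 173)))) (XT.nd (nat_lit 94) (nat_lit 84) (nat_lit 0) (XT.lf (nat_lit 0) (nat_lit 10593227860) (nat_lit 168) (nat_lit 20410146171) (nat_lit 252) (nat_lit 1527495848) (nat_lit 23) (nat_lit 5) (nat_lit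 25) (nat_lit 5) (nat_lit 26) (nat_lit 5) (nat_lit 376) (nat_lit 313) (nat_lit 172)) (XT.nd (nat_lit 94) (nat_lit 0) (nat_lit 0) (XT.lf (nat_lit 0) (nat_lit 1038716609) (nat_lit 252) (nat_lit 14022478393) (nat_lit 84) (nat_lit 18269627494) (nat_lit 22) (nat_lit 5) (nat_lit 25) (nat_lit 5) (nat_lit 23) (nat_lit 5) (nat_lit 377) (nat_lit 313) (nat_lit 171)) (XT.lf (nat_lit 0) (nat_lit 3647971278) (nat_lit 252) (nat_lit 5884139298) (nat_lit 84) (nat_lit 24623145146) (nat_lit 22) (nat_lit 5) (nat_lit 25) (nat_lit 5) (nat_lit 23) (nat_lit 5) (nat_lit 378) (nat_lit 313) (nat_lit 170))))) (XT.nd (nat_lit 282) (nat_lit 168) (nat_lit 0) (XT.nd (nat_lit 94) (nat_lit 0) (nat_lit 0) (XT.lf (nat_lit 0) (nat_lit 2551521468) (nat_lit 252) (nat_lit 3807265834) (nat_lit 336) (nat_lit 28645835802) (nat_lit 19) (nat_lit 5) (nat_lit 22) (nat_lit 5) (nat_lit 23) (nat_lit 5) (nat_lit 379) (nat_lit 313) (nat_lit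 169)) (XT.nd (nat_lit 94) (nat_lit 0) (nat_lit 0) (XT.lf (nat_lit 0) (nat_lit 9231890808) (nat_lit 336) (nat_lit 24532850725) (nat_lit 84) (nat_lit 2113170628) (nat_lit 19) (nat_lit 5) (nat_lit 23) (nat_lit 5) (nat_lit 20) (nat_lit 5) (nat_lit 380) (nat_lit 313) (nat_lit 168)) (XT.lf (nat_lit 0) (nat_lit 12228560056) (nat_lit 336) (nat_lit 16412268332) (nat_lit 84) (nat_lit 8136391896) (nat_lit 19) (nat_lit 5) (nat_lit 23) (nat_lit 5) (nat_lit 20) (nat_lit 5) (nat_lit 381) (nat_lit 313) (nat_lit 167)))) (XT.nd (nat_lit 94) (nat_lit 168) (nat_lit 0) (XT.lf (nat_lit 0) (nat_lit 15313819708) (nat_lit 336) (nat_lit 8046016673) (nat_lit 84) (nat_lit 14344720164) (nat_lit 19) (nat_lit 5) (nat_lit 23) (nat_lit 5) (nat_lit 20) (nat_lit 5) (nat_lit 382) (nat_lit 313) (nat_lit 166)) (XT.nd (nat_lit 94) (nat_lit 0) (nat_lit 0) (XT.lf (nat_lit 0) (nat_lit 585498971) (nat_lit 168) (nat_lit 17910854800)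 (nat_lit 252) (nat_lit 20164251495) (nat_lit 17) (nat_lit 5) (nat_lit 19) (nat_lit 5) (nat_lit 20) (nat_lit 5) (nat_lit 383) (nat_lit 313) (nat_lit 165)) (XT.lf (nat_lit 0) (nat_lit 9649336206) (nat_lit 168) (nat_lit 12208085023) (nat_lit 252) (nat_lit 17786409284) (nat_lit 17) (nat_lit 5) (nat_lit 19) (nat_lit 5) (nat_lit 20) (nat_lit 5) (nat_lit 384) (nat_lit 313) (nat_lit 164))))))) (XT.nd (nat_lit 1128) (nat_lit 252) (nat_lit 0) (XT.nd (nat_lit 564) (nat_lit 252) (nat_lit 0) (XT.nd (nat_lit 282) (nat_lit 168) (nat_lit 0) (XT.nd (nat_lit 94) (nat_lit 0) (nat_lit 0) (XT.lf (nat_lit 0) (nat_lit 18988500872) (nat_lit 168) (nat_lit 6330195385) (nat_lit 252) (nat_lit 15338977720) (nat_lit 17) (nat_lit 5) (nat_lit 19) (nat_lit 5) (nat_lit 20) (nat_lit 5) (nat_lit 385) (nat_lit 313) (nat_lit 163)) (XT.nd (nat_lit 94) (nat_lit 0) (nat_lit 0) (XT.lf (nat_lit 0) (nat_lit 28611698049) (nat_lit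 168) (nat_lit 271707077) (nat_lit 252) (nat_lit 12819675540) (nat_lit 17) (nat_lit 5) (nat_lit 19) (nat_lit 5) (nat_lit 20) (nat_lit 5) (nat_lit 386) (nat_lit 313) (nat_lit 162)) (XT.lf (nat_lit 0) (nat_lit 32614123686) (nat_lit 252) (nat_lit 4312380612) (nat_lit 84) (nat_lit 5852683862) (nat_lit 17) (nat_lit 5) (nat_lit 20) (nat_lit 5) (nat_lit 18) (nat_lit 5) (nat_lit 387) (nat_lit 313) (nat_lit 161)))) (XT.nd (nat_lit 94) (nat_lit 0) (nat_lit 0) (XT.lf (nat_lit 0) (nat_lit 4827996945) (nat_lit 168) (nat_lit 31679519033) (nat_lit 252) (nat_lit 7379694741) (nat_lit 15) (nat_lit 5) (nat_lit 17) (nat_lit 5) (nat_lit 18) (nat_lit 5) (nat_lit 388) (nat_lit 313) (nat_lit 160)) (XT.nd (nat_lit 94) (nat_lit 0) (nat_lit 0) (XT.lf (nat_lit 0) (nat_lit 14337931779) (nat_lit 168) (nat_lit 26225090338) (nat_lit 252) (nat_lit 4465288874) (nat_lit 15) (nat_lit 5) (nat_lit 17) (nat_lit 5) (nat_lit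 18) (nat_lit 5) (nat_lit 389) (nat_lit 313) (nat_lit 159)) (XT.lf (nat_lit 0) (nat_lit 24137616755) (nat_lit 168) (nat_lit 20603146525) (nat_lit 252) (nat_lit 1464142752) (nat_lit 15) (nat_lit 5) (nat_lit 17) (nat_lit 5) (nat_lit 18) (nat_lit 5) (nat_lit 390) (nat_lit 313) (nat_lit 158))))) (XT.nd (nat_lit 282) (nat_lit 0) (nat_lit 0) (XT.nd (nat_lit 94) (nat_lit 168) (nat_lit 0) (XT.lf (nat_lit 0) (nat_lit 1593769830) (nat_lit 252) (nat_lit 13198041835) (nat_lit 84) (nat_lit 32625780686) (nat_lit 14) (nat_lit 5) (nat_lit 17) (nat_lit 5) (nat_lit 15) (nat_lit 5) (nat_lit 391) (nat_lit 313) (nat_lit 157)) (XT.nd (nat_lit 94) (nat_lit 168) (nat_lit 0) (XT.lf (nat_lit 0) (nat_lit 4712739652) (nat_lit 252) (nat_lit 4073660568) (nat_lit 84) (nat_lit 39881122065) (nat_lit 14) (nat_lit 5) (nat_lit 17) (nat_lit 5) (nat_lit 15) (nat_lit 5) (nat_lit 392) (nat_lit 313) (nat_lit 156)) (XT.lf (nat_lit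 0) (nat_lit 5438456660) (nat_lit 168) (nat_lit 2540666636) (nat_lit 252) (nat_lit 41975515407) (nat_lit 12) (nat_lit 5) (nat_lit 14) (nat_lit 5) (nat_lit 15) (nat_lit 5) (nat_lit 393) (nat_lit 313) (nat_lit 155)))) (XT.nd (nat_lit 94) (nat_lit 0) (nat_lit 0) (XT.lf (nat_lit 0) (nat_lit 11425207685) (nat_lit 252) (nat_lit 35992378655) (nat_lit 84) (nat_lit 3861648482) (nat_lit 12) (nat_lit 5) (nat_lit 15) (nat_lit 5) (nat_lit 13) (nat_lit 5) (nat_lit 394) (nat_lit 313) (nat_lit 154)) (XT.nd (nat_lit 94) (nat_lit 0) (nat_lit 0) (XT.lf (nat_lit 0) (nat_lit 15001013459) (nat_lit 252) (nat_lit 27234919622) (nat_lit 84) (nat_lit 10408261158) (nat_lit 12) (nat_lit 5) (nat_lit 15) (nat_lit 5) (nat_lit 13) (nat_lit 5) (nat_lit 395) (nat_lit 313) (nat_lit 153)) (XT.lf (nat_lit 0) (nat_lit 18684669918) (nat_lit 252) (nat_lit 18210438346) (nat_lit 84) (nat_lit 17156462290) (nat_lit 12) (nat_lit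 5) (nat_lit 15) (nat_lit 5) (nat_lit 13) (nat_lit 5) (nat_lit 396) (nat_lit 313) (nat_lit 152)))))) (XT.nd (nat_lit 564) (nat_lit 84) (nat_lit 0) (XT.nd (nat_lit 282) (nat_lit 0) (nat_lit 0) (XT.nd (nat_lit 94) (nat_lit 168) (nat_lit 0) (XT.lf (nat_lit 0) (nat_lit 22479610615) (nat_lit 252) (nat_lit 8910523067) (nat_lit 84) (nat_lit 24112541908) (nat_lit 12) (nat_lit 5) (nat_lit 15) (nat_lit 5) (nat_lit 13) (nat_lit 5) (nat_lit 397) (nat_lit 313) (nat_lit 151)) (XT.nd (nat_lit 94) (nat_lit 0) (nat_lit 0) (XT.lf (nat_lit 0) (nat_lit 687343142) (nat_lit 168) (nat_lit 25708848219) (nat_lit 252) (nat_lit 30602459194) (nat_lit 10) (nat_lit 5) (nat_lit 12) (nat_lit 5) (nat_lit 13) (nat_lit 5) (nat_lit 398) (nat_lit 313) (nat_lit 150)) (XT.lf (nat_lit 0) (nat_lit 10767489206) (nat_lit 168) (nat_lit 19756926498) (nat_lit 252) (nat_lit 28013797210) (nat_lit 10) (nat_lit 5) (nat_lit 12) (nat_lit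 5) (nat_lit 13) (nat_lit 5) (nat_lit 399) (nat_lit 313) (nat_lit 149)))) (XT.nd (nat_lit 94) (nat_lit 0) (nat_lit 0) (XT.lf (nat_lit 0) (nat_lit 21156092247) (nat_lit 168) (nat_lit 13621828291) (nat_lit 252) (nat_lit 25347673706) (nat_lit 10) (nat_lit 5) (nat_lit 12) (nat_lit 5) (nat_lit 13) (nat_lit 5) (nat_lit 400) (nat_lit 313) (nat_lit 148)) (XT.nd (nat_lit 94) (nat_lit 0) (nat_lit 0) (XT.lf (nat_lit 0) (nat_lit 31862835531) (nat_lit 168) (nat_lit 7297835044) (nat_lit 252) (nat_lit 22601603576) (nat_lit 10) (nat_lit 5) (nat_lit 12) (nat_lit 5) (nat_lit 13) (nat_lit 5) (nat_lit 401) (nat_lit 313) (nat_lit 147)) (XT.lf (nat_lit 0) (nat_lit 42897698863) (nat_lit 168) (nat_lit 779052131) (nat_lit 252) (nat_lit 19773027193) (nat_lit 10) (nat_lit 5) (nat_lit 12) (nat_lit 5) (nat_lit 13) (nat_lit 5) (nat_lit 402) (nat_lit 313) (nat_lit 146))))) (XT.nd (nat_lit 282) (nat_lit 0) (nat_lit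 0) (XT.nd (nat_lit 94) (nat_lit 84) (nat_lit 0) (XT.lf (nat_lit 0) (nat_lit 48389302715) (nat_lit 252) (nat_lit 10977642850) (nat_lit 84) (nat_lit 5820906850) (nat_lit 10) (nat_lit 5) (nat_lit 13) (nat_lit 5) (nat_lit 11) (nat_lit 4) (nat_lit 403) (nat_lit 313) (nat_lit 145)) (XT.nd (nat_lit 94) (nat_lit 84) (nat_lit 0) (XT.lf (nat_lit 0) (nat_lit 53253514982) (nat_lit 252) (nat_lit 1118001475) (nat_lit 84) (nat_lit 12608125744) (nat_lit 10) (nat_lit 5) (nat_lit 13) (nat_lit 5) (nat_lit 11) (nat_lit 4) (nat_lit 404) (nat_lit 313) (nat_lit 144)) (XT.lf (nat_lit 0) (nat_lit 9229721634) (nat_lit 84) (nat_lit 49128031806) (nat_lit 168) (nat_lit 10466465460) (nat_lit 9) (nat_lit 5) (nat_lit 10) (nat_lit 5) (nat_lit 11) (nat_lit 4) (nat_lit 405) (nat_lit 313) (nat_lit 143)))) (XT.nd (nat_lit 94) (nat_lit 0) (nat_lit 0) (XT.lf (nat_lit 0) (nat_lit 19918435427) (nat_lit 84) (nat_lit 43711168405)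 (nat_lit 168) (nat_lit 7096090348) (nat_lit 9) (nat_lit 5) (nat_lit 10) (nat_lit 5) (nat_lit 11) (nat_lit 4) (nat_lit 406) (nat_lit 313) (nat_lit 142)) (XT.nd (nat_lit 94) (nat_lit 0) (nat_lit 0) (XT.lf (nat_lit 0) (nat_lit 30935114501) (nat_lit 84) (nat_lit 38127546813) (nat_lit 168) (nat_lit 3623529984) (nat_lit 9) (nat_lit 5) (nat_lit 10) (nat_lit 5) (nat_lit 11) (nat_lit 4) (nat_lit 407) (nat_lit 313) (nat_lit 141)) (XT.lf (nat_lit 0) (nat_lit 42290027553) (nat_lit 84) (nat_lit 32371962511) (nat_lit 168) (nat_lit 45547578) (nat_lit 9) (nat_lit 5) (nat_lit 10) (nat_lit 5) (nat_lit 11) (nat_lit 4) (nat_lit 408) (nat_lit 313) (nat_lit 140))))))))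
noncomputable def xc149 : XT := (XT.nd (nat_lit 46624) (nat_lit 0) (nat_lit 3444) (XT.nd (nat_lit 45496) (nat_lit 0) (nat_lit 7644) (XT.nd (nat_lit 564) (nat_lit 0) (nat_lit 0) (XT.nd (nat_lit 282) (nat_lit 168) (nat_lit 0) (XT.nd (nat_lit 94) (nat_lit 0) (nat_lit 0) (XT.lf (nat_lit 0) (nat_lit 3567830022) (nat_lit 168) (nat_lit 22833979841) (nat_lit 84) (nat_lit 50388687703) (nat_lit 8) (nat_lit 5) (nat_lit 10) (nat_lit 5) (nat_lit 9) (nat_lit 5) (nat_lit 409) (nat_lit 313) (nat_lit 139)) (XT.nd (nat_lit 94) (nat_lit 0) (nat_lit 0) (XT.lf (nat_lit 0) (nat_lit 7290223015) (nat_lit 168) (nat_lit 12956963266) (nat_lit 84) (nat_lit 58690898612) (nat_lit 8) (nat_lit 5) (nat_lit 10) (nat_lit 5) (nat_lit 9) (nat_lit 5) (nat_lit 410) (nat_lit 313) (nat_lit 138)) (XT.lf (nat_lit 0) (nat_lit 11126018743) (nat_lit 168) (nat_lit 2776802112) (nat_lit 84) (nat_lit 67249494552) (nat_lit 8) (nat_lit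 5) (nat_lit 10) (nat_lit 5) (nat_lit 9) (nat_lit 5) (nat_lit 411) (nat_lit 313) (nat_lit 137)))) (XT.nd (nat_lit 94) (nat_lit 0) (nat_lit 0) (XT.lf (nat_lit 0) (nat_lit 7874649228) (nat_lit 168) (nat_lit 7282260837) (nat_lit 252) (nat_lit 68275921298) (nat_lit 6) (nat_lit 5) (nat_lit 8) (nat_lit 5) (nat_lit 9) (nat_lit 5) (nat_lit 412) (nat_lit 313) (nat_lit 136)) (XT.nd (nat_lit 94) (nat_lit 0) (nat_lit 0) (XT.lf (nat_lit 0) (nat_lit 18912240745) (nat_lit 168) (nat_lit 427599917) (nat_lit 252) (nat_lit 66443368993) (nat_lit 6) (nat_lit 5) (nat_lit 8) (nat_lit 5) (nat_lit 9) (nat_lit 5) (nat_lit 413) (nat_lit 313) (nat_lit 135)) (XT.lf (nat_lit 0) (nat_lit 23716452248) (nat_lit 252) (nat_lit 57983204101) (nat_lit 84) (nat_lit 6504814713) (nat_lit 6) (nat_lit 5) (nat_lit 9) (nat_lit 5) (nat_lit 7) (nat_lit 4) (nat_lit 414) (nat_lit 313) (nat_lit 134))))) (XT.nd (nat_lit 44650) (nat_lit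 0) (nat_lit 8400) (XT.nd (nat_lit 94) (nat_lit 0) (nat_lit 0) (XT.lf (nat_lit 0) (nat_lit 28231312835) (nat_lit 252) (nat_lit 48827091935) (nat_lit 84) (nat_lit 13642312532) (nat_lit 6) (nat_lit 5) (nat_lit 9) (nat_lit 5) (nat_lit 7) (nat_lit 4) (nat_lit 415) (nat_lit 313) (nat_lit 133)) (XT.nd (nat_lit 44462) (nat_lit 0) (nat_lit 8400) (XT.lf (nat_lit 0) (nat_lit 32884388905) (nat_lit 252) (nat_lit 39389856112) (nat_lit 84) (nat_lit 21000161622) (nat_lit 6) (nat_lit 5) (nat_lit 9) (nat_lit 5) (nat_lit 7) (nat_lit 4) (nat_lit 416) (nat_lit 313) (nat_lit 132)) (XT.lf (nat_lit 0) (nat_lit 563906760) (nat_lit 0) (nat_lit 563906760) (nat_lit 924) (nat_lit 3846873461) (nat_lit 106) (nat_lit 5) (nat_lit 106) (nat_lit 3) (nat_lit 117) (nat_lit 3) (nat_lit 314) (nat_lit 314) (nat_lit 233)))) (XT.nd (nat_lit 94) (nat_lit 0) (nat_lit 0) (XT.lf (nat_lit 0) (nat_lit 2892181434) (nat_lit 924) (nat_lit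 5329651530) (nat_lit 1008) (nat_lit 1859722988) (nat_lit 106) (nat_lit 5) (nat_lit 117) (nat_lit 3) (nat_lit 118) (nat_lit 5) (nat_lit 315) (nat_lit 314) (nat_lit 232)) (XT.nd (nat_lit 94) (nat_lit 0) (nat_lit 0) (XT.lf (nat_lit 0) (nat_lit 3536637570) (nat_lit 924) (nat_lit 1753750519) (nat_lit 1008) (nat_lit 4927950626) (nat_lit 106) (nat_lit 5) (nat_lit 117) (nat_lit 3) (nat_lit 118) (nat_lit 5) (nat_lit 316) (nat_lit 314) (nat_lit 231)) (XT.lf (nat_lit 84) (nat_lit 1960156539) (nat_lit 0) (nat_lit 2237696558) (nat_lit 1008) (nat_lit 6161740686) (nat_lit 107) (nat_lit 5) (nat_lit 106) (nat_lit 5) (nat_lit 118) (nat_lit 5) (nat_lit 317) (nat_lit 314) (nat_lit 230)))))) (XT.nd (nat_lit 564) (nat_lit 840) (nat_lit 0) (XT.nd (nat_lit 282) (nat_lit 0) (nat_lit 84) (XT.nd (nat_lit 94) (nat_lit 0) (nat_lit 0) (XT.lf (nat_lit 0) (nat_lit 4885077344) (nat_lit 924) (nat_lit 4700624157) (nat_lit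 1008) (nat_lit 919483696) (nat_lit 107) (nat_lit 5) (nat_lit 118) (nat_lit 5) (nat_lit 119) (nat_lit 5) (nat_lit 318) (nat_lit 314) (nat_lit 229)) (XT.nd (nat_lit 94) (nat_lit 0) (nat_lit 0) (XT.lf (nat_lit 0) (nat_lit 5595148200) (nat_lit 924) (nat_lit 922765884) (nat_lit 1008) (nat_lit 4137452462) (nat_lit 107) (nat_lit 5) (nat_lit 118) (nat_lit 5) (nat_lit 119) (nat_lit 5) (nat_lit 319) (nat_lit 314) (nat_lit 228)) (XT.lf (nat_lit 84) (nat_lit 3020717896) (nat_lit 0) (nat_lit 3315777300) (nat_lit 1008) (nat_lit 4473541822) (nat_lit 108) (nat_lit 5) (nat_lit 107) (nat_lit 5) (nat_lit 119) (nat_lit 5) (nat_lit 320) (nat_lit 314) (nat_lit 227)))) (XT.nd (nat_lit 94) (nat_lit 0) (nat_lit 0) (XT.lf (nat_lit 0) (nat_lit 7090290030) (nat_lit 924) (nat_lit 3876194003) (nat_lit 1008) (nat_lit 3461848) (nat_lit 108) (nat_lit 5) (nat_lit 119) (nat_lit 5) (nat_lit 120) (nat_lit 5) (nat_lit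 321) (nat_lit 314) (nat_lit 226)) (XT.nd (nat_lit 94) (nat_lit 0) (nat_lit 0) (XT.lf (nat_lit 84) (nat_lit 113967637) (nat_lit 0) (nat_lit 7769011437) (nat_lit 1008) (nat_lit 3251465056) (nat_lit 109) (nat_lit 5) (nat_lit 108) (nat_lit 5) (nat_lit 120) (nat_lit 5) (nat_lit 322) (nat_lit 314) (nat_lit 225)) (XT.lf (nat_lit 84) (nat_lit 4297471724) (nat_lit 0) (nat_lit 4424175231) (nat_lit 1008) (nat_lit 2581841420) (nat_lit 109) (nat_lit 5) (nat_lit 108) (nat_lit 5) (nat_lit 120) (nat_lit 5) (nat_lit 323) (nat_lit 314) (nat_lit 224))))) (XT.nd (nat_lit 282) (nat_lit 924) (nat_lit 0) (XT.nd (nat_lit 94) (nat_lit 0) (nat_lit 84) (XT.lf (nat_lit 84) (nat_lit 8598515224) (nat_lit 0) (nat_lit 969317194) (nat_lit 1008) (nat_lit 1910620299) (nat_lit 109) (nat_lit 5) (nat_lit 108) (nat_lit 5) (nat_lit 120) (nat_lit 5) (nat_lit 324) (nat_lit 314) (nat_lit 223)) (XT.nd (nat_lit 94) (nat_lit 0)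 (nat_lit 0) (XT.lf (nat_lit 84) (nat_lit 1363294004) (nat_lit 0) (nat_lit 9098334485) (nat_lit 1008) (nat_lit 1196653318) (nat_lit 110) (nat_lit 5) (nat_lit 109) (nat_lit 5) (nat_lit 121) (nat_lit 5) (nat_lit 325) (nat_lit 314) (nat_lit 222)) (XT.lf (nat_lit 84) (nat_lit 5776623626) (nat_lit 0) (nat_lit 5628932571) (nat_lit 1008) (nat_lit 437534744) (nat_lit 110) (nat_lit 5) (nat_lit 109) (nat_lit 5) (nat_lit 121) (nat_lit 5) (nat_lit 326) (nat_lit 314) (nat_lit 221)))) (XT.nd (nat_lit 94) (nat_lit 0) (nat_lit 84) (XT.lf (nat_lit 0) (nat_lit 320969111) (nat_lit 1008) (nat_lit 1722739732) (nat_lit 1092) (nat_lit 9990441730) (nat_lit 97) (nat_lit 5) (nat_lit 109) (nat_lit 5) (nat_lit 110) (nat_lit 5) (nat_lit 327) (nat_lit 314) (nat_lit 220)) (XT.nd (nat_lit 94) (nat_lit 0) (nat_lit 0) (XT.lf (nat_lit 0) (nat_lit 1121721268) (nat_lit 1008) (nat_lit 9452102159) (nat_lit 1092) (nat_lit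 1656400070) (nat_lit 98) (nat_lit 5) (nat_lit 110) (nat_lit 5) (nat_lit 111) (nat_lit 5) (nat_lit 328) (nat_lit 314) (nat_lit 219)) (XT.lf (nat_lit 0) (nat_lit 1970113643) (nat_lit 1008) (nat_lit 5010466997) (nat_lit 1092) (nat_lit 5451175649) (nat_lit 98) (nat_lit 5) (nat_lit 110) (nat_lit 5) (nat_lit 111) (nat_lit 5) (nat_lit 329) (nat_lit 314) (nat_lit 218))))))) (XT.nd (nat_lit 1128) (nat_lit 2184) (nat_lit 0) (XT.nd (nat_lit 564) (nat_lit 1176) (nat_lit 0) (XT.nd (nat_lit 282) (nat_lit 924) (nat_lit 0) (XT.nd (nat_lit 94) (nat_lit 0) (nat_lit 84) (XT.lf (nat_lit 0) (nat_lit 2829043607) (nat_lit 1008) (nat_lit 443356265) (nat_lit 1092) (nat_lit 9367711626) (nat_lit 98) (nat_lit 5) (nat_lit 110) (nat_lit 5) (nat_lit 111) (nat_lit 5) (nat_lit 330) (nat_lit 314) (nat_lit 217)) (XT.nd (nat_lit 94) (nat_lit 0) (nat_lit 0) (XT.lf (nat_lit 0) (nat_lit 3748312426) (nat_lit 1008) (nat_lit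 8519138820) (nat_lit 84) (nat_lit 586513062) (nat_lit 99) (nat_lit 5) (nat_lit 111) (nat_lit 5) (nat_lit 100) (nat_lit 5) (nat_lit 331) (nat_lit 314) (nat_lit 216)) (XT.lf (nat_lit 0) (nat_lit 4719309236) (nat_lit 1008) (nat_lit 3849593841) (nat_lit 84) (nat_lit 4504904478) (nat_lit 99) (nat_lit 5) (nat_lit 111) (nat_lit 5) (nat_lit 100) (nat_lit 5) (nat_lit 332) (nat_lit 314) (nat_lit 215)))) (XT.nd (nat_lit 94) (nat_lit 0) (nat_lit 0) (XT.lf (nat_lit 0) (nat_lit 972363700) (nat_lit 1008) (nat_lit 4743224273) (nat_lit 1092) (nat_lit 7585106067) (nat_lit 87) (nat_lit 5) (nat_lit 99) (nat_lit 5) (nat_lit 100) (nat_lit 5) (nat_lit 333) (nat_lit 314) (nat_lit 214)) (XT.nd (nat_lit 94) (nat_lit 0) (nat_lit 0) (XT.lf (nat_lit 0) (nat_lit 6013597824) (nat_lit 1008) (nat_lit 755188189) (nat_lit 1092) (nat_lit 6765097262) (nat_lit 87) (nat_lit 5) (nat_lit 99) (nat_lit 5) (nat_lit 100) (nat_lit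 5) (nat_lit 334) (nat_lit 314) (nat_lit 213)) (XT.lf (nat_lit 0) (nat_lit 7874230487) (nat_lit 1092) (nat_lit 2608467980) (nat_lit 84) (nat_lit 3291069439) (nat_lit 87) (nat_lit 5) (nat_lit 100) (nat_lit 5) (nat_lit 88) (nat_lit 5) (nat_lit 335) (nat_lit 314) (nat_lit 212))))) (XT.nd (nat_lit 282) (nat_lit 588) (nat_lit 0) (XT.nd (nat_lit 94) (nat_lit 0) (nat_lit 0) (XT.lf (nat_lit 0) (nat_lit 2486366861) (nat_lit 588) (nat_lit 6546678284) (nat_lit 672) (nat_lit 4987523493) (nat_lit 80) (nat_lit 5) (nat_lit 87) (nat_lit 5) (nat_lit 88) (nat_lit 5) (nat_lit 336) (nat_lit 314) (nat_lit 211)) (XT.nd (nat_lit 94) (nat_lit 0) (nat_lit 0) (XT.lf (nat_lit 0) (nat_lit 7782937450) (nat_lit 588) (nat_lit 2459070623) (nat_lit 672) (nat_lit 4032640804) (nat_lit 80) (nat_lit 5) (nat_lit 87) (nat_lit 5) (nat_lit 88) (nat_lit 5) (nat_lit 337) (nat_lit 314) (nat_lit 210)) (XT.lf (nat_lit 0) (nat_lit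 11493264516) (nat_lit 672) (nat_lit 1321945578) (nat_lit 84) (nat_lit 1721313793) (nat_lit 80) (nat_lit 5) (nat_lit 88) (nat_lit 5) (nat_lit 81) (nat_lit 5) (nat_lit 338) (nat_lit 314) (nat_lit 209)))) (XT.nd (nat_lit 94) (nat_lit 84) (nat_lit 0) (XT.lf (nat_lit 0) (nat_lit 4053318129) (nat_lit 504) (nat_lit 8783133794) (nat_lit 588) (nat_lit 1968483230) (nat_lit 74) (nat_lit 5) (nat_lit 80) (nat_lit 5) (nat_lit 81) (nat_lit 5) (nat_lit 339) (nat_lit 314) (nat_lit 208)) (XT.nd (nat_lit 94) (nat_lit 84) (nat_lit 0) (XT.lf (nat_lit 0) (nat_lit 9612074056) (nat_lit 504) (nat_lit 4611041179) (nat_lit 588) (nat_lit 858558547) (nat_lit 74) (nat_lit 5) (nat_lit 80) (nat_lit 5) (nat_lit 81) (nat_lit 5) (nat_lit 340) (nat_lit 314) (nat_lit 207)) (XT.lf (nat_lit 0) (nat_lit 268235371) (nat_lit 588) (nat_lit 37806624) (nat_lit 84) (nat_lit 15061286436) (nat_lit 73) (nat_lit 5) (nat_lit 80) (nat_lit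 5) (nat_lit 74) (nat_lit 5) (nat_lit 341) (nat_lit 314) (nat_lit 206)))))) (XT.nd (nat_lit 564) (nat_lit 840) (nat_lit 0) (XT.nd (nat_lit 282) (nat_lit 420) (nat_lit 0) (XT.nd (nat_lit 94) (nat_lit 420) (nat_lit 0) (XT.lf (nat_lit 0) (nat_lit 1498478956) (nat_lit 588) (nat_lit 10045137685) (nat_lit 84) (nat_lit 4115330567) (nat_lit 67) (nat_lit 5) (nat_lit 74) (nat_lit 5) (nat_lit 68) (nat_lit 5) (nat_lit 342) (nat_lit 314) (nat_lit 205)) (XT.nd (nat_lit 94) (nat_lit 420) (nat_lit 0) (XT.lf (nat_lit 0) (nat_lit 2759204858) (nat_lit 588) (nat_lit 4532396692) (nat_lit 84) (nat_lit 8668298187) (nat_lit 67) (nat_lit 5) (nat_lit 74) (nat_lit 5) (nat_lit 68) (nat_lit 5) (nat_lit 343) (nat_lit 314) (nat_lit 204)) (XT.lf (nat_lit 0) (nat_lit 1163927564) (nat_lit 420) (nat_lit 2895784300) (nat_lit 504) (nat_lit 12210502839) (nat_lit 62) (nat_lit 5) (nat_lit 67) (nat_lit 5) (nat_lit 68) (nat_lit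 5) (nat_lit 344) (nat_lit 314) (nat_lit 203)))) (XT.nd (nat_lit 94) (nat_lit 420) (nat_lit 0) (XT.lf (nat_lit 0) (nat_lit 5453932226) (nat_lit 504) (nat_lit 9483512153) (nat_lit 84) (nat_lit 1651102653) (nat_lit 62) (nat_lit 5) (nat_lit 68) (nat_lit 5) (nat_lit 63) (nat_lit 5) (nat_lit 345) (nat_lit 314) (nat_lit 202)) (XT.nd (nat_lit 94) (nat_lit 420) (nat_lit 0) (XT.lf (nat_lit 0) (nat_lit 6910682549) (nat_lit 504) (nat_lit 3726751798) (nat_lit 84) (nat_lit 6278766067) (nat_lit 62) (nat_lit 5) (nat_lit 68) (nat_lit 5) (nat_lit 63) (nat_lit 5) (nat_lit 346) (nat_lit 314) (nat_lit 201)) (XT.lf (nat_lit 0) (nat_lit 2243283531) (nat_lit 420) (nat_lit 6181564257) (nat_lit 504) (nat_lit 8828833128) (nat_lit 57) (nat_lit 5) (nat_lit 62) (nat_lit 5) (nat_lit 63) (nat_lit 5) (nat_lit 347) (nat_lit 314) (nat_lit 200))))) (XT.nd (nat_lit 282) (nat_lit 504) (nat_lit 0) (XT.nd (nat_lit 94) (nat_lit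 336) (nat_lit 0) (XT.lf (nat_lit 0) (nat_lit 8467118482) (nat_lit 420) (nat_lit 1547933992) (nat_lit 504) (nat_lit 7585717023) (nat_lit 57) (nat_lit 5) (nat_lit 62) (nat_lit 5) (nat_lit 63) (nat_lit 5) (nat_lit 348) (nat_lit 314) (nat_lit 199)) (XT.nd (nat_lit 94) (nat_lit 336) (nat_lit 0) (XT.lf (nat_lit 0) (nat_lit 11677079678) (nat_lit 504) (nat_lit 3117065498) (nat_lit 84) (nat_lit 3163821177) (nat_lit 57) (nat_lit 5) (nat_lit 63) (nat_lit 5) (nat_lit 58) (nat_lit 5) (nat_lit 349) (nat_lit 314) (nat_lit 198)) (XT.lf (nat_lit 0) (nat_lit 3123131879) (nat_lit 336) (nat_lit 10305088079) (nat_lit 420) (nat_lit 4896896490) (nat_lit 53) (nat_lit 5) (nat_lit 57) (nat_lit 5) (nat_lit 58) (nat_lit 5) (nat_lit 350) (nat_lit 314) (nat_lit 197)))) (XT.nd (nat_lit 188) (nat_lit 504) (nat_lit 0) (XT.nd (nat_lit 94) (nat_lit 0) (nat_lit 0) (XT.lf (nat_lit 0) (nat_lit 9612962000) (nat_lit 336)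 (nat_lit 5644175194) (nat_lit 420) (nat_lit 3445826828) (nat_lit 53) (nat_lit 5) (nat_lit 57) (nat_lit 5) (nat_lit 58) (nat_lit 5) (nat_lit 351) (nat_lit 314) (nat_lit 196)) (XT.lf (nat_lit 0) (nat_lit 16294380806) (nat_lit 336) (nat_lit 839597834) (nat_lit 420) (nat_lit 1958860912) (nat_lit 53) (nat_lit 5) (nat_lit 57) (nat_lit 5) (nat_lit 58) (nat_lit 5) (nat_lit 352) (nat_lit 314) (nat_lit 195))) (XT.nd (nat_lit 94) (nat_lit 84) (nat_lit 0) (XT.lf (nat_lit 0) (nat_lit 3712505668) (nat_lit 420) (nat_lit 15425619240) (nat_lit 504) (nat_lit 354574967) (nat_lit 48) (nat_lit 5) (nat_lit 53) (nat_lit 5) (nat_lit 54) (nat_lit 5) (nat_lit 353) (nat_lit 314) (nat_lit 194)) (XT.lf (nat_lit 0) (nat_lit 1302879492) (nat_lit 504) (nat_lit 9450911949) (nat_lit 84) (nat_lit 9149885706) (nat_lit 47) (nat_lit 5) (nat_lit 53) (nat_lit 5) (nat_lit 48) (nat_lit 5) (nat_lit 354) (nat_lit 314) (nat_lit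 193))))))))
noncomputable def xc150 : XT := (XT.nd (nat_lit 2256) (nat_lit 1008) (nat_lit 0) (XT.nd (nat_lit 1128) (nat_lit 756) (nat_lit 0) (XT.nd (nat_lit 564) (nat_lit 672) (nat_lit 0) (XT.nd (nat_lit 282) (nat_lit 336) (nat_lit 0) (XT.nd (nat_lit 94) (nat_lit 336) (nat_lit 0) (XT.lf (nat_lit 0) (nat_lit 2996125160) (nat_lit 504) (nat_lit 2938477044) (nat_lit 84) (nat_lit 14392972876) (nat_lit 47) (nat_lit 5) (nat_lit 53) (nat_lit 5) (nat_lit 48) (nat_lit 5) (nat_lit 355) (nat_lit 314) (nat_lit 192)) (XT.nd (nat_lit 94) (nat_lit 0) (nat_lit 0) (XT.lf (nat_lit 0) (nat_lit 3844149244) (nat_lit 336) (nat_lit 927869407) (nat_lit 420) (nat_lit 15991697017) (nat_lit 43) (nat_lit 5) (nat_lit 47) (nat_lit 5) (nat_lit 48) (nat_lit 5) (nat_lit 356) (nat_lit 314) (nat_lit 191)) (XT.lf (nat_lit 0) (nat_lit 6668113406) (nat_lit 420) (nat_lit 10364729519) (nat_lit 84) (nat_lit 4178549672) (nat_lit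 43) (nat_lit 5) (nat_lit 48) (nat_lit 5) (nat_lit 44) (nat_lit 5) (nat_lit 357) (nat_lit 314) (nat_lit 190)))) (XT.nd (nat_lit 94) (nat_lit 336) (nat_lit 0) (XT.lf (nat_lit 0) (nat_lit 8624873401) (nat_lit 420) (nat_lit 3625221025) (nat_lit 84) (nat_lit 9422829126) (nat_lit 43) (nat_lit 5) (nat_lit 48) (nat_lit 5) (nat_lit 44) (nat_lit 5) (nat_lit 358) (nat_lit 314) (nat_lit 189)) (XT.nd (nat_lit 94) (nat_lit 0) (nat_lit 0) (XT.lf (nat_lit 0) (nat_lit 3382597363) (nat_lit 336) (nat_lit 7285876385) (nat_lit 420) (nat_lit 11479510095) (nat_lit 39) (nat_lit 5) (nat_lit 43) (nat_lit 5) (nat_lit 44) (nat_lit 5) (nat_lit 359) (nat_lit 314) (nat_lit 188)) (XT.lf (nat_lit 0) (nat_lit 10675832990) (nat_lit 336) (nat_lit 2130193261) (nat_lit 420) (nat_lit 9830828607) (nat_lit 39) (nat_lit 5) (nat_lit 43) (nat_lit 5) (nat_lit 44) (nat_lit 5) (nat_lit 360) (nat_lit 314) (nat_lit 187))))) (XT.nd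 (nat_lit 282) (nat_lit 420) (nat_lit 0) (XT.nd (nat_lit 94) (nat_lit 252) (nat_lit 0) (XT.lf (nat_lit 0) (nat_lit 15034406114) (nat_lit 420) (nat_lit 4985972996) (nat_lit 84) (nat_lit 3119771802) (nat_lit 39) (nat_lit 5) (nat_lit 44) (nat_lit 5) (nat_lit 40) (nat_lit 5) (nat_lit 361) (nat_lit 314) (nat_lit 186)) (XT.nd (nat_lit 94) (nat_lit 0) (nat_lit 0) (XT.lf (nat_lit 0) (nat_lit 2219848367) (nat_lit 252) (nat_lit 15149001465) (nat_lit 336) (nat_lit 6289083353) (nat_lit 36) (nat_lit 5) (nat_lit 39) (nat_lit 5) (nat_lit 40) (nat_lit 5) (nat_lit 362) (nat_lit 314) (nat_lit 185)) (XT.lf (nat_lit 0) (nat_lit 9746443009) (nat_lit 252) (nat_lit 10074560448) (nat_lit 336) (nat_lit 4369387277) (nat_lit 36) (nat_lit 5) (nat_lit 39) (nat_lit 5) (nat_lit 40) (nat_lit 5) (nat_lit 363) (nat_lit 314) (nat_lit 184)))) (XT.nd (nat_lit 94) (nat_lit 420) (nat_lit 0) (XT.lf (nat_lit 0) (nat_lit 17498304672)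 (nat_lit 252) (nat_lit 4844369481) (nat_lit 336) (nat_lit 2396910546) (nat_lit 36) (nat_lit 5) (nat_lit 39) (nat_lit 5) (nat_lit 40) (nat_lit 5) (nat_lit 364) (nat_lit 314) (nat_lit 183)) (XT.nd (nat_lit 94) (nat_lit 84) (nat_lit 0) (XT.lf (nat_lit 0) (nat_lit 174731552) (nat_lit 336) (nat_lit 24768635005) (nat_lit 420) (nat_lit 362438647) (nat_lit 32) (nat_lit 5) (nat_lit 36) (nat_lit 5) (nat_lit 37) (nat_lit 5) (nat_lit 365) (nat_lit 314) (nat_lit 182)) (XT.lf (nat_lit 0) (nat_lit 1819749091) (nat_lit 420) (nat_lit 17988714549) (nat_lit 84) (nat_lit 6076899769) (nat_lit 31) (nat_lit 5) (nat_lit 36) (nat_lit 5) (nat_lit 32) (nat_lit 5) (nat_lit 366) (nat_lit 314) (nat_lit 181)))))) (XT.nd (nat_lit 564) (nat_lit 252) (nat_lit 0) (XT.nd (nat_lit 282) (nat_lit 252) (nat_lit 0) (XT.nd (nat_lit 94) (nat_lit 252) (nat_lit 0) (XT.lf (nat_lit 0) (nat_lit 4055947300) (nat_lit 420) (nat_lit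 10636503678) (nat_lit 84) (nat_lit 11790536832) (nat_lit 31) (nat_lit 5) (nat_lit 36) (nat_lit 5) (nat_lit 32) (nat_lit 5) (nat_lit 367) (nat_lit 314) (nat_lit 180)) (XT.nd (nat_lit 94) (nat_lit 252) (nat_lit 0) (XT.lf (nat_lit 0) (nat_lit 6355542679) (nat_lit 420) (nat_lit 3063992572) (nat_lit 84) (nat_lit 17679811661) (nat_lit 31) (nat_lit 5) (nat_lit 36) (nat_lit 5) (nat_lit 32) (nat_lit 5) (nat_lit 368) (nat_lit 314) (nat_lit 179)) (XT.lf (nat_lit 0) (nat_lit 4833256489) (nat_lit 252) (nat_lit 3935368707) (nat_lit 336) (nat_lit 18964903691) (nat_lit 28) (nat_lit 5) (nat_lit 31) (nat_lit 5) (nat_lit 32) (nat_lit 5) (nat_lit 369) (nat_lit 314) (nat_lit 178)))) (XT.nd (nat_lit 94) (nat_lit 252) (nat_lit 0) (XT.lf (nat_lit 0) (nat_lit 11300209815) (nat_lit 336) (nat_lit 15370977775) (nat_lit 84) (nat_lit 1714851530) (nat_lit 28) (nat_lit 5) (nat_lit 32) (nat_lit 5) (nat_lit 29) (nat_lit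 5) (nat_lit 370) (nat_lit 314) (nat_lit 177)) (XT.nd (nat_lit 94) (nat_lit 252) (nat_lit 0) (XT.lf (nat_lit 0) (nat_lit 13945030267) (nat_lit 336) (nat_lit 7655795325) (nat_lit 84) (nat_lit 7456896633) (nat_lit 28) (nat_lit 5) (nat_lit 32) (nat_lit 5) (nat_lit 29) (nat_lit 5) (nat_lit 371) (nat_lit 314) (nat_lit 176)) (XT.lf (nat_lit 0) (nat_lit 297499608) (nat_lit 252) (nat_lit 16371964082) (nat_lit 336) (nat_lit 13080859321) (nat_lit 25) (nat_lit 5) (nat_lit 28) (nat_lit 5) (nat_lit 29) (nat_lit 5) (nat_lit 372) (nat_lit 314) (nat_lit 175))))) (XT.nd (nat_lit 282) (nat_lit 252) (nat_lit 0) (XT.nd (nat_lit 94) (nat_lit 0) (nat_lit 0) (XT.lf (nat_lit 0) (nat_lit 8652664793) (nat_lit 252) (nat_lit 10900363807) (nat_lit 336) (nat_lit 10909072106) (nat_lit 25) (nat_lit 5) (nat_lit 28) (nat_lit 5) (nat_lit 29) (nat_lit 5) (nat_lit 373) (nat_lit 314) (nat_lit 174)) (XT.nd (nat_lit 94) (nat_lit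 0) (nat_lit 0) (XT.lf (nat_lit 0) (nat_lit 17260069264) (nat_lit 252) (nat_lit 5260835462) (nat_lit 336) (nat_lit 8675216781) (nat_lit 25) (nat_lit 5) (nat_lit 28) (nat_lit 5) (nat_lit 29) (nat_lit 5) (nat_lit 374) (nat_lit 314) (nat_lit 173)) (XT.lf (nat_lit 0) (nat_lit 25581333138) (nat_lit 336) (nat_lit 5830808273) (nat_lit 84) (nat_lit 540758477) (nat_lit 25) (nat_lit 5) (nat_lit 29) (nat_lit 5) (nat_lit 26) (nat_lit 5) (nat_lit 375) (nat_lit 314) (nat_lit 172)))) (XT.nd (nat_lit 94) (nat_lit 84) (nat_lit 0) (XT.lf (nat_lit 0) (nat_lit 2516063913) (nat_lit 168) (nat_lit 26294542328) (nat_lit 252) (nat_lit 3920258370) (nat_lit 23) (nat_lit 5) (nat_lit 25) (nat_lit 5) (nat_lit 26) (nat_lit 5) (nat_lit 376) (nat_lit 314) (nat_lit 171)) (XT.nd (nat_lit 94) (nat_lit 84) (nat_lit 0) (XT.lf (nat_lit 0) (nat_lit 11238843776) (nat_lit 168) (nat_lit 20957290601) (nat_lit 252) (nat_lit 1335090030)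 (nat_lit 23) (nat_lit 5) (nat_lit 25) (nat_lit 5) (nat_lit 26) (nat_lit 5) (nat_lit 377) (nat_lit 314) (nat_lit 170)) (XT.lf (nat_lit 0) (nat_lit 1298780641) (nat_lit 252) (nat_lit 14143935787) (nat_lit 84) (nat_lit 18913431236) (nat_lit 22) (nat_lit 5) (nat_lit 25) (nat_lit 5) (nat_lit 23) (nat_lit 5) (nat_lit 378) (nat_lit 314) (nat_lit 169))))))) (XT.nd (nat_lit 1128) (nat_lit 420) (nat_lit 0) (XT.nd (nat_lit 564) (nat_lit 168) (nat_lit 0) (XT.nd (nat_lit 282) (nat_lit 168) (nat_lit 0) (XT.nd (nat_lit 94) (nat_lit 252) (nat_lit 0) (XT.lf (nat_lit 0) (nat_lit 3982070819) (nat_lit 252) (nat_lit 5762726631) (nat_lit 84) (nat_lit 25461579319) (nat_lit 22) (nat_lit 5) (nat_lit 25) (nat_lit 5) (nat_lit 23) (nat_lit 5) (nat_lit 379) (nat_lit 314) (nat_lit 168)) (XT.nd (nat_lit 94) (nat_lit 0) (nat_lit 0) (XT.lf (nat_lit 0) (nat_lit 2931363704) (nat_lit 252) (nat_lit 3841896486) (nat_lit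 336) (nat_lit 29308953143) (nat_lit 19) (nat_lit 5) (nat_lit 22) (nat_lit 5) (nat_lit 23) (nat_lit 5) (nat_lit 380) (nat_lit 314) (nat_lit 167)) (XT.lf (nat_lit 0) (nat_lit 9729697043) (nat_lit 336) (nat_lit 24995143226) (nat_lit 84) (nat_lit 2257936313) (nat_lit 19) (nat_lit 5) (nat_lit 23) (nat_lit 5) (nat_lit 20) (nat_lit 5) (nat_lit 381) (nat_lit 314) (nat_lit 166)))) (XT.nd (nat_lit 94) (nat_lit 168) (nat_lit 0) (XT.lf (nat_lit 0) (nat_lit 12812900141) (nat_lit 336) (nat_lit 16631789802) (nat_lit 84) (nat_lit 8465494337) (nat_lit 19) (nat_lit 5) (nat_lit 23) (nat_lit 5) (nat_lit 20) (nat_lit 5) (nat_lit 382) (nat_lit 314) (nat_lit 165)) (XT.nd (nat_lit 94) (nat_lit 168) (nat_lit 0) (XT.lf (nat_lit 0) (nat_lit 15987631265) (nat_lit 336) (nat_lit 8014881747) (nat_lit 84) (nat_lit 14863969333) (nat_lit 19) (nat_lit 5) (nat_lit 23) (nat_lit 5) (nat_lit 20) (nat_lit 5) (nat_lit 383)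 (nat_lit 314) (nat_lit 164)) (XT.lf (nat_lit 0) (nat_lit 881370449) (nat_lit 168) (nat_lit 18384222450) (nat_lit 252) (nat_lit 20586698204) (nat_lit 17) (nat_lit 5) (nat_lit 19) (nat_lit 5) (nat_lit 20) (nat_lit 5) (nat_lit 384) (nat_lit 314) (nat_lit 163))))) (XT.nd (nat_lit 282) (nat_lit 168) (nat_lit 0) (XT.nd (nat_lit 94) (nat_lit 0) (nat_lit 0) (XT.lf (nat_lit 0) (nat_lit 10217836152) (nat_lit 168) (nat_lit 12507128434) (nat_lit 252) (nat_lit 18141235996) (nat_lit 17) (nat_lit 5) (nat_lit 19) (nat_lit 5) (nat_lit 20) (nat_lit 5) (nat_lit 385) (nat_lit 314) (nat_lit 162)) (XT.nd (nat_lit 94) (nat_lit 0) (nat_lit 0) (XT.lf (nat_lit 0) (nat_lit 19838415518) (nat_lit 168) (nat_lit 6449411826) (nat_lit 252) (nat_lit 15623843958) (nat_lit 17) (nat_lit 5) (nat_lit 19) (nat_lit 5) (nat_lit 20) (nat_lit 5) (nat_lit 386) (nat_lit 314) (nat_lit 161)) (XT.lf (nat_lit 0) (nat_lit 29752075935)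 (nat_lit 168) (nat_lit 205426198) (nat_lit 252) (nat_lit 13032175616) (nat_lit 17) (nat_lit 5) (nat_lit 19) (nat_lit 5) (nat_lit 20) (nat_lit 5) (nat_lit 387) (nat_lit 314) (nat_lit 160)))) (XT.nd (nat_lit 94) (nat_lit 168) (nat_lit 0) (XT.lf (nat_lit 0) (nat_lit 33799218280) (nat_lit 252) (nat_lit 4194975571) (nat_lit 84) (nat_lit 6105114815) (nat_lit 17) (nat_lit 5) (nat_lit 20) (nat_lit 5) (nat_lit 18) (nat_lit 5) (nat_lit 388) (nat_lit 314) (nat_lit 159)) (XT.nd (nat_lit 94) (nat_lit 0) (nat_lit 0) (XT.lf (nat_lit 0) (nat_lit 5226211641) (nat_lit 168) (nat_lit 32584326185) (nat_lit 252) (nat_lit 7431247102) (nat_lit 15) (nat_lit 5) (nat_lit 17) (nat_lit 5) (nat_lit 18) (nat_lit 5) (nat_lit 389) (nat_lit 314) (nat_lit 158)) (XT.lf (nat_lit 0) (nat_lit 15023481176) (nat_lit 168) (nat_lit 26963133185) (nat_lit 252) (nat_lit 4431823231) (nat_lit 15) (nat_lit 5) (nat_lit 17) (nat_lit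 5) (nat_lit 18) (nat_lit 5) (nat_lit 390) (nat_lit 314) (nat_lit 157)))))) (XT.nd (nat_lit 564) (nat_lit 168) (nat_lit 0) (XT.nd (nat_lit 282) (nat_lit 168) (nat_lit 0) (XT.nd (nat_lit 94) (nat_lit 84) (nat_lit 0) (XT.lf (nat_lit 0) (nat_lit 25119707813) (nat_lit 168) (nat_lit 21169162250) (nat_lit 252) (nat_lit 1342809938) (nat_lit 15) (nat_lit 5) (nat_lit 17) (nat_lit 5) (nat_lit 18) (nat_lit 5) (nat_lit 391) (nat_lit 314) (nat_lit 156)) (XT.nd (nat_lit 94) (nat_lit 0) (nat_lit 0) (XT.lf (nat_lit 0) (nat_lit 1801626916) (nat_lit 252) (nat_lit 13376580587) (nat_lit 84) (nat_lit 33703870086) (nat_lit 14) (nat_lit 5) (nat_lit 17) (nat_lit 5) (nat_lit 15) (nat_lit 5) (nat_lit 392) (nat_lit 314) (nat_lit 155)) (XT.lf (nat_lit 0) (nat_lit 5012520538) (nat_lit 252) (nat_lit 3976277174) (nat_lit 84) (nat_lit 41182121813) (nat_lit 14) (nat_lit 5) (nat_lit 17) (nat_lit 5) (nat_lit 15) (nat_lit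 5) (nat_lit 393) (nat_lit 314) (nat_lit 154)))) (XT.nd (nat_lit 94) (nat_lit 0) (nat_lit 0) (XT.lf (nat_lit 0) (nat_lit 5828451262) (nat_lit 168) (nat_lit 2549286140) (nat_lit 252) (nat_lit 43120290302) (nat_lit 12) (nat_lit 5) (nat_lit 14) (nat_lit 5) (nat_lit 15) (nat_lit 5) (nat_lit 394) (nat_lit 314) (nat_lit 153)) (XT.nd (nat_lit 94) (nat_lit 0) (nat_lit 0) (XT.lf (nat_lit 0) (nat_lit 11926777185) (nat_lit 252) (nat_lit 36889023639) (nat_lit 84) (nat_lit 4048021054) (nat_lit 12) (nat_lit 5) (nat_lit 15) (nat_lit 5) (nat_lit 13) (nat_lit 5) (nat_lit 395) (nat_lit 314) (nat_lit 152)) (XT.lf (nat_lit 0) (nat_lit 15609001289) (nat_lit 252) (nat_lit 27866671815) (nat_lit 84) (nat_lit 10795574353) (nat_lit 12) (nat_lit 5) (nat_lit 15) (nat_lit 5) (nat_lit 13) (nat_lit 5) (nat_lit 396) (nat_lit 314) (nat_lit 151))))) (XT.nd (nat_lit 282) (nat_lit 0) (nat_lit 0) (XT.nd (nat_lit 94) (nat_lit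 168) (nat_lit 0) (XT.lf (nat_lit 0) (nat_lit 19402552700) (nat_lit 252) (nat_lit 18568821960) (nat_lit 84) (nat_lit 17751025617) (nat_lit 12) (nat_lit 5) (nat_lit 15) (nat_lit 5) (nat_lit 13) (nat_lit 5) (nat_lit 397) (nat_lit 314) (nat_lit 150)) (XT.nd (nat_lit 94) (nat_lit 168) (nat_lit 0) (XT.lf (nat_lit 0) (nat_lit 23310967404) (nat_lit 252) (nat_lit 8986807503) (nat_lit 84) (nat_lit 24920858056) (nat_lit 12) (nat_lit 5) (nat_lit 15) (nat_lit 5) (nat_lit 13) (nat_lit 5) (nat_lit 398) (nat_lit 314) (nat_lit 149)) (XT.lf (nat_lit 0) (nat_lit 906568328) (nat_lit 168) (nat_lit 26440313395) (nat_lit 252) (nat_lit 31414179645) (nat_lit 10) (nat_lit 5) (nat_lit 12) (nat_lit 5) (nat_lit 13) (nat_lit 5) (nat_lit 399) (nat_lit 314) (nat_lit 148)))) (XT.nd (nat_lit 188) (nat_lit 0) (nat_lit 0) (XT.nd (nat_lit 94) (nat_lit 0) (nat_lit 0) (XT.lf (nat_lit 0) (nat_lit 11293247956) (nat_lit 168)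 (nat_lit 20305851822) (nat_lit 252) (nat_lit 28749387112) (nat_lit 10) (nat_lit 5) (nat_lit 12) (nat_lit 5) (nat_lit 13) (nat_lit 5) (nat_lit 400) (nat_lit 314) (nat_lit 147)) (XT.lf (nat_lit 0) (nat_lit 21998125660) (nat_lit 168) (nat_lit 13982476066) (nat_lit 252) (nat_lit 26004607932) (nat_lit 10) (nat_lit 5) (nat_lit 12) (nat_lit 5) (nat_lit 13) (nat_lit 5) (nat_lit 401) (nat_lit 314) (nat_lit 146))) (XT.nd (nat_lit 94) (nat_lit 0) (nat_lit 0) (XT.lf (nat_lit 0) (nat_lit 33031179507) (nat_lit 168) (nat_lit 7464292079) (nat_lit 252) (nat_lit 23177283685) (nat_lit 10) (nat_lit 5) (nat_lit 12) (nat_lit 5) (nat_lit 13) (nat_lit 5) (nat_lit 402) (nat_lit 314) (nat_lit 145)) (XT.lf (nat_lit 0) (nat_lit 44402693460) (nat_lit 168) (nat_lit 745224231) (nat_lit 252) (nat_lit 20264779008) (nat_lit 10) (nat_lit 5) (nat_lit 12) (nat_lit 5) (nat_lit 13) (nat_lit 5) (nat_lit 403) (nat_lit 314)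 (nat_lit 144))))))))
noncomputable def xc151 : XT := (XT.nd (nat_lit 46718) (nat_lit 0) (nat_lit 4284) (XT.nd (nat_lit 1128) (nat_lit 0) (nat_lit 0) (XT.nd (nat_lit 564) (nat_lit 168) (nat_lit 0) (XT.nd (nat_lit 282) (nat_lit 84) (nat_lit 0) (XT.nd (nat_lit 94) (nat_lit 84) (nat_lit 0) (XT.lf (nat_lit 0) (nat_lit 50003592796) (nat_lit 252) (nat_lit 11144704977) (nat_lit 84) (nat_lit 6056457172) (nat_lit 10) (nat_lit 5) (nat_lit 13) (nat_lit 5) (nat_lit 11) (nat_lit 4) (nat_lit 404) (nat_lit 314) (nat_lit 143)) (XT.nd (nat_lit 94) (nat_lit 84) (nat_lit 0) (XT.lf (nat_lit 0) (nat_lit 55015161237) (nat_lit 252) (nat_lit 984623825) (nat_lit 84) (nat_lit 13052423044) (nat_lit 10) (nat_lit 5) (nat_lit 13) (nat_lit 5) (nat_lit 11) (nat_lit 4) (nat_lit 405) (nat_lit 314) (nat_lit 142)) (XT.lf (nat_lit 0) (nat_lit 9682177490) (nat_lit 84) (nat_lit 50593772515) (nat_lit 168) (nat_lit 10678079875)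 (nat_lit 9) (nat_lit 5) (nat_lit 10) (nat_lit 5) (nat_lit 11) (nat_lit 4) (nat_lit 406) (nat_lit 314) (nat_lit 141)))) (XT.nd (nat_lit 94) (nat_lit 84) (nat_lit 0) (XT.lf (nat_lit 0) (nat_lit 20697240083) (nat_lit 84) (nat_lit 45010707083) (nat_lit 168) (nat_lit 7206616177) (nat_lit 9) (nat_lit 5) (nat_lit 10) (nat_lit 5) (nat_lit 11) (nat_lit 4) (nat_lit 407) (nat_lit 314) (nat_lit 140)) (XT.nd (nat_lit 94) (nat_lit 84) (nat_lit 0) (XT.lf (nat_lit 0) (nat_lit 32050585259) (nat_lit 84) (nat_lit 39255662217) (nat_lit 168) (nat_lit 3629697462) (nat_lit 9) (nat_lit 5) (nat_lit 10) (nat_lit 5) (nat_lit 11) (nat_lit 4) (nat_lit 408) (nat_lit 314) (nat_lit 139)) (XT.lf (nat_lit 0) (nat_lit 54881848) (nat_lit 168) (nat_lit 33267818911) (nat_lit 84) (nat_lit 43697340823) (nat_lit 8) (nat_lit 5) (nat_lit 10) (nat_lit 5) (nat_lit 9) (nat_lit 5) (nat_lit 409) (nat_lit 314) (nat_lit 138))))) (XT.nd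 (nat_lit 282) (nat_lit 168) (nat_lit 0) (XT.nd (nat_lit 94) (nat_lit 0) (nat_lit 0) (XT.lf (nat_lit 0) (nat_lit 3776294316) (nat_lit 168) (nat_lit 23392300581) (nat_lit 84) (nat_lit 51999067484) (nat_lit 8) (nat_lit 5) (nat_lit 10) (nat_lit 5) (nat_lit 9) (nat_lit 5) (nat_lit 410) (nat_lit 314) (nat_lit 137)) (XT.nd (nat_lit 94) (nat_lit 0) (nat_lit 0) (XT.lf (nat_lit 0) (nat_lit 7611139000) (nat_lit 168) (nat_lit 13213592623) (nat_lit 84) (nat_lit 60557193736) (nat_lit 8) (nat_lit 5) (nat_lit 10) (nat_lit 5) (nat_lit 9) (nat_lit 5) (nat_lit 411) (nat_lit 314) (nat_lit 136)) (XT.lf (nat_lit 0) (nat_lit 11562990379) (nat_lit 168) (nat_lit 2722207416) (nat_lit 84) (nat_lit 69379696650) (nat_lit 8) (nat_lit 5) (nat_lit 10) (nat_lit 5) (nat_lit 9) (nat_lit 5) (nat_lit 412) (nat_lit 314) (nat_lit 135)))) (XT.nd (nat_lit 94) (nat_lit 0) (nat_lit 0) (XT.lf (nat_lit 0) (nat_lit 8258014701)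 (nat_lit 168) (nat_lit 7459437818) (nat_lit 252) (nat_lit 70298705547) (nat_lit 6) (nat_lit 5) (nat_lit 8) (nat_lit 5) (nat_lit 9) (nat_lit 5) (nat_lit 413) (nat_lit 314) (nat_lit 134)) (XT.nd (nat_lit 94) (nat_lit 0) (nat_lit 0) (XT.lf (nat_lit 0) (nat_lit 19633584561) (nat_lit 168) (nat_lit 393742902) (nat_lit 252) (nat_lit 68412163567) (nat_lit 6) (nat_lit 5) (nat_lit 8) (nat_lit 5) (nat_lit 9) (nat_lit 5) (nat_lit 414) (nat_lit 314) (nat_lit 133)) (XT.lf (nat_lit 0) (nat_lit 24537422793) (nat_lit 252) (nat_lit 59647225508) (nat_lit 84) (nat_lit 6751239332) (nat_lit 6) (nat_lit 5) (nat_lit 9) (nat_lit 5) (nat_lit 7) (nat_lit 4) (nat_lit 415) (nat_lit 314) (nat_lit 132)))))) (XT.nd (nat_lit 45026) (nat_lit 0) (nat_lit 8484) (XT.nd (nat_lit 44744) (nat_lit 0) (nat_lit 8400) (XT.nd (nat_lit 44556) (nat_lit 0) (nat_lit 8400) (XT.lf (nat_lit 0) (nat_lit 29189665421) (nat_lit 252) (nat_lit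 50211286663) (nat_lit 84) (nat_lit 14108653283) (nat_lit 6) (nat_lit 5) (nat_lit 9) (nat_lit 5) (nat_lit 7) (nat_lit 4) (nat_lit 416) (nat_lit 314) (nat_lit 131)) (XT.nd (nat_lit 94) (nat_lit 0) (nat_lit 0) (XT.lf (nat_lit 0) (nat_lit 869879397) (nat_lit 0) (nat_lit 869879397) (nat_lit 924) (nat_lit 3367906626) (nat_lit 106) (nat_lit 5) (nat_lit 106) (nat_lit 3) (nat_lit 117) (nat_lit 3) (nat_lit 315) (nat_lit 315) (nat_lit 231)) (XT.lf (nat_lit 0) (nat_lit 4095556195) (nat_lit 924) (nat_lit 4888488078) (nat_lit 1008) (nat_lit 1369015397) (nat_lit 106) (nat_lit 5) (nat_lit 117) (nat_lit 3) (nat_lit 118) (nat_lit 5) (nat_lit 316) (nat_lit 315) (nat_lit 230)))) (XT.nd (nat_lit 94) (nat_lit 0) (nat_lit 0) (XT.lf (nat_lit 0) (nat_lit 4726503341) (nat_lit 924) (nat_lit 1219966785) (nat_lit 1008) (nat_lit 4548846093) (nat_lit 106) (nat_lit 5) (nat_lit 117) (nat_lit 3) (nat_lit 118) (nat_lit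 5) (nat_lit 317) (nat_lit 315) (nat_lit 229)) (XT.nd (nat_lit 94) (nat_lit 0) (nat_lit 84) (XT.lf (nat_lit 84) (nat_lit 2603116901) (nat_lit 0) (nat_lit 2778394857) (nat_lit 1008) (nat_lit 5260455829) (nat_lit 107) (nat_lit 5) (nat_lit 106) (nat_lit 5) (nat_lit 118) (nat_lit 5) (nat_lit 318) (nat_lit 315) (nat_lit 228)) (XT.lf (nat_lit 0) (nat_lit 6053827609) (nat_lit 924) (nat_lit 4239510565) (nat_lit 1008) (nat_lit 500040588) (nat_lit 107) (nat_lit 5) (nat_lit 118) (nat_lit 5) (nat_lit 119) (nat_lit 5) (nat_lit 319) (nat_lit 315) (nat_lit 227))))) (XT.nd (nat_lit 282) (nat_lit 0) (nat_lit 84) (XT.nd (nat_lit 94) (nat_lit 0) (nat_lit 0) (XT.lf (nat_lit 0) (nat_lit 6755322205) (nat_lit 924) (nat_lit 362784874) (nat_lit 1008) (nat_lit 3831235212) (nat_lit 107) (nat_lit 5) (nat_lit 118) (nat_lit 5) (nat_lit 119) (nat_lit 5) (nat_lit 320) (nat_lit 315) (nat_lit 226)) (XT.nd (nat_lit 94)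 (nat_lit 0) (nat_lit 0) (XT.lf (nat_lit 84) (nat_lit 3696987990) (nat_lit 0) (nat_lit 3798773981) (nat_lit 1008) (nat_lit 3613959091) (nat_lit 108) (nat_lit 5) (nat_lit 107) (nat_lit 5) (nat_lit 119) (nat_lit 5) (nat_lit 321) (nat_lit 315) (nat_lit 225)) (XT.lf (nat_lit 84) (nat_lit 7878804888) (nat_lit 0) (nat_lit 365132987) (nat_lit 1008) (nat_lit 3031715563) (nat_lit 108) (nat_lit 5) (nat_lit 107) (nat_lit 5) (nat_lit 119) (nat_lit 5) (nat_lit 322) (nat_lit 315) (nat_lit 224)))) (XT.nd (nat_lit 94) (nat_lit 0) (nat_lit 0) (XT.lf (nat_lit 84) (nat_lit 714524118) (nat_lit 0) (nat_lit 8321006586) (nat_lit 1008) (nat_lit 2410678897) (nat_lit 109) (nat_lit 5) (nat_lit 108) (nat_lit 5) (nat_lit 120) (nat_lit 5) (nat_lit 323) (nat_lit 315) (nat_lit 223)) (XT.nd (nat_lit 94) (nat_lit 0) (nat_lit 0) (XT.lf (nat_lit 84) (nat_lit 5009765593) (nat_lit 0) (nat_lit 4863124658) (nat_lit 1008)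 (nat_lit 1748608304) (nat_lit 109) (nat_lit 5) (nat_lit 108) (nat_lit 5) (nat_lit 120) (nat_lit 5) (nat_lit 324) (nat_lit 315) (nat_lit 222)) (XT.lf (nat_lit 84) (nat_lit 9426729957) (nat_lit 0) (nat_lit 1292091531) (nat_lit 1008) (nat_lit 1084039441) (nat_lit 109) (nat_lit 5) (nat_lit 108) (nat_lit 5) (nat_lit 120) (nat_lit 5) (nat_lit 325) (nat_lit 315) (nat_lit 221))))))) (XT.nd (nat_lit 1128) (nat_lit 1932) (nat_lit 0) (XT.nd (nat_lit 564) (nat_lit 1428) (nat_lit 0) (XT.nd (nat_lit 282) (nat_lit 0) (nat_lit 84) (XT.nd (nat_lit 94) (nat_lit 1008) (nat_lit 0) (XT.lf (nat_lit 84) (nat_lit 1995510727) (nat_lit 0) (nat_lit 9622160777) (nat_lit 1008) (nat_lit 371443954) (nat_lit 110) (nat_lit 5) (nat_lit 109) (nat_lit 5) (nat_lit 121) (nat_lit 5) (nat_lit 326) (nat_lit 315) (nat_lit 220)) (XT.nd (nat_lit 94) (nat_lit 0) (nat_lit 0) (XT.lf (nat_lit 0) (nat_lit 377517055) (nat_lit 1008)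 (nat_lit 5656480091) (nat_lit 1092) (nat_lit 6146457314) (nat_lit 97) (nat_lit 5) (nat_lit 109) (nat_lit 5) (nat_lit 110) (nat_lit 5) (nat_lit 327) (nat_lit 315) (nat_lit 219)) (XT.lf (nat_lit 0) (nat_lit 1125804460) (nat_lit 1008) (nat_lit 1200419388) (nat_lit 1092) (nat_lit 10051973731) (nat_lit 97) (nat_lit 5) (nat_lit 109) (nat_lit 5) (nat_lit 110) (nat_lit 5) (nat_lit 328) (nat_lit 315) (nat_lit 218)))) (XT.nd (nat_lit 94) (nat_lit 0) (nat_lit 0) (XT.lf (nat_lit 0) (nat_lit 1931081948) (nat_lit 1008) (nat_lit 9144855250) (nat_lit 1092) (nat_lit 1505172207) (nat_lit 98) (nat_lit 5) (nat_lit 110) (nat_lit 5) (nat_lit 111) (nat_lit 5) (nat_lit 329) (nat_lit 315) (nat_lit 217)) (XT.nd (nat_lit 94) (nat_lit 0) (nat_lit 0) (XT.lf (nat_lit 0) (nat_lit 2782484276) (nat_lit 1008) (nat_lit 4583578015) (nat_lit 1092) (nat_lit 5423676871) (nat_lit 98) (nat_lit 5) (nat_lit 110) (nat_lit 5)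 (nat_lit 111) (nat_lit 5) (nat_lit 330) (nat_lit 315) (nat_lit 216)) (XT.lf (nat_lit 84) (nat_lit 109819841) (nat_lit 0) (nat_lit 3536720730) (nat_lit 1092) (nat_lit 9358802946) (nat_lit 99) (nat_lit 5) (nat_lit 98) (nat_lit 5) (nat_lit 111) (nat_lit 5) (nat_lit 331) (nat_lit 315) (nat_lit 215))))) (XT.nd (nat_lit 282) (nat_lit 588) (nat_lit 0) (XT.nd (nat_lit 94) (nat_lit 1008) (nat_lit 0) (XT.lf (nat_lit 0) (nat_lit 4575330596) (nat_lit 1008) (nat_lit 8196770057) (nat_lit 84) (nat_lit 454433275) (nat_lit 99) (nat_lit 5) (nat_lit 111) (nat_lit 5) (nat_lit 100) (nat_lit 5) (nat_lit 332) (nat_lit 315) (nat_lit 214)) (XT.nd (nat_lit 94) (nat_lit 1008) (nat_lit 0) (XT.lf (nat_lit 0) (nat_lit 5555055432) (nat_lit 1008) (nat_lit 3400102863) (nat_lit 84) (nat_lit 4498812878) (nat_lit 99) (nat_lit 5) (nat_lit 111) (nat_lit 5) (nat_lit 100) (nat_lit 5) (nat_lit 333) (nat_lit 315) (nat_lit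 213)) (XT.lf (nat_lit 0) (nat_lit 1565576485) (nat_lit 1008) (nat_lit 5001497805) (nat_lit 1092) (nat_lit 7121399130) (nat_lit 87) (nat_lit 5) (nat_lit 99) (nat_lit 5) (nat_lit 100) (nat_lit 5) (nat_lit 334) (nat_lit 315) (nat_lit 212)))) (XT.nd (nat_lit 94) (nat_lit 588) (nat_lit 0) (XT.lf (nat_lit 0) (nat_lit 6746158551) (nat_lit 1008) (nat_lit 886488043) (nat_lit 1092) (nat_lit 6296982857) (nat_lit 87) (nat_lit 5) (nat_lit 99) (nat_lit 5) (nat_lit 100) (nat_lit 5) (nat_lit 335) (nat_lit 315) (nat_lit 211)) (XT.nd (nat_lit 94) (nat_lit 588) (nat_lit 0) (XT.lf (nat_lit 0) (nat_lit 8751656503) (nat_lit 1092) (nat_lit 2135485994) (nat_lit 84) (nat_lit 3290555931) (nat_lit 87) (nat_lit 5) (nat_lit 100) (nat_lit 5) (nat_lit 88) (nat_lit 5) (nat_lit 336) (nat_lit 315) (nat_lit 210)) (XT.lf (nat_lit 0) (nat_lit 3111681549) (nat_lit 588) (nat_lit 6821108703) (nat_lit 672) (nat_lit 4499884390)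 (nat_lit 80) (nat_lit 5) (nat_lit 87) (nat_lit 5) (nat_lit 88) (nat_lit 5) (nat_lit 337) (nat_lit 315) (nat_lit 209)))))) (XT.nd (nat_lit 564) (nat_lit 840) (nat_lit 0) (XT.nd (nat_lit 282) (nat_lit 588) (nat_lit 0) (XT.nd (nat_lit 94) (nat_lit 504) (nat_lit 0) (XT.lf (nat_lit 0) (nat_lit 8555961484) (nat_lit 588) (nat_lit 2604635850) (nat_lit 672) (nat_lit 3534711513) (nat_lit 80) (nat_lit 5) (nat_lit 87) (nat_lit 5) (nat_lit 88) (nat_lit 5) (nat_lit 338) (nat_lit 315) (nat_lit 208)) (XT.nd (nat_lit 94) (nat_lit 504) (nat_lit 0) (XT.lf (nat_lit 0) (nat_lit 12431902183) (nat_lit 672) (nat_lit 825297451) (nat_lit 84) (nat_lit 1708780135) (nat_lit 80) (nat_lit 5) (nat_lit 88) (nat_lit 5) (nat_lit 81) (nat_lit 5) (nat_lit 339) (nat_lit 315) (nat_lit 207)) (XT.lf (nat_lit 0) (nat_lit 4711156425) (nat_lit 504) (nat_lit 9093341388) (nat_lit 588) (nat_lit 1438687041) (nat_lit 74) (nat_lit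 5) (nat_lit 80) (nat_lit 5) (nat_lit 81) (nat_lit 5) (nat_lit 340) (nat_lit 315) (nat_lit 206)))) (XT.nd (nat_lit 94) (nat_lit 588) (nat_lit 0) (XT.lf (nat_lit 0) (nat_lit 10426232090) (nat_lit 504) (nat_lit 4790773413) (nat_lit 588) (nat_lit 312119383) (nat_lit 74) (nat_lit 5) (nat_lit 80) (nat_lit 5) (nat_lit 81) (nat_lit 5) (nat_lit 341) (nat_lit 315) (nat_lit 205)) (XT.nd (nat_lit 94) (nat_lit 0) (nat_lit 0) (XT.lf (nat_lit 0) (nat_lit 485427997) (nat_lit 504) (nat_lit 340563499) (nat_lit 588) (nat_lit 14997926908) (nat_lit 67) (nat_lit 5) (nat_lit 73) (nat_lit 5) (nat_lit 74) (nat_lit 5) (nat_lit 342) (nat_lit 315) (nat_lit 204)) (XT.lf (nat_lit 0) (nat_lit 2077997901) (nat_lit 588) (nat_lit 9827669976) (nat_lit 84) (nat_lit 4219500228) (nat_lit 67) (nat_lit 5) (nat_lit 74) (nat_lit 5) (nat_lit 68) (nat_lit 5) (nat_lit 343) (nat_lit 315) (nat_lit 203))))) (XT.nd (nat_lit 282)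 (nat_lit 420) (nat_lit 0) (XT.nd (nat_lit 94) (nat_lit 420) (nat_lit 0) (XT.lf (nat_lit 0) (nat_lit 3361778131) (nat_lit 588) (nat_lit 4159935929) (nat_lit 84) (nat_lit 8914313601) (nat_lit 67) (nat_lit 5) (nat_lit 74) (nat_lit 5) (nat_lit 68) (nat_lit 5) (nat_lit 344) (nat_lit 315) (nat_lit 202)) (XT.nd (nat_lit 94) (nat_lit 0) (nat_lit 0) (XT.lf (nat_lit 0) (nat_lit 1707781068) (nat_lit 420) (nat_lit 2984310702) (nat_lit 504) (nat_lit 12064274603) (nat_lit 62) (nat_lit 5) (nat_lit 67) (nat_lit 5) (nat_lit 68) (nat_lit 5) (nat_lit 345) (nat_lit 315) (nat_lit 201)) (XT.lf (nat_lit 0) (nat_lit 6114314667) (nat_lit 504) (nat_lit 9267331868) (nat_lit 84) (nat_lit 1703468086) (nat_lit 62) (nat_lit 5) (nat_lit 68) (nat_lit 5) (nat_lit 63) (nat_lit 5) (nat_lit 346) (nat_lit 315) (nat_lit 200)))) (XT.nd (nat_lit 188) (nat_lit 0) (nat_lit 0) (XT.nd (nat_lit 94) (nat_lit 420) (nat_lit 0) (XT.lf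 (nat_lit 0) (nat_lit 7601451576) (nat_lit 504) (nat_lit 3347451655) (nat_lit 84) (nat_lit 6474553548) (nat_lit 62) (nat_lit 5) (nat_lit 68) (nat_lit 5) (nat_lit 63) (nat_lit 5) (nat_lit 347) (nat_lit 315) (nat_lit 199)) (XT.lf (nat_lit 0) (nat_lit 2802645066) (nat_lit 420) (nat_lit 6350441453) (nat_lit 504) (nat_lit 8618677565) (nat_lit 57) (nat_lit 5) (nat_lit 62) (nat_lit 5) (nat_lit 63) (nat_lit 5) (nat_lit 348) (nat_lit 315) (nat_lit 198))) (XT.nd (nat_lit 94) (nat_lit 0) (nat_lit 0) (XT.lf (nat_lit 0) (nat_lit 9204691051) (nat_lit 420) (nat_lit 1573852734) (nat_lit 504) (nat_lit 7351573193) (nat_lit 57) (nat_lit 5) (nat_lit 62) (nat_lit 5) (nat_lit 63) (nat_lit 5) (nat_lit 349) (nat_lit 315) (nat_lit 197)) (XT.lf (nat_lit 0) (nat_lit 12478684661) (nat_lit 504) (nat_lit 2737312997) (nat_lit 84) (nat_lit 3282872094) (nat_lit 57) (nat_lit 5) (nat_lit 63) (nat_lit 5) (nat_lit 58)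 (nat_lit 5) (nat_lit 350) (nat_lit 315) (nat_lit 196))))))))
noncomputable def xc152 : XT := (XT.nd (nat_lit 2256) (nat_lit 1092) (nat_lit 0) (XT.nd (nat_lit 1128) (nat_lit 1176) (nat_lit 0) (XT.nd (nat_lit 564) (nat_lit 672) (nat_lit 0) (XT.nd (nat_lit 282) (nat_lit 504) (nat_lit 0) (XT.nd (nat_lit 94) (nat_lit 0) (nat_lit 0) (XT.lf (nat_lit 0) (nat_lit 3691507564) (nat_lit 336) (nat_lit 10584062332) (nat_lit 420) (nat_lit 4602161467) (nat_lit 53) (nat_lit 5) (nat_lit 57) (nat_lit 5) (nat_lit 58) (nat_lit 5) (nat_lit 351) (nat_lit 315) (nat_lit 195)) (XT.nd (nat_lit 94) (nat_lit 0) (nat_lit 0) (XT.lf (nat_lit 0) (nat_lit 10368343644) (nat_lit 336) (nat_lit 5779878401) (nat_lit 420) (nat_lit 3119535128) (nat_lit 53) (nat_lit 5) (nat_lit 57) (nat_lit 5) (nat_lit 58) (nat_lit 5) (nat_lit 352) (nat_lit 315) (nat_lit 194)) (XT.lf (nat_lit 0) (nat_lit 17243133984) (nat_lit 336) (nat_lit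 827539795) (nat_lit 420) (nat_lit 1599496044) (nat_lit 53) (nat_lit 5) (nat_lit 57) (nat_lit 5) (nat_lit 58) (nat_lit 5) (nat_lit 353) (nat_lit 315) (nat_lit 193)))) (XT.nd (nat_lit 94) (nat_lit 0) (nat_lit 0) (XT.lf (nat_lit 0) (nat_lit 45959141) (nat_lit 504) (nat_lit 15802421944) (nat_lit 84) (nat_lit 4234317010) (nat_lit 47) (nat_lit 5) (nat_lit 53) (nat_lit 5) (nat_lit 48) (nat_lit 5) (nat_lit 354) (nat_lit 315) (nat_lit 192)) (XT.nd (nat_lit 94) (nat_lit 0) (nat_lit 0) (XT.lf (nat_lit 0) (nat_lit 1735277075) (nat_lit 504) (nat_lit 9294489815) (nat_lit 84) (nat_lit 9476968965) (nat_lit 47) (nat_lit 5) (nat_lit 53) (nat_lit 5) (nat_lit 48) (nat_lit 5) (nat_lit 355) (nat_lit 315) (nat_lit 191)) (XT.lf (nat_lit 0) (nat_lit 3469226494) (nat_lit 504) (nat_lit 2593681953) (nat_lit 84) (nat_lit 14881285784) (nat_lit 47) (nat_lit 5) (nat_lit 53) (nat_lit 5) (nat_lit 48) (nat_lit 5) (nat_lit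 356) (nat_lit 315) (nat_lit 190))))) (XT.nd (nat_lit 282) (nat_lit 336) (nat_lit 0) (XT.nd (nat_lit 94) (nat_lit 0) (nat_lit 0) (XT.lf (nat_lit 0) (nat_lit 4394792777) (nat_lit 336) (nat_lit 898227732) (nat_lit 420) (nat_lit 16101108968) (nat_lit 43) (nat_lit 5) (nat_lit 47) (nat_lit 5) (nat_lit 48) (nat_lit 5) (nat_lit 357) (nat_lit 315) (nat_lit 189)) (XT.nd (nat_lit 94) (nat_lit 0) (nat_lit 0) (XT.lf (nat_lit 0) (nat_lit 7237238763) (nat_lit 420) (nat_lit 10255234106) (nat_lit 84) (nat_lit 4363592843) (nat_lit 43) (nat_lit 5) (nat_lit 48) (nat_lit 5) (nat_lit 44) (nat_lit 5) (nat_lit 358) (nat_lit 315) (nat_lit 188)) (XT.lf (nat_lit 0) (nat_lit 9243761296) (nat_lit 420) (nat_lit 3319754158) (nat_lit 84) (nat_lit 9768775948) (nat_lit 43) (nat_lit 5) (nat_lit 48) (nat_lit 5) (nat_lit 44) (nat_lit 5) (nat_lit 359) (nat_lit 315) (nat_lit 187)))) (XT.nd (nat_lit 94) (nat_lit 0) (nat_lit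 0) (XT.lf (nat_lit 0) (nat_lit 3901076256) (nat_lit 336) (nat_lit 7443170772) (nat_lit 420) (nat_lit 11478079967) (nat_lit 39) (nat_lit 5) (nat_lit 43) (nat_lit 5) (nat_lit 44) (nat_lit 5) (nat_lit 360) (nat_lit 315) (nat_lit 186)) (XT.nd (nat_lit 94) (nat_lit 0) (nat_lit 0) (XT.lf (nat_lit 0) (nat_lit 11407965554) (nat_lit 336) (nat_lit 2129723161) (nat_lit 420) (nat_lit 9789032460) (nat_lit 39) (nat_lit 5) (nat_lit 43) (nat_lit 5) (nat_lit 44) (nat_lit 5) (nat_lit 361) (nat_lit 315) (nat_lit 185)) (XT.lf (nat_lit 0) (nat_lit 15825725272) (nat_lit 420) (nat_lit 4740539927) (nat_lit 84) (nat_lit 3279691461) (nat_lit 39) (nat_lit 5) (nat_lit 44) (nat_lit 5) (nat_lit 40) (nat_lit 5) (nat_lit 362) (nat_lit 315) (nat_lit 184)))))) (XT.nd (nat_lit 564) (nat_lit 504) (nat_lit 0) (XT.nd (nat_lit 282) (nat_lit 420) (nat_lit 0) (XT.nd (nat_lit 94) (nat_lit 0) (nat_lit 0) (XT.lf (nat_lit 0)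 (nat_lit 2684612275) (nat_lit 252) (nat_lit 15542072670) (nat_lit 336) (nat_lit 6153330428) (nat_lit 36) (nat_lit 5) (nat_lit 39) (nat_lit 5) (nat_lit 40) (nat_lit 5) (nat_lit 363) (nat_lit 315) (nat_lit 183)) (XT.nd (nat_lit 94) (nat_lit 0) (nat_lit 0) (XT.lf (nat_lit 0) (nat_lit 10432626009) (nat_lit 252) (nat_lit 10312625614) (nat_lit 336) (nat_lit 4184067663) (nat_lit 36) (nat_lit 5) (nat_lit 39) (nat_lit 5) (nat_lit 40) (nat_lit 5) (nat_lit 364) (nat_lit 315) (nat_lit 182)) (XT.lf (nat_lit 0) (nat_lit 18413248011) (nat_lit 252) (nat_lit 4922531154) (nat_lit 336) (nat_lit 2160089050) (nat_lit 36) (nat_lit 5) (nat_lit 39) (nat_lit 5) (nat_lit 40) (nat_lit 5) (nat_lit 365) (nat_lit 315) (nat_lit 181)))) (XT.nd (nat_lit 94) (nat_lit 84) (nat_lit 0) (XT.lf (nat_lit 0) (nat_lit 558701637) (nat_lit 336) (nat_lit 25453804733) (nat_lit 420) (nat_lit 67317322) (nat_lit 32) (nat_lit 5) (nat_lit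 36) (nat_lit 5) (nat_lit 37) (nat_lit 5) (nat_lit 366) (nat_lit 315) (nat_lit 180)) (XT.nd (nat_lit 94) (nat_lit 0) (nat_lit 0) (XT.lf (nat_lit 0) (nat_lit 2167319911) (nat_lit 420) (nat_lit 18171994399) (nat_lit 84) (nat_lit 6338257068) (nat_lit 31) (nat_lit 5) (nat_lit 36) (nat_lit 5) (nat_lit 32) (nat_lit 5) (nat_lit 367) (nat_lit 315) (nat_lit 179)) (XT.lf (nat_lit 0) (nat_lit 4464085737) (nat_lit 420) (nat_lit 10603121518) (nat_lit 84) (nat_lit 12226822724) (nat_lit 31) (nat_lit 5) (nat_lit 36) (nat_lit 5) (nat_lit 32) (nat_lit 5) (nat_lit 368) (nat_lit 315) (nat_lit 178))))) (XT.nd (nat_lit 282) (nat_lit 252) (nat_lit 0) (XT.nd (nat_lit 94) (nat_lit 252) (nat_lit 0) (XT.lf (nat_lit 0) (nat_lit 6826477278) (nat_lit 420) (nat_lit 2806780634) (nat_lit 84) (nat_lit 18296536890) (nat_lit 31) (nat_lit 5) (nat_lit 36) (nat_lit 5) (nat_lit 32) (nat_lit 5) (nat_lit 369) (nat_lit 315)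 (nat_lit 177)) (XT.nd (nat_lit 94) (nat_lit 0) (nat_lit 0) (XT.lf (nat_lit 0) (nat_lit 5331717483) (nat_lit 252) (nat_lit 3977870342) (nat_lit 336) (nat_lit 19274230990) (nat_lit 28) (nat_lit 5) (nat_lit 31) (nat_lit 5) (nat_lit 32) (nat_lit 5) (nat_lit 370) (nat_lit 315) (nat_lit 176)) (XT.lf (nat_lit 0) (nat_lit 11912324123) (nat_lit 336) (nat_lit 15500930160) (nat_lit 84) (nat_lit 1843562996) (nat_lit 28) (nat_lit 5) (nat_lit 32) (nat_lit 5) (nat_lit 29) (nat_lit 5) (nat_lit 371) (nat_lit 315) (nat_lit 175)))) (XT.nd (nat_lit 94) (nat_lit 252) (nat_lit 0) (XT.lf (nat_lit 0) (nat_lit 14631262000) (nat_lit 336) (nat_lit 7556997020) (nat_lit 84) (nat_lit 7761339835) (nat_lit 28) (nat_lit 5) (nat_lit 32) (nat_lit 5) (nat_lit 29) (nat_lit 5) (nat_lit 372) (nat_lit 315) (nat_lit 174)) (XT.nd (nat_lit 94) (nat_lit 0) (nat_lit 0) (XT.lf (nat_lit 0) (nat_lit 639447062) (nat_lit 252) (nat_lit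 16796371155) (nat_lit 336) (nat_lit 13228017716) (nat_lit 25) (nat_lit 5) (nat_lit 28) (nat_lit 5) (nat_lit 29) (nat_lit 5) (nat_lit 373) (nat_lit 315) (nat_lit 173)) (XT.lf (nat_lit 0) (nat_lit 9243618028) (nat_lit 252) (nat_lit 11157650629) (nat_lit 336) (nat_lit 10996673086) (nat_lit 25) (nat_lit 5) (nat_lit 28) (nat_lit 5) (nat_lit 29) (nat_lit 5) (nat_lit 374) (nat_lit 315) (nat_lit 172))))))) (XT.nd (nat_lit 1128) (nat_lit 420) (nat_lit 0) (XT.nd (nat_lit 564) (nat_lit 420) (nat_lit 0) (XT.nd (nat_lit 282) (nat_lit 84) (nat_lit 0) (XT.nd (nat_lit 94) (nat_lit 168) (nat_lit 0) (XT.lf (nat_lit 0) (nat_lit 18108148508) (nat_lit 252) (nat_lit 5345721114) (nat_lit 336) (nat_lit 8701102667) (nat_lit 25) (nat_lit 5) (nat_lit 28) (nat_lit 5) (nat_lit 29) (nat_lit 5) (nat_lit 375) (nat_lit 315) (nat_lit 171)) (XT.nd (nat_lit 94) (nat_lit 168) (nat_lit 0) (XT.lf (nat_lit 0) (nat_lit 26602863296)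 (nat_lit 336) (nat_lit 5700728872) (nat_lit 84) (nat_lit 631842734) (nat_lit 25) (nat_lit 5) (nat_lit 29) (nat_lit 5) (nat_lit 26) (nat_lit 5) (nat_lit 376) (nat_lit 315) (nat_lit 170)) (XT.lf (nat_lit 0) (nat_lit 2901749432) (nat_lit 168) (nat_lit 27026675952) (nat_lit 252) (nat_lit 3809237215) (nat_lit 23) (nat_lit 5) (nat_lit 25) (nat_lit 5) (nat_lit 26) (nat_lit 5) (nat_lit 377) (nat_lit 315) (nat_lit 169)))) (XT.nd (nat_lit 94) (nat_lit 84) (nat_lit 0) (XT.lf (nat_lit 0) (nat_lit 11885683954) (nat_lit 168) (nat_lit 21526464973) (nat_lit 252) (nat_lit 1150920921) (nat_lit 23) (nat_lit 5) (nat_lit 25) (nat_lit 5) (nat_lit 26) (nat_lit 5) (nat_lit 378) (nat_lit 315) (nat_lit 168)) (XT.nd (nat_lit 94) (nat_lit 0) (nat_lit 0) (XT.lf (nat_lit 0) (nat_lit 1553409893) (nat_lit 252) (nat_lit 14287712069) (nat_lit 84) (nat_lit 19572605678) (nat_lit 22) (nat_lit 5) (nat_lit 25) (nat_lit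 5) (nat_lit 23) (nat_lit 5) (nat_lit 379) (nat_lit 315) (nat_lit 167)) (XT.lf (nat_lit 0) (nat_lit 4313436501) (nat_lit 252) (nat_lit 5655546009) (nat_lit 84) (nat_lit 26321555663) (nat_lit 22) (nat_lit 5) (nat_lit 25) (nat_lit 5) (nat_lit 23) (nat_lit 5) (nat_lit 380) (nat_lit 315) (nat_lit 166))))) (XT.nd (nat_lit 282) (nat_lit 168) (nat_lit 0) (XT.nd (nat_lit 94) (nat_lit 0) (nat_lit 0) (XT.lf (nat_lit 0) (nat_lit 3305167404) (nat_lit 252) (nat_lit 3882540292) (nat_lit 336) (nat_lit 30005948545) (nat_lit 19) (nat_lit 5) (nat_lit 22) (nat_lit 5) (nat_lit 23) (nat_lit 5) (nat_lit 381) (nat_lit 315) (nat_lit 165)) (XT.nd (nat_lit 94) (nat_lit 0) (nat_lit 0) (XT.lf (nat_lit 0) (nat_lit 10230400797) (nat_lit 336) (nat_lit 25489431223) (nat_lit 84) (nat_lit 2402495182) (nat_lit 19) (nat_lit 5) (nat_lit 23) (nat_lit 5) (nat_lit 20) (nat_lit 5) (nat_lit 382) (nat_lit 315) (nat_lit 164))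 (XT.lf (nat_lit 0) (nat_lit 13403197180) (nat_lit 336) (nat_lit 16875249736) (nat_lit 84) (nat_lit 8800245558) (nat_lit 19) (nat_lit 5) (nat_lit 23) (nat_lit 5) (nat_lit 20) (nat_lit 5) (nat_lit 383) (nat_lit 315) (nat_lit 163)))) (XT.nd (nat_lit 94) (nat_lit 168) (nat_lit 0) (XT.lf (nat_lit 0) (nat_lit 16670538944) (nat_lit 336) (nat_lit 7999399773) (nat_lit 84) (nat_lit 15394898741) (nat_lit 19) (nat_lit 5) (nat_lit 23) (nat_lit 5) (nat_lit 20) (nat_lit 5) (nat_lit 384) (nat_lit 315) (nat_lit 162)) (XT.nd (nat_lit 94) (nat_lit 0) (nat_lit 0) (XT.lf (nat_lit 0) (nat_lit 1169964052) (nat_lit 168) (nat_lit 18877113729) (nat_lit 252) (nat_lit 21034243776) (nat_lit 17) (nat_lit 5) (nat_lit 19) (nat_lit 5) (nat_lit 20) (nat_lit 5) (nat_lit 385) (nat_lit 315) (nat_lit 161)) (XT.lf (nat_lit 0) (nat_lit 10788004319) (nat_lit 168) (nat_lit 12820145617) (nat_lit 252) (nat_lit 18518704446) (nat_lit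 17) (nat_lit 5) (nat_lit 19) (nat_lit 5) (nat_lit 20) (nat_lit 5) (nat_lit 386) (nat_lit 315) (nat_lit 160)))))) (XT.nd (nat_lit 564) (nat_lit 252) (nat_lit 0) (XT.nd (nat_lit 282) (nat_lit 168) (nat_lit 0) (XT.nd (nat_lit 94) (nat_lit 0) (nat_lit 0) (XT.lf (nat_lit 0) (nat_lit 20699201983) (nat_lit 168) (nat_lit 6576885979) (nat_lit 252) (nat_lit 15928833105) (nat_lit 17) (nat_lit 5) (nat_lit 19) (nat_lit 5) (nat_lit 20) (nat_lit 5) (nat_lit 387) (nat_lit 315) (nat_lit 159)) (XT.nd (nat_lit 94) (nat_lit 0) (nat_lit 0) (XT.lf (nat_lit 0) (nat_lit 30912795317) (nat_lit 168) (nat_lit 141515445) (nat_lit 252) (nat_lit 13262215722) (nat_lit 17) (nat_lit 5) (nat_lit 19) (nat_lit 5) (nat_lit 20) (nat_lit 5) (nat_lit 388) (nat_lit 315) (nat_lit 158)) (XT.lf (nat_lit 0) (nat_lit 35010741126) (nat_lit 252) (nat_lit 4088803396) (nat_lit 84) (nat_lit 6361165809) (nat_lit 17) (nat_lit 5) (nat_lit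 20) (nat_lit 5) (nat_lit 18) (nat_lit 5) (nat_lit 389) (nat_lit 315) (nat_lit 157)))) (XT.nd (nat_lit 94) (nat_lit 0) (nat_lit 0) (XT.lf (nat_lit 0) (nat_lit 5622049141) (nat_lit 168) (nat_lit 33521758480) (nat_lit 252) (nat_lit 7494894523) (nat_lit 15) (nat_lit 5) (nat_lit 17) (nat_lit 5) (nat_lit 18) (nat_lit 5) (nat_lit 390) (nat_lit 315) (nat_lit 156)) (XT.nd (nat_lit 94) (nat_lit 0) (nat_lit 0) (XT.lf (nat_lit 0) (nat_lit 15716003408) (nat_lit 168) (nat_lit 27728493885) (nat_lit 252) (nat_lit 4407501469) (nat_lit 15) (nat_lit 5) (nat_lit 17) (nat_lit 5) (nat_lit 18) (nat_lit 5) (nat_lit 391) (nat_lit 315) (nat_lit 155)) (XT.lf (nat_lit 0) (nat_lit 26118393843) (nat_lit 168) (nat_lit 21757029531) (nat_lit 252) (nat_lit 1227590991) (nat_lit 15) (nat_lit 5) (nat_lit 17) (nat_lit 5) (nat_lit 18) (nat_lit 5) (nat_lit 392) (nat_lit 315) (nat_lit 154))))) (XT.nd (nat_lit 282) (nat_lit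 0) (nat_lit 0) (XT.nd (nat_lit 94) (nat_lit 168) (nat_lit 0) (XT.lf (nat_lit 0) (nat_lit 2006542294) (nat_lit 252) (nat_lit 13574312906) (nat_lit 84) (nat_lit 34811430082) (nat_lit 14) (nat_lit 5) (nat_lit 17) (nat_lit 5) (nat_lit 15) (nat_lit 5) (nat_lit 393) (nat_lit 315) (nat_lit 153)) (XT.nd (nat_lit 94) (nat_lit 168) (nat_lit 0) (XT.lf (nat_lit 0) (nat_lit 5312491549) (nat_lit 252) (nat_lit 3889123066) (nat_lit 84) (nat_lit 42519621153) (nat_lit 14) (nat_lit 5) (nat_lit 17) (nat_lit 5) (nat_lit 15) (nat_lit 5) (nat_lit 394) (nat_lit 315) (nat_lit 152)) (XT.lf (nat_lit 0) (nat_lit 6217421651) (nat_lit 168) (nat_lit 2562327429) (nat_lit 252) (nat_lit 44309820974) (nat_lit 12) (nat_lit 5) (nat_lit 14) (nat_lit 5) (nat_lit 15) (nat_lit 5) (nat_lit 395) (nat_lit 315) (nat_lit 151)))) (XT.nd (nat_lit 94) (nat_lit 0) (nat_lit 0) (XT.lf (nat_lit 0) (nat_lit 12435165293) (nat_lit 252)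 (nat_lit 37826443397) (nat_lit 84) (nat_lit 4236222703) (nat_lit 12) (nat_lit 5) (nat_lit 15) (nat_lit 5) (nat_lit 13) (nat_lit 5) (nat_lit 396) (nat_lit 315) (nat_lit 150)) (XT.nd (nat_lit 94) (nat_lit 0) (nat_lit 0) (XT.lf (nat_lit 0) (nat_lit 16227369190) (nat_lit 252) (nat_lit 28530596862) (nat_lit 84) (nat_lit 11191064506) (nat_lit 12) (nat_lit 5) (nat_lit 15) (nat_lit 5) (nat_lit 13) (nat_lit 5) (nat_lit 397) (nat_lit 315) (nat_lit 149)) (XT.lf (nat_lit 0) (nat_lit 20134476897) (nat_lit 252) (nat_lit 18950525489) (nat_lit 84) (nat_lit 18360305809) (nat_lit 12) (nat_lit 5) (nat_lit 15) (nat_lit 5) (nat_lit 13) (nat_lit 5) (nat_lit 398) (nat_lit 315) (nat_lit 148))))))))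
noncomputable def xc153 : XT := (XT.nd (nat_lit 46812) (nat_lit 0) (nat_lit 4704) (XT.nd (nat_lit 1128) (nat_lit 168) (nat_lit 0) (XT.nd (nat_lit 564) (nat_lit 168) (nat_lit 0) (XT.nd (nat_lit 282) (nat_lit 0) (nat_lit 0) (XT.nd (nat_lit 94) (nat_lit 168) (nat_lit 0) (XT.lf (nat_lit 0) (nat_lit 24160130248) (nat_lit 252) (nat_lit 9077299649) (nat_lit 84) (nat_lit 25750629096) (nat_lit 12) (nat_lit 5) (nat_lit 15) (nat_lit 5) (nat_lit 13) (nat_lit 5) (nat_lit 399) (nat_lit 315) (nat_lit 147)) (XT.nd (nat_lit 94) (nat_lit 0) (nat_lit 0) (XT.lf (nat_lit 0) (nat_lit 1120866500) (nat_lit 168) (nat_lit 27198334208) (nat_lit 252) (nat_lit 32259175555) (nat_lit 10) (nat_lit 5) (nat_lit 12) (nat_lit 5) (nat_lit 13) (nat_lit 5) (nat_lit 400) (nat_lit 315) (nat_lit 146)) (XT.lf (nat_lit 0) (nat_lit 11823934718) (nat_lit 168) (nat_lit 20875557378) (nat_lit 252) (nat_lit 29515648511) (nat_lit 10)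 (nat_lit 5) (nat_lit 12) (nat_lit 5) (nat_lit 13) (nat_lit 5) (nat_lit 401) (nat_lit 315) (nat_lit 145)))) (XT.nd (nat_lit 94) (nat_lit 0) (nat_lit 0) (XT.lf (nat_lit 0) (nat_lit 22855233487) (nat_lit 168) (nat_lit 14357954308) (nat_lit 252) (nat_lit 26689538750) (nat_lit 10) (nat_lit 5) (nat_lit 12) (nat_lit 5) (nat_lit 13) (nat_lit 5) (nat_lit 402) (nat_lit 315) (nat_lit 144)) (XT.nd (nat_lit 94) (nat_lit 0) (nat_lit 0) (XT.lf (nat_lit 0) (nat_lit 34225045133) (nat_lit 168) (nat_lit 7639449909) (nat_lit 252) (nat_lit 23778212041) (nat_lit 10) (nat_lit 5) (nat_lit 12) (nat_lit 5) (nat_lit 13) (nat_lit 5) (nat_lit 403) (nat_lit 315) (nat_lit 143)) (XT.lf (nat_lit 0) (nat_lit 45943967511) (nat_lit 168) (nat_lit 713781832) (nat_lit 252) (nat_lit 20778954724) (nat_lit 10) (nat_lit 5) (nat_lit 12) (nat_lit 5) (nat_lit 13) (nat_lit 5) (nat_lit 404) (nat_lit 315) (nat_lit 142))))) (XT.nd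 (nat_lit 282) (nat_lit 84) (nat_lit 0) (XT.nd (nat_lit 94) (nat_lit 84) (nat_lit 0) (XT.lf (nat_lit 0) (nat_lit 51661160322) (nat_lit 252) (nat_lit 11327207615) (nat_lit 84) (nat_lit 6296045756) (nat_lit 10) (nat_lit 5) (nat_lit 13) (nat_lit 5) (nat_lit 11) (nat_lit 4) (nat_lit 405) (nat_lit 315) (nat_lit 141)) (XT.nd (nat_lit 94) (nat_lit 84) (nat_lit 0) (XT.lf (nat_lit 0) (nat_lit 56824856405) (nat_lit 252) (nat_lit 857064510) (nat_lit 84) (nat_lit 13507327899) (nat_lit 10) (nat_lit 5) (nat_lit 13) (nat_lit 5) (nat_lit 11) (nat_lit 4) (nat_lit 406) (nat_lit 315) (nat_lit 140)) (XT.lf (nat_lit 0) (nat_lit 10138807201) (nat_lit 84) (nat_lit 52108340915) (nat_lit 168) (nat_lit 10902938399) (nat_lit 9) (nat_lit 5) (nat_lit 10) (nat_lit 5) (nat_lit 11) (nat_lit 4) (nat_lit 407) (nat_lit 315) (nat_lit 139)))) (XT.nd (nat_lit 94) (nat_lit 84) (nat_lit 0) (XT.lf (nat_lit 0) (nat_lit 21490631643)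 (nat_lit 84) (nat_lit 46353819266) (nat_lit 168) (nat_lit 7327051393) (nat_lit 9) (nat_lit 5) (nat_lit 10) (nat_lit 5) (nat_lit 11) (nat_lit 4) (nat_lit 408) (nat_lit 315) (nat_lit 138)) (XT.nd (nat_lit 94) (nat_lit 84) (nat_lit 0) (XT.lf (nat_lit 0) (nat_lit 33191366901) (nat_lit 84) (nat_lit 40421938147) (nat_lit 168) (nat_lit 3642344286) (nat_lit 9) (nat_lit 5) (nat_lit 10) (nat_lit 5) (nat_lit 11) (nat_lit 4) (nat_lit 409) (nat_lit 315) (nat_lit 137)) (XT.lf (nat_lit 0) (nat_lit 151502258) (nat_lit 168) (nat_lit 34154084793) (nat_lit 84) (nat_lit 45098835655) (nat_lit 8) (nat_lit 5) (nat_lit 10) (nat_lit 5) (nat_lit 9) (nat_lit 5) (nat_lit 410) (nat_lit 315) (nat_lit 136)))))) (XT.nd (nat_lit 45120) (nat_lit 0) (nat_lit 8400) (XT.nd (nat_lit 282) (nat_lit 168) (nat_lit 0) (XT.nd (nat_lit 94) (nat_lit 0) (nat_lit 0) (XT.lf (nat_lit 0) (nat_lit 3985424495) (nat_lit 168) (nat_lit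 23976786337) (nat_lit 84) (nat_lit 53656506342) (nat_lit 8) (nat_lit 5) (nat_lit 10) (nat_lit 5) (nat_lit 9) (nat_lit 5) (nat_lit 411) (nat_lit 315) (nat_lit 135)) (XT.nd (nat_lit 94) (nat_lit 0) (nat_lit 0) (XT.lf (nat_lit 0) (nat_lit 7936381162) (nat_lit 168) (nat_lit 13486768251) (nat_lit 84) (nat_lit 62478567388) (nat_lit 8) (nat_lit 5) (nat_lit 10) (nat_lit 5) (nat_lit 9) (nat_lit 5) (nat_lit 412) (nat_lit 315) (nat_lit 134)) (XT.lf (nat_lit 0) (nat_lit 12008054966) (nat_lit 168) (nat_lit 2674252739) (nat_lit 84) (nat_lit 71573241879) (nat_lit 8) (nat_lit 5) (nat_lit 10) (nat_lit 5) (nat_lit 9) (nat_lit 5) (nat_lit 413) (nat_lit 315) (nat_lit 133)))) (XT.nd (nat_lit 94) (nat_lit 0) (nat_lit 0) (XT.lf (nat_lit 0) (nat_lit 8645016409) (nat_lit 168) (nat_lit 7644984355) (nat_lit 252) (nat_lit 72389750225) (nat_lit 6) (nat_lit 5) (nat_lit 8) (nat_lit 5) (nat_lit 9) (nat_lit 5) (nat_lit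 414) (nat_lit 315) (nat_lit 132)) (XT.nd (nat_lit 94) (nat_lit 0) (nat_lit 0) (XT.lf (nat_lit 0) (nat_lit 20369289943) (nat_lit 168) (nat_lit 361626879) (nat_lit 252) (nat_lit 70447377888) (nat_lit 6) (nat_lit 5) (nat_lit 8) (nat_lit 5) (nat_lit 9) (nat_lit 5) (nat_lit 415) (nat_lit 315) (nat_lit 131)) (XT.lf (nat_lit 0) (nat_lit 25378763683) (nat_lit 252) (nat_lit 61370736520) (nat_lit 84) (nat_lit 7002650992) (nat_lit 6) (nat_lit 5) (nat_lit 9) (nat_lit 5) (nat_lit 7) (nat_lit 4) (nat_lit 416) (nat_lit 315) (nat_lit 130))))) (XT.nd (nat_lit 282) (nat_lit 0) (nat_lit 0) (XT.nd (nat_lit 94) (nat_lit 0) (nat_lit 0) (XT.lf (nat_lit 0) (nat_lit 1168249339) (nat_lit 0) (nat_lit 1168249339) (nat_lit 924) (nat_lit 2909525409) (nat_lit 106) (nat_lit 5) (nat_lit 106) (nat_lit 3) (nat_lit 117) (nat_lit 3) (nat_lit 316) (nat_lit 316) (nat_lit 229)) (XT.nd (nat_lit 94) (nat_lit 0) (nat_lit 0)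 (XT.lf (nat_lit 0) (nat_lit 5270268201) (nat_lit 924) (nat_lit 4469565641) (nat_lit 1008) (nat_lit 895576113) (nat_lit 106) (nat_lit 5) (nat_lit 117) (nat_lit 3) (nat_lit 118) (nat_lit 5) (nat_lit 317) (nat_lit 316) (nat_lit 228)) (XT.lf (nat_lit 0) (nat_lit 5889271079) (nat_lit 924) (nat_lit 704472887) (nat_lit 1008) (nat_lit 4189492949) (nat_lit 106) (nat_lit 5) (nat_lit 117) (nat_lit 3) (nat_lit 118) (nat_lit 5) (nat_lit 318) (nat_lit 316) (nat_lit 227)))) (XT.nd (nat_lit 94) (nat_lit 0) (nat_lit 84) (XT.lf (nat_lit 84) (nat_lit 3231524598) (nat_lit 0) (nat_lit 3307937137) (nat_lit 1008) (nat_lit 4395929869) (nat_lit 107) (nat_lit 5) (nat_lit 106) (nat_lit 5) (nat_lit 118) (nat_lit 5) (nat_lit 319) (nat_lit 316) (nat_lit 226)) (XT.nd (nat_lit 94) (nat_lit 0) (nat_lit 0) (XT.lf (nat_lit 0) (nat_lit 7198551949) (nat_lit 924) (nat_lit 3800046205) (nat_lit 1008) (nat_lit 94127417) (nat_lit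 107) (nat_lit 5) (nat_lit 118) (nat_lit 5) (nat_lit 119) (nat_lit 5) (nat_lit 320) (nat_lit 316) (nat_lit 225)) (XT.lf (nat_lit 84) (nat_lit 183387392) (nat_lit 0) (nat_lit 7711448061) (nat_lit 1008) (nat_lit 3359691954) (nat_lit 108) (nat_lit 5) (nat_lit 107) (nat_lit 5) (nat_lit 119) (nat_lit 5) (nat_lit 321) (nat_lit 316) (nat_lit 224))))))) (XT.nd (nat_lit 1128) (nat_lit 2940) (nat_lit 0) (XT.nd (nat_lit 564) (nat_lit 0) (nat_lit 0) (XT.nd (nat_lit 282) (nat_lit 840) (nat_lit 0) (XT.nd (nat_lit 94) (nat_lit 0) (nat_lit 0) (XT.lf (nat_lit 84) (nat_lit 4359712413) (nat_lit 0) (nat_lit 4274223213) (nat_lit 1008) (nat_lit 2786858094) (nat_lit 108) (nat_lit 5) (nat_lit 107) (nat_lit 5) (nat_lit 119) (nat_lit 5) (nat_lit 322) (nat_lit 316) (nat_lit 223)) (XT.nd (nat_lit 94) (nat_lit 0) (nat_lit 84) (XT.lf (nat_lit 84) (nat_lit 8654684886) (nat_lit 0) (nat_lit 723384446) (nat_lit 1008)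 (nat_lit 2214802791) (nat_lit 108) (nat_lit 5) (nat_lit 107) (nat_lit 5) (nat_lit 119) (nat_lit 5) (nat_lit 323) (nat_lit 316) (nat_lit 222)) (XT.lf (nat_lit 84) (nat_lit 1298335127) (nat_lit 0) (nat_lit 8871683294) (nat_lit 1008) (nat_lit 1599599856) (nat_lit 109) (nat_lit 5) (nat_lit 108) (nat_lit 5) (nat_lit 120) (nat_lit 5) (nat_lit 324) (nat_lit 316) (nat_lit 221)))) (XT.nd (nat_lit 94) (nat_lit 924) (nat_lit 0) (XT.lf (nat_lit 84) (nat_lit 5709841131) (nat_lit 0) (nat_lit 5297805387) (nat_lit 1008) (nat_lit 943639519) (nat_lit 109) (nat_lit 5) (nat_lit 108) (nat_lit 5) (nat_lit 120) (nat_lit 5) (nat_lit 325) (nat_lit 316) (nat_lit 220)) (XT.nd (nat_lit 94) (nat_lit 924) (nat_lit 0) (XT.lf (nat_lit 84) (nat_lit 10247351219) (nat_lit 0) (nat_lit 1607533240) (nat_lit 1008) (nat_lit 284302625) (nat_lit 109) (nat_lit 5) (nat_lit 108) (nat_lit 5) (nat_lit 120) (nat_lit 5) (nat_lit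 326) (nat_lit 316) (nat_lit 219)) (XT.lf (nat_lit 0) (nat_lit 419642353) (nat_lit 1008) (nat_lit 9723882205) (nat_lit 1092) (nat_lit 2188359587) (nat_lit 97) (nat_lit 5) (nat_lit 109) (nat_lit 5) (nat_lit 110) (nat_lit 5) (nat_lit 327) (nat_lit 316) (nat_lit 218))))) (XT.nd (nat_lit 282) (nat_lit 0) (nat_lit 84) (XT.nd (nat_lit 94) (nat_lit 0) (nat_lit 0) (XT.lf (nat_lit 0) (nat_lit 1160204862) (nat_lit 1008) (nat_lit 5273416545) (nat_lit 1092) (nat_lit 6096287799) (nat_lit 97) (nat_lit 5) (nat_lit 109) (nat_lit 5) (nat_lit 110) (nat_lit 5) (nat_lit 328) (nat_lit 316) (nat_lit 217)) (XT.nd (nat_lit 94) (nat_lit 0) (nat_lit 84) (XT.lf (nat_lit 0) (nat_lit 1908507287) (nat_lit 1008) (nat_lit 696008306) (nat_lit 1092) (nat_lit 10130112859) (nat_lit 97) (nat_lit 5) (nat_lit 109) (nat_lit 5) (nat_lit 110) (nat_lit 5) (nat_lit 329) (nat_lit 316) (nat_lit 216)) (XT.lf (nat_lit 0) (nat_lit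 2719652675) (nat_lit 1008) (nat_lit 8863638237) (nat_lit 1092) (nat_lit 1361255220) (nat_lit 98) (nat_lit 5) (nat_lit 110) (nat_lit 5) (nat_lit 111) (nat_lit 5) (nat_lit 330) (nat_lit 316) (nat_lit 215)))) (XT.nd (nat_lit 94) (nat_lit 0) (nat_lit 0) (XT.lf (nat_lit 0) (nat_lit 3575537784) (nat_lit 1008) (nat_lit 4177940975) (nat_lit 1092) (nat_lit 5406963788) (nat_lit 98) (nat_lit 5) (nat_lit 110) (nat_lit 5) (nat_lit 111) (nat_lit 5) (nat_lit 331) (nat_lit 316) (nat_lit 214)) (XT.nd (nat_lit 94) (nat_lit 0) (nat_lit 84) (XT.lf (nat_lit 84) (nat_lit 655406961) (nat_lit 0) (nat_lit 3795099500) (nat_lit 1092) (nat_lit 8932832547) (nat_lit 99) (nat_lit 5) (nat_lit 98) (nat_lit 5) (nat_lit 111) (nat_lit 5) (nat_lit 332) (nat_lit 316) (nat_lit 213)) (XT.lf (nat_lit 0) (nat_lit 5385883214) (nat_lit 1008) (nat_lit 7899145015) (nat_lit 84) (nat_lit 327159272) (nat_lit 99) (nat_lit 5) (nat_lit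 111) (nat_lit 5) (nat_lit 100) (nat_lit 5) (nat_lit 333) (nat_lit 316) (nat_lit 212)))))) (XT.nd (nat_lit 564) (nat_lit 1512) (nat_lit 0) (XT.nd (nat_lit 282) (nat_lit 588) (nat_lit 0) (XT.nd (nat_lit 94) (nat_lit 1008) (nat_lit 0) (XT.lf (nat_lit 0) (nat_lit 6375872596) (nat_lit 1008) (nat_lit 2970370345) (nat_lit 84) (nat_lit 4501165084) (nat_lit 99) (nat_lit 5) (nat_lit 111) (nat_lit 5) (nat_lit 100) (nat_lit 5) (nat_lit 334) (nat_lit 316) (nat_lit 211)) (XT.nd (nat_lit 94) (nat_lit 0) (nat_lit 0) (XT.lf (nat_lit 0) (nat_lit 2143827295) (nat_lit 1008) (nat_lit 5261189261) (nat_lit 1092) (nat_lit 6684711077) (nat_lit 87) (nat_lit 5) (nat_lit 99) (nat_lit 5) (nat_lit 100) (nat_lit 5) (nat_lit 335) (nat_lit 316) (nat_lit 210)) (XT.lf (nat_lit 0) (nat_lit 7469079901) (nat_lit 1008) (nat_lit 1015467741) (nat_lit 1092) (nat_lit 5854506080) (nat_lit 87) (nat_lit 5) (nat_lit 99) (nat_lit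 5) (nat_lit 100) (nat_lit 5) (nat_lit 336) (nat_lit 316) (nat_lit 209)))) (XT.nd (nat_lit 94) (nat_lit 588) (nat_lit 0) (XT.lf (nat_lit 0) (nat_lit 9618769810) (nat_lit 1092) (nat_lit 1680646724) (nat_lit 84) (nat_lit 3296099927) (nat_lit 87) (nat_lit 5) (nat_lit 100) (nat_lit 5) (nat_lit 88) (nat_lit 5) (nat_lit 337) (nat_lit 316) (nat_lit 208)) (XT.nd (nat_lit 94) (nat_lit 0) (nat_lit 0) (XT.lf (nat_lit 0) (nat_lit 3723907957) (nat_lit 588) (nat_lit 7099812381) (nat_lit 672) (nat_lit 4035170179) (nat_lit 80) (nat_lit 5) (nat_lit 87) (nat_lit 5) (nat_lit 88) (nat_lit 5) (nat_lit 338) (nat_lit 316) (nat_lit 207)) (XT.lf (nat_lit 0) (nat_lit 9321452624) (nat_lit 588) (nat_lit 2750606825) (nat_lit 672) (nat_lit 3058244285) (nat_lit 80) (nat_lit 5) (nat_lit 87) (nat_lit 5) (nat_lit 88) (nat_lit 5) (nat_lit 339) (nat_lit 316) (nat_lit 206))))) (XT.nd (nat_lit 282) (nat_lit 924) (nat_lit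 0) (XT.nd (nat_lit 94) (nat_lit 588) (nat_lit 0) (XT.lf (nat_lit 0) (nat_lit 13365144240) (nat_lit 672) (nat_lit 345097886) (nat_lit 84) (nat_lit 1699760972) (nat_lit 80) (nat_lit 5) (nat_lit 88) (nat_lit 5) (nat_lit 81) (nat_lit 5) (nat_lit 340) (nat_lit 316) (nat_lit 205)) (XT.nd (nat_lit 94) (nat_lit 84) (nat_lit 0) (XT.lf (nat_lit 0) (nat_lit 5357865454) (nat_lit 504) (nat_lit 9410918732) (nat_lit 588) (nat_lit 927462402) (nat_lit 74) (nat_lit 5) (nat_lit 80) (nat_lit 5) (nat_lit 81) (nat_lit 5) (nat_lit 341) (nat_lit 316) (nat_lit 204)) (XT.lf (nat_lit 0) (nat_lit 212937956) (nat_lit 588) (nat_lit 4758737622) (nat_lit 84) (nat_lit 11019893985) (nat_lit 73) (nat_lit 5) (nat_lit 80) (nat_lit 5) (nat_lit 74) (nat_lit 5) (nat_lit 342) (nat_lit 316) (nat_lit 203)))) (XT.nd (nat_lit 188) (nat_lit 420) (nat_lit 0) (XT.nd (nat_lit 94) (nat_lit 0) (nat_lit 0) (XT.lf (nat_lit 0) (nat_lit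 994575397) (nat_lit 504) (nat_lit 374289594) (nat_lit 588) (nat_lit 14926958792) (nat_lit 67) (nat_lit 5) (nat_lit 73) (nat_lit 5) (nat_lit 74) (nat_lit 5) (nat_lit 343) (nat_lit 316) (nat_lit 202)) (XT.lf (nat_lit 0) (nat_lit 2643907516) (nat_lit 588) (nat_lit 9634786464) (nat_lit 84) (nat_lit 4328285501) (nat_lit 67) (nat_lit 5) (nat_lit 74) (nat_lit 5) (nat_lit 68) (nat_lit 5) (nat_lit 344) (nat_lit 316) (nat_lit 201))) (XT.nd (nat_lit 94) (nat_lit 420) (nat_lit 0) (XT.lf (nat_lit 0) (nat_lit 3952406134) (nat_lit 588) (nat_lit 3806312681) (nat_lit 84) (nat_lit 9169300161) (nat_lit 67) (nat_lit 5) (nat_lit 74) (nat_lit 5) (nat_lit 68) (nat_lit 5) (nat_lit 345) (nat_lit 316) (nat_lit 200)) (XT.lf (nat_lit 0) (nat_lit 2238417841) (nat_lit 420) (nat_lit 3075655043) (nat_lit 504) (nat_lit 11944595358) (nat_lit 62) (nat_lit 5) (nat_lit 67) (nat_lit 5) (nat_lit 68) (nat_lit 5) (nat_lit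 346) (nat_lit 316) (nat_lit 199))))))))
noncomputable def xc154 : XT := (XT.nd (nat_lit 2256) (nat_lit 1428) (nat_lit 0) (XT.nd (nat_lit 1128) (nat_lit 1008) (nat_lit 0) (XT.nd (nat_lit 564) (nat_lit 840) (nat_lit 0) (XT.nd (nat_lit 282) (nat_lit 336) (nat_lit 0) (XT.nd (nat_lit 94) (nat_lit 420) (nat_lit 0) (XT.lf (nat_lit 0) (nat_lit 6766067799) (nat_lit 504) (nat_lit 9074668187) (nat_lit 84) (nat_lit 1757386879) (nat_lit 62) (nat_lit 5) (nat_lit 68) (nat_lit 5) (nat_lit 63) (nat_lit 5) (nat_lit 347) (nat_lit 316) (nat_lit 198)) (XT.nd (nat_lit 94) (nat_lit 420) (nat_lit 0) (XT.lf (nat_lit 0) (nat_lit 8285408289) (nat_lit 504) (nat_lit 2985702802) (nat_lit 84) (nat_lit 6676342577) (nat_lit 62) (nat_lit 5) (nat_lit 68) (nat_lit 5) (nat_lit 63) (nat_lit 5) (nat_lit 348) (nat_lit 316) (nat_lit 197)) (XT.lf (nat_lit 0) (nat_lit 3350333946) (nat_lit 420) (nat_lit 6525901441) (nat_lit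 504) (nat_lit 8430666408) (nat_lit 57) (nat_lit 5) (nat_lit 62) (nat_lit 5) (nat_lit 63) (nat_lit 5) (nat_lit 349) (nat_lit 316) (nat_lit 196)))) (XT.nd (nat_lit 94) (nat_lit 336) (nat_lit 0) (XT.lf (nat_lit 0) (nat_lit 9936987864) (nat_lit 420) (nat_lit 1601882035) (nat_lit 504) (nat_lit 7137968410) (nat_lit 57) (nat_lit 5) (nat_lit 62) (nat_lit 5) (nat_lit 63) (nat_lit 5) (nat_lit 350) (nat_lit 316) (nat_lit 195)) (XT.nd (nat_lit 94) (nat_lit 336) (nat_lit 0) (XT.lf (nat_lit 0) (nat_lit 13279100219) (nat_lit 504) (nat_lit 2374005061) (nat_lit 84) (nat_lit 3404371355) (nat_lit 57) (nat_lit 5) (nat_lit 63) (nat_lit 5) (nat_lit 58) (nat_lit 5) (nat_lit 351) (nat_lit 316) (nat_lit 194)) (XT.lf (nat_lit 0) (nat_lit 4249571672) (nat_lit 336) (nat_lit 10874082692) (nat_lit 420) (nat_lit 4324738916) (nat_lit 53) (nat_lit 5) (nat_lit 57) (nat_lit 5) (nat_lit 58) (nat_lit 5) (nat_lit 352)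 (nat_lit 316) (nat_lit 193))))) (XT.nd (nat_lit 282) (nat_lit 336) (nat_lit 0) (XT.nd (nat_lit 94) (nat_lit 504) (nat_lit 0) (XT.lf (nat_lit 0) (nat_lit 11120050730) (nat_lit 336) (nat_lit 5922114212) (nat_lit 420) (nat_lit 2808782369) (nat_lit 53) (nat_lit 5) (nat_lit 57) (nat_lit 5) (nat_lit 58) (nat_lit 5) (nat_lit 353) (nat_lit 316) (nat_lit 192)) (XT.nd (nat_lit 94) (nat_lit 504) (nat_lit 0) (XT.lf (nat_lit 0) (nat_lit 18195021703) (nat_lit 336) (nat_lit 817363831) (nat_lit 420) (nat_lit 1253873489) (nat_lit 53) (nat_lit 5) (nat_lit 57) (nat_lit 5) (nat_lit 58) (nat_lit 5) (nat_lit 354) (nat_lit 316) (nat_lit 191)) (XT.lf (nat_lit 0) (nat_lit 427605328) (nat_lit 504) (nat_lit 15856409145) (nat_lit 84) (nat_lit 4407711587) (nat_lit 47) (nat_lit 5) (nat_lit 53) (nat_lit 5) (nat_lit 48) (nat_lit 5) (nat_lit 355) (nat_lit 316) (nat_lit 190)))) (XT.nd (nat_lit 94) (nat_lit 336) (nat_lit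 0) (XT.lf (nat_lit 0) (nat_lit 2157859660) (nat_lit 504) (nat_lit 9159837351) (nat_lit 84) (nat_lit 9811618969) (nat_lit 47) (nat_lit 5) (nat_lit 53) (nat_lit 5) (nat_lit 48) (nat_lit 5) (nat_lit 356) (nat_lit 316) (nat_lit 189)) (XT.nd (nat_lit 94) (nat_lit 336) (nat_lit 0) (XT.lf (nat_lit 0) (nat_lit 3934472802) (nat_lit 504) (nat_lit 2264016599) (nat_lit 84) (nat_lit 15382240916) (nat_lit 47) (nat_lit 5) (nat_lit 53) (nat_lit 5) (nat_lit 48) (nat_lit 5) (nat_lit 357) (nat_lit 316) (nat_lit 188)) (XT.lf (nat_lit 0) (nat_lit 4936949262) (nat_lit 336) (nat_lit 871126631) (nat_lit 420) (nat_lit 16236795717) (nat_lit 43) (nat_lit 5) (nat_lit 47) (nat_lit 5) (nat_lit 48) (nat_lit 5) (nat_lit 358) (nat_lit 316) (nat_lit 187)))))) (XT.nd (nat_lit 564) (nat_lit 420) (nat_lit 0) (XT.nd (nat_lit 282) (nat_lit 252) (nat_lit 0) (XT.nd (nat_lit 94) (nat_lit 336) (nat_lit 0) (XT.lf (nat_lit 0)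 (nat_lit 7802540614) (nat_lit 420) (nat_lit 10167861476) (nat_lit 84) (nat_lit 4551084511) (nat_lit 43) (nat_lit 5) (nat_lit 48) (nat_lit 5) (nat_lit 44) (nat_lit 5) (nat_lit 359) (nat_lit 316) (nat_lit 186)) (XT.nd (nat_lit 94) (nat_lit 336) (nat_lit 0) (XT.lf (nat_lit 0) (nat_lit 9861013774) (nat_lit 420) (nat_lit 3029567714) (nat_lit 84) (nat_lit 10122258138) (nat_lit 43) (nat_lit 5) (nat_lit 48) (nat_lit 5) (nat_lit 44) (nat_lit 5) (nat_lit 360) (nat_lit 316) (nat_lit 185)) (XT.lf (nat_lit 0) (nat_lit 4411128671) (nat_lit 336) (nat_lit 7609402673) (nat_lit 420) (nat_lit 11497768697) (nat_lit 39) (nat_lit 5) (nat_lit 43) (nat_lit 5) (nat_lit 44) (nat_lit 5) (nat_lit 361) (nat_lit 316) (nat_lit 184)))) (XT.nd (nat_lit 94) (nat_lit 252) (nat_lit 0) (XT.lf (nat_lit 0) (nat_lit 12139031546) (nat_lit 336) (nat_lit 2133177757) (nat_lit 420) (nat_lit 9766467492) (nat_lit 39) (nat_lit 5)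 (nat_lit 43) (nat_lit 5) (nat_lit 44) (nat_lit 5) (nat_lit 362) (nat_lit 316) (nat_lit 183)) (XT.nd (nat_lit 94) (nat_lit 252) (nat_lit 0) (XT.lf (nat_lit 0) (nat_lit 16622310058) (nat_lit 420) (nat_lit 4511191014) (nat_lit 84) (nat_lit 3440824787) (nat_lit 39) (nat_lit 5) (nat_lit 44) (nat_lit 5) (nat_lit 40) (nat_lit 5) (nat_lit 363) (nat_lit 316) (nat_lit 182)) (XT.lf (nat_lit 0) (nat_lit 3140331150) (nat_lit 252) (nat_lit 15951863142) (nat_lit 336) (nat_lit 6032957948) (nat_lit 36) (nat_lit 5) (nat_lit 39) (nat_lit 5) (nat_lit 40) (nat_lit 5) (nat_lit 364) (nat_lit 316) (nat_lit 181))))) (XT.nd (nat_lit 282) (nat_lit 0) (nat_lit 0) (XT.nd (nat_lit 94) (nat_lit 420) (nat_lit 0) (XT.lf (nat_lit 0) (nat_lit 11117333143) (nat_lit 252) (nat_lit 10562468530) (nat_lit 336) (nat_lit 4012002934) (nat_lit 36) (nat_lit 5) (nat_lit 39) (nat_lit 5) (nat_lit 40) (nat_lit 5) (nat_lit 365) (nat_lit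 316) (nat_lit 180)) (XT.nd (nat_lit 94) (nat_lit 420) (nat_lit 0) (XT.lf (nat_lit 0) (nat_lit 19334491024) (nat_lit 252) (nat_lit 5007381339) (nat_lit 336) (nat_lit 1934354597) (nat_lit 36) (nat_lit 5) (nat_lit 39) (nat_lit 5) (nat_lit 40) (nat_lit 5) (nat_lit 366) (nat_lit 316) (nat_lit 179)) (XT.lf (nat_lit 0) (nat_lit 214398251) (nat_lit 420) (nat_lit 25948474567) (nat_lit 84) (nat_lit 715516300) (nat_lit 31) (nat_lit 5) (nat_lit 36) (nat_lit 5) (nat_lit 32) (nat_lit 5) (nat_lit 367) (nat_lit 316) (nat_lit 178)))) (XT.nd (nat_lit 94) (nat_lit 0) (nat_lit 0) (XT.lf (nat_lit 0) (nat_lit 2508419603) (nat_lit 420) (nat_lit 18383130517) (nat_lit 84) (nat_lit 6603394104) (nat_lit 31) (nat_lit 5) (nat_lit 36) (nat_lit 5) (nat_lit 32) (nat_lit 5) (nat_lit 368) (nat_lit 316) (nat_lit 177)) (XT.nd (nat_lit 94) (nat_lit 0) (nat_lit 0) (XT.lf (nat_lit 0) (nat_lit 4868149190) (nat_lit 420) (nat_lit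 10590212361) (nat_lit 84) (nat_lit 12672441102) (nat_lit 31) (nat_lit 5) (nat_lit 36) (nat_lit 5) (nat_lit 32) (nat_lit 5) (nat_lit 369) (nat_lit 316) (nat_lit 176)) (XT.lf (nat_lit 0) (nat_lit 7295786526) (nat_lit 420) (nat_lit 2562456281) (nat_lit 84) (nat_lit 18928314280) (nat_lit 31) (nat_lit 5) (nat_lit 36) (nat_lit 5) (nat_lit 32) (nat_lit 5) (nat_lit 370) (nat_lit 316) (nat_lit 175))))))) (XT.nd (nat_lit 1128) (nat_lit 420) (nat_lit 0) (XT.nd (nat_lit 564) (nat_lit 504) (nat_lit 0) (XT.nd (nat_lit 282) (nat_lit 252) (nat_lit 0) (XT.nd (nat_lit 94) (nat_lit 0) (nat_lit 0) (XT.lf (nat_lit 0) (nat_lit 5824980813) (nat_lit 252) (nat_lit 4026398141) (nat_lit 336) (nat_lit 19609648485) (nat_lit 28) (nat_lit 5) (nat_lit 31) (nat_lit 5) (nat_lit 32) (nat_lit 5) (nat_lit 371) (nat_lit 316) (nat_lit 174)) (XT.nd (nat_lit 94) (nat_lit 0) (nat_lit 0) (XT.lf (nat_lit 0) (nat_lit 12527906651)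 (nat_lit 336) (nat_lit 15655437696) (nat_lit 84) (nat_lit 1971789499) (nat_lit 28) (nat_lit 5) (nat_lit 32) (nat_lit 5) (nat_lit 29) (nat_lit 5) (nat_lit 372) (nat_lit 316) (nat_lit 173)) (XT.lf (nat_lit 0) (nat_lit 15323725864) (nat_lit 336) (nat_lit 7475045403) (nat_lit 84) (nat_lit 8070880313) (nat_lit 28) (nat_lit 5) (nat_lit 32) (nat_lit 5) (nat_lit 29) (nat_lit 5) (nat_lit 373) (nat_lit 316) (nat_lit 172)))) (XT.nd (nat_lit 94) (nat_lit 0) (nat_lit 0) (XT.lf (nat_lit 0) (nat_lit 972287017) (nat_lit 252) (nat_lit 17238858414) (nat_lit 336) (nat_lit 13395040431) (nat_lit 25) (nat_lit 5) (nat_lit 28) (nat_lit 5) (nat_lit 29) (nat_lit 5) (nat_lit 374) (nat_lit 316) (nat_lit 171)) (XT.nd (nat_lit 94) (nat_lit 0) (nat_lit 0) (XT.lf (nat_lit 0) (nat_lit 9833775518) (nat_lit 252) (nat_lit 11427688868) (nat_lit 336) (nat_lit 11101831993) (nat_lit 25) (nat_lit 5) (nat_lit 28) (nat_lit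 5) (nat_lit 29) (nat_lit 5) (nat_lit 375) (nat_lit 316) (nat_lit 170)) (XT.lf (nat_lit 0) (nat_lit 18963977669) (nat_lit 252) (nat_lit 5437870156) (nat_lit 336) (nat_lit 8742187036) (nat_lit 25) (nat_lit 5) (nat_lit 28) (nat_lit 5) (nat_lit 29) (nat_lit 5) (nat_lit 376) (nat_lit 316) (nat_lit 169))))) (XT.nd (nat_lit 282) (nat_lit 336) (nat_lit 0) (XT.nd (nat_lit 94) (nat_lit 168) (nat_lit 0) (XT.lf (nat_lit 0) (nat_lit 27642525920) (nat_lit 336) (nat_lit 5585028266) (nat_lit 84) (nat_lit 721348457) (nat_lit 25) (nat_lit 5) (nat_lit 29) (nat_lit 5) (nat_lit 26) (nat_lit 5) (nat_lit 377) (nat_lit 316) (nat_lit 168)) (XT.nd (nat_lit 94) (nat_lit 0) (nat_lit 0) (XT.lf (nat_lit 0) (nat_lit 3281166343) (nat_lit 168) (nat_lit 27786421784) (nat_lit 252) (nat_lit 3708548690) (nat_lit 23) (nat_lit 5) (nat_lit 25) (nat_lit 5) (nat_lit 26) (nat_lit 5) (nat_lit 378) (nat_lit 316) (nat_lit 167))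 (XT.lf (nat_lit 0) (nat_lit 12534899302) (nat_lit 168) (nat_lit 22118052000) (nat_lit 252) (nat_lit 974402691) (nat_lit 23) (nat_lit 5) (nat_lit 25) (nat_lit 5) (nat_lit 26) (nat_lit 5) (nat_lit 379) (nat_lit 316) (nat_lit 166)))) (XT.nd (nat_lit 94) (nat_lit 252) (nat_lit 0) (XT.lf (nat_lit 0) (nat_lit 1803235325) (nat_lit 252) (nat_lit 14453400156) (nat_lit 84) (nat_lit 20247899019) (nat_lit 22) (nat_lit 5) (nat_lit 25) (nat_lit 5) (nat_lit 23) (nat_lit 5) (nat_lit 380) (nat_lit 316) (nat_lit 165)) (XT.nd (nat_lit 94) (nat_lit 252) (nat_lit 0) (XT.lf (nat_lit 0) (nat_lit 4642758974) (nat_lit 252) (nat_lit 5561972700) (nat_lit 84) (nat_lit 27204005522) (nat_lit 22) (nat_lit 5) (nat_lit 25) (nat_lit 5) (nat_lit 23) (nat_lit 5) (nat_lit 381) (nat_lit 316) (nat_lit 164)) (XT.lf (nat_lit 0) (nat_lit 3673800506) (nat_lit 252) (nat_lit 3929091079) (nat_lit 336) (nat_lit 30737083177) (nat_lit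 19) (nat_lit 5) (nat_lit 22) (nat_lit 5) (nat_lit 23) (nat_lit 5) (nat_lit 382) (nat_lit 316) (nat_lit 163)))))) (XT.nd (nat_lit 564) (nat_lit 252) (nat_lit 0) (XT.nd (nat_lit 282) (nat_lit 168) (nat_lit 0) (XT.nd (nat_lit 94) (nat_lit 0) (nat_lit 0) (XT.lf (nat_lit 0) (nat_lit 10734834332) (nat_lit 336) (nat_lit 26015660283) (nat_lit 84) (nat_lit 2547118892) (nat_lit 19) (nat_lit 5) (nat_lit 23) (nat_lit 5) (nat_lit 20) (nat_lit 5) (nat_lit 383) (nat_lit 316) (nat_lit 162)) (XT.nd (nat_lit 94) (nat_lit 0) (nat_lit 0) (XT.lf (nat_lit 0) (nat_lit 14000355954) (nat_lit 336) (nat_lit 17142375389) (nat_lit 84) (nat_lit 9141090375) (nat_lit 19) (nat_lit 5) (nat_lit 23) (nat_lit 5) (nat_lit 20) (nat_lit 5) (nat_lit 384) (nat_lit 316) (nat_lit 161)) (XT.lf (nat_lit 0) (nat_lit 17363523189) (nat_lit 336) (nat_lit 7999071672) (nat_lit 84) (nat_lit 15938132072) (nat_lit 19) (nat_lit 5) (nat_lit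 23) (nat_lit 5) (nat_lit 20) (nat_lit 5) (nat_lit 385) (nat_lit 316) (nat_lit 160)))) (XT.nd (nat_lit 94) (nat_lit 0) (nat_lit 0) (XT.lf (nat_lit 0) (nat_lit 1452028521) (nat_lit 168) (nat_lit 19389846642) (nat_lit 252) (nat_lit 21506955318) (nat_lit 17) (nat_lit 5) (nat_lit 19) (nat_lit 5) (nat_lit 20) (nat_lit 5) (nat_lit 386) (nat_lit 316) (nat_lit 159)) (XT.nd (nat_lit 94) (nat_lit 0) (nat_lit 0) (XT.lf (nat_lit 0) (nat_lit 11360837481) (nat_lit 168) (nat_lit 13147291166) (nat_lit 252) (nat_lit 18918826946) (nat_lit 17) (nat_lit 5) (nat_lit 19) (nat_lit 5) (nat_lit 20) (nat_lit 5) (nat_lit 387) (nat_lit 316) (nat_lit 158)) (XT.lf (nat_lit 0) (nat_lit 21572113935) (nat_lit 168) (nat_lit 6712603620) (nat_lit 252) (nat_lit 16253900124) (nat_lit 17) (nat_lit 5) (nat_lit 19) (nat_lit 5) (nat_lit 20) (nat_lit 5) (nat_lit 388) (nat_lit 316) (nat_lit 157))))) (XT.nd (nat_lit 282) (nat_lit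 84) (nat_lit 0) (XT.nd (nat_lit 94) (nat_lit 168) (nat_lit 0) (XT.lf (nat_lit 0) (nat_lit 32095375861) (nat_lit 168) (nat_lit 79786202) (nat_lit 252) (nat_lit 13509690862) (nat_lit 17) (nat_lit 5) (nat_lit 19) (nat_lit 5) (nat_lit 20) (nat_lit 5) (nat_lit 389) (nat_lit 316) (nat_lit 156)) (XT.nd (nat_lit 94) (nat_lit 168) (nat_lit 0) (XT.lf (nat_lit 0) (nat_lit 36250122160) (nat_lit 252) (nat_lit 3993331386) (nat_lit 84) (nat_lit 6621198154) (nat_lit 17) (nat_lit 5) (nat_lit 20) (nat_lit 5) (nat_lit 18) (nat_lit 5) (nat_lit 390) (nat_lit 316) (nat_lit 155)) (XT.lf (nat_lit 0) (nat_lit 6016307752) (nat_lit 168) (nat_lit 34492556244) (nat_lit 252) (nat_lit 7570390198) (nat_lit 15) (nat_lit 5) (nat_lit 17) (nat_lit 5) (nat_lit 18) (nat_lit 5) (nat_lit 391) (nat_lit 316) (nat_lit 154)))) (XT.nd (nat_lit 188) (nat_lit 84) (nat_lit 0) (XT.nd (nat_lit 94) (nat_lit 0) (nat_lit 0) (XT.lf (nat_lit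 0) (nat_lit 16416560413) (nat_lit 168) (nat_lit 28521756392) (nat_lit 252) (nat_lit 4392003990) (nat_lit 15) (nat_lit 5) (nat_lit 17) (nat_lit 5) (nat_lit 18) (nat_lit 5) (nat_lit 392) (nat_lit 316) (nat_lit 153)) (XT.lf (nat_lit 0) (nat_lit 27135009638) (nat_lit 168) (nat_lit 22367170770) (nat_lit 252) (nat_lit 1118090517) (nat_lit 15) (nat_lit 5) (nat_lit 17) (nat_lit 5) (nat_lit 18) (nat_lit 5) (nat_lit 393) (nat_lit 316) (nat_lit 152))) (XT.nd (nat_lit 94) (nat_lit 0) (nat_lit 0) (XT.lf (nat_lit 0) (nat_lit 2208980677) (nat_lit 252) (nat_lit 13791024753) (nat_lit 84) (nat_lit 35949608240) (nat_lit 14) (nat_lit 5) (nat_lit 17) (nat_lit 5) (nat_lit 15) (nat_lit 5) (nat_lit 394) (nat_lit 316) (nat_lit 151)) (XT.lf (nat_lit 0) (nat_lit 5613197770) (nat_lit 252) (nat_lit 3811730641) (nat_lit 84) (nat_lit 43894978511) (nat_lit 14) (nat_lit 5) (nat_lit 17) (nat_lit 5) (nat_lit 15) (nat_lit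 5) (nat_lit 395) (nat_lit 316) (nat_lit 150))))))))
noncomputable def xc155 : XT := (XT.nd (nat_lit 46906) (nat_lit 0) (nat_lit 5124) (XT.nd (nat_lit 1128) (nat_lit 336) (nat_lit 0) (XT.nd (nat_lit 564) (nat_lit 0) (nat_lit 0) (XT.nd (nat_lit 282) (nat_lit 168) (nat_lit 0) (XT.nd (nat_lit 94) (nat_lit 0) (nat_lit 0) (XT.lf (nat_lit 0) (nat_lit 6606112844) (nat_lit 168) (nat_lit 2579681496) (nat_lit 252) (nat_lit 45544945905) (nat_lit 12) (nat_lit 5) (nat_lit 14) (nat_lit 5) (nat_lit 15) (nat_lit 5) (nat_lit 396) (nat_lit 316) (nat_lit 149)) (XT.nd (nat_lit 94) (nat_lit 0) (nat_lit 0) (XT.lf (nat_lit 0) (nat_lit 12951100480) (nat_lit 252) (nat_lit 38805133191) (nat_lit 84) (nat_lit 4426544004) (nat_lit 12) (nat_lit 5) (nat_lit 15) (nat_lit 5) (nat_lit 13) (nat_lit 5) (nat_lit 397) (nat_lit 316) (nat_lit 148)) (XT.lf (nat_lit 0) (nat_lit 16856940489) (nat_lit 252) (nat_lit 29226946478)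 (nat_lit 84) (nat_lit 11595211946) (nat_lit 12) (nat_lit 5) (nat_lit 15) (nat_lit 5) (nat_lit 13) (nat_lit 5) (nat_lit 398) (nat_lit 316) (nat_lit 147)))) (XT.nd (nat_lit 94) (nat_lit 168) (nat_lit 0) (XT.lf (nat_lit 0) (nat_lit 20881364260) (nat_lit 252) (nat_lit 19355548631) (nat_lit 84) (nat_lit 18984979111) (nat_lit 12) (nat_lit 5) (nat_lit 15) (nat_lit 5) (nat_lit 13) (nat_lit 5) (nat_lit 399) (nat_lit 316) (nat_lit 146)) (XT.nd (nat_lit 94) (nat_lit 168) (nat_lit 0) (XT.lf (nat_lit 0) (nat_lit 25028122976) (nat_lit 252) (nat_lit 9181738471) (nat_lit 84) (nat_lit 26602733536) (nat_lit 12) (nat_lit 5) (nat_lit 15) (nat_lit 5) (nat_lit 13) (nat_lit 5) (nat_lit 400) (nat_lit 316) (nat_lit 145)) (XT.lf (nat_lit 0) (nat_lit 1330779293) (nat_lit 168) (nat_lit 27983504052) (nat_lit 252) (nat_lit 33137997969) (nat_lit 10) (nat_lit 5) (nat_lit 12) (nat_lit 5) (nat_lit 13) (nat_lit 5) (nat_lit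 401) (nat_lit 316) (nat_lit 144))))) (XT.nd (nat_lit 282) (nat_lit 0) (nat_lit 0) (XT.nd (nat_lit 94) (nat_lit 0) (nat_lit 0) (XT.lf (nat_lit 0) (nat_lit 12360375755) (nat_lit 168) (nat_lit 21466464432) (nat_lit 252) (nat_lit 30313066177) (nat_lit 10) (nat_lit 5) (nat_lit 12) (nat_lit 5) (nat_lit 13) (nat_lit 5) (nat_lit 402) (nat_lit 316) (nat_lit 143)) (XT.nd (nat_lit 94) (nat_lit 0) (nat_lit 0) (XT.lf (nat_lit 0) (nat_lit 23728536279) (nat_lit 168) (nat_lit 14748506542) (nat_lit 252) (nat_lit 27402882018) (nat_lit 10) (nat_lit 5) (nat_lit 12) (nat_lit 5) (nat_lit 13) (nat_lit 5) (nat_lit 403) (nat_lit 316) (nat_lit 142)) (XT.lf (nat_lit 0) (nat_lit 35445857180) (nat_lit 168) (nat_lit 7823368541) (nat_lit 252) (nat_lit 24404732897) (nat_lit 10) (nat_lit 5) (nat_lit 12) (nat_lit 5) (nat_lit 13) (nat_lit 5) (nat_lit 404) (nat_lit 316) (nat_lit 141)))) (XT.nd (nat_lit 94) (nat_lit 0)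 (nat_lit 0) (XT.lf (nat_lit 0) (nat_lit 47523260230) (nat_lit 168) (nat_lit 684595475) (nat_lit 252) (nat_lit 21315824225) (nat_lit 10) (nat_lit 5) (nat_lit 12) (nat_lit 5) (nat_lit 13) (nat_lit 5) (nat_lit 405) (nat_lit 316) (nat_lit 140)) (XT.nd (nat_lit 94) (nat_lit 0) (nat_lit 0) (XT.lf (nat_lit 0) (nat_lit 53363747630) (nat_lit 252) (nat_lit 11525021610) (nat_lit 84) (nat_lit 6539991109) (nat_lit 10) (nat_lit 5) (nat_lit 13) (nat_lit 5) (nat_lit 11) (nat_lit 4) (nat_lit 406) (nat_lit 316) (nat_lit 139)) (XT.lf (nat_lit 0) (nat_lit 58684478688) (nat_lit 252) (nat_lit 734914363) (nat_lit 84) (nat_lit 13973356649) (nat_lit 10) (nat_lit 5) (nat_lit 13) (nat_lit 5) (nat_lit 11) (nat_lit 4) (nat_lit 407) (nat_lit 316) (nat_lit 138)))))) (XT.nd (nat_lit 564) (nat_lit 168) (nat_lit 0) (XT.nd (nat_lit 282) (nat_lit 84) (nat_lit 0) (XT.nd (nat_lit 94) (nat_lit 0) (nat_lit 0) (XT.lf (nat_lit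 0) (nat_lit 10600323724) (nat_lit 84) (nat_lit 53673049885) (nat_lit 168) (nat_lit 11141055692) (nat_lit 9) (nat_lit 5) (nat_lit 10) (nat_lit 5) (nat_lit 11) (nat_lit 4) (nat_lit 408) (nat_lit 316) (nat_lit 137)) (XT.nd (nat_lit 94) (nat_lit 0) (nat_lit 0) (XT.lf (nat_lit 0) (nat_lit 22299628324) (nat_lit 84) (nat_lit 47741660992) (nat_lit 168) (nat_lit 7457319183) (nat_lit 9) (nat_lit 5) (nat_lit 10) (nat_lit 5) (nat_lit 11) (nat_lit 4) (nat_lit 409) (nat_lit 316) (nat_lit 136)) (XT.lf (nat_lit 0) (nat_lit 34358793067) (nat_lit 84) (nat_lit 41627368694) (nat_lit 168) (nat_lit 3661298857) (nat_lit 9) (nat_lit 5) (nat_lit 10) (nat_lit 5) (nat_lit 11) (nat_lit 4) (nat_lit 410) (nat_lit 316) (nat_lit 135)))) (XT.nd (nat_lit 94) (nat_lit 0) (nat_lit 0) (XT.lf (nat_lit 0) (nat_lit 245495680) (nat_lit 168) (nat_lit 35076415678) (nat_lit 84) (nat_lit 46541000207) (nat_lit 8) (nat_lit 5) (nat_lit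 10) (nat_lit 5) (nat_lit 9) (nat_lit 5) (nat_lit 411) (nat_lit 316) (nat_lit 134)) (XT.nd (nat_lit 94) (nat_lit 0) (nat_lit 0) (XT.lf (nat_lit 0) (nat_lit 4195584539) (nat_lit 168) (nat_lit 24587723606) (nat_lit 84) (nat_lit 55362632672) (nat_lit 8) (nat_lit 5) (nat_lit 10) (nat_lit 5) (nat_lit 9) (nat_lit 5) (nat_lit 412) (nat_lit 316) (nat_lit 133)) (XT.lf (nat_lit 0) (nat_lit 8266416626) (nat_lit 168) (nat_lit 13776494238) (nat_lit 84) (nat_lit 64456891467) (nat_lit 8) (nat_lit 5) (nat_lit 10) (nat_lit 5) (nat_lit 9) (nat_lit 5) (nat_lit 413) (nat_lit 316) (nat_lit 132))))) (XT.nd (nat_lit 44932) (nat_lit 0) (nat_lit 8400) (XT.nd (nat_lit 94) (nat_lit 168) (nat_lit 0) (XT.lf (nat_lit 0) (nat_lit 12461786384) (nat_lit 168) (nat_lit 2632650376) (nat_lit 84) (nat_lit 73832253395) (nat_lit 8) (nat_lit 5) (nat_lit 10) (nat_lit 5) (nat_lit 9) (nat_lit 5) (nat_lit 414) (nat_lit 316) (nat_lit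 131)) (XT.nd (nat_lit 94) (nat_lit 0) (nat_lit 0) (XT.lf (nat_lit 0) (nat_lit 9036255623) (nat_lit 168) (nat_lit 7838989488) (nat_lit 252) (nat_lit 74550842425) (nat_lit 6) (nat_lit 5) (nat_lit 8) (nat_lit 5) (nat_lit 9) (nat_lit 5) (nat_lit 415) (nat_lit 316) (nat_lit 130)) (XT.lf (nat_lit 0) (nat_lit 21120275957) (nat_lit 168) (nat_lit 331140531) (nat_lit 252) (nat_lit 72550751882) (nat_lit 6) (nat_lit 5) (nat_lit 8) (nat_lit 5) (nat_lit 9) (nat_lit 5) (nat_lit 416) (nat_lit 316) (nat_lit 129)))) (XT.nd (nat_lit 94) (nat_lit 0) (nat_lit 0) (XT.lf (nat_lit 0) (nat_lit 1459793045) (nat_lit 0) (nat_lit 1459793045) (nat_lit 924) (nat_lit 2470269172) (nat_lit 106) (nat_lit 5) (nat_lit 106) (nat_lit 3) (nat_lit 117) (nat_lit 3) (nat_lit 317) (nat_lit 317) (nat_lit 227)) (XT.nd (nat_lit 94) (nat_lit 0) (nat_lit 0) (XT.lf (nat_lit 0) (nat_lit 6419336267) (nat_lit 924) (nat_lit 4071446260)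 (nat_lit 1008) (nat_lit 438016594) (nat_lit 106) (nat_lit 5) (nat_lit 117) (nat_lit 3) (nat_lit 118) (nat_lit 5) (nat_lit 318) (nat_lit 317) (nat_lit 226)) (XT.lf (nat_lit 0) (nat_lit 7027890617) (nat_lit 924) (nat_lit 205772346) (nat_lit 1008) (nat_lit 3848637474) (nat_lit 106) (nat_lit 5) (nat_lit 117) (nat_lit 3) (nat_lit 118) (nat_lit 5) (nat_lit 319) (nat_lit 317) (nat_lit 225))))))) (XT.nd (nat_lit 1128) (nat_lit 2436) (nat_lit 0) (XT.nd (nat_lit 564) (nat_lit 840) (nat_lit 0) (XT.nd (nat_lit 282) (nat_lit 0) (nat_lit 84) (XT.nd (nat_lit 94) (nat_lit 0) (nat_lit 0) (XT.lf (nat_lit 84) (nat_lit 3846971068) (nat_lit 0) (nat_lit 3827631175) (nat_lit 1008) (nat_lit 3565470118) (nat_lit 107) (nat_lit 5) (nat_lit 106) (nat_lit 5) (nat_lit 118) (nat_lit 5) (nat_lit 320) (nat_lit 317) (nat_lit 224)) (XT.nd (nat_lit 94) (nat_lit 0) (nat_lit 84) (XT.lf (nat_lit 84) (nat_lit 8019541529)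 (nat_lit 0) (nat_lit 305564404) (nat_lit 1008) (nat_lit 3078240027) (nat_lit 107) (nat_lit 5) (nat_lit 106) (nat_lit 5) (nat_lit 118) (nat_lit 5) (nat_lit 321) (nat_lit 317) (nat_lit 223)) (XT.lf (nat_lit 84) (nat_lit 720709448) (nat_lit 0) (nat_lit 8297435287) (nat_lit 1008) (nat_lit 2552946450) (nat_lit 108) (nat_lit 5) (nat_lit 107) (nat_lit 5) (nat_lit 119) (nat_lit 5) (nat_lit 322) (nat_lit 317) (nat_lit 222)))) (XT.nd (nat_lit 94) (nat_lit 0) (nat_lit 0) (XT.lf (nat_lit 84) (nat_lit 5010515338) (nat_lit 0) (nat_lit 4743224944) (nat_lit 1008) (nat_lit 1989743464) (nat_lit 108) (nat_lit 5) (nat_lit 107) (nat_lit 5) (nat_lit 119) (nat_lit 5) (nat_lit 323) (nat_lit 317) (nat_lit 221)) (XT.nd (nat_lit 94) (nat_lit 0) (nat_lit 84) (XT.lf (nat_lit 84) (nat_lit 9423127392) (nat_lit 0) (nat_lit 1072192304) (nat_lit 1008) (nat_lit 1426519650) (nat_lit 108) (nat_lit 5) (nat_lit 107) (nat_lit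 5) (nat_lit 119) (nat_lit 5) (nat_lit 324) (nat_lit 317) (nat_lit 220)) (XT.lf (nat_lit 84) (nat_lit 1866976149) (nat_lit 0) (nat_lit 9422092347) (nat_lit 1008) (nat_lit 815845412) (nat_lit 109) (nat_lit 5) (nat_lit 108) (nat_lit 5) (nat_lit 120) (nat_lit 5) (nat_lit 325) (nat_lit 317) (nat_lit 219))))) (XT.nd (nat_lit 282) (nat_lit 0) (nat_lit 84) (XT.nd (nat_lit 94) (nat_lit 1008) (nat_lit 0) (XT.lf (nat_lit 84) (nat_lit 6399351184) (nat_lit 0) (nat_lit 5729143921) (nat_lit 1008) (nat_lit 164607147) (nat_lit 109) (nat_lit 5) (nat_lit 108) (nat_lit 5) (nat_lit 120) (nat_lit 5) (nat_lit 326) (nat_lit 317) (nat_lit 218)) (XT.nd (nat_lit 94) (nat_lit 0) (nat_lit 84) (XT.lf (nat_lit 0) (nat_lit 480975905) (nat_lit 1008) (nat_lit 1430445698) (nat_lit 1092) (nat_lit 10576117832) (nat_lit 96) (nat_lit 5) (nat_lit 108) (nat_lit 5) (nat_lit 109) (nat_lit 5) (nat_lit 327) (nat_lit 317) (nat_lit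 217)) (XT.lf (nat_lit 0) (nat_lit 1180454155) (nat_lit 1008) (nat_lit 9483698471) (nat_lit 1092) (nat_lit 2022726676) (nat_lit 97) (nat_lit 5) (nat_lit 109) (nat_lit 5) (nat_lit 110) (nat_lit 5) (nat_lit 328) (nat_lit 317) (nat_lit 216)))) (XT.nd (nat_lit 94) (nat_lit 0) (nat_lit 0) (XT.lf (nat_lit 0) (nat_lit 1921489242) (nat_lit 1008) (nat_lit 4911553872) (nat_lit 1092) (nat_lit 6058820677) (nat_lit 97) (nat_lit 5) (nat_lit 109) (nat_lit 5) (nat_lit 110) (nat_lit 5) (nat_lit 329) (nat_lit 317) (nat_lit 215)) (XT.nd (nat_lit 94) (nat_lit 0) (nat_lit 84) (XT.lf (nat_lit 0) (nat_lit 2671180256) (nat_lit 1008) (nat_lit 208041804) (nat_lit 1092) (nat_lit 10224503250) (nat_lit 97) (nat_lit 5) (nat_lit 109) (nat_lit 5) (nat_lit 110) (nat_lit 5) (nat_lit 330) (nat_lit 317) (nat_lit 214)) (XT.lf (nat_lit 0) (nat_lit 3489506520) (nat_lit 1008) (nat_lit 8607152090) (nat_lit 1092) (nat_lit 1224165027)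 (nat_lit 98) (nat_lit 5) (nat_lit 110) (nat_lit 5) (nat_lit 111) (nat_lit 5) (nat_lit 331) (nat_lit 317) (nat_lit 213)))))) (XT.nd (nat_lit 564) (nat_lit 1680) (nat_lit 0) (XT.nd (nat_lit 282) (nat_lit 924) (nat_lit 0) (XT.nd (nat_lit 94) (nat_lit 0) (nat_lit 0) (XT.lf (nat_lit 0) (nat_lit 4351311184) (nat_lit 1008) (nat_lit 3792172051) (nat_lit 1092) (nat_lit 5400681407) (nat_lit 98) (nat_lit 5) (nat_lit 110) (nat_lit 5) (nat_lit 111) (nat_lit 5) (nat_lit 332) (nat_lit 317) (nat_lit 212)) (XT.nd (nat_lit 94) (nat_lit 0) (nat_lit 84) (XT.lf (nat_lit 84) (nat_lit 1185792872) (nat_lit 0) (nat_lit 4052677861) (nat_lit 1092) (nat_lit 8536072498) (nat_lit 99) (nat_lit 5) (nat_lit 98) (nat_lit 5) (nat_lit 111) (nat_lit 5) (nat_lit 333) (nat_lit 317) (nat_lit 211)) (XT.lf (nat_lit 0) (nat_lit 6181953690) (nat_lit 1008) (nat_lit 7624973208) (nat_lit 84) (nat_lit 204312855) (nat_lit 99) (nat_lit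 5) (nat_lit 111) (nat_lit 5) (nat_lit 100) (nat_lit 5) (nat_lit 334) (nat_lit 317) (nat_lit 210)))) (XT.nd (nat_lit 94) (nat_lit 1008) (nat_lit 0) (XT.lf (nat_lit 0) (nat_lit 7183716786) (nat_lit 1008) (nat_lit 2559013123) (nat_lit 84) (nat_lit 4511711527) (nat_lit 99) (nat_lit 5) (nat_lit 111) (nat_lit 5) (nat_lit 100) (nat_lit 5) (nat_lit 335) (nat_lit 317) (nat_lit 209)) (XT.nd (nat_lit 94) (nat_lit 0) (nat_lit 0) (XT.lf (nat_lit 0) (nat_lit 2708627779) (nat_lit 1008) (nat_lit 5522732848) (nat_lit 1092) (nat_lit 6273427668) (nat_lit 87) (nat_lit 5) (nat_lit 99) (nat_lit 5) (nat_lit 100) (nat_lit 5) (nat_lit 336) (nat_lit 317) (nat_lit 208)) (XT.lf (nat_lit 0) (nat_lit 8183979126) (nat_lit 1008) (nat_lit 1142433875) (nat_lit 1092) (nat_lit 5436083594) (nat_lit 87) (nat_lit 5) (nat_lit 99) (nat_lit 5) (nat_lit 100) (nat_lit 5) (nat_lit 337) (nat_lit 317) (nat_lit 207))))) (XT.nd (nat_lit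 282) (nat_lit 1092) (nat_lit 0) (XT.nd (nat_lit 94) (nat_lit 588) (nat_lit 0) (XT.lf (nat_lit 0) (nat_lit 10477472667) (nat_lit 1092) (nat_lit 1242569489) (nat_lit 84) (nat_lit 3307529469) (nat_lit 87) (nat_lit 5) (nat_lit 100) (nat_lit 5) (nat_lit 88) (nat_lit 5) (nat_lit 338) (nat_lit 317) (nat_lit 206)) (XT.nd (nat_lit 94) (nat_lit 0) (nat_lit 0) (XT.lf (nat_lit 0) (nat_lit 4324563783) (nat_lit 588) (nat_lit 7383172582) (nat_lit 672) (nat_lit 3591838258) (nat_lit 80) (nat_lit 5) (nat_lit 87) (nat_lit 5) (nat_lit 88) (nat_lit 5) (nat_lit 339) (nat_lit 317) (nat_lit 205)) (XT.lf (nat_lit 0) (nat_lit 10081042950) (nat_lit 588) (nat_lit 2897239377) (nat_lit 672) (nat_lit 2601718920) (nat_lit 80) (nat_lit 5) (nat_lit 87) (nat_lit 5) (nat_lit 88) (nat_lit 5) (nat_lit 340) (nat_lit 317) (nat_lit 204)))) (XT.nd (nat_lit 188) (nat_lit 588) (nat_lit 0) (XT.nd (nat_lit 94) (nat_lit 0) (nat_lit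 0) (XT.lf (nat_lit 0) (nat_lit 122497477) (nat_lit 504) (nat_lit 14173584237) (nat_lit 588) (nat_lit 1572851781) (nat_lit 74) (nat_lit 5) (nat_lit 80) (nat_lit 5) (nat_lit 81) (nat_lit 5) (nat_lit 341) (nat_lit 317) (nat_lit 203)) (XT.lf (nat_lit 0) (nat_lit 5994967326) (nat_lit 504) (nat_lit 9736227363) (nat_lit 588) (nat_lit 433312203) (nat_lit 74) (nat_lit 5) (nat_lit 80) (nat_lit 5) (nat_lit 81) (nat_lit 5) (nat_lit 342) (nat_lit 317) (nat_lit 202))) (XT.nd (nat_lit 94) (nat_lit 504) (nat_lit 0) (XT.lf (nat_lit 0) (nat_lit 716499491) (nat_lit 588) (nat_lit 4436671548) (nat_lit 84) (nat_lit 11316208814) (nat_lit 73) (nat_lit 5) (nat_lit 80) (nat_lit 5) (nat_lit 74) (nat_lit 5) (nat_lit 343) (nat_lit 317) (nat_lit 201)) (XT.lf (nat_lit 0) (nat_lit 1490240028) (nat_lit 504) (nat_lit 407688880) (nat_lit 588) (nat_lit 14885533166) (nat_lit 67) (nat_lit 5) (nat_lit 73) (nat_lit 5) (nat_lit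 74) (nat_lit 5) (nat_lit 344) (nat_lit 317) (nat_lit 200))))))))
noncomputable def xc156 : XT := (XT.nd (nat_lit 2256) (nat_lit 1344) (nat_lit 0) (XT.nd (nat_lit 1128) (nat_lit 1344) (nat_lit 0) (XT.nd (nat_lit 564) (nat_lit 840) (nat_lit 0) (XT.nd (nat_lit 282) (nat_lit 420) (nat_lit 0) (XT.nd (nat_lit 94) (nat_lit 420) (nat_lit 0) (XT.lf (nat_lit 0) (nat_lit 3197656119) (nat_lit 588) (nat_lit 9465393786) (nat_lit 84) (nat_lit 4441747355) (nat_lit 67) (nat_lit 5) (nat_lit 74) (nat_lit 5) (nat_lit 68) (nat_lit 5) (nat_lit 345) (nat_lit 317) (nat_lit 199)) (XT.nd (nat_lit 94) (nat_lit 420) (nat_lit 0) (XT.lf (nat_lit 0) (nat_lit 4532532537) (nat_lit 588) (nat_lit 3470311227) (nat_lit 84) (nat_lit 9433456325) (nat_lit 67) (nat_lit 5) (nat_lit 74) (nat_lit 5) (nat_lit 68) (nat_lit 5) (nat_lit 346) (nat_lit 317) (nat_lit 198)) (XT.lf (nat_lit 0) (nat_lit 2757209628) (nat_lit 420) (nat_lit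 3169900317) (nat_lit 504) (nat_lit 11850447080) (nat_lit 62) (nat_lit 5) (nat_lit 67) (nat_lit 5) (nat_lit 68) (nat_lit 5) (nat_lit 347) (nat_lit 317) (nat_lit 197)))) (XT.nd (nat_lit 94) (nat_lit 420) (nat_lit 0) (XT.lf (nat_lit 0) (nat_lit 7410647825) (nat_lit 504) (nat_lit 8904460249) (nat_lit 84) (nat_lit 1812911332) (nat_lit 62) (nat_lit 5) (nat_lit 68) (nat_lit 5) (nat_lit 63) (nat_lit 5) (nat_lit 348) (nat_lit 317) (nat_lit 196)) (XT.nd (nat_lit 94) (nat_lit 420) (nat_lit 0) (XT.lf (nat_lit 0) (nat_lit 8964013389) (nat_lit 504) (nat_lit 2640313274) (nat_lit 84) (nat_lit 6884323222) (nat_lit 62) (nat_lit 5) (nat_lit 68) (nat_lit 5) (nat_lit 63) (nat_lit 5) (nat_lit 349) (nat_lit 317) (nat_lit 195)) (XT.lf (nat_lit 0) (nat_lit 3887706801) (nat_lit 420) (nat_lit 6708068466) (nat_lit 504) (nat_lit 8263788597) (nat_lit 57) (nat_lit 5) (nat_lit 62) (nat_lit 5) (nat_lit 63) (nat_lit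 5) (nat_lit 350) (nat_lit 317) (nat_lit 194))))) (XT.nd (nat_lit 282) (nat_lit 504) (nat_lit 0) (XT.nd (nat_lit 94) (nat_lit 336) (nat_lit 0) (XT.lf (nat_lit 0) (nat_lit 10665512182) (nat_lit 420) (nat_lit 1632009903) (nat_lit 504) (nat_lit 6943892890) (nat_lit 57) (nat_lit 5) (nat_lit 62) (nat_lit 5) (nat_lit 63) (nat_lit 5) (nat_lit 351) (nat_lit 317) (nat_lit 193)) (XT.nd (nat_lit 94) (nat_lit 336) (nat_lit 0) (XT.lf (nat_lit 0) (nat_lit 14079831825) (nat_lit 504) (nat_lit 2025980139) (nat_lit 84) (nat_lit 3528468437) (nat_lit 57) (nat_lit 5) (nat_lit 63) (nat_lit 5) (nat_lit 58) (nat_lit 5) (nat_lit 352) (nat_lit 317) (nat_lit 192)) (XT.lf (nat_lit 0) (nat_lit 4798658959) (nat_lit 336) (nat_lit 11175349558) (nat_lit 420) (nat_lit 4063598890) (nat_lit 53) (nat_lit 5) (nat_lit 57) (nat_lit 5) (nat_lit 58) (nat_lit 5) (nat_lit 353) (nat_lit 317) (nat_lit 191)))) (XT.nd (nat_lit 94)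 (nat_lit 504) (nat_lit 0) (XT.lf (nat_lit 0) (nat_lit 11869574014) (nat_lit 336) (nat_lit 6070947378) (nat_lit 420) (nat_lit 2512530731) (nat_lit 53) (nat_lit 5) (nat_lit 57) (nat_lit 5) (nat_lit 58) (nat_lit 5) (nat_lit 354) (nat_lit 317) (nat_lit 190)) (XT.nd (nat_lit 94) (nat_lit 504) (nat_lit 0) (XT.lf (nat_lit 0) (nat_lit 19151697552) (nat_lit 336) (nat_lit 808994666) (nat_lit 420) (nat_lit 920945419) (nat_lit 53) (nat_lit 5) (nat_lit 57) (nat_lit 5) (nat_lit 58) (nat_lit 5) (nat_lit 355) (nat_lit 317) (nat_lit 189)) (XT.lf (nat_lit 0) (nat_lit 798561380) (nat_lit 504) (nat_lit 15937888334) (nat_lit 84) (nat_lit 4583985918) (nat_lit 47) (nat_lit 5) (nat_lit 53) (nat_lit 5) (nat_lit 48) (nat_lit 5) (nat_lit 356) (nat_lit 317) (nat_lit 188)))))) (XT.nd (nat_lit 564) (nat_lit 672) (nat_lit 0) (XT.nd (nat_lit 282) (nat_lit 336) (nat_lit 0) (XT.nd (nat_lit 94) (nat_lit 336) (nat_lit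 0) (XT.lf (nat_lit 0) (nat_lit 2571698301) (nat_lit 504) (nat_lit 9046052741) (nat_lit 84) (nat_lit 10154222680) (nat_lit 47) (nat_lit 5) (nat_lit 53) (nat_lit 5) (nat_lit 48) (nat_lit 5) (nat_lit 357) (nat_lit 317) (nat_lit 187)) (XT.nd (nat_lit 94) (nat_lit 336) (nat_lit 0) (XT.lf (nat_lit 0) (nat_lit 4392954545) (nat_lit 504) (nat_lit 1948420738) (nat_lit 84) (nat_lit 15896377992) (nat_lit 47) (nat_lit 5) (nat_lit 53) (nat_lit 5) (nat_lit 48) (nat_lit 5) (nat_lit 358) (nat_lit 317) (nat_lit 186)) (XT.lf (nat_lit 0) (nat_lit 5471869386) (nat_lit 336) (nat_lit 846439950) (nat_lit 420) (nat_lit 16398216379) (nat_lit 43) (nat_lit 5) (nat_lit 47) (nat_lit 5) (nat_lit 48) (nat_lit 5) (nat_lit 359) (nat_lit 317) (nat_lit 185)))) (XT.nd (nat_lit 94) (nat_lit 336) (nat_lit 0) (XT.lf (nat_lit 0) (nat_lit 8365171921) (nat_lit 420) (nat_lit 10101786013) (nat_lit 84) (nat_lit 4741295323) (nat_lit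 43) (nat_lit 5) (nat_lit 48) (nat_lit 5) (nat_lit 44) (nat_lit 5) (nat_lit 360) (nat_lit 317) (nat_lit 184)) (XT.nd (nat_lit 94) (nat_lit 336) (nat_lit 0) (XT.lf (nat_lit 0) (nat_lit 10477813395) (nat_lit 420) (nat_lit 2753669406) (nat_lit 84) (nat_lit 10483698181) (nat_lit 43) (nat_lit 5) (nat_lit 48) (nat_lit 5) (nat_lit 44) (nat_lit 5) (nat_lit 361) (nat_lit 317) (nat_lit 183)) (XT.lf (nat_lit 0) (nat_lit 4913944523) (nat_lit 336) (nat_lit 7784608586) (nat_lit 420) (nat_lit 11537977437) (nat_lit 39) (nat_lit 5) (nat_lit 43) (nat_lit 5) (nat_lit 44) (nat_lit 5) (nat_lit 362) (nat_lit 317) (nat_lit 182))))) (XT.nd (nat_lit 282) (nat_lit 420) (nat_lit 0) (XT.nd (nat_lit 94) (nat_lit 252) (nat_lit 0) (XT.lf (nat_lit 0) (nat_lit 12870405407) (nat_lit 336) (nat_lit 2140445385) (nat_lit 420) (nat_lit 9762514026) (nat_lit 39) (nat_lit 5) (nat_lit 43) (nat_lit 5) (nat_lit 44) (nat_lit 5)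 (nat_lit 363) (nat_lit 317) (nat_lit 181)) (XT.nd (nat_lit 94) (nat_lit 252) (nat_lit 0) (XT.lf (nat_lit 0) (nat_lit 17425464820) (nat_lit 420) (nat_lit 4297021512) (nat_lit 84) (nat_lit 3603431157) (nat_lit 39) (nat_lit 5) (nat_lit 44) (nat_lit 5) (nat_lit 40) (nat_lit 5) (nat_lit 364) (nat_lit 317) (nat_lit 180)) (XT.lf (nat_lit 0) (nat_lit 3588113741) (nat_lit 252) (nat_lit 16378622617) (nat_lit 336) (nat_lit 5927282432) (nat_lit 36) (nat_lit 5) (nat_lit 39) (nat_lit 5) (nat_lit 40) (nat_lit 5) (nat_lit 365) (nat_lit 317) (nat_lit 179)))) (XT.nd (nat_lit 94) (nat_lit 420) (nat_lit 0) (XT.lf (nat_lit 0) (nat_lit 11801866032) (nat_lit 252) (nat_lit 10824193821) (nat_lit 336) (nat_lit 3852478600) (nat_lit 36) (nat_lit 5) (nat_lit 39) (nat_lit 5) (nat_lit 40) (nat_lit 5) (nat_lit 366) (nat_lit 317) (nat_lit 178)) (XT.nd (nat_lit 94) (nat_lit 420) (nat_lit 0) (XT.lf (nat_lit 0) (nat_lit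 20263535864) (nat_lit 252) (nat_lit 5098874725) (nat_lit 336) (nat_lit 1718959333) (nat_lit 36) (nat_lit 5) (nat_lit 39) (nat_lit 5) (nat_lit 40) (nat_lit 5) (nat_lit 367) (nat_lit 317) (nat_lit 177)) (XT.lf (nat_lit 0) (nat_lit 486721391) (nat_lit 420) (nat_lit 26411271354) (nat_lit 84) (nat_lit 804284179) (nat_lit 31) (nat_lit 5) (nat_lit 36) (nat_lit 5) (nat_lit 32) (nat_lit 5) (nat_lit 368) (nat_lit 317) (nat_lit 176))))))) (XT.nd (nat_lit 1128) (nat_lit 672) (nat_lit 0) (XT.nd (nat_lit 564) (nat_lit 420) (nat_lit 0) (XT.nd (nat_lit 282) (nat_lit 252) (nat_lit 0) (XT.nd (nat_lit 94) (nat_lit 0) (nat_lit 0) (XT.lf (nat_lit 0) (nat_lit 2843869064) (nat_lit 420) (nat_lit 18621673011) (nat_lit 84) (nat_lit 6872684068) (nat_lit 31) (nat_lit 5) (nat_lit 36) (nat_lit 5) (nat_lit 32) (nat_lit 5) (nat_lit 369) (nat_lit 317) (nat_lit 175)) (XT.nd (nat_lit 94) (nat_lit 0) (nat_lit 0) (XT.lf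 (nat_lit 0) (nat_lit 5269002118) (nat_lit 420) (nat_lit 10597136924) (nat_lit 84) (nat_lit 13127929595) (nat_lit 31) (nat_lit 5) (nat_lit 36) (nat_lit 5) (nat_lit 32) (nat_lit 5) (nat_lit 370) (nat_lit 317) (nat_lit 174)) (XT.lf (nat_lit 0) (nat_lit 7764381033) (nat_lit 420) (nat_lit 2330183386) (nat_lit 84) (nat_lit 19575851304) (nat_lit 31) (nat_lit 5) (nat_lit 36) (nat_lit 5) (nat_lit 32) (nat_lit 5) (nat_lit 371) (nat_lit 317) (nat_lit 173)))) (XT.nd (nat_lit 94) (nat_lit 0) (nat_lit 0) (XT.lf (nat_lit 0) (nat_lit 6314108484) (nat_lit 252) (nat_lit 4080860015) (nat_lit 336) (nat_lit 19970987586) (nat_lit 28) (nat_lit 5) (nat_lit 31) (nat_lit 5) (nat_lit 32) (nat_lit 5) (nat_lit 372) (nat_lit 317) (nat_lit 172)) (XT.nd (nat_lit 94) (nat_lit 0) (nat_lit 0) (XT.lf (nat_lit 0) (nat_lit 13147983437) (nat_lit 336) (nat_lit 15834045765) (nat_lit 84) (nat_lit 2099781066) (nat_lit 28) (nat_lit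 5) (nat_lit 32) (nat_lit 5) (nat_lit 29) (nat_lit 5) (nat_lit 373) (nat_lit 317) (nat_lit 171)) (XT.lf (nat_lit 0) (nat_lit 16023505964) (nat_lit 336) (nat_lit 7409283451) (nat_lit 84) (nat_lit 8385933173) (nat_lit 28) (nat_lit 5) (nat_lit 32) (nat_lit 5) (nat_lit 29) (nat_lit 5) (nat_lit 374) (nat_lit 317) (nat_lit 170))))) (XT.nd (nat_lit 282) (nat_lit 168) (nat_lit 0) (XT.nd (nat_lit 94) (nat_lit 0) (nat_lit 0) (XT.lf (nat_lit 0) (nat_lit 1296904472) (nat_lit 252) (nat_lit 17699694712) (nat_lit 336) (nat_lit 13581636870) (nat_lit 25) (nat_lit 5) (nat_lit 28) (nat_lit 5) (nat_lit 29) (nat_lit 5) (nat_lit 375) (nat_lit 317) (nat_lit 169)) (XT.nd (nat_lit 94) (nat_lit 0) (nat_lit 0) (XT.lf (nat_lit 0) (nat_lit 10424244826) (nat_lit 252) (nat_lit 11710590955) (nat_lit 336) (nat_lit 11224213990) (nat_lit 25) (nat_lit 5) (nat_lit 28) (nat_lit 5) (nat_lit 29) (nat_lit 5) (nat_lit 376)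 (nat_lit 317) (nat_lit 168)) (XT.lf (nat_lit 0) (nat_lit 19828895184) (nat_lit 252) (nat_lit 5537233395) (nat_lit 336) (nat_lit 8798088340) (nat_lit 25) (nat_lit 5) (nat_lit 28) (nat_lit 5) (nat_lit 29) (nat_lit 5) (nat_lit 377) (nat_lit 317) (nat_lit 167)))) (XT.nd (nat_lit 94) (nat_lit 168) (nat_lit 0) (XT.lf (nat_lit 0) (nat_lit 28701684816) (nat_lit 336) (nat_lit 5483061669) (nat_lit 84) (nat_lit 809487460) (nat_lit 25) (nat_lit 5) (nat_lit 29) (nat_lit 5) (nat_lit 26) (nat_lit 5) (nat_lit 378) (nat_lit 317) (nat_lit 166)) (XT.nd (nat_lit 94) (nat_lit 0) (nat_lit 0) (XT.lf (nat_lit 0) (nat_lit 3655199808) (nat_lit 168) (nat_lit 28574344616) (nat_lit 252) (nat_lit 3617697231) (nat_lit 23) (nat_lit 5) (nat_lit 25) (nat_lit 5) (nat_lit 26) (nat_lit 5) (nat_lit 379) (nat_lit 317) (nat_lit 165)) (XT.lf (nat_lit 0) (nat_lit 13187610480) (nat_lit 168) (nat_lit 22732464043) (nat_lit 252)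 (nat_lit 804981174) (nat_lit 23) (nat_lit 5) (nat_lit 25) (nat_lit 5) (nat_lit 26) (nat_lit 5) (nat_lit 380) (nat_lit 317) (nat_lit 164)))))) (XT.nd (nat_lit 564) (nat_lit 336) (nat_lit 0) (XT.nd (nat_lit 282) (nat_lit 0) (nat_lit 0) (XT.nd (nat_lit 94) (nat_lit 252) (nat_lit 0) (XT.lf (nat_lit 0) (nat_lit 2048860103) (nat_lit 252) (nat_lit 14640645440) (nat_lit 84) (nat_lit 20940066559) (nat_lit 22) (nat_lit 5) (nat_lit 25) (nat_lit 5) (nat_lit 23) (nat_lit 5) (nat_lit 381) (nat_lit 317) (nat_lit 163)) (XT.nd (nat_lit 94) (nat_lit 252) (nat_lit 0) (XT.lf (nat_lit 0) (nat_lit 4970704368) (nat_lit 252) (nat_lit 5481425744) (nat_lit 84) (nat_lit 28109873506) (nat_lit 22) (nat_lit 5) (nat_lit 25) (nat_lit 5) (nat_lit 23) (nat_lit 5) (nat_lit 382) (nat_lit 317) (nat_lit 162)) (XT.lf (nat_lit 0) (nat_lit 4038095357) (nat_lit 252) (nat_lit 3981456712) (nat_lit 336) (nat_lit 31502673041)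 (nat_lit 19) (nat_lit 5) (nat_lit 22) (nat_lit 5) (nat_lit 23) (nat_lit 5) (nat_lit 383) (nat_lit 317) (nat_lit 161)))) (XT.nd (nat_lit 94) (nat_lit 0) (nat_lit 0) (XT.lf (nat_lit 0) (nat_lit 11243811733) (nat_lit 336) (nat_lit 26573836258) (nat_lit 84) (nat_lit 2692071047) (nat_lit 19) (nat_lit 5) (nat_lit 23) (nat_lit 5) (nat_lit 20) (nat_lit 5) (nat_lit 384) (nat_lit 317) (nat_lit 160)) (XT.nd (nat_lit 94) (nat_lit 0) (nat_lit 0) (XT.lf (nat_lit 0) (nat_lit 14605266636) (nat_lit 336) (nat_lit 17432945676) (nat_lit 84) (nat_lit 9488471422) (nat_lit 19) (nat_lit 5) (nat_lit 23) (nat_lit 5) (nat_lit 20) (nat_lit 5) (nat_lit 385) (nat_lit 317) (nat_lit 159)) (XT.lf (nat_lit 0) (nat_lit 18067553463) (nat_lit 336) (nat_lit 8013441197) (nat_lit 84) (nat_lit 16494296849) (nat_lit 19) (nat_lit 5) (nat_lit 23) (nat_lit 5) (nat_lit 20) (nat_lit 5) (nat_lit 386) (nat_lit 317) (nat_lit 158)))))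 (XT.nd (nat_lit 282) (nat_lit 168) (nat_lit 0) (XT.nd (nat_lit 94) (nat_lit 0) (nat_lit 0) (XT.lf (nat_lit 0) (nat_lit 1728278096) (nat_lit 168) (nat_lit 19922766063) (nat_lit 252) (nat_lit 22004944126) (nat_lit 17) (nat_lit 5) (nat_lit 19) (nat_lit 5) (nat_lit 20) (nat_lit 5) (nat_lit 387) (nat_lit 317) (nat_lit 157)) (XT.nd (nat_lit 94) (nat_lit 0) (nat_lit 0) (XT.lf (nat_lit 0) (nat_lit 11937307333) (nat_lit 168) (nat_lit 13488740971) (nat_lit 252) (nat_lit 19341657034) (nat_lit 17) (nat_lit 5) (nat_lit 19) (nat_lit 5) (nat_lit 20) (nat_lit 5) (nat_lit 388) (nat_lit 317) (nat_lit 156)) (XT.lf (nat_lit 0) (nat_lit 22458389612) (nat_lit 168) (nat_lit 6856566087) (nat_lit 252) (nat_lit 16599038198) (nat_lit 17) (nat_lit 5) (nat_lit 19) (nat_lit 5) (nat_lit 20) (nat_lit 5) (nat_lit 389) (nat_lit 317) (nat_lit 155)))) (XT.nd (nat_lit 188) (nat_lit 168) (nat_lit 0) (XT.nd (nat_lit 94)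 (nat_lit 0) (nat_lit 0) (XT.lf (nat_lit 0) (nat_lit 33301331684) (nat_lit 168) (nat_lit 20059530) (nat_lit 252) (nat_lit 13774531212) (nat_lit 17) (nat_lit 5) (nat_lit 19) (nat_lit 5) (nat_lit 20) (nat_lit 5) (nat_lit 390) (nat_lit 317) (nat_lit 154)) (XT.lf (nat_lit 0) (nat_lit 37518799476) (nat_lit 252) (nat_lit 3908062506) (nat_lit 84) (nat_lit 6885569606) (nat_lit 17) (nat_lit 5) (nat_lit 20) (nat_lit 5) (nat_lit 18) (nat_lit 5) (nat_lit 391) (nat_lit 317) (nat_lit 153))) (XT.nd (nat_lit 94) (nat_lit 0) (nat_lit 0) (XT.lf (nat_lit 0) (nat_lit 6409758879) (nat_lit 168) (nat_lit 35497498810) (nat_lit 252) (nat_lit 7657516499) (nat_lit 15) (nat_lit 5) (nat_lit 17) (nat_lit 5) (nat_lit 18) (nat_lit 5) (nat_lit 392) (nat_lit 317) (nat_lit 152)) (XT.lf (nat_lit 0) (nat_lit 17126196954) (nat_lit 168) (nat_lit 29343538331) (nat_lit 252) (nat_lit 4385037011) (nat_lit 15) (nat_lit 5) (nat_lit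 17) (nat_lit 5) (nat_lit 18) (nat_lit 5) (nat_lit 393) (nat_lit 317) (nat_lit 151))))))))
noncomputable def xc157 : XT := (XT.nd (nat_lit 47000) (nat_lit 0) (nat_lit 5628) (XT.nd (nat_lit 1128) (nat_lit 336) (nat_lit 0) (XT.nd (nat_lit 564) (nat_lit 168) (nat_lit 0) (XT.nd (nat_lit 282) (nat_lit 168) (nat_lit 0) (XT.nd (nat_lit 94) (nat_lit 84) (nat_lit 0) (XT.lf (nat_lit 0) (nat_lit 28170882782) (nat_lit 168) (nat_lit 23000036566) (nat_lit 252) (nat_lit 1013935511) (nat_lit 15) (nat_lit 5) (nat_lit 17) (nat_lit 5) (nat_lit 18) (nat_lit 5) (nat_lit 394) (nat_lit 317) (nat_lit 150)) (XT.nd (nat_lit 94) (nat_lit 0) (nat_lit 0) (XT.lf (nat_lit 0) (nat_lit 2409388256) (nat_lit 252) (nat_lit 14026543378) (nat_lit 84) (nat_lit 37119573838) (nat_lit 14) (nat_lit 5) (nat_lit 17) (nat_lit 5) (nat_lit 15) (nat_lit 5) (nat_lit 395) (nat_lit 317) (nat_lit 149)) (XT.lf (nat_lit 0) (nat_lit 5915169247)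 (nat_lit 252) (nat_lit 3743664279) (nat_lit 84) (nat_lit 45309580986) (nat_lit 14) (nat_lit 5) (nat_lit 17) (nat_lit 5) (nat_lit 15) (nat_lit 5) (nat_lit 396) (nat_lit 317) (nat_lit 148)))) (XT.nd (nat_lit 94) (nat_lit 0) (nat_lit 0) (XT.lf (nat_lit 0) (nat_lit 6995246942) (nat_lit 168) (nat_lit 2601250530) (nat_lit 252) (nat_lit 46826562088) (nat_lit 12) (nat_lit 5) (nat_lit 14) (nat_lit 5) (nat_lit 15) (nat_lit 5) (nat_lit 397) (nat_lit 317) (nat_lit 147)) (XT.nd (nat_lit 94) (nat_lit 0) (nat_lit 0) (XT.lf (nat_lit 0) (nat_lit 13475303174) (nat_lit 252) (nat_lit 39825649171) (nat_lit 84) (nat_lit 4619270690) (nat_lit 12) (nat_lit 5) (nat_lit 15) (nat_lit 5) (nat_lit 13) (nat_lit 5) (nat_lit 398) (nat_lit 317) (nat_lit 146)) (XT.lf (nat_lit 0) (nat_lit 17498534334) (nat_lit 252) (nat_lit 29956024352) (nat_lit 84) (nat_lit 12008498455) (nat_lit 12) (nat_lit 5) (nat_lit 15) (nat_lit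 5) (nat_lit 13) (nat_lit 5) (nat_lit 399) (nat_lit 317) (nat_lit 145))))) (XT.nd (nat_lit 282) (nat_lit 0) (nat_lit 0) (XT.nd (nat_lit 94) (nat_lit 168) (nat_lit 0) (XT.lf (nat_lit 0) (nat_lit 21644136299) (nat_lit 252) (nat_lit 19783933910) (nat_lit 84) (nat_lit 19625729699) (nat_lit 12) (nat_lit 5) (nat_lit 15) (nat_lit 5) (nat_lit 13) (nat_lit 5) (nat_lit 400) (nat_lit 317) (nat_lit 144)) (XT.nd (nat_lit 94) (nat_lit 168) (nat_lit 0) (XT.lf (nat_lit 0) (nat_lit 25915973204) (nat_lit 252) (nat_lit 9299896391) (nat_lit 84) (nat_lit 27478064479) (nat_lit 12) (nat_lit 5) (nat_lit 15) (nat_lit 5) (nat_lit 13) (nat_lit 5) (nat_lit 401) (nat_lit 317) (nat_lit 143)) (XT.lf (nat_lit 0) (nat_lit 1536824005) (nat_lit 168) (nat_lit 28796448328) (nat_lit 252) (nat_lit 34051243473) (nat_lit 10) (nat_lit 5) (nat_lit 12) (nat_lit 5) (nat_lit 13) (nat_lit 5) (nat_lit 402) (nat_lit 317) (nat_lit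 142)))) (XT.nd (nat_lit 94) (nat_lit 0) (nat_lit 0) (XT.lf (nat_lit 0) (nat_lit 12903383052) (nat_lit 168) (nat_lit 22079020513) (nat_lit 252) (nat_lit 31142167511) (nat_lit 10) (nat_lit 5) (nat_lit 12) (nat_lit 5) (nat_lit 13) (nat_lit 5) (nat_lit 403) (nat_lit 317) (nat_lit 141)) (XT.nd (nat_lit 94) (nat_lit 0) (nat_lit 0) (XT.lf (nat_lit 0) (nat_lit 24619150630) (nat_lit 168) (nat_lit 15154396650) (nat_lit 252) (nat_lit 28145093265) (nat_lit 10) (nat_lit 5) (nat_lit 12) (nat_lit 5) (nat_lit 13) (nat_lit 5) (nat_lit 404) (nat_lit 317) (nat_lit 140)) (XT.lf (nat_lit 0) (nat_lit 36695047062) (nat_lit 168) (nat_lit 8016122263) (nat_lit 252) (nat_lit 25057227148) (nat_lit 10) (nat_lit 5) (nat_lit 12) (nat_lit 5) (nat_lit 13) (nat_lit 5) (nat_lit 405) (nat_lit 317) (nat_lit 139)))))) (XT.nd (nat_lit 564) (nat_lit 252) (nat_lit 0) (XT.nd (nat_lit 282) (nat_lit 84) (nat_lit 0) (XT.nd (nat_lit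 94) (nat_lit 0) (nat_lit 0) (XT.lf (nat_lit 0) (nat_lit 49142328348) (nat_lit 168) (nat_lit 657543732) (nat_lit 252) (nat_lit 21875690945) (nat_lit 10) (nat_lit 5) (nat_lit 12) (nat_lit 5) (nat_lit 13) (nat_lit 5) (nat_lit 406) (nat_lit 317) (nat_lit 138)) (XT.nd (nat_lit 94) (nat_lit 0) (nat_lit 0) (XT.lf (nat_lit 0) (nat_lit 55113127332) (nat_lit 252) (nat_lit 11738049805) (nat_lit 84) (nat_lit 6788610159) (nat_lit 10) (nat_lit 5) (nat_lit 13) (nat_lit 5) (nat_lit 11) (nat_lit 4) (nat_lit 407) (nat_lit 317) (nat_lit 137)) (XT.lf (nat_lit 0) (nat_lit 60595941490) (nat_lit 252) (nat_lit 617786450) (nat_lit 84) (nat_lit 14451030536) (nat_lit 10) (nat_lit 5) (nat_lit 13) (nat_lit 5) (nat_lit 11) (nat_lit 4) (nat_lit 408) (nat_lit 317) (nat_lit 136)))) (XT.nd (nat_lit 94) (nat_lit 0) (nat_lit 0) (XT.lf (nat_lit 0) (nat_lit 11067427551) (nat_lit 84) (nat_lit 55289264896) (nat_lit 168)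 (nat_lit 11392470316) (nat_lit 9) (nat_lit 5) (nat_lit 10) (nat_lit 5) (nat_lit 11) (nat_lit 4) (nat_lit 409) (nat_lit 317) (nat_lit 135)) (XT.nd (nat_lit 94) (nat_lit 0) (nat_lit 0) (XT.lf (nat_lit 0) (nat_lit 23125246377) (nat_lit 84) (nat_lit 49175435668) (nat_lit 168) (nat_lit 7597363099) (nat_lit 9) (nat_lit 5) (nat_lit 10) (nat_lit 5) (nat_lit 11) (nat_lit 4) (nat_lit 410) (nat_lit 317) (nat_lit 134)) (XT.lf (nat_lit 0) (nat_lit 35554206220) (nat_lit 84) (nat_lit 42872989951) (nat_lit 168) (nat_lit 3686406319) (nat_lit 9) (nat_lit 5) (nat_lit 10) (nat_lit 5) (nat_lit 11) (nat_lit 4) (nat_lit 411) (nat_lit 317) (nat_lit 133))))) (XT.nd (nat_lit 282) (nat_lit 168) (nat_lit 0) (XT.nd (nat_lit 94) (nat_lit 0) (nat_lit 0) (XT.lf (nat_lit 0) (nat_lit 337113694) (nat_lit 168) (nat_lit 36035420736) (nat_lit 84) (nat_lit 48025259703) (nat_lit 8) (nat_lit 5) (nat_lit 10) (nat_lit 5) (nat_lit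 9) (nat_lit 5) (nat_lit 412) (nat_lit 317) (nat_lit 132)) (XT.nd (nat_lit 94) (nat_lit 0) (nat_lit 0) (XT.lf (nat_lit 0) (nat_lit 4407129373) (nat_lit 168) (nat_lit 25225438840) (nat_lit 84) (nat_lit 57119115302) (nat_lit 8) (nat_lit 5) (nat_lit 10) (nat_lit 5) (nat_lit 9) (nat_lit 5) (nat_lit 413) (nat_lit 317) (nat_lit 131)) (XT.lf (nat_lit 0) (nat_lit 8601707272) (nat_lit 168) (nat_lit 14082804941) (nat_lit 84) (nat_lit 66494086158) (nat_lit 8) (nat_lit 5) (nat_lit 10) (nat_lit 5) (nat_lit 9) (nat_lit 5) (nat_lit 414) (nat_lit 317) (nat_lit 130)))) (XT.nd (nat_lit 94) (nat_lit 168) (nat_lit 0) (XT.lf (nat_lit 0) (nat_lit 12924757174) (nat_lit 168) (nat_lit 2597132936) (nat_lit 84) (nat_lit 76158910723) (nat_lit 8) (nat_lit 5) (nat_lit 10) (nat_lit 5) (nat_lit 9) (nat_lit 5) (nat_lit 415) (nat_lit 317) (nat_lit 129)) (XT.nd (nat_lit 44838) (nat_lit 0) (nat_lit 8400) (XT.lf (nat_lit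 0) (nat_lit 9432323317) (nat_lit 168) (nat_lit 8041555115) (nat_lit 252) (nat_lit 76783844126) (nat_lit 6) (nat_lit 5) (nat_lit 8) (nat_lit 5) (nat_lit 9) (nat_lit 5) (nat_lit 416) (nat_lit 317) (nat_lit 128)) (XT.lf (nat_lit 0) (nat_lit 1745251092) (nat_lit 0) (nat_lit 1745251092) (nat_lit 924) (nat_lit 2048756312) (nat_lit 106) (nat_lit 5) (nat_lit 106) (nat_lit 3) (nat_lit 117) (nat_lit 3) (nat_lit 318) (nat_lit 318) (nat_lit 225))))))) (XT.nd (nat_lit 1128) (nat_lit 1932) (nat_lit 0) (XT.nd (nat_lit 564) (nat_lit 840) (nat_lit 0) (XT.nd (nat_lit 282) (nat_lit 0) (nat_lit 0) (XT.nd (nat_lit 94) (nat_lit 0) (nat_lit 0) (XT.lf (nat_lit 0) (nat_lit 7540608567) (nat_lit 0) (nat_lit 5083209) (nat_lit 924) (nat_lit 3687740629) (nat_lit 106) (nat_lit 5) (nat_lit 106) (nat_lit 3) (nat_lit 117) (nat_lit 3) (nat_lit 319) (nat_lit 318) (nat_lit 224)) (XT.nd (nat_lit 94) (nat_lit 0) (nat_lit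 0) (XT.lf (nat_lit 84) (nat_lit 283262592) (nat_lit 0) (nat_lit 7864726164) (nat_lit 1008) (nat_lit 3244645017) (nat_lit 107) (nat_lit 5) (nat_lit 106) (nat_lit 5) (nat_lit 118) (nat_lit 5) (nat_lit 320) (nat_lit 318) (nat_lit 223)) (XT.lf (nat_lit 84) (nat_lit 4450976102) (nat_lit 0) (nat_lit 4338727337) (nat_lit 1008) (nat_lit 2766527400) (nat_lit 107) (nat_lit 5) (nat_lit 106) (nat_lit 5) (nat_lit 118) (nat_lit 5) (nat_lit 321) (nat_lit 318) (nat_lit 222)))) (XT.nd (nat_lit 94) (nat_lit 0) (nat_lit 84) (XT.lf (nat_lit 84) (nat_lit 8738320867) (nat_lit 0) (nat_lit 695676664) (nat_lit 1008) (nat_lit 2291539094) (nat_lit 107) (nat_lit 5) (nat_lit 106) (nat_lit 5) (nat_lit 118) (nat_lit 5) (nat_lit 322) (nat_lit 318) (nat_lit 221)) (XT.nd (nat_lit 94) (nat_lit 0) (nat_lit 0) (XT.lf (nat_lit 84) (nat_lit 1243198715) (nat_lit 0) (nat_lit 8881038721) (nat_lit 1008) (nat_lit 1775145762)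 (nat_lit 108) (nat_lit 5) (nat_lit 107) (nat_lit 5) (nat_lit 119) (nat_lit 5) (nat_lit 323) (nat_lit 318) (nat_lit 220)) (XT.lf (nat_lit 84) (nat_lit 5650950211) (nat_lit 0) (nat_lit 5206834209) (nat_lit 1008) (nat_lit 1220249927) (nat_lit 108) (nat_lit 5) (nat_lit 107) (nat_lit 5) (nat_lit 119) (nat_lit 5) (nat_lit 324) (nat_lit 318) (nat_lit 219))))) (XT.nd (nat_lit 282) (nat_lit 0) (nat_lit 0) (XT.nd (nat_lit 94) (nat_lit 924) (nat_lit 0) (XT.lf (nat_lit 84) (nat_lit 10185767036) (nat_lit 0) (nat_lit 1412480985) (nat_lit 1008) (nat_lit 664557875) (nat_lit 108) (nat_lit 5) (nat_lit 107) (nat_lit 5) (nat_lit 119) (nat_lit 5) (nat_lit 325) (nat_lit 318) (nat_lit 218)) (XT.nd (nat_lit 94) (nat_lit 1008) (nat_lit 0) (XT.lf (nat_lit 84) (nat_lit 2421947443) (nat_lit 0) (nat_lit 9973252445) (nat_lit 1008) (nat_lit 57154857) (nat_lit 109) (nat_lit 5) (nat_lit 108) (nat_lit 5) (nat_lit 120)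 (nat_lit 5) (nat_lit 326) (nat_lit 318) (nat_lit 217)) (XT.lf (nat_lit 0) (nat_lit 578797842) (nat_lit 1008) (nat_lit 5573193466) (nat_lit 1092) (nat_lit 6495040198) (nat_lit 96) (nat_lit 5) (nat_lit 108) (nat_lit 5) (nat_lit 109) (nat_lit 5) (nat_lit 327) (nat_lit 318) (nat_lit 216)))) (XT.nd (nat_lit 94) (nat_lit 0) (nat_lit 84) (XT.lf (nat_lit 0) (nat_lit 1218571447) (nat_lit 1008) (nat_lit 988290639) (nat_lit 1092) (nat_lit 10641400086) (nat_lit 96) (nat_lit 5) (nat_lit 108) (nat_lit 5) (nat_lit 109) (nat_lit 5) (nat_lit 328) (nat_lit 318) (nat_lit 215)) (XT.nd (nat_lit 94) (nat_lit 0) (nat_lit 0) (XT.lf (nat_lit 0) (nat_lit 1920557477) (nat_lit 1008) (nat_lit 9268150363) (nat_lit 1092) (nat_lit 1865788095) (nat_lit 97) (nat_lit 5) (nat_lit 109) (nat_lit 5) (nat_lit 110) (nat_lit 5) (nat_lit 329) (nat_lit 318) (nat_lit 214)) (XT.lf (nat_lit 0) (nat_lit 2663411610) (nat_lit 1008)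 (nat_lit 4569590160) (nat_lit 1092) (nat_lit 6033605216) (nat_lit 97) (nat_lit 5) (nat_lit 109) (nat_lit 5) (nat_lit 110) (nat_lit 5) (nat_lit 330) (nat_lit 318) (nat_lit 213)))))) (XT.nd (nat_lit 564) (nat_lit 2016) (nat_lit 0) (XT.nd (nat_lit 282) (nat_lit 0) (nat_lit 84) (XT.nd (nat_lit 94) (nat_lit 0) (nat_lit 84) (XT.lf (nat_lit 84) (nat_lit 270316852) (nat_lit 0) (nat_lit 3148190755) (nat_lit 1092) (nat_lit 10067194304) (nat_lit 98) (nat_lit 5) (nat_lit 97) (nat_lit 5) (nat_lit 110) (nat_lit 5) (nat_lit 331) (nat_lit 318) (nat_lit 212)) (XT.nd (nat_lit 94) (nat_lit 0) (nat_lit 0) (XT.lf (nat_lit 0) (nat_lit 4242619854) (nat_lit 1008) (nat_lit 8374182249) (nat_lit 1092) (nat_lit 1093444639) (nat_lit 98) (nat_lit 5) (nat_lit 110) (nat_lit 5) (nat_lit 111) (nat_lit 5) (nat_lit 332) (nat_lit 318) (nat_lit 211)) (XT.lf (nat_lit 0) (nat_lit 5111748515) (nat_lit 1008) (nat_lit 3424965509)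 (nat_lit 1092) (nat_lit 5404504564) (nat_lit 98) (nat_lit 5) (nat_lit 110) (nat_lit 5) (nat_lit 111) (nat_lit 5) (nat_lit 333) (nat_lit 318) (nat_lit 210)))) (XT.nd (nat_lit 94) (nat_lit 0) (nat_lit 84) (XT.lf (nat_lit 84) (nat_lit 1702408528) (nat_lit 0) (nat_lit 4309952842) (nat_lit 1092) (nat_lit 8166915980) (nat_lit 99) (nat_lit 5) (nat_lit 98) (nat_lit 5) (nat_lit 111) (nat_lit 5) (nat_lit 334) (nat_lit 318) (nat_lit 209)) (XT.nd (nat_lit 94) (nat_lit 0) (nat_lit 0) (XT.lf (nat_lit 0) (nat_lit 6965439200) (nat_lit 1008) (nat_lit 7373046016) (nat_lit 84) (nat_lit 85535327) (nat_lit 99) (nat_lit 5) (nat_lit 111) (nat_lit 5) (nat_lit 100) (nat_lit 5) (nat_lit 335) (nat_lit 318) (nat_lit 208)) (XT.lf (nat_lit 0) (nat_lit 7980461420) (nat_lit 1008) (nat_lit 2164723363) (nat_lit 84) (nat_lit 4530225188) (nat_lit 99) (nat_lit 5) (nat_lit 111) (nat_lit 5) (nat_lit 100) (nat_lit 5) (nat_lit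 336) (nat_lit 318) (nat_lit 207))))) (XT.nd (nat_lit 282) (nat_lit 1176) (nat_lit 0) (XT.nd (nat_lit 94) (nat_lit 0) (nat_lit 0) (XT.lf (nat_lit 0) (nat_lit 3261419439) (nat_lit 1008) (nat_lit 5786553119) (nat_lit 1092) (nat_lit 5886029848) (nat_lit 87) (nat_lit 5) (nat_lit 99) (nat_lit 5) (nat_lit 100) (nat_lit 5) (nat_lit 337) (nat_lit 318) (nat_lit 206)) (XT.nd (nat_lit 94) (nat_lit 0) (nat_lit 0) (XT.lf (nat_lit 0) (nat_lit 8892410121) (nat_lit 1008) (nat_lit 1267680123) (nat_lit 1092) (nat_lit 5040223836) (nat_lit 87) (nat_lit 5) (nat_lit 99) (nat_lit 5) (nat_lit 100) (nat_lit 5) (nat_lit 338) (nat_lit 318) (nat_lit 205)) (XT.lf (nat_lit 0) (nat_lit 11329594694) (nat_lit 1092) (nat_lit 819945899) (nat_lit 84) (nat_lit 3324688579) (nat_lit 87) (nat_lit 5) (nat_lit 100) (nat_lit 5) (nat_lit 88) (nat_lit 5) (nat_lit 339) (nat_lit 318) (nat_lit 204)))) (XT.nd (nat_lit 188) (nat_lit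 588) (nat_lit 0) (XT.nd (nat_lit 94) (nat_lit 0) (nat_lit 0) (XT.lf (nat_lit 0) (nat_lit 4915099843) (nat_lit 588) (nat_lit 7671569594) (nat_lit 672) (nat_lit 3168431668) (nat_lit 80) (nat_lit 5) (nat_lit 87) (nat_lit 5) (nat_lit 88) (nat_lit 5) (nat_lit 340) (nat_lit 318) (nat_lit 203)) (XT.lf (nat_lit 0) (nat_lit 10836304635) (nat_lit 588) (nat_lit 3044782859) (nat_lit 672) (nat_lit 2163697545) (nat_lit 80) (nat_lit 5) (nat_lit 87) (nat_lit 5) (nat_lit 88) (nat_lit 5) (nat_lit 341) (nat_lit 318) (nat_lit 202))) (XT.nd (nat_lit 94) (nat_lit 84) (nat_lit 0) (XT.lf (nat_lit 0) (nat_lit 583140720) (nat_lit 504) (nat_lit 14645526115) (nat_lit 588) (nat_lit 1114431201) (nat_lit 74) (nat_lit 5) (nat_lit 80) (nat_lit 5) (nat_lit 81) (nat_lit 5) (nat_lit 342) (nat_lit 318) (nat_lit 201)) (XT.lf (nat_lit 0) (nat_lit 44273936) (nat_lit 588) (nat_lit 10024896079) (nat_lit 84) (nat_lit 6579184677)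 (nat_lit 73) (nat_lit 5) (nat_lit 80) (nat_lit 5) (nat_lit 74) (nat_lit 5) (nat_lit 343) (nat_lit 318) (nat_lit 200))))))))
noncomputable def xc158 : XT := (XT.nd (nat_lit 2256) (nat_lit 1596) (nat_lit 0) (XT.nd (nat_lit 1128) (nat_lit 1428) (nat_lit 0) (XT.nd (nat_lit 564) (nat_lit 756) (nat_lit 0) (XT.nd (nat_lit 282) (nat_lit 420) (nat_lit 0) (XT.nd (nat_lit 94) (nat_lit 504) (nat_lit 0) (XT.lf (nat_lit 0) (nat_lit 1206235616) (nat_lit 588) (nat_lit 4132435865) (nat_lit 84) (nat_lit 11624392710) (nat_lit 73) (nat_lit 5) (nat_lit 80) (nat_lit 5) (nat_lit 74) (nat_lit 5) (nat_lit 344) (nat_lit 318) (nat_lit 199)) (XT.nd (nat_lit 94) (nat_lit 0) (nat_lit 0) (XT.lf (nat_lit 0) (nat_lit 1973737421) (nat_lit 504) (nat_lit 440832511) (nat_lit 588) (nat_lit 14872685686) (nat_lit 67) (nat_lit 5) (nat_lit 73) (nat_lit 5) (nat_lit 74) (nat_lit 5) (nat_lit 345) (nat_lit 318) (nat_lit 198))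 (XT.lf (nat_lit 0) (nat_lit 3740626148) (nat_lit 588) (nat_lit 9318474585) (nat_lit 84) (nat_lit 4559953511) (nat_lit 67) (nat_lit 5) (nat_lit 74) (nat_lit 5) (nat_lit 68) (nat_lit 5) (nat_lit 346) (nat_lit 318) (nat_lit 197)))) (XT.nd (nat_lit 94) (nat_lit 420) (nat_lit 0) (XT.lf (nat_lit 0) (nat_lit 5103538320) (nat_lit 588) (nat_lit 3150784756) (nat_lit 84) (nat_lit 9706991423) (nat_lit 67) (nat_lit 5) (nat_lit 74) (nat_lit 5) (nat_lit 68) (nat_lit 5) (nat_lit 347) (nat_lit 318) (nat_lit 196)) (XT.nd (nat_lit 94) (nat_lit 0) (nat_lit 0) (XT.lf (nat_lit 0) (nat_lit 3265465179) (nat_lit 420) (nat_lit 3267132351) (nat_lit 504) (nat_lit 11780889233) (nat_lit 62) (nat_lit 5) (nat_lit 67) (nat_lit 5) (nat_lit 68) (nat_lit 5) (nat_lit 348) (nat_lit 318) (nat_lit 195)) (XT.lf (nat_lit 0) (nat_lit 8049453992) (nat_lit 504) (nat_lit 8755720325) (nat_lit 84) (nat_lit 1870095119) (nat_lit 62)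 (nat_lit 5) (nat_lit 68) (nat_lit 5) (nat_lit 63) (nat_lit 5) (nat_lit 349) (nat_lit 318) (nat_lit 194))))) (XT.nd (nat_lit 282) (nat_lit 336) (nat_lit 0) (XT.nd (nat_lit 94) (nat_lit 420) (nat_lit 0) (XT.lf (nat_lit 0) (nat_lit 9638673832) (nat_lit 504) (nat_lit 2310156980) (nat_lit 84) (nat_lit 7098691204) (nat_lit 62) (nat_lit 5) (nat_lit 68) (nat_lit 5) (nat_lit 63) (nat_lit 5) (nat_lit 350) (nat_lit 318) (nat_lit 193)) (XT.nd (nat_lit 94) (nat_lit 0) (nat_lit 0) (XT.lf (nat_lit 0) (nat_lit 4416060526) (nat_lit 420) (nat_lit 6897075353) (nat_lit 504) (nat_lit 8117102280) (nat_lit 57) (nat_lit 5) (nat_lit 62) (nat_lit 5) (nat_lit 63) (nat_lit 5) (nat_lit 351) (nat_lit 318) (nat_lit 192)) (XT.lf (nat_lit 0) (nat_lit 11391715140) (nat_lit 420) (nat_lit 1664228559) (nat_lit 504) (nat_lit 6768403071) (nat_lit 57) (nat_lit 5) (nat_lit 62) (nat_lit 5) (nat_lit 63) (nat_lit 5) (nat_lit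 352) (nat_lit 318) (nat_lit 191)))) (XT.nd (nat_lit 94) (nat_lit 336) (nat_lit 0) (XT.lf (nat_lit 0) (nat_lit 14882340266) (nat_lit 504) (nat_lit 1692139663) (nat_lit 84) (nat_lit 3655313096) (nat_lit 57) (nat_lit 5) (nat_lit 63) (nat_lit 5) (nat_lit 58) (nat_lit 5) (nat_lit 353) (nat_lit 318) (nat_lit 190)) (XT.nd (nat_lit 94) (nat_lit 0) (nat_lit 0) (XT.lf (nat_lit 0) (nat_lit 5340047563) (nat_lit 336) (nat_lit 11488077950) (nat_lit 420) (nat_lit 3817772307) (nat_lit 53) (nat_lit 5) (nat_lit 57) (nat_lit 5) (nat_lit 58) (nat_lit 5) (nat_lit 354) (nat_lit 318) (nat_lit 189)) (XT.lf (nat_lit 0) (nat_lit 12618355422) (nat_lit 336) (nat_lit 6226452815) (nat_lit 420) (nat_lit 2229800223) (nat_lit 53) (nat_lit 5) (nat_lit 57) (nat_lit 5) (nat_lit 58) (nat_lit 5) (nat_lit 355) (nat_lit 318) (nat_lit 188)))))) (XT.nd (nat_lit 564) (nat_lit 588) (nat_lit 0) (XT.nd (nat_lit 282) (nat_lit 336)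 (nat_lit 0) (XT.nd (nat_lit 94) (nat_lit 504) (nat_lit 0) (XT.lf (nat_lit 0) (nat_lit 20114774195) (nat_lit 336) (nat_lit 802362606) (nat_lit 420) (nat_lit 599718818) (nat_lit 53) (nat_lit 5) (nat_lit 57) (nat_lit 5) (nat_lit 58) (nat_lit 5) (nat_lit 356) (nat_lit 318) (nat_lit 187)) (XT.nd (nat_lit 94) (nat_lit 0) (nat_lit 0) (XT.lf (nat_lit 0) (nat_lit 1159829869) (nat_lit 504) (nat_lit 16046182496) (nat_lit 84) (nat_lit 4763377089) (nat_lit 47) (nat_lit 5) (nat_lit 53) (nat_lit 5) (nat_lit 48) (nat_lit 5) (nat_lit 357) (nat_lit 318) (nat_lit 186)) (XT.lf (nat_lit 0) (nat_lit 2977815794) (nat_lit 504) (nat_lit 8952299604) (nat_lit 84) (nat_lit 10505170030) (nat_lit 47) (nat_lit 5) (nat_lit 53) (nat_lit 5) (nat_lit 48) (nat_lit 5) (nat_lit 358) (nat_lit 318) (nat_lit 185)))) (XT.nd (nat_lit 94) (nat_lit 336) (nat_lit 0) (XT.lf (nat_lit 0) (nat_lit 4845716976) (nat_lit 504) (nat_lit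 1645891837) (nat_lit 84) (nat_lit 16424244708) (nat_lit 47) (nat_lit 5) (nat_lit 53) (nat_lit 5) (nat_lit 48) (nat_lit 5) (nat_lit 359) (nat_lit 318) (nat_lit 184)) (XT.nd (nat_lit 94) (nat_lit 0) (nat_lit 0) (XT.lf (nat_lit 0) (nat_lit 6000752941) (nat_lit 336) (nat_lit 824049765) (nat_lit 420) (nat_lit 16584893590) (nat_lit 43) (nat_lit 5) (nat_lit 47) (nat_lit 5) (nat_lit 48) (nat_lit 5) (nat_lit 360) (nat_lit 318) (nat_lit 183)) (XT.lf (nat_lit 0) (nat_lit 8926246076) (nat_lit 420) (nat_lit 10056246028) (nat_lit 84) (nat_lit 4934492783) (nat_lit 43) (nat_lit 5) (nat_lit 48) (nat_lit 5) (nat_lit 44) (nat_lit 5) (nat_lit 361) (nat_lit 318) (nat_lit 182))))) (XT.nd (nat_lit 282) (nat_lit 252) (nat_lit 0) (XT.nd (nat_lit 94) (nat_lit 336) (nat_lit 0) (XT.lf (nat_lit 0) (nat_lit 11095306333) (nat_lit 420) (nat_lit 2491123021) (nat_lit 84) (nat_lit 10853520473) (nat_lit 43) (nat_lit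 5) (nat_lit 48) (nat_lit 5) (nat_lit 44) (nat_lit 5) (nat_lit 362) (nat_lit 318) (nat_lit 181)) (XT.nd (nat_lit 94) (nat_lit 0) (nat_lit 0) (XT.lf (nat_lit 0) (nat_lit 5410664663) (nat_lit 336) (nat_lit 7968840393) (nat_lit 420) (nat_lit 11598163023) (nat_lit 39) (nat_lit 5) (nat_lit 43) (nat_lit 5) (nat_lit 44) (nat_lit 5) (nat_lit 363) (nat_lit 318) (nat_lit 180)) (XT.lf (nat_lit 0) (nat_lit 13603420816) (nat_lit 336) (nat_lit 2151424741) (nat_lit 420) (nat_lit 9776605196) (nat_lit 39) (nat_lit 5) (nat_lit 43) (nat_lit 5) (nat_lit 44) (nat_lit 5) (nat_lit 364) (nat_lit 318) (nat_lit 179)))) (XT.nd (nat_lit 94) (nat_lit 252) (nat_lit 0) (XT.lf (nat_lit 0) (nat_lit 18236466752) (nat_lit 420) (nat_lit 4097181754) (nat_lit 84) (nat_lit 3767764855) (nat_lit 39) (nat_lit 5) (nat_lit 44) (nat_lit 5) (nat_lit 40) (nat_lit 5) (nat_lit 365) (nat_lit 318) (nat_lit 178)) (XT.nd (nat_lit 94)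 (nat_lit 0) (nat_lit 0) (XT.lf (nat_lit 0) (nat_lit 4029020885) (nat_lit 252) (nat_lit 16822624484) (nat_lit 336) (nat_lit 5835667931) (nat_lit 36) (nat_lit 5) (nat_lit 39) (nat_lit 5) (nat_lit 40) (nat_lit 5) (nat_lit 366) (nat_lit 318) (nat_lit 177)) (XT.lf (nat_lit 0) (nat_lit 12487486846) (nat_lit 252) (nat_lit 11097924785) (nat_lit 336) (nat_lit 3704824684) (nat_lit 36) (nat_lit 5) (nat_lit 39) (nat_lit 5) (nat_lit 40) (nat_lit 5) (nat_lit 367) (nat_lit 318) (nat_lit 176))))))) (XT.nd (nat_lit 1128) (nat_lit 672) (nat_lit 0) (XT.nd (nat_lit 564) (nat_lit 252) (nat_lit 0) (XT.nd (nat_lit 282) (nat_lit 252) (nat_lit 0) (XT.nd (nat_lit 94) (nat_lit 420) (nat_lit 0) (XT.lf (nat_lit 0) (nat_lit 21201853843) (nat_lit 252) (nat_lit 5196979566) (nat_lit 336) (nat_lit 1513196876) (nat_lit 36) (nat_lit 5) (nat_lit 39) (nat_lit 5) (nat_lit 40) (nat_lit 5) (nat_lit 368) (nat_lit 318) (nat_lit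 175)) (XT.nd (nat_lit 94) (nat_lit 0) (nat_lit 0) (XT.lf (nat_lit 0) (nat_lit 751750058) (nat_lit 420) (nat_lit 26908648746) (nat_lit 84) (nat_lit 891859807) (nat_lit 31) (nat_lit 5) (nat_lit 36) (nat_lit 5) (nat_lit 32) (nat_lit 5) (nat_lit 369) (nat_lit 318) (nat_lit 174)) (XT.lf (nat_lit 0) (nat_lit 3174454129) (nat_lit 420) (nat_lit 18887235834) (nat_lit 84) (nat_lit 7146496556) (nat_lit 31) (nat_lit 5) (nat_lit 36) (nat_lit 5) (nat_lit 32) (nat_lit 5) (nat_lit 370) (nat_lit 318) (nat_lit 173)))) (XT.nd (nat_lit 94) (nat_lit 252) (nat_lit 0) (XT.lf (nat_lit 0) (nat_lit 5667477095) (nat_lit 420) (nat_lit 10623311563) (nat_lit 84) (nat_lit 13593827791) (nat_lit 31) (nat_lit 5) (nat_lit 36) (nat_lit 5) (nat_lit 32) (nat_lit 5) (nat_lit 371) (nat_lit 318) (nat_lit 172)) (XT.nd (nat_lit 94) (nat_lit 252) (nat_lit 0) (XT.lf (nat_lit 0) (nat_lit 8233142714) (nat_lit 420) (nat_lit 2109173091)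 (nat_lit 84) (nat_lit 20239863100) (nat_lit 31) (nat_lit 5) (nat_lit 36) (nat_lit 5) (nat_lit 32) (nat_lit 5) (nat_lit 372) (nat_lit 318) (nat_lit 171)) (XT.lf (nat_lit 0) (nat_lit 6800122975) (nat_lit 252) (nat_lit 4141177542) (nat_lit 336) (nat_lit 20358132371) (nat_lit 28) (nat_lit 5) (nat_lit 31) (nat_lit 5) (nat_lit 32) (nat_lit 5) (nat_lit 373) (nat_lit 318) (nat_lit 170))))) (XT.nd (nat_lit 282) (nat_lit 0) (nat_lit 0) (XT.nd (nat_lit 94) (nat_lit 252) (nat_lit 0) (XT.lf (nat_lit 0) (nat_lit 13773557925) (nat_lit 336) (nat_lit 16036357672) (nat_lit 84) (nat_lit 2227779779) (nat_lit 28) (nat_lit 5) (nat_lit 32) (nat_lit 5) (nat_lit 29) (nat_lit 5) (nat_lit 374) (nat_lit 318) (nat_lit 169)) (XT.nd (nat_lit 94) (nat_lit 252) (nat_lit 0) (XT.lf (nat_lit 0) (nat_lit 16731667240) (nat_lit 336) (nat_lit 7359103622) (nat_lit 84) (nat_lit 8706911165) (nat_lit 28) (nat_lit 5) (nat_lit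 32) (nat_lit 5) (nat_lit 29) (nat_lit 5) (nat_lit 375) (nat_lit 318) (nat_lit 168)) (XT.lf (nat_lit 0) (nat_lit 1614142718) (nat_lit 252) (nat_lit 18179174512) (nat_lit 336) (nat_lit 13787561120) (nat_lit 25) (nat_lit 5) (nat_lit 28) (nat_lit 5) (nat_lit 29) (nat_lit 5) (nat_lit 376) (nat_lit 318) (nat_lit 167)))) (XT.nd (nat_lit 94) (nat_lit 0) (nat_lit 0) (XT.lf (nat_lit 0) (nat_lit 11016100787) (nat_lit 252) (nat_lit 12006489560) (nat_lit 336) (nat_lit 11363525929) (nat_lit 25) (nat_lit 5) (nat_lit 28) (nat_lit 5) (nat_lit 29) (nat_lit 5) (nat_lit 377) (nat_lit 318) (nat_lit 166)) (XT.nd (nat_lit 94) (nat_lit 0) (nat_lit 0) (XT.lf (nat_lit 0) (nat_lit 20704215931) (nat_lit 252) (nat_lit 5643776365) (nat_lit 336) (nat_lit 8868463711) (nat_lit 25) (nat_lit 5) (nat_lit 28) (nat_lit 5) (nat_lit 29) (nat_lit 5) (nat_lit 378) (nat_lit 318) (nat_lit 165)) (XT.lf (nat_lit 0) (nat_lit 29781698581)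 (nat_lit 336) (nat_lit 5394228897) (nat_lit 84) (nat_lit 896462675) (nat_lit 25) (nat_lit 5) (nat_lit 29) (nat_lit 5) (nat_lit 26) (nat_lit 5) (nat_lit 379) (nat_lit 318) (nat_lit 164)))))) (XT.nd (nat_lit 564) (nat_lit 168) (nat_lit 0) (XT.nd (nat_lit 282) (nat_lit 252) (nat_lit 0) (XT.nd (nat_lit 94) (nat_lit 84) (nat_lit 0) (XT.lf (nat_lit 0) (nat_lit 4024698490) (nat_lit 168) (nat_lit 29391043994) (nat_lit 252) (nat_lit 3536220238) (nat_lit 23) (nat_lit 5) (nat_lit 25) (nat_lit 5) (nat_lit 26) (nat_lit 5) (nat_lit 380) (nat_lit 318) (nat_lit 163)) (XT.nd (nat_lit 94) (nat_lit 84) (nat_lit 0) (XT.lf (nat_lit 0) (nat_lit 13844910874) (nat_lit 168) (nat_lit 23370142974) (nat_lit 252) (nat_lit 642131898) (nat_lit 23) (nat_lit 5) (nat_lit 25) (nat_lit 5) (nat_lit 26) (nat_lit 5) (nat_lit 381) (nat_lit 318) (nat_lit 162)) (XT.lf (nat_lit 0) (nat_lit 2290861542) (nat_lit 252) (nat_lit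 14849143557) (nat_lit 84) (nat_lit 21649871875) (nat_lit 22) (nat_lit 5) (nat_lit 25) (nat_lit 5) (nat_lit 23) (nat_lit 5) (nat_lit 382) (nat_lit 318) (nat_lit 161)))) (XT.nd (nat_lit 94) (nat_lit 252) (nat_lit 0) (XT.lf (nat_lit 0) (nat_lit 5297916258) (nat_lit 252) (nat_lit 5413365566) (nat_lit 84) (nat_lit 29040118821) (nat_lit 22) (nat_lit 5) (nat_lit 25) (nat_lit 5) (nat_lit 23) (nat_lit 5) (nat_lit 383) (nat_lit 318) (nat_lit 160)) (XT.nd (nat_lit 94) (nat_lit 0) (nat_lit 0) (XT.lf (nat_lit 0) (nat_lit 4398851311) (nat_lit 252) (nat_lit 4039558505) (nat_lit 336) (nat_lit 32303087905) (nat_lit 19) (nat_lit 5) (nat_lit 22) (nat_lit 5) (nat_lit 23) (nat_lit 5) (nat_lit 384) (nat_lit 318) (nat_lit 159)) (XT.lf (nat_lit 0) (nat_lit 11758130952) (nat_lit 336) (nat_lit 27164023484) (nat_lit 84) (nat_lit 2837607932) (nat_lit 19) (nat_lit 5) (nat_lit 23) (nat_lit 5) (nat_lit 20) (nat_lit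 5) (nat_lit 385) (nat_lit 318) (nat_lit 158))))) (XT.nd (nat_lit 282) (nat_lit 0) (nat_lit 0) (XT.nd (nat_lit 94) (nat_lit 168) (nat_lit 0) (XT.lf (nat_lit 0) (nat_lit 15218806871) (nat_lit 336) (nat_lit 17746789206) (nat_lit 84) (nat_lit 9842830023) (nat_lit 19) (nat_lit 5) (nat_lit 23) (nat_lit 5) (nat_lit 20) (nat_lit 5) (nat_lit 386) (nat_lit 318) (nat_lit 157)) (XT.nd (nat_lit 94) (nat_lit 168) (nat_lit 0) (XT.lf (nat_lit 0) (nat_lit 18783590364) (nat_lit 336) (nat_lit 8042092805) (nat_lit 84) (nat_lit 17064025469) (nat_lit 19) (nat_lit 5) (nat_lit 23) (nat_lit 5) (nat_lit 20) (nat_lit 5) (nat_lit 387) (nat_lit 318) (nat_lit 156)) (XT.lf (nat_lit 0) (nat_lit 1999394862) (nat_lit 168) (nat_lit 20476243565) (nat_lit 252) (nat_lit 22528364564) (nat_lit 17) (nat_lit 5) (nat_lit 19) (nat_lit 5) (nat_lit 20) (nat_lit 5) (nat_lit 388) (nat_lit 318) (nat_lit 155)))) (XT.nd (nat_lit 188)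 (nat_lit 0) (nat_lit 0) (XT.nd (nat_lit 94) (nat_lit 0) (nat_lit 0) (XT.lf (nat_lit 0) (nat_lit 12518363031) (nat_lit 168) (nat_lit 13844691896) (nat_lit 252) (nat_lit 19787288335) (nat_lit 17) (nat_lit 5) (nat_lit 19) (nat_lit 5) (nat_lit 20) (nat_lit 5) (nat_lit 389) (nat_lit 318) (nat_lit 154)) (XT.lf (nat_lit 0) (nat_lit 23359254559) (nat_lit 168) (nat_lit 7008789815) (nat_lit 252) (nat_lit 16964277571) (nat_lit 17) (nat_lit 5) (nat_lit 19) (nat_lit 5) (nat_lit 20) (nat_lit 5) (nat_lit 390) (nat_lit 318) (nat_lit 153))) (XT.nd (nat_lit 94) (nat_lit 0) (nat_lit 0) (XT.lf (nat_lit 0) (nat_lit 34494715164) (nat_lit 252) (nat_lit 14019241799) (nat_lit 84) (nat_lit 37072173) (nat_lit 17) (nat_lit 5) (nat_lit 20) (nat_lit 5) (nat_lit 18) (nat_lit 5) (nat_lit 391) (nat_lit 318) (nat_lit 152)) (XT.lf (nat_lit 0) (nat_lit 38818221720) (nat_lit 252) (nat_lit 3832533400) (nat_lit 84) (nat_lit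 7154635130) (nat_lit 17) (nat_lit 5) (nat_lit 20) (nat_lit 5) (nat_lit 18) (nat_lit 5) (nat_lit 392) (nat_lit 318) (nat_lit 151))))))))
noncomputable def xc159 : XT := (XT.nd (nat_lit 47094) (nat_lit 0) (nat_lit 5544) (XT.nd (nat_lit 1128) (nat_lit 168) (nat_lit 0) (XT.nd (nat_lit 564) (nat_lit 168) (nat_lit 0) (XT.nd (nat_lit 282) (nat_lit 252) (nat_lit 0) (XT.nd (nat_lit 94) (nat_lit 0) (nat_lit 0) (XT.lf (nat_lit 0) (nat_lit 6803149249) (nat_lit 168) (nat_lit 36537404775) (nat_lit 252) (nat_lit 7756083698) (nat_lit 15) (nat_lit 5) (nat_lit 17) (nat_lit 5) (nat_lit 18) (nat_lit 5) (nat_lit 393) (nat_lit 318) (nat_lit 150)) (XT.nd (nat_lit 94) (nat_lit 0) (nat_lit 0) (XT.lf (nat_lit 0) (nat_lit 17845943051) (nat_lit 168) (nat_lit 30194491125) (nat_lit 252) (nat_lit 4386331245) (nat_lit 15) (nat_lit 5) (nat_lit 17) (nat_lit 5) (nat_lit 18) (nat_lit 5) (nat_lit 394) (nat_lit 318) (nat_lit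 149)) (XT.lf (nat_lit 0) (nat_lit 29227336299) (nat_lit 168) (nat_lit 23656105697) (nat_lit 252) (nat_lit 914773998) (nat_lit 15) (nat_lit 5) (nat_lit 17) (nat_lit 5) (nat_lit 18) (nat_lit 5) (nat_lit 395) (nat_lit 318) (nat_lit 148)))) (XT.nd (nat_lit 94) (nat_lit 168) (nat_lit 0) (XT.lf (nat_lit 0) (nat_lit 2608194079) (nat_lit 252) (nat_lit 14280735755) (nat_lit 84) (nat_lit 38322519366) (nat_lit 14) (nat_lit 5) (nat_lit 17) (nat_lit 5) (nat_lit 15) (nat_lit 5) (nat_lit 396) (nat_lit 318) (nat_lit 147)) (XT.nd (nat_lit 94) (nat_lit 168) (nat_lit 0) (XT.lf (nat_lit 0) (nat_lit 6218922411) (nat_lit 252) (nat_lit 3684518582) (nat_lit 84) (nat_lit 46764846027) (nat_lit 14) (nat_lit 5) (nat_lit 17) (nat_lit 5) (nat_lit 15) (nat_lit 5) (nat_lit 397) (nat_lit 318) (nat_lit 146)) (XT.lf (nat_lit 0) (nat_lit 7385525152) (nat_lit 168) (nat_lit 2626947401) (nat_lit 252) (nat_lit 48155624911)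 (nat_lit 12) (nat_lit 5) (nat_lit 14) (nat_lit 5) (nat_lit 15) (nat_lit 5) (nat_lit 398) (nat_lit 318) (nat_lit 145))))) (XT.nd (nat_lit 282) (nat_lit 168) (nat_lit 0) (XT.nd (nat_lit 94) (nat_lit 0) (nat_lit 0) (XT.lf (nat_lit 0) (nat_lit 14008487319) (nat_lit 252) (nat_lit 40888607567) (nat_lit 84) (nat_lit 4814684317) (nat_lit 12) (nat_lit 5) (nat_lit 15) (nat_lit 5) (nat_lit 13) (nat_lit 5) (nat_lit 399) (nat_lit 318) (nat_lit 144)) (XT.nd (nat_lit 94) (nat_lit 0) (nat_lit 0) (XT.lf (nat_lit 0) (nat_lit 18152967315) (nat_lit 252) (nat_lit 30718185134) (nat_lit 84) (nat_lit 12431408110) (nat_lit 12) (nat_lit 5) (nat_lit 15) (nat_lit 5) (nat_lit 13) (nat_lit 5) (nat_lit 400) (nat_lit 318) (nat_lit 143)) (XT.lf (nat_lit 0) (nat_lit 22423715985) (nat_lit 252) (nat_lit 20235765470) (nat_lit 84) (nat_lit 20283250698) (nat_lit 12) (nat_lit 5) (nat_lit 15) (nat_lit 5) (nat_lit 13) (nat_lit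 5) (nat_lit 401) (nat_lit 318) (nat_lit 142)))) (XT.nd (nat_lit 94) (nat_lit 168) (nat_lit 0) (XT.lf (nat_lit 0) (nat_lit 26824714117) (nat_lit 252) (nat_lit 9431577863) (nat_lit 84) (nat_lit 28377530819) (nat_lit 12) (nat_lit 5) (nat_lit 15) (nat_lit 5) (nat_lit 13) (nat_lit 5) (nat_lit 402) (nat_lit 318) (nat_lit 141)) (XT.nd (nat_lit 94) (nat_lit 0) (nat_lit 0) (XT.lf (nat_lit 0) (nat_lit 1739495276) (nat_lit 168) (nat_lit 29637824632) (nat_lit 252) (nat_lit 34999553924) (nat_lit 10) (nat_lit 5) (nat_lit 12) (nat_lit 5) (nat_lit 13) (nat_lit 5) (nat_lit 403) (nat_lit 318) (nat_lit 140)) (XT.lf (nat_lit 0) (nat_lit 13453756236) (nat_lit 168) (nat_lit 22713699447) (nat_lit 252) (nat_lit 32003522234) (nat_lit 10) (nat_lit 5) (nat_lit 12) (nat_lit 5) (nat_lit 13) (nat_lit 5) (nat_lit 404) (nat_lit 318) (nat_lit 139)))))) (XT.nd (nat_lit 564) (nat_lit 84) (nat_lit 0) (XT.nd (nat_lit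 282) (nat_lit 84) (nat_lit 0) (XT.nd (nat_lit 94) (nat_lit 0) (nat_lit 0) (XT.lf (nat_lit 0) (nat_lit 25528191351) (nat_lit 168) (nat_lit 15575908744) (nat_lit 252) (nat_lit 28916667325) (nat_lit 10) (nat_lit 5) (nat_lit 12) (nat_lit 5) (nat_lit 13) (nat_lit 5) (nat_lit 405) (nat_lit 318) (nat_lit 138)) (XT.nd (nat_lit 94) (nat_lit 0) (nat_lit 0) (XT.lf (nat_lit 0) (nat_lit 37974055258) (nat_lit 168) (nat_lit 8217799354) (nat_lit 252) (nat_lit 25736111925) (nat_lit 10) (nat_lit 5) (nat_lit 12) (nat_lit 5) (nat_lit 13) (nat_lit 5) (nat_lit 406) (nat_lit 318) (nat_lit 137)) (XT.lf (nat_lit 0) (nat_lit 50802948807) (nat_lit 168) (nat_lit 632512749) (nat_lit 252) (nat_lit 22458891424) (nat_lit 10) (nat_lit 5) (nat_lit 12) (nat_lit 5) (nat_lit 13) (nat_lit 5) (nat_lit 407) (nat_lit 318) (nat_lit 136)))) (XT.nd (nat_lit 94) (nat_lit 84) (nat_lit 0) (XT.lf (nat_lit 0) (nat_lit 56911104659)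 (nat_lit 252) (nat_lit 11966225898) (nat_lit 84) (nat_lit 7042218889) (nat_lit 10) (nat_lit 5) (nat_lit 13) (nat_lit 5) (nat_lit 11) (nat_lit 4) (nat_lit 408) (nat_lit 318) (nat_lit 135)) (XT.nd (nat_lit 94) (nat_lit 84) (nat_lit 0) (XT.lf (nat_lit 0) (nat_lit 62561195870) (nat_lit 252) (nat_lit 505314697) (nat_lit 84) (nat_lit 14940876512) (nat_lit 10) (nat_lit 5) (nat_lit 13) (nat_lit 5) (nat_lit 11) (nat_lit 4) (nat_lit 409) (nat_lit 318) (nat_lit 134)) (XT.lf (nat_lit 0) (nat_lit 11540808373) (nat_lit 84) (nat_lit 56958404935) (nat_lit 168) (nat_lit 11657244094) (nat_lit 9) (nat_lit 5) (nat_lit 10) (nat_lit 5) (nat_lit 11) (nat_lit 4) (nat_lit 410) (nat_lit 318) (nat_lit 133))))) (XT.nd (nat_lit 282) (nat_lit 0) (nat_lit 0) (XT.nd (nat_lit 94) (nat_lit 84) (nat_lit 0) (XT.lf (nat_lit 0) (nat_lit 23968502019) (nat_lit 84) (nat_lit 50656394860) (nat_lit 168) (nat_lit 7747146338)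 (nat_lit 9) (nat_lit 5) (nat_lit 10) (nat_lit 5) (nat_lit 11) (nat_lit 4) (nat_lit 411) (nat_lit 318) (nat_lit 132)) (XT.nd (nat_lit 94) (nat_lit 84) (nat_lit 0) (XT.lf (nat_lit 0) (nat_lit 36778959847) (nat_lit 84) (nat_lit 44159880658) (nat_lit 168) (nat_lit 3717527770) (nat_lit 9) (nat_lit 5) (nat_lit 10) (nat_lit 5) (nat_lit 11) (nat_lit 4) (nat_lit 412) (nat_lit 318) (nat_lit 131)) (XT.lf (nat_lit 0) (nat_lit 426595949) (nat_lit 168) (nat_lit 37031758159) (nat_lit 84) (nat_lit 49553073809) (nat_lit 8) (nat_lit 5) (nat_lit 10) (nat_lit 5) (nat_lit 9) (nat_lit 5) (nat_lit 413) (nat_lit 318) (nat_lit 130)))) (XT.nd (nat_lit 94) (nat_lit 0) (nat_lit 0) (XT.lf (nat_lit 0) (nat_lit 4620405797) (nat_lit 168) (nat_lit 25890297842) (nat_lit 84) (nat_lit 58927665350) (nat_lit 8) (nat_lit 5) (nat_lit 10) (nat_lit 5) (nat_lit 9) (nat_lit 5) (nat_lit 414) (nat_lit 318) (nat_lit 129)) (XT.nd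 (nat_lit 94) (nat_lit 0) (nat_lit 0) (XT.lf (nat_lit 0) (nat_lit 8942710743) (nat_lit 168) (nat_lit 14405764133) (nat_lit 84) (nat_lit 68592122008) (nat_lit 8) (nat_lit 5) (nat_lit 10) (nat_lit 5) (nat_lit 9) (nat_lit 5) (nat_lit 415) (nat_lit 318) (nat_lit 128)) (XT.lf (nat_lit 0) (nat_lit 13397539628) (nat_lit 168) (nat_lit 2567452242) (nat_lit 84) (nat_lit 78555452066) (nat_lit 8) (nat_lit 5) (nat_lit 10) (nat_lit 5) (nat_lit 9) (nat_lit 5) (nat_lit 416) (nat_lit 318) (nat_lit 127))))))) (XT.nd (nat_lit 1128) (nat_lit 1764) (nat_lit 0) (XT.nd (nat_lit 564) (nat_lit 924) (nat_lit 0) (XT.nd (nat_lit 282) (nat_lit 0) (nat_lit 0) (XT.nd (nat_lit 94) (nat_lit 0) (nat_lit 0) (XT.lf (nat_lit 0) (nat_lit 2025330617) (nat_lit 0) (nat_lit 2025330617) (nat_lit 924) (nat_lit 1643679347) (nat_lit 106) (nat_lit 5) (nat_lit 106) (nat_lit 3) (nat_lit 117) (nat_lit 3) (nat_lit 319) (nat_lit 319)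 (nat_lit 223)) (XT.nd (nat_lit 94) (nat_lit 0) (nat_lit 0) (XT.lf (nat_lit 0) (nat_lit 8212731625) (nat_lit 0) (nat_lit 443604981) (nat_lit 924) (nat_lit 2893062703) (nat_lit 106) (nat_lit 5) (nat_lit 106) (nat_lit 3) (nat_lit 117) (nat_lit 3) (nat_lit 320) (nat_lit 319) (nat_lit 222)) (XT.lf (nat_lit 84) (nat_lit 762217283) (nat_lit 0) (nat_lit 8489172439) (nat_lit 1008) (nat_lit 2463102638) (nat_lit 107) (nat_lit 5) (nat_lit 106) (nat_lit 5) (nat_lit 118) (nat_lit 5) (nat_lit 321) (nat_lit 319) (nat_lit 221)))) (XT.nd (nat_lit 94) (nat_lit 0) (nat_lit 0) (XT.lf (nat_lit 84) (nat_lit 5044992783) (nat_lit 0) (nat_lit 4842422612) (nat_lit 1008) (nat_lit 1996687058) (nat_lit 107) (nat_lit 5) (nat_lit 106) (nat_lit 5) (nat_lit 118) (nat_lit 5) (nat_lit 322) (nat_lit 319) (nat_lit 220)) (XT.nd (nat_lit 94) (nat_lit 0) (nat_lit 84) (XT.lf (nat_lit 84) (nat_lit 9451533180) (nat_lit 0) (nat_lit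 1075336460) (nat_lit 1008) (nat_lit 1532700287) (nat_lit 107) (nat_lit 5) (nat_lit 106) (nat_lit 5) (nat_lit 118) (nat_lit 5) (nat_lit 323) (nat_lit 319) (nat_lit 219)) (XT.lf (nat_lit 84) (nat_lit 1752260570) (nat_lit 0) (nat_lit 9463401642) (nat_lit 1008) (nat_lit 1023991397) (nat_lit 108) (nat_lit 5) (nat_lit 107) (nat_lit 5) (nat_lit 119) (nat_lit 5) (nat_lit 324) (nat_lit 319) (nat_lit 218))))) (XT.nd (nat_lit 282) (nat_lit 0) (nat_lit 84) (XT.nd (nat_lit 94) (nat_lit 1008) (nat_lit 0) (XT.lf (nat_lit 84) (nat_lit 6282504736) (nat_lit 0) (nat_lit 5666064421) (nat_lit 1008) (nat_lit 476134044) (nat_lit 108) (nat_lit 5) (nat_lit 107) (nat_lit 5) (nat_lit 119) (nat_lit 5) (nat_lit 325) (nat_lit 319) (nat_lit 217)) (XT.nd (nat_lit 94) (nat_lit 0) (nat_lit 84) (XT.lf (nat_lit 0) (nat_lit 71796773) (nat_lit 1008) (nat_lit 1672585291) (nat_lit 1092) (nat_lit 10871632460) (nat_lit 95)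 (nat_lit 5) (nat_lit 107) (nat_lit 5) (nat_lit 108) (nat_lit 5) (nat_lit 326) (nat_lit 319) (nat_lit 216)) (XT.lf (nat_lit 0) (nat_lit 664945872) (nat_lit 1008) (nat_lit 9854266493) (nat_lit 1092) (nat_lit 2292792513) (nat_lit 96) (nat_lit 5) (nat_lit 108) (nat_lit 5) (nat_lit 109) (nat_lit 5) (nat_lit 327) (nat_lit 319) (nat_lit 215)))) (XT.nd (nat_lit 94) (nat_lit 0) (nat_lit 0) (XT.lf (nat_lit 0) (nat_lit 1297696239) (nat_lit 1008) (nat_lit 5274091585) (nat_lit 1092) (nat_lit 6441704195) (nat_lit 96) (nat_lit 5) (nat_lit 108) (nat_lit 5) (nat_lit 109) (nat_lit 5) (nat_lit 328) (nat_lit 319) (nat_lit 214)) (XT.nd (nat_lit 94) (nat_lit 0) (nat_lit 84) (XT.lf (nat_lit 0) (nat_lit 1936226564) (nat_lit 1008) (nat_lit 561244934) (nat_lit 1092) (nat_lit 10724258999) (nat_lit 96) (nat_lit 5) (nat_lit 108) (nat_lit 5) (nat_lit 109) (nat_lit 5) (nat_lit 329) (nat_lit 319) (nat_lit 213)) (XT.lf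 (nat_lit 0) (nat_lit 2641933945) (nat_lit 1008) (nat_lit 9076101354) (nat_lit 1092) (nat_lit 1716994256) (nat_lit 97) (nat_lit 5) (nat_lit 109) (nat_lit 5) (nat_lit 110) (nat_lit 5) (nat_lit 330) (nat_lit 319) (nat_lit 212)))))) (XT.nd (nat_lit 564) (nat_lit 1932) (nat_lit 0) (XT.nd (nat_lit 282) (nat_lit 0) (nat_lit 84) (XT.nd (nat_lit 94) (nat_lit 0) (nat_lit 0) (XT.lf (nat_lit 0) (nat_lit 3387916445) (nat_lit 1008) (nat_lit 4246299181) (nat_lit 1092) (nat_lit 6020226735) (nat_lit 97) (nat_lit 5) (nat_lit 109) (nat_lit 5) (nat_lit 110) (nat_lit 5) (nat_lit 331) (nat_lit 319) (nat_lit 211)) (XT.nd (nat_lit 94) (nat_lit 0) (nat_lit 84) (XT.lf (nat_lit 84) (nat_lit 738937765) (nat_lit 0) (nat_lit 3412746544) (nat_lit 1092) (nat_lit 9729207858) (nat_lit 98) (nat_lit 5) (nat_lit 97) (nat_lit 5) (nat_lit 110) (nat_lit 5) (nat_lit 332) (nat_lit 319) (nat_lit 210)) (XT.lf (nat_lit 0) (nat_lit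 4980878882) (nat_lit 1008) (nat_lit 8163593853) (nat_lit 1092) (nat_lit 968662503) (nat_lit 98) (nat_lit 5) (nat_lit 110) (nat_lit 5) (nat_lit 111) (nat_lit 5) (nat_lit 333) (nat_lit 319) (nat_lit 209)))) (XT.nd (nat_lit 94) (nat_lit 0) (nat_lit 0) (XT.lf (nat_lit 0) (nat_lit 5858707202) (nat_lit 1008) (nat_lit 3075088959) (nat_lit 1092) (nat_lit 5418136426) (nat_lit 98) (nat_lit 5) (nat_lit 110) (nat_lit 5) (nat_lit 111) (nat_lit 5) (nat_lit 334) (nat_lit 319) (nat_lit 208)) (XT.nd (nat_lit 94) (nat_lit 0) (nat_lit 0) (XT.lf (nat_lit 84) (nat_lit 2206616572) (nat_lit 0) (nat_lit 4567405968) (nat_lit 1092) (nat_lit 7823855174) (nat_lit 99) (nat_lit 5) (nat_lit 98) (nat_lit 5) (nat_lit 111) (nat_lit 5) (nat_lit 335) (nat_lit 319) (nat_lit 207)) (XT.lf (nat_lit 84) (nat_lit 7708334957) (nat_lit 0) (nat_lit 30120614) (nat_lit 1092) (nat_lit 7112410193) (nat_lit 99) (nat_lit 5) (nat_lit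 98) (nat_lit 5) (nat_lit 111) (nat_lit 5) (nat_lit 336) (nat_lit 319) (nat_lit 206))))) (XT.nd (nat_lit 282) (nat_lit 1092) (nat_lit 0) (XT.nd (nat_lit 94) (nat_lit 1008) (nat_lit 0) (XT.lf (nat_lit 0) (nat_lit 8767903209) (nat_lit 1008) (nat_lit 1786263895) (nat_lit 84) (nat_lit 4556500506) (nat_lit 99) (nat_lit 5) (nat_lit 111) (nat_lit 5) (nat_lit 100) (nat_lit 5) (nat_lit 337) (nat_lit 319) (nat_lit 205)) (XT.nd (nat_lit 94) (nat_lit 0) (nat_lit 0) (XT.lf (nat_lit 0) (nat_lit 3803578379) (nat_lit 1008) (nat_lit 6053066041) (nat_lit 1092) (nat_lit 5521088093) (nat_lit 87) (nat_lit 5) (nat_lit 99) (nat_lit 5) (nat_lit 100) (nat_lit 5) (nat_lit 338) (nat_lit 319) (nat_lit 204)) (XT.lf (nat_lit 0) (nat_lit 9595868179) (nat_lit 1008) (nat_lit 1391488173) (nat_lit 1092) (nat_lit 4665521521) (nat_lit 87) (nat_lit 5) (nat_lit 99) (nat_lit 5) (nat_lit 100) (nat_lit 5) (nat_lit 339) (nat_lit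 319) (nat_lit 203)))) (XT.nd (nat_lit 188) (nat_lit 504) (nat_lit 0) (XT.nd (nat_lit 94) (nat_lit 588) (nat_lit 0) (XT.lf (nat_lit 0) (nat_lit 12176898415) (nat_lit 1092) (nat_lit 411535282) (nat_lit 84) (nat_lit 3347436487) (nat_lit 87) (nat_lit 5) (nat_lit 100) (nat_lit 5) (nat_lit 88) (nat_lit 5) (nat_lit 340) (nat_lit 319) (nat_lit 202)) (XT.lf (nat_lit 0) (nat_lit 5496904750) (nat_lit 588) (nat_lit 7965381522) (nat_lit 672) (nat_lit 2763573843) (nat_lit 80) (nat_lit 5) (nat_lit 87) (nat_lit 5) (nat_lit 88) (nat_lit 5) (nat_lit 341) (nat_lit 319) (nat_lit 201))) (XT.nd (nat_lit 94) (nat_lit 504) (nat_lit 0) (XT.lf (nat_lit 0) (nat_lit 11588754629) (nat_lit 588) (nat_lit 3193480798) (nat_lit 672) (nat_lit 1742819495) (nat_lit 80) (nat_lit 5) (nat_lit 87) (nat_lit 5) (nat_lit 88) (nat_lit 5) (nat_lit 342) (nat_lit 319) (nat_lit 200)) (XT.lf (nat_lit 0) (nat_lit 1031004144) (nat_lit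 504) (nat_lit 15130169562) (nat_lit 588) (nat_lit 671840663) (nat_lit 74) (nat_lit 5) (nat_lit 80) (nat_lit 5) (nat_lit 81) (nat_lit 5) (nat_lit 343) (nat_lit 319) (nat_lit 199))))))))
noncomputable def xc160 : XT := (XT.nd (nat_lit 2256) (nat_lit 1596) (nat_lit 0) (XT.nd (nat_lit 1128) (nat_lit 1428) (nat_lit 0) (XT.nd (nat_lit 564) (nat_lit 756) (nat_lit 0) (XT.nd (nat_lit 282) (nat_lit 420) (nat_lit 0) (XT.nd (nat_lit 94) (nat_lit 504) (nat_lit 0) (XT.lf (nat_lit 0) (nat_lit 499113586) (nat_lit 588) (nat_lit 9907178525) (nat_lit 84) (nat_lit 6741802276) (nat_lit 73) (nat_lit 5) (nat_lit 80) (nat_lit 5) (nat_lit 74) (nat_lit 5) (nat_lit 344) (nat_lit 319) (nat_lit 198)) (XT.nd (nat_lit 94) (nat_lit 504) (nat_lit 0) (XT.lf (nat_lit 0) (nat_lit 1683461275) (nat_lit 588) (nat_lit 3844935816) (nat_lit 84) (nat_lit 11944654679) (nat_lit 73) (nat_lit 5) (nat_lit 80) (nat_lit 5) (nat_lit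 74) (nat_lit 5) (nat_lit 345) (nat_lit 319) (nat_lit 197)) (XT.lf (nat_lit 0) (nat_lit 2446321208) (nat_lit 504) (nat_lit 473789033) (nat_lit 588) (nat_lit 14887533476) (nat_lit 67) (nat_lit 5) (nat_lit 73) (nat_lit 5) (nat_lit 74) (nat_lit 5) (nat_lit 346) (nat_lit 319) (nat_lit 196)))) (XT.nd (nat_lit 94) (nat_lit 420) (nat_lit 0) (XT.lf (nat_lit 0) (nat_lit 4274138686) (nat_lit 588) (nat_lit 9193083360) (nat_lit 84) (nat_lit 4682978366) (nat_lit 67) (nat_lit 5) (nat_lit 74) (nat_lit 5) (nat_lit 68) (nat_lit 5) (nat_lit 347) (nat_lit 319) (nat_lit 195)) (XT.nd (nat_lit 94) (nat_lit 420) (nat_lit 0) (XT.lf (nat_lit 0) (nat_lit 5666746191) (nat_lit 588) (nat_lit 2846651192) (nat_lit 84) (nat_lit 9990125709) (nat_lit 67) (nat_lit 5) (nat_lit 74) (nat_lit 5) (nat_lit 68) (nat_lit 5) (nat_lit 348) (nat_lit 319) (nat_lit 194)) (XT.lf (nat_lit 0) (nat_lit 3764434548) (nat_lit 420) (nat_lit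 3367439876) (nat_lit 504) (nat_lit 11735054714) (nat_lit 62) (nat_lit 5) (nat_lit 67) (nat_lit 5) (nat_lit 68) (nat_lit 5) (nat_lit 349) (nat_lit 319) (nat_lit 193))))) (XT.nd (nat_lit 282) (nat_lit 336) (nat_lit 0) (XT.nd (nat_lit 94) (nat_lit 420) (nat_lit 0) (XT.lf (nat_lit 0) (nat_lit 8683832874) (nat_lit 504) (nat_lit 8627529803) (nat_lit 84) (nat_lit 1928993346) (nat_lit 62) (nat_lit 5) (nat_lit 68) (nat_lit 5) (nat_lit 63) (nat_lit 5) (nat_lit 350) (nat_lit 319) (nat_lit 192)) (XT.nd (nat_lit 94) (nat_lit 420) (nat_lit 0) (XT.lf (nat_lit 0) (nat_lit 10310747026) (nat_lit 504) (nat_lit 1994169662) (nat_lit 84) (nat_lit 7319648089) (nat_lit 62) (nat_lit 5) (nat_lit 68) (nat_lit 5) (nat_lit 63) (nat_lit 5) (nat_lit 351) (nat_lit 319) (nat_lit 191)) (XT.lf (nat_lit 0) (nat_lit 4936636463) (nat_lit 420) (nat_lit 7093063495) (nat_lit 504) (nat_lit 7989730997) (nat_lit 57) (nat_lit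 5) (nat_lit 62) (nat_lit 5) (nat_lit 63) (nat_lit 5) (nat_lit 352) (nat_lit 319) (nat_lit 190)))) (XT.nd (nat_lit 94) (nat_lit 336) (nat_lit 0) (XT.lf (nat_lit 0) (nat_lit 12116999978) (nat_lit 420) (nat_lit 1698534295) (nat_lit 504) (nat_lit 6610617889) (nat_lit 57) (nat_lit 5) (nat_lit 62) (nat_lit 5) (nat_lit 63) (nat_lit 5) (nat_lit 353) (nat_lit 319) (nat_lit 189)) (XT.nd (nat_lit 94) (nat_lit 336) (nat_lit 0) (XT.lf (nat_lit 0) (nat_lit 15688045668) (nat_lit 504) (nat_lit 1371444147) (nat_lit 84) (nat_lit 3785055627) (nat_lit 57) (nat_lit 5) (nat_lit 63) (nat_lit 5) (nat_lit 58) (nat_lit 5) (nat_lit 354) (nat_lit 319) (nat_lit 188)) (XT.lf (nat_lit 0) (nat_lit 5874963057) (nat_lit 336) (nat_lit 11812497473) (nat_lit 420) (nat_lit 3586347340) (nat_lit 53) (nat_lit 5) (nat_lit 57) (nat_lit 5) (nat_lit 58) (nat_lit 5) (nat_lit 355) (nat_lit 319) (nat_lit 187)))))) (XT.nd (nat_lit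 564) (nat_lit 588) (nat_lit 0) (XT.nd (nat_lit 282) (nat_lit 336) (nat_lit 0) (XT.nd (nat_lit 94) (nat_lit 504) (nat_lit 0) (XT.lf (nat_lit 0) (nat_lit 13367792160) (nat_lit 336) (nat_lit 6388715438) (nat_lit 420) (nat_lit 1959665147) (nat_lit 53) (nat_lit 5) (nat_lit 57) (nat_lit 5) (nat_lit 58) (nat_lit 5) (nat_lit 356) (nat_lit 319) (nat_lit 186)) (XT.nd (nat_lit 94) (nat_lit 504) (nat_lit 0) (XT.lf (nat_lit 0) (nat_lit 21085827559) (nat_lit 336) (nat_lit 797403244) (nat_lit 420) (nat_lit 289252020) (nat_lit 53) (nat_lit 5) (nat_lit 57) (nat_lit 5) (nat_lit 58) (nat_lit 5) (nat_lit 357) (nat_lit 319) (nat_lit 185)) (XT.lf (nat_lit 0) (nat_lit 1512365434) (nat_lit 504) (nat_lit 16180684210) (nat_lit 84) (nat_lit 4946120777) (nat_lit 47) (nat_lit 5) (nat_lit 53) (nat_lit 5) (nat_lit 48) (nat_lit 5) (nat_lit 358) (nat_lit 319) (nat_lit 184)))) (XT.nd (nat_lit 94) (nat_lit 336) (nat_lit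 0) (XT.lf (nat_lit 0) (nat_lit 3377190004) (nat_lit 504) (nat_lit 8877803487) (nat_lit 84) (nat_lit 10864854548) (nat_lit 47) (nat_lit 5) (nat_lit 53) (nat_lit 5) (nat_lit 48) (nat_lit 5) (nat_lit 359) (nat_lit 319) (nat_lit 183)) (XT.nd (nat_lit 94) (nat_lit 336) (nat_lit 0) (XT.lf (nat_lit 0) (nat_lit 5293763416) (nat_lit 504) (nat_lit 1355481502) (nat_lit 84) (nat_lit 16966397503) (nat_lit 47) (nat_lit 5) (nat_lit 53) (nat_lit 5) (nat_lit 48) (nat_lit 5) (nat_lit 360) (nat_lit 319) (nat_lit 182)) (XT.lf (nat_lit 0) (nat_lit 6524752561) (nat_lit 336) (nat_lit 803845911) (nat_lit 420) (nat_lit 16796410711) (nat_lit 43) (nat_lit 5) (nat_lit 47) (nat_lit 5) (nat_lit 48) (nat_lit 5) (nat_lit 361) (nat_lit 319) (nat_lit 181))))) (XT.nd (nat_lit 282) (nat_lit 252) (nat_lit 0) (XT.nd (nat_lit 94) (nat_lit 336) (nat_lit 0) (XT.lf (nat_lit 0) (nat_lit 9486840134) (nat_lit 420) (nat_lit 10030540443)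 (nat_lit 84) (nat_lit 5130941834) (nat_lit 43) (nat_lit 5) (nat_lit 48) (nat_lit 5) (nat_lit 44) (nat_lit 5) (nat_lit 362) (nat_lit 319) (nat_lit 180)) (XT.nd (nat_lit 94) (nat_lit 336) (nat_lit 0) (XT.lf (nat_lit 0) (nat_lit 11714605572) (nat_lit 420) (nat_lit 2241045011) (nat_lit 84) (nat_lit 11232152037) (nat_lit 43) (nat_lit 5) (nat_lit 48) (nat_lit 5) (nat_lit 44) (nat_lit 5) (nat_lit 363) (nat_lit 319) (nat_lit 179)) (XT.lf (nat_lit 0) (nat_lit 5902384444) (nat_lit 336) (nat_lit 8162164987) (nat_lit 420) (nat_lit 11677835306) (nat_lit 39) (nat_lit 5) (nat_lit 43) (nat_lit 5) (nat_lit 44) (nat_lit 5) (nat_lit 364) (nat_lit 319) (nat_lit 178)))) (XT.nd (nat_lit 94) (nat_lit 252) (nat_lit 0) (XT.lf (nat_lit 0) (nat_lit 14339374365) (nat_lit 336) (nat_lit 2166024380) (nat_lit 420) (nat_lit 9808224312) (nat_lit 39) (nat_lit 5) (nat_lit 43) (nat_lit 5) (nat_lit 44) (nat_lit 5) (nat_lit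 365) (nat_lit 319) (nat_lit 177)) (XT.nd (nat_lit 94) (nat_lit 252) (nat_lit 0) (XT.lf (nat_lit 0) (nat_lit 19056569055) (nat_lit 420) (nat_lit 3910873934) (nat_lit 84) (nat_lit 3934075691) (nat_lit 39) (nat_lit 5) (nat_lit 44) (nat_lit 5) (nat_lit 40) (nat_lit 5) (nat_lit 366) (nat_lit 319) (nat_lit 176)) (XT.lf (nat_lit 0) (nat_lit 4464068899) (nat_lit 252) (nat_lit 17284165567) (nat_lit 336) (nat_lit 5757523440) (nat_lit 36) (nat_lit 5) (nat_lit 39) (nat_lit 5) (nat_lit 40) (nat_lit 5) (nat_lit 367) (nat_lit 319) (nat_lit 175))))))) (XT.nd (nat_lit 1128) (nat_lit 672) (nat_lit 0) (XT.nd (nat_lit 564) (nat_lit 504) (nat_lit 0) (XT.nd (nat_lit 282) (nat_lit 0) (nat_lit 0) (XT.nd (nat_lit 94) (nat_lit 420) (nat_lit 0) (XT.lf (nat_lit 0) (nat_lit 13175421796) (nat_lit 252) (nat_lit 11383803057) (nat_lit 336) (nat_lit 3568413147) (nat_lit 36) (nat_lit 5) (nat_lit 39) (nat_lit 5) (nat_lit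 40) (nat_lit 5) (nat_lit 368) (nat_lit 319) (nat_lit 174)) (XT.nd (nat_lit 94) (nat_lit 420) (nat_lit 0) (XT.lf (nat_lit 0) (nat_lit 22150889060) (nat_lit 252) (nat_lit 5301677207) (nat_lit 336) (nat_lit 1316399769) (nat_lit 36) (nat_lit 5) (nat_lit 39) (nat_lit 5) (nat_lit 40) (nat_lit 5) (nat_lit 369) (nat_lit 319) (nat_lit 173)) (XT.lf (nat_lit 0) (nat_lit 1010190221) (nat_lit 420) (nat_lit 27440480252) (nat_lit 84) (nat_lit 978439839) (nat_lit 31) (nat_lit 5) (nat_lit 36) (nat_lit 5) (nat_lit 32) (nat_lit 5) (nat_lit 370) (nat_lit 319) (nat_lit 172)))) (XT.nd (nat_lit 94) (nat_lit 0) (nat_lit 0) (XT.lf (nat_lit 0) (nat_lit 3500928077) (nat_lit 420) (nat_lit 19179494165) (nat_lit 84) (nat_lit 7425198354) (nat_lit 31) (nat_lit 5) (nat_lit 36) (nat_lit 5) (nat_lit 32) (nat_lit 5) (nat_lit 371) (nat_lit 319) (nat_lit 171)) (XT.nd (nat_lit 94) (nat_lit 0) (nat_lit 0) (XT.lf (nat_lit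 0) (nat_lit 6064377294) (nat_lit 420) (nat_lit 10668205531) (nat_lit 84) (nat_lit 14070678164) (nat_lit 31) (nat_lit 5) (nat_lit 36) (nat_lit 5) (nat_lit 32) (nat_lit 5) (nat_lit 372) (nat_lit 319) (nat_lit 170)) (XT.lf (nat_lit 0) (nat_lit 8702927276) (nat_lit 420) (nat_lit 1898680938) (nat_lit 84) (nat_lit 20921073552) (nat_lit 31) (nat_lit 5) (nat_lit 36) (nat_lit 5) (nat_lit 32) (nat_lit 5) (nat_lit 373) (nat_lit 319) (nat_lit 169))))) (XT.nd (nat_lit 282) (nat_lit 252) (nat_lit 0) (XT.nd (nat_lit 94) (nat_lit 0) (nat_lit 0) (XT.lf (nat_lit 0) (nat_lit 7284010303) (nat_lit 252) (nat_lit 4207285407) (nat_lit 336) (nat_lit 20771017785) (nat_lit 28) (nat_lit 5) (nat_lit 31) (nat_lit 5) (nat_lit 32) (nat_lit 5) (nat_lit 374) (nat_lit 319) (nat_lit 168)) (XT.nd (nat_lit 94) (nat_lit 0) (nat_lit 0) (XT.lf (nat_lit 0) (nat_lit 14405613478) (nat_lit 336) (nat_lit 16262032175) (nat_lit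 84) (nat_lit 2356020452) (nat_lit 28) (nat_lit 5) (nat_lit 32) (nat_lit 5) (nat_lit 29) (nat_lit 5) (nat_lit 375) (nat_lit 319) (nat_lit 167)) (XT.lf (nat_lit 0) (nat_lit 17449258001) (nat_lit 336) (nat_lit 7323945257) (nat_lit 84) (nat_lit 9034225508) (nat_lit 28) (nat_lit 5) (nat_lit 32) (nat_lit 5) (nat_lit 29) (nat_lit 5) (nat_lit 376) (nat_lit 319) (nat_lit 166)))) (XT.nd (nat_lit 94) (nat_lit 0) (nat_lit 0) (XT.lf (nat_lit 0) (nat_lit 1924806139) (nat_lit 252) (nat_lit 18677617657) (nat_lit 336) (nat_lit 14012610146) (nat_lit 25) (nat_lit 5) (nat_lit 28) (nat_lit 5) (nat_lit 29) (nat_lit 5) (nat_lit 377) (nat_lit 319) (nat_lit 165)) (XT.nd (nat_lit 94) (nat_lit 0) (nat_lit 0) (XT.lf (nat_lit 0) (nat_lit 11610388463) (nat_lit 252) (nat_lit 12315537230) (nat_lit 336) (nat_lit 11519514566) (nat_lit 25) (nat_lit 5) (nat_lit 28) (nat_lit 5) (nat_lit 29) (nat_lit 5) (nat_lit 378) (nat_lit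 319) (nat_lit 164)) (XT.lf (nat_lit 0) (nat_lit 21591234357) (nat_lit 252) (nat_lit 5757478819) (nat_lit 336) (nat_lit 8953007165) (nat_lit 25) (nat_lit 5) (nat_lit 28) (nat_lit 5) (nat_lit 29) (nat_lit 5) (nat_lit 379) (nat_lit 319) (nat_lit 163)))))) (XT.nd (nat_lit 564) (nat_lit 168) (nat_lit 0) (XT.nd (nat_lit 282) (nat_lit 336) (nat_lit 0) (XT.nd (nat_lit 94) (nat_lit 168) (nat_lit 0) (XT.lf (nat_lit 0) (nat_lit 30883923256) (nat_lit 336) (nat_lit 5317971932) (nat_lit 84) (nat_lit 982468799) (nat_lit 25) (nat_lit 5) (nat_lit 29) (nat_lit 5) (nat_lit 26) (nat_lit 5) (nat_lit 380) (nat_lit 319) (nat_lit 162)) (XT.nd (nat_lit 94) (nat_lit 0) (nat_lit 0) (XT.lf (nat_lit 0) (nat_lit 4390477207) (nat_lit 168) (nat_lit 30237154279) (nat_lit 252) (nat_lit 3463686235) (nat_lit 23) (nat_lit 5) (nat_lit 25) (nat_lit 5) (nat_lit 26) (nat_lit 5) (nat_lit 381) (nat_lit 319) (nat_lit 161)) (XT.lf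 (nat_lit 0) (nat_lit 14507869420) (nat_lit 168) (nat_lit 24031560104) (nat_lit 252) (nat_lit 485358229) (nat_lit 23) (nat_lit 5) (nat_lit 25) (nat_lit 5) (nat_lit 26) (nat_lit 5) (nat_lit 382) (nat_lit 319) (nat_lit 160)))) (XT.nd (nat_lit 94) (nat_lit 252) (nat_lit 0) (XT.lf (nat_lit 0) (nat_lit 2529792949) (nat_lit 252) (nat_lit 15078638321) (nat_lit 84) (nat_lit 22378087967) (nat_lit 22) (nat_lit 5) (nat_lit 25) (nat_lit 5) (nat_lit 23) (nat_lit 5) (nat_lit 383) (nat_lit 319) (nat_lit 159)) (XT.nd (nat_lit 94) (nat_lit 252) (nat_lit 0) (XT.lf (nat_lit 0) (nat_lit 5625017520) (nat_lit 252) (nat_lit 5357291745) (nat_lit 84) (nat_lit 29995716592) (nat_lit 22) (nat_lit 5) (nat_lit 25) (nat_lit 5) (nat_lit 23) (nat_lit 5) (nat_lit 384) (nat_lit 319) (nat_lit 158)) (XT.lf (nat_lit 0) (nat_lit 4756837189) (nat_lit 252) (nat_lit 4103330668) (nat_lit 336) (nat_lit 33138750362) (nat_lit 19)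 (nat_lit 5) (nat_lit 22) (nat_lit 5) (nat_lit 23) (nat_lit 5) (nat_lit 385) (nat_lit 319) (nat_lit 157))))) (XT.nd (nat_lit 282) (nat_lit 168) (nat_lit 0) (XT.nd (nat_lit 94) (nat_lit 0) (nat_lit 0) (XT.lf (nat_lit 0) (nat_lit 12278575756) (nat_lit 336) (nat_lit 27786343143) (nat_lit 84) (nat_lit 2983979196) (nat_lit 19) (nat_lit 5) (nat_lit 23) (nat_lit 5) (nat_lit 20) (nat_lit 5) (nat_lit 386) (nat_lit 319) (nat_lit 156)) (XT.nd (nat_lit 94) (nat_lit 0) (nat_lit 0) (XT.lf (nat_lit 0) (nat_lit 15841843758) (nat_lit 336) (nat_lit 18083782475) (nat_lit 84) (nat_lit 10204607044) (nat_lit 19) (nat_lit 5) (nat_lit 23) (nat_lit 5) (nat_lit 20) (nat_lit 5) (nat_lit 387) (nat_lit 319) (nat_lit 155)) (XT.lf (nat_lit 0) (nat_lit 19512587654) (nat_lit 336) (nat_lit 8084649674) (nat_lit 84) (nat_lit 17647956225) (nat_lit 19) (nat_lit 5) (nat_lit 23) (nat_lit 5) (nat_lit 20) (nat_lit 5) (nat_lit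 388) (nat_lit 319) (nat_lit 154)))) (XT.nd (nat_lit 94) (nat_lit 0) (nat_lit 0) (XT.lf (nat_lit 0) (nat_lit 2266030972) (nat_lit 168) (nat_lit 21050677296) (nat_lit 252) (nat_lit 23077413054) (nat_lit 17) (nat_lit 5) (nat_lit 19) (nat_lit 5) (nat_lit 20) (nat_lit 5) (nat_lit 389) (nat_lit 319) (nat_lit 153)) (XT.nd (nat_lit 94) (nat_lit 0) (nat_lit 0) (XT.lf (nat_lit 0) (nat_lit 13104933613) (nat_lit 168) (nat_lit 14215361515) (nat_lit 252) (nat_lit 20255853524) (nat_lit 17) (nat_lit 5) (nat_lit 19) (nat_lit 5) (nat_lit 20) (nat_lit 5) (nat_lit 390) (nat_lit 319) (nat_lit 152)) (XT.lf (nat_lit 0) (nat_lit 24275924262) (nat_lit 168) (nat_lit 7169305918) (nat_lit 252) (nat_lit 17349684483) (nat_lit 17) (nat_lit 5) (nat_lit 19) (nat_lit 5) (nat_lit 20) (nat_lit 5) (nat_lit 391) (nat_lit 319) (nat_lit 151))))))))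
noncomputable def xc161 : XT := (XT.nd (nat_lit 47282) (nat_lit 0) (nat_lit 5544) (XT.nd (nat_lit 1128) (nat_lit 336) (nat_lit 0) (XT.nd (nat_lit 564) (nat_lit 168) (nat_lit 0) (XT.nd (nat_lit 282) (nat_lit 84) (nat_lit 0) (XT.nd (nat_lit 94) (nat_lit 168) (nat_lit 0) (XT.lf (nat_lit 0) (nat_lit 35696291353) (nat_lit 252) (nat_lit 14263072976) (nat_lit 84) (nat_lit 92162116) (nat_lit 17) (nat_lit 5) (nat_lit 20) (nat_lit 5) (nat_lit 18) (nat_lit 5) (nat_lit 392) (nat_lit 319) (nat_lit 150)) (XT.nd (nat_lit 94) (nat_lit 168) (nat_lit 0) (XT.lf (nat_lit 0) (nat_lit 40149850434) (nat_lit 252) (nat_lit 3766312528) (nat_lit 84) (nat_lit 7428747641) (nat_lit 17) (nat_lit 5) (nat_lit 20) (nat_lit 5) (nat_lit 18) (nat_lit 5) (nat_lit 393) (nat_lit 319) (nat_lit 149)) (XT.lf (nat_lit 0) (nat_lit 7197203027) (nat_lit 168) (nat_lit 37613132321) (nat_lit 252) (nat_lit 7865928779) (nat_lit 15)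 (nat_lit 5) (nat_lit 17) (nat_lit 5) (nat_lit 18) (nat_lit 5) (nat_lit 394) (nat_lit 319) (nat_lit 148)))) (XT.nd (nat_lit 94) (nat_lit 84) (nat_lit 0) (XT.lf (nat_lit 0) (nat_lit 18576816317) (nat_lit 168) (nat_lit 31075300173) (nat_lit 252) (nat_lit 4395640672) (nat_lit 15) (nat_lit 5) (nat_lit 17) (nat_lit 5) (nat_lit 18) (nat_lit 5) (nat_lit 395) (nat_lit 319) (nat_lit 147)) (XT.nd (nat_lit 94) (nat_lit 84) (nat_lit 0) (XT.lf (nat_lit 0) (nat_lit 30305691223) (nat_lit 168) (nat_lit 24335885152) (nat_lit 252) (nat_lit 820273755) (nat_lit 15) (nat_lit 5) (nat_lit 17) (nat_lit 5) (nat_lit 18) (nat_lit 5) (nat_lit 396) (nat_lit 319) (nat_lit 146)) (XT.lf (nat_lit 0) (nat_lit 2805811352) (nat_lit 252) (nat_lit 14553507147) (nat_lit 84) (nat_lit 39559662016) (nat_lit 14) (nat_lit 5) (nat_lit 17) (nat_lit 5) (nat_lit 15) (nat_lit 5) (nat_lit 397) (nat_lit 319) (nat_lit 145))))) (XT.nd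 (nat_lit 282) (nat_lit 0) (nat_lit 0) (XT.nd (nat_lit 94) (nat_lit 168) (nat_lit 0) (XT.lf (nat_lit 0) (nat_lit 6524961436) (nat_lit 252) (nat_lit 3633916722) (nat_lit 84) (nat_lit 48262223130) (nat_lit 14) (nat_lit 5) (nat_lit 17) (nat_lit 5) (nat_lit 15) (nat_lit 5) (nat_lit 398) (nat_lit 319) (nat_lit 144)) (XT.nd (nat_lit 94) (nat_lit 0) (nat_lit 0) (XT.lf (nat_lit 0) (nat_lit 7777629694) (nat_lit 168) (nat_lit 2656695178) (nat_lit 252) (nat_lit 49533148155) (nat_lit 12) (nat_lit 5) (nat_lit 14) (nat_lit 5) (nat_lit 15) (nat_lit 5) (nat_lit 399) (nat_lit 319) (nat_lit 143)) (XT.lf (nat_lit 0) (nat_lit 14551361887) (nat_lit 252) (nat_lit 41994684011) (nat_lit 84) (nat_lit 5013062909) (nat_lit 12) (nat_lit 5) (nat_lit 15) (nat_lit 5) (nat_lit 13) (nat_lit 5) (nat_lit 400) (nat_lit 319) (nat_lit 142)))) (XT.nd (nat_lit 94) (nat_lit 0) (nat_lit 0) (XT.lf (nat_lit 0) (nat_lit 18821055044)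 (nat_lit 252) (nat_lit 31513833557) (nat_lit 84) (nat_lit 12864428103) (nat_lit 12) (nat_lit 5) (nat_lit 15) (nat_lit 5) (nat_lit 13) (nat_lit 5) (nat_lit 401) (nat_lit 319) (nat_lit 141)) (XT.nd (nat_lit 94) (nat_lit 0) (nat_lit 0) (XT.lf (nat_lit 0) (nat_lit 23221029399) (nat_lit 252) (nat_lit 20711167977) (nat_lit 84) (nat_lit 20958245186) (nat_lit 12) (nat_lit 5) (nat_lit 15) (nat_lit 5) (nat_lit 13) (nat_lit 5) (nat_lit 402) (nat_lit 319) (nat_lit 140)) (XT.lf (nat_lit 0) (nat_lit 27755386189) (nat_lit 252) (nat_lit 9576618053) (nat_lit 84) (nat_lit 29302058442) (nat_lit 12) (nat_lit 5) (nat_lit 15) (nat_lit 5) (nat_lit 13) (nat_lit 5) (nat_lit 403) (nat_lit 319) (nat_lit 139)))))) (XT.nd (nat_lit 564) (nat_lit 168) (nat_lit 0) (XT.nd (nat_lit 282) (nat_lit 0) (nat_lit 0) (XT.nd (nat_lit 94) (nat_lit 0) (nat_lit 0) (XT.lf (nat_lit 0) (nat_lit 1939266680) (nat_lit 168) (nat_lit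 30508322993) (nat_lit 252) (nat_lit 35983616265) (nat_lit 10) (nat_lit 5) (nat_lit 12) (nat_lit 5) (nat_lit 13) (nat_lit 5) (nat_lit 404) (nat_lit 319) (nat_lit 138)) (XT.nd (nat_lit 94) (nat_lit 0) (nat_lit 0) (XT.lf (nat_lit 0) (nat_lit 14012284416) (nat_lit 168) (nat_lit 23371001431) (nat_lit 252) (nat_lit 32897742160) (nat_lit 10) (nat_lit 5) (nat_lit 12) (nat_lit 5) (nat_lit 13) (nat_lit 5) (nat_lit 405) (nat_lit 319) (nat_lit 137)) (XT.lf (nat_lit 0) (nat_lit 26456773563) (nat_lit 168) (nat_lit 16013347076) (nat_lit 252) (nat_lit 29718138073) (nat_lit 10) (nat_lit 5) (nat_lit 12) (nat_lit 5) (nat_lit 13) (nat_lit 5) (nat_lit 406) (nat_lit 319) (nat_lit 136)))) (XT.nd (nat_lit 94) (nat_lit 0) (nat_lit 0) (XT.lf (nat_lit 0) (nat_lit 39284333687) (nat_lit 168) (nat_lit 8428501824) (nat_lit 252) (nat_lit 26441840280) (nat_lit 10) (nat_lit 5) (nat_lit 12) (nat_lit 5) (nat_lit 13)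 (nat_lit 5) (nat_lit 407) (nat_lit 319) (nat_lit 135)) (XT.nd (nat_lit 94) (nat_lit 0) (nat_lit 0) (XT.lf (nat_lit 0) (nat_lit 52506921419) (nat_lit 168) (nat_lit 609395804) (nat_lit 252) (nat_lit 23065794929) (nat_lit 10) (nat_lit 5) (nat_lit 12) (nat_lit 5) (nat_lit 13) (nat_lit 5) (nat_lit 408) (nat_lit 319) (nat_lit 134)) (XT.lf (nat_lit 0) (nat_lit 58759519800) (nat_lit 252) (nat_lit 12209513398) (nat_lit 84) (nat_lit 7301132941) (nat_lit 10) (nat_lit 5) (nat_lit 13) (nat_lit 5) (nat_lit 11) (nat_lit 4) (nat_lit 409) (nat_lit 319) (nat_lit 133))))) (XT.nd (nat_lit 282) (nat_lit 84) (nat_lit 0) (XT.nd (nat_lit 94) (nat_lit 84) (nat_lit 0) (XT.lf (nat_lit 0) (nat_lit 64582232997) (nat_lit 252) (nat_lit 397152582) (nat_lit 84) (nat_lit 15443428036) (nat_lit 10) (nat_lit 5) (nat_lit 13) (nat_lit 5) (nat_lit 11) (nat_lit 4) (nat_lit 410) (nat_lit 319) (nat_lit 132)) (XT.nd (nat_lit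 94) (nat_lit 0) (nat_lit 0) (XT.lf (nat_lit 0) (nat_lit 12021146666) (nat_lit 84) (nat_lit 58681943506) (nat_lit 168) (nat_lit 11935461516) (nat_lit 9) (nat_lit 5) (nat_lit 10) (nat_lit 5) (nat_lit 11) (nat_lit 4) (nat_lit 411) (nat_lit 319) (nat_lit 131)) (XT.lf (nat_lit 0) (nat_lit 24830413296) (nat_lit 84) (nat_lit 52185839142) (nat_lit 168) (nat_lit 7906651089) (nat_lit 9) (nat_lit 5) (nat_lit 10) (nat_lit 5) (nat_lit 11) (nat_lit 4) (nat_lit 412) (nat_lit 319) (nat_lit 130)))) (XT.nd (nat_lit 94) (nat_lit 84) (nat_lit 0) (XT.lf (nat_lit 0) (nat_lit 38034420614) (nat_lit 84) (nat_lit 45489162895) (nat_lit 168) (nat_lit 3754539525) (nat_lit 9) (nat_lit 5) (nat_lit 10) (nat_lit 5) (nat_lit 11) (nat_lit 4) (nat_lit 413) (nat_lit 319) (nat_lit 129)) (XT.nd (nat_lit 94) (nat_lit 0) (nat_lit 0) (XT.lf (nat_lit 0) (nat_lit 514170969) (nat_lit 168) (nat_lit 38066134901) (nat_lit 84) (nat_lit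 51125938276) (nat_lit 8) (nat_lit 5) (nat_lit 10) (nat_lit 5) (nat_lit 9) (nat_lit 5) (nat_lit 414) (nat_lit 319) (nat_lit 128)) (XT.lf (nat_lit 0) (nat_lit 4835753358) (nat_lit 168) (nat_lit 26582705261) (nat_lit 84) (nat_lit 60790038087) (nat_lit 8) (nat_lit 5) (nat_lit 10) (nat_lit 5) (nat_lit 9) (nat_lit 5) (nat_lit 415) (nat_lit 319) (nat_lit 127))))))) (XT.nd (nat_lit 1128) (nat_lit 1764) (nat_lit 0) (XT.nd (nat_lit 564) (nat_lit 924) (nat_lit 0) (XT.nd (nat_lit 282) (nat_lit 0) (nat_lit 0) (XT.nd (nat_lit 94) (nat_lit 0) (nat_lit 0) (XT.lf (nat_lit 0) (nat_lit 2300707618) (nat_lit 0) (nat_lit 2300707618) (nat_lit 924) (nat_lit 1253800291) (nat_lit 106) (nat_lit 5) (nat_lit 106) (nat_lit 3) (nat_lit 117) (nat_lit 3) (nat_lit 320) (nat_lit 320) (nat_lit 221)) (XT.nd (nat_lit 94) (nat_lit 0) (nat_lit 0) (XT.lf (nat_lit 0) (nat_lit 8879725436) (nat_lit 0) (nat_lit 869755866) (nat_lit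 924) (nat_lit 2127591263) (nat_lit 106) (nat_lit 5) (nat_lit 106) (nat_lit 3) (nat_lit 117) (nat_lit 3) (nat_lit 321) (nat_lit 320) (nat_lit 220)) (XT.lf (nat_lit 84) (nat_lit 1228170385) (nat_lit 0) (nat_lit 9110430603) (nat_lit 1008) (nat_lit 1709582301) (nat_lit 107) (nat_lit 5) (nat_lit 106) (nat_lit 5) (nat_lit 118) (nat_lit 5) (nat_lit 322) (nat_lit 320) (nat_lit 219)))) (XT.nd (nat_lit 94) (nat_lit 0) (nat_lit 0) (XT.lf (nat_lit 84) (nat_lit 5630412162) (nat_lit 0) (nat_lit 5339864405) (nat_lit 1008) (nat_lit 1253660479) (nat_lit 107) (nat_lit 5) (nat_lit 106) (nat_lit 5) (nat_lit 118) (nat_lit 5) (nat_lit 323) (nat_lit 320) (nat_lit 218)) (XT.nd (nat_lit 94) (nat_lit 0) (nat_lit 84) (XT.lf (nat_lit 84) (nat_lit 10160655446) (nat_lit 0) (nat_lit 1445555199) (nat_lit 1008) (nat_lit 799492484) (nat_lit 107) (nat_lit 5) (nat_lit 106) (nat_lit 5) (nat_lit 118) (nat_lit 5) (nat_lit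 324) (nat_lit 320) (nat_lit 217)) (XT.lf (nat_lit 84) (nat_lit 2249233477) (nat_lit 0) (nat_lit 10045630672) (nat_lit 1008) (nat_lit 297302898) (nat_lit 108) (nat_lit 5) (nat_lit 107) (nat_lit 5) (nat_lit 119) (nat_lit 5) (nat_lit 325) (nat_lit 320) (nat_lit 216))))) (XT.nd (nat_lit 282) (nat_lit 0) (nat_lit 84) (XT.nd (nat_lit 94) (nat_lit 0) (nat_lit 0) (XT.lf (nat_lit 0) (nat_lit 239802735) (nat_lit 1008) (nat_lit 5879584693) (nat_lit 1092) (nat_lit 6664299789) (nat_lit 95) (nat_lit 5) (nat_lit 107) (nat_lit 5) (nat_lit 108) (nat_lit 5) (nat_lit 326) (nat_lit 320) (nat_lit 215)) (XT.nd (nat_lit 94) (nat_lit 0) (nat_lit 84) (XT.lf (nat_lit 0) (nat_lit 773155849) (nat_lit 1008) (nat_lit 1289758236) (nat_lit 1092) (nat_lit 10918655916) (nat_lit 95) (nat_lit 5) (nat_lit 107) (nat_lit 5) (nat_lit 108) (nat_lit 5) (nat_lit 327) (nat_lit 320) (nat_lit 214)) (XT.lf (nat_lit 0) (nat_lit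 1365438596) (nat_lit 1008) (nat_lit 9702066040) (nat_lit 1092) (nat_lit 2116844591) (nat_lit 96) (nat_lit 5) (nat_lit 108) (nat_lit 5) (nat_lit 109) (nat_lit 5) (nat_lit 328) (nat_lit 320) (nat_lit 213)))) (XT.nd (nat_lit 94) (nat_lit 0) (nat_lit 0) (XT.lf (nat_lit 0) (nat_lit 1997361682) (nat_lit 1008) (nat_lit 4993667265) (nat_lit 1092) (nat_lit 6401800041) (nat_lit 96) (nat_lit 5) (nat_lit 108) (nat_lit 5) (nat_lit 109) (nat_lit 5) (nat_lit 329) (nat_lit 320) (nat_lit 212)) (XT.nd (nat_lit 94) (nat_lit 0) (nat_lit 84) (XT.lf (nat_lit 0) (nat_lit 2635858569) (nat_lit 1008) (nat_lit 148070144) (nat_lit 1092) (nat_lit 10824318221) (nat_lit 96) (nat_lit 5) (nat_lit 108) (nat_lit 5) (nat_lit 109) (nat_lit 5) (nat_lit 330) (nat_lit 320) (nat_lit 211)) (XT.lf (nat_lit 0) (nat_lit 3346471216) (nat_lit 1008) (nat_lit 8906492238) (nat_lit 1092) (nat_lit 1575827050) (nat_lit 97) (nat_lit 5)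 (nat_lit 109) (nat_lit 5) (nat_lit 110) (nat_lit 5) (nat_lit 331) (nat_lit 320) (nat_lit 210)))))) (XT.nd (nat_lit 564) (nat_lit 1932) (nat_lit 0) (XT.nd (nat_lit 282) (nat_lit 0) (nat_lit 84) (XT.nd (nat_lit 94) (nat_lit 0) (nat_lit 0) (XT.lf (nat_lit 0) (nat_lit 4096857779) (nat_lit 1008) (nat_lit 3940525864) (nat_lit 1092) (nat_lit 6018304754) (nat_lit 97) (nat_lit 5) (nat_lit 109) (nat_lit 5) (nat_lit 110) (nat_lit 5) (nat_lit 332) (nat_lit 320) (nat_lit 209)) (XT.nd (nat_lit 94) (nat_lit 0) (nat_lit 84) (XT.lf (nat_lit 84) (nat_lit 1194825058) (nat_lit 0) (nat_lit 3675614126) (nat_lit 1092) (nat_lit 9419248560) (nat_lit 98) (nat_lit 5) (nat_lit 97) (nat_lit 5) (nat_lit 110) (nat_lit 5) (nat_lit 333) (nat_lit 320) (nat_lit 208)) (XT.lf (nat_lit 0) (nat_lit 5706085820) (nat_lit 1008) (nat_lit 7974327259) (nat_lit 1092) (nat_lit 849410944) (nat_lit 98) (nat_lit 5) (nat_lit 110) (nat_lit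 5) (nat_lit 111) (nat_lit 5) (nat_lit 334) (nat_lit 320) (nat_lit 207)))) (XT.nd (nat_lit 94) (nat_lit 0) (nat_lit 0) (XT.lf (nat_lit 0) (nat_lit 6593964073) (nat_lit 1008) (nat_lit 2741378886) (nat_lit 1092) (nat_lit 5441307097) (nat_lit 98) (nat_lit 5) (nat_lit 110) (nat_lit 5) (nat_lit 111) (nat_lit 5) (nat_lit 335) (nat_lit 320) (nat_lit 206)) (XT.nd (nat_lit 94) (nat_lit 0) (nat_lit 0) (XT.lf (nat_lit 84) (nat_lit 2699715894) (nat_lit 0) (nat_lit 4825504614) (nat_lit 1092) (nat_lit 7505475516) (nat_lit 99) (nat_lit 5) (nat_lit 98) (nat_lit 5) (nat_lit 111) (nat_lit 5) (nat_lit 336) (nat_lit 320) (nat_lit 205)) (XT.lf (nat_lit 84) (nat_lit 8359217887) (nat_lit 0) (nat_lit 144060232) (nat_lit 1092) (nat_lit 6788841399) (nat_lit 99) (nat_lit 5) (nat_lit 98) (nat_lit 5) (nat_lit 111) (nat_lit 5) (nat_lit 337) (nat_lit 320) (nat_lit 204))))) (XT.nd (nat_lit 282) (nat_lit 1092) (nat_lit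 0) (XT.nd (nat_lit 94) (nat_lit 1008) (nat_lit 0) (XT.lf (nat_lit 0) (nat_lit 9547767755) (nat_lit 1008) (nat_lit 1422463813) (nat_lit 84) (nat_lit 4590352350) (nat_lit 99) (nat_lit 5) (nat_lit 111) (nat_lit 5) (nat_lit 100) (nat_lit 5) (nat_lit 338) (nat_lit 320) (nat_lit 203)) (XT.nd (nat_lit 94) (nat_lit 0) (nat_lit 0) (XT.lf (nat_lit 0) (nat_lit 4336419808) (nat_lit 1008) (nat_lit 6322680017) (nat_lit 1092) (nat_lit 5177257096) (nat_lit 87) (nat_lit 5) (nat_lit 99) (nat_lit 5) (nat_lit 100) (nat_lit 5) (nat_lit 339) (nat_lit 320) (nat_lit 202)) (XT.lf (nat_lit 0) (nat_lit 10295794504) (nat_lit 1008) (nat_lit 1514128602) (nat_lit 1092) (nat_lit 4310652468) (nat_lit 87) (nat_lit 5) (nat_lit 99) (nat_lit 5) (nat_lit 100) (nat_lit 5) (nat_lit 340) (nat_lit 320) (nat_lit 201)))) (XT.nd (nat_lit 188) (nat_lit 504) (nat_lit 0) (XT.nd (nat_lit 94) (nat_lit 588) (nat_lit 0) (XT.lf (nat_lit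 0) (nat_lit 13021084512) (nat_lit 1092) (nat_lit 16160367) (nat_lit 84) (nat_lit 3375646920) (nat_lit 87) (nat_lit 5) (nat_lit 100) (nat_lit 5) (nat_lit 88) (nat_lit 5) (nat_lit 341) (nat_lit 320) (nat_lit 200)) (XT.lf (nat_lit 0) (nat_lit 6071309331) (nat_lit 588) (nat_lit 8264985042) (nat_lit 672) (nat_lit 2375963668) (nat_lit 80) (nat_lit 5) (nat_lit 87) (nat_lit 5) (nat_lit 88) (nat_lit 5) (nat_lit 342) (nat_lit 320) (nat_lit 199))) (XT.nd (nat_lit 94) (nat_lit 504) (nat_lit 0) (XT.lf (nat_lit 0) (nat_lit 12339859111) (nat_lit 588) (nat_lit 3343571519) (nat_lit 672) (nat_lit 1337796498) (nat_lit 80) (nat_lit 5) (nat_lit 87) (nat_lit 5) (nat_lit 88) (nat_lit 5) (nat_lit 343) (nat_lit 320) (nat_lit 198)) (XT.lf (nat_lit 0) (nat_lit 1467294370) (nat_lit 504) (nat_lit 15628022561) (nat_lit 588) (nat_lit 243791512) (nat_lit 74) (nat_lit 5) (nat_lit 80) (nat_lit 5) (nat_lit 81) (nat_lit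 5) (nat_lit 344) (nat_lit 320) (nat_lit 197))))))))
noncomputable def xc162 : XT := (XT.nd (nat_lit 2256) (nat_lit 1596) (nat_lit 0) (XT.nd (nat_lit 1128) (nat_lit 1428) (nat_lit 0) (XT.nd (nat_lit 564) (nat_lit 756) (nat_lit 0) (XT.nd (nat_lit 282) (nat_lit 420) (nat_lit 0) (XT.nd (nat_lit 94) (nat_lit 504) (nat_lit 0) (XT.lf (nat_lit 0) (nat_lit 941193629) (nat_lit 588) (nat_lit 9811191883) (nat_lit 84) (nat_lit 6911909489) (nat_lit 73) (nat_lit 5) (nat_lit 80) (nat_lit 5) (nat_lit 74) (nat_lit 5) (nat_lit 345) (nat_lit 320) (nat_lit 196)) (XT.nd (nat_lit 94) (nat_lit 504) (nat_lit 0) (XT.lf (nat_lit 0) (nat_lit 2149428907) (nat_lit 588) (nat_lit 3573140295) (nat_lit 84) (nat_lit 12277219617) (nat_lit 73) (nat_lit 5) (nat_lit 80) (nat_lit 5) (nat_lit 74) (nat_lit 5) (nat_lit 346) (nat_lit 320) (nat_lit 195)) (XT.lf (nat_lit 0) (nat_lit 2909187289) (nat_lit 504) (nat_lit 506624584)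 (nat_lit 588) (nat_lit 14929271062) (nat_lit 67) (nat_lit 5) (nat_lit 73) (nat_lit 5) (nat_lit 74) (nat_lit 5) (nat_lit 347) (nat_lit 320) (nat_lit 194)))) (XT.nd (nat_lit 94) (nat_lit 420) (nat_lit 0) (XT.lf (nat_lit 0) (nat_lit 4799457726) (nat_lit 588) (nat_lit 9088342570) (nat_lit 84) (nat_lit 4810902929) (nat_lit 67) (nat_lit 5) (nat_lit 74) (nat_lit 5) (nat_lit 68) (nat_lit 5) (nat_lit 348) (nat_lit 320) (nat_lit 193)) (XT.nd (nat_lit 94) (nat_lit 420) (nat_lit 0) (XT.lf (nat_lit 0) (nat_lit 6223424771) (nat_lit 588) (nat_lit 2556889256) (nat_lit 84) (nat_lit 10283090443) (nat_lit 67) (nat_lit 5) (nat_lit 74) (nat_lit 5) (nat_lit 68) (nat_lit 5) (nat_lit 349) (nat_lit 320) (nat_lit 192)) (XT.lf (nat_lit 0) (nat_lit 4255313149) (nat_lit 420) (nat_lit 3470914601) (nat_lit 504) (nat_lit 11712146051) (nat_lit 62) (nat_lit 5) (nat_lit 67) (nat_lit 5) (nat_lit 68) (nat_lit 5) (nat_lit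 350) (nat_lit 320) (nat_lit 191))))) (XT.nd (nat_lit 282) (nat_lit 336) (nat_lit 0) (XT.nd (nat_lit 94) (nat_lit 420) (nat_lit 0) (XT.lf (nat_lit 0) (nat_lit 9315082425) (nat_lit 504) (nat_lit 8519035425) (nat_lit 84) (nat_lit 1989662613) (nat_lit 62) (nat_lit 5) (nat_lit 68) (nat_lit 5) (nat_lit 63) (nat_lit 5) (nat_lit 351) (nat_lit 320) (nat_lit 190)) (XT.nd (nat_lit 94) (nat_lit 420) (nat_lit 0) (XT.lf (nat_lit 0) (nat_lit 10981544812) (nat_lit 504) (nat_lit 1691345078) (nat_lit 84) (nat_lit 7547401480) (nat_lit 62) (nat_lit 5) (nat_lit 68) (nat_lit 5) (nat_lit 63) (nat_lit 5) (nat_lit 352) (nat_lit 320) (nat_lit 189)) (XT.lf (nat_lit 0) (nat_lit 5450624345) (nat_lit 420) (nat_lit 7296182848) (nat_lit 504) (nat_lit 7880860109) (nat_lit 57) (nat_lit 5) (nat_lit 62) (nat_lit 5) (nat_lit 63) (nat_lit 5) (nat_lit 353) (nat_lit 320) (nat_lit 188)))) (XT.nd (nat_lit 94) (nat_lit 336)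 (nat_lit 0) (XT.lf (nat_lit 0) (nat_lit 12842726057) (nat_lit 420) (nat_lit 1734927351) (nat_lit 504) (nat_lit 6469715280) (nat_lit 57) (nat_lit 5) (nat_lit 62) (nat_lit 5) (nat_lit 63) (nat_lit 5) (nat_lit 354) (nat_lit 320) (nat_lit 187)) (XT.nd (nat_lit 94) (nat_lit 336) (nat_lit 0) (XT.lf (nat_lit 0) (nat_lit 16498331329) (nat_lit 504) (nat_lit 1062909492) (nat_lit 84) (nat_lit 3917847128) (nat_lit 57) (nat_lit 5) (nat_lit 63) (nat_lit 5) (nat_lit 58) (nat_lit 5) (nat_lit 355) (nat_lit 320) (nat_lit 186)) (XT.lf (nat_lit 0) (nat_lit 6404582275) (nat_lit 336) (nat_lit 12148852291) (nat_lit 420) (nat_lit 3368466026) (nat_lit 53) (nat_lit 5) (nat_lit 57) (nat_lit 5) (nat_lit 58) (nat_lit 5) (nat_lit 356) (nat_lit 320) (nat_lit 185)))))) (XT.nd (nat_lit 564) (nat_lit 588) (nat_lit 0) (XT.nd (nat_lit 282) (nat_lit 336) (nat_lit 0) (XT.nd (nat_lit 94) (nat_lit 504) (nat_lit 0) (XT.lf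 (nat_lit 0) (nat_lit 14119240626) (nat_lit 336) (nat_lit 6557830017) (nat_lit 420) (nat_lit 1701250768) (nat_lit 53) (nat_lit 5) (nat_lit 57) (nat_lit 5) (nat_lit 58) (nat_lit 5) (nat_lit 357) (nat_lit 320) (nat_lit 184)) (XT.nd (nat_lit 94) (nat_lit 420) (nat_lit 0) (XT.lf (nat_lit 0) (nat_lit 11119927) (nat_lit 420) (nat_lit 782821180) (nat_lit 84) (nat_lit 22055164835) (nat_lit 52) (nat_lit 5) (nat_lit 57) (nat_lit 5) (nat_lit 53) (nat_lit 5) (nat_lit 358) (nat_lit 320) (nat_lit 183)) (XT.lf (nat_lit 0) (nat_lit 1857077977) (nat_lit 504) (nat_lit 16340852438) (nat_lit 84) (nat_lit 5132451731) (nat_lit 47) (nat_lit 5) (nat_lit 53) (nat_lit 5) (nat_lit 48) (nat_lit 5) (nat_lit 359) (nat_lit 320) (nat_lit 182)))) (XT.nd (nat_lit 94) (nat_lit 336) (nat_lit 0) (XT.lf (nat_lit 0) (nat_lit 3770757011) (nat_lit 504) (nat_lit 8821848585) (nat_lit 84) (nat_lit 11233673972) (nat_lit 47) (nat_lit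 5) (nat_lit 53) (nat_lit 5) (nat_lit 48) (nat_lit 5) (nat_lit 360) (nat_lit 320) (nat_lit 181)) (XT.nd (nat_lit 94) (nat_lit 336) (nat_lit 0) (XT.lf (nat_lit 0) (nat_lit 5738058363) (nat_lit 504) (nat_lit 1076292107) (nat_lit 84) (nat_lit 17523402317) (nat_lit 47) (nat_lit 5) (nat_lit 53) (nat_lit 5) (nat_lit 48) (nat_lit 5) (nat_lit 361) (nat_lit 320) (nat_lit 180)) (XT.lf (nat_lit 0) (nat_lit 7044977257) (nat_lit 336) (nat_lit 785725554) (nat_lit 420) (nat_lit 17032409242) (nat_lit 43) (nat_lit 5) (nat_lit 47) (nat_lit 5) (nat_lit 48) (nat_lit 5) (nat_lit 362) (nat_lit 320) (nat_lit 179))))) (XT.nd (nat_lit 282) (nat_lit 252) (nat_lit 0) (XT.nd (nat_lit 94) (nat_lit 336) (nat_lit 0) (XT.lf (nat_lit 0) (nat_lit 10047997884) (nat_lit 420) (nat_lit 10024025680) (nat_lit 84) (nat_lit 5330905424) (nat_lit 43) (nat_lit 5) (nat_lit 48) (nat_lit 5) (nat_lit 44) (nat_lit 5) (nat_lit 363)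 (nat_lit 320) (nat_lit 178)) (XT.nd (nat_lit 94) (nat_lit 336) (nat_lit 0) (XT.lf (nat_lit 0) (nat_lit 12336793947) (nat_lit 420) (nat_lit 2002601289) (nat_lit 84) (nat_lit 11620023234) (nat_lit 43) (nat_lit 5) (nat_lit 48) (nat_lit 5) (nat_lit 44) (nat_lit 5) (nat_lit 364) (nat_lit 320) (nat_lit 177)) (XT.lf (nat_lit 0) (nat_lit 6390157105) (nat_lit 336) (nat_lit 8364663947) (nat_lit 420) (nat_lit 11776554654) (nat_lit 39) (nat_lit 5) (nat_lit 43) (nat_lit 5) (nat_lit 44) (nat_lit 5) (nat_lit 365) (nat_lit 320) (nat_lit 176)))) (XT.nd (nat_lit 94) (nat_lit 252) (nat_lit 0) (XT.lf (nat_lit 0) (nat_lit 15079529057) (nat_lit 336) (nat_lit 2184162256) (nat_lit 420) (nat_lit 9856902403) (nat_lit 39) (nat_lit 5) (nat_lit 43) (nat_lit 5) (nat_lit 44) (nat_lit 5) (nat_lit 366) (nat_lit 320) (nat_lit 175)) (XT.nd (nat_lit 94) (nat_lit 252) (nat_lit 0) (XT.lf (nat_lit 0) (nat_lit 19887003958)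 (nat_lit 420) (nat_lit 3737349078) (nat_lit 84) (nat_lit 4102609593) (nat_lit 39) (nat_lit 5) (nat_lit 44) (nat_lit 5) (nat_lit 40) (nat_lit 5) (nat_lit 367) (nat_lit 320) (nat_lit 174)) (XT.lf (nat_lit 0) (nat_lit 4894232783) (nat_lit 252) (nat_lit 17763565974) (nat_lit 336) (nat_lit 5692300456) (nat_lit 36) (nat_lit 5) (nat_lit 39) (nat_lit 5) (nat_lit 40) (nat_lit 5) (nat_lit 368) (nat_lit 320) (nat_lit 173))))))) (XT.nd (nat_lit 1128) (nat_lit 672) (nat_lit 0) (XT.nd (nat_lit 564) (nat_lit 504) (nat_lit 0) (XT.nd (nat_lit 282) (nat_lit 0) (nat_lit 0) (XT.nd (nat_lit 94) (nat_lit 420) (nat_lit 0) (XT.lf (nat_lit 0) (nat_lit 13866864477) (nat_lit 252) (nat_lit 11681988317) (nat_lit 336) (nat_lit 3442655477) (nat_lit 36) (nat_lit 5) (nat_lit 39) (nat_lit 5) (nat_lit 40) (nat_lit 5) (nat_lit 369) (nat_lit 320) (nat_lit 172)) (XT.nd (nat_lit 94) (nat_lit 420) (nat_lit 0) (XT.lf (nat_lit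 0) (nat_lit 23112061874) (nat_lit 252) (nat_lit 5412961659) (nat_lit 336) (nat_lit 1127937088) (nat_lit 36) (nat_lit 5) (nat_lit 39) (nat_lit 5) (nat_lit 40) (nat_lit 5) (nat_lit 370) (nat_lit 320) (nat_lit 171)) (XT.lf (nat_lit 0) (nat_lit 1262714526) (nat_lit 420) (nat_lit 28006706449) (nat_lit 84) (nat_lit 1064213186) (nat_lit 31) (nat_lit 5) (nat_lit 36) (nat_lit 5) (nat_lit 32) (nat_lit 5) (nat_lit 371) (nat_lit 320) (nat_lit 170)))) (XT.nd (nat_lit 94) (nat_lit 0) (nat_lit 0) (XT.lf (nat_lit 0) (nat_lit 3824013984) (nat_lit 420) (nat_lit 19498181965) (nat_lit 84) (nat_lit 7709154200) (nat_lit 31) (nat_lit 5) (nat_lit 36) (nat_lit 5) (nat_lit 32) (nat_lit 5) (nat_lit 372) (nat_lit 320) (nat_lit 169)) (XT.nd (nat_lit 94) (nat_lit 0) (nat_lit 0) (XT.lf (nat_lit 0) (nat_lit 6460478846) (nat_lit 420) (nat_lit 10731338410) (nat_lit 84) (nat_lit 14559026992) (nat_lit 31) (nat_lit 5)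 (nat_lit 36) (nat_lit 5) (nat_lit 32) (nat_lit 5) (nat_lit 373) (nat_lit 320) (nat_lit 168)) (XT.lf (nat_lit 0) (nat_lit 9174566572) (nat_lit 420) (nat_lit 1698004167) (nat_lit 84) (nat_lit 21620216362) (nat_lit 31) (nat_lit 5) (nat_lit 36) (nat_lit 5) (nat_lit 32) (nat_lit 5) (nat_lit 374) (nat_lit 320) (nat_lit 167))))) (XT.nd (nat_lit 282) (nat_lit 252) (nat_lit 0) (XT.nd (nat_lit 94) (nat_lit 0) (nat_lit 0) (XT.lf (nat_lit 0) (nat_lit 7766722935) (nat_lit 252) (nat_lit 4279130895) (nat_lit 336) (nat_lit 21209627995) (nat_lit 28) (nat_lit 5) (nat_lit 31) (nat_lit 5) (nat_lit 32) (nat_lit 5) (nat_lit 375) (nat_lit 320) (nat_lit 166)) (XT.nd (nat_lit 94) (nat_lit 0) (nat_lit 0) (XT.lf (nat_lit 0) (nat_lit 15045115795) (nat_lit 336) (nat_lit 16510781189) (nat_lit 84) (nat_lit 2484731283) (nat_lit 28) (nat_lit 5) (nat_lit 32) (nat_lit 5) (nat_lit 29) (nat_lit 5) (nat_lit 376) (nat_lit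 320) (nat_lit 165)) (XT.lf (nat_lit 0) (nat_lit 18177312350) (nat_lit 336) (nat_lit 7303292135) (nat_lit 84) (nat_lit 9368286689) (nat_lit 28) (nat_lit 5) (nat_lit 32) (nat_lit 5) (nat_lit 29) (nat_lit 5) (nat_lit 377) (nat_lit 320) (nat_lit 164)))) (XT.nd (nat_lit 94) (nat_lit 0) (nat_lit 0) (XT.lf (nat_lit 0) (nat_lit 2229662861) (nat_lit 252) (nat_lit 19195369191) (nat_lit 336) (nat_lit 14256622140) (nat_lit 25) (nat_lit 5) (nat_lit 28) (nat_lit 5) (nat_lit 29) (nat_lit 5) (nat_lit 378) (nat_lit 320) (nat_lit 163)) (XT.nd (nat_lit 94) (nat_lit 0) (nat_lit 0) (XT.lf (nat_lit 0) (nat_lit 12208125958) (nat_lit 252) (nat_lit 12637906068) (nat_lit 336) (nat_lit 11691964890) (nat_lit 25) (nat_lit 5) (nat_lit 28) (nat_lit 5) (nat_lit 29) (nat_lit 5) (nat_lit 379) (nat_lit 320) (nat_lit 162)) (XT.lf (nat_lit 0) (nat_lit 22491227465) (nat_lit 252) (nat_lit 5878334264) (nat_lit 336) (nat_lit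 9051447936) (nat_lit 25) (nat_lit 5) (nat_lit 28) (nat_lit 5) (nat_lit 29) (nat_lit 5) (nat_lit 380) (nat_lit 320) (nat_lit 161)))))) (XT.nd (nat_lit 564) (nat_lit 168) (nat_lit 0) (XT.nd (nat_lit 282) (nat_lit 336) (nat_lit 0) (XT.nd (nat_lit 94) (nat_lit 168) (nat_lit 0) (XT.lf (nat_lit 0) (nat_lit 32009714892) (nat_lit 336) (nat_lit 5253772623) (nat_lit 84) (nat_lit 1067692892) (nat_lit 25) (nat_lit 5) (nat_lit 29) (nat_lit 5) (nat_lit 26) (nat_lit 5) (nat_lit 381) (nat_lit 320) (nat_lit 160)) (XT.nd (nat_lit 94) (nat_lit 0) (nat_lit 0) (XT.lf (nat_lit 0) (nat_lit 4753319448) (nat_lit 168) (nat_lit 31113344759) (nat_lit 252) (nat_lit 3399693139) (nat_lit 23) (nat_lit 5) (nat_lit 25) (nat_lit 5) (nat_lit 26) (nat_lit 5) (nat_lit 382) (nat_lit 320) (nat_lit 159)) (XT.lf (nat_lit 0) (nat_lit 15177533302) (nat_lit 168) (nat_lit 24717216156) (nat_lit 252) (nat_lit 334189620) (nat_lit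 23) (nat_lit 5) (nat_lit 25) (nat_lit 5) (nat_lit 26) (nat_lit 5) (nat_lit 383) (nat_lit 320) (nat_lit 158)))) (XT.nd (nat_lit 94) (nat_lit 252) (nat_lit 0) (XT.lf (nat_lit 0) (nat_lit 2766185354) (nat_lit 252) (nat_lit 15328919801) (nat_lit 84) (nat_lit 23125498400) (nat_lit 22) (nat_lit 5) (nat_lit 25) (nat_lit 5) (nat_lit 23) (nat_lit 5) (nat_lit 384) (nat_lit 320) (nat_lit 157)) (XT.nd (nat_lit 94) (nat_lit 252) (nat_lit 0) (XT.lf (nat_lit 0) (nat_lit 5952612096) (nat_lit 252) (nat_lit 5312740914) (nat_lit 84) (nat_lit 30977659176) (nat_lit 22) (nat_lit 5) (nat_lit 25) (nat_lit 5) (nat_lit 23) (nat_lit 5) (nat_lit 385) (nat_lit 320) (nat_lit 156)) (XT.lf (nat_lit 0) (nat_lit 5112793608) (nat_lit 252) (nat_lit 4172719802) (nat_lit 336) (nat_lit 34010135020) (nat_lit 19) (nat_lit 5) (nat_lit 22) (nat_lit 5) (nat_lit 23) (nat_lit 5) (nat_lit 386) (nat_lit 320) (nat_lit 155))))) (XT.nd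 (nat_lit 282) (nat_lit 168) (nat_lit 0) (XT.nd (nat_lit 94) (nat_lit 0) (nat_lit 0) (XT.lf (nat_lit 0) (nat_lit 12805917593) (nat_lit 336) (nat_lit 28440971773) (nat_lit 84) (nat_lit 3131428517) (nat_lit 19) (nat_lit 5) (nat_lit 23) (nat_lit 5) (nat_lit 20) (nat_lit 5) (nat_lit 387) (nat_lit 320) (nat_lit 154)) (XT.nd (nat_lit 94) (nat_lit 0) (nat_lit 0) (XT.lf (nat_lit 0) (nat_lit 16475235763) (nat_lit 336) (nat_lit 18443848201) (nat_lit 84) (nat_lit 10574243719) (nat_lit 19) (nat_lit 5) (nat_lit 23) (nat_lit 5) (nat_lit 20) (nat_lit 5) (nat_lit 388) (nat_lit 320) (nat_lit 153)) (XT.lf (nat_lit 0) (nat_lit 20255494212) (nat_lit 336) (nat_lit 8140771844) (nat_lit 84) (nat_lit 18246734290) (nat_lit 19) (nat_lit 5) (nat_lit 23) (nat_lit 5) (nat_lit 20) (nat_lit 5) (nat_lit 389) (nat_lit 320) (nat_lit 152)))) (XT.nd (nat_lit 188) (nat_lit 0) (nat_lit 0) (XT.nd (nat_lit 94) (nat_lit 0)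 (nat_lit 0) (XT.lf (nat_lit 0) (nat_lit 2528810744) (nat_lit 168) (nat_lit 21646491910) (nat_lit 252) (nat_lit 23652327166) (nat_lit 17) (nat_lit 5) (nat_lit 19) (nat_lit 5) (nat_lit 20) (nat_lit 5) (nat_lit 390) (nat_lit 320) (nat_lit 151)) (XT.lf (nat_lit 0) (nat_lit 13697930310) (nat_lit 168) (nat_lit 14600987886) (nat_lit 252) (nat_lit 20747523400) (nat_lit 17) (nat_lit 5) (nat_lit 19) (nat_lit 5) (nat_lit 20) (nat_lit 5) (nat_lit 391) (nat_lit 320) (nat_lit 150))) (XT.nd (nat_lit 94) (nat_lit 0) (nat_lit 0) (XT.lf (nat_lit 0) (nat_lit 25209606678) (nat_lit 168) (nat_lit 7338159797) (nat_lit 252) (nat_lit 17755360217) (nat_lit 17) (nat_lit 5) (nat_lit 19) (nat_lit 5) (nat_lit 20) (nat_lit 5) (nat_lit 392) (nat_lit 320) (nat_lit 149)) (XT.lf (nat_lit 0) (nat_lit 36927283602) (nat_lit 252) (nat_lit 14525762276) (nat_lit 84) (nat_lit 145764846) (nat_lit 17) (nat_lit 5) (nat_lit 20)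 (nat_lit 5) (nat_lit 18) (nat_lit 5) (nat_lit 393) (nat_lit 320) (nat_lit 148))))))))
noncomputable def xc163 : XT := (XT.nd (nat_lit 47376) (nat_lit 0) (nat_lit 5460) (XT.nd (nat_lit 1128) (nat_lit 168) (nat_lit 0) (XT.nd (nat_lit 564) (nat_lit 336) (nat_lit 0) (XT.nd (nat_lit 282) (nat_lit 84) (nat_lit 0) (XT.nd (nat_lit 94) (nat_lit 168) (nat_lit 0) (XT.lf (nat_lit 0) (nat_lit 41515162351) (nat_lit 252) (nat_lit 3708998418) (nat_lit 84) (nat_lit 7708258706) (nat_lit 17) (nat_lit 5) (nat_lit 20) (nat_lit 5) (nat_lit 18) (nat_lit 5) (nat_lit 394) (nat_lit 320) (nat_lit 147)) (XT.nd (nat_lit 94) (nat_lit 0) (nat_lit 0) (XT.lf (nat_lit 0) (nat_lit 7592623819) (nat_lit 168) (nat_lit 38725579601) (nat_lit 252) (nat_lit 7986914334) (nat_lit 15) (nat_lit 5) (nat_lit 17) (nat_lit 5) (nat_lit 18) (nat_lit 5) (nat_lit 395) (nat_lit 320) (nat_lit 146)) (XT.lf (nat_lit 0) (nat_lit 19319824197)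 (nat_lit 168) (nat_lit 31986685087) (nat_lit 252) (nat_lit 4412741385) (nat_lit 15) (nat_lit 5) (nat_lit 17) (nat_lit 5) (nat_lit 18) (nat_lit 5) (nat_lit 396) (nat_lit 320) (nat_lit 145)))) (XT.nd (nat_lit 94) (nat_lit 84) (nat_lit 0) (XT.lf (nat_lit 0) (nat_lit 31407269081) (nat_lit 168) (nat_lit 25039910209) (nat_lit 252) (nat_lit 730121108) (nat_lit 15) (nat_lit 5) (nat_lit 17) (nat_lit 5) (nat_lit 18) (nat_lit 5) (nat_lit 397) (nat_lit 320) (nat_lit 144)) (XT.nd (nat_lit 94) (nat_lit 0) (nat_lit 0) (XT.lf (nat_lit 0) (nat_lit 3002638672) (nat_lit 252) (nat_lit 14844799782) (nat_lit 84) (nat_lit 40832245172) (nat_lit 14) (nat_lit 5) (nat_lit 17) (nat_lit 5) (nat_lit 15) (nat_lit 5) (nat_lit 398) (nat_lit 320) (nat_lit 143)) (XT.lf (nat_lit 0) (nat_lit 6833779536) (nat_lit 252) (nat_lit 3591508890) (nat_lit 84) (nat_lit 49803195532) (nat_lit 14) (nat_lit 5) (nat_lit 17) (nat_lit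 5) (nat_lit 15) (nat_lit 5) (nat_lit 399) (nat_lit 320) (nat_lit 142))))) (XT.nd (nat_lit 282) (nat_lit 168) (nat_lit 0) (XT.nd (nat_lit 94) (nat_lit 0) (nat_lit 0) (XT.lf (nat_lit 0) (nat_lit 8172225629) (nat_lit 168) (nat_lit 2690426680) (nat_lit 252) (nat_lit 50960204104) (nat_lit 12) (nat_lit 5) (nat_lit 14) (nat_lit 5) (nat_lit 15) (nat_lit 5) (nat_lit 400) (nat_lit 320) (nat_lit 141)) (XT.nd (nat_lit 94) (nat_lit 0) (nat_lit 0) (XT.lf (nat_lit 0) (nat_lit 15104632324) (nat_lit 252) (nat_lit 43144612992) (nat_lit 84) (nat_lit 5214681576) (nat_lit 12) (nat_lit 5) (nat_lit 15) (nat_lit 5) (nat_lit 13) (nat_lit 5) (nat_lit 401) (nat_lit 320) (nat_lit 140)) (XT.lf (nat_lit 0) (nat_lit 19503613685) (nat_lit 252) (nat_lit 32343423674) (nat_lit 84) (nat_lit 13308049542) (nat_lit 12) (nat_lit 5) (nat_lit 15) (nat_lit 5) (nat_lit 13) (nat_lit 5) (nat_lit 402) (nat_lit 320) (nat_lit 139))))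 (XT.nd (nat_lit 94) (nat_lit 168) (nat_lit 0) (XT.lf (nat_lit 0) (nat_lit 24037007338) (nat_lit 252) (nat_lit 21210305626) (nat_lit 84) (nat_lit 21651427186) (nat_lit 12) (nat_lit 5) (nat_lit 15) (nat_lit 5) (nat_lit 13) (nat_lit 5) (nat_lit 403) (nat_lit 320) (nat_lit 138)) (XT.nd (nat_lit 94) (nat_lit 168) (nat_lit 0) (XT.lf (nat_lit 0) (nat_lit 28709038880) (nat_lit 252) (nat_lit 9734881615) (nat_lit 84) (nat_lit 30252591409) (nat_lit 12) (nat_lit 5) (nat_lit 15) (nat_lit 5) (nat_lit 13) (nat_lit 5) (nat_lit 404) (nat_lit 320) (nat_lit 137)) (XT.lf (nat_lit 0) (nat_lit 2136592227) (nat_lit 168) (nat_lit 31408666167) (nat_lit 252) (nat_lit 37004162430) (nat_lit 10) (nat_lit 5) (nat_lit 12) (nat_lit 5) (nat_lit 13) (nat_lit 5) (nat_lit 405) (nat_lit 320) (nat_lit 136)))))) (XT.nd (nat_lit 564) (nat_lit 168) (nat_lit 0) (XT.nd (nat_lit 282) (nat_lit 0) (nat_lit 0) (XT.nd (nat_lit 94)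 (nat_lit 0) (nat_lit 0) (XT.lf (nat_lit 0) (nat_lit 14579747949) (nat_lit 168) (nat_lit 24051453165) (nat_lit 252) (nat_lit 33825481051) (nat_lit 10) (nat_lit 5) (nat_lit 12) (nat_lit 5) (nat_lit 13) (nat_lit 5) (nat_lit 406) (nat_lit 320) (nat_lit 135)) (XT.nd (nat_lit 94) (nat_lit 0) (nat_lit 0) (XT.lf (nat_lit 0) (nat_lit 27406014742) (nat_lit 168) (nat_lit 16467035995) (nat_lit 252) (nat_lit 30550078224) (nat_lit 10) (nat_lit 5) (nat_lit 12) (nat_lit 5) (nat_lit 13) (nat_lit 5) (nat_lit 407) (nat_lit 320) (nat_lit 134)) (XT.lf (nat_lit 0) (nat_lit 40627348030) (nat_lit 168) (nat_lit 8648345186) (nat_lit 252) (nat_lit 27174900928) (nat_lit 10) (nat_lit 5) (nat_lit 12) (nat_lit 5) (nat_lit 13) (nat_lit 5) (nat_lit 408) (nat_lit 320) (nat_lit 133)))) (XT.nd (nat_lit 94) (nat_lit 0) (nat_lit 0) (XT.lf (nat_lit 0) (nat_lit 54256071481) (nat_lit 168) (nat_lit 588092899) (nat_lit 252)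 (nat_lit 23696803146) (nat_lit 10) (nat_lit 5) (nat_lit 12) (nat_lit 5) (nat_lit 13) (nat_lit 5) (nat_lit 409) (nat_lit 320) (nat_lit 132)) (XT.nd (nat_lit 94) (nat_lit 0) (nat_lit 0) (XT.lf (nat_lit 0) (nat_lit 60660250225) (nat_lit 252) (nat_lit 12467904657) (nat_lit 84) (nat_lit 7565668209) (nat_lit 10) (nat_lit 5) (nat_lit 13) (nat_lit 5) (nat_lit 11) (nat_lit 4) (nat_lit 410) (nat_lit 320) (nat_lit 131)) (XT.lf (nat_lit 0) (nat_lit 66661086595) (nat_lit 252) (nat_lit 292971920) (nat_lit 84) (nat_lit 15959225854) (nat_lit 10) (nat_lit 5) (nat_lit 13) (nat_lit 5) (nat_lit 11) (nat_lit 4) (nat_lit 411) (nat_lit 320) (nat_lit 130))))) (XT.nd (nat_lit 282) (nat_lit 84) (nat_lit 0) (XT.nd (nat_lit 94) (nat_lit 0) (nat_lit 0) (XT.lf (nat_lit 0) (nat_lit 12509115225) (nat_lit 84) (nat_lit 60461409691) (nat_lit 168) (nat_lit 12227229217) (nat_lit 9) (nat_lit 5) (nat_lit 10) (nat_lit 5)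 (nat_lit 11) (nat_lit 4) (nat_lit 412) (nat_lit 320) (nat_lit 129)) (XT.nd (nat_lit 94) (nat_lit 0) (nat_lit 0) (XT.lf (nat_lit 0) (nat_lit 25712001901) (nat_lit 84) (nat_lit 53765119007) (nat_lit 168) (nat_lit 8075877928) (nat_lit 9) (nat_lit 5) (nat_lit 10) (nat_lit 5) (nat_lit 11) (nat_lit 4) (nat_lit 413) (nat_lit 320) (nat_lit 128)) (XT.lf (nat_lit 0) (nat_lit 39321970477) (nat_lit 84) (nat_lit 46862002844) (nat_lit 168) (nat_lit 3797332437) (nat_lit 9) (nat_lit 5) (nat_lit 10) (nat_lit 5) (nat_lit 11) (nat_lit 4) (nat_lit 414) (nat_lit 320) (nat_lit 127)))) (XT.nd (nat_lit 45214) (nat_lit 0) (nat_lit 8232) (XT.lf (nat_lit 0) (nat_lit 600056905) (nat_lit 168) (nat_lit 39139306505) (nat_lit 84) (nat_lit 52745386601) (nat_lit 8) (nat_lit 5) (nat_lit 10) (nat_lit 5) (nat_lit 9) (nat_lit 5) (nat_lit 415) (nat_lit 320) (nat_lit 126)) (XT.nd (nat_lit 94) (nat_lit 0) (nat_lit 0) (XT.lf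 (nat_lit 0) (nat_lit 2572029133) (nat_lit 0) (nat_lit 2572029133) (nat_lit 924) (nat_lit 877946284) (nat_lit 106) (nat_lit 5) (nat_lit 106) (nat_lit 3) (nat_lit 117) (nat_lit 3) (nat_lit 321) (nat_lit 321) (nat_lit 219)) (XT.lf (nat_lit 0) (nat_lit 9542968949) (nat_lit 0) (nat_lit 1284690322) (nat_lit 924) (nat_lit 1389042585) (nat_lit 106) (nat_lit 5) (nat_lit 106) (nat_lit 3) (nat_lit 117) (nat_lit 3) (nat_lit 322) (nat_lit 321) (nat_lit 218))))))) (XT.nd (nat_lit 1128) (nat_lit 1848) (nat_lit 0) (XT.nd (nat_lit 564) (nat_lit 0) (nat_lit 84) (XT.nd (nat_lit 282) (nat_lit 924) (nat_lit 0) (XT.nd (nat_lit 94) (nat_lit 0) (nat_lit 0) (XT.lf (nat_lit 84) (nat_lit 1682368403) (nat_lit 0) (nat_lit 9729737261) (nat_lit 1008) (nat_lit 981857840) (nat_lit 107) (nat_lit 5) (nat_lit 106) (nat_lit 5) (nat_lit 118) (nat_lit 5) (nat_lit 323) (nat_lit 321) (nat_lit 217)) (XT.nd (nat_lit 94) (nat_lit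 0) (nat_lit 0) (XT.lf (nat_lit 84) (nat_lit 6208567681) (nat_lit 0) (nat_lit 5832154138) (nat_lit 1008) (nat_lit 535277094) (nat_lit 107) (nat_lit 5) (nat_lit 106) (nat_lit 5) (nat_lit 118) (nat_lit 5) (nat_lit 324) (nat_lit 321) (nat_lit 216)) (XT.lf (nat_lit 84) (nat_lit 10867112720) (nat_lit 0) (nat_lit 1807296543) (nat_lit 1008) (nat_lit 89798711) (nat_lit 107) (nat_lit 5) (nat_lit 106) (nat_lit 5) (nat_lit 118) (nat_lit 5) (nat_lit 325) (nat_lit 321) (nat_lit 215)))) (XT.nd (nat_lit 94) (nat_lit 0) (nat_lit 0) (XT.lf (nat_lit 0) (nat_lit 398789768) (nat_lit 1008) (nat_lit 10225846603) (nat_lit 1092) (nat_lit 2332441144) (nat_lit 95) (nat_lit 5) (nat_lit 107) (nat_lit 5) (nat_lit 108) (nat_lit 5) (nat_lit 326) (nat_lit 321) (nat_lit 214)) (XT.nd (nat_lit 94) (nat_lit 0) (nat_lit 0) (XT.lf (nat_lit 0) (nat_lit 925348527) (nat_lit 1008) (nat_lit 5640244448) (nat_lit 1092) (nat_lit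 6589615536) (nat_lit 95) (nat_lit 5) (nat_lit 107) (nat_lit 5) (nat_lit 108) (nat_lit 5) (nat_lit 327) (nat_lit 321) (nat_lit 213)) (XT.lf (nat_lit 0) (nat_lit 1454846190) (nat_lit 1008) (nat_lit 920810216) (nat_lit 1092) (nat_lit 10984314127) (nat_lit 95) (nat_lit 5) (nat_lit 107) (nat_lit 5) (nat_lit 108) (nat_lit 5) (nat_lit 328) (nat_lit 321) (nat_lit 212))))) (XT.nd (nat_lit 282) (nat_lit 0) (nat_lit 84) (XT.nd (nat_lit 94) (nat_lit 0) (nat_lit 0) (XT.lf (nat_lit 0) (nat_lit 2047376173) (nat_lit 1008) (nat_lit 9572256703) (nat_lit 1092) (nat_lit 1950073967) (nat_lit 96) (nat_lit 5) (nat_lit 108) (nat_lit 5) (nat_lit 109) (nat_lit 5) (nat_lit 329) (nat_lit 321) (nat_lit 211)) (XT.nd (nat_lit 94) (nat_lit 0) (nat_lit 0) (XT.lf (nat_lit 0) (nat_lit 2679657179) (nat_lit 1008) (nat_lit 4730844002) (nat_lit 1092) (nat_lit 6374850599) (nat_lit 96) (nat_lit 5) (nat_lit 108) (nat_lit 5)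 (nat_lit 109) (nat_lit 5) (nat_lit 330) (nat_lit 321) (nat_lit 210)) (XT.lf (nat_lit 84) (nat_lit 257599522) (nat_lit 0) (nat_lit 3064249927) (nat_lit 1092) (nat_lit 10686200200) (nat_lit 97) (nat_lit 5) (nat_lit 96) (nat_lit 5) (nat_lit 109) (nat_lit 5) (nat_lit 331) (nat_lit 321) (nat_lit 209)))) (XT.nd (nat_lit 94) (nat_lit 0) (nat_lit 0) (XT.lf (nat_lit 0) (nat_lit 4035969267) (nat_lit 1008) (nat_lit 8758336862) (nat_lit 1092) (nat_lit 1441797951) (nat_lit 97) (nat_lit 5) (nat_lit 109) (nat_lit 5) (nat_lit 110) (nat_lit 5) (nat_lit 332) (nat_lit 321) (nat_lit 208)) (XT.nd (nat_lit 94) (nat_lit 0) (nat_lit 0) (XT.lf (nat_lit 0) (nat_lit 4792005321) (nat_lit 1008) (nat_lit 3651182034) (nat_lit 1092) (nat_lit 6027491274) (nat_lit 97) (nat_lit 5) (nat_lit 109) (nat_lit 5) (nat_lit 110) (nat_lit 5) (nat_lit 333) (nat_lit 321) (nat_lit 207)) (XT.lf (nat_lit 84) (nat_lit 1639198697) (nat_lit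 0) (nat_lit 3937326933) (nat_lit 1092) (nat_lit 9135904550) (nat_lit 98) (nat_lit 5) (nat_lit 97) (nat_lit 5) (nat_lit 110) (nat_lit 5) (nat_lit 334) (nat_lit 321) (nat_lit 206)))))) (XT.nd (nat_lit 564) (nat_lit 1176) (nat_lit 0) (XT.nd (nat_lit 282) (nat_lit 924) (nat_lit 0) (XT.nd (nat_lit 94) (nat_lit 0) (nat_lit 0) (XT.lf (nat_lit 0) (nat_lit 6419964730) (nat_lit 1008) (nat_lit 7805393838) (nat_lit 1092) (nat_lit 735304703) (nat_lit 98) (nat_lit 5) (nat_lit 110) (nat_lit 5) (nat_lit 111) (nat_lit 5) (nat_lit 335) (nat_lit 321) (nat_lit 205)) (XT.nd (nat_lit 94) (nat_lit 0) (nat_lit 0) (XT.lf (nat_lit 0) (nat_lit 7319221042) (nat_lit 1008) (nat_lit 2422736446) (nat_lit 1092) (nat_lit 5473772311) (nat_lit 98) (nat_lit 5) (nat_lit 110) (nat_lit 5) (nat_lit 111) (nat_lit 5) (nat_lit 336) (nat_lit 321) (nat_lit 204)) (XT.lf (nat_lit 84) (nat_lit 3182945929) (nat_lit 0) (nat_lit 5084703287)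 (nat_lit 1092) (nat_lit 7210450290) (nat_lit 99) (nat_lit 5) (nat_lit 98) (nat_lit 5) (nat_lit 111) (nat_lit 5) (nat_lit 337) (nat_lit 321) (nat_lit 203)))) (XT.nd (nat_lit 94) (nat_lit 924) (nat_lit 0) (XT.lf (nat_lit 84) (nat_lit 9005879192) (nat_lit 0) (nat_lit 254838446) (nat_lit 1092) (nat_lit 6487467193) (nat_lit 99) (nat_lit 5) (nat_lit 98) (nat_lit 5) (nat_lit 111) (nat_lit 5) (nat_lit 338) (nat_lit 321) (nat_lit 202)) (XT.nd (nat_lit 94) (nat_lit 1008) (nat_lit 0) (XT.lf (nat_lit 0) (nat_lit 10321714866) (nat_lit 1008) (nat_lit 1072214339) (nat_lit 84) (nat_lit 4631615067) (nat_lit 99) (nat_lit 5) (nat_lit 111) (nat_lit 5) (nat_lit 100) (nat_lit 5) (nat_lit 339) (nat_lit 321) (nat_lit 201)) (XT.lf (nat_lit 0) (nat_lit 4861202277) (nat_lit 1008) (nat_lit 6595796866) (nat_lit 1092) (nat_lit 4853270766) (nat_lit 87) (nat_lit 5) (nat_lit 99) (nat_lit 5) (nat_lit 100) (nat_lit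 5) (nat_lit 340) (nat_lit 321) (nat_lit 200))))) (XT.nd (nat_lit 282) (nat_lit 588) (nat_lit 0) (XT.nd (nat_lit 94) (nat_lit 588) (nat_lit 0) (XT.lf (nat_lit 0) (nat_lit 10993580482) (nat_lit 1008) (nat_lit 1635861709) (nat_lit 1092) (nat_lit 3974368728) (nat_lit 87) (nat_lit 5) (nat_lit 99) (nat_lit 5) (nat_lit 100) (nat_lit 5) (nat_lit 341) (nat_lit 321) (nat_lit 199)) (XT.nd (nat_lit 94) (nat_lit 0) (nat_lit 0) (XT.lf (nat_lit 0) (nat_lit 374849158) (nat_lit 588) (nat_lit 13492666196) (nat_lit 672) (nat_lit 3038076822) (nat_lit 80) (nat_lit 5) (nat_lit 87) (nat_lit 5) (nat_lit 88) (nat_lit 5) (nat_lit 342) (nat_lit 321) (nat_lit 198)) (XT.lf (nat_lit 0) (nat_lit 6639590811) (nat_lit 588) (nat_lit 8570756140) (nat_lit 672) (nat_lit 2004370819) (nat_lit 80) (nat_lit 5) (nat_lit 87) (nat_lit 5) (nat_lit 88) (nat_lit 5) (nat_lit 343) (nat_lit 321) (nat_lit 197)))) (XT.nd (nat_lit 188)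 (nat_lit 0) (nat_lit 0) (XT.nd (nat_lit 94) (nat_lit 588) (nat_lit 0) (XT.lf (nat_lit 0) (nat_lit 13091037702) (nat_lit 588) (nat_lit 3495288737) (nat_lit 672) (nat_lit 947408129) (nat_lit 80) (nat_lit 5) (nat_lit 87) (nat_lit 5) (nat_lit 88) (nat_lit 5) (nat_lit 344) (nat_lit 321) (nat_lit 196)) (XT.lf (nat_lit 0) (nat_lit 167495405) (nat_lit 588) (nat_lit 15970358365) (nat_lit 84) (nat_lit 1723916775) (nat_lit 73) (nat_lit 5) (nat_lit 80) (nat_lit 5) (nat_lit 74) (nat_lit 5) (nat_lit 345) (nat_lit 321) (nat_lit 195))) (XT.nd (nat_lit 94) (nat_lit 0) (nat_lit 0) (XT.lf (nat_lit 0) (nat_lit 1371709460) (nat_lit 588) (nat_lit 9736106503) (nat_lit 84) (nat_lit 7089593468) (nat_lit 73) (nat_lit 5) (nat_lit 80) (nat_lit 5) (nat_lit 74) (nat_lit 5) (nat_lit 346) (nat_lit 321) (nat_lit 194)) (XT.lf (nat_lit 0) (nat_lit 2605332617) (nat_lit 588) (nat_lit 3316078033) (nat_lit 84) (nat_lit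 12622328250) (nat_lit 73) (nat_lit 5) (nat_lit 80) (nat_lit 5) (nat_lit 74) (nat_lit 5) (nat_lit 347) (nat_lit 321) (nat_lit 193))))))))
noncomputable def xc164 : XT := (XT.nd (nat_lit 2256) (nat_lit 1596) (nat_lit 0) (XT.nd (nat_lit 1128) (nat_lit 1344) (nat_lit 0) (XT.nd (nat_lit 564) (nat_lit 840) (nat_lit 0) (XT.nd (nat_lit 282) (nat_lit 420) (nat_lit 0) (XT.nd (nat_lit 94) (nat_lit 0) (nat_lit 0) (XT.lf (nat_lit 0) (nat_lit 3363477762) (nat_lit 504) (nat_lit 539403095) (nat_lit 588) (nat_lit 14997166561) (nat_lit 67) (nat_lit 5) (nat_lit 73) (nat_lit 5) (nat_lit 74) (nat_lit 5) (nat_lit 348) (nat_lit 321) (nat_lit 192)) (XT.nd (nat_lit 94) (nat_lit 0) (nat_lit 0) (XT.lf (nat_lit 0) (nat_lit 5317794211) (nat_lit 588) (nat_lit 9003438976) (nat_lit 84) (nat_lit 4943814767) (nat_lit 67) (nat_lit 5) (nat_lit 74) (nat_lit 5) (nat_lit 68) (nat_lit 5) (nat_lit 349) (nat_lit 321) (nat_lit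 191)) (XT.lf (nat_lit 0) (nat_lit 6774792545) (nat_lit 588) (nat_lit 2280534768) (nat_lit 84) (nat_lit 10586127981) (nat_lit 67) (nat_lit 5) (nat_lit 74) (nat_lit 5) (nat_lit 68) (nat_lit 5) (nat_lit 350) (nat_lit 321) (nat_lit 190)))) (XT.nd (nat_lit 94) (nat_lit 0) (nat_lit 0) (XT.lf (nat_lit 0) (nat_lit 4739245597) (nat_lit 420) (nat_lit 3577651293) (nat_lit 504) (nat_lit 11711431848) (nat_lit 62) (nat_lit 5) (nat_lit 67) (nat_lit 5) (nat_lit 68) (nat_lit 5) (nat_lit 351) (nat_lit 321) (nat_lit 189)) (XT.nd (nat_lit 94) (nat_lit 0) (nat_lit 0) (XT.lf (nat_lit 0) (nat_lit 9944455828) (nat_lit 504) (nat_lit 8429445752) (nat_lit 84) (nat_lit 2052161068) (nat_lit 62) (nat_lit 5) (nat_lit 68) (nat_lit 5) (nat_lit 63) (nat_lit 5) (nat_lit 352) (nat_lit 321) (nat_lit 188)) (XT.lf (nat_lit 0) (nat_lit 11652337248) (nat_lit 504) (nat_lit 1400731411) (nat_lit 84) (nat_lit 7782165216) (nat_lit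 62) (nat_lit 5) (nat_lit 68) (nat_lit 5) (nat_lit 63) (nat_lit 5) (nat_lit 353) (nat_lit 321) (nat_lit 187))))) (XT.nd (nat_lit 282) (nat_lit 420) (nat_lit 0) (XT.nd (nat_lit 94) (nat_lit 0) (nat_lit 0) (XT.lf (nat_lit 0) (nat_lit 5959166038) (nat_lit 420) (nat_lit 7506591958) (nat_lit 504) (nat_lit 7789733442) (nat_lit 57) (nat_lit 5) (nat_lit 62) (nat_lit 5) (nat_lit 63) (nat_lit 5) (nat_lit 354) (nat_lit 321) (nat_lit 186)) (XT.nd (nat_lit 94) (nat_lit 0) (nat_lit 0) (XT.lf (nat_lit 0) (nat_lit 13570212678) (nat_lit 420) (nat_lit 1773411788) (nat_lit 504) (nat_lit 6344928897) (nat_lit 57) (nat_lit 5) (nat_lit 62) (nat_lit 5) (nat_lit 63) (nat_lit 5) (nat_lit 355) (nat_lit 321) (nat_lit 185)) (XT.lf (nat_lit 0) (nat_lit 17314547363) (nat_lit 504) (nat_lit 765603521) (nat_lit 84) (nat_lit 4053839753) (nat_lit 57) (nat_lit 5) (nat_lit 63) (nat_lit 5) (nat_lit 58) (nat_lit 5) (nat_lit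 356) (nat_lit 321) (nat_lit 184)))) (XT.nd (nat_lit 94) (nat_lit 84) (nat_lit 0) (XT.lf (nat_lit 0) (nat_lit 6930036943) (nat_lit 336) (nat_lit 12497401144) (nat_lit 420) (nat_lit 3163321064) (nat_lit 53) (nat_lit 5) (nat_lit 57) (nat_lit 5) (nat_lit 58) (nat_lit 5) (nat_lit 357) (nat_lit 321) (nat_lit 183)) (XT.nd (nat_lit 94) (nat_lit 84) (nat_lit 0) (XT.lf (nat_lit 0) (nat_lit 14874020129) (nat_lit 336) (nat_lit 6733901052) (nat_lit 420) (nat_lit 1453730174) (nat_lit 53) (nat_lit 5) (nat_lit 57) (nat_lit 5) (nat_lit 58) (nat_lit 5) (nat_lit 358) (nat_lit 321) (nat_lit 182)) (XT.lf (nat_lit 0) (nat_lit 296828186) (nat_lit 420) (nat_lit 492343290) (nat_lit 84) (nat_lit 22758081817) (nat_lit 52) (nat_lit 5) (nat_lit 57) (nat_lit 5) (nat_lit 53) (nat_lit 5) (nat_lit 359) (nat_lit 321) (nat_lit 181)))))) (XT.nd (nat_lit 564) (nat_lit 588) (nat_lit 0) (XT.nd (nat_lit 282) (nat_lit 336)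 (nat_lit 0) (XT.nd (nat_lit 94) (nat_lit 0) (nat_lit 0) (XT.lf (nat_lit 0) (nat_lit 2194835675) (nat_lit 504) (nat_lit 16526209542) (nat_lit 84) (nat_lit 5322604226) (nat_lit 47) (nat_lit 5) (nat_lit 53) (nat_lit 5) (nat_lit 48) (nat_lit 5) (nat_lit 360) (nat_lit 321) (nat_lit 180)) (XT.nd (nat_lit 94) (nat_lit 0) (nat_lit 0) (XT.lf (nat_lit 0) (nat_lit 4159414086) (nat_lit 504) (nat_lit 8783774657) (nat_lit 84) (nat_lit 11612030854) (nat_lit 47) (nat_lit 5) (nat_lit 53) (nat_lit 5) (nat_lit 48) (nat_lit 5) (nat_lit 361) (nat_lit 321) (nat_lit 179)) (XT.lf (nat_lit 0) (nat_lit 6179530421) (nat_lit 504) (nat_lit 807473618) (nat_lit 84) (nat_lit 18095835344) (nat_lit 47) (nat_lit 5) (nat_lit 53) (nat_lit 5) (nat_lit 48) (nat_lit 5) (nat_lit 362) (nat_lit 321) (nat_lit 178)))) (XT.nd (nat_lit 94) (nat_lit 0) (nat_lit 0) (XT.lf (nat_lit 0) (nat_lit 7562495758) (nat_lit 336) (nat_lit 769592773)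 (nat_lit 420) (nat_lit 17292586416) (nat_lit 43) (nat_lit 5) (nat_lit 47) (nat_lit 5) (nat_lit 48) (nat_lit 5) (nat_lit 363) (nat_lit 321) (nat_lit 177)) (XT.nd (nat_lit 94) (nat_lit 0) (nat_lit 0) (XT.lf (nat_lit 0) (nat_lit 10610732766) (nat_lit 420) (nat_lit 10036112749) (nat_lit 84) (nat_lit 5534645049) (nat_lit 43) (nat_lit 5) (nat_lit 48) (nat_lit 5) (nat_lit 44) (nat_lit 5) (nat_lit 364) (nat_lit 321) (nat_lit 176)) (XT.lf (nat_lit 0) (nat_lit 12962927040) (nat_lit 420) (nat_lit 1775004210) (nat_lit 84) (nat_lit 12017568451) (nat_lit 43) (nat_lit 5) (nat_lit 48) (nat_lit 5) (nat_lit 44) (nat_lit 5) (nat_lit 365) (nat_lit 321) (nat_lit 175))))) (XT.nd (nat_lit 282) (nat_lit 252) (nat_lit 0) (XT.nd (nat_lit 94) (nat_lit 0) (nat_lit 0) (XT.lf (nat_lit 0) (nat_lit 6874996967) (nat_lit 336) (nat_lit 8576433244) (nat_lit 420) (nat_lit 11893929630) (nat_lit 39) (nat_lit 5) (nat_lit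 43) (nat_lit 5) (nat_lit 44) (nat_lit 5) (nat_lit 366) (nat_lit 321) (nat_lit 174)) (XT.nd (nat_lit 94) (nat_lit 0) (nat_lit 0) (XT.lf (nat_lit 0) (nat_lit 15825117631) (nat_lit 336) (nat_lit 2205765286) (nat_lit 420) (nat_lit 9922215923) (nat_lit 39) (nat_lit 5) (nat_lit 43) (nat_lit 5) (nat_lit 44) (nat_lit 5) (nat_lit 367) (nat_lit 321) (nat_lit 173)) (XT.lf (nat_lit 0) (nat_lit 20728985611) (nat_lit 420) (nat_lit 3575904206) (nat_lit 84) (nat_lit 4273609178) (nat_lit 39) (nat_lit 5) (nat_lit 44) (nat_lit 5) (nat_lit 40) (nat_lit 5) (nat_lit 368) (nat_lit 321) (nat_lit 172)))) (XT.nd (nat_lit 94) (nat_lit 0) (nat_lit 0) (XT.lf (nat_lit 0) (nat_lit 5320449252) (nat_lit 252) (nat_lit 18261168978) (nat_lit 336) (nat_lit 5639490696) (nat_lit 36) (nat_lit 5) (nat_lit 39) (nat_lit 5) (nat_lit 40) (nat_lit 5) (nat_lit 369) (nat_lit 321) (nat_lit 171)) (XT.nd (nat_lit 94) (nat_lit 0) (nat_lit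 0) (XT.lf (nat_lit 0) (nat_lit 14562979034) (nat_lit 252) (nat_lit 11992658044) (nat_lit 336) (nat_lit 3327000421) (nat_lit 36) (nat_lit 5) (nat_lit 39) (nat_lit 5) (nat_lit 40) (nat_lit 5) (nat_lit 370) (nat_lit 321) (nat_lit 170)) (XT.lf (nat_lit 0) (nat_lit 24086772220) (nat_lit 252) (nat_lit 5530839212) (nat_lit 336) (nat_lit 947212182) (nat_lit 36) (nat_lit 5) (nat_lit 39) (nat_lit 5) (nat_lit 40) (nat_lit 5) (nat_lit 371) (nat_lit 321) (nat_lit 169))))))) (XT.nd (nat_lit 1128) (nat_lit 504) (nat_lit 0) (XT.nd (nat_lit 564) (nat_lit 420) (nat_lit 0) (XT.nd (nat_lit 282) (nat_lit 252) (nat_lit 0) (XT.nd (nat_lit 94) (nat_lit 0) (nat_lit 0) (XT.lf (nat_lit 0) (nat_lit 1509964532) (nat_lit 420) (nat_lit 28607332857) (nat_lit 84) (nat_lit 1149361600) (nat_lit 31) (nat_lit 5) (nat_lit 36) (nat_lit 5) (nat_lit 32) (nat_lit 5) (nat_lit 372) (nat_lit 321) (nat_lit 168)) (XT.nd (nat_lit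 94) (nat_lit 0) (nat_lit 0) (XT.lf (nat_lit 0) (nat_lit 4144406969) (nat_lit 420) (nat_lit 19843089726) (nat_lit 84) (nat_lit 7998727509) (nat_lit 31) (nat_lit 5) (nat_lit 36) (nat_lit 5) (nat_lit 32) (nat_lit 5) (nat_lit 373) (nat_lit 321) (nat_lit 167)) (XT.lf (nat_lit 0) (nat_lit 6856533080) (nat_lit 420) (nat_lit 10812277719) (nat_lit 84) (nat_lit 15059425237) (nat_lit 31) (nat_lit 5) (nat_lit 36) (nat_lit 5) (nat_lit 32) (nat_lit 5) (nat_lit 374) (nat_lit 321) (nat_lit 166)))) (XT.nd (nat_lit 94) (nat_lit 252) (nat_lit 0) (XT.lf (nat_lit 0) (nat_lit 9648870851) (nat_lit 420) (nat_lit 1506479171) (nat_lit 84) (nat_lit 22338036094) (nat_lit 31) (nat_lit 5) (nat_lit 36) (nat_lit 5) (nat_lit 32) (nat_lit 5) (nat_lit 375) (nat_lit 321) (nat_lit 165)) (XT.nd (nat_lit 94) (nat_lit 0) (nat_lit 0) (XT.lf (nat_lit 0) (nat_lit 8249182539) (nat_lit 252) (nat_lit 4356673407) (nat_lit 336)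 (nat_lit 21673994879) (nat_lit 28) (nat_lit 5) (nat_lit 31) (nat_lit 5) (nat_lit 32) (nat_lit 5) (nat_lit 376) (nat_lit 321) (nat_lit 164)) (XT.lf (nat_lit 0) (nat_lit 15693015211) (nat_lit 336) (nat_lit 16782367660) (nat_lit 84) (nat_lit 2614134471) (nat_lit 28) (nat_lit 5) (nat_lit 32) (nat_lit 5) (nat_lit 29) (nat_lit 5) (nat_lit 377) (nat_lit 321) (nat_lit 163))))) (XT.nd (nat_lit 282) (nat_lit 168) (nat_lit 0) (XT.nd (nat_lit 94) (nat_lit 252) (nat_lit 0) (XT.lf (nat_lit 0) (nat_lit 18916852510) (nat_lit 336) (nat_lit 7296670189) (nat_lit 84) (nat_lit 9709505244) (nat_lit 28) (nat_lit 5) (nat_lit 32) (nat_lit 5) (nat_lit 29) (nat_lit 5) (nat_lit 378) (nat_lit 321) (nat_lit 162)) (XT.nd (nat_lit 94) (nat_lit 0) (nat_lit 0) (XT.lf (nat_lit 0) (nat_lit 2529447252) (nat_lit 252) (nat_lit 19732799238) (nat_lit 336) (nat_lit 14519474975) (nat_lit 25) (nat_lit 5) (nat_lit 28) (nat_lit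 5) (nat_lit 29) (nat_lit 5) (nat_lit 379) (nat_lit 321) (nat_lit 161)) (XT.lf (nat_lit 0) (nat_lit 12810307100) (nat_lit 252) (nat_lit 12973787462) (nat_lit 336) (nat_lit 11880698584) (nat_lit 25) (nat_lit 5) (nat_lit 28) (nat_lit 5) (nat_lit 29) (nat_lit 5) (nat_lit 380) (nat_lit 321) (nat_lit 160)))) (XT.nd (nat_lit 94) (nat_lit 168) (nat_lit 0) (XT.lf (nat_lit 0) (nat_lit 23405457686) (nat_lit 252) (nat_lit 6006349539) (nat_lit 336) (nat_lit 9163548916) (nat_lit 25) (nat_lit 5) (nat_lit 28) (nat_lit 5) (nat_lit 29) (nat_lit 5) (nat_lit 381) (nat_lit 321) (nat_lit 159)) (XT.nd (nat_lit 94) (nat_lit 168) (nat_lit 0) (XT.lf (nat_lit 0) (nat_lit 33160432040) (nat_lit 336) (nat_lit 5201150541) (nat_lit 84) (nat_lit 1152314955) (nat_lit 25) (nat_lit 5) (nat_lit 29) (nat_lit 5) (nat_lit 26) (nat_lit 5) (nat_lit 382) (nat_lit 321) (nat_lit 158)) (XT.lf (nat_lit 0) (nat_lit 5113979752) (nat_lit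 168) (nat_lit 32020319833) (nat_lit 252) (nat_lit 3343866639) (nat_lit 23) (nat_lit 5) (nat_lit 25) (nat_lit 5) (nat_lit 26) (nat_lit 5) (nat_lit 383) (nat_lit 321) (nat_lit 157)))))) (XT.nd (nat_lit 564) (nat_lit 168) (nat_lit 0) (XT.nd (nat_lit 282) (nat_lit 252) (nat_lit 0) (XT.nd (nat_lit 94) (nat_lit 84) (nat_lit 0) (XT.lf (nat_lit 0) (nat_lit 15854930531) (nat_lit 168) (nat_lit 25427641308) (nat_lit 252) (nat_lit 188179967) (nat_lit 23) (nat_lit 5) (nat_lit 25) (nat_lit 5) (nat_lit 26) (nat_lit 5) (nat_lit 384) (nat_lit 321) (nat_lit 156)) (XT.nd (nat_lit 94) (nat_lit 0) (nat_lit 0) (XT.lf (nat_lit 0) (nat_lit 3000549160) (nat_lit 252) (nat_lit 15599822546) (nat_lit 84) (nat_lit 23892898424) (nat_lit 22) (nat_lit 5) (nat_lit 25) (nat_lit 5) (nat_lit 23) (nat_lit 5) (nat_lit 385) (nat_lit 321) (nat_lit 155)) (XT.lf (nat_lit 0) (nat_lit 6281286679) (nat_lit 252) (nat_lit 5279284798)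 (nat_lit 84) (nat_lit 31986957467) (nat_lit 22) (nat_lit 5) (nat_lit 25) (nat_lit 5) (nat_lit 23) (nat_lit 5) (nat_lit 386) (nat_lit 321) (nat_lit 154)))) (XT.nd (nat_lit 94) (nat_lit 0) (nat_lit 0) (XT.lf (nat_lit 0) (nat_lit 5467435193) (nat_lit 252) (nat_lit 4247684429) (nat_lit 336) (nat_lit 34917767810) (nat_lit 19) (nat_lit 5) (nat_lit 22) (nat_lit 5) (nat_lit 23) (nat_lit 5) (nat_lit 387) (nat_lit 321) (nat_lit 153)) (XT.nd (nat_lit 94) (nat_lit 0) (nat_lit 0) (XT.lf (nat_lit 0) (nat_lit 13340917380) (nat_lit 336) (nat_lit 29128139929) (nat_lit 84) (nat_lit 3280194223) (nat_lit 19) (nat_lit 5) (nat_lit 23) (nat_lit 5) (nat_lit 20) (nat_lit 5) (nat_lit 388) (nat_lit 321) (nat_lit 152)) (XT.lf (nat_lit 0) (nat_lit 17119834552) (nat_lit 336) (nat_lit 18826953791) (nat_lit 84) (nat_lit 10952182444) (nat_lit 19) (nat_lit 5) (nat_lit 23) (nat_lit 5) (nat_lit 20) (nat_lit 5) (nat_lit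 389) (nat_lit 321) (nat_lit 151))))) (XT.nd (nat_lit 282) (nat_lit 0) (nat_lit 0) (XT.nd (nat_lit 94) (nat_lit 168) (nat_lit 0) (XT.lf (nat_lit 0) (nat_lit 21013255930) (nat_lit 336) (nat_lit 8210154487) (nat_lit 84) (nat_lit 18861012703) (nat_lit 19) (nat_lit 5) (nat_lit 23) (nat_lit 5) (nat_lit 20) (nat_lit 5) (nat_lit 390) (nat_lit 321) (nat_lit 150)) (XT.nd (nat_lit 94) (nat_lit 0) (nat_lit 0) (XT.lf (nat_lit 0) (nat_lit 2788332641) (nat_lit 168) (nat_lit 22264138556) (nat_lit 252) (nat_lit 24253384824) (nat_lit 17) (nat_lit 5) (nat_lit 19) (nat_lit 5) (nat_lit 20) (nat_lit 5) (nat_lit 391) (nat_lit 321) (nat_lit 149)) (XT.lf (nat_lit 0) (nat_lit 14298248753) (nat_lit 168) (nat_lit 15001829370) (nat_lit 252) (nat_lit 21262506049) (nat_lit 17) (nat_lit 5) (nat_lit 19) (nat_lit 5) (nat_lit 20) (nat_lit 5) (nat_lit 392) (nat_lit 321) (nat_lit 148)))) (XT.nd (nat_lit 94) (nat_lit 0)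 (nat_lit 0) (XT.lf (nat_lit 0) (nat_lit 26161504682) (nat_lit 168) (nat_lit 7515410801) (nat_lit 252) (nat_lit 18181440229) (nat_lit 17) (nat_lit 5) (nat_lit 19) (nat_lit 5) (nat_lit 20) (nat_lit 5) (nat_lit 393) (nat_lit 321) (nat_lit 147)) (XT.nd (nat_lit 94) (nat_lit 0) (nat_lit 0) (XT.lf (nat_lit 0) (nat_lit 38189067758) (nat_lit 252) (nat_lit 14807225021) (nat_lit 84) (nat_lit 198023506) (nat_lit 17) (nat_lit 5) (nat_lit 20) (nat_lit 5) (nat_lit 18) (nat_lit 5) (nat_lit 394) (nat_lit 321) (nat_lit 146)) (XT.lf (nat_lit 0) (nat_lit 42915651651) (nat_lit 252) (nat_lit 3660218022) (nat_lit 84) (nat_lit 7993519236) (nat_lit 17) (nat_lit 5) (nat_lit 20) (nat_lit 5) (nat_lit 18) (nat_lit 5) (nat_lit 395) (nat_lit 321) (nat_lit 145))))))))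
noncomputable def xc165 : XT := (XT.nd (nat_lit 47564) (nat_lit 0) (nat_lit 4872) (XT.nd (nat_lit 1128) (nat_lit 84) (nat_lit 0) (XT.nd (nat_lit 564) (nat_lit 168) (nat_lit 0) (XT.nd (nat_lit 282) (nat_lit 252) (nat_lit 0) (XT.nd (nat_lit 94) (nat_lit 0) (nat_lit 0) (XT.lf (nat_lit 0) (nat_lit 7990096587) (nat_lit 168) (nat_lit 39875685187) (nat_lit 252) (nat_lit 8118927546) (nat_lit 15) (nat_lit 5) (nat_lit 17) (nat_lit 5) (nat_lit 18) (nat_lit 5) (nat_lit 396) (nat_lit 321) (nat_lit 144)) (XT.nd (nat_lit 94) (nat_lit 0) (nat_lit 0) (XT.lf (nat_lit 0) (nat_lit 20075966128) (nat_lit 168) (nat_lit 32929399986) (nat_lit 252) (nat_lit 4437430516) (nat_lit 15) (nat_lit 5) (nat_lit 17) (nat_lit 5) (nat_lit 18) (nat_lit 5) (nat_lit 397) (nat_lit 321) (nat_lit 143)) (XT.lf (nat_lit 0) (nat_lit 32533394307) (nat_lit 168) (nat_lit 25768744574) (nat_lit 252) (nat_lit 644019798) (nat_lit 15)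 (nat_lit 5) (nat_lit 17) (nat_lit 5) (nat_lit 18) (nat_lit 5) (nat_lit 398) (nat_lit 321) (nat_lit 142)))) (XT.nd (nat_lit 94) (nat_lit 168) (nat_lit 0) (XT.lf (nat_lit 0) (nat_lit 3199061204) (nat_lit 252) (nat_lit 15154591630) (nat_lit 84) (nat_lit 42141539909) (nat_lit 14) (nat_lit 5) (nat_lit 17) (nat_lit 5) (nat_lit 15) (nat_lit 5) (nat_lit 399) (nat_lit 321) (nat_lit 141)) (XT.nd (nat_lit 94) (nat_lit 168) (nat_lit 0) (XT.lf (nat_lit 0) (nat_lit 7145860196) (nat_lit 252) (nat_lit 3556970840) (nat_lit 84) (nat_lit 51389281923) (nat_lit 14) (nat_lit 5) (nat_lit 17) (nat_lit 5) (nat_lit 15) (nat_lit 5) (nat_lit 400) (nat_lit 321) (nat_lit 140)) (XT.lf (nat_lit 0) (nat_lit 8569962598) (nat_lit 168) (nat_lit 2728084063) (nat_lit 252) (nat_lit 52437923747) (nat_lit 12) (nat_lit 5) (nat_lit 14) (nat_lit 5) (nat_lit 15) (nat_lit 5) (nat_lit 401) (nat_lit 321) (nat_lit 139))))) (XT.nd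 (nat_lit 282) (nat_lit 168) (nat_lit 0) (XT.nd (nat_lit 94) (nat_lit 0) (nat_lit 0) (XT.lf (nat_lit 0) (nat_lit 15669001954) (nat_lit 252) (nat_lit 44339187437) (nat_lit 84) (nat_lit 5419813104) (nat_lit 12) (nat_lit 5) (nat_lit 15) (nat_lit 5) (nat_lit 13) (nat_lit 5) (nat_lit 402) (nat_lit 321) (nat_lit 138)) (XT.nd (nat_lit 94) (nat_lit 0) (nat_lit 0) (XT.lf (nat_lit 0) (nat_lit 20201461430) (nat_lit 252) (nat_lit 33207458210) (nat_lit 84) (nat_lit 13762768233) (nat_lit 12) (nat_lit 5) (nat_lit 15) (nat_lit 5) (nat_lit 13) (nat_lit 5) (nat_lit 403) (nat_lit 321) (nat_lit 137)) (XT.lf (nat_lit 0) (nat_lit 24872586884) (nat_lit 252) (nat_lit 21733381261) (nat_lit 84) (nat_lit 22363522646) (nat_lit 12) (nat_lit 5) (nat_lit 15) (nat_lit 5) (nat_lit 13) (nat_lit 5) (nat_lit 404) (nat_lit 321) (nat_lit 136)))) (XT.nd (nat_lit 94) (nat_lit 168) (nat_lit 0) (XT.lf (nat_lit 0) (nat_lit 29686732295)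 (nat_lit 252) (nat_lit 9906261549) (nat_lit 84) (nat_lit 31230093147) (nat_lit 12) (nat_lit 5) (nat_lit 15) (nat_lit 5) (nat_lit 13) (nat_lit 5) (nat_lit 405) (nat_lit 321) (nat_lit 135)) (XT.nd (nat_lit 94) (nat_lit 0) (nat_lit 0) (XT.lf (nat_lit 0) (nat_lit 2331907785) (nat_lit 168) (nat_lit 32339609978) (nat_lit 252) (nat_lit 38061969336) (nat_lit 10) (nat_lit 5) (nat_lit 12) (nat_lit 5) (nat_lit 13) (nat_lit 5) (nat_lit 406) (nat_lit 321) (nat_lit 134)) (XT.lf (nat_lit 0) (nat_lit 15156920134) (nat_lit 168) (nat_lit 24755608019) (nat_lit 252) (nat_lit 34787434563) (nat_lit 10) (nat_lit 5) (nat_lit 12) (nat_lit 5) (nat_lit 13) (nat_lit 5) (nat_lit 407) (nat_lit 321) (nat_lit 133)))))) (XT.nd (nat_lit 564) (nat_lit 0) (nat_lit 0) (XT.nd (nat_lit 282) (nat_lit 84) (nat_lit 0) (XT.nd (nat_lit 94) (nat_lit 0) (nat_lit 0) (XT.lf (nat_lit 0) (nat_lit 28377036697) (nat_lit 168) (nat_lit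 16937319936) (nat_lit 252) (nat_lit 31413099222) (nat_lit 10) (nat_lit 5) (nat_lit 12) (nat_lit 5) (nat_lit 13) (nat_lit 5) (nat_lit 408) (nat_lit 321) (nat_lit 132)) (XT.nd (nat_lit 94) (nat_lit 0) (nat_lit 0) (XT.lf (nat_lit 0) (nat_lit 42004580008) (nat_lit 168) (nat_lit 8877458267) (nat_lit 252) (nat_lit 27935818079) (nat_lit 10) (nat_lit 5) (nat_lit 12) (nat_lit 5) (nat_lit 13) (nat_lit 5) (nat_lit 409) (nat_lit 321) (nat_lit 131)) (XT.lf (nat_lit 0) (nat_lit 56052252363) (nat_lit 168) (nat_lit 568510374) (nat_lit 252) (nat_lit 24352349942) (nat_lit 10) (nat_lit 5) (nat_lit 12) (nat_lit 5) (nat_lit 13) (nat_lit 5) (nat_lit 410) (nat_lit 321) (nat_lit 130)))) (XT.nd (nat_lit 94) (nat_lit 84) (nat_lit 0) (XT.lf (nat_lit 0) (nat_lit 62615213010) (nat_lit 252) (nat_lit 12741419990) (nat_lit 84) (nat_lit 7836141410) (nat_lit 10) (nat_lit 5) (nat_lit 13) (nat_lit 5) (nat_lit 11) (nat_lit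 4) (nat_lit 411) (nat_lit 321) (nat_lit 129)) (XT.nd (nat_lit 94) (nat_lit 84) (nat_lit 0) (XT.lf (nat_lit 0) (nat_lit 68799835399) (nat_lit 252) (nat_lit 192461701) (nat_lit 84) (nat_lit 16488818778) (nat_lit 10) (nat_lit 5) (nat_lit 13) (nat_lit 5) (nat_lit 11) (nat_lit 4) (nat_lit 412) (nat_lit 321) (nat_lit 128)) (XT.lf (nat_lit 0) (nat_lit 13005380621) (nat_lit 84) (nat_lit 62298389291) (nat_lit 168) (nat_lit 12532675510) (nat_lit 9) (nat_lit 5) (nat_lit 10) (nat_lit 5) (nat_lit 11) (nat_lit 4) (nat_lit 413) (nat_lit 321) (nat_lit 127))))) (XT.nd (nat_lit 45590) (nat_lit 0) (nat_lit 7140) (XT.nd (nat_lit 45402) (nat_lit 0) (nat_lit 8148) (XT.lf (nat_lit 0) (nat_lit 26614294934) (nat_lit 84) (nat_lit 55395635853) (nat_lit 168) (nat_lit 8254845261) (nat_lit 9) (nat_lit 5) (nat_lit 10) (nat_lit 5) (nat_lit 11) (nat_lit 4) (nat_lit 414) (nat_lit 321) (nat_lit 126)) (XT.nd (nat_lit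 94) (nat_lit 0) (nat_lit 0) (XT.lf (nat_lit 0) (nat_lit 2839915297) (nat_lit 0) (nat_lit 2839915297) (nat_lit 924) (nat_lit 515005487) (nat_lit 106) (nat_lit 5) (nat_lit 106) (nat_lit 3) (nat_lit 117) (nat_lit 3) (nat_lit 322) (nat_lit 322) (nat_lit 217)) (XT.lf (nat_lit 0) (nat_lit 10203792763) (nat_lit 0) (nat_lit 1689507499) (nat_lit 924) (nat_lit 675251047) (nat_lit 106) (nat_lit 5) (nat_lit 106) (nat_lit 3) (nat_lit 117) (nat_lit 3) (nat_lit 323) (nat_lit 322) (nat_lit 216)))) (XT.nd (nat_lit 94) (nat_lit 1008) (nat_lit 0) (XT.lf (nat_lit 84) (nat_lit 2125998780) (nat_lit 0) (nat_lit 10348288250) (nat_lit 1008) (nat_lit 277817393) (nat_lit 107) (nat_lit 5) (nat_lit 106) (nat_lit 5) (nat_lit 118) (nat_lit 5) (nat_lit 324) (nat_lit 322) (nat_lit 215)) (XT.nd (nat_lit 94) (nat_lit 0) (nat_lit 0) (XT.lf (nat_lit 0) (nat_lit 157288962) (nat_lit 1008) (nat_lit 6161419921) (nat_lit 1092)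 (nat_lit 6621808610) (nat_lit 94) (nat_lit 5) (nat_lit 106) (nat_lit 5) (nat_lit 107) (nat_lit 5) (nat_lit 325) (nat_lit 322) (nat_lit 214)) (XT.lf (nat_lit 0) (nat_lit 586334928) (nat_lit 1008) (nat_lit 1569024553) (nat_lit 1092) (nat_lit 10979827258) (nat_lit 94) (nat_lit 5) (nat_lit 106) (nat_lit 5) (nat_lit 107) (nat_lit 5) (nat_lit 326) (nat_lit 322) (nat_lit 213))))))) (XT.nd (nat_lit 1128) (nat_lit 2352) (nat_lit 0) (XT.nd (nat_lit 564) (nat_lit 0) (nat_lit 168) (XT.nd (nat_lit 282) (nat_lit 0) (nat_lit 84) (XT.nd (nat_lit 94) (nat_lit 0) (nat_lit 0) (XT.lf (nat_lit 0) (nat_lit 1068874761) (nat_lit 1008) (nat_lit 10133917322) (nat_lit 1092) (nat_lit 2131926697) (nat_lit 95) (nat_lit 5) (nat_lit 107) (nat_lit 5) (nat_lit 108) (nat_lit 5) (nat_lit 327) (nat_lit 322) (nat_lit 212)) (XT.nd (nat_lit 94) (nat_lit 0) (nat_lit 0) (XT.lf (nat_lit 0) (nat_lit 1591980510) (nat_lit 1008)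 (nat_lit 5418457181) (nat_lit 1092) (nat_lit 6529276623) (nat_lit 95) (nat_lit 5) (nat_lit 107) (nat_lit 5) (nat_lit 108) (nat_lit 5) (nat_lit 328) (nat_lit 322) (nat_lit 211)) (XT.lf (nat_lit 0) (nat_lit 2118710901) (nat_lit 1008) (nat_lit 564646463) (nat_lit 1092) (nat_lit 11068167346) (nat_lit 95) (nat_lit 5) (nat_lit 107) (nat_lit 5) (nat_lit 108) (nat_lit 5) (nat_lit 329) (nat_lit 322) (nat_lit 210)))) (XT.nd (nat_lit 94) (nat_lit 0) (nat_lit 0) (XT.lf (nat_lit 0) (nat_lit 2712568681) (nat_lit 1008) (nat_lit 9463926876) (nat_lit 1092) (nat_lit 1791898477) (nat_lit 96) (nat_lit 5) (nat_lit 108) (nat_lit 5) (nat_lit 109) (nat_lit 5) (nat_lit 330) (nat_lit 322) (nat_lit 209)) (XT.nd (nat_lit 94) (nat_lit 0) (nat_lit 0) (XT.lf (nat_lit 0) (nat_lit 3346357828) (nat_lit 1008) (nat_lit 4484609977) (nat_lit 1092) (nat_lit 6360416862) (nat_lit 96) (nat_lit 5) (nat_lit 108) (nat_lit 5)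 (nat_lit 109) (nat_lit 5) (nat_lit 331) (nat_lit 322) (nat_lit 208)) (XT.lf (nat_lit 84) (nat_lit 654497636) (nat_lit 0) (nat_lit 3340269919) (nat_lit 1092) (nat_lit 10426739853) (nat_lit 97) (nat_lit 5) (nat_lit 96) (nat_lit 5) (nat_lit 109) (nat_lit 5) (nat_lit 332) (nat_lit 322) (nat_lit 207))))) (XT.nd (nat_lit 282) (nat_lit 0) (nat_lit 84) (XT.nd (nat_lit 94) (nat_lit 0) (nat_lit 0) (XT.lf (nat_lit 0) (nat_lit 4712146342) (nat_lit 1008) (nat_lit 8630718116) (nat_lit 1092) (nat_lit 1314446230) (nat_lit 97) (nat_lit 5) (nat_lit 109) (nat_lit 5) (nat_lit 110) (nat_lit 5) (nat_lit 333) (nat_lit 322) (nat_lit 206)) (XT.nd (nat_lit 94) (nat_lit 0) (nat_lit 0) (XT.lf (nat_lit 0) (nat_lit 5475050238) (nat_lit 1008) (nat_lit 3377242403) (nat_lit 1092) (nat_lit 6047469151) (nat_lit 97) (nat_lit 5) (nat_lit 109) (nat_lit 5) (nat_lit 110) (nat_lit 5) (nat_lit 334) (nat_lit 322) (nat_lit 205))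 (XT.lf (nat_lit 84) (nat_lit 2073220825) (nat_lit 0) (nat_lit 4198400240) (nat_lit 1092) (nat_lit 8877855291) (nat_lit 98) (nat_lit 5) (nat_lit 97) (nat_lit 5) (nat_lit 110) (nat_lit 5) (nat_lit 335) (nat_lit 322) (nat_lit 204)))) (XT.nd (nat_lit 94) (nat_lit 0) (nat_lit 0) (XT.lf (nat_lit 0) (nat_lit 7124167034) (nat_lit 1008) (nat_lit 7655872022) (nat_lit 1092) (nat_lit 625979550) (nat_lit 98) (nat_lit 5) (nat_lit 110) (nat_lit 5) (nat_lit 111) (nat_lit 5) (nat_lit 336) (nat_lit 322) (nat_lit 203)) (XT.nd (nat_lit 94) (nat_lit 0) (nat_lit 0) (XT.lf (nat_lit 0) (nat_lit 8036110490) (nat_lit 1008) (nat_lit 2118123502) (nat_lit 1092) (nat_lit 5515312213) (nat_lit 98) (nat_lit 5) (nat_lit 110) (nat_lit 5) (nat_lit 111) (nat_lit 5) (nat_lit 337) (nat_lit 322) (nat_lit 202)) (XT.lf (nat_lit 84) (nat_lit 3657490726) (nat_lit 0) (nat_lit 5345444847) (nat_lit 1092) (nat_lit 6937535559) (nat_lit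 99) (nat_lit 5) (nat_lit 98) (nat_lit 5) (nat_lit 111) (nat_lit 5) (nat_lit 338) (nat_lit 322) (nat_lit 201)))))) (XT.nd (nat_lit 564) (nat_lit 1092) (nat_lit 0) (XT.nd (nat_lit 282) (nat_lit 588) (nat_lit 0) (XT.nd (nat_lit 94) (nat_lit 924) (nat_lit 0) (XT.lf (nat_lit 84) (nat_lit 9649633196) (nat_lit 0) (nat_lit 362753723) (nat_lit 1092) (nat_lit 6207066852) (nat_lit 99) (nat_lit 5) (nat_lit 98) (nat_lit 5) (nat_lit 111) (nat_lit 5) (nat_lit 339) (nat_lit 322) (nat_lit 200)) (XT.nd (nat_lit 94) (nat_lit 1008) (nat_lit 0) (XT.lf (nat_lit 0) (nat_lit 11091343574) (nat_lit 1008) (nat_lit 734464911) (nat_lit 84) (nat_lit 4680141594) (nat_lit 99) (nat_lit 5) (nat_lit 111) (nat_lit 5) (nat_lit 100) (nat_lit 5) (nat_lit 340) (nat_lit 322) (nat_lit 199)) (XT.lf (nat_lit 0) (nat_lit 5379131699) (nat_lit 1008) (nat_lit 6872812758) (nat_lit 1092) (nat_lit 4547937517) (nat_lit 87) (nat_lit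 5) (nat_lit 99) (nat_lit 5) (nat_lit 100) (nat_lit 5) (nat_lit 341) (nat_lit 322) (nat_lit 198)))) (XT.nd (nat_lit 94) (nat_lit 588) (nat_lit 0) (XT.lf (nat_lit 0) (nat_lit 11690571731) (nat_lit 1008) (nat_lit 1756938299) (nat_lit 1092) (nat_lit 3655494000) (nat_lit 87) (nat_lit 5) (nat_lit 99) (nat_lit 5) (nat_lit 100) (nat_lit 5) (nat_lit 342) (nat_lit 322) (nat_lit 197)) (XT.nd (nat_lit 94) (nat_lit 0) (nat_lit 0) (XT.lf (nat_lit 0) (nat_lit 755112441) (nat_lit 588) (nat_lit 13959005349) (nat_lit 672) (nat_lit 2700397143) (nat_lit 80) (nat_lit 5) (nat_lit 87) (nat_lit 5) (nat_lit 88) (nat_lit 5) (nat_lit 343) (nat_lit 322) (nat_lit 196)) (XT.lf (nat_lit 0) (nat_lit 7202976767) (nat_lit 588) (nat_lit 8883070823) (nat_lit 672) (nat_lit 1647631378) (nat_lit 80) (nat_lit 5) (nat_lit 87) (nat_lit 5) (nat_lit 88) (nat_lit 5) (nat_lit 344) (nat_lit 322) (nat_lit 195))))) (XT.nd (nat_lit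 282) (nat_lit 504) (nat_lit 0) (XT.nd (nat_lit 94) (nat_lit 588) (nat_lit 0) (XT.lf (nat_lit 0) (nat_lit 13843667476) (nat_lit 588) (nat_lit 3648862127) (nat_lit 672) (nat_lit 570497532) (nat_lit 80) (nat_lit 5) (nat_lit 87) (nat_lit 5) (nat_lit 88) (nat_lit 5) (nat_lit 345) (nat_lit 322) (nat_lit 194)) (XT.nd (nat_lit 94) (nat_lit 0) (nat_lit 0) (XT.lf (nat_lit 0) (nat_lit 561959177) (nat_lit 588) (nat_lit 16097609864) (nat_lit 84) (nat_lit 1741873020) (nat_lit 73) (nat_lit 5) (nat_lit 80) (nat_lit 5) (nat_lit 74) (nat_lit 5) (nat_lit 346) (nat_lit 322) (nat_lit 193)) (XT.lf (nat_lit 0) (nat_lit 1791799295) (nat_lit 588) (nat_lit 9681156056) (nat_lit 84) (nat_lit 7274952655) (nat_lit 73) (nat_lit 5) (nat_lit 80) (nat_lit 5) (nat_lit 74) (nat_lit 5) (nat_lit 347) (nat_lit 322) (nat_lit 192)))) (XT.nd (nat_lit 188) (nat_lit 0) (nat_lit 0) (XT.nd (nat_lit 94) (nat_lit 504) (nat_lit 0)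 (XT.lf (nat_lit 0) (nat_lit 3052312130) (nat_lit 588) (nat_lit 3072834019) (nat_lit 84) (nat_lit 12980237098) (nat_lit 73) (nat_lit 5) (nat_lit 80) (nat_lit 5) (nat_lit 74) (nat_lit 5) (nat_lit 348) (nat_lit 322) (nat_lit 191)) (XT.lf (nat_lit 0) (nat_lit 3810284637) (nat_lit 504) (nat_lit 572186468) (nat_lit 588) (nat_lit 15090558129) (nat_lit 67) (nat_lit 5) (nat_lit 73) (nat_lit 5) (nat_lit 74) (nat_lit 5) (nat_lit 349) (nat_lit 322) (nat_lit 190))) (XT.nd (nat_lit 94) (nat_lit 0) (nat_lit 0) (XT.lf (nat_lit 0) (nat_lit 5830309853) (nat_lit 588) (nat_lit 8937620216) (nat_lit 84) (nat_lit 5081807975) (nat_lit 67) (nat_lit 5) (nat_lit 74) (nat_lit 5) (nat_lit 68) (nat_lit 5) (nat_lit 350) (nat_lit 322) (nat_lit 189)) (XT.lf (nat_lit 0) (nat_lit 7322021609) (nat_lit 588) (nat_lit 2016677158) (nat_lit 84) (nat_lit 10899491887) (nat_lit 67) (nat_lit 5) (nat_lit 74) (nat_lit 5) (nat_lit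 68) (nat_lit 5) (nat_lit 351) (nat_lit 322) (nat_lit 188))))))))
noncomputable def xc166 : XT := (XT.nd (nat_lit 2256) (nat_lit 1428) (nat_lit 0) (XT.nd (nat_lit 1128) (nat_lit 1344) (nat_lit 0) (XT.nd (nat_lit 564) (nat_lit 840) (nat_lit 0) (XT.nd (nat_lit 282) (nat_lit 420) (nat_lit 0) (XT.nd (nat_lit 94) (nat_lit 0) (nat_lit 0) (XT.lf (nat_lit 0) (nat_lit 5217329338) (nat_lit 420) (nat_lit 3687747861) (nat_lit 504) (nat_lit 11732243452) (nat_lit 62) (nat_lit 5) (nat_lit 67) (nat_lit 5) (nat_lit 68) (nat_lit 5) (nat_lit 352) (nat_lit 322) (nat_lit 187)) (XT.nd (nat_lit 94) (nat_lit 0) (nat_lit 0) (XT.lf (nat_lit 0) (nat_lit 10573165138) (nat_lit 504) (nat_lit 8358027858) (nat_lit 84) (nat_lit 2116548469) (nat_lit 62) (nat_lit 5) (nat_lit 68) (nat_lit 5) (nat_lit 63) (nat_lit 5) (nat_lit 353) (nat_lit 322) (nat_lit 186)) (XT.lf (nat_lit 0) (nat_lit 12324356191) (nat_lit 504) (nat_lit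 1121427885) (nat_lit 84) (nat_lit 8024159581) (nat_lit 62) (nat_lit 5) (nat_lit 68) (nat_lit 5) (nat_lit 63) (nat_lit 5) (nat_lit 354) (nat_lit 322) (nat_lit 185)))) (XT.nd (nat_lit 94) (nat_lit 0) (nat_lit 0) (XT.lf (nat_lit 0) (nat_lit 6463359072) (nat_lit 420) (nat_lit 7724457986) (nat_lit 504) (nat_lit 7715650139) (nat_lit 57) (nat_lit 5) (nat_lit 62) (nat_lit 5) (nat_lit 63) (nat_lit 5) (nat_lit 355) (nat_lit 322) (nat_lit 184)) (XT.nd (nat_lit 94) (nat_lit 0) (nat_lit 0) (XT.lf (nat_lit 0) (nat_lit 14300742701) (nat_lit 420) (nat_lit 1813995387) (nat_lit 504) (nat_lit 6235545030) (nat_lit 57) (nat_lit 5) (nat_lit 62) (nat_lit 5) (nat_lit 63) (nat_lit 5) (nat_lit 356) (nat_lit 322) (nat_lit 183)) (XT.lf (nat_lit 0) (nat_lit 18138014176) (nat_lit 504) (nat_lit 478642703) (nat_lit 84) (nat_lit 4193186958) (nat_lit 57) (nat_lit 5) (nat_lit 63) (nat_lit 5) (nat_lit 58) (nat_lit 5)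 (nat_lit 357) (nat_lit 322) (nat_lit 182))))) (XT.nd (nat_lit 282) (nat_lit 420) (nat_lit 0) (XT.nd (nat_lit 94) (nat_lit 84) (nat_lit 0) (XT.lf (nat_lit 0) (nat_lit 7452417113) (nat_lit 336) (nat_lit 12858417384) (nat_lit 420) (nat_lit 2970152816) (nat_lit 53) (nat_lit 5) (nat_lit 57) (nat_lit 5) (nat_lit 58) (nat_lit 5) (nat_lit 358) (nat_lit 322) (nat_lit 181)) (XT.nd (nat_lit 94) (nat_lit 84) (nat_lit 0) (XT.lf (nat_lit 0) (nat_lit 15633416425) (nat_lit 336) (nat_lit 6917042678) (nat_lit 420) (nat_lit 1216321318) (nat_lit 53) (nat_lit 5) (nat_lit 57) (nat_lit 5) (nat_lit 58) (nat_lit 5) (nat_lit 359) (nat_lit 322) (nat_lit 180)) (XT.lf (nat_lit 0) (nat_lit 574490830) (nat_lit 420) (nat_lit 211503490) (nat_lit 84) (nat_lit 23481651570) (nat_lit 52) (nat_lit 5) (nat_lit 57) (nat_lit 5) (nat_lit 53) (nat_lit 5) (nat_lit 360) (nat_lit 322) (nat_lit 179)))) (XT.nd (nat_lit 94) (nat_lit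 0) (nat_lit 0) (XT.lf (nat_lit 0) (nat_lit 2526467830) (nat_lit 504) (nat_lit 16736338494) (nat_lit 84) (nat_lit 5516812511) (nat_lit 47) (nat_lit 5) (nat_lit 53) (nat_lit 5) (nat_lit 48) (nat_lit 5) (nat_lit 361) (nat_lit 322) (nat_lit 178)) (XT.nd (nat_lit 94) (nat_lit 0) (nat_lit 0) (XT.lf (nat_lit 0) (nat_lit 4544022508) (nat_lit 504) (nat_lit 8762974151) (nat_lit 84) (nat_lit 12000333155) (nat_lit 47) (nat_lit 5) (nat_lit 53) (nat_lit 5) (nat_lit 48) (nat_lit 5) (nat_lit 362) (nat_lit 322) (nat_lit 177)) (XT.lf (nat_lit 0) (nat_lit 6619075092) (nat_lit 504) (nat_lit 548220606) (nat_lit 84) (nat_lit 18684283780) (nat_lit 47) (nat_lit 5) (nat_lit 53) (nat_lit 5) (nat_lit 48) (nat_lit 5) (nat_lit 363) (nat_lit 322) (nat_lit 176)))))) (XT.nd (nat_lit 564) (nat_lit 672) (nat_lit 0) (XT.nd (nat_lit 282) (nat_lit 336) (nat_lit 0) (XT.nd (nat_lit 94) (nat_lit 0) (nat_lit 0) (XT.lf (nat_lit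 0) (nat_lit 8078339695) (nat_lit 336) (nat_lit 755358184) (nat_lit 420) (nat_lit 17576692964) (nat_lit 43) (nat_lit 5) (nat_lit 47) (nat_lit 5) (nat_lit 48) (nat_lit 5) (nat_lit 364) (nat_lit 322) (nat_lit 175)) (XT.nd (nat_lit 94) (nat_lit 0) (nat_lit 0) (XT.lf (nat_lit 0) (nat_lit 11176030641) (nat_lit 420) (nat_lit 10066264525) (nat_lit 84) (nat_lit 5742421273) (nat_lit 43) (nat_lit 5) (nat_lit 48) (nat_lit 5) (nat_lit 44) (nat_lit 5) (nat_lit 365) (nat_lit 322) (nat_lit 174)) (XT.lf (nat_lit 0) (nat_lit 13594035935) (nat_lit 420) (nat_lit 1557509730) (nat_lit 84) (nat_lit 12425226776) (nat_lit 43) (nat_lit 5) (nat_lit 48) (nat_lit 5) (nat_lit 44) (nat_lit 5) (nat_lit 366) (nat_lit 322) (nat_lit 173)))) (XT.nd (nat_lit 94) (nat_lit 0) (nat_lit 0) (XT.lf (nat_lit 0) (nat_lit 7357882468) (nat_lit 336) (nat_lit 8797582985) (nat_lit 420) (nat_lit 12029614820) (nat_lit 39) (nat_lit 5)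 (nat_lit 43) (nat_lit 5) (nat_lit 44) (nat_lit 5) (nat_lit 367) (nat_lit 322) (nat_lit 172)) (XT.nd (nat_lit 94) (nat_lit 0) (nat_lit 0) (XT.lf (nat_lit 0) (nat_lit 16577345739) (nat_lit 336) (nat_lit 2230768948) (nat_lit 420) (nat_lit 10003784608) (nat_lit 39) (nat_lit 5) (nat_lit 43) (nat_lit 5) (nat_lit 44) (nat_lit 5) (nat_lit 368) (nat_lit 322) (nat_lit 171)) (XT.lf (nat_lit 0) (nat_lit 21583712860) (nat_lit 420) (nat_lit 3425879656) (nat_lit 84) (nat_lit 4447314294) (nat_lit 39) (nat_lit 5) (nat_lit 44) (nat_lit 5) (nat_lit 40) (nat_lit 5) (nat_lit 369) (nat_lit 322) (nat_lit 170))))) (XT.nd (nat_lit 282) (nat_lit 420) (nat_lit 0) (XT.nd (nat_lit 94) (nat_lit 0) (nat_lit 0) (XT.lf (nat_lit 0) (nat_lit 5743619608) (nat_lit 252) (nat_lit 18777340957) (nat_lit 336) (nat_lit 5598623952) (nat_lit 36) (nat_lit 5) (nat_lit 39) (nat_lit 5) (nat_lit 40) (nat_lit 5) (nat_lit 370) (nat_lit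 322) (nat_lit 169)) (XT.nd (nat_lit 94) (nat_lit 0) (nat_lit 0) (XT.lf (nat_lit 0) (nat_lit 15264903187) (nat_lit 252) (nat_lit 12316007301) (nat_lit 336) (nat_lit 3220931852) (nat_lit 36) (nat_lit 5) (nat_lit 39) (nat_lit 5) (nat_lit 40) (nat_lit 5) (nat_lit 371) (nat_lit 322) (nat_lit 168)) (XT.lf (nat_lit 0) (nat_lit 25076402802) (nat_lit 252) (nat_lit 5655328067) (nat_lit 336) (nat_lit 773660548) (nat_lit 36) (nat_lit 5) (nat_lit 39) (nat_lit 5) (nat_lit 40) (nat_lit 5) (nat_lit 372) (nat_lit 322) (nat_lit 167)))) (XT.nd (nat_lit 94) (nat_lit 0) (nat_lit 0) (XT.lf (nat_lit 0) (nat_lit 1752552823) (nat_lit 420) (nat_lit 29242427993) (nat_lit 84) (nat_lit 1234060218) (nat_lit 31) (nat_lit 5) (nat_lit 36) (nat_lit 5) (nat_lit 32) (nat_lit 5) (nat_lit 373) (nat_lit 322) (nat_lit 166)) (XT.nd (nat_lit 94) (nat_lit 0) (nat_lit 0) (XT.lf (nat_lit 0) (nat_lit 4462776300) (nat_lit 420)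 (nat_lit 20214062383) (nat_lit 84) (nat_lit 8294281087) (nat_lit 31) (nat_lit 5) (nat_lit 36) (nat_lit 5) (nat_lit 32) (nat_lit 5) (nat_lit 374) (nat_lit 322) (nat_lit 165)) (XT.lf (nat_lit 0) (nat_lit 7253268646) (nat_lit 420) (nat_lit 10910636674) (nat_lit 84) (nat_lit 15572429422) (nat_lit 31) (nat_lit 5) (nat_lit 36) (nat_lit 5) (nat_lit 32) (nat_lit 5) (nat_lit 375) (nat_lit 322) (nat_lit 164))))))) (XT.nd (nat_lit 1128) (nat_lit 672) (nat_lit 0) (XT.nd (nat_lit 564) (nat_lit 252) (nat_lit 0) (XT.nd (nat_lit 282) (nat_lit 252) (nat_lit 0) (XT.nd (nat_lit 94) (nat_lit 252) (nat_lit 0) (XT.lf (nat_lit 0) (nat_lit 10126630892) (nat_lit 420) (nat_lit 1323479100) (nat_lit 84) (nat_lit 23075289221) (nat_lit 31) (nat_lit 5) (nat_lit 36) (nat_lit 5) (nat_lit 32) (nat_lit 5) (nat_lit 376) (nat_lit 322) (nat_lit 163)) (XT.nd (nat_lit 94) (nat_lit 0) (nat_lit 0) (XT.lf (nat_lit 0) (nat_lit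 8732282608) (nat_lit 252) (nat_lit 4439884029) (nat_lit 336) (nat_lit 22164196651) (nat_lit 28) (nat_lit 5) (nat_lit 31) (nat_lit 5) (nat_lit 32) (nat_lit 5) (nat_lit 377) (nat_lit 322) (nat_lit 162)) (XT.lf (nat_lit 0) (nat_lit 16350248903) (nat_lit 336) (nat_lit 17076603597) (nat_lit 84) (nat_lit 2744446807) (nat_lit 28) (nat_lit 5) (nat_lit 32) (nat_lit 5) (nat_lit 29) (nat_lit 5) (nat_lit 378) (nat_lit 322) (nat_lit 161)))) (XT.nd (nat_lit 94) (nat_lit 252) (nat_lit 0) (XT.lf (nat_lit 0) (nat_lit 19668891059) (nat_lit 336) (nat_lit 7303645374) (nat_lit 84) (nat_lit 10058292503) (nat_lit 28) (nat_lit 5) (nat_lit 32) (nat_lit 5) (nat_lit 29) (nat_lit 5) (nat_lit 379) (nat_lit 322) (nat_lit 160)) (XT.nd (nat_lit 94) (nat_lit 0) (nat_lit 0) (XT.lf (nat_lit 0) (nat_lit 2824862286) (nat_lit 252) (nat_lit 20290302926) (nat_lit 336) (nat_lit 14801084793) (nat_lit 25) (nat_lit 5) (nat_lit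 28) (nat_lit 5) (nat_lit 29) (nat_lit 5) (nat_lit 380) (nat_lit 322) (nat_lit 159)) (XT.lf (nat_lit 0) (nat_lit 13417903990) (nat_lit 252) (nat_lit 13323391859) (nat_lit 336) (nat_lit 12085572591) (nat_lit 25) (nat_lit 5) (nat_lit 28) (nat_lit 5) (nat_lit 29) (nat_lit 5) (nat_lit 381) (nat_lit 322) (nat_lit 158))))) (XT.nd (nat_lit 282) (nat_lit 84) (nat_lit 0) (XT.nd (nat_lit 94) (nat_lit 168) (nat_lit 0) (XT.lf (nat_lit 0) (nat_lit 24335175633) (nat_lit 252) (nat_lit 6141544421) (nat_lit 336) (nat_lit 9289105208) (nat_lit 25) (nat_lit 5) (nat_lit 28) (nat_lit 5) (nat_lit 29) (nat_lit 5) (nat_lit 382) (nat_lit 322) (nat_lit 157)) (XT.nd (nat_lit 94) (nat_lit 168) (nat_lit 0) (XT.lf (nat_lit 0) (nat_lit 34337438170) (nat_lit 336) (nat_lit 5159660959) (nat_lit 84) (nat_lit 1236508472) (nat_lit 25) (nat_lit 5) (nat_lit 29) (nat_lit 5) (nat_lit 26) (nat_lit 5) (nat_lit 383) (nat_lit 322)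 (nat_lit 156)) (XT.lf (nat_lit 0) (nat_lit 5473185962) (nat_lit 168) (nat_lit 32958819244) (nat_lit 252) (nat_lit 3295858677) (nat_lit 23) (nat_lit 5) (nat_lit 25) (nat_lit 5) (nat_lit 26) (nat_lit 5) (nat_lit 384) (nat_lit 322) (nat_lit 155)))) (XT.nd (nat_lit 94) (nat_lit 84) (nat_lit 0) (XT.lf (nat_lit 0) (nat_lit 16541072406) (nat_lit 168) (nat_lit 26163395276) (nat_lit 252) (nat_lit 46906050) (nat_lit 23) (nat_lit 5) (nat_lit 25) (nat_lit 5) (nat_lit 26) (nat_lit 5) (nat_lit 385) (nat_lit 322) (nat_lit 154)) (XT.nd (nat_lit 94) (nat_lit 0) (nat_lit 0) (XT.lf (nat_lit 0) (nat_lit 3233375697) (nat_lit 252) (nat_lit 15891223947) (nat_lit 84) (nat_lit 24681096080) (nat_lit 22) (nat_lit 5) (nat_lit 25) (nat_lit 5) (nat_lit 23) (nat_lit 5) (nat_lit 386) (nat_lit 322) (nat_lit 153)) (XT.lf (nat_lit 0) (nat_lit 6611612302) (nat_lit 252) (nat_lit 5256528370) (nat_lit 84) (nat_lit 33024642193)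 (nat_lit 22) (nat_lit 5) (nat_lit 25) (nat_lit 5) (nat_lit 23) (nat_lit 5) (nat_lit 387) (nat_lit 322) (nat_lit 152)))))) (XT.nd (nat_lit 564) (nat_lit 252) (nat_lit 0) (XT.nd (nat_lit 282) (nat_lit 168) (nat_lit 0) (XT.nd (nat_lit 94) (nat_lit 0) (nat_lit 0) (XT.lf (nat_lit 0) (nat_lit 5821452664) (nat_lit 252) (nat_lit 4328194554) (nat_lit 336) (nat_lit 35862225407) (nat_lit 19) (nat_lit 5) (nat_lit 22) (nat_lit 5) (nat_lit 23) (nat_lit 5) (nat_lit 388) (nat_lit 322) (nat_lit 151)) (XT.nd (nat_lit 94) (nat_lit 0) (nat_lit 0) (XT.lf (nat_lit 0) (nat_lit 13884327216) (nat_lit 336) (nat_lit 29848130982) (nat_lit 84) (nat_lit 3430509895) (nat_lit 19) (nat_lit 5) (nat_lit 23) (nat_lit 5) (nat_lit 20) (nat_lit 5) (nat_lit 389) (nat_lit 322) (nat_lit 150)) (XT.lf (nat_lit 0) (nat_lit 17776486763) (nat_lit 336) (nat_lit 19233109936) (nat_lit 84) (nat_lit 11338867559) (nat_lit 19) (nat_lit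 5) (nat_lit 23) (nat_lit 5) (nat_lit 20) (nat_lit 5) (nat_lit 390) (nat_lit 322) (nat_lit 149)))) (XT.nd (nat_lit 94) (nat_lit 168) (nat_lit 0) (XT.lf (nat_lit 0) (nat_lit 21786817533) (nat_lit 336) (nat_lit 8292526286) (nat_lit 84) (nat_lit 19491453330) (nat_lit 19) (nat_lit 5) (nat_lit 23) (nat_lit 5) (nat_lit 20) (nat_lit 5) (nat_lit 391) (nat_lit 322) (nat_lit 148)) (XT.nd (nat_lit 94) (nat_lit 0) (nat_lit 0) (XT.lf (nat_lit 0) (nat_lit 3045171149) (nat_lit 168) (nat_lit 22904094901) (nat_lit 252) (nat_lit 24880903598) (nat_lit 17) (nat_lit 5) (nat_lit 19) (nat_lit 5) (nat_lit 20) (nat_lit 5) (nat_lit 392) (nat_lit 322) (nat_lit 147)) (XT.lf (nat_lit 0) (nat_lit 14906771086) (nat_lit 168) (nat_lit 15418164499) (nat_lit 252) (nat_lit 21801046107) (nat_lit 17) (nat_lit 5) (nat_lit 19) (nat_lit 5) (nat_lit 20) (nat_lit 5) (nat_lit 393) (nat_lit 322) (nat_lit 146))))) (XT.nd (nat_lit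 282) (nat_lit 252) (nat_lit 0) (XT.nd (nat_lit 94) (nat_lit 0) (nat_lit 0) (XT.lf (nat_lit 0) (nat_lit 27132818428) (nat_lit 168) (nat_lit 7701131910) (nat_lit 252) (nat_lit 18628093363) (nat_lit 17) (nat_lit 5) (nat_lit 19) (nat_lit 5) (nat_lit 20) (nat_lit 5) (nat_lit 394) (nat_lit 322) (nat_lit 145)) (XT.nd (nat_lit 94) (nat_lit 0) (nat_lit 0) (XT.lf (nat_lit 0) (nat_lit 39483034840) (nat_lit 252) (nat_lit 15107413549) (nat_lit 84) (nat_lit 249074466) (nat_lit 17) (nat_lit 5) (nat_lit 20) (nat_lit 5) (nat_lit 18) (nat_lit 5) (nat_lit 395) (nat_lit 322) (nat_lit 144)) (XT.lf (nat_lit 0) (nat_lit 44352832179) (nat_lit 252) (nat_lit 3619625181) (nat_lit 84) (nat_lit 8284880147) (nat_lit 17) (nat_lit 5) (nat_lit 20) (nat_lit 5) (nat_lit 18) (nat_lit 5) (nat_lit 396) (nat_lit 322) (nat_lit 143)))) (XT.nd (nat_lit 188) (nat_lit 84) (nat_lit 0) (XT.nd (nat_lit 94) (nat_lit 0) (nat_lit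 0) (XT.lf (nat_lit 0) (nat_lit 8390289466) (nat_lit 168) (nat_lit 41064428576) (nat_lit 252) (nat_lit 8261879235) (nat_lit 15) (nat_lit 5) (nat_lit 17) (nat_lit 5) (nat_lit 18) (nat_lit 5) (nat_lit 397) (nat_lit 322) (nat_lit 142)) (XT.lf (nat_lit 0) (nat_lit 20846235612) (nat_lit 168) (nat_lit 33904233838) (nat_lit 252) (nat_lit 4469525232) (nat_lit 15) (nat_lit 5) (nat_lit 17) (nat_lit 5) (nat_lit 18) (nat_lit 5) (nat_lit 398) (nat_lit 322) (nat_lit 141))) (XT.nd (nat_lit 94) (nat_lit 84) (nat_lit 0) (XT.lf (nat_lit 0) (nat_lit 33685396586) (nat_lit 168) (nat_lit 26522980557) (nat_lit 252) (nat_lit 561689911) (nat_lit 15) (nat_lit 5) (nat_lit 17) (nat_lit 5) (nat_lit 18) (nat_lit 5) (nat_lit 399) (nat_lit 322) (nat_lit 140)) (XT.lf (nat_lit 0) (nat_lit 3395451785) (nat_lit 252) (nat_lit 15482895294) (nat_lit 84) (nat_lit 43488846491) (nat_lit 14) (nat_lit 5) (nat_lit 17) (nat_lit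 5) (nat_lit 15) (nat_lit 5) (nat_lit 400) (nat_lit 322) (nat_lit 139))))))))
noncomputable def xc167 : XT := (XT.nd (nat_lit 47658) (nat_lit 0) (nat_lit 4032) (XT.nd (nat_lit 1128) (nat_lit 84) (nat_lit 0) (XT.nd (nat_lit 564) (nat_lit 168) (nat_lit 0) (XT.nd (nat_lit 282) (nat_lit 0) (nat_lit 0) (XT.nd (nat_lit 94) (nat_lit 168) (nat_lit 0) (XT.lf (nat_lit 0) (nat_lit 7461678355) (nat_lit 252) (nat_lit 3530002526) (nat_lit 84) (nat_lit 53022038164) (nat_lit 14) (nat_lit 5) (nat_lit 17) (nat_lit 5) (nat_lit 15) (nat_lit 5) (nat_lit 401) (nat_lit 322) (nat_lit 138)) (XT.nd (nat_lit 94) (nat_lit 0) (nat_lit 0) (XT.lf (nat_lit 0) (nat_lit 8971476473) (nat_lit 168) (nat_lit 2769618429) (nat_lit 252) (nat_lit 53967497100) (nat_lit 12) (nat_lit 5) (nat_lit 14) (nat_lit 5) (nat_lit 15) (nat_lit 5) (nat_lit 402) (nat_lit 322) (nat_lit 137)) (XT.lf (nat_lit 0) (nat_lit 16245173333) (nat_lit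 252) (nat_lit 45579258408) (nat_lit 84) (nat_lit 5628728527) (nat_lit 12) (nat_lit 5) (nat_lit 15) (nat_lit 5) (nat_lit 13) (nat_lit 5) (nat_lit 403) (nat_lit 322) (nat_lit 136)))) (XT.nd (nat_lit 94) (nat_lit 0) (nat_lit 0) (XT.lf (nat_lit 0) (nat_lit 20915419943) (nat_lit 252) (nat_lit 34106488019) (nat_lit 84) (nat_lit 14229085452) (nat_lit 12) (nat_lit 5) (nat_lit 15) (nat_lit 5) (nat_lit 13) (nat_lit 5) (nat_lit 404) (nat_lit 322) (nat_lit 135)) (XT.nd (nat_lit 94) (nat_lit 0) (nat_lit 0) (XT.lf (nat_lit 0) (nat_lit 25728712934) (nat_lit 252) (nat_lit 22280635580) (nat_lit 84) (nat_lit 23095270416) (nat_lit 12) (nat_lit 5) (nat_lit 15) (nat_lit 5) (nat_lit 13) (nat_lit 5) (nat_lit 405) (nat_lit 322) (nat_lit 134)) (XT.lf (nat_lit 0) (nat_lit 30689538801) (nat_lit 252) (nat_lit 10090678159) (nat_lit 84) (nat_lit 32235547633) (nat_lit 12) (nat_lit 5) (nat_lit 15) (nat_lit 5) (nat_lit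 13) (nat_lit 5) (nat_lit 406) (nat_lit 322) (nat_lit 133))))) (XT.nd (nat_lit 282) (nat_lit 0) (nat_lit 0) (XT.nd (nat_lit 94) (nat_lit 0) (nat_lit 0) (XT.lf (nat_lit 0) (nat_lit 2525632425) (nat_lit 168) (nat_lit 33301943713) (nat_lit 252) (nat_lit 39157858959) (nat_lit 10) (nat_lit 5) (nat_lit 12) (nat_lit 5) (nat_lit 13) (nat_lit 5) (nat_lit 407) (nat_lit 322) (nat_lit 132)) (XT.nd (nat_lit 94) (nat_lit 0) (nat_lit 0) (XT.lf (nat_lit 0) (nat_lit 15744568847) (nat_lit 168) (nat_lit 25484046247) (nat_lit 252) (nat_lit 35784340257) (nat_lit 10) (nat_lit 5) (nat_lit 12) (nat_lit 5) (nat_lit 13) (nat_lit 5) (nat_lit 408) (nat_lit 322) (nat_lit 131)) (XT.lf (nat_lit 0) (nat_lit 29370967501) (nat_lit 168) (nat_lit 17424563450) (nat_lit 252) (nat_lit 32307851197) (nat_lit 10) (nat_lit 5) (nat_lit 12) (nat_lit 5) (nat_lit 13) (nat_lit 5) (nat_lit 409) (nat_lit 322) (nat_lit 130)))) (XT.nd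 (nat_lit 94) (nat_lit 0) (nat_lit 0) (XT.lf (nat_lit 0) (nat_lit 43417529617) (nat_lit 168) (nat_lit 9115983037) (nat_lit 252) (nat_lit 28725151328) (nat_lit 10) (nat_lit 5) (nat_lit 12) (nat_lit 5) (nat_lit 13) (nat_lit 5) (nat_lit 410) (nat_lit 322) (nat_lit 129)) (XT.nd (nat_lit 94) (nat_lit 0) (nat_lit 0) (XT.lf (nat_lit 0) (nat_lit 57897348064) (nat_lit 168) (nat_lit 550560544) (nat_lit 252) (nat_lit 25032901199) (nat_lit 10) (nat_lit 5) (nat_lit 12) (nat_lit 5) (nat_lit 13) (nat_lit 5) (nat_lit 411) (nat_lit 322) (nat_lit 128)) (XT.lf (nat_lit 0) (nat_lit 64626367174) (nat_lit 252) (nat_lit 13030106872) (nat_lit 84) (nat_lit 8112870642) (nat_lit 10) (nat_lit 5) (nat_lit 13) (nat_lit 5) (nat_lit 11) (nat_lit 4) (nat_lit 412) (nat_lit 322) (nat_lit 127)))))) (XT.nd (nat_lit 45966) (nat_lit 0) (nat_lit 7140) (XT.nd (nat_lit 45684) (nat_lit 0) (nat_lit 7056) (XT.nd (nat_lit 94) (nat_lit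 84) (nat_lit 0) (XT.lf (nat_lit 0) (nat_lit 71000605622) (nat_lit 252) (nat_lit 95327008) (nat_lit 84) (nat_lit 17032764447) (nat_lit 10) (nat_lit 5) (nat_lit 13) (nat_lit 5) (nat_lit 11) (nat_lit 4) (nat_lit 413) (nat_lit 322) (nat_lit 126)) (XT.nd (nat_lit 45496) (nat_lit 0) (nat_lit 8148) (XT.lf (nat_lit 0) (nat_lit 13510604621) (nat_lit 84) (nat_lit 64194526029) (nat_lit 168) (nat_lit 12851949962) (nat_lit 9) (nat_lit 5) (nat_lit 10) (nat_lit 5) (nat_lit 11) (nat_lit 4) (nat_lit 414) (nat_lit 322) (nat_lit 125)) (XT.lf (nat_lit 0) (nat_lit 3104961292) (nat_lit 0) (nat_lit 3104961292) (nat_lit 924) (nat_lit 163923199) (nat_lit 106) (nat_lit 5) (nat_lit 106) (nat_lit 3) (nat_lit 117) (nat_lit 3) (nat_lit 323) (nat_lit 323) (nat_lit 215)))) (XT.nd (nat_lit 94) (nat_lit 0) (nat_lit 84) (XT.lf (nat_lit 0) (nat_lit 15519287) (nat_lit 1092) (nat_lit 2069573643) (nat_lit 1092) (nat_lit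 10847801750) (nat_lit 93) (nat_lit 3) (nat_lit 106) (nat_lit 3) (nat_lit 106) (nat_lit 5) (nat_lit 324) (nat_lit 323) (nat_lit 214)) (XT.nd (nat_lit 94) (nat_lit 0) (nat_lit 0) (XT.lf (nat_lit 0) (nat_lit 396393256) (nat_lit 1008) (nat_lit 10566711274) (nat_lit 1092) (nat_lit 2159663058) (nat_lit 94) (nat_lit 5) (nat_lit 106) (nat_lit 5) (nat_lit 107) (nat_lit 5) (nat_lit 325) (nat_lit 323) (nat_lit 213)) (XT.lf (nat_lit 0) (nat_lit 818859458) (nat_lit 1008) (nat_lit 5978066785) (nat_lit 1092) (nat_lit 6520751022) (nat_lit 94) (nat_lit 5) (nat_lit 106) (nat_lit 5) (nat_lit 107) (nat_lit 5) (nat_lit 326) (nat_lit 323) (nat_lit 212))))) (XT.nd (nat_lit 282) (nat_lit 0) (nat_lit 84) (XT.nd (nat_lit 94) (nat_lit 0) (nat_lit 84) (XT.lf (nat_lit 0) (nat_lit 1241460426) (nat_lit 1008) (nat_lit 1254563292) (nat_lit 1092) (nat_lit 11023079056) (nat_lit 94) (nat_lit 5) (nat_lit 106) (nat_lit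 5) (nat_lit 107) (nat_lit 5) (nat_lit 327) (nat_lit 323) (nat_lit 211)) (XT.nd (nat_lit 94) (nat_lit 0) (nat_lit 0) (XT.lf (nat_lit 0) (nat_lit 1720774357) (nat_lit 1008) (nat_lit 10063359890) (nat_lit 1092) (nat_lit 1941355905) (nat_lit 95) (nat_lit 5) (nat_lit 107) (nat_lit 5) (nat_lit 108) (nat_lit 5) (nat_lit 328) (nat_lit 323) (nat_lit 210)) (XT.lf (nat_lit 0) (nat_lit 2241491439) (nat_lit 1008) (nat_lit 5213287870) (nat_lit 1092) (nat_lit 6482740920) (nat_lit 95) (nat_lit 5) (nat_lit 107) (nat_lit 5) (nat_lit 108) (nat_lit 5) (nat_lit 329) (nat_lit 323) (nat_lit 209)))) (XT.nd (nat_lit 94) (nat_lit 0) (nat_lit 84) (XT.lf (nat_lit 0) (nat_lit 2766504939) (nat_lit 1008) (nat_lit 220228599) (nat_lit 1092) (nat_lit 11169822456) (nat_lit 95) (nat_lit 5) (nat_lit 107) (nat_lit 5) (nat_lit 108) (nat_lit 5) (nat_lit 330) (nat_lit 323) (nat_lit 208)) (XT.nd (nat_lit 94) (nat_lit 0) (nat_lit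 0) (XT.lf (nat_lit 0) (nat_lit 3362741022) (nat_lit 1008) (nat_lit 9376231801) (nat_lit 1092) (nat_lit 1641769245) (nat_lit 96) (nat_lit 5) (nat_lit 108) (nat_lit 5) (nat_lit 109) (nat_lit 5) (nat_lit 331) (nat_lit 323) (nat_lit 207)) (XT.lf (nat_lit 0) (nat_lit 3999156717) (nat_lit 1008) (nat_lit 4254014256) (nat_lit 1092) (nat_lit 6358096007) (nat_lit 96) (nat_lit 5) (nat_lit 108) (nat_lit 5) (nat_lit 109) (nat_lit 5) (nat_lit 332) (nat_lit 323) (nat_lit 206))))))) (XT.nd (nat_lit 1128) (nat_lit 1932) (nat_lit 0) (XT.nd (nat_lit 564) (nat_lit 1344) (nat_lit 0) (XT.nd (nat_lit 282) (nat_lit 0) (nat_lit 84) (XT.nd (nat_lit 94) (nat_lit 0) (nat_lit 84) (XT.lf (nat_lit 84) (nat_lit 1040663637) (nat_lit 0) (nat_lit 3614123917) (nat_lit 1092) (nat_lit 10194226336) (nat_lit 97) (nat_lit 5) (nat_lit 96) (nat_lit 5) (nat_lit 109) (nat_lit 5) (nat_lit 333) (nat_lit 323) (nat_lit 205)) (XT.nd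 (nat_lit 94) (nat_lit 0) (nat_lit 0) (XT.lf (nat_lit 0) (nat_lit 5376644558) (nat_lit 1008) (nat_lit 8522784175) (nat_lit 1092) (nat_lit 1193337272) (nat_lit 97) (nat_lit 5) (nat_lit 109) (nat_lit 5) (nat_lit 110) (nat_lit 5) (nat_lit 334) (nat_lit 323) (nat_lit 204)) (XT.lf (nat_lit 0) (nat_lit 6147610626) (nat_lit 1008) (nat_lit 3117740795) (nat_lit 1092) (nat_lit 6077950596) (nat_lit 97) (nat_lit 5) (nat_lit 109) (nat_lit 5) (nat_lit 110) (nat_lit 5) (nat_lit 335) (nat_lit 323) (nat_lit 203)))) (XT.nd (nat_lit 94) (nat_lit 0) (nat_lit 84) (XT.lf (nat_lit 84) (nat_lit 2497999634) (nat_lit 0) (nat_lit 4459332654) (nat_lit 1092) (nat_lit 8643866398) (nat_lit 98) (nat_lit 5) (nat_lit 97) (nat_lit 5) (nat_lit 110) (nat_lit 5) (nat_lit 336) (nat_lit 323) (nat_lit 202)) (XT.nd (nat_lit 94) (nat_lit 0) (nat_lit 0) (XT.lf (nat_lit 0) (nat_lit 7820276732) (nat_lit 1008) (nat_lit 7524903594)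 (nat_lit 1092) (nat_lit 521090988) (nat_lit 98) (nat_lit 5) (nat_lit 110) (nat_lit 5) (nat_lit 111) (nat_lit 5) (nat_lit 337) (nat_lit 323) (nat_lit 201)) (XT.lf (nat_lit 0) (nat_lit 8746200352) (nat_lit 1008) (nat_lit 1826558890) (nat_lit 1092) (nat_lit 5565730220) (nat_lit 98) (nat_lit 5) (nat_lit 110) (nat_lit 5) (nat_lit 111) (nat_lit 5) (nat_lit 338) (nat_lit 323) (nat_lit 200))))) (XT.nd (nat_lit 282) (nat_lit 1512) (nat_lit 0) (XT.nd (nat_lit 94) (nat_lit 0) (nat_lit 0) (XT.lf (nat_lit 84) (nat_lit 4124482782) (nat_lit 0) (nat_lit 5608161673) (nat_lit 1092) (nat_lit 6685565385) (nat_lit 99) (nat_lit 5) (nat_lit 98) (nat_lit 5) (nat_lit 111) (nat_lit 5) (nat_lit 339) (nat_lit 323) (nat_lit 199)) (XT.nd (nat_lit 94) (nat_lit 0) (nat_lit 84) (XT.lf (nat_lit 84) (nat_lit 10291749365) (nat_lit 0) (nat_lit 468090296) (nat_lit 1092) (nat_lit 5946494871) (nat_lit 99) (nat_lit 5) (nat_lit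 98) (nat_lit 5) (nat_lit 111) (nat_lit 5) (nat_lit 340) (nat_lit 323) (nat_lit 198)) (XT.lf (nat_lit 0) (nat_lit 11858196905) (nat_lit 1008) (nat_lit 408219509) (nat_lit 84) (nat_lit 4735802628) (nat_lit 99) (nat_lit 5) (nat_lit 111) (nat_lit 5) (nat_lit 100) (nat_lit 5) (nat_lit 341) (nat_lit 323) (nat_lit 197)))) (XT.nd (nat_lit 94) (nat_lit 588) (nat_lit 0) (XT.lf (nat_lit 0) (nat_lit 5891365144) (nat_lit 1008) (nat_lit 7154119106) (nat_lit 1092) (nat_lit 4260135842) (nat_lit 87) (nat_lit 5) (nat_lit 99) (nat_lit 5) (nat_lit 100) (nat_lit 5) (nat_lit 342) (nat_lit 323) (nat_lit 196)) (XT.nd (nat_lit 94) (nat_lit 588) (nat_lit 0) (XT.lf (nat_lit 0) (nat_lit 12388071950) (nat_lit 1008) (nat_lit 1877600431) (nat_lit 1092) (nat_lit 3352919321) (nat_lit 87) (nat_lit 5) (nat_lit 99) (nat_lit 5) (nat_lit 100) (nat_lit 5) (nat_lit 343) (nat_lit 323) (nat_lit 195)) (XT.lf (nat_lit 0) (nat_lit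 1125328532) (nat_lit 588) (nat_lit 14436953954) (nat_lit 672) (nat_lit 2377829205) (nat_lit 80) (nat_lit 5) (nat_lit 87) (nat_lit 5) (nat_lit 88) (nat_lit 5) (nat_lit 344) (nat_lit 323) (nat_lit 194)))))) (XT.nd (nat_lit 564) (nat_lit 840) (nat_lit 0) (XT.nd (nat_lit 282) (nat_lit 504) (nat_lit 0) (XT.nd (nat_lit 94) (nat_lit 588) (nat_lit 0) (XT.lf (nat_lit 0) (nat_lit 7762648877) (nat_lit 588) (nat_lit 9202305804) (nat_lit 672) (nat_lit 1304643693) (nat_lit 80) (nat_lit 5) (nat_lit 87) (nat_lit 5) (nat_lit 88) (nat_lit 5) (nat_lit 345) (nat_lit 323) (nat_lit 193)) (XT.nd (nat_lit 94) (nat_lit 588) (nat_lit 0) (XT.lf (nat_lit 0) (nat_lit 14599086765) (nat_lit 588) (nat_lit 3804517868) (nat_lit 672) (nat_lit 205967380) (nat_lit 80) (nat_lit 5) (nat_lit 87) (nat_lit 5) (nat_lit 88) (nat_lit 5) (nat_lit 346) (nat_lit 323) (nat_lit 192)) (XT.lf (nat_lit 0) (nat_lit 945594113) (nat_lit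 588) (nat_lit 16250593336) (nat_lit 84) (nat_lit 1762487756) (nat_lit 73) (nat_lit 5) (nat_lit 80) (nat_lit 5) (nat_lit 74) (nat_lit 5) (nat_lit 347) (nat_lit 323) (nat_lit 191)))) (XT.nd (nat_lit 94) (nat_lit 504) (nat_lit 0) (XT.lf (nat_lit 0) (nat_lit 2202547985) (nat_lit 588) (nat_lit 9645634227) (nat_lit 84) (nat_lit 7468096627) (nat_lit 73) (nat_lit 5) (nat_lit 80) (nat_lit 5) (nat_lit 74) (nat_lit 5) (nat_lit 348) (nat_lit 323) (nat_lit 190)) (XT.nd (nat_lit 94) (nat_lit 504) (nat_lit 0) (XT.lf (nat_lit 0) (nat_lit 3491456514) (nat_lit 588) (nat_lit 2842546126) (nat_lit 84) (nat_lit 13351218472) (nat_lit 73) (nat_lit 5) (nat_lit 80) (nat_lit 5) (nat_lit 74) (nat_lit 5) (nat_lit 349) (nat_lit 323) (nat_lit 189)) (XT.lf (nat_lit 0) (nat_lit 4250653350) (nat_lit 504) (nat_lit 605034753) (nat_lit 588) (nat_lit 15208850636) (nat_lit 67) (nat_lit 5) (nat_lit 73) (nat_lit 5) (nat_lit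 74) (nat_lit 5) (nat_lit 350) (nat_lit 323) (nat_lit 188))))) (XT.nd (nat_lit 282) (nat_lit 420) (nat_lit 0) (XT.nd (nat_lit 94) (nat_lit 420) (nat_lit 0) (XT.lf (nat_lit 0) (nat_lit 6338120744) (nat_lit 588) (nat_lit 8890191595) (nat_lit 84) (nat_lit 5224983148) (nat_lit 67) (nat_lit 5) (nat_lit 74) (nat_lit 5) (nat_lit 68) (nat_lit 5) (nat_lit 351) (nat_lit 323) (nat_lit 187)) (XT.nd (nat_lit 94) (nat_lit 420) (nat_lit 0) (XT.lf (nat_lit 0) (nat_lit 7866241220) (nat_lit 588) (nat_lit 1764456179) (nat_lit 84) (nat_lit 11223447062) (nat_lit 67) (nat_lit 5) (nat_lit 74) (nat_lit 5) (nat_lit 68) (nat_lit 5) (nat_lit 352) (nat_lit 323) (nat_lit 186)) (XT.lf (nat_lit 0) (nat_lit 5690618079) (nat_lit 420) (nat_lit 3801305437) (nat_lit 504) (nat_lit 11773971842) (nat_lit 62) (nat_lit 5) (nat_lit 67) (nat_lit 5) (nat_lit 68) (nat_lit 5) (nat_lit 353) (nat_lit 323) (nat_lit 185)))) (XT.nd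 (nat_lit 188) (nat_lit 420) (nat_lit 0) (XT.nd (nat_lit 94) (nat_lit 0) (nat_lit 0) (XT.lf (nat_lit 0) (nat_lit 11202384750) (nat_lit 504) (nat_lit 8304104220) (nat_lit 84) (nat_lit 2182886246) (nat_lit 62) (nat_lit 5) (nat_lit 68) (nat_lit 5) (nat_lit 63) (nat_lit 5) (nat_lit 354) (nat_lit 323) (nat_lit 184)) (XT.lf (nat_lit 0) (nat_lit 12998798713) (nat_lit 504) (nat_lit 852581575) (nat_lit 84) (nat_lit 8273611511) (nat_lit 62) (nat_lit 5) (nat_lit 68) (nat_lit 5) (nat_lit 63) (nat_lit 5) (nat_lit 355) (nat_lit 323) (nat_lit 183))) (XT.nd (nat_lit 94) (nat_lit 0) (nat_lit 0) (XT.lf (nat_lit 0) (nat_lit 6964259994) (nat_lit 420) (nat_lit 7949956760) (nat_lit 504) (nat_lit 7657961711) (nat_lit 57) (nat_lit 5) (nat_lit 62) (nat_lit 5) (nat_lit 63) (nat_lit 5) (nat_lit 356) (nat_lit 323) (nat_lit 182)) (XT.lf (nat_lit 0) (nat_lit 15035566006) (nat_lit 420) (nat_lit 1856689551) (nat_lit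 504) (nat_lit 6140899707) (nat_lit 57) (nat_lit 5) (nat_lit 62) (nat_lit 5) (nat_lit 63) (nat_lit 5) (nat_lit 357) (nat_lit 323) (nat_lit 181))))))))
noncomputable def xc168 : XT := (XT.nd (nat_lit 2256) (nat_lit 1092) (nat_lit 0) (XT.nd (nat_lit 1128) (nat_lit 1176) (nat_lit 0) (XT.nd (nat_lit 564) (nat_lit 672) (nat_lit 0) (XT.nd (nat_lit 282) (nat_lit 504) (nat_lit 0) (XT.nd (nat_lit 94) (nat_lit 336) (nat_lit 0) (XT.lf (nat_lit 0) (nat_lit 18970025791) (nat_lit 504) (nat_lit 201189069) (nat_lit 84) (nat_lit 4336043744) (nat_lit 57) (nat_lit 5) (nat_lit 63) (nat_lit 5) (nat_lit 58) (nat_lit 5) (nat_lit 358) (nat_lit 323) (nat_lit 180)) (XT.nd (nat_lit 94) (nat_lit 0) (nat_lit 0) (XT.lf (nat_lit 0) (nat_lit 7972774412) (nat_lit 336) (nat_lit 13232189033) (nat_lit 420) (nat_lit 2788246475) (nat_lit 53) (nat_lit 5) (nat_lit 57) (nat_lit 5) (nat_lit 58) (nat_lit 5) (nat_lit 359) (nat_lit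 323) (nat_lit 179)) (XT.lf (nat_lit 0) (nat_lit 16398685088) (nat_lit 336) (nat_lit 7107378577) (nat_lit 420) (nat_lit 988284235) (nat_lit 53) (nat_lit 5) (nat_lit 57) (nat_lit 5) (nat_lit 58) (nat_lit 5) (nat_lit 360) (nat_lit 323) (nat_lit 178)))) (XT.nd (nat_lit 94) (nat_lit 0) (nat_lit 0) (XT.lf (nat_lit 0) (nat_lit 61747767) (nat_lit 420) (nat_lit 783724390) (nat_lit 504) (nat_lit 24165446492) (nat_lit 47) (nat_lit 5) (nat_lit 52) (nat_lit 5) (nat_lit 53) (nat_lit 5) (nat_lit 361) (nat_lit 323) (nat_lit 177)) (XT.nd (nat_lit 94) (nat_lit 0) (nat_lit 0) (XT.lf (nat_lit 0) (nat_lit 2852767561) (nat_lit 504) (nat_lit 16970880293) (nat_lit 84) (nat_lit 5715311240) (nat_lit 47) (nat_lit 5) (nat_lit 53) (nat_lit 5) (nat_lit 48) (nat_lit 5) (nat_lit 362) (nat_lit 323) (nat_lit 176)) (XT.lf (nat_lit 0) (nat_lit 4925410220) (nat_lit 504) (nat_lit 8758889497) (nat_lit 84) (nat_lit 12398994832)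 (nat_lit 47) (nat_lit 5) (nat_lit 53) (nat_lit 5) (nat_lit 48) (nat_lit 5) (nat_lit 363) (nat_lit 323) (nat_lit 175))))) (XT.nd (nat_lit 282) (nat_lit 336) (nat_lit 0) (XT.nd (nat_lit 94) (nat_lit 336) (nat_lit 0) (XT.lf (nat_lit 0) (nat_lit 7057557414) (nat_lit 504) (nat_lit 297769419) (nat_lit 84) (nat_lit 19289346577) (nat_lit 47) (nat_lit 5) (nat_lit 53) (nat_lit 5) (nat_lit 48) (nat_lit 5) (nat_lit 364) (nat_lit 323) (nat_lit 174)) (XT.nd (nat_lit 94) (nat_lit 0) (nat_lit 0) (XT.lf (nat_lit 0) (nat_lit 8593506600) (nat_lit 336) (nat_lit 742938575) (nat_lit 420) (nat_lit 17884531053) (nat_lit 43) (nat_lit 5) (nat_lit 47) (nat_lit 5) (nat_lit 48) (nat_lit 5) (nat_lit 365) (nat_lit 323) (nat_lit 173)) (XT.lf (nat_lit 0) (nat_lit 11744852438) (nat_lit 420) (nat_lit 10113993205) (nat_lit 84) (nat_lit 5954494240) (nat_lit 43) (nat_lit 5) (nat_lit 48) (nat_lit 5) (nat_lit 44) (nat_lit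 5) (nat_lit 366) (nat_lit 323) (nat_lit 172)))) (XT.nd (nat_lit 94) (nat_lit 336) (nat_lit 0) (XT.lf (nat_lit 0) (nat_lit 14231129853) (nat_lit 420) (nat_lit 1349414723) (nat_lit 84) (nat_lit 12843442664) (nat_lit 43) (nat_lit 5) (nat_lit 48) (nat_lit 5) (nat_lit 44) (nat_lit 5) (nat_lit 367) (nat_lit 323) (nat_lit 171)) (XT.nd (nat_lit 94) (nat_lit 0) (nat_lit 0) (XT.lf (nat_lit 0) (nat_lit 7839759037) (nat_lit 336) (nat_lit 9028237192) (nat_lit 420) (nat_lit 12183308817) (nat_lit 39) (nat_lit 5) (nat_lit 43) (nat_lit 5) (nat_lit 44) (nat_lit 5) (nat_lit 368) (nat_lit 323) (nat_lit 170)) (XT.lf (nat_lit 0) (nat_lit 17337394973) (nat_lit 336) (nat_lit 2259116902) (nat_lit 420) (nat_lit 10101269474) (nat_lit 39) (nat_lit 5) (nat_lit 43) (nat_lit 5) (nat_lit 44) (nat_lit 5) (nat_lit 369) (nat_lit 323) (nat_lit 169)))))) (XT.nd (nat_lit 564) (nat_lit 504) (nat_lit 0) (XT.nd (nat_lit 282)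 (nat_lit 420) (nat_lit 0) (XT.nd (nat_lit 94) (nat_lit 252) (nat_lit 0) (XT.lf (nat_lit 0) (nat_lit 22452371909) (nat_lit 420) (nat_lit 3286656571) (nat_lit 84) (nat_lit 4623962546) (nat_lit 39) (nat_lit 5) (nat_lit 44) (nat_lit 5) (nat_lit 40) (nat_lit 5) (nat_lit 370) (nat_lit 323) (nat_lit 168)) (XT.nd (nat_lit 94) (nat_lit 0) (nat_lit 0) (XT.lf (nat_lit 0) (nat_lit 6164612459) (nat_lit 252) (nat_lit 19312471367) (nat_lit 336) (nat_lit 5569266084) (nat_lit 36) (nat_lit 5) (nat_lit 39) (nat_lit 5) (nat_lit 40) (nat_lit 5) (nat_lit 371) (nat_lit 323) (nat_lit 167)) (XT.lf (nat_lit 0) (nat_lit 15973751115) (nat_lit 252) (nat_lit 12652248571) (nat_lit 336) (nat_lit 3123966761) (nat_lit 36) (nat_lit 5) (nat_lit 39) (nat_lit 5) (nat_lit 40) (nat_lit 5) (nat_lit 372) (nat_lit 323) (nat_lit 166)))) (XT.nd (nat_lit 94) (nat_lit 420) (nat_lit 0) (XT.lf (nat_lit 0) (nat_lit 26082322142) (nat_lit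 252) (nat_lit 5786458023) (nat_lit 336) (nat_lit 606747830) (nat_lit 36) (nat_lit 5) (nat_lit 39) (nat_lit 5) (nat_lit 40) (nat_lit 5) (nat_lit 373) (nat_lit 323) (nat_lit 165)) (XT.nd (nat_lit 94) (nat_lit 0) (nat_lit 0) (XT.lf (nat_lit 0) (nat_lit 1991065001) (nat_lit 420) (nat_lit 29912121607) (nat_lit 84) (nat_lit 1318478088) (nat_lit 31) (nat_lit 5) (nat_lit 36) (nat_lit 5) (nat_lit 32) (nat_lit 5) (nat_lit 374) (nat_lit 323) (nat_lit 164)) (XT.lf (nat_lit 0) (nat_lit 4779767410) (nat_lit 420) (nat_lit 20610997391) (nat_lit 84) (nat_lit 8596177809) (nat_lit 31) (nat_lit 5) (nat_lit 36) (nat_lit 5) (nat_lit 32) (nat_lit 5) (nat_lit 375) (nat_lit 323) (nat_lit 163))))) (XT.nd (nat_lit 282) (nat_lit 252) (nat_lit 0) (XT.nd (nat_lit 94) (nat_lit 252) (nat_lit 0) (XT.lf (nat_lit 0) (nat_lit 7651393539) (nat_lit 420) (nat_lit 11026072109) (nat_lit 84) (nat_lit 16098602483) (nat_lit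 31) (nat_lit 5) (nat_lit 36) (nat_lit 5) (nat_lit 32) (nat_lit 5) (nat_lit 376) (nat_lit 323) (nat_lit 162)) (XT.nd (nat_lit 94) (nat_lit 252) (nat_lit 0) (XT.lf (nat_lit 0) (nat_lit 10608620043) (nat_lit 420) (nat_lit 1148411606) (nat_lit 84) (nat_lit 23832745154) (nat_lit 31) (nat_lit 5) (nat_lit 36) (nat_lit 5) (nat_lit 32) (nat_lit 5) (nat_lit 377) (nat_lit 323) (nat_lit 161)) (XT.lf (nat_lit 0) (nat_lit 9216890944) (nat_lit 252) (nat_lit 4528745123) (nat_lit 336) (nat_lit 22680356610) (nat_lit 28) (nat_lit 5) (nat_lit 31) (nat_lit 5) (nat_lit 32) (nat_lit 5) (nat_lit 378) (nat_lit 323) (nat_lit 160)))) (XT.nd (nat_lit 94) (nat_lit 252) (nat_lit 0) (XT.lf (nat_lit 0) (nat_lit 17017743012) (nat_lit 336) (nat_lit 17393348250) (nat_lit 84) (nat_lit 2875880233) (nat_lit 28) (nat_lit 5) (nat_lit 32) (nat_lit 5) (nat_lit 29) (nat_lit 5) (nat_lit 379) (nat_lit 323) (nat_lit 159)) (XT.nd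 (nat_lit 94) (nat_lit 252) (nat_lit 0) (XT.lf (nat_lit 0) (nat_lit 20434433077) (nat_lit 336) (nat_lit 7323821660) (nat_lit 84) (nat_lit 10415061331) (nat_lit 28) (nat_lit 5) (nat_lit 32) (nat_lit 5) (nat_lit 29) (nat_lit 5) (nat_lit 380) (nat_lit 323) (nat_lit 158)) (XT.lf (nat_lit 0) (nat_lit 3116581776) (nat_lit 252) (nat_lit 20868300363) (nat_lit 336) (nat_lit 15101404698) (nat_lit 25) (nat_lit 5) (nat_lit 28) (nat_lit 5) (nat_lit 29) (nat_lit 5) (nat_lit 381) (nat_lit 323) (nat_lit 157))))))) (XT.nd (nat_lit 1128) (nat_lit 420) (nat_lit 0) (XT.nd (nat_lit 564) (nat_lit 420) (nat_lit 0) (XT.nd (nat_lit 282) (nat_lit 252) (nat_lit 0) (XT.nd (nat_lit 94) (nat_lit 0) (nat_lit 0) (XT.lf (nat_lit 0) (nat_lit 14031869450) (nat_lit 252) (nat_lit 13686948575) (nat_lit 336) (nat_lit 12306477792) (nat_lit 25) (nat_lit 5) (nat_lit 28) (nat_lit 5) (nat_lit 29) (nat_lit 5) (nat_lit 382) (nat_lit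 323) (nat_lit 156)) (XT.nd (nat_lit 94) (nat_lit 0) (nat_lit 0) (XT.lf (nat_lit 0) (nat_lit 25281622756) (nat_lit 252) (nat_lit 6283951277) (nat_lit 336) (nat_lit 9427942785) (nat_lit 25) (nat_lit 5) (nat_lit 28) (nat_lit 5) (nat_lit 29) (nat_lit 5) (nat_lit 383) (nat_lit 323) (nat_lit 155)) (XT.lf (nat_lit 0) (nat_lit 35542104025) (nat_lit 336) (nat_lit 5128892963) (nat_lit 84) (nat_lit 1320440924) (nat_lit 25) (nat_lit 5) (nat_lit 29) (nat_lit 5) (nat_lit 26) (nat_lit 5) (nat_lit 384) (nat_lit 323) (nat_lit 154)))) (XT.nd (nat_lit 94) (nat_lit 84) (nat_lit 0) (XT.lf (nat_lit 0) (nat_lit 5831641369) (nat_lit 168) (nat_lit 33929618380) (nat_lit 252) (nat_lit 3255346012) (nat_lit 23) (nat_lit 5) (nat_lit 25) (nat_lit 5) (nat_lit 26) (nat_lit 5) (nat_lit 385) (nat_lit 323) (nat_lit 153)) (XT.nd (nat_lit 94) (nat_lit 0) (nat_lit 0) (XT.lf (nat_lit 0) (nat_lit 88219946) (nat_lit 252) (nat_lit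 26835926673) (nat_lit 84) (nat_lit 17147815094) (nat_lit 22) (nat_lit 5) (nat_lit 25) (nat_lit 5) (nat_lit 23) (nat_lit 5) (nat_lit 386) (nat_lit 323) (nat_lit 152)) (XT.lf (nat_lit 0) (nat_lit 3465138700) (nat_lit 252) (nat_lit 16203042717) (nat_lit 84) (nat_lit 25490913302) (nat_lit 22) (nat_lit 5) (nat_lit 25) (nat_lit 5) (nat_lit 23) (nat_lit 5) (nat_lit 387) (nat_lit 323) (nat_lit 151))))) (XT.nd (nat_lit 282) (nat_lit 168) (nat_lit 0) (XT.nd (nat_lit 94) (nat_lit 252) (nat_lit 0) (XT.lf (nat_lit 0) (nat_lit 6944145859) (nat_lit 252) (nat_lit 5244108129) (nat_lit 84) (nat_lit 34091765212) (nat_lit 22) (nat_lit 5) (nat_lit 25) (nat_lit 5) (nat_lit 23) (nat_lit 5) (nat_lit 388) (nat_lit 323) (nat_lit 150)) (XT.nd (nat_lit 94) (nat_lit 0) (nat_lit 0) (XT.lf (nat_lit 0) (nat_lit 6175514827) (nat_lit 252) (nat_lit 4414231266) (nat_lit 336) (nat_lit 36844134763) (nat_lit 19) (nat_lit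 5) (nat_lit 22) (nat_lit 5) (nat_lit 23) (nat_lit 5) (nat_lit 389) (nat_lit 323) (nat_lit 149)) (XT.lf (nat_lit 0) (nat_lit 14436892028) (nat_lit 336) (nat_lit 30601280053) (nat_lit 84) (nat_lit 3582604935) (nat_lit 19) (nat_lit 5) (nat_lit 23) (nat_lit 5) (nat_lit 20) (nat_lit 5) (nat_lit 390) (nat_lit 323) (nat_lit 148)))) (XT.nd (nat_lit 94) (nat_lit 168) (nat_lit 0) (XT.lf (nat_lit 0) (nat_lit 18446035708) (nat_lit 336) (nat_lit 19662369332) (nat_lit 84) (nat_lit 11734746103) (nat_lit 19) (nat_lit 5) (nat_lit 23) (nat_lit 5) (nat_lit 20) (nat_lit 5) (nat_lit 391) (nat_lit 323) (nat_lit 147)) (XT.nd (nat_lit 94) (nat_lit 168) (nat_lit 0) (XT.lf (nat_lit 0) (nat_lit 22577124352) (nat_lit 336) (nat_lit 8387647935) (nat_lit 84) (nat_lit 20138727811) (nat_lit 19) (nat_lit 5) (nat_lit 23) (nat_lit 5) (nat_lit 20) (nat_lit 5) (nat_lit 392) (nat_lit 323) (nat_lit 146)) (XT.lf (nat_lit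 0) (nat_lit 3299878556) (nat_lit 168) (nat_lit 23566865217) (nat_lit 252) (nat_lit 25535240097) (nat_lit 17) (nat_lit 5) (nat_lit 19) (nat_lit 5) (nat_lit 20) (nat_lit 5) (nat_lit 393) (nat_lit 323) (nat_lit 145)))))) (XT.nd (nat_lit 564) (nat_lit 252) (nat_lit 0) (XT.nd (nat_lit 282) (nat_lit 168) (nat_lit 0) (XT.nd (nat_lit 94) (nat_lit 0) (nat_lit 0) (XT.lf (nat_lit 0) (nat_lit 15524367993) (nat_lit 168) (nat_lit 15850291880) (nat_lit 252) (nat_lit 22363424112) (nat_lit 17) (nat_lit 5) (nat_lit 19) (nat_lit 5) (nat_lit 20) (nat_lit 5) (nat_lit 394) (nat_lit 323) (nat_lit 144)) (XT.nd (nat_lit 94) (nat_lit 0) (nat_lit 0) (XT.lf (nat_lit 0) (nat_lit 28124747637) (nat_lit 168) (nat_lit 7895409464) (nat_lit 252) (nat_lit 19095521168) (nat_lit 17) (nat_lit 5) (nat_lit 19) (nat_lit 5) (nat_lit 20) (nat_lit 5) (nat_lit 395) (nat_lit 323) (nat_lit 143)) (XT.lf (nat_lit 0) (nat_lit 40810593136)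 (nat_lit 252) (nat_lit 15426316017) (nat_lit 84) (nat_lit 299047777) (nat_lit 17) (nat_lit 5) (nat_lit 20) (nat_lit 5) (nat_lit 18) (nat_lit 5) (nat_lit 396) (nat_lit 323) (nat_lit 142)))) (XT.nd (nat_lit 94) (nat_lit 168) (nat_lit 0) (XT.lf (nat_lit 0) (nat_lit 45828239633) (nat_lit 252) (nat_lit 3586899176) (nat_lit 84) (nat_lit 8582693005) (nat_lit 17) (nat_lit 5) (nat_lit 20) (nat_lit 5) (nat_lit 18) (nat_lit 5) (nat_lit 397) (nat_lit 323) (nat_lit 141)) (XT.nd (nat_lit 94) (nat_lit 0) (nat_lit 0) (XT.lf (nat_lit 0) (nat_lit 8793855495) (nat_lit 168) (nat_lit 42292830763) (nat_lit 252) (nat_lit 8415702991) (nat_lit 15) (nat_lit 5) (nat_lit 17) (nat_lit 5) (nat_lit 18) (nat_lit 5) (nat_lit 398) (nat_lit 323) (nat_lit 140)) (XT.lf (nat_lit 0) (nat_lit 21631622220) (nat_lit 168) (nat_lit 34912010868) (nat_lit 252) (nat_lit 4508861794) (nat_lit 15) (nat_lit 5) (nat_lit 17) (nat_lit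 5) (nat_lit 18) (nat_lit 5) (nat_lit 399) (nat_lit 323) (nat_lit 139))))) (XT.nd (nat_lit 282) (nat_lit 168) (nat_lit 0) (XT.nd (nat_lit 94) (nat_lit 84) (nat_lit 0) (XT.lf (nat_lit 0) (nat_lit 34864613136) (nat_lit 168) (nat_lit 27303239299) (nat_lit 252) (nat_lit 482866877) (nat_lit 15) (nat_lit 5) (nat_lit 17) (nat_lit 5) (nat_lit 18) (nat_lit 5) (nat_lit 400) (nat_lit 323) (nat_lit 138)) (XT.nd (nat_lit 94) (nat_lit 0) (nat_lit 0) (XT.lf (nat_lit 0) (nat_lit 3592171986) (nat_lit 252) (nat_lit 15829756988) (nat_lit 84) (nat_lit 44875495884) (nat_lit 14) (nat_lit 5) (nat_lit 17) (nat_lit 5) (nat_lit 15) (nat_lit 5) (nat_lit 401) (nat_lit 323) (nat_lit 137)) (XT.lf (nat_lit 0) (nat_lit 7781701534) (nat_lit 252) (nat_lit 3510326823) (nat_lit 84) (nat_lit 54703059031) (nat_lit 14) (nat_lit 5) (nat_lit 17) (nat_lit 5) (nat_lit 15) (nat_lit 5) (nat_lit 402) (nat_lit 323) (nat_lit 136))))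 (XT.nd (nat_lit 94) (nat_lit 0) (nat_lit 0) (XT.lf (nat_lit 0) (nat_lit 9377390944) (nat_lit 168) (nat_lit 2814989471) (nat_lit 252) (nat_lit 55550173606) (nat_lit 12) (nat_lit 5) (nat_lit 14) (nat_lit 5) (nat_lit 15) (nat_lit 5) (nat_lit 403) (nat_lit 323) (nat_lit 135)) (XT.nd (nat_lit 94) (nat_lit 0) (nat_lit 0) (XT.lf (nat_lit 0) (nat_lit 16833849563) (nat_lit 252) (nat_lit 46865734919) (nat_lit 84) (nat_lit 5841697680) (nat_lit 12) (nat_lit 5) (nat_lit 15) (nat_lit 5) (nat_lit 13) (nat_lit 5) (nat_lit 404) (nat_lit 323) (nat_lit 134)) (XT.lf (nat_lit 0) (nat_lit 21646315766) (nat_lit 252) (nat_lit 35041111650) (nat_lit 84) (nat_lit 14707508700) (nat_lit 12) (nat_lit 5) (nat_lit 15) (nat_lit 5) (nat_lit 13) (nat_lit 5) (nat_lit 405) (nat_lit 323) (nat_lit 133))))))))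
noncomputable def xc169 : XT := (XT.nd (nat_lit 47846) (nat_lit 0) (nat_lit 3108) (XT.nd (nat_lit 46718) (nat_lit 0) (nat_lit 7056) (XT.nd (nat_lit 564) (nat_lit 0) (nat_lit 0) (XT.nd (nat_lit 282) (nat_lit 0) (nat_lit 0) (XT.nd (nat_lit 94) (nat_lit 168) (nat_lit 0) (XT.lf (nat_lit 0) (nat_lit 26606339704) (nat_lit 252) (nat_lit 22852346440) (nat_lit 84) (nat_lit 23847423216) (nat_lit 12) (nat_lit 5) (nat_lit 15) (nat_lit 5) (nat_lit 13) (nat_lit 5) (nat_lit 406) (nat_lit 323) (nat_lit 132)) (XT.nd (nat_lit 94) (nat_lit 168) (nat_lit 0) (XT.lf (nat_lit 0) (nat_lit 31718544638) (nat_lit 252) (nat_lit 10288078083) (nat_lit 84) (nat_lit 33269960586) (nat_lit 12) (nat_lit 5) (nat_lit 15) (nat_lit 5) (nat_lit 13) (nat_lit 5) (nat_lit 407) (nat_lit 323) (nat_lit 131)) (XT.lf (nat_lit 0) (nat_lit 2718169696) (nat_lit 168) (nat_lit 34296490563) (nat_lit 252) (nat_lit 40292698486) (nat_lit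 10) (nat_lit 5) (nat_lit 12) (nat_lit 5) (nat_lit 13) (nat_lit 5) (nat_lit 408) (nat_lit 323) (nat_lit 130)))) (XT.nd (nat_lit 94) (nat_lit 0) (nat_lit 0) (XT.lf (nat_lit 0) (nat_lit 16343458111) (nat_lit 168) (nat_lit 26237375245) (nat_lit 252) (nat_lit 36816977694) (nat_lit 10) (nat_lit 5) (nat_lit 12) (nat_lit 5) (nat_lit 13) (nat_lit 5) (nat_lit 409) (nat_lit 323) (nat_lit 129)) (XT.nd (nat_lit 94) (nat_lit 0) (nat_lit 0) (XT.lf (nat_lit 0) (nat_lit 30388943371) (nat_lit 168) (nat_lit 17929151264) (nat_lit 252) (nat_lit 33235022993) (nat_lit 10) (nat_lit 5) (nat_lit 12) (nat_lit 5) (nat_lit 13) (nat_lit 5) (nat_lit 410) (nat_lit 323) (nat_lit 128)) (XT.lf (nat_lit 0) (nat_lit 44867717339) (nat_lit 168) (nat_lit 9364074484) (nat_lit 252) (nat_lit 29543495625) (nat_lit 10) (nat_lit 5) (nat_lit 12) (nat_lit 5) (nat_lit 13) (nat_lit 5) (nat_lit 411) (nat_lit 323) (nat_lit 127)))))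 (XT.nd (nat_lit 45872) (nat_lit 0) (nat_lit 6972) (XT.nd (nat_lit 94) (nat_lit 0) (nat_lit 0) (XT.lf (nat_lit 0) (nat_lit 59793275751) (nat_lit 168) (nat_lit 534161357) (nat_lit 252) (nat_lit 25738954701) (nat_lit 10) (nat_lit 5) (nat_lit 12) (nat_lit 5) (nat_lit 13) (nat_lit 5) (nat_lit 412) (nat_lit 323) (nat_lit 126)) (XT.nd (nat_lit 45684) (nat_lit 0) (nat_lit 6972) (XT.lf (nat_lit 0) (nat_lit 66695716007) (nat_lit 252) (nat_lit 13334039209) (nat_lit 84) (nat_lit 8396175924) (nat_lit 10) (nat_lit 5) (nat_lit 13) (nat_lit 5) (nat_lit 11) (nat_lit 4) (nat_lit 413) (nat_lit 323) (nat_lit 125)) (XT.lf (nat_lit 0) (nat_lit 172749701) (nat_lit 1092) (nat_lit 3193186336) (nat_lit 1092) (nat_lit 3193186336) (nat_lit 93) (nat_lit 3) (nat_lit 106) (nat_lit 3) (nat_lit 106) (nat_lit 5) (nat_lit 324) (nat_lit 324) (nat_lit 213)))) (XT.nd (nat_lit 94) (nat_lit 0) (nat_lit 84) (XT.lf (nat_lit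 0) (nat_lit 672352373) (nat_lit 1092) (nat_lit 1793561607) (nat_lit 1092) (nat_lit 10843914785) (nat_lit 93) (nat_lit 3) (nat_lit 106) (nat_lit 3) (nat_lit 106) (nat_lit 5) (nat_lit 325) (nat_lit 324) (nat_lit 212)) (XT.nd (nat_lit 94) (nat_lit 0) (nat_lit 0) (XT.lf (nat_lit 0) (nat_lit 1045630563) (nat_lit 1008) (nat_lit 10531178302) (nat_lit 1092) (nat_lit 1929489766) (nat_lit 94) (nat_lit 5) (nat_lit 106) (nat_lit 5) (nat_lit 107) (nat_lit 5) (nat_lit 326) (nat_lit 324) (nat_lit 211)) (XT.lf (nat_lit 0) (nat_lit 1462041498) (nat_lit 1008) (nat_lit 5811203516) (nat_lit 1092) (nat_lit 6434705315) (nat_lit 94) (nat_lit 5) (nat_lit 106) (nat_lit 5) (nat_lit 107) (nat_lit 5) (nat_lit 327) (nat_lit 324) (nat_lit 210)))))) (XT.nd (nat_lit 564) (nat_lit 0) (nat_lit 168) (XT.nd (nat_lit 282) (nat_lit 0) (nat_lit 84) (XT.nd (nat_lit 94) (nat_lit 0) (nat_lit 84) (XT.lf (nat_lit 0) (nat_lit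 1879167228) (nat_lit 1008) (nat_lit 951860827) (nat_lit 1092) (nat_lit 11085270755) (nat_lit 94) (nat_lit 5) (nat_lit 106) (nat_lit 5) (nat_lit 107) (nat_lit 5) (nat_lit 328) (nat_lit 324) (nat_lit 209)) (XT.nd (nat_lit 94) (nat_lit 0) (nat_lit 0) (XT.lf (nat_lit 0) (nat_lit 2356232362) (nat_lit 1008) (nat_lit 10013402142) (nat_lit 1092) (nat_lit 1760079861) (nat_lit 95) (nat_lit 5) (nat_lit 107) (nat_lit 5) (nat_lit 108) (nat_lit 5) (nat_lit 329) (nat_lit 324) (nat_lit 208)) (XT.lf (nat_lit 0) (nat_lit 2875588731) (nat_lit 1008) (nat_lit 5023860119) (nat_lit 1092) (nat_lit 6449507947) (nat_lit 95) (nat_lit 5) (nat_lit 107) (nat_lit 5) (nat_lit 108) (nat_lit 5) (nat_lit 330) (nat_lit 324) (nat_lit 207)))) (XT.nd (nat_lit 94) (nat_lit 0) (nat_lit 84) (XT.lf (nat_lit 84) (nat_lit 115761296) (nat_lit 0) (nat_lit 3285288052) (nat_lit 1092) (nat_lit 11174317920) (nat_lit 96) (nat_lit 5)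 (nat_lit 95) (nat_lit 5) (nat_lit 108) (nat_lit 5) (nat_lit 331) (nat_lit 324) (nat_lit 206)) (XT.nd (nat_lit 94) (nat_lit 0) (nat_lit 0) (XT.lf (nat_lit 0) (nat_lit 3999538658) (nat_lit 1008) (nat_lit 9308390011) (nat_lit 1092) (nat_lit 1499168672) (nat_lit 96) (nat_lit 5) (nat_lit 108) (nat_lit 5) (nat_lit 109) (nat_lit 5) (nat_lit 332) (nat_lit 324) (nat_lit 205)) (XT.lf (nat_lit 0) (nat_lit 4639670502) (nat_lit 1008) (nat_lit 4038163212) (nat_lit 1092) (nat_lit 6367519564) (nat_lit 96) (nat_lit 5) (nat_lit 108) (nat_lit 5) (nat_lit 109) (nat_lit 5) (nat_lit 333) (nat_lit 324) (nat_lit 204))))) (XT.nd (nat_lit 282) (nat_lit 0) (nat_lit 84) (XT.nd (nat_lit 94) (nat_lit 0) (nat_lit 84) (XT.lf (nat_lit 84) (nat_lit 1417129288) (nat_lit 0) (nat_lit 3886379896) (nat_lit 1092) (nat_lit 9987422477) (nat_lit 97) (nat_lit 5) (nat_lit 96) (nat_lit 5) (nat_lit 109) (nat_lit 5) (nat_lit 334)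 (nat_lit 324) (nat_lit 203)) (XT.nd (nat_lit 94) (nat_lit 0) (nat_lit 0) (XT.lf (nat_lit 0) (nat_lit 6031035216) (nat_lit 1008) (nat_lit 8433744973) (nat_lit 1092) (nat_lit 1078060991) (nat_lit 97) (nat_lit 5) (nat_lit 109) (nat_lit 5) (nat_lit 110) (nat_lit 5) (nat_lit 335) (nat_lit 324) (nat_lit 202)) (XT.lf (nat_lit 0) (nat_lit 6811236678) (nat_lit 1008) (nat_lit 2871766598) (nat_lit 1092) (nat_lit 6118675758) (nat_lit 97) (nat_lit 5) (nat_lit 109) (nat_lit 5) (nat_lit 110) (nat_lit 5) (nat_lit 336) (nat_lit 324) (nat_lit 201)))) (XT.nd (nat_lit 94) (nat_lit 0) (nat_lit 84) (XT.lf (nat_lit 84) (nat_lit 2914593024) (nat_lit 0) (nat_lit 4720607530) (nat_lit 1092) (nat_lit 8432784780) (nat_lit 98) (nat_lit 5) (nat_lit 97) (nat_lit 5) (nat_lit 110) (nat_lit 5) (nat_lit 337) (nat_lit 324) (nat_lit 200)) (XT.nd (nat_lit 94) (nat_lit 0) (nat_lit 0) (XT.lf (nat_lit 0) (nat_lit 8509815336)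 (nat_lit 1008) (nat_lit 7411690212) (nat_lit 1092) (nat_lit 420313022) (nat_lit 98) (nat_lit 5) (nat_lit 110) (nat_lit 5) (nat_lit 111) (nat_lit 5) (nat_lit 338) (nat_lit 324) (nat_lit 199)) (XT.lf (nat_lit 0) (nat_lit 9450998931) (nat_lit 1008) (nat_lit 1547114909) (nat_lit 1092) (nat_lit 5624851963) (nat_lit 98) (nat_lit 5) (nat_lit 110) (nat_lit 5) (nat_lit 111) (nat_lit 5) (nat_lit 339) (nat_lit 324) (nat_lit 198))))))) (XT.nd (nat_lit 1128) (nat_lit 1680) (nat_lit 0) (XT.nd (nat_lit 564) (nat_lit 1092) (nat_lit 0) (XT.nd (nat_lit 282) (nat_lit 1512) (nat_lit 0) (XT.nd (nat_lit 94) (nat_lit 0) (nat_lit 0) (XT.lf (nat_lit 84) (nat_lit 4585006675) (nat_lit 0) (nat_lit 5873276768) (nat_lit 1092) (nat_lit 6453447346) (nat_lit 99) (nat_lit 5) (nat_lit 98) (nat_lit 5) (nat_lit 111) (nat_lit 5) (nat_lit 340) (nat_lit 324) (nat_lit 197)) (XT.nd (nat_lit 94) (nat_lit 0) (nat_lit 84) (XT.lf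 (nat_lit 84) (nat_lit 10933455988) (nat_lit 0) (nat_lit 571119120) (nat_lit 1092) (nat_lit 5704676594) (nat_lit 99) (nat_lit 5) (nat_lit 98) (nat_lit 5) (nat_lit 111) (nat_lit 5) (nat_lit 341) (nat_lit 324) (nat_lit 196)) (XT.lf (nat_lit 0) (nat_lit 12623766390) (nat_lit 1008) (nat_lit 92533186) (nat_lit 84) (nat_lit 4798485852) (nat_lit 99) (nat_lit 5) (nat_lit 111) (nat_lit 5) (nat_lit 100) (nat_lit 5) (nat_lit 342) (nat_lit 324) (nat_lit 195)))) (XT.nd (nat_lit 94) (nat_lit 588) (nat_lit 0) (XT.lf (nat_lit 0) (nat_lit 6399014433) (nat_lit 1008) (nat_lit 7440103438) (nat_lit 1092) (nat_lit 3988810147) (nat_lit 87) (nat_lit 5) (nat_lit 99) (nat_lit 5) (nat_lit 100) (nat_lit 5) (nat_lit 343) (nat_lit 324) (nat_lit 194)) (XT.nd (nat_lit 94) (nat_lit 588) (nat_lit 0) (XT.lf (nat_lit 0) (nat_lit 13087346573) (nat_lit 1008) (nat_lit 1998082125) (nat_lit 1092) (nat_lit 3065598999) (nat_lit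 87) (nat_lit 5) (nat_lit 99) (nat_lit 5) (nat_lit 100) (nat_lit 5) (nat_lit 344) (nat_lit 324) (nat_lit 193)) (XT.lf (nat_lit 0) (nat_lit 1486479314) (nat_lit 588) (nat_lit 14927040542) (nat_lit 672) (nat_lit 2069326335) (nat_lit 80) (nat_lit 5) (nat_lit 87) (nat_lit 5) (nat_lit 88) (nat_lit 5) (nat_lit 345) (nat_lit 324) (nat_lit 192))))) (XT.nd (nat_lit 282) (nat_lit 504) (nat_lit 0) (XT.nd (nat_lit 94) (nat_lit 588) (nat_lit 0) (XT.lf (nat_lit 0) (nat_lit 8319746470) (nat_lit 588) (nat_lit 9528839180) (nat_lit 672) (nat_lit 974364491) (nat_lit 80) (nat_lit 5) (nat_lit 87) (nat_lit 5) (nat_lit 88) (nat_lit 5) (nat_lit 346) (nat_lit 324) (nat_lit 191)) (XT.nd (nat_lit 94) (nat_lit 504) (nat_lit 0) (XT.lf (nat_lit 0) (nat_lit 144257688) (nat_lit 672) (nat_lit 3816715716) (nat_lit 84) (nat_lit 15212835340) (nat_lit 79) (nat_lit 5) (nat_lit 87) (nat_lit 5) (nat_lit 80) (nat_lit 5) (nat_lit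 347) (nat_lit 324) (nat_lit 190)) (XT.lf (nat_lit 0) (nat_lit 1319430238) (nat_lit 588) (nat_lit 16428815982) (nat_lit 84) (nat_lit 1785718901) (nat_lit 73) (nat_lit 5) (nat_lit 80) (nat_lit 5) (nat_lit 74) (nat_lit 5) (nat_lit 348) (nat_lit 324) (nat_lit 189)))) (XT.nd (nat_lit 94) (nat_lit 504) (nat_lit 0) (XT.lf (nat_lit 0) (nat_lit 2604990608) (nat_lit 588) (nat_lit 9628891616) (nat_lit 84) (nat_lit 7669145958) (nat_lit 73) (nat_lit 5) (nat_lit 80) (nat_lit 5) (nat_lit 74) (nat_lit 5) (nat_lit 349) (nat_lit 324) (nat_lit 188)) (XT.nd (nat_lit 94) (nat_lit 504) (nat_lit 0) (XT.lf (nat_lit 0) (nat_lit 3923807704) (nat_lit 588) (nat_lit 2624401940) (nat_lit 84) (nat_lit 13735560499) (nat_lit 73) (nat_lit 5) (nat_lit 80) (nat_lit 5) (nat_lit 74) (nat_lit 5) (nat_lit 350) (nat_lit 324) (nat_lit 187)) (XT.lf (nat_lit 0) (nat_lit 4685586081) (nat_lit 504) (nat_lit 638006314) (nat_lit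 588) (nat_lit 15351512571) (nat_lit 67) (nat_lit 5) (nat_lit 73) (nat_lit 5) (nat_lit 74) (nat_lit 5) (nat_lit 351) (nat_lit 324) (nat_lit 186)))))) (XT.nd (nat_lit 564) (nat_lit 840) (nat_lit 0) (XT.nd (nat_lit 282) (nat_lit 420) (nat_lit 0) (XT.nd (nat_lit 94) (nat_lit 420) (nat_lit 0) (XT.lf (nat_lit 0) (nat_lit 6842300781) (nat_lit 588) (nat_lit 8860513072) (nat_lit 84) (nat_lit 5373447371) (nat_lit 67) (nat_lit 5) (nat_lit 74) (nat_lit 5) (nat_lit 68) (nat_lit 5) (nat_lit 352) (nat_lit 324) (nat_lit 185)) (XT.nd (nat_lit 94) (nat_lit 420) (nat_lit 0) (XT.lf (nat_lit 0) (nat_lit 8408541151) (nat_lit 588) (nat_lit 1523058819) (nat_lit 84) (nat_lit 11558269891) (nat_lit 67) (nat_lit 5) (nat_lit 74) (nat_lit 5) (nat_lit 68) (nat_lit 5) (nat_lit 353) (nat_lit 324) (nat_lit 184)) (XT.lf (nat_lit 0) (nat_lit 6160125041) (nat_lit 420) (nat_lit 3918428468) (nat_lit 504) (nat_lit 11836064715)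 (nat_lit 62) (nat_lit 5) (nat_lit 67) (nat_lit 5) (nat_lit 68) (nat_lit 5) (nat_lit 354) (nat_lit 324) (nat_lit 183)))) (XT.nd (nat_lit 94) (nat_lit 420) (nat_lit 0) (XT.lf (nat_lit 0) (nat_lit 11833254681) (nat_lit 504) (nat_lit 8267049807) (nat_lit 84) (nat_lit 2251237565) (nat_lit 62) (nat_lit 5) (nat_lit 68) (nat_lit 5) (nat_lit 63) (nat_lit 5) (nat_lit 355) (nat_lit 324) (nat_lit 182)) (XT.nd (nat_lit 94) (nat_lit 420) (nat_lit 0) (XT.lf (nat_lit 0) (nat_lit 13676830343) (nat_lit 504) (nat_lit 593384403) (nat_lit 84) (nat_lit 8530754812) (nat_lit 62) (nat_lit 5) (nat_lit 68) (nat_lit 5) (nat_lit 63) (nat_lit 5) (nat_lit 356) (nat_lit 324) (nat_lit 181)) (XT.lf (nat_lit 0) (nat_lit 7462887535) (nat_lit 420) (nat_lit 8183272836) (nat_lit 504) (nat_lit 7616069272) (nat_lit 57) (nat_lit 5) (nat_lit 62) (nat_lit 5) (nat_lit 63) (nat_lit 5) (nat_lit 357) (nat_lit 324) (nat_lit 180)))))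 (XT.nd (nat_lit 282) (nat_lit 504) (nat_lit 0) (XT.nd (nat_lit 94) (nat_lit 336) (nat_lit 0) (XT.lf (nat_lit 0) (nat_lit 15775902773) (nat_lit 420) (nat_lit 1901509213) (nat_lit 504) (nat_lit 6060375986) (nat_lit 57) (nat_lit 5) (nat_lit 62) (nat_lit 5) (nat_lit 63) (nat_lit 5) (nat_lit 358) (nat_lit 324) (nat_lit 179)) (XT.nd (nat_lit 94) (nat_lit 0) (nat_lit 0) (XT.lf (nat_lit 0) (nat_lit 68941720) (nat_lit 336) (nat_lit 19743595198) (nat_lit 420) (nat_lit 4414309088) (nat_lit 53) (nat_lit 5) (nat_lit 57) (nat_lit 5) (nat_lit 58) (nat_lit 5) (nat_lit 359) (nat_lit 324) (nat_lit 178)) (XT.lf (nat_lit 0) (nat_lit 8492125135) (nat_lit 336) (nat_lit 13619018878) (nat_lit 420) (nat_lit 2616929406) (nat_lit 53) (nat_lit 5) (nat_lit 57) (nat_lit 5) (nat_lit 58) (nat_lit 5) (nat_lit 360) (nat_lit 324) (nat_lit 177)))) (XT.nd (nat_lit 188) (nat_lit 0) (nat_lit 0) (XT.nd (nat_lit 94) (nat_lit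 504) (nat_lit 0) (XT.lf (nat_lit 0) (nat_lit 17171054720) (nat_lit 336) (nat_lit 7305041924) (nat_lit 420) (nat_lit 768918417) (nat_lit 53) (nat_lit 5) (nat_lit 57) (nat_lit 5) (nat_lit 58) (nat_lit 5) (nat_lit 361) (nat_lit 324) (nat_lit 176)) (XT.lf (nat_lit 0) (nat_lit 331114498) (nat_lit 420) (nat_lit 780820491) (nat_lit 504) (nat_lit 24665768015) (nat_lit 47) (nat_lit 5) (nat_lit 52) (nat_lit 5) (nat_lit 53) (nat_lit 5) (nat_lit 362) (nat_lit 324) (nat_lit 175))) (XT.nd (nat_lit 94) (nat_lit 0) (nat_lit 0) (XT.lf (nat_lit 0) (nat_lit 3174494349) (nat_lit 504) (nat_lit 17229531556) (nat_lit 84) (nat_lit 5918335888) (nat_lit 47) (nat_lit 5) (nat_lit 53) (nat_lit 5) (nat_lit 48) (nat_lit 5) (nat_lit 363) (nat_lit 324) (nat_lit 174)) (XT.lf (nat_lit 0) (nat_lit 5304374362) (nat_lit 504) (nat_lit 8771010585) (nat_lit 84) (nat_lit 12808436416) (nat_lit 47) (nat_lit 5) (nat_lit 53) (nat_lit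 5) (nat_lit 48) (nat_lit 5) (nat_lit 364) (nat_lit 324) (nat_lit 173))))))))
noncomputable def xc170 : XT := (XT.nd (nat_lit 2256) (nat_lit 1008) (nat_lit 0) (XT.nd (nat_lit 1128) (nat_lit 756) (nat_lit 0) (XT.nd (nat_lit 564) (nat_lit 672) (nat_lit 0) (XT.nd (nat_lit 282) (nat_lit 336) (nat_lit 0) (XT.nd (nat_lit 94) (nat_lit 336) (nat_lit 0) (XT.lf (nat_lit 0) (nat_lit 7495814463) (nat_lit 504) (nat_lit 55395531) (nat_lit 84) (nat_lit 19911635180) (nat_lit 47) (nat_lit 5) (nat_lit 53) (nat_lit 5) (nat_lit 48) (nat_lit 5) (nat_lit 365) (nat_lit 324) (nat_lit 172)) (XT.nd (nat_lit 94) (nat_lit 0) (nat_lit 0) (XT.lf (nat_lit 0) (nat_lit 9108962772) (nat_lit 336) (nat_lit 732256569) (nat_lit 420) (nat_lit 18215952371) (nat_lit 43) (nat_lit 5) (nat_lit 47) (nat_lit 5) (nat_lit 48) (nat_lit 5) (nat_lit 366) (nat_lit 324) (nat_lit 171)) (XT.lf (nat_lit 0) (nat_lit 12318136660) (nat_lit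 420) (nat_lit 10178857928) (nat_lit 84) (nat_lit 6171124161) (nat_lit 43) (nat_lit 5) (nat_lit 48) (nat_lit 5) (nat_lit 44) (nat_lit 5) (nat_lit 367) (nat_lit 324) (nat_lit 170)))) (XT.nd (nat_lit 94) (nat_lit 336) (nat_lit 0) (XT.lf (nat_lit 0) (nat_lit 14875198658) (nat_lit 420) (nat_lit 1150054468) (nat_lit 84) (nat_lit 13272666593) (nat_lit 43) (nat_lit 5) (nat_lit 48) (nat_lit 5) (nat_lit 44) (nat_lit 5) (nat_lit 368) (nat_lit 324) (nat_lit 169)) (XT.nd (nat_lit 94) (nat_lit 0) (nat_lit 0) (XT.lf (nat_lit 0) (nat_lit 8321541825) (nat_lit 336) (nat_lit 9268533609) (nat_lit 420) (nat_lit 12354752345) (nat_lit 39) (nat_lit 5) (nat_lit 43) (nat_lit 5) (nat_lit 44) (nat_lit 5) (nat_lit 369) (nat_lit 324) (nat_lit 168)) (XT.lf (nat_lit 0) (nat_lit 18106425757) (nat_lit 336) (nat_lit 2290760645) (nat_lit 420) (nat_lit 10214370956) (nat_lit 39) (nat_lit 5) (nat_lit 43) (nat_lit 5) (nat_lit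 44) (nat_lit 5) (nat_lit 370) (nat_lit 324) (nat_lit 167))))) (XT.nd (nat_lit 282) (nat_lit 420) (nat_lit 0) (XT.nd (nat_lit 94) (nat_lit 252) (nat_lit 0) (XT.lf (nat_lit 0) (nat_lit 23336138873) (nat_lit 420) (nat_lit 3157654535) (nat_lit 84) (nat_lit 4803789798) (nat_lit 39) (nat_lit 5) (nat_lit 44) (nat_lit 5) (nat_lit 40) (nat_lit 5) (nat_lit 371) (nat_lit 324) (nat_lit 166)) (XT.nd (nat_lit 94) (nat_lit 0) (nat_lit 0) (XT.lf (nat_lit 0) (nat_lit 6584266298) (nat_lit 252) (nat_lit 19866972765) (nat_lit 336) (nat_lit 5551017136) (nat_lit 36) (nat_lit 5) (nat_lit 39) (nat_lit 5) (nat_lit 40) (nat_lit 5) (nat_lit 372) (nat_lit 324) (nat_lit 165)) (XT.lf (nat_lit 0) (nat_lit 16690616209) (nat_lit 252) (nat_lit 13001611619) (nat_lit 336) (nat_lit 3035653382) (nat_lit 36) (nat_lit 5) (nat_lit 39) (nat_lit 5) (nat_lit 40) (nat_lit 5) (nat_lit 373) (nat_lit 324) (nat_lit 164)))) (XT.nd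 (nat_lit 94) (nat_lit 420) (nat_lit 0) (XT.lf (nat_lit 0) (nat_lit 27105887522) (nat_lit 252) (nat_lit 5924270173) (nat_lit 336) (nat_lit 445967925) (nat_lit 36) (nat_lit 5) (nat_lit 39) (nat_lit 5) (nat_lit 40) (nat_lit 5) (nat_lit 374) (nat_lit 324) (nat_lit 163)) (XT.nd (nat_lit 94) (nat_lit 0) (nat_lit 0) (XT.lf (nat_lit 0) (nat_lit 2226061581) (nat_lit 420) (nat_lit 30616603075) (nat_lit 84) (nat_lit 1402778657) (nat_lit 31) (nat_lit 5) (nat_lit 36) (nat_lit 5) (nat_lit 32) (nat_lit 5) (nat_lit 375) (nat_lit 324) (nat_lit 162)) (XT.lf (nat_lit 0) (nat_lit 5096003793) (nat_lit 420) (nat_lit 21033842964) (nat_lit 84) (nat_lit 8904781288) (nat_lit 31) (nat_lit 5) (nat_lit 36) (nat_lit 5) (nat_lit 32) (nat_lit 5) (nat_lit 376) (nat_lit 324) (nat_lit 161)))))) (XT.nd (nat_lit 564) (nat_lit 252) (nat_lit 0) (XT.nd (nat_lit 282) (nat_lit 252) (nat_lit 0) (XT.nd (nat_lit 94) (nat_lit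 252) (nat_lit 0) (XT.lf (nat_lit 0) (nat_lit 8051597013) (nat_lit 420) (nat_lit 11158282530) (nat_lit 84) (nat_lit 16638514608) (nat_lit 31) (nat_lit 5) (nat_lit 36) (nat_lit 5) (nat_lit 32) (nat_lit 5) (nat_lit 377) (nat_lit 324) (nat_lit 160)) (XT.nd (nat_lit 94) (nat_lit 252) (nat_lit 0) (XT.lf (nat_lit 0) (nat_lit 11095596163) (nat_lit 420) (nat_lit 980716717) (nat_lit 84) (nat_lit 24611187265) (nat_lit 31) (nat_lit 5) (nat_lit 36) (nat_lit 5) (nat_lit 32) (nat_lit 5) (nat_lit 378) (nat_lit 324) (nat_lit 159)) (XT.lf (nat_lit 0) (nat_lit 9703852026) (nat_lit 252) (nat_lit 4623249956) (nat_lit 336) (nat_lit 23222642013) (nat_lit 28) (nat_lit 5) (nat_lit 31) (nat_lit 5) (nat_lit 32) (nat_lit 5) (nat_lit 379) (nat_lit 324) (nat_lit 158)))) (XT.nd (nat_lit 94) (nat_lit 252) (nat_lit 0) (XT.lf (nat_lit 0) (nat_lit 17696414670) (nat_lit 336) (nat_lit 17732506429) (nat_lit 84) (nat_lit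 3008642374) (nat_lit 28) (nat_lit 5) (nat_lit 32) (nat_lit 5) (nat_lit 29) (nat_lit 5) (nat_lit 380) (nat_lit 324) (nat_lit 157)) (XT.nd (nat_lit 94) (nat_lit 252) (nat_lit 0) (XT.lf (nat_lit 0) (nat_lit 21214478218) (nat_lit 336) (nat_lit 7356839165) (nat_lit 84) (nat_lit 10780226830) (nat_lit 28) (nat_lit 5) (nat_lit 32) (nat_lit 5) (nat_lit 29) (nat_lit 5) (nat_lit 381) (nat_lit 324) (nat_lit 156)) (XT.lf (nat_lit 0) (nat_lit 3405252490) (nat_lit 252) (nat_lit 21467236654) (nat_lit 336) (nat_lit 15420423559) (nat_lit 25) (nat_lit 5) (nat_lit 28) (nat_lit 5) (nat_lit 29) (nat_lit 5) (nat_lit 382) (nat_lit 324) (nat_lit 155))))) (XT.nd (nat_lit 282) (nat_lit 252) (nat_lit 0) (XT.nd (nat_lit 94) (nat_lit 0) (nat_lit 0) (XT.lf (nat_lit 0) (nat_lit 14653139341) (nat_lit 252) (nat_lit 14064705648) (nat_lit 336) (nat_lit 12543337784) (nat_lit 25) (nat_lit 5) (nat_lit 28) (nat_lit 5) (nat_lit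 29) (nat_lit 5) (nat_lit 383) (nat_lit 324) (nat_lit 154)) (XT.nd (nat_lit 94) (nat_lit 0) (nat_lit 0) (XT.lf (nat_lit 0) (nat_lit 26246033894) (nat_lit 252) (nat_lit 6433614744) (nat_lit 336) (nat_lit 9579917237) (nat_lit 25) (nat_lit 5) (nat_lit 28) (nat_lit 5) (nat_lit 29) (nat_lit 5) (nat_lit 384) (nat_lit 324) (nat_lit 153)) (XT.lf (nat_lit 0) (nat_lit 36775809924) (nat_lit 336) (nat_lit 5108467683) (nat_lit 84) (nat_lit 1404274274) (nat_lit 25) (nat_lit 5) (nat_lit 29) (nat_lit 5) (nat_lit 26) (nat_lit 5) (nat_lit 385) (nat_lit 324) (nat_lit 152)))) (XT.nd (nat_lit 94) (nat_lit 84) (nat_lit 0) (XT.lf (nat_lit 0) (nat_lit 6190026738) (nat_lit 168) (nat_lit 34933528620) (nat_lit 252) (nat_lit 3222028889) (nat_lit 23) (nat_lit 5) (nat_lit 25) (nat_lit 5) (nat_lit 26) (nat_lit 5) (nat_lit 386) (nat_lit 324) (nat_lit 151)) (XT.nd (nat_lit 94) (nat_lit 0) (nat_lit 0) (XT.lf (nat_lit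 0) (nat_lit 218528340) (nat_lit 252) (nat_lit 27492467779) (nat_lit 84) (nat_lit 17722756473) (nat_lit 22) (nat_lit 5) (nat_lit 25) (nat_lit 5) (nat_lit 23) (nat_lit 5) (nat_lit 387) (nat_lit 324) (nat_lit 150)) (XT.lf (nat_lit 0) (nat_lit 3696295706) (nat_lit 252) (nat_lit 16535237506) (nat_lit 84) (nat_lit 26323187008) (nat_lit 22) (nat_lit 5) (nat_lit 25) (nat_lit 5) (nat_lit 23) (nat_lit 5) (nat_lit 388) (nat_lit 324) (nat_lit 149))))))) (XT.nd (nat_lit 1128) (nat_lit 420) (nat_lit 0) (XT.nd (nat_lit 564) (nat_lit 168) (nat_lit 0) (XT.nd (nat_lit 282) (nat_lit 168) (nat_lit 0) (XT.nd (nat_lit 94) (nat_lit 252) (nat_lit 0) (XT.lf (nat_lit 0) (nat_lit 7279431554) (nat_lit 252) (nat_lit 5241690481) (nat_lit 84) (nat_lit 35189400810) (nat_lit 22) (nat_lit 5) (nat_lit 25) (nat_lit 5) (nat_lit 23) (nat_lit 5) (nat_lit 389) (nat_lit 324) (nat_lit 148)) (XT.nd (nat_lit 94) (nat_lit 0)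 (nat_lit 0) (XT.lf (nat_lit 0) (nat_lit 6530270462) (nat_lit 252) (nat_lit 4505786372) (nat_lit 336) (nat_lit 37864172748) (nat_lit 19) (nat_lit 5) (nat_lit 22) (nat_lit 5) (nat_lit 23) (nat_lit 5) (nat_lit 390) (nat_lit 324) (nat_lit 147)) (XT.lf (nat_lit 0) (nat_lit 14999351157) (nat_lit 336) (nat_lit 31387973068) (nat_lit 84) (nat_lit 3736705116) (nat_lit 19) (nat_lit 5) (nat_lit 23) (nat_lit 5) (nat_lit 20) (nat_lit 5) (nat_lit 391) (nat_lit 324) (nat_lit 146)))) (XT.nd (nat_lit 94) (nat_lit 168) (nat_lit 0) (XT.lf (nat_lit 0) (nat_lit 19129323024) (nat_lit 336) (nat_lit 20114825511) (nat_lit 84) (nat_lit 12140268555) (nat_lit 19) (nat_lit 5) (nat_lit 23) (nat_lit 5) (nat_lit 20) (nat_lit 5) (nat_lit 392) (nat_lit 324) (nat_lit 145)) (XT.nd (nat_lit 94) (nat_lit 168) (nat_lit 0) (XT.lf (nat_lit 0) (nat_lit 23385124043) (nat_lit 336) (nat_lit 8495310734) (nat_lit 84) (nat_lit 20803518502)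 (nat_lit 19) (nat_lit 5) (nat_lit 23) (nat_lit 5) (nat_lit 20) (nat_lit 5) (nat_lit 393) (nat_lit 324) (nat_lit 144)) (XT.lf (nat_lit 0) (nat_lit 3552986628) (nat_lit 168) (nat_lit 24252980504) (nat_lit 252) (nat_lit 26216789451) (nat_lit 17) (nat_lit 5) (nat_lit 19) (nat_lit 5) (nat_lit 20) (nat_lit 5) (nat_lit 394) (nat_lit 324) (nat_lit 143))))) (XT.nd (nat_lit 282) (nat_lit 168) (nat_lit 0) (XT.nd (nat_lit 94) (nat_lit 0) (nat_lit 0) (XT.lf (nat_lit 0) (nat_lit 16151900644) (nat_lit 168) (nat_lit 16298530138) (nat_lit 252) (nat_lit 22949955934) (nat_lit 17) (nat_lit 5) (nat_lit 19) (nat_lit 5) (nat_lit 20) (nat_lit 5) (nat_lit 395) (nat_lit 324) (nat_lit 142)) (XT.nd (nat_lit 94) (nat_lit 0) (nat_lit 0) (XT.lf (nat_lit 0) (nat_lit 29138493807) (nat_lit 168) (nat_lit 8098342919) (nat_lit 252) (nat_lit 19583957276) (nat_lit 17) (nat_lit 5) (nat_lit 19) (nat_lit 5) (nat_lit 20) (nat_lit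 5) (nat_lit 396) (nat_lit 324) (nat_lit 141)) (XT.lf (nat_lit 0) (nat_lit 42173170269) (nat_lit 252) (nat_lit 15763955299) (nat_lit 84) (nat_lit 348067602) (nat_lit 17) (nat_lit 5) (nat_lit 20) (nat_lit 5) (nat_lit 18) (nat_lit 5) (nat_lit 397) (nat_lit 324) (nat_lit 140)))) (XT.nd (nat_lit 94) (nat_lit 168) (nat_lit 0) (XT.lf (nat_lit 0) (nat_lit 47343433728) (nat_lit 252) (nat_lit 3561743376) (nat_lit 84) (nat_lit 8887310654) (nat_lit 17) (nat_lit 5) (nat_lit 20) (nat_lit 5) (nat_lit 18) (nat_lit 5) (nat_lit 398) (nat_lit 324) (nat_lit 139)) (XT.nd (nat_lit 94) (nat_lit 0) (nat_lit 0) (XT.lf (nat_lit 0) (nat_lit 9201434272) (nat_lit 168) (nat_lit 43561954861) (nat_lit 252) (nat_lit 8580354362) (nat_lit 15) (nat_lit 5) (nat_lit 17) (nat_lit 5) (nat_lit 18) (nat_lit 5) (nat_lit 399) (nat_lit 324) (nat_lit 138)) (XT.lf (nat_lit 0) (nat_lit 22433113523) (nat_lit 168) (nat_lit 35953591008)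 (nat_lit 252) (nat_lit 4555294684) (nat_lit 15) (nat_lit 5) (nat_lit 17) (nat_lit 5) (nat_lit 18) (nat_lit 5) (nat_lit 400) (nat_lit 324) (nat_lit 137)))))) (XT.nd (nat_lit 564) (nat_lit 168) (nat_lit 0) (XT.nd (nat_lit 282) (nat_lit 168) (nat_lit 0) (XT.nd (nat_lit 94) (nat_lit 84) (nat_lit 0) (XT.lf (nat_lit 0) (nat_lit 36072390940) (nat_lit 168) (nat_lit 28110171049) (nat_lit 252) (nat_lit 407300516) (nat_lit 15) (nat_lit 5) (nat_lit 17) (nat_lit 5) (nat_lit 18) (nat_lit 5) (nat_lit 401) (nat_lit 324) (nat_lit 136)) (XT.nd (nat_lit 94) (nat_lit 0) (nat_lit 0) (XT.lf (nat_lit 0) (nat_lit 3789573111) (nat_lit 252) (nat_lit 16195255613) (nat_lit 84) (nat_lit 46302851274) (nat_lit 14) (nat_lit 5) (nat_lit 17) (nat_lit 5) (nat_lit 15) (nat_lit 5) (nat_lit 402) (nat_lit 324) (nat_lit 135)) (XT.lf (nat_lit 0) (nat_lit 8106390918) (nat_lit 252) (nat_lit 3497688331) (nat_lit 84) (nat_lit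 56433979969) (nat_lit 14) (nat_lit 5) (nat_lit 17) (nat_lit 5) (nat_lit 15) (nat_lit 5) (nat_lit 403) (nat_lit 324) (nat_lit 134)))) (XT.nd (nat_lit 94) (nat_lit 0) (nat_lit 0) (XT.lf (nat_lit 0) (nat_lit 9788319028) (nat_lit 168) (nat_lit 2864165138) (nat_lit 252) (nat_lit 57187262650) (nat_lit 12) (nat_lit 5) (nat_lit 14) (nat_lit 5) (nat_lit 15) (nat_lit 5) (nat_lit 404) (nat_lit 324) (nat_lit 133)) (XT.nd (nat_lit 94) (nat_lit 0) (nat_lit 0) (XT.lf (nat_lit 0) (nat_lit 17435735568) (nat_lit 252) (nat_lit 48199583857) (nat_lit 84) (nat_lit 6058989725) (nat_lit 12) (nat_lit 5) (nat_lit 15) (nat_lit 5) (nat_lit 13) (nat_lit 5) (nat_lit 405) (nat_lit 324) (nat_lit 132)) (XT.lf (nat_lit 0) (nat_lit 22394981689) (nat_lit 252) (nat_lit 36011975011) (nat_lit 84) (nat_lit 15198552446) (nat_lit 12) (nat_lit 5) (nat_lit 15) (nat_lit 5) (nat_lit 13) (nat_lit 5) (nat_lit 406) (nat_lit 324)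 (nat_lit 131))))) (XT.nd (nat_lit 282) (nat_lit 0) (nat_lit 0) (XT.nd (nat_lit 94) (nat_lit 168) (nat_lit 0) (XT.lf (nat_lit 0) (nat_lit 27506432194) (nat_lit 252) (nat_lit 23448828248) (nat_lit 84) (nat_lit 24620748599) (nat_lit 12) (nat_lit 5) (nat_lit 15) (nat_lit 5) (nat_lit 13) (nat_lit 5) (nat_lit 407) (nat_lit 324) (nat_lit 130)) (XT.nd (nat_lit 94) (nat_lit 168) (nat_lit 0) (XT.lf (nat_lit 0) (nat_lit 32774851491) (nat_lit 252) (nat_lit 10498433401) (nat_lit 84) (nat_lit 34334360657) (nat_lit 12) (nat_lit 5) (nat_lit 15) (nat_lit 5) (nat_lit 13) (nat_lit 5) (nat_lit 408) (nat_lit 324) (nat_lit 129)) (XT.lf (nat_lit 0) (nat_lit 2909908834) (nat_lit 168) (nat_lit 35324108118) (nat_lit 252) (nat_lit 41467400547) (nat_lit 10) (nat_lit 5) (nat_lit 12) (nat_lit 5) (nat_lit 13) (nat_lit 5) (nat_lit 409) (nat_lit 324) (nat_lit 128)))) (XT.nd (nat_lit 188) (nat_lit 0) (nat_lit 0) (XT.nd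 (nat_lit 94) (nat_lit 0) (nat_lit 0) (XT.lf (nat_lit 0) (nat_lit 16954349616) (nat_lit 168) (nat_lit 27016229851) (nat_lit 252) (nat_lit 37886168608) (nat_lit 10) (nat_lit 5) (nat_lit 12) (nat_lit 5) (nat_lit 13) (nat_lit 5) (nat_lit 410) (nat_lit 324) (nat_lit 127)) (XT.lf (nat_lit 0) (nat_lit 31432110512) (nat_lit 168) (nat_lit 18451488390) (nat_lit 252) (nat_lit 34195342271) (nat_lit 10) (nat_lit 5) (nat_lit 12) (nat_lit 5) (nat_lit 13) (nat_lit 5) (nat_lit 411) (nat_lit 324) (nat_lit 126))) (XT.nd (nat_lit 45872) (nat_lit 0) (nat_lit 6972) (XT.lf (nat_lit 0) (nat_lit 46356686312) (nat_lit 168) (nat_lit 9621900499) (nat_lit 252) (nat_lit 30391481298) (nat_lit 10) (nat_lit 5) (nat_lit 12) (nat_lit 5) (nat_lit 13) (nat_lit 5) (nat_lit 412) (nat_lit 324) (nat_lit 125)) (XT.lf (nat_lit 0) (nat_lit 496413374) (nat_lit 1092) (nat_lit 3127204783) (nat_lit 1092) (nat_lit 3127204783) (nat_lit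 93) (nat_lit 3) (nat_lit 106) (nat_lit 3) (nat_lit 106) (nat_lit 5) (nat_lit 325) (nat_lit 325) (nat_lit 211))))))))
noncomputable def xc171 : XT := (XT.nd (nat_lit 2256) (nat_lit 3108) (nat_lit 0) (XT.nd (nat_lit 1128) (nat_lit 1680) (nat_lit 0) (XT.nd (nat_lit 564) (nat_lit 0) (nat_lit 168) (XT.nd (nat_lit 282) (nat_lit 0) (nat_lit 84) (XT.nd (nat_lit 94) (nat_lit 0) (nat_lit 84) (XT.lf (nat_lit 0) (nat_lit 1310670432) (nat_lit 1092) (nat_lit 1529141979) (nat_lit 1092) (nat_lit 10860056106) (nat_lit 93) (nat_lit 3) (nat_lit 106) (nat_lit 3) (nat_lit 106) (nat_lit 5) (nat_lit 326) (nat_lit 325) (nat_lit 210)) (XT.nd (nat_lit 94) (nat_lit 0) (nat_lit 0) (XT.lf (nat_lit 0) (nat_lit 1677266640) (nat_lit 1008) (nat_lit 10516050902) (nat_lit 1092) (nat_lit 1709780197) (nat_lit 94) (nat_lit 5) (nat_lit 106) (nat_lit 5) (nat_lit 107) (nat_lit 5) (nat_lit 327) (nat_lit 325) (nat_lit 209))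 (XT.lf (nat_lit 0) (nat_lit 2088568983) (nat_lit 1008) (nat_lit 5660027909) (nat_lit 1092) (nat_lit 6363062119) (nat_lit 94) (nat_lit 5) (nat_lit 106) (nat_lit 5) (nat_lit 107) (nat_lit 5) (nat_lit 328) (nat_lit 325) (nat_lit 208)))) (XT.nd (nat_lit 94) (nat_lit 0) (nat_lit 84) (XT.lf (nat_lit 0) (nat_lit 2501150024) (nat_lit 1008) (nat_lit 660007779) (nat_lit 1092) (nat_lit 11165947067) (nat_lit 94) (nat_lit 5) (nat_lit 106) (nat_lit 5) (nat_lit 107) (nat_lit 5) (nat_lit 329) (nat_lit 325) (nat_lit 207)) (XT.nd (nat_lit 94) (nat_lit 0) (nat_lit 0) (XT.lf (nat_lit 0) (nat_lit 2976909956) (nat_lit 1008) (nat_lit 9983332958) (nat_lit 1092) (nat_lit 1587486235) (nat_lit 95) (nat_lit 5) (nat_lit 107) (nat_lit 5) (nat_lit 108) (nat_lit 5) (nat_lit 330) (nat_lit 325) (nat_lit 206)) (XT.lf (nat_lit 0) (nat_lit 3495900159) (nat_lit 1008) (nat_lit 4849352789) (nat_lit 1092) (nat_lit 6429116698)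 (nat_lit 95) (nat_lit 5) (nat_lit 107) (nat_lit 5) (nat_lit 108) (nat_lit 5) (nat_lit 331) (nat_lit 325) (nat_lit 205))))) (XT.nd (nat_lit 282) (nat_lit 0) (nat_lit 84) (XT.nd (nat_lit 94) (nat_lit 0) (nat_lit 84) (XT.lf (nat_lit 84) (nat_lit 446253436) (nat_lit 0) (nat_lit 3578668434) (nat_lit 1092) (nat_lit 10983359902) (nat_lit 96) (nat_lit 5) (nat_lit 95) (nat_lit 5) (nat_lit 108) (nat_lit 5) (nat_lit 332) (nat_lit 325) (nat_lit 204)) (XT.nd (nat_lit 94) (nat_lit 0) (nat_lit 0) (XT.lf (nat_lit 0) (nat_lit 4624533015) (nat_lit 1008) (nat_lit 9259679988) (nat_lit 1092) (nat_lit 1363608547) (nat_lit 96) (nat_lit 5) (nat_lit 108) (nat_lit 5) (nat_lit 109) (nat_lit 5) (nat_lit 333) (nat_lit 325) (nat_lit 203)) (XT.lf (nat_lit 0) (nat_lit 5269444670) (nat_lit 1008) (nat_lit 3836217161) (nat_lit 1092) (nat_lit 6388351706) (nat_lit 96) (nat_lit 5) (nat_lit 108) (nat_lit 5) (nat_lit 109)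 (nat_lit 5) (nat_lit 334) (nat_lit 325) (nat_lit 202)))) (XT.nd (nat_lit 94) (nat_lit 0) (nat_lit 84) (XT.lf (nat_lit 84) (nat_lit 1784877518) (nat_lit 0) (nat_lit 4157585815) (nat_lit 1092) (nat_lit 9805175511) (nat_lit 97) (nat_lit 5) (nat_lit 96) (nat_lit 5) (nat_lit 109) (nat_lit 5) (nat_lit 335) (nat_lit 325) (nat_lit 201)) (XT.nd (nat_lit 94) (nat_lit 0) (nat_lit 0) (XT.lf (nat_lit 0) (nat_lit 6676823809) (nat_lit 1008) (nat_lit 8362868893) (nat_lit 1092) (nat_lit 968230342) (nat_lit 97) (nat_lit 5) (nat_lit 109) (nat_lit 5) (nat_lit 110) (nat_lit 5) (nat_lit 336) (nat_lit 325) (nat_lit 200)) (XT.lf (nat_lit 0) (nat_lit 7467415569) (nat_lit 1008) (nat_lit 2638461416) (nat_lit 1092) (nat_lit 6169411409) (nat_lit 97) (nat_lit 5) (nat_lit 109) (nat_lit 5) (nat_lit 110) (nat_lit 5) (nat_lit 337) (nat_lit 325) (nat_lit 199)))))) (XT.nd (nat_lit 564) (nat_lit 1176) (nat_lit 0) (XT.nd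 (nat_lit 282) (nat_lit 840) (nat_lit 0) (XT.nd (nat_lit 94) (nat_lit 0) (nat_lit 84) (XT.lf (nat_lit 84) (nat_lit 3324012053) (nat_lit 0) (nat_lit 4982694321) (nat_lit 1092) (nat_lit 8243534079) (nat_lit 98) (nat_lit 5) (nat_lit 97) (nat_lit 5) (nat_lit 110) (nat_lit 5) (nat_lit 338) (nat_lit 325) (nat_lit 198)) (XT.nd (nat_lit 94) (nat_lit 0) (nat_lit 0) (XT.lf (nat_lit 0) (nat_lit 9194246545) (nat_lit 1008) (nat_lit 7315490139) (nat_lit 1092) (nat_lit 323337010) (nat_lit 98) (nat_lit 5) (nat_lit 110) (nat_lit 5) (nat_lit 111) (nat_lit 5) (nat_lit 339) (nat_lit 325) (nat_lit 197)) (XT.lf (nat_lit 0) (nat_lit 10151959465) (nat_lit 1008) (nat_lit 1278914006) (nat_lit 1092) (nat_lit 5692524298) (nat_lit 98) (nat_lit 5) (nat_lit 110) (nat_lit 5) (nat_lit 111) (nat_lit 5) (nat_lit 340) (nat_lit 325) (nat_lit 196)))) (XT.nd (nat_lit 94) (nat_lit 924) (nat_lit 0) (XT.lf (nat_lit 84) (nat_lit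 5040102496) (nat_lit 0) (nat_lit 6141204822) (nat_lit 1092) (nat_lit 6240158319) (nat_lit 99) (nat_lit 5) (nat_lit 98) (nat_lit 5) (nat_lit 111) (nat_lit 5) (nat_lit 341) (nat_lit 325) (nat_lit 195)) (XT.nd (nat_lit 94) (nat_lit 924) (nat_lit 0) (XT.lf (nat_lit 84) (nat_lit 11575943671) (nat_lit 0) (nat_lit 672098764) (nat_lit 1092) (nat_lit 5480604114) (nat_lit 99) (nat_lit 5) (nat_lit 98) (nat_lit 5) (nat_lit 111) (nat_lit 5) (nat_lit 342) (nat_lit 325) (nat_lit 194)) (XT.lf (nat_lit 0) (nat_lit 217881022) (nat_lit 1008) (nat_lit 13173776742) (nat_lit 1092) (nat_lit 4652375606) (nat_lit 87) (nat_lit 5) (nat_lit 99) (nat_lit 5) (nat_lit 100) (nat_lit 5) (nat_lit 343) (nat_lit 325) (nat_lit 193))))) (XT.nd (nat_lit 282) (nat_lit 588) (nat_lit 0) (XT.nd (nat_lit 94) (nat_lit 588) (nat_lit 0) (XT.lf (nat_lit 0) (nat_lit 6903149538) (nat_lit 1008) (nat_lit 7731150215) (nat_lit 1092) (nat_lit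 3732966830) (nat_lit 87) (nat_lit 5) (nat_lit 99) (nat_lit 5) (nat_lit 100) (nat_lit 5) (nat_lit 344) (nat_lit 325) (nat_lit 192)) (XT.nd (nat_lit 94) (nat_lit 588) (nat_lit 0) (XT.lf (nat_lit 0) (nat_lit 13789626244) (nat_lit 1008) (nat_lit 2118610033) (nat_lit 1092) (nat_lit 2792546795) (nat_lit 87) (nat_lit 5) (nat_lit 99) (nat_lit 5) (nat_lit 100) (nat_lit 5) (nat_lit 345) (nat_lit 325) (nat_lit 191)) (XT.lf (nat_lit 0) (nat_lit 1839500499) (nat_lit 588) (nat_lit 15429800036) (nat_lit 672) (nat_lit 1773899160) (nat_lit 80) (nat_lit 5) (nat_lit 87) (nat_lit 5) (nat_lit 88) (nat_lit 5) (nat_lit 346) (nat_lit 325) (nat_lit 190)))) (XT.nd (nat_lit 94) (nat_lit 588) (nat_lit 0) (XT.lf (nat_lit 0) (nat_lit 8875369888) (nat_lit 588) (nat_lit 9863051078) (nat_lit 672) (nat_lit 655805200) (nat_lit 80) (nat_lit 5) (nat_lit 87) (nat_lit 5) (nat_lit 88) (nat_lit 5) (nat_lit 347) (nat_lit 325)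 (nat_lit 189)) (XT.nd (nat_lit 94) (nat_lit 504) (nat_lit 0) (XT.lf (nat_lit 0) (nat_lit 480192101) (nat_lit 672) (nat_lit 3637762402) (nat_lit 84) (nat_lit 15638270748) (nat_lit 79) (nat_lit 5) (nat_lit 87) (nat_lit 5) (nat_lit 80) (nat_lit 5) (nat_lit 348) (nat_lit 325) (nat_lit 188)) (XT.lf (nat_lit 0) (nat_lit 1684448614) (nat_lit 588) (nat_lit 16631846162) (nat_lit 84) (nat_lit 1811530441) (nat_lit 73) (nat_lit 5) (nat_lit 80) (nat_lit 5) (nat_lit 74) (nat_lit 5) (nat_lit 349) (nat_lit 325) (nat_lit 187))))))) (XT.nd (nat_lit 1128) (nat_lit 1428) (nat_lit 0) (XT.nd (nat_lit 564) (nat_lit 756) (nat_lit 0) (XT.nd (nat_lit 282) (nat_lit 420) (nat_lit 0) (XT.nd (nat_lit 94) (nat_lit 504) (nat_lit 0) (XT.lf (nat_lit 0) (nat_lit 3000115868) (nat_lit 588) (nat_lit 9630332828) (nat_lit 84) (nat_lit 7878232115) (nat_lit 73) (nat_lit 5) (nat_lit 80) (nat_lit 5) (nat_lit 74) (nat_lit 5)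 (nat_lit 350) (nat_lit 325) (nat_lit 186)) (XT.nd (nat_lit 94) (nat_lit 504) (nat_lit 0) (XT.lf (nat_lit 0) (nat_lit 4350363833) (nat_lit 588) (nat_lit 2417635774) (nat_lit 84) (nat_lit 14133567174) (nat_lit 73) (nat_lit 5) (nat_lit 80) (nat_lit 5) (nat_lit 74) (nat_lit 5) (nat_lit 351) (nat_lit 325) (nat_lit 185)) (XT.lf (nat_lit 0) (nat_lit 5116044893) (nat_lit 504) (nat_lit 671157986) (nat_lit 588) (nat_lit 15518073149) (nat_lit 67) (nat_lit 5) (nat_lit 73) (nat_lit 5) (nat_lit 74) (nat_lit 5) (nat_lit 352) (nat_lit 325) (nat_lit 184)))) (XT.nd (nat_lit 94) (nat_lit 420) (nat_lit 0) (XT.lf (nat_lit 0) (nat_lit 7343884902) (nat_lit 588) (nat_lit 8847996443) (nat_lit 84) (nat_lit 5527314219) (nat_lit 67) (nat_lit 5) (nat_lit 74) (nat_lit 5) (nat_lit 68) (nat_lit 5) (nat_lit 353) (nat_lit 325) (nat_lit 183)) (XT.nd (nat_lit 94) (nat_lit 420) (nat_lit 0) (XT.lf (nat_lit 0) (nat_lit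 8949974886) (nat_lit 588) (nat_lit 1291716384) (nat_lit 84) (nat_lit 11904248401) (nat_lit 67) (nat_lit 5) (nat_lit 74) (nat_lit 5) (nat_lit 68) (nat_lit 5) (nat_lit 354) (nat_lit 325) (nat_lit 182)) (XT.lf (nat_lit 0) (nat_lit 6626826033) (nat_lit 420) (nat_lit 4039224808) (nat_lit 504) (nat_lit 11918023768) (nat_lit 62) (nat_lit 5) (nat_lit 67) (nat_lit 5) (nat_lit 68) (nat_lit 5) (nat_lit 355) (nat_lit 325) (nat_lit 181))))) (XT.nd (nat_lit 282) (nat_lit 336) (nat_lit 0) (XT.nd (nat_lit 94) (nat_lit 420) (nat_lit 0) (XT.lf (nat_lit 0) (nat_lit 12466883704) (nat_lit 504) (nat_lit 8246289359) (nat_lit 84) (nat_lit 2321667389) (nat_lit 62) (nat_lit 5) (nat_lit 68) (nat_lit 5) (nat_lit 63) (nat_lit 5) (nat_lit 356) (nat_lit 325) (nat_lit 180)) (XT.nd (nat_lit 94) (nat_lit 420) (nat_lit 0) (XT.lf (nat_lit 0) (nat_lit 14359588153) (nat_lit 504) (nat_lit 343070308) (nat_lit 84) (nat_lit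 8795830382) (nat_lit 62) (nat_lit 5) (nat_lit 68) (nat_lit 5) (nat_lit 63) (nat_lit 5) (nat_lit 357) (nat_lit 325) (nat_lit 179)) (XT.lf (nat_lit 0) (nat_lit 7960225623) (nat_lit 420) (nat_lit 8424599576) (nat_lit 504) (nat_lit 7589420948) (nat_lit 57) (nat_lit 5) (nat_lit 62) (nat_lit 5) (nat_lit 63) (nat_lit 5) (nat_lit 358) (nat_lit 325) (nat_lit 178)))) (XT.nd (nat_lit 94) (nat_lit 336) (nat_lit 0) (XT.lf (nat_lit 0) (nat_lit 16522946618) (nat_lit 420) (nat_lit 1948472761) (nat_lit 504) (nat_lit 5993401404) (nat_lit 57) (nat_lit 5) (nat_lit 62) (nat_lit 5) (nat_lit 63) (nat_lit 5) (nat_lit 359) (nat_lit 325) (nat_lit 177)) (XT.nd (nat_lit 94) (nat_lit 0) (nat_lit 0) (XT.lf (nat_lit 0) (nat_lit 335089308) (nat_lit 336) (nat_lit 20332981261) (nat_lit 420) (nat_lit 4301150042) (nat_lit 53) (nat_lit 5) (nat_lit 57) (nat_lit 5) (nat_lit 58) (nat_lit 5) (nat_lit 360) (nat_lit 325) (nat_lit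 176)) (XT.lf (nat_lit 0) (nat_lit 9011453173) (nat_lit 336) (nat_lit 14019224575) (nat_lit 420) (nat_lit 2455568642) (nat_lit 53) (nat_lit 5) (nat_lit 57) (nat_lit 5) (nat_lit 58) (nat_lit 5) (nat_lit 361) (nat_lit 325) (nat_lit 175)))))) (XT.nd (nat_lit 564) (nat_lit 588) (nat_lit 0) (XT.nd (nat_lit 282) (nat_lit 336) (nat_lit 0) (XT.nd (nat_lit 94) (nat_lit 504) (nat_lit 0) (XT.lf (nat_lit 0) (nat_lit 17951730023) (nat_lit 336) (nat_lit 7510175345) (nat_lit 420) (nat_lit 557560344) (nat_lit 53) (nat_lit 5) (nat_lit 57) (nat_lit 5) (nat_lit 58) (nat_lit 5) (nat_lit 362) (nat_lit 325) (nat_lit 174)) (XT.nd (nat_lit 94) (nat_lit 0) (nat_lit 0) (XT.lf (nat_lit 0) (nat_lit 592989924) (nat_lit 420) (nat_lit 779437635) (nat_lit 504) (nat_lit 25196336789) (nat_lit 47) (nat_lit 5) (nat_lit 52) (nat_lit 5) (nat_lit 53) (nat_lit 5) (nat_lit 363) (nat_lit 325) (nat_lit 173)) (XT.lf (nat_lit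 0) (nat_lit 3492376443) (nat_lit 504) (nat_lit 17512042294) (nat_lit 84) (nat_lit 6126123160) (nat_lit 47) (nat_lit 5) (nat_lit 53) (nat_lit 5) (nat_lit 48) (nat_lit 5) (nat_lit 364) (nat_lit 325) (nat_lit 172)))) (XT.nd (nat_lit 94) (nat_lit 336) (nat_lit 0) (XT.lf (nat_lit 0) (nat_lit 5681683652) (nat_lit 504) (nat_lit 8798872399) (nat_lit 84) (nat_lit 13229085587) (nat_lit 47) (nat_lit 5) (nat_lit 53) (nat_lit 5) (nat_lit 48) (nat_lit 5) (nat_lit 365) (nat_lit 325) (nat_lit 171)) (XT.nd (nat_lit 94) (nat_lit 0) (nat_lit 0) (XT.lf (nat_lit 0) (nat_lit 183281684) (nat_lit 336) (nat_lit 7753194225) (nat_lit 420) (nat_lit 20370310775) (nat_lit 43) (nat_lit 5) (nat_lit 47) (nat_lit 5) (nat_lit 48) (nat_lit 5) (nat_lit 366) (nat_lit 325) (nat_lit 170)) (XT.lf (nat_lit 0) (nat_lit 9625645986) (nat_lit 336) (nat_lit 723240306) (nat_lit 420) (nat_lit 18570856372) (nat_lit 43) (nat_lit 5)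 (nat_lit 47) (nat_lit 5) (nat_lit 48) (nat_lit 5) (nat_lit 367) (nat_lit 325) (nat_lit 169))))) (XT.nd (nat_lit 282) (nat_lit 252) (nat_lit 0) (XT.nd (nat_lit 94) (nat_lit 336) (nat_lit 0) (XT.lf (nat_lit 0) (nat_lit 12896801786) (nat_lit 420) (nat_lit 10260462551) (nat_lit 84) (nat_lit 6392571789) (nat_lit 43) (nat_lit 5) (nat_lit 48) (nat_lit 5) (nat_lit 44) (nat_lit 5) (nat_lit 368) (nat_lit 325) (nat_lit 168)) (XT.nd (nat_lit 94) (nat_lit 336) (nat_lit 0) (XT.lf (nat_lit 0) (nat_lit 15527215257) (nat_lit 420) (nat_lit 958800267) (nat_lit 84) (nat_lit 13713355707) (nat_lit 43) (nat_lit 5) (nat_lit 48) (nat_lit 5) (nat_lit 44) (nat_lit 5) (nat_lit 369) (nat_lit 325) (nat_lit 167)) (XT.lf (nat_lit 0) (nat_lit 8804118293) (nat_lit 336) (nat_lit 9518623542) (nat_lit 420) (nat_lit 12543726513) (nat_lit 39) (nat_lit 5) (nat_lit 43) (nat_lit 5) (nat_lit 44) (nat_lit 5) (nat_lit 370) (nat_lit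 325) (nat_lit 166)))) (XT.nd (nat_lit 188) (nat_lit 252) (nat_lit 0) (XT.nd (nat_lit 94) (nat_lit 0) (nat_lit 0) (XT.lf (nat_lit 0) (nat_lit 18885580117) (nat_lit 336) (nat_lit 2325659183) (nat_lit 420) (nat_lit 10342827170) (nat_lit 39) (nat_lit 5) (nat_lit 43) (nat_lit 5) (nat_lit 44) (nat_lit 5) (nat_lit 371) (nat_lit 325) (nat_lit 165)) (XT.lf (nat_lit 0) (nat_lit 24236182248) (nat_lit 420) (nat_lit 3038329350) (nat_lit 84) (nat_lit 4987030661) (nat_lit 39) (nat_lit 5) (nat_lit 44) (nat_lit 5) (nat_lit 40) (nat_lit 5) (nat_lit 372) (nat_lit 325) (nat_lit 164))) (XT.nd (nat_lit 94) (nat_lit 0) (nat_lit 0) (XT.lf (nat_lit 0) (nat_lit 7003391947) (nat_lit 252) (nat_lit 20441280872) (nat_lit 336) (nat_lit 5543509580) (nat_lit 36) (nat_lit 5) (nat_lit 39) (nat_lit 5) (nat_lit 40) (nat_lit 5) (nat_lit 373) (nat_lit 325) (nat_lit 163)) (XT.lf (nat_lit 0) (nat_lit 17416573706) (nat_lit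 252) (nat_lit 13364343394) (nat_lit 336) (nat_lit 2955569416) (nat_lit 36) (nat_lit 5) (nat_lit 39) (nat_lit 5) (nat_lit 40) (nat_lit 5) (nat_lit 374) (nat_lit 325) (nat_lit 162))))))))
noncomputable def xc172 : XT := (XT.nd (nat_lit 2256) (nat_lit 588) (nat_lit 0) (XT.nd (nat_lit 1128) (nat_lit 672) (nat_lit 0) (XT.nd (nat_lit 564) (nat_lit 252) (nat_lit 0) (XT.nd (nat_lit 282) (nat_lit 252) (nat_lit 0) (XT.nd (nat_lit 94) (nat_lit 420) (nat_lit 0) (XT.lf (nat_lit 0) (nat_lit 28148447819) (nat_lit 252) (nat_lit 6068816646) (nat_lit 336) (nat_lit 290841213) (nat_lit 36) (nat_lit 5) (nat_lit 39) (nat_lit 5) (nat_lit 40) (nat_lit 5) (nat_lit 375) (nat_lit 325) (nat_lit 161)) (XT.nd (nat_lit 94) (nat_lit 0) (nat_lit 0) (XT.lf (nat_lit 0) (nat_lit 2458079764) (nat_lit 420) (nat_lit 31356119956) (nat_lit 84) (nat_lit 1487120243) (nat_lit 31) (nat_lit 5) (nat_lit 36) (nat_lit 5) (nat_lit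 32) (nat_lit 5) (nat_lit 376) (nat_lit 325) (nat_lit 160)) (XT.lf (nat_lit 0) (nat_lit 5412088809) (nat_lit 420) (nat_lit 21482596447) (nat_lit 84) (nat_lit 9220456519) (nat_lit 31) (nat_lit 5) (nat_lit 36) (nat_lit 5) (nat_lit 32) (nat_lit 5) (nat_lit 377) (nat_lit 325) (nat_lit 159)))) (XT.nd (nat_lit 94) (nat_lit 252) (nat_lit 0) (XT.lf (nat_lit 0) (nat_lit 8454551417) (nat_lit 420) (nat_lit 11307006312) (nat_lit 84) (nat_lit 17192744071) (nat_lit 31) (nat_lit 5) (nat_lit 36) (nat_lit 5) (nat_lit 32) (nat_lit 5) (nat_lit 378) (nat_lit 325) (nat_lit 158)) (XT.nd (nat_lit 94) (nat_lit 252) (nat_lit 0) (XT.lf (nat_lit 0) (nat_lit 11588303482) (nat_lit 420) (nat_lit 819864835) (nat_lit 84) (nat_lit 25411413906) (nat_lit 31) (nat_lit 5) (nat_lit 36) (nat_lit 5) (nat_lit 32) (nat_lit 5) (nat_lit 379) (nat_lit 325) (nat_lit 157)) (XT.lf (nat_lit 0) (nat_lit 10193989262) (nat_lit 252) (nat_lit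 4723402361) (nat_lit 336) (nat_lit 23791263057) (nat_lit 28) (nat_lit 5) (nat_lit 31) (nat_lit 5) (nat_lit 32) (nat_lit 5) (nat_lit 380) (nat_lit 325) (nat_lit 156))))) (XT.nd (nat_lit 282) (nat_lit 0) (nat_lit 0) (XT.nd (nat_lit 94) (nat_lit 252) (nat_lit 0) (XT.lf (nat_lit 0) (nat_lit 18387173957) (nat_lit 336) (nat_lit 18094026964) (nat_lit 84) (nat_lit 3142937056) (nat_lit 28) (nat_lit 5) (nat_lit 32) (nat_lit 5) (nat_lit 29) (nat_lit 5) (nat_lit 381) (nat_lit 325) (nat_lit 155)) (XT.nd (nat_lit 94) (nat_lit 252) (nat_lit 0) (XT.lf (nat_lit 0) (nat_lit 22010022709) (nat_lit 336) (nat_lit 7402372407) (nat_lit 84) (nat_lit 11154207041) (nat_lit 28) (nat_lit 5) (nat_lit 32) (nat_lit 5) (nat_lit 29) (nat_lit 5) (nat_lit 382) (nat_lit 325) (nat_lit 154)) (XT.lf (nat_lit 0) (nat_lit 3691496150) (nat_lit 252) (nat_lit 22087581967) (nat_lit 336) (nat_lit 15758164915) (nat_lit 25) (nat_lit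 5) (nat_lit 28) (nat_lit 5) (nat_lit 29) (nat_lit 5) (nat_lit 383) (nat_lit 325) (nat_lit 153)))) (XT.nd (nat_lit 94) (nat_lit 0) (nat_lit 0) (XT.lf (nat_lit 0) (nat_lit 15282634801) (nat_lit 252) (nat_lit 14456929736) (nat_lit 336) (nat_lit 12796107759) (nat_lit 25) (nat_lit 5) (nat_lit 28) (nat_lit 5) (nat_lit 29) (nat_lit 5) (nat_lit 384) (nat_lit 325) (nat_lit 152)) (XT.nd (nat_lit 94) (nat_lit 0) (nat_lit 0) (XT.lf (nat_lit 0) (nat_lit 27229639743) (nat_lit 252) (nat_lit 6590591440) (nat_lit 336) (nat_lit 9744912620) (nat_lit 25) (nat_lit 5) (nat_lit 28) (nat_lit 5) (nat_lit 29) (nat_lit 5) (nat_lit 385) (nat_lit 325) (nat_lit 151)) (XT.lf (nat_lit 0) (nat_lit 38039948002) (nat_lit 336) (nat_lit 5098036629) (nat_lit 84) (nat_lit 1488165437) (nat_lit 25) (nat_lit 5) (nat_lit 29) (nat_lit 5) (nat_lit 26) (nat_lit 5) (nat_lit 386) (nat_lit 325) (nat_lit 150)))))) (XT.nd (nat_lit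 564) (nat_lit 168) (nat_lit 0) (XT.nd (nat_lit 282) (nat_lit 252) (nat_lit 0) (XT.nd (nat_lit 94) (nat_lit 84) (nat_lit 0) (XT.lf (nat_lit 0) (nat_lit 6549002236) (nat_lit 168) (nat_lit 35971397747) (nat_lit 252) (nat_lit 3195629777) (nat_lit 23) (nat_lit 5) (nat_lit 25) (nat_lit 5) (nat_lit 26) (nat_lit 5) (nat_lit 387) (nat_lit 325) (nat_lit 149)) (XT.nd (nat_lit 94) (nat_lit 0) (nat_lit 0) (XT.lf (nat_lit 0) (nat_lit 345319892) (nat_lit 252) (nat_lit 28179749279) (nat_lit 84) (nat_lit 18312952801) (nat_lit 22) (nat_lit 5) (nat_lit 25) (nat_lit 5) (nat_lit 23) (nat_lit 5) (nat_lit 388) (nat_lit 325) (nat_lit 148)) (XT.lf (nat_lit 0) (nat_lit 3927289383) (nat_lit 252) (nat_lit 16887805620) (nat_lit 84) (nat_lit 27178770187) (nat_lit 22) (nat_lit 5) (nat_lit 25) (nat_lit 5) (nat_lit 23) (nat_lit 5) (nat_lit 389) (nat_lit 325) (nat_lit 147)))) (XT.nd (nat_lit 94) (nat_lit 252) (nat_lit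 0) (XT.lf (nat_lit 0) (nat_lit 7618002284) (nat_lit 252) (nat_lit 5248970229) (nat_lit 84) (nat_lit 36318646999) (nat_lit 22) (nat_lit 5) (nat_lit 25) (nat_lit 5) (nat_lit 23) (nat_lit 5) (nat_lit 390) (nat_lit 325) (nat_lit 146)) (XT.nd (nat_lit 94) (nat_lit 0) (nat_lit 0) (XT.lf (nat_lit 0) (nat_lit 6886350114) (nat_lit 252) (nat_lit 4602862057) (nat_lit 336) (nat_lit 38923065891) (nat_lit 19) (nat_lit 5) (nat_lit 22) (nat_lit 5) (nat_lit 23) (nat_lit 5) (nat_lit 391) (nat_lit 325) (nat_lit 145)) (XT.lf (nat_lit 0) (nat_lit 15572439878) (nat_lit 336) (nat_lit 32208645946) (nat_lit 84) (nat_lit 3893033103) (nat_lit 19) (nat_lit 5) (nat_lit 23) (nat_lit 5) (nat_lit 20) (nat_lit 5) (nat_lit 392) (nat_lit 325) (nat_lit 144))))) (XT.nd (nat_lit 282) (nat_lit 0) (nat_lit 0) (XT.nd (nat_lit 94) (nat_lit 168) (nat_lit 0) (XT.lf (nat_lit 0) (nat_lit 19827190268) (nat_lit 336) (nat_lit 20590611787)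 (nat_lit 84) (nat_lit 12555889556) (nat_lit 19) (nat_lit 5) (nat_lit 23) (nat_lit 5) (nat_lit 20) (nat_lit 5) (nat_lit 393) (nat_lit 325) (nat_lit 143)) (XT.nd (nat_lit 94) (nat_lit 168) (nat_lit 0) (XT.lf (nat_lit 0) (nat_lit 24211768252) (nat_lit 336) (nat_lit 8615335284) (nat_lit 84) (nat_lit 21486519405) (nat_lit 19) (nat_lit 5) (nat_lit 23) (nat_lit 5) (nat_lit 20) (nat_lit 5) (nat_lit 394) (nat_lit 325) (nat_lit 142)) (XT.lf (nat_lit 0) (nat_lit 3805008208) (nat_lit 168) (nat_lit 24962998661) (nat_lit 252) (nat_lit 26925984875) (nat_lit 17) (nat_lit 5) (nat_lit 19) (nat_lit 5) (nat_lit 20) (nat_lit 5) (nat_lit 395) (nat_lit 325) (nat_lit 141)))) (XT.nd (nat_lit 94) (nat_lit 0) (nat_lit 0) (XT.lf (nat_lit 0) (nat_lit 16790222555) (nat_lit 168) (nat_lit 16763217900) (nat_lit 252) (nat_lit 23560992300) (nat_lit 17) (nat_lit 5) (nat_lit 19) (nat_lit 5) (nat_lit 20) (nat_lit 5) (nat_lit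 396) (nat_lit 325) (nat_lit 140)) (XT.nd (nat_lit 94) (nat_lit 0) (nat_lit 0) (XT.lf (nat_lit 0) (nat_lit 30175262373) (nat_lit 168) (nat_lit 8310044632) (nat_lit 252) (nat_lit 20093666869) (nat_lit 17) (nat_lit 5) (nat_lit 19) (nat_lit 5) (nat_lit 20) (nat_lit 5) (nat_lit 397) (nat_lit 325) (nat_lit 139)) (XT.lf (nat_lit 0) (nat_lit 43572215237) (nat_lit 252) (nat_lit 16120387987) (nat_lit 84) (nat_lit 396252620) (nat_lit 17) (nat_lit 5) (nat_lit 20) (nat_lit 5) (nat_lit 18) (nat_lit 5) (nat_lit 398) (nat_lit 325) (nat_lit 138))))))) (XT.nd (nat_lit 1128) (nat_lit 0) (nat_lit 0) (XT.nd (nat_lit 564) (nat_lit 336) (nat_lit 0) (XT.nd (nat_lit 282) (nat_lit 84) (nat_lit 0) (XT.nd (nat_lit 94) (nat_lit 168) (nat_lit 0) (XT.lf (nat_lit 0) (nat_lit 48900000338) (nat_lit 252) (nat_lit 3543883971) (nat_lit 84) (nat_lit 9199087820) (nat_lit 17) (nat_lit 5) (nat_lit 20) (nat_lit 5) (nat_lit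 18) (nat_lit 5) (nat_lit 399) (nat_lit 325) (nat_lit 137)) (XT.nd (nat_lit 94) (nat_lit 0) (nat_lit 0) (XT.lf (nat_lit 0) (nat_lit 9613653530) (nat_lit 168) (nat_lit 44872906794) (nat_lit 252) (nat_lit 8755810114) (nat_lit 15) (nat_lit 5) (nat_lit 17) (nat_lit 5) (nat_lit 18) (nat_lit 5) (nat_lit 400) (nat_lit 325) (nat_lit 136)) (XT.lf (nat_lit 0) (nat_lit 23251696974) (nat_lit 168) (nat_lit 37029870401) (nat_lit 252) (nat_lit 4608695790) (nat_lit 15) (nat_lit 5) (nat_lit 17) (nat_lit 5) (nat_lit 18) (nat_lit 5) (nat_lit 401) (nat_lit 325) (nat_lit 135)))) (XT.nd (nat_lit 94) (nat_lit 84) (nat_lit 0) (XT.lf (nat_lit 0) (nat_lit 37310088920) (nat_lit 168) (nat_lit 28944455480) (nat_lit 252) (nat_lit 334754156) (nat_lit 15) (nat_lit 5) (nat_lit 17) (nat_lit 5) (nat_lit 18) (nat_lit 5) (nat_lit 402) (nat_lit 325) (nat_lit 134)) (XT.nd (nat_lit 94) (nat_lit 0) (nat_lit 0) (XT.lf (nat_lit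 0) (nat_lit 3987997148) (nat_lit 252) (nat_lit 16579501918) (nat_lit 84) (nat_lit 47772309604) (nat_lit 14) (nat_lit 5) (nat_lit 17) (nat_lit 5) (nat_lit 15) (nat_lit 5) (nat_lit 403) (nat_lit 325) (nat_lit 133)) (XT.lf (nat_lit 0) (nat_lit 8436202394) (nat_lit 252) (nat_lit 3491852247) (nat_lit 84) (nat_lit 58216478877) (nat_lit 14) (nat_lit 5) (nat_lit 17) (nat_lit 5) (nat_lit 15) (nat_lit 5) (nat_lit 404) (nat_lit 325) (nat_lit 132))))) (XT.nd (nat_lit 282) (nat_lit 168) (nat_lit 0) (XT.nd (nat_lit 94) (nat_lit 0) (nat_lit 0) (XT.lf (nat_lit 0) (nat_lit 10204864516) (nat_lit 168) (nat_lit 2917121327) (nat_lit 252) (nat_lit 58880134156) (nat_lit 12) (nat_lit 5) (nat_lit 14) (nat_lit 5) (nat_lit 15) (nat_lit 5) (nat_lit 405) (nat_lit 325) (nat_lit 131)) (XT.nd (nat_lit 94) (nat_lit 0) (nat_lit 0) (XT.lf (nat_lit 0) (nat_lit 18051539330) (nat_lit 252) (nat_lit 49581830026) (nat_lit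 84) (nat_lit 6280873670) (nat_lit 12) (nat_lit 5) (nat_lit 15) (nat_lit 5) (nat_lit 13) (nat_lit 5) (nat_lit 406) (nat_lit 325) (nat_lit 130)) (XT.lf (nat_lit 0) (nat_lit 23162258090) (nat_lit 252) (nat_lit 37019771134) (nat_lit 84) (nat_lit 15702738865) (nat_lit 12) (nat_lit 5) (nat_lit 15) (nat_lit 5) (nat_lit 13) (nat_lit 5) (nat_lit 407) (nat_lit 325) (nat_lit 129)))) (XT.nd (nat_lit 94) (nat_lit 168) (nat_lit 0) (XT.lf (nat_lit 0) (nat_lit 28429967643) (nat_lit 252) (nat_lit 24070431446) (nat_lit 84) (nat_lit 25416029917) (nat_lit 12) (nat_lit 5) (nat_lit 15) (nat_lit 5) (nat_lit 13) (nat_lit 5) (nat_lit 408) (nat_lit 325) (nat_lit 128)) (XT.nd (nat_lit 94) (nat_lit 168) (nat_lit 0) (XT.lf (nat_lit 0) (nat_lit 33859578047) (nat_lit 252) (nat_lit 10721740823) (nat_lit 84) (nat_lit 35429800631) (nat_lit 12) (nat_lit 5) (nat_lit 15) (nat_lit 5) (nat_lit 13) (nat_lit 5) (nat_lit 409)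 (nat_lit 325) (nat_lit 127)) (XT.lf (nat_lit 0) (nat_lit 3101225905) (nat_lit 168) (nat_lit 36385688906) (nat_lit 252) (nat_lit 42682923530) (nat_lit 10) (nat_lit 5) (nat_lit 12) (nat_lit 5) (nat_lit 13) (nat_lit 5) (nat_lit 410) (nat_lit 325) (nat_lit 126)))))) (XT.nd (nat_lit 46436) (nat_lit 0) (nat_lit 7056) (XT.nd (nat_lit 46154) (nat_lit 0) (nat_lit 6972) (XT.nd (nat_lit 94) (nat_lit 0) (nat_lit 0) (XT.lf (nat_lit 0) (nat_lit 17578004189) (nat_lit 168) (nat_lit 27821272681) (nat_lit 252) (nat_lit 38992777144) (nat_lit 10) (nat_lit 5) (nat_lit 12) (nat_lit 5) (nat_lit 13) (nat_lit 5) (nat_lit 411) (nat_lit 325) (nat_lit 125)) (XT.nd (nat_lit 45966) (nat_lit 0) (nat_lit 6972) (XT.lf (nat_lit 0) (nat_lit 32501626923) (nat_lit 168) (nat_lit 18992000248) (nat_lit 252) (nat_lit 35189575678) (nat_lit 10) (nat_lit 5) (nat_lit 12) (nat_lit 5) (nat_lit 13) (nat_lit 5) (nat_lit 412) (nat_lit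 325) (nat_lit 124)) (XT.lf (nat_lit 0) (nat_lit 811256668) (nat_lit 1092) (nat_lit 3068949277) (nat_lit 1092) (nat_lit 3068949277) (nat_lit 93) (nat_lit 3) (nat_lit 106) (nat_lit 3) (nat_lit 106) (nat_lit 5) (nat_lit 326) (nat_lit 326) (nat_lit 209)))) (XT.nd (nat_lit 94) (nat_lit 0) (nat_lit 84) (XT.lf (nat_lit 0) (nat_lit 1932202241) (nat_lit 1092) (nat_lit 1275480677) (nat_lit 1092) (nat_lit 10895653142) (nat_lit 93) (nat_lit 3) (nat_lit 106) (nat_lit 3) (nat_lit 106) (nat_lit 5) (nat_lit 327) (nat_lit 326) (nat_lit 208)) (XT.nd (nat_lit 94) (nat_lit 0) (nat_lit 0) (XT.lf (nat_lit 0) (nat_lit 2292990517) (nat_lit 1008) (nat_lit 10520687747) (nat_lit 1092) (nat_lit 1499816302) (nat_lit 94) (nat_lit 5) (nat_lit 106) (nat_lit 5) (nat_lit 107) (nat_lit 5) (nat_lit 328) (nat_lit 326) (nat_lit 207)) (XT.lf (nat_lit 0) (nat_lit 2700093101) (nat_lit 1008) (nat_lit 5523790681) (nat_lit 1092)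 (nat_lit 6305256830) (nat_lit 94) (nat_lit 5) (nat_lit 106) (nat_lit 5) (nat_lit 107) (nat_lit 5) (nat_lit 329) (nat_lit 326) (nat_lit 206))))) (XT.nd (nat_lit 282) (nat_lit 0) (nat_lit 84) (XT.nd (nat_lit 94) (nat_lit 0) (nat_lit 84) (XT.lf (nat_lit 0) (nat_lit 3109023676) (nat_lit 1008) (nat_lit 378142033) (nat_lit 1092) (nat_lit 11264700335) (nat_lit 94) (nat_lit 5) (nat_lit 106) (nat_lit 5) (nat_lit 107) (nat_lit 5) (nat_lit 330) (nat_lit 326) (nat_lit 205)) (XT.nd (nat_lit 94) (nat_lit 0) (nat_lit 0) (XT.lf (nat_lit 0) (nat_lit 3584391233) (nat_lit 1008) (nat_lit 9972499118) (nat_lit 1092) (nat_lit 1422997051) (nat_lit 95) (nat_lit 5) (nat_lit 107) (nat_lit 5) (nat_lit 108) (nat_lit 5) (nat_lit 331) (nat_lit 326) (nat_lit 204)) (XT.lf (nat_lit 0) (nat_lit 4103979240) (nat_lit 1008) (nat_lit 4688996827) (nat_lit 1092) (nat_lit 6421143605) (nat_lit 95) (nat_lit 5) (nat_lit 107)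 (nat_lit 5) (nat_lit 108) (nat_lit 5) (nat_lit 332) (nat_lit 326) (nat_lit 203)))) (XT.nd (nat_lit 188) (nat_lit 0) (nat_lit 84) (XT.nd (nat_lit 94) (nat_lit 0) (nat_lit 84) (XT.lf (nat_lit 84) (nat_lit 767627776) (nat_lit 0) (nat_lit 3869798576) (nat_lit 1092) (nat_lit 10818311050) (nat_lit 96) (nat_lit 5) (nat_lit 95) (nat_lit 5) (nat_lit 108) (nat_lit 5) (nat_lit 333) (nat_lit 326) (nat_lit 202)) (XT.lf (nat_lit 0) (nat_lit 5239226596) (nat_lit 1008) (nat_lit 9229437041) (nat_lit 1092) (nat_lit 1234628264) (nat_lit 96) (nat_lit 5) (nat_lit 108) (nat_lit 5) (nat_lit 109) (nat_lit 5) (nat_lit 334) (nat_lit 326) (nat_lit 201))) (XT.nd (nat_lit 94) (nat_lit 0) (nat_lit 0) (XT.lf (nat_lit 0) (nat_lit 5889958519) (nat_lit 1008) (nat_lit 3647387200) (nat_lit 1092) (nat_lit 6420287652) (nat_lit 96) (nat_lit 5) (nat_lit 108) (nat_lit 5) (nat_lit 109) (nat_lit 5) (nat_lit 335) (nat_lit 326)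 (nat_lit 200)) (XT.lf (nat_lit 84) (nat_lit 2144845694) (nat_lit 0) (nat_lit 4428271232) (nat_lit 1092) (nat_lit 9646412425) (nat_lit 97) (nat_lit 5) (nat_lit 96) (nat_lit 5) (nat_lit 109) (nat_lit 5) (nat_lit 336) (nat_lit 326) (nat_lit 199))))))))
noncomputable def xc173 : XT := (XT.nd (nat_lit 2256) (nat_lit 2688) (nat_lit 0) (XT.nd (nat_lit 1128) (nat_lit 1932) (nat_lit 0) (XT.nd (nat_lit 564) (nat_lit 1428) (nat_lit 0) (XT.nd (nat_lit 282) (nat_lit 0) (nat_lit 84) (XT.nd (nat_lit 94) (nat_lit 0) (nat_lit 0) (XT.lf (nat_lit 0) (nat_lit 7315454768) (nat_lit 1008) (nat_lit 8309479665) (nat_lit 1092) (nat_lit 863479918) (nat_lit 97) (nat_lit 5) (nat_lit 109) (nat_lit 5) (nat_lit 110) (nat_lit 5) (nat_lit 337) (nat_lit 326) (nat_lit 198)) (XT.nd (nat_lit 94) (nat_lit 0) (nat_lit 0) (XT.lf (nat_lit 0) (nat_lit 8117576084) (nat_lit 1008) (nat_lit 2417015927) (nat_lit 1092) (nat_lit 6229949715)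 (nat_lit 97) (nat_lit 5) (nat_lit 109) (nat_lit 5) (nat_lit 110) (nat_lit 5) (nat_lit 338) (nat_lit 326) (nat_lit 197)) (XT.lf (nat_lit 84) (nat_lit 3727224208) (nat_lit 0) (nat_lit 5246049852) (nat_lit 1092) (nat_lit 8075110385) (nat_lit 98) (nat_lit 5) (nat_lit 97) (nat_lit 5) (nat_lit 110) (nat_lit 5) (nat_lit 339) (nat_lit 326) (nat_lit 196)))) (XT.nd (nat_lit 94) (nat_lit 0) (nat_lit 0) (XT.lf (nat_lit 0) (nat_lit 9874980668) (nat_lit 1008) (nat_lit 7235615178) (nat_lit 1092) (nat_lit 229870568) (nat_lit 98) (nat_lit 5) (nat_lit 110) (nat_lit 5) (nat_lit 111) (nat_lit 5) (nat_lit 340) (nat_lit 326) (nat_lit 195)) (XT.nd (nat_lit 94) (nat_lit 0) (nat_lit 0) (XT.lf (nat_lit 0) (nat_lit 10850484447) (nat_lit 1008) (nat_lit 1021125660) (nat_lit 1092) (nat_lit 5768614385) (nat_lit 98) (nat_lit 5) (nat_lit 110) (nat_lit 5) (nat_lit 111) (nat_lit 5) (nat_lit 341) (nat_lit 326) (nat_lit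 194)) (XT.lf (nat_lit 84) (nat_lit 5490769094) (nat_lit 0) (nat_lit 6412353220) (nat_lit 1092) (nat_lit 6044740516) (nat_lit 99) (nat_lit 5) (nat_lit 98) (nat_lit 5) (nat_lit 111) (nat_lit 5) (nat_lit 342) (nat_lit 326) (nat_lit 193))))) (XT.nd (nat_lit 282) (nat_lit 588) (nat_lit 0) (XT.nd (nat_lit 94) (nat_lit 924) (nat_lit 0) (XT.lf (nat_lit 84) (nat_lit 12220368653) (nat_lit 0) (nat_lit 771276258) (nat_lit 1092) (nat_lit 5273332415) (nat_lit 99) (nat_lit 5) (nat_lit 98) (nat_lit 5) (nat_lit 111) (nat_lit 5) (nat_lit 343) (nat_lit 326) (nat_lit 192)) (XT.nd (nat_lit 94) (nat_lit 0) (nat_lit 0) (XT.lf (nat_lit 0) (nat_lit 521207261) (nat_lit 1008) (nat_lit 13640751183) (nat_lit 1092) (nat_lit 4428513477) (nat_lit 87) (nat_lit 5) (nat_lit 99) (nat_lit 5) (nat_lit 100) (nat_lit 5) (nat_lit 344) (nat_lit 326) (nat_lit 191)) (XT.lf (nat_lit 0) (nat_lit 7404801807) (nat_lit 1008) (nat_lit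 8027641635) (nat_lit 1092) (nat_lit 3491670593) (nat_lit 87) (nat_lit 5) (nat_lit 99) (nat_lit 5) (nat_lit 100) (nat_lit 5) (nat_lit 345) (nat_lit 326) (nat_lit 190)))) (XT.nd (nat_lit 94) (nat_lit 588) (nat_lit 0) (XT.lf (nat_lit 0) (nat_lit 14496110123) (nat_lit 1008) (nat_lit 2239404076) (nat_lit 1092) (nat_lit 2532832324) (nat_lit 87) (nat_lit 5) (nat_lit 99) (nat_lit 5) (nat_lit 100) (nat_lit 5) (nat_lit 346) (nat_lit 326) (nat_lit 189)) (XT.nd (nat_lit 94) (nat_lit 0) (nat_lit 0) (XT.lf (nat_lit 0) (nat_lit 2185284741) (nat_lit 588) (nat_lit 15945774548) (nat_lit 672) (nat_lit 1490612062) (nat_lit 80) (nat_lit 5) (nat_lit 87) (nat_lit 5) (nat_lit 88) (nat_lit 5) (nat_lit 347) (nat_lit 326) (nat_lit 188)) (XT.lf (nat_lit 0) (nat_lit 9430583683) (nat_lit 588) (nat_lit 10205324295) (nat_lit 672) (nat_lit 348028496) (nat_lit 80) (nat_lit 5) (nat_lit 87) (nat_lit 5) (nat_lit 88) (nat_lit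 5) (nat_lit 348) (nat_lit 326) (nat_lit 187)))))) (XT.nd (nat_lit 564) (nat_lit 840) (nat_lit 0) (XT.nd (nat_lit 282) (nat_lit 504) (nat_lit 0) (XT.nd (nat_lit 94) (nat_lit 504) (nat_lit 0) (XT.lf (nat_lit 0) (nat_lit 806907394) (nat_lit 672) (nat_lit 3470869434) (nat_lit 84) (nat_lit 16079628938) (nat_lit 79) (nat_lit 5) (nat_lit 87) (nat_lit 5) (nat_lit 80) (nat_lit 5) (nat_lit 349) (nat_lit 326) (nat_lit 186)) (XT.nd (nat_lit 94) (nat_lit 0) (nat_lit 0) (XT.lf (nat_lit 0) (nat_lit 2041584611) (nat_lit 588) (nat_lit 16859310766) (nat_lit 84) (nat_lit 1839892184) (nat_lit 73) (nat_lit 5) (nat_lit 80) (nat_lit 5) (nat_lit 74) (nat_lit 5) (nat_lit 350) (nat_lit 326) (nat_lit 185)) (XT.lf (nat_lit 0) (nat_lit 3388869304) (nat_lit 588) (nat_lit 9649413760) (nat_lit 84) (nat_lit 8095497368) (nat_lit 73) (nat_lit 5) (nat_lit 80) (nat_lit 5) (nat_lit 74) (nat_lit 5) (nat_lit 351) (nat_lit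 326) (nat_lit 184)))) (XT.nd (nat_lit 94) (nat_lit 504) (nat_lit 0) (XT.lf (nat_lit 0) (nat_lit 4772082381) (nat_lit 588) (nat_lit 2221525852) (nat_lit 84) (nat_lit 14545558442) (nat_lit 73) (nat_lit 5) (nat_lit 80) (nat_lit 5) (nat_lit 74) (nat_lit 5) (nat_lit 352) (nat_lit 326) (nat_lit 183)) (XT.nd (nat_lit 94) (nat_lit 0) (nat_lit 0) (XT.lf (nat_lit 0) (nat_lit 5542954710) (nat_lit 504) (nat_lit 704545226) (nat_lit 588) (nat_lit 15708119625) (nat_lit 67) (nat_lit 5) (nat_lit 73) (nat_lit 5) (nat_lit 74) (nat_lit 5) (nat_lit 353) (nat_lit 326) (nat_lit 182)) (XT.lf (nat_lit 0) (nat_lit 7843872161) (nat_lit 588) (nat_lit 8852102705) (nat_lit 84) (nat_lit 5686703777) (nat_lit 67) (nat_lit 5) (nat_lit 74) (nat_lit 5) (nat_lit 68) (nat_lit 5) (nat_lit 354) (nat_lit 326) (nat_lit 181))))) (XT.nd (nat_lit 282) (nat_lit 420) (nat_lit 0) (XT.nd (nat_lit 94) (nat_lit 420) (nat_lit 0) (XT.lf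 (nat_lit 0) (nat_lit 9491562641) (nat_lit 588) (nat_lit 1069701757) (nat_lit 84) (nat_lit 12261682445) (nat_lit 67) (nat_lit 5) (nat_lit 74) (nat_lit 5) (nat_lit 68) (nat_lit 5) (nat_lit 355) (nat_lit 326) (nat_lit 180)) (XT.nd (nat_lit 94) (nat_lit 0) (nat_lit 0) (XT.lf (nat_lit 0) (nat_lit 7091662375) (nat_lit 420) (nat_lit 4163805812) (nat_lit 504) (nat_lit 12019402158) (nat_lit 62) (nat_lit 5) (nat_lit 67) (nat_lit 5) (nat_lit 68) (nat_lit 5) (nat_lit 356) (nat_lit 326) (nat_lit 179)) (XT.lf (nat_lit 0) (nat_lit 13104352316) (nat_lit 504) (nat_lit 8241294832) (nat_lit 84) (nat_lit 2394242542) (nat_lit 62) (nat_lit 5) (nat_lit 68) (nat_lit 5) (nat_lit 63) (nat_lit 5) (nat_lit 357) (nat_lit 326) (nat_lit 178)))) (XT.nd (nat_lit 94) (nat_lit 420) (nat_lit 0) (XT.lf (nat_lit 0) (nat_lit 15048183705) (nat_lit 504) (nat_lit 100912570) (nat_lit 84) (nat_lit 9069086443) (nat_lit 62) (nat_lit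 5) (nat_lit 68) (nat_lit 5) (nat_lit 63) (nat_lit 5) (nat_lit 358) (nat_lit 326) (nat_lit 177)) (XT.nd (nat_lit 94) (nat_lit 0) (nat_lit 0) (XT.lf (nat_lit 0) (nat_lit 8457226234) (nat_lit 420) (nat_lit 8674139237) (nat_lit 504) (nat_lit 7577509449) (nat_lit 57) (nat_lit 5) (nat_lit 62) (nat_lit 5) (nat_lit 63) (nat_lit 5) (nat_lit 359) (nat_lit 326) (nat_lit 176)) (XT.lf (nat_lit 0) (nat_lit 17277867581) (nat_lit 420) (nat_lit 1997601967) (nat_lit 504) (nat_lit 5939445588) (nat_lit 57) (nat_lit 5) (nat_lit 62) (nat_lit 5) (nat_lit 63) (nat_lit 5) (nat_lit 360) (nat_lit 326) (nat_lit 175))))))) (XT.nd (nat_lit 1128) (nat_lit 1176) (nat_lit 0) (XT.nd (nat_lit 564) (nat_lit 672) (nat_lit 0) (XT.nd (nat_lit 282) (nat_lit 504) (nat_lit 0) (XT.nd (nat_lit 94) (nat_lit 0) (nat_lit 0) (XT.lf (nat_lit 0) (nat_lit 593849683) (nat_lit 336) (nat_lit 20941980801) (nat_lit 420) (nat_lit 4199291148)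 (nat_lit 53) (nat_lit 5) (nat_lit 57) (nat_lit 5) (nat_lit 58) (nat_lit 5) (nat_lit 361) (nat_lit 326) (nat_lit 174)) (XT.nd (nat_lit 94) (nat_lit 0) (nat_lit 0) (XT.lf (nat_lit 0) (nat_lit 9531712787) (nat_lit 336) (nat_lit 14433138792) (nat_lit 420) (nat_lit 2303568530) (nat_lit 53) (nat_lit 5) (nat_lit 57) (nat_lit 5) (nat_lit 58) (nat_lit 5) (nat_lit 362) (nat_lit 326) (nat_lit 173)) (XT.lf (nat_lit 0) (nat_lit 18741894727) (nat_lit 336) (nat_lit 7722930892) (nat_lit 420) (nat_lit 353581145) (nat_lit 53) (nat_lit 5) (nat_lit 57) (nat_lit 5) (nat_lit 58) (nat_lit 5) (nat_lit 363) (nat_lit 326) (nat_lit 172)))) (XT.nd (nat_lit 94) (nat_lit 0) (nat_lit 0) (XT.lf (nat_lit 0) (nat_lit 848080146) (nat_lit 420) (nat_lit 779527549) (nat_lit 504) (nat_lit 25757217564) (nat_lit 47) (nat_lit 5) (nat_lit 52) (nat_lit 5) (nat_lit 53) (nat_lit 5) (nat_lit 364) (nat_lit 326) (nat_lit 171)) (XT.nd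 (nat_lit 94) (nat_lit 0) (nat_lit 0) (XT.lf (nat_lit 0) (nat_lit 3807113134) (nat_lit 504) (nat_lit 17818213845) (nat_lit 84) (nat_lit 6338911390) (nat_lit 47) (nat_lit 5) (nat_lit 53) (nat_lit 5) (nat_lit 48) (nat_lit 5) (nat_lit 365) (nat_lit 326) (nat_lit 170)) (XT.lf (nat_lit 0) (nat_lit 6058080658) (nat_lit 504) (nat_lit 8842052806) (nat_lit 84) (nat_lit 13661377747) (nat_lit 47) (nat_lit 5) (nat_lit 53) (nat_lit 5) (nat_lit 48) (nat_lit 5) (nat_lit 366) (nat_lit 326) (nat_lit 169))))) (XT.nd (nat_lit 282) (nat_lit 336) (nat_lit 0) (XT.nd (nat_lit 94) (nat_lit 0) (nat_lit 0) (XT.lf (nat_lit 0) (nat_lit 416223715) (nat_lit 336) (nat_lit 7962780669) (nat_lit 420) (nat_lit 20798307845) (nat_lit 43) (nat_lit 5) (nat_lit 47) (nat_lit 5) (nat_lit 48) (nat_lit 5) (nat_lit 367) (nat_lit 326) (nat_lit 168)) (XT.nd (nat_lit 94) (nat_lit 0) (nat_lit 0) (XT.lf (nat_lit 0) (nat_lit 10144468071)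 (nat_lit 336) (nat_lit 715823144) (nat_lit 420) (nat_lit 18949188648) (nat_lit 43) (nat_lit 5) (nat_lit 47) (nat_lit 5) (nat_lit 48) (nat_lit 5) (nat_lit 368) (nat_lit 326) (nat_lit 167)) (XT.lf (nat_lit 0) (nat_lit 13481748559) (nat_lit 420) (nat_lit 10358453583) (nat_lit 84) (nat_lit 6619098886) (nat_lit 43) (nat_lit 5) (nat_lit 48) (nat_lit 5) (nat_lit 44) (nat_lit 5) (nat_lit 369) (nat_lit 326) (nat_lit 166)))) (XT.nd (nat_lit 94) (nat_lit 336) (nat_lit 0) (XT.lf (nat_lit 0) (nat_lit 16188137900) (nat_lit 420) (nat_lit 775057210) (nat_lit 84) (nat_lit 14165974459) (nat_lit 43) (nat_lit 5) (nat_lit 48) (nat_lit 5) (nat_lit 44) (nat_lit 5) (nat_lit 370) (nat_lit 326) (nat_lit 165)) (XT.nd (nat_lit 94) (nat_lit 0) (nat_lit 0) (XT.lf (nat_lit 0) (nat_lit 9288350675) (nat_lit 336) (nat_lit 9778671734) (nat_lit 420) (nat_lit 12750051205) (nat_lit 39) (nat_lit 5) (nat_lit 43) (nat_lit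 5) (nat_lit 44) (nat_lit 5) (nat_lit 371) (nat_lit 326) (nat_lit 164)) (XT.lf (nat_lit 0) (nat_lit 19675984328) (nat_lit 336) (nat_lit 2363778732) (nat_lit 420) (nat_lit 10486412299) (nat_lit 39) (nat_lit 5) (nat_lit 43) (nat_lit 5) (nat_lit 44) (nat_lit 5) (nat_lit 372) (nat_lit 326) (nat_lit 163)))))) (XT.nd (nat_lit 564) (nat_lit 504) (nat_lit 0) (XT.nd (nat_lit 282) (nat_lit 420) (nat_lit 0) (XT.nd (nat_lit 94) (nat_lit 252) (nat_lit 0) (XT.lf (nat_lit 0) (nat_lit 25153665281) (nat_lit 420) (nat_lit 2928170951) (nat_lit 84) (nat_lit 5173918959) (nat_lit 39) (nat_lit 5) (nat_lit 44) (nat_lit 5) (nat_lit 40) (nat_lit 5) (nat_lit 373) (nat_lit 326) (nat_lit 162)) (XT.nd (nat_lit 94) (nat_lit 0) (nat_lit 0) (XT.lf (nat_lit 0) (nat_lit 7422774880) (nat_lit 252) (nat_lit 21035854677) (nat_lit 336) (nat_lit 5546406659) (nat_lit 36) (nat_lit 5) (nat_lit 39) (nat_lit 5) (nat_lit 40) (nat_lit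 5) (nat_lit 374) (nat_lit 326) (nat_lit 161)) (XT.lf (nat_lit 0) (nat_lit 18152683206) (nat_lit 252) (nat_lit 13740707969) (nat_lit 336) (nat_lit 2883320372) (nat_lit 36) (nat_lit 5) (nat_lit 39) (nat_lit 5) (nat_lit 40) (nat_lit 5) (nat_lit 375) (nat_lit 326) (nat_lit 160)))) (XT.nd (nat_lit 94) (nat_lit 420) (nat_lit 0) (XT.lf (nat_lit 0) (nat_lit 29211346224) (nat_lit 252) (nat_lit 6220160369) (nat_lit 336) (nat_lit 140912872) (nat_lit 36) (nat_lit 5) (nat_lit 39) (nat_lit 5) (nat_lit 40) (nat_lit 5) (nat_lit 376) (nat_lit 326) (nat_lit 159)) (XT.nd (nat_lit 94) (nat_lit 0) (nat_lit 0) (XT.lf (nat_lit 0) (nat_lit 2687635134) (nat_lit 420) (nat_lit 32130976698) (nat_lit 84) (nat_lit 1571656481) (nat_lit 31) (nat_lit 5) (nat_lit 36) (nat_lit 5) (nat_lit 32) (nat_lit 5) (nat_lit 377) (nat_lit 326) (nat_lit 158)) (XT.lf (nat_lit 0) (nat_lit 5728607400) (nat_lit 420) (nat_lit 21957302837)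 (nat_lit 84) (nat_lit 9543570507) (nat_lit 31) (nat_lit 5) (nat_lit 36) (nat_lit 5) (nat_lit 32) (nat_lit 5) (nat_lit 378) (nat_lit 326) (nat_lit 157))))) (XT.nd (nat_lit 282) (nat_lit 252) (nat_lit 0) (XT.nd (nat_lit 94) (nat_lit 252) (nat_lit 0) (XT.lf (nat_lit 0) (nat_lit 8860913935) (nat_lit 420) (nat_lit 11472020016) (nat_lit 84) (nat_lit 17761878046) (nat_lit 31) (nat_lit 5) (nat_lit 36) (nat_lit 5) (nat_lit 32) (nat_lit 5) (nat_lit 379) (nat_lit 326) (nat_lit 156)) (XT.nd (nat_lit 94) (nat_lit 252) (nat_lit 0) (XT.lf (nat_lit 0) (nat_lit 12087474375) (nat_lit 420) (nat_lit 665354853) (nat_lit 84) (nat_lit 26234239424) (nat_lit 31) (nat_lit 5) (nat_lit 36) (nat_lit 5) (nat_lit 32) (nat_lit 5) (nat_lit 380) (nat_lit 326) (nat_lit 155)) (XT.lf (nat_lit 0) (nat_lit 10688107134) (nat_lit 252) (nat_lit 4829216426) (nat_lit 336) (nat_lit 24386471978) (nat_lit 28) (nat_lit 5) (nat_lit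 31) (nat_lit 5) (nat_lit 32) (nat_lit 5) (nat_lit 381) (nat_lit 326) (nat_lit 154)))) (XT.nd (nat_lit 188) (nat_lit 252) (nat_lit 0) (XT.nd (nat_lit 94) (nat_lit 0) (nat_lit 0) (XT.lf (nat_lit 0) (nat_lit 19090925783) (nat_lit 336) (nat_lit 18477901283) (nat_lit 84) (nat_lit 3278964787) (nat_lit 28) (nat_lit 5) (nat_lit 32) (nat_lit 5) (nat_lit 29) (nat_lit 5) (nat_lit 382) (nat_lit 326) (nat_lit 153)) (XT.lf (nat_lit 0) (nat_lit 22822061282) (nat_lit 336) (nat_lit 7460128671) (nat_lit 84) (nat_lit 11537423620) (nat_lit 28) (nat_lit 5) (nat_lit 32) (nat_lit 5) (nat_lit 29) (nat_lit 5) (nat_lit 383) (nat_lit 326) (nat_lit 152))) (XT.nd (nat_lit 94) (nat_lit 0) (nat_lit 0) (XT.lf (nat_lit 0) (nat_lit 3975911328) (nat_lit 252) (nat_lit 22729831647) (nat_lit 336) (nat_lit 16114685975) (nat_lit 25) (nat_lit 5) (nat_lit 28) (nat_lit 5) (nat_lit 29) (nat_lit 5) (nat_lit 384) (nat_lit 326)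 (nat_lit 151)) (XT.lf (nat_lit 0) (nat_lit 15921264373) (nat_lit 252) (nat_lit 14863906041) (nat_lit 336) (nat_lit 13064773470) (nat_lit 25) (nat_lit 5) (nat_lit 28) (nat_lit 5) (nat_lit 29) (nat_lit 5) (nat_lit 385) (nat_lit 326) (nat_lit 150))))))))
noncomputable def xc174 : XT := (XT.nd (nat_lit 2256) (nat_lit 168) (nat_lit 0) (XT.nd (nat_lit 1128) (nat_lit 420) (nat_lit 0) (XT.nd (nat_lit 564) (nat_lit 420) (nat_lit 0) (XT.nd (nat_lit 282) (nat_lit 84) (nat_lit 0) (XT.nd (nat_lit 94) (nat_lit 168) (nat_lit 0) (XT.lf (nat_lit 0) (nat_lit 28233669237) (nat_lit 252) (nat_lit 6754949710) (nat_lit 336) (nat_lit 9922840381) (nat_lit 25) (nat_lit 5) (nat_lit 28) (nat_lit 5) (nat_lit 29) (nat_lit 5) (nat_lit 386) (nat_lit 326) (nat_lit 149)) (XT.nd (nat_lit 94) (nat_lit 168) (nat_lit 0) (XT.lf (nat_lit 0) (nat_lit 39335924418) (nat_lit 336) (nat_lit 5097280144) (nat_lit 84) (nat_lit 1572266713)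 (nat_lit 25) (nat_lit 5) (nat_lit 29) (nat_lit 5) (nat_lit 26) (nat_lit 5) (nat_lit 387) (nat_lit 326) (nat_lit 148)) (XT.lf (nat_lit 0) (nat_lit 6909209262) (nat_lit 168) (nat_lit 37044110405) (nat_lit 252) (nat_lit 3175892193) (nat_lit 23) (nat_lit 5) (nat_lit 25) (nat_lit 5) (nat_lit 26) (nat_lit 5) (nat_lit 388) (nat_lit 326) (nat_lit 147)))) (XT.nd (nat_lit 94) (nat_lit 0) (nat_lit 0) (XT.lf (nat_lit 0) (nat_lit 468933160) (nat_lit 252) (nat_lit 28898108851) (nat_lit 84) (nat_lit 18919029101) (nat_lit 22) (nat_lit 5) (nat_lit 25) (nat_lit 5) (nat_lit 23) (nat_lit 5) (nat_lit 389) (nat_lit 326) (nat_lit 146)) (XT.nd (nat_lit 94) (nat_lit 0) (nat_lit 0) (XT.lf (nat_lit 0) (nat_lit 4158548789) (nat_lit 252) (nat_lit 17260781856) (nat_lit 84) (nat_lit 28058532977) (nat_lit 22) (nat_lit 5) (nat_lit 25) (nat_lit 5) (nat_lit 23) (nat_lit 5) (nat_lit 390) (nat_lit 326) (nat_lit 145))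 (XT.lf (nat_lit 0) (nat_lit 7960380951) (nat_lit 252) (nat_lit 5265669162) (nat_lit 84) (nat_lit 37480626816) (nat_lit 22) (nat_lit 5) (nat_lit 25) (nat_lit 5) (nat_lit 23) (nat_lit 5) (nat_lit 391) (nat_lit 326) (nat_lit 144))))) (XT.nd (nat_lit 282) (nat_lit 168) (nat_lit 0) (XT.nd (nat_lit 94) (nat_lit 0) (nat_lit 0) (XT.lf (nat_lit 0) (nat_lit 7244367799) (nat_lit 252) (nat_lit 4705470578) (nat_lit 336) (nat_lit 40021590221) (nat_lit 19) (nat_lit 5) (nat_lit 22) (nat_lit 5) (nat_lit 23) (nat_lit 5) (nat_lit 392) (nat_lit 326) (nat_lit 143)) (XT.nd (nat_lit 94) (nat_lit 0) (nat_lit 0) (XT.lf (nat_lit 0) (nat_lit 16156890878) (nat_lit 336) (nat_lit 33063783888) (nat_lit 84) (nat_lit 4051808958) (nat_lit 19) (nat_lit 5) (nat_lit 23) (nat_lit 5) (nat_lit 20) (nat_lit 5) (nat_lit 393) (nat_lit 326) (nat_lit 142)) (XT.lf (nat_lit 0) (nat_lit 20540480464) (nat_lit 336) (nat_lit 21089900304)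 (nat_lit 84) (nat_lit 12982068621) (nat_lit 19) (nat_lit 5) (nat_lit 23) (nat_lit 5) (nat_lit 20) (nat_lit 5) (nat_lit 394) (nat_lit 326) (nat_lit 141)))) (XT.nd (nat_lit 94) (nat_lit 168) (nat_lit 0) (XT.lf (nat_lit 0) (nat_lit 25058014249) (nat_lit 336) (nat_lit 8747570282) (nat_lit 84) (nat_lit 22188437091) (nat_lit 19) (nat_lit 5) (nat_lit 23) (nat_lit 5) (nat_lit 20) (nat_lit 5) (nat_lit 395) (nat_lit 326) (nat_lit 140)) (XT.nd (nat_lit 94) (nat_lit 0) (nat_lit 0) (XT.lf (nat_lit 0) (nat_lit 4056438720) (nat_lit 168) (nat_lit 25697504701) (nat_lit 252) (nat_lit 27663297323) (nat_lit 17) (nat_lit 5) (nat_lit 19) (nat_lit 5) (nat_lit 20) (nat_lit 5) (nat_lit 396) (nat_lit 326) (nat_lit 139)) (XT.lf (nat_lit 0) (nat_lit 17440181392) (nat_lit 168) (nat_lit 17244713816) (nat_lit 252) (nat_lit 24196918383) (nat_lit 17) (nat_lit 5) (nat_lit 19) (nat_lit 5) (nat_lit 20) (nat_lit 5) (nat_lit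 397) (nat_lit 326) (nat_lit 138)))))) (XT.nd (nat_lit 564) (nat_lit 252) (nat_lit 0) (XT.nd (nat_lit 282) (nat_lit 168) (nat_lit 0) (XT.nd (nat_lit 94) (nat_lit 0) (nat_lit 0) (XT.lf (nat_lit 0) (nat_lit 31236264797) (nat_lit 168) (nat_lit 8530639683) (nat_lit 252) (nat_lit 20624946218) (nat_lit 17) (nat_lit 5) (nat_lit 19) (nat_lit 5) (nat_lit 20) (nat_lit 5) (nat_lit 398) (nat_lit 326) (nat_lit 137)) (XT.nd (nat_lit 94) (nat_lit 0) (nat_lit 0) (XT.lf (nat_lit 0) (nat_lit 45009200431) (nat_lit 252) (nat_lit 16495703478) (nat_lit 84) (nat_lit 443716408) (nat_lit 17) (nat_lit 5) (nat_lit 20) (nat_lit 5) (nat_lit 18) (nat_lit 5) (nat_lit 399) (nat_lit 326) (nat_lit 136)) (XT.lf (nat_lit 0) (nat_lit 50499553619) (nat_lit 252) (nat_lit 3533068781) (nat_lit 84) (nat_lit 9518381712) (nat_lit 17) (nat_lit 5) (nat_lit 20) (nat_lit 5) (nat_lit 18) (nat_lit 5) (nat_lit 400) (nat_lit 326) (nat_lit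 135)))) (XT.nd (nat_lit 94) (nat_lit 0) (nat_lit 0) (XT.lf (nat_lit 0) (nat_lit 10031130651) (nat_lit 168) (nat_lit 46226836033) (nat_lit 252) (nat_lit 8942067551) (nat_lit 15) (nat_lit 5) (nat_lit 17) (nat_lit 5) (nat_lit 18) (nat_lit 5) (nat_lit 401) (nat_lit 326) (nat_lit 134)) (XT.nd (nat_lit 94) (nat_lit 0) (nat_lit 0) (XT.lf (nat_lit 0) (nat_lit 24088361715) (nat_lit 168) (nat_lit 38141781959) (nat_lit 252) (nat_lit 4668953646) (nat_lit 15) (nat_lit 5) (nat_lit 17) (nat_lit 5) (nat_lit 18) (nat_lit 5) (nat_lit 402) (nat_lit 326) (nat_lit 133)) (XT.lf (nat_lit 0) (nat_lit 38579080082) (nat_lit 168) (nat_lit 29806802054) (nat_lit 252) (nat_lit 265003782) (nat_lit 15) (nat_lit 5) (nat_lit 17) (nat_lit 5) (nat_lit 18) (nat_lit 5) (nat_lit 403) (nat_lit 326) (nat_lit 132))))) (XT.nd (nat_lit 282) (nat_lit 0) (nat_lit 0) (XT.nd (nat_lit 94) (nat_lit 168) (nat_lit 0) (XT.lf (nat_lit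 0) (nat_lit 4187777686) (nat_lit 252) (nat_lit 16982637746) (nat_lit 84) (nat_lit 49285303122) (nat_lit 14) (nat_lit 5) (nat_lit 17) (nat_lit 5) (nat_lit 15) (nat_lit 5) (nat_lit 404) (nat_lit 326) (nat_lit 131)) (XT.nd (nat_lit 94) (nat_lit 168) (nat_lit 0) (XT.lf (nat_lit 0) (nat_lit 8771587545) (nat_lit 252) (nat_lit 3492603322) (nat_lit 84) (nat_lit 60052277908) (nat_lit 14) (nat_lit 5) (nat_lit 17) (nat_lit 5) (nat_lit 15) (nat_lit 5) (nat_lit 405) (nat_lit 326) (nat_lit 130)) (XT.lf (nat_lit 0) (nat_lit 10627623357) (nat_lit 168) (nat_lit 2973841604) (nat_lit 252) (nat_lit 60630219284) (nat_lit 12) (nat_lit 5) (nat_lit 14) (nat_lit 5) (nat_lit 15) (nat_lit 5) (nat_lit 406) (nat_lit 326) (nat_lit 129)))) (XT.nd (nat_lit 94) (nat_lit 0) (nat_lit 0) (XT.lf (nat_lit 0) (nat_lit 18681973101) (nat_lit 252) (nat_lit 51013556279) (nat_lit 84) (nat_lit 6507618865) (nat_lit 12) (nat_lit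 5) (nat_lit 15) (nat_lit 5) (nat_lit 13) (nat_lit 5) (nat_lit 407) (nat_lit 326) (nat_lit 128)) (XT.nd (nat_lit 94) (nat_lit 0) (nat_lit 0) (XT.lf (nat_lit 0) (nat_lit 23948994251) (nat_lit 252) (nat_lit 38065240026) (nat_lit 84) (nat_lit 16220598563) (nat_lit 12) (nat_lit 5) (nat_lit 15) (nat_lit 5) (nat_lit 13) (nat_lit 5) (nat_lit 408) (nat_lit 326) (nat_lit 127)) (XT.lf (nat_lit 0) (nat_lit 29377936951) (nat_lit 252) (nat_lit 24717542063) (nat_lit 84) (nat_lit 26234067284) (nat_lit 12) (nat_lit 5) (nat_lit 15) (nat_lit 5) (nat_lit 13) (nat_lit 5) (nat_lit 409) (nat_lit 326) (nat_lit 126))))))) (XT.nd (nat_lit 47094) (nat_lit 0) (nat_lit 5880) (XT.nd (nat_lit 46530) (nat_lit 0) (nat_lit 7056) (XT.nd (nat_lit 46248) (nat_lit 0) (nat_lit 6972) (XT.nd (nat_lit 94) (nat_lit 168) (nat_lit 0) (XT.lf (nat_lit 0) (nat_lit 34973861543) (nat_lit 252) (nat_lit 10958020940) (nat_lit 84) (nat_lit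 36557358631) (nat_lit 12) (nat_lit 5) (nat_lit 15) (nat_lit 5) (nat_lit 13) (nat_lit 5) (nat_lit 410) (nat_lit 326) (nat_lit 125)) (XT.nd (nat_lit 94) (nat_lit 0) (nat_lit 0) (XT.lf (nat_lit 0) (nat_lit 3292484893) (nat_lit 168) (nat_lit 37482160980) (nat_lit 252) (nat_lit 43940271956) (nat_lit 10) (nat_lit 5) (nat_lit 12) (nat_lit 5) (nat_lit 13) (nat_lit 5) (nat_lit 411) (nat_lit 326) (nat_lit 124)) (XT.lf (nat_lit 0) (nat_lit 18215183216) (nat_lit 168) (nat_lit 28653194519) (nat_lit 252) (nat_lit 40137710167) (nat_lit 10) (nat_lit 5) (nat_lit 12) (nat_lit 5) (nat_lit 13) (nat_lit 5) (nat_lit 412) (nat_lit 326) (nat_lit 123)))) (XT.nd (nat_lit 94) (nat_lit 0) (nat_lit 0) (XT.lf (nat_lit 0) (nat_lit 1118122902) (nat_lit 1092) (nat_lit 3018080544) (nat_lit 1092) (nat_lit 3018080544) (nat_lit 93) (nat_lit 3) (nat_lit 106) (nat_lit 3) (nat_lit 106) (nat_lit 5) (nat_lit 327) (nat_lit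 327) (nat_lit 207)) (XT.nd (nat_lit 94) (nat_lit 0) (nat_lit 84) (XT.lf (nat_lit 0) (nat_lit 2538593775) (nat_lit 1092) (nat_lit 1031788452) (nat_lit 1092) (nat_lit 10950186264) (nat_lit 93) (nat_lit 3) (nat_lit 106) (nat_lit 3) (nat_lit 106) (nat_lit 5) (nat_lit 328) (nat_lit 327) (nat_lit 206)) (XT.lf (nat_lit 0) (nat_lit 2894411224) (nat_lit 1008) (nat_lit 10544503080) (nat_lit 1092) (nat_lit 1298919516) (nat_lit 94) (nat_lit 5) (nat_lit 106) (nat_lit 5) (nat_lit 107) (nat_lit 5) (nat_lit 329) (nat_lit 327) (nat_lit 205))))) (XT.nd (nat_lit 282) (nat_lit 0) (nat_lit 84) (XT.nd (nat_lit 94) (nat_lit 0) (nat_lit 0) (XT.lf (nat_lit 0) (nat_lit 3298187841) (nat_lit 1008) (nat_lit 5401792511) (nat_lit 1092) (nat_lit 6260767230) (nat_lit 94) (nat_lit 5) (nat_lit 106) (nat_lit 5) (nat_lit 107) (nat_lit 5) (nat_lit 330) (nat_lit 327) (nat_lit 204)) (XT.nd (nat_lit 94) (nat_lit 0) (nat_lit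 84) (XT.lf (nat_lit 0) (nat_lit 3704328583) (nat_lit 1008) (nat_lit 105445734) (nat_lit 1092) (nat_lit 11381168353) (nat_lit 94) (nat_lit 5) (nat_lit 106) (nat_lit 5) (nat_lit 107) (nat_lit 5) (nat_lit 331) (nat_lit 327) (nat_lit 203)) (XT.lf (nat_lit 0) (nat_lit 4180188425) (nat_lit 1008) (nat_lit 9980302363) (nat_lit 1092) (nat_lit 1266066593) (nat_lit 95) (nat_lit 5) (nat_lit 107) (nat_lit 5) (nat_lit 108) (nat_lit 5) (nat_lit 332) (nat_lit 327) (nat_lit 202)))) (XT.nd (nat_lit 94) (nat_lit 0) (nat_lit 0) (XT.lf (nat_lit 0) (nat_lit 4701310321) (nat_lit 1008) (nat_lit 4542072287) (nat_lit 1092) (nat_lit 6425200642) (nat_lit 95) (nat_lit 5) (nat_lit 107) (nat_lit 5) (nat_lit 108) (nat_lit 5) (nat_lit 333) (nat_lit 327) (nat_lit 201)) (XT.nd (nat_lit 94) (nat_lit 0) (nat_lit 84) (XT.lf (nat_lit 84) (nat_lit 1080748570) (nat_lit 0) (nat_lit 4159280706) (nat_lit 1092) (nat_lit 10678089269)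 (nat_lit 96) (nat_lit 5) (nat_lit 95) (nat_lit 5) (nat_lit 108) (nat_lit 5) (nat_lit 334) (nat_lit 327) (nat_lit 200)) (XT.lf (nat_lit 0) (nat_lit 5845057813) (nat_lit 1008) (nat_lit 9217050372) (nat_lit 1092) (nat_lit 1111793150) (nat_lit 96) (nat_lit 5) (nat_lit 108) (nat_lit 5) (nat_lit 109) (nat_lit 5) (nat_lit 335) (nat_lit 327) (nat_lit 199)))))) (XT.nd (nat_lit 564) (nat_lit 1344) (nat_lit 0) (XT.nd (nat_lit 282) (nat_lit 0) (nat_lit 84) (XT.nd (nat_lit 94) (nat_lit 0) (nat_lit 0) (XT.lf (nat_lit 0) (nat_lit 6502629865) (nat_lit 1008) (nat_lit 3470932229) (nat_lit 1092) (nat_lit 6463052176) (nat_lit 96) (nat_lit 5) (nat_lit 108) (nat_lit 5) (nat_lit 109) (nat_lit 5) (nat_lit 336) (nat_lit 327) (nat_lit 198)) (XT.nd (nat_lit 94) (nat_lit 0) (nat_lit 84) (XT.lf (nat_lit 84) (nat_lit 2497928714) (nat_lit 0) (nat_lit 4698948824) (nat_lit 1092) (nat_lit 9510135590) (nat_lit 97) (nat_lit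 5) (nat_lit 96) (nat_lit 5) (nat_lit 109) (nat_lit 5) (nat_lit 337) (nat_lit 327) (nat_lit 197)) (XT.lf (nat_lit 0) (nat_lit 7948315954) (nat_lit 1008) (nat_lit 8272953464) (nat_lit 1092) (nat_lit 763464625) (nat_lit 97) (nat_lit 5) (nat_lit 109) (nat_lit 5) (nat_lit 110) (nat_lit 5) (nat_lit 338) (nat_lit 327) (nat_lit 196)))) (XT.nd (nat_lit 94) (nat_lit 0) (nat_lit 0) (XT.lf (nat_lit 0) (nat_lit 8763092996) (nat_lit 1008) (nat_lit 2206666923) (nat_lit 1092) (nat_lit 6300107090) (nat_lit 97) (nat_lit 5) (nat_lit 109) (nat_lit 5) (nat_lit 110) (nat_lit 5) (nat_lit 339) (nat_lit 327) (nat_lit 195)) (XT.nd (nat_lit 94) (nat_lit 0) (nat_lit 84) (XT.lf (nat_lit 84) (nat_lit 4125156489) (nat_lit 0) (nat_lit 5511119545) (nat_lit 1092) (nat_lit 7926578219) (nat_lit 98) (nat_lit 5) (nat_lit 97) (nat_lit 5) (nat_lit 110) (nat_lit 5) (nat_lit 340) (nat_lit 327) (nat_lit 194)) (XT.lf (nat_lit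 0) (nat_lit 10553378821) (nat_lit 1008) (nat_lit 7171427804) (nat_lit 1092) (nat_lit 139636549) (nat_lit 98) (nat_lit 5) (nat_lit 110) (nat_lit 5) (nat_lit 111) (nat_lit 5) (nat_lit 341) (nat_lit 327) (nat_lit 193))))) (XT.nd (nat_lit 282) (nat_lit 1512) (nat_lit 0) (XT.nd (nat_lit 94) (nat_lit 0) (nat_lit 0) (XT.lf (nat_lit 0) (nat_lit 11547929729) (nat_lit 1008) (nat_lit 772963441) (nat_lit 1092) (nat_lit 5853008835) (nat_lit 98) (nat_lit 5) (nat_lit 110) (nat_lit 5) (nat_lit 111) (nat_lit 5) (nat_lit 342) (nat_lit 327) (nat_lit 192)) (XT.nd (nat_lit 94) (nat_lit 0) (nat_lit 0) (XT.lf (nat_lit 84) (nat_lit 5937967154) (nat_lit 0) (nat_lit 6687123010) (nat_lit 1092) (nat_lit 5866297766) (nat_lit 99) (nat_lit 5) (nat_lit 98) (nat_lit 5) (nat_lit 111) (nat_lit 5) (nat_lit 343) (nat_lit 327) (nat_lit 191)) (XT.lf (nat_lit 84) (nat_lit 12867855966) (nat_lit 0) (nat_lit 868887898) (nat_lit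 1092) (nat_lit 5081975743) (nat_lit 99) (nat_lit 5) (nat_lit 98) (nat_lit 5) (nat_lit 111) (nat_lit 5) (nat_lit 344) (nat_lit 327) (nat_lit 190)))) (XT.nd (nat_lit 188) (nat_lit 588) (nat_lit 0) (XT.nd (nat_lit 94) (nat_lit 0) (nat_lit 0) (XT.lf (nat_lit 0) (nat_lit 816370151) (nat_lit 1008) (nat_lit 14118731602) (nat_lit 1092) (nat_lit 4219513973) (nat_lit 87) (nat_lit 5) (nat_lit 99) (nat_lit 5) (nat_lit 100) (nat_lit 5) (nat_lit 345) (nat_lit 327) (nat_lit 189)) (XT.lf (nat_lit 0) (nat_lit 7904967021) (nat_lit 1008) (nat_lit 8329958401) (nat_lit 1092) (nat_lit 3264040973) (nat_lit 87) (nat_lit 5) (nat_lit 99) (nat_lit 5) (nat_lit 100) (nat_lit 5) (nat_lit 346) (nat_lit 327) (nat_lit 188))) (XT.nd (nat_lit 94) (nat_lit 588) (nat_lit 0) (XT.lf (nat_lit 0) (nat_lit 15207969030) (nat_lit 1008) (nat_lit 2360678052) (nat_lit 1092) (nat_lit 2285577664) (nat_lit 87) (nat_lit 5) (nat_lit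 99) (nat_lit 5) (nat_lit 100) (nat_lit 5) (nat_lit 347) (nat_lit 327) (nat_lit 187)) (XT.lf (nat_lit 0) (nat_lit 2524684561) (nat_lit 588) (nat_lit 16475514154) (nat_lit 672) (nat_lit 1218579847) (nat_lit 80) (nat_lit 5) (nat_lit 87) (nat_lit 5) (nat_lit 88) (nat_lit 5) (nat_lit 348) (nat_lit 327) (nat_lit 186))))))))
noncomputable def xc175 : XT := (XT.nd (nat_lit 2256) (nat_lit 1848) (nat_lit 0) (XT.nd (nat_lit 1128) (nat_lit 1512) (nat_lit 0) (XT.nd (nat_lit 564) (nat_lit 840) (nat_lit 0) (XT.nd (nat_lit 282) (nat_lit 504) (nat_lit 0) (XT.nd (nat_lit 94) (nat_lit 588) (nat_lit 0) (XT.lf (nat_lit 0) (nat_lit 9986419647) (nat_lit 588) (nat_lit 10556044920) (nat_lit 672) (nat_lit 50145033) (nat_lit 80) (nat_lit 5) (nat_lit 87) (nat_lit 5) (nat_lit 88) (nat_lit 5) (nat_lit 349) (nat_lit 327) (nat_lit 185)) (XT.nd (nat_lit 94) (nat_lit 504) (nat_lit 0) (XT.lf (nat_lit 0) (nat_lit 1125280676)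 (nat_lit 672) (nat_lit 3315367739) (nat_lit 84) (nat_lit 16537241558) (nat_lit 79) (nat_lit 5) (nat_lit 87) (nat_lit 5) (nat_lit 80) (nat_lit 5) (nat_lit 350) (nat_lit 327) (nat_lit 184)) (XT.lf (nat_lit 0) (nat_lit 2391731003) (nat_lit 588) (nat_lit 17110892769) (nat_lit 84) (nat_lit 1870779527) (nat_lit 73) (nat_lit 5) (nat_lit 80) (nat_lit 5) (nat_lit 74) (nat_lit 5) (nat_lit 351) (nat_lit 327) (nat_lit 183)))) (XT.nd (nat_lit 94) (nat_lit 504) (nat_lit 0) (XT.lf (nat_lit 0) (nat_lit 3772156328) (nat_lit 588) (nat_lit 9685639058) (nat_lit 84) (nat_lit 8321094727) (nat_lit 73) (nat_lit 5) (nat_lit 80) (nat_lit 5) (nat_lit 74) (nat_lit 5) (nat_lit 352) (nat_lit 327) (nat_lit 182)) (XT.nd (nat_lit 94) (nat_lit 504) (nat_lit 0) (XT.lf (nat_lit 0) (nat_lit 5189883157) (nat_lit 588) (nat_lit 2035391672) (nat_lit 84) (nat_lit 14971870308) (nat_lit 73) (nat_lit 5) (nat_lit 80) (nat_lit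 5) (nat_lit 74) (nat_lit 5) (nat_lit 353) (nat_lit 327) (nat_lit 181)) (XT.lf (nat_lit 0) (nat_lit 5967206127) (nat_lit 504) (nat_lit 738222255) (nat_lit 588) (nat_lit 15921294786) (nat_lit 67) (nat_lit 5) (nat_lit 73) (nat_lit 5) (nat_lit 74) (nat_lit 5) (nat_lit 354) (nat_lit 327) (nat_lit 180))))) (XT.nd (nat_lit 282) (nat_lit 420) (nat_lit 0) (XT.nd (nat_lit 94) (nat_lit 420) (nat_lit 0) (XT.lf (nat_lit 0) (nat_lit 8343228642) (nat_lit 588) (nat_lit 8872339582) (nat_lit 84) (nat_lit 5851742655) (nat_lit 67) (nat_lit 5) (nat_lit 74) (nat_lit 5) (nat_lit 68) (nat_lit 5) (nat_lit 355) (nat_lit 327) (nat_lit 179)) (XT.nd (nat_lit 94) (nat_lit 420) (nat_lit 0) (XT.lf (nat_lit 0) (nat_lit 10034294238) (nat_lit 588) (nat_lit 856326811) (nat_lit 84) (nat_lit 12630883894) (nat_lit 67) (nat_lit 5) (nat_lit 74) (nat_lit 5) (nat_lit 68) (nat_lit 5) (nat_lit 356) (nat_lit 327) (nat_lit 178))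 (XT.lf (nat_lit 0) (nat_lit 7555543657) (nat_lit 420) (nat_lit 4292286438) (nat_lit 504) (nat_lit 12139802136) (nat_lit 62) (nat_lit 5) (nat_lit 67) (nat_lit 5) (nat_lit 68) (nat_lit 5) (nat_lit 357) (nat_lit 327) (nat_lit 177)))) (XT.nd (nat_lit 94) (nat_lit 420) (nat_lit 0) (XT.lf (nat_lit 0) (nat_lit 13746715579) (nat_lit 504) (nat_lit 8251583005) (nat_lit 84) (nat_lit 2469031780) (nat_lit 62) (nat_lit 5) (nat_lit 68) (nat_lit 5) (nat_lit 63) (nat_lit 5) (nat_lit 358) (nat_lit 327) (nat_lit 176)) (XT.nd (nat_lit 94) (nat_lit 0) (nat_lit 0) (XT.lf (nat_lit 0) (nat_lit 136529464) (nat_lit 420) (nat_lit 15608530783) (nat_lit 504) (nat_lit 9215603697) (nat_lit 57) (nat_lit 5) (nat_lit 62) (nat_lit 5) (nat_lit 63) (nat_lit 5) (nat_lit 359) (nat_lit 327) (nat_lit 175)) (XT.lf (nat_lit 0) (nat_lit 8954812098) (nat_lit 420) (nat_lit 8932103072) (nat_lit 504) (nat_lit 7579869799) (nat_lit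 57) (nat_lit 5) (nat_lit 62) (nat_lit 5) (nat_lit 63) (nat_lit 5) (nat_lit 360) (nat_lit 327) (nat_lit 174)))))) (XT.nd (nat_lit 564) (nat_lit 672) (nat_lit 0) (XT.nd (nat_lit 282) (nat_lit 504) (nat_lit 0) (XT.nd (nat_lit 94) (nat_lit 336) (nat_lit 0) (XT.lf (nat_lit 0) (nat_lit 18041814987) (nat_lit 420) (nat_lit 2048921924) (nat_lit 504) (nat_lit 5898018020) (nat_lit 57) (nat_lit 5) (nat_lit 62) (nat_lit 5) (nat_lit 63) (nat_lit 5) (nat_lit 361) (nat_lit 327) (nat_lit 173)) (XT.nd (nat_lit 94) (nat_lit 0) (nat_lit 0) (XT.lf (nat_lit 0) (nat_lit 845920096) (nat_lit 336) (nat_lit 21571122318) (nat_lit 420) (nat_lit 4108205605) (nat_lit 53) (nat_lit 5) (nat_lit 57) (nat_lit 5) (nat_lit 58) (nat_lit 5) (nat_lit 362) (nat_lit 327) (nat_lit 172)) (XT.lf (nat_lit 0) (nat_lit 10053831259) (nat_lit 336) (nat_lit 14861109365) (nat_lit 420) (nat_lit 2160368515) (nat_lit 53) (nat_lit 5) (nat_lit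 57) (nat_lit 5) (nat_lit 58) (nat_lit 5) (nat_lit 363) (nat_lit 327) (nat_lit 171)))) (XT.nd (nat_lit 94) (nat_lit 504) (nat_lit 0) (XT.lf (nat_lit 0) (nat_lit 19542714390) (nat_lit 336) (nat_lit 7943470043) (nat_lit 420) (nat_lit 156384412) (nat_lit 53) (nat_lit 5) (nat_lit 57) (nat_lit 5) (nat_lit 58) (nat_lit 5) (nat_lit 364) (nat_lit 327) (nat_lit 170)) (XT.nd (nat_lit 94) (nat_lit 0) (nat_lit 0) (XT.lf (nat_lit 0) (nat_lit 1097057572) (nat_lit 420) (nat_lit 781046114) (nat_lit 504) (nat_lit 26348528802) (nat_lit 47) (nat_lit 5) (nat_lit 52) (nat_lit 5) (nat_lit 53) (nat_lit 5) (nat_lit 365) (nat_lit 327) (nat_lit 169)) (XT.lf (nat_lit 0) (nat_lit 4119376912) (nat_lit 504) (nat_lit 18147896965) (nat_lit 84) (nat_lit 6556940927) (nat_lit 47) (nat_lit 5) (nat_lit 53) (nat_lit 5) (nat_lit 48) (nat_lit 5) (nat_lit 366) (nat_lit 327) (nat_lit 168))))) (XT.nd (nat_lit 282) (nat_lit 336)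 (nat_lit 0) (XT.nd (nat_lit 94) (nat_lit 336) (nat_lit 0) (XT.lf (nat_lit 0) (nat_lit 6434283942) (nat_lit 504) (nat_lit 8900170498) (nat_lit 84) (nat_lit 14105756581) (nat_lit 47) (nat_lit 5) (nat_lit 53) (nat_lit 5) (nat_lit 48) (nat_lit 5) (nat_lit 367) (nat_lit 327) (nat_lit 167)) (XT.nd (nat_lit 94) (nat_lit 0) (nat_lit 0) (XT.lf (nat_lit 0) (nat_lit 642925932) (nat_lit 336) (nat_lit 8180686412) (nat_lit 420) (nat_lit 21251625445) (nat_lit 43) (nat_lit 5) (nat_lit 47) (nat_lit 5) (nat_lit 48) (nat_lit 5) (nat_lit 368) (nat_lit 327) (nat_lit 166)) (XT.lf (nat_lit 0) (nat_lit 10666317368) (nat_lit 336) (nat_lit 709943383) (nat_lit 420) (nat_lit 19350939449) (nat_lit 43) (nat_lit 5) (nat_lit 47) (nat_lit 5) (nat_lit 48) (nat_lit 5) (nat_lit 369) (nat_lit 327) (nat_lit 165)))) (XT.nd (nat_lit 94) (nat_lit 336) (nat_lit 0) (XT.lf (nat_lit 0) (nat_lit 14073862172) (nat_lit 420) (nat_lit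 10472518248) (nat_lit 84) (nat_lit 6850968668) (nat_lit 43) (nat_lit 5) (nat_lit 48) (nat_lit 5) (nat_lit 44) (nat_lit 5) (nat_lit 370) (nat_lit 327) (nat_lit 164)) (XT.nd (nat_lit 94) (nat_lit 336) (nat_lit 0) (XT.lf (nat_lit 0) (nat_lit 16858912374) (nat_lit 420) (nat_lit 598262067) (nat_lit 84) (nat_lit 14630995240) (nat_lit 43) (nat_lit 5) (nat_lit 48) (nat_lit 5) (nat_lit 44) (nat_lit 5) (nat_lit 371) (nat_lit 327) (nat_lit 163)) (XT.lf (nat_lit 0) (nat_lit 9775078321) (nat_lit 336) (nat_lit 10048856255) (nat_lit 420) (nat_lit 12973583575) (nat_lit 39) (nat_lit 5) (nat_lit 43) (nat_lit 5) (nat_lit 44) (nat_lit 5) (nat_lit 372) (nat_lit 327) (nat_lit 162))))))) (XT.nd (nat_lit 1128) (nat_lit 924) (nat_lit 0) (XT.nd (nat_lit 564) (nat_lit 252) (nat_lit 0) (XT.nd (nat_lit 282) (nat_lit 420) (nat_lit 0) (XT.nd (nat_lit 94) (nat_lit 252) (nat_lit 0) (XT.lf (nat_lit 0) (nat_lit 20478751457)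 (nat_lit 336) (nat_lit 2405092436) (nat_lit 420) (nat_lit 10644935099) (nat_lit 39) (nat_lit 5) (nat_lit 43) (nat_lit 5) (nat_lit 44) (nat_lit 5) (nat_lit 373) (nat_lit 327) (nat_lit 161)) (XT.nd (nat_lit 94) (nat_lit 252) (nat_lit 0) (XT.lf (nat_lit 0) (nat_lit 26089748265) (nat_lit 420) (nat_lit 2826701441) (nat_lit 84) (nat_lit 5364688181) (nat_lit 39) (nat_lit 5) (nat_lit 44) (nat_lit 5) (nat_lit 40) (nat_lit 5) (nat_lit 374) (nat_lit 327) (nat_lit 160)) (XT.lf (nat_lit 0) (nat_lit 7843177425) (nat_lit 252) (nat_lit 21651176579) (nat_lit 336) (nat_lit 5559400847) (nat_lit 36) (nat_lit 5) (nat_lit 39) (nat_lit 5) (nat_lit 40) (nat_lit 5) (nat_lit 375) (nat_lit 327) (nat_lit 159)))) (XT.nd (nat_lit 94) (nat_lit 420) (nat_lit 0) (XT.lf (nat_lit 0) (nat_lit 18899991093) (nat_lit 252) (nat_lit 14130986510) (nat_lit 336) (nat_lit 2818538009) (nat_lit 36) (nat_lit 5) (nat_lit 39) (nat_lit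 5) (nat_lit 40) (nat_lit 5) (nat_lit 376) (nat_lit 327) (nat_lit 158)) (XT.nd (nat_lit 94) (nat_lit 336) (nat_lit 0) (XT.lf (nat_lit 0) (nat_lit 4163095) (nat_lit 336) (nat_lit 6374168309) (nat_lit 84) (nat_lit 30291716342) (nat_lit 35) (nat_lit 5) (nat_lit 39) (nat_lit 5) (nat_lit 36) (nat_lit 5) (nat_lit 377) (nat_lit 327) (nat_lit 157)) (XT.lf (nat_lit 0) (nat_lit 2915223246) (nat_lit 420) (nat_lit 32941533484) (nat_lit 84) (nat_lit 1656536741) (nat_lit 31) (nat_lit 5) (nat_lit 36) (nat_lit 5) (nat_lit 32) (nat_lit 5) (nat_lit 378) (nat_lit 327) (nat_lit 156))))) (XT.nd (nat_lit 282) (nat_lit 252) (nat_lit 0) (XT.nd (nat_lit 94) (nat_lit 0) (nat_lit 0) (XT.lf (nat_lit 0) (nat_lit 6046127715) (nat_lit 420) (nat_lit 22458053433) (nat_lit 84) (nat_lit 9874492879) (nat_lit 31) (nat_lit 5) (nat_lit 36) (nat_lit 5) (nat_lit 32) (nat_lit 5) (nat_lit 379) (nat_lit 327) (nat_lit 155)) (XT.nd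 (nat_lit 94) (nat_lit 0) (nat_lit 0) (XT.lf (nat_lit 0) (nat_lit 9271328247) (nat_lit 420) (nat_lit 11653136835) (nat_lit 84) (nat_lit 18346513421) (nat_lit 31) (nat_lit 5) (nat_lit 36) (nat_lit 5) (nat_lit 32) (nat_lit 5) (nat_lit 380) (nat_lit 327) (nat_lit 154)) (XT.lf (nat_lit 0) (nat_lit 12593831067) (nat_lit 420) (nat_lit 516712375) (nat_lit 84) (nat_lit 27080495176) (nat_lit 31) (nat_lit 5) (nat_lit 36) (nat_lit 5) (nat_lit 32) (nat_lit 5) (nat_lit 381) (nat_lit 327) (nat_lit 153)))) (XT.nd (nat_lit 94) (nat_lit 0) (nat_lit 0) (XT.lf (nat_lit 0) (nat_lit 11186993243) (nat_lit 252) (nat_lit 4940716210) (nat_lit 336) (nat_lit 25008562246) (nat_lit 28) (nat_lit 5) (nat_lit 31) (nat_lit 5) (nat_lit 32) (nat_lit 5) (nat_lit 382) (nat_lit 327) (nat_lit 152)) (XT.nd (nat_lit 94) (nat_lit 0) (nat_lit 0) (XT.lf (nat_lit 0) (nat_lit 19808571708) (nat_lit 336) (nat_lit 18884162119) (nat_lit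 84) (nat_lit 3416923230) (nat_lit 28) (nat_lit 5) (nat_lit 32) (nat_lit 5) (nat_lit 29) (nat_lit 5) (nat_lit 383) (nat_lit 327) (nat_lit 151)) (XT.lf (nat_lit 0) (nat_lit 23651589048) (nat_lit 336) (nat_lit 7529846487) (nat_lit 84) (nat_lit 11930302506) (nat_lit 28) (nat_lit 5) (nat_lit 32) (nat_lit 5) (nat_lit 29) (nat_lit 5) (nat_lit 384) (nat_lit 327) (nat_lit 150)))))) (XT.nd (nat_lit 564) (nat_lit 420) (nat_lit 0) (XT.nd (nat_lit 282) (nat_lit 252) (nat_lit 0) (XT.nd (nat_lit 94) (nat_lit 0) (nat_lit 0) (XT.lf (nat_lit 0) (nat_lit 4259075242) (nat_lit 252) (nat_lit 23394506363) (nat_lit 336) (nat_lit 16490076711) (nat_lit 25) (nat_lit 5) (nat_lit 28) (nat_lit 5) (nat_lit 29) (nat_lit 5) (nat_lit 385) (nat_lit 327) (nat_lit 149)) (XT.nd (nat_lit 94) (nat_lit 0) (nat_lit 0) (XT.lf (nat_lit 0) (nat_lit 16569926054) (nat_lit 252) (nat_lit 15285938277) (nat_lit 336) (nat_lit 13349350285)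 (nat_lit 25) (nat_lit 5) (nat_lit 28) (nat_lit 5) (nat_lit 29) (nat_lit 5) (nat_lit 386) (nat_lit 327) (nat_lit 148)) (XT.lf (nat_lit 0) (nat_lit 29259351863) (nat_lit 252) (nat_lit 6926769396) (nat_lit 336) (nat_lit 10113638382) (nat_lit 25) (nat_lit 5) (nat_lit 28) (nat_lit 5) (nat_lit 29) (nat_lit 5) (nat_lit 387) (nat_lit 327) (nat_lit 147)))) (XT.nd (nat_lit 94) (nat_lit 252) (nat_lit 0) (XT.lf (nat_lit 0) (nat_lit 40665161510) (nat_lit 336) (nat_lit 5105905945) (nat_lit 84) (nat_lit 1656726211) (nat_lit 25) (nat_lit 5) (nat_lit 29) (nat_lit 5) (nat_lit 26) (nat_lit 5) (nat_lit 388) (nat_lit 327) (nat_lit 146)) (XT.nd (nat_lit 94) (nat_lit 84) (nat_lit 0) (XT.lf (nat_lit 0) (nat_lit 7271272195) (nat_lit 168) (nat_lit 38152588619) (nat_lit 252) (nat_lit 3162579595) (nat_lit 23) (nat_lit 5) (nat_lit 25) (nat_lit 5) (nat_lit 26) (nat_lit 5) (nat_lit 389) (nat_lit 327) (nat_lit 145))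 (XT.lf (nat_lit 0) (nat_lit 589690685) (nat_lit 252) (nat_lit 29647931080) (nat_lit 84) (nat_lit 19541620763) (nat_lit 22) (nat_lit 5) (nat_lit 25) (nat_lit 5) (nat_lit 23) (nat_lit 5) (nat_lit 390) (nat_lit 327) (nat_lit 144))))) (XT.nd (nat_lit 282) (nat_lit 168) (nat_lit 0) (XT.nd (nat_lit 94) (nat_lit 252) (nat_lit 0) (XT.lf (nat_lit 0) (nat_lit 4390490568) (nat_lit 252) (nat_lit 17654237437) (nat_lit 84) (nat_lit 28963363756) (nat_lit 22) (nat_lit 5) (nat_lit 25) (nat_lit 5) (nat_lit 23) (nat_lit 5) (nat_lit 391) (nat_lit 327) (nat_lit 143)) (XT.nd (nat_lit 94) (nat_lit 252) (nat_lit 0) (XT.lf (nat_lit 0) (nat_lit 8307081730) (nat_lit 252) (nat_lit 5291534725) (nat_lit 84) (nat_lit 38676489639) (nat_lit 22) (nat_lit 5) (nat_lit 25) (nat_lit 5) (nat_lit 23) (nat_lit 5) (nat_lit 392) (nat_lit 327) (nat_lit 142)) (XT.lf (nat_lit 0) (nat_lit 7604922632) (nat_lit 252) (nat_lit 4813633983)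 (nat_lit 336) (nat_lit 41160571203) (nat_lit 19) (nat_lit 5) (nat_lit 22) (nat_lit 5) (nat_lit 23) (nat_lit 5) (nat_lit 393) (nat_lit 327) (nat_lit 141)))) (XT.nd (nat_lit 188) (nat_lit 168) (nat_lit 0) (XT.nd (nat_lit 94) (nat_lit 0) (nat_lit 0) (XT.lf (nat_lit 0) (nat_lit 16753435677) (nat_lit 336) (nat_lit 33953920793) (nat_lit 84) (nat_lit 4213250621) (nat_lit 19) (nat_lit 5) (nat_lit 23) (nat_lit 5) (nat_lit 20) (nat_lit 5) (nat_lit 394) (nat_lit 327) (nat_lit 140)) (XT.lf (nat_lit 0) (nat_lit 21270039608) (nat_lit 336) (nat_lit 21612901184) (nat_lit 84) (nat_lit 13419270832) (nat_lit 19) (nat_lit 5) (nat_lit 23) (nat_lit 5) (nat_lit 20) (nat_lit 5) (nat_lit 395) (nat_lit 327) (nat_lit 139))) (XT.nd (nat_lit 94) (nat_lit 168) (nat_lit 0) (XT.lf (nat_lit 0) (nat_lit 25924826512) (nat_lit 336) (nat_lit 8891891393) (nat_lit 84) (nat_lit 22909991623) (nat_lit 19) (nat_lit 5) (nat_lit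 23) (nat_lit 5) (nat_lit 20) (nat_lit 5) (nat_lit 396) (nat_lit 327) (nat_lit 138)) (XT.lf (nat_lit 0) (nat_lit 4307757611) (nat_lit 168) (nat_lit 26457111015) (nat_lit 252) (nat_lit 28429235217) (nat_lit 17) (nat_lit 5) (nat_lit 19) (nat_lit 5) (nat_lit 20) (nat_lit 5) (nat_lit 397) (nat_lit 327) (nat_lit 137))))))))
noncomputable def xc176 : XT := (XT.nd (nat_lit 48316) (nat_lit 0) (nat_lit 3948) (XT.nd (nat_lit 1128) (nat_lit 168) (nat_lit 0) (XT.nd (nat_lit 564) (nat_lit 252) (nat_lit 0) (XT.nd (nat_lit 282) (nat_lit 168) (nat_lit 0) (XT.nd (nat_lit 94) (nat_lit 0) (nat_lit 0) (XT.lf (nat_lit 0) (nat_lit 18102620701) (nat_lit 168) (nat_lit 17743396615) (nat_lit 252) (nat_lit 24858153480) (nat_lit 17) (nat_lit 5) (nat_lit 19) (nat_lit 5) (nat_lit 20) (nat_lit 5) (nat_lit 398) (nat_lit 327) (nat_lit 136)) (XT.nd (nat_lit 94) (nat_lit 0) (nat_lit 0) (XT.lf (nat_lit 0) (nat_lit 32322720612)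 (nat_lit 168) (nat_lit 8760265722) (nat_lit 252) (nat_lit 21178122293) (nat_lit 17) (nat_lit 5) (nat_lit 19) (nat_lit 5) (nat_lit 20) (nat_lit 5) (nat_lit 399) (nat_lit 327) (nat_lit 135)) (XT.lf (nat_lit 0) (nat_lit 46485623637) (nat_lit 252) (nat_lit 16890023153) (nat_lit 84) (nat_lit 490567805) (nat_lit 17) (nat_lit 5) (nat_lit 20) (nat_lit 5) (nat_lit 18) (nat_lit 5) (nat_lit 400) (nat_lit 327) (nat_lit 134)))) (XT.nd (nat_lit 94) (nat_lit 168) (nat_lit 0) (XT.lf (nat_lit 0) (nat_lit 52143738126) (nat_lit 252) (nat_lit 3529066142) (nat_lit 84) (nat_lit 9845552600) (nat_lit 17) (nat_lit 5) (nat_lit 20) (nat_lit 5) (nat_lit 18) (nat_lit 5) (nat_lit 401) (nat_lit 327) (nat_lit 133)) (XT.nd (nat_lit 94) (nat_lit 0) (nat_lit 0) (XT.lf (nat_lit 0) (nat_lit 10454474106) (nat_lit 168) (nat_lit 47624936404) (nat_lit 252) (nat_lit 9139143892) (nat_lit 15) (nat_lit 5) (nat_lit 17) (nat_lit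 5) (nat_lit 18) (nat_lit 5) (nat_lit 402) (nat_lit 327) (nat_lit 132)) (XT.lf (nat_lit 0) (nat_lit 24944100351) (nat_lit 168) (nat_lit 39290295972) (nat_lit 252) (nat_lit 4735972729) (nat_lit 15) (nat_lit 5) (nat_lit 17) (nat_lit 5) (nat_lit 18) (nat_lit 5) (nat_lit 403) (nat_lit 327) (nat_lit 131))))) (XT.nd (nat_lit 282) (nat_lit 168) (nat_lit 0) (XT.nd (nat_lit 94) (nat_lit 84) (nat_lit 0) (XT.lf (nat_lit 0) (nat_lit 39880753604) (nat_lit 168) (nat_lit 30697950426) (nat_lit 252) (nat_lit 197837250) (nat_lit 15) (nat_lit 5) (nat_lit 17) (nat_lit 5) (nat_lit 18) (nat_lit 5) (nat_lit 404) (nat_lit 327) (nat_lit 130)) (XT.nd (nat_lit 94) (nat_lit 0) (nat_lit 0) (XT.lf (nat_lit 0) (nat_lit 4389240770) (nat_lit 252) (nat_lit 17404835360) (nat_lit 84) (nat_lit 50843300948) (nat_lit 14) (nat_lit 5) (nat_lit 17) (nat_lit 5) (nat_lit 15) (nat_lit 5) (nat_lit 405) (nat_lit 327) (nat_lit 129))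 (XT.lf (nat_lit 0) (nat_lit 9112994611) (nat_lit 252) (nat_lit 3499744872) (nat_lit 84) (nat_lit 61943145303) (nat_lit 14) (nat_lit 5) (nat_lit 17) (nat_lit 5) (nat_lit 15) (nat_lit 5) (nat_lit 406) (nat_lit 327) (nat_lit 128)))) (XT.nd (nat_lit 94) (nat_lit 0) (nat_lit 0) (XT.lf (nat_lit 0) (nat_lit 11057184991) (nat_lit 168) (nat_lit 3034316939) (nat_lit 252) (nat_lit 62439011219) (nat_lit 12) (nat_lit 5) (nat_lit 14) (nat_lit 5) (nat_lit 15) (nat_lit 5) (nat_lit 407) (nat_lit 327) (nat_lit 127)) (XT.nd (nat_lit 94) (nat_lit 0) (nat_lit 0) (XT.lf (nat_lit 0) (nat_lit 19327754577) (nat_lit 252) (nat_lit 52495903766) (nat_lit 84) (nat_lit 6739495490) (nat_lit 12) (nat_lit 5) (nat_lit 15) (nat_lit 5) (nat_lit 13) (nat_lit 5) (nat_lit 408) (nat_lit 327) (nat_lit 126)) (XT.lf (nat_lit 0) (nat_lit 24756049649) (nat_lit 252) (nat_lit 39149168618) (nat_lit 84) (nat_lit 16752671298) (nat_lit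 12) (nat_lit 5) (nat_lit 15) (nat_lit 5) (nat_lit 13) (nat_lit 5) (nat_lit 409) (nat_lit 327) (nat_lit 125)))))) (XT.nd (nat_lit 46624) (nat_lit 0) (nat_lit 7056) (XT.nd (nat_lit 46342) (nat_lit 0) (nat_lit 6972) (XT.nd (nat_lit 94) (nat_lit 168) (nat_lit 0) (XT.lf (nat_lit 0) (nat_lit 30351346087) (nat_lit 252) (nat_lit 25390581359) (nat_lit 84) (nat_lit 27075678540) (nat_lit 12) (nat_lit 5) (nat_lit 15) (nat_lit 5) (nat_lit 13) (nat_lit 5) (nat_lit 410) (nat_lit 327) (nat_lit 124)) (XT.nd (nat_lit 94) (nat_lit 168) (nat_lit 0) (XT.lf (nat_lit 0) (nat_lit 36118859292) (nat_lit 252) (nat_lit 11207317543) (nat_lit 84) (nat_lit 37718139338) (nat_lit 12) (nat_lit 5) (nat_lit 15) (nat_lit 5) (nat_lit 13) (nat_lit 5) (nat_lit 411) (nat_lit 327) (nat_lit 123)) (XT.lf (nat_lit 0) (nat_lit 3484038730) (nat_lit 168) (nat_lit 38614488556) (nat_lit 252) (nat_lit 45240496945) (nat_lit 10) (nat_lit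 5) (nat_lit 12) (nat_lit 5) (nat_lit 13) (nat_lit 5) (nat_lit 412) (nat_lit 327) (nat_lit 122)))) (XT.nd (nat_lit 94) (nat_lit 0) (nat_lit 0) (XT.lf (nat_lit 0) (nat_lit 1417815392) (nat_lit 1092) (nat_lit 2974283075) (nat_lit 1092) (nat_lit 2974283075) (nat_lit 93) (nat_lit 3) (nat_lit 106) (nat_lit 3) (nat_lit 106) (nat_lit 5) (nat_lit 328) (nat_lit 328) (nat_lit 205)) (XT.nd (nat_lit 94) (nat_lit 0) (nat_lit 84) (XT.lf (nat_lit 0) (nat_lit 3131413714) (nat_lit 1092) (nat_lit 797318093) (nat_lit 1092) (nat_lit 11023186236) (nat_lit 93) (nat_lit 3) (nat_lit 106) (nat_lit 3) (nat_lit 106) (nat_lit 5) (nat_lit 329) (nat_lit 328) (nat_lit 204)) (XT.lf (nat_lit 0) (nat_lit 3483063145) (nat_lit 1008) (nat_lit 10586963974) (nat_lit 1092) (nat_lit 1106448328) (nat_lit 94) (nat_lit 5) (nat_lit 106) (nat_lit 5) (nat_lit 107) (nat_lit 5) (nat_lit 330) (nat_lit 328) (nat_lit 203))))) (XT.nd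 (nat_lit 282) (nat_lit 0) (nat_lit 84) (XT.nd (nat_lit 94) (nat_lit 0) (nat_lit 0) (XT.lf (nat_lit 0) (nat_lit 3884355207) (nat_lit 1008) (nat_lit 5293381250) (nat_lit 1092) (nat_lit 6229111254) (nat_lit 94) (nat_lit 5) (nat_lit 106) (nat_lit 5) (nat_lit 107) (nat_lit 5) (nat_lit 331) (nat_lit 328) (nat_lit 202)) (XT.nd (nat_lit 94) (nat_lit 0) (nat_lit 84) (XT.lf (nat_lit 84) (nat_lit 162123978) (nat_lit 0) (nat_lit 4128020061) (nat_lit 1092) (nat_lit 11354516642) (nat_lit 95) (nat_lit 5) (nat_lit 94) (nat_lit 5) (nat_lit 107) (nat_lit 5) (nat_lit 332) (nat_lit 328) (nat_lit 201)) (XT.lf (nat_lit 0) (nat_lit 4765746840) (nat_lit 1008) (nat_lit 10006196643) (nat_lit 1092) (nat_lit 1116179435) (nat_lit 95) (nat_lit 5) (nat_lit 107) (nat_lit 5) (nat_lit 108) (nat_lit 5) (nat_lit 333) (nat_lit 328) (nat_lit 200)))) (XT.nd (nat_lit 94) (nat_lit 0) (nat_lit 0) (XT.lf (nat_lit 0) (nat_lit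 5289313380) (nat_lit 1008) (nat_lit 4407905536) (nat_lit 1092) (nat_lit 6440933537) (nat_lit 95) (nat_lit 5) (nat_lit 107) (nat_lit 5) (nat_lit 108) (nat_lit 5) (nat_lit 334) (nat_lit 328) (nat_lit 199)) (XT.nd (nat_lit 94) (nat_lit 0) (nat_lit 84) (XT.lf (nat_lit 84) (nat_lit 1386438934) (nat_lit 0) (nat_lit 4447695918) (nat_lit 1092) (nat_lit 10561690588) (nat_lit 96) (nat_lit 5) (nat_lit 95) (nat_lit 5) (nat_lit 108) (nat_lit 5) (nat_lit 335) (nat_lit 328) (nat_lit 198)) (XT.lf (nat_lit 0) (nat_lit 6443405558) (nat_lit 1008) (nat_lit 9221960336) (nat_lit 1092) (nat_lit 994692885) (nat_lit 96) (nat_lit 5) (nat_lit 108) (nat_lit 5) (nat_lit 109) (nat_lit 5) (nat_lit 336) (nat_lit 328) (nat_lit 197))))))) (XT.nd (nat_lit 1128) (nat_lit 2520) (nat_lit 0) (XT.nd (nat_lit 564) (nat_lit 756) (nat_lit 0) (XT.nd (nat_lit 282) (nat_lit 0) (nat_lit 84) (XT.nd (nat_lit 94) (nat_lit 0) (nat_lit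 0) (XT.lf (nat_lit 0) (nat_lit 7108819492) (nat_lit 1008) (nat_lit 3306156155) (nat_lit 1092) (nat_lit 6516398207) (nat_lit 96) (nat_lit 5) (nat_lit 108) (nat_lit 5) (nat_lit 109) (nat_lit 5) (nat_lit 337) (nat_lit 328) (nat_lit 196)) (XT.nd (nat_lit 94) (nat_lit 0) (nat_lit 84) (XT.lf (nat_lit 84) (nat_lit 2844981926) (nat_lit 0) (nat_lit 4970115842) (nat_lit 1092) (nat_lit 9395418662) (nat_lit 97) (nat_lit 5) (nat_lit 96) (nat_lit 5) (nat_lit 109) (nat_lit 5) (nat_lit 338) (nat_lit 328) (nat_lit 195)) (XT.lf (nat_lit 0) (nat_lit 8576742898) (nat_lit 1008) (nat_lit 8252716187) (nat_lit 1092) (nat_lit 667858443) (nat_lit 97) (nat_lit 5) (nat_lit 109) (nat_lit 5) (nat_lit 110) (nat_lit 5) (nat_lit 339) (nat_lit 328) (nat_lit 194)))) (XT.nd (nat_lit 94) (nat_lit 0) (nat_lit 0) (XT.lf (nat_lit 0) (nat_lit 9405291217) (nat_lit 1008) (nat_lit 2006694514) (nat_lit 1092) (nat_lit 6379723130)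 (nat_lit 97) (nat_lit 5) (nat_lit 109) (nat_lit 5) (nat_lit 110) (nat_lit 5) (nat_lit 340) (nat_lit 328) (nat_lit 193)) (XT.nd (nat_lit 94) (nat_lit 0) (nat_lit 84) (XT.lf (nat_lit 84) (nat_lit 4518698326) (nat_lit 0) (nat_lit 5778338574) (nat_lit 1092) (nat_lit 7797066751) (nat_lit 98) (nat_lit 5) (nat_lit 97) (nat_lit 5) (nat_lit 110) (nat_lit 5) (nat_lit 341) (nat_lit 328) (nat_lit 192)) (XT.lf (nat_lit 0) (nat_lit 11230756905) (nat_lit 1008) (nat_lit 7122338463) (nat_lit 1092) (nat_lit 52372076) (nat_lit 98) (nat_lit 5) (nat_lit 110) (nat_lit 5) (nat_lit 111) (nat_lit 5) (nat_lit 342) (nat_lit 328) (nat_lit 191))))) (XT.nd (nat_lit 282) (nat_lit 924) (nat_lit 0) (XT.nd (nat_lit 94) (nat_lit 0) (nat_lit 0) (XT.lf (nat_lit 0) (nat_lit 12245608412) (nat_lit 1008) (nat_lit 533682240) (nat_lit 1092) (nat_lit 5945612918) (nat_lit 98) (nat_lit 5) (nat_lit 110) (nat_lit 5) (nat_lit 111)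 (nat_lit 5) (nat_lit 343) (nat_lit 328) (nat_lit 190)) (XT.nd (nat_lit 94) (nat_lit 0) (nat_lit 0) (XT.lf (nat_lit 84) (nat_lit 6382622104) (nat_lit 0) (nat_lit 6965909834) (nat_lit 1092) (nat_lit 5703992011) (nat_lit 99) (nat_lit 5) (nat_lit 98) (nat_lit 5) (nat_lit 111) (nat_lit 5) (nat_lit 344) (nat_lit 328) (nat_lit 189)) (XT.lf (nat_lit 84) (nat_lit 13519502438) (nat_lit 0) (nat_lit 965159999) (nat_lit 1092) (nat_lit 4905704201) (nat_lit 99) (nat_lit 5) (nat_lit 98) (nat_lit 5) (nat_lit 111) (nat_lit 5) (nat_lit 345) (nat_lit 328) (nat_lit 188)))) (XT.nd (nat_lit 94) (nat_lit 0) (nat_lit 0) (XT.lf (nat_lit 0) (nat_lit 1104157119) (nat_lit 1008) (nat_lit 14608264731) (nat_lit 1092) (nat_lit 4024546444) (nat_lit 87) (nat_lit 5) (nat_lit 99) (nat_lit 5) (nat_lit 100) (nat_lit 5) (nat_lit 346) (nat_lit 328) (nat_lit 187)) (XT.nd (nat_lit 94) (nat_lit 0) (nat_lit 0) (XT.lf (nat_lit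 0) (nat_lit 8404608286) (nat_lit 1008) (nat_lit 8638480467) (nat_lit 1092) (nat_lit 3049249074) (nat_lit 87) (nat_lit 5) (nat_lit 99) (nat_lit 5) (nat_lit 100) (nat_lit 5) (nat_lit 347) (nat_lit 328) (nat_lit 186)) (XT.lf (nat_lit 0) (nat_lit 15926348453) (nat_lit 1008) (nat_lit 2482640213) (nat_lit 1092) (nat_lit 2049954170) (nat_lit 87) (nat_lit 5) (nat_lit 99) (nat_lit 5) (nat_lit 100) (nat_lit 5) (nat_lit 348) (nat_lit 328) (nat_lit 185)))))) (XT.nd (nat_lit 564) (nat_lit 1344) (nat_lit 0) (XT.nd (nat_lit 282) (nat_lit 504) (nat_lit 0) (XT.nd (nat_lit 94) (nat_lit 84) (nat_lit 0) (XT.lf (nat_lit 0) (nat_lit 2858515126) (nat_lit 588) (nat_lit 17019577666) (nat_lit 672) (nat_lit 956964604) (nat_lit 80) (nat_lit 5) (nat_lit 87) (nat_lit 5) (nat_lit 88) (nat_lit 5) (nat_lit 349) (nat_lit 328) (nat_lit 184)) (XT.nd (nat_lit 94) (nat_lit 0) (nat_lit 0) (XT.lf (nat_lit 0) (nat_lit 233880560)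 (nat_lit 672) (nat_lit 10679281152) (nat_lit 84) (nat_lit 10307557893) (nat_lit 79) (nat_lit 5) (nat_lit 87) (nat_lit 5) (nat_lit 80) (nat_lit 5) (nat_lit 350) (nat_lit 328) (nat_lit 183)) (XT.lf (nat_lit 0) (nat_lit 1436147365) (nat_lit 672) (nat_lit 3170629275) (nat_lit 84) (nat_lit 17011460133) (nat_lit 79) (nat_lit 5) (nat_lit 87) (nat_lit 5) (nat_lit 80) (nat_lit 5) (nat_lit 351) (nat_lit 328) (nat_lit 182)))) (XT.nd (nat_lit 94) (nat_lit 0) (nat_lit 0) (XT.lf (nat_lit 0) (nat_lit 2735740886) (nat_lit 588) (nat_lit 17386328963) (nat_lit 84) (nat_lit 1904173248) (nat_lit 73) (nat_lit 5) (nat_lit 80) (nat_lit 5) (nat_lit 74) (nat_lit 5) (nat_lit 352) (nat_lit 328) (nat_lit 181)) (XT.nd (nat_lit 94) (nat_lit 0) (nat_lit 0) (XT.lf (nat_lit 0) (nat_lit 4150845087) (nat_lit 588) (nat_lit 9738559745) (nat_lit 84) (nat_lit 8555187902) (nat_lit 73) (nat_lit 5) (nat_lit 80) (nat_lit 5)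 (nat_lit 74) (nat_lit 5) (nat_lit 353) (nat_lit 328) (nat_lit 180)) (XT.lf (nat_lit 0) (nat_lit 5604651119) (nat_lit 588) (nat_lit 1858591506) (nat_lit 84) (nat_lit 15412854969) (nat_lit 73) (nat_lit 5) (nat_lit 80) (nat_lit 5) (nat_lit 74) (nat_lit 5) (nat_lit 354) (nat_lit 328) (nat_lit 179))))) (XT.nd (nat_lit 282) (nat_lit 840) (nat_lit 0) (XT.nd (nat_lit 94) (nat_lit 0) (nat_lit 0) (XT.lf (nat_lit 0) (nat_lit 6389658080) (nat_lit 504) (nat_lit 772242199) (nat_lit 588) (nat_lit 16157294632) (nat_lit 67) (nat_lit 5) (nat_lit 73) (nat_lit 5) (nat_lit 74) (nat_lit 5) (nat_lit 355) (nat_lit 328) (nat_lit 178)) (XT.nd (nat_lit 94) (nat_lit 0) (nat_lit 0) (XT.lf (nat_lit 0) (nat_lit 8842890219) (nat_lit 588) (nat_lit 8908259218) (nat_lit 84) (nat_lit 6022564032) (nat_lit 67) (nat_lit 5) (nat_lit 74) (nat_lit 5) (nat_lit 68) (nat_lit 5) (nat_lit 356) (nat_lit 328) (nat_lit 177)) (XT.lf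 (nat_lit 0) (nat_lit 10579131840) (nat_lit 588) (nat_lit 650939973) (nat_lit 84) (nat_lit 13012176848) (nat_lit 67) (nat_lit 5) (nat_lit 74) (nat_lit 5) (nat_lit 68) (nat_lit 5) (nat_lit 357) (nat_lit 328) (nat_lit 176)))) (XT.nd (nat_lit 94) (nat_lit 420) (nat_lit 0) (XT.lf (nat_lit 0) (nat_lit 8019350366) (nat_lit 420) (nat_lit 4424785346) (nat_lit 504) (nat_lit 12278872839) (nat_lit 62) (nat_lit 5) (nat_lit 67) (nat_lit 5) (nat_lit 68) (nat_lit 5) (nat_lit 358) (nat_lit 328) (nat_lit 175)) (XT.nd (nat_lit 94) (nat_lit 420) (nat_lit 0) (XT.lf (nat_lit 0) (nat_lit 14395005817) (nat_lit 504) (nat_lit 8276713252) (nat_lit 84) (nat_lit 2546105858) (nat_lit 62) (nat_lit 5) (nat_lit 68) (nat_lit 5) (nat_lit 63) (nat_lit 5) (nat_lit 359) (nat_lit 328) (nat_lit 174)) (XT.lf (nat_lit 0) (nat_lit 369095389) (nat_lit 420) (nat_lit 16081789534) (nat_lit 504) (nat_lit 9275737030) (nat_lit 57)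 (nat_lit 5) (nat_lit 62) (nat_lit 5) (nat_lit 63) (nat_lit 5) (nat_lit 360) (nat_lit 328) (nat_lit 173))))))))
noncomputable def xc177 : XT := (XT.nd (nat_lit 2256) (nat_lit 1344) (nat_lit 0) (XT.nd (nat_lit 1128) (nat_lit 1260) (nat_lit 0) (XT.nd (nat_lit 564) (nat_lit 336) (nat_lit 0) (XT.nd (nat_lit 282) (nat_lit 504) (nat_lit 0) (XT.nd (nat_lit 94) (nat_lit 336) (nat_lit 0) (XT.lf (nat_lit 0) (nat_lit 9453879276) (nat_lit 420) (nat_lit 9198711455) (nat_lit 504) (nat_lit 7596077207) (nat_lit 57) (nat_lit 5) (nat_lit 62) (nat_lit 5) (nat_lit 63) (nat_lit 5) (nat_lit 361) (nat_lit 328) (nat_lit 172)) (XT.nd (nat_lit 94) (nat_lit 336) (nat_lit 0) (XT.lf (nat_lit 0) (nat_lit 18815920179) (nat_lit 420) (nat_lit 2102460994) (nat_lit 504) (nat_lit 5868665933) (nat_lit 57) (nat_lit 5) (nat_lit 62) (nat_lit 5) (nat_lit 63) (nat_lit 5) (nat_lit 362) (nat_lit 328) (nat_lit 171)) (XT.lf (nat_lit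 0) (nat_lit 1091964546) (nat_lit 336) (nat_lit 22220955403) (nat_lit 420) (nat_lit 4027402230) (nat_lit 53) (nat_lit 5) (nat_lit 57) (nat_lit 5) (nat_lit 58) (nat_lit 5) (nat_lit 363) (nat_lit 328) (nat_lit 170)))) (XT.nd (nat_lit 94) (nat_lit 504) (nat_lit 0) (XT.lf (nat_lit 0) (nat_lit 10578711402) (nat_lit 336) (nat_lit 15303499481) (nat_lit 420) (nat_lit 2025441056) (nat_lit 53) (nat_lit 5) (nat_lit 57) (nat_lit 5) (nat_lit 58) (nat_lit 5) (nat_lit 364) (nat_lit 328) (nat_lit 169)) (XT.nd (nat_lit 94) (nat_lit 420) (nat_lit 0) (XT.lf (nat_lit 0) (nat_lit 33898850) (nat_lit 420) (nat_lit 8137711026) (nat_lit 84) (nat_lit 20321086408) (nat_lit 52) (nat_lit 5) (nat_lit 57) (nat_lit 5) (nat_lit 53) (nat_lit 5) (nat_lit 365) (nat_lit 328) (nat_lit 168)) (XT.lf (nat_lit 0) (nat_lit 1340563170) (nat_lit 420) (nat_lit 783953163) (nat_lit 504) (nat_lit 26970441278) (nat_lit 47) (nat_lit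 5) (nat_lit 52) (nat_lit 5) (nat_lit 53) (nat_lit 5) (nat_lit 366) (nat_lit 328) (nat_lit 167))))) (XT.nd (nat_lit 282) (nat_lit 0) (nat_lit 0) (XT.nd (nat_lit 94) (nat_lit 336) (nat_lit 0) (XT.lf (nat_lit 0) (nat_lit 4429815506) (nat_lit 504) (nat_lit 18500990068) (nat_lit 84) (nat_lit 6780454519) (nat_lit 47) (nat_lit 5) (nat_lit 53) (nat_lit 5) (nat_lit 48) (nat_lit 5) (nat_lit 367) (nat_lit 328) (nat_lit 166)) (XT.nd (nat_lit 94) (nat_lit 336) (nat_lit 0) (XT.lf (nat_lit 0) (nat_lit 6810990110) (nat_lit 504) (nat_lit 8972883056) (nat_lit 84) (nat_lit 14562674631) (nat_lit 47) (nat_lit 5) (nat_lit 53) (nat_lit 5) (nat_lit 48) (nat_lit 5) (nat_lit 368) (nat_lit 328) (nat_lit 165)) (XT.lf (nat_lit 0) (nat_lit 863992220) (nat_lit 336) (nat_lit 8407061427) (nat_lit 420) (nat_lit 21730334614) (nat_lit 43) (nat_lit 5) (nat_lit 47) (nat_lit 5) (nat_lit 48) (nat_lit 5) (nat_lit 369) (nat_lit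 328) (nat_lit 164)))) (XT.nd (nat_lit 94) (nat_lit 0) (nat_lit 0) (XT.lf (nat_lit 0) (nat_lit 11192061067) (nat_lit 336) (nat_lit 705544000) (nat_lit 420) (nat_lit 19776142316) (nat_lit 43) (nat_lit 5) (nat_lit 47) (nat_lit 5) (nat_lit 48) (nat_lit 5) (nat_lit 370) (nat_lit 328) (nat_lit 163)) (XT.nd (nat_lit 94) (nat_lit 0) (nat_lit 0) (XT.lf (nat_lit 0) (nat_lit 14674014363) (nat_lit 420) (nat_lit 10602382690) (nat_lit 84) (nat_lit 7088446245) (nat_lit 43) (nat_lit 5) (nat_lit 48) (nat_lit 5) (nat_lit 44) (nat_lit 5) (nat_lit 371) (nat_lit 328) (nat_lit 162)) (XT.lf (nat_lit 0) (nat_lit 17540474122) (nat_lit 420) (nat_lit 427881301) (nat_lit 84) (nat_lit 15108899011) (nat_lit 43) (nat_lit 5) (nat_lit 48) (nat_lit 5) (nat_lit 44) (nat_lit 5) (nat_lit 372) (nat_lit 328) (nat_lit 161)))))) (XT.nd (nat_lit 564) (nat_lit 588) (nat_lit 0) (XT.nd (nat_lit 282) (nat_lit 336) (nat_lit 0)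 (XT.nd (nat_lit 94) (nat_lit 0) (nat_lit 0) (XT.lf (nat_lit 0) (nat_lit 10265119925) (nat_lit 336) (nat_lit 10329368436) (nat_lit 420) (nat_lit 13214216672) (nat_lit 39) (nat_lit 5) (nat_lit 43) (nat_lit 5) (nat_lit 44) (nat_lit 5) (nat_lit 373) (nat_lit 328) (nat_lit 160)) (XT.nd (nat_lit 94) (nat_lit 0) (nat_lit 0) (XT.lf (nat_lit 0) (nat_lit 21294983805) (nat_lit 336) (nat_lit 2449580115) (nat_lit 420) (nat_lit 10818237502) (nat_lit 39) (nat_lit 5) (nat_lit 43) (nat_lit 5) (nat_lit 44) (nat_lit 5) (nat_lit 374) (nat_lit 328) (nat_lit 159)) (XT.lf (nat_lit 0) (nat_lit 27045590758) (nat_lit 420) (nat_lit 2733473247) (nat_lit 84) (nat_lit 5559571924) (nat_lit 39) (nat_lit 5) (nat_lit 44) (nat_lit 5) (nat_lit 40) (nat_lit 5) (nat_lit 375) (nat_lit 328) (nat_lit 158)))) (XT.nd (nat_lit 94) (nat_lit 84) (nat_lit 0) (XT.lf (nat_lit 0) (nat_lit 8265340860) (nat_lit 252) (nat_lit 22287752571)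 (nat_lit 336) (nat_lit 5582212405) (nat_lit 36) (nat_lit 5) (nat_lit 39) (nat_lit 5) (nat_lit 40) (nat_lit 5) (nat_lit 376) (nat_lit 328) (nat_lit 157)) (XT.nd (nat_lit 94) (nat_lit 84) (nat_lit 0) (XT.lf (nat_lit 0) (nat_lit 19659532849) (nat_lit 252) (nat_lit 14535477274) (nat_lit 336) (nat_lit 2760878867) (nat_lit 36) (nat_lit 5) (nat_lit 39) (nat_lit 5) (nat_lit 40) (nat_lit 5) (nat_lit 377) (nat_lit 328) (nat_lit 156)) (XT.lf (nat_lit 0) (nat_lit 142130863) (nat_lit 336) (nat_lit 6399929618) (nat_lit 84) (nat_lit 31259903065) (nat_lit 35) (nat_lit 5) (nat_lit 39) (nat_lit 5) (nat_lit 36) (nat_lit 5) (nat_lit 378) (nat_lit 328) (nat_lit 155))))) (XT.nd (nat_lit 282) (nat_lit 252) (nat_lit 0) (XT.nd (nat_lit 94) (nat_lit 0) (nat_lit 0) (XT.lf (nat_lit 0) (nat_lit 3141321147) (nat_lit 420) (nat_lit 33788205221) (nat_lit 84) (nat_lit 1741906535) (nat_lit 31) (nat_lit 5) (nat_lit 36)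 (nat_lit 5) (nat_lit 32) (nat_lit 5) (nat_lit 379) (nat_lit 328) (nat_lit 154)) (XT.nd (nat_lit 94) (nat_lit 0) (nat_lit 0) (XT.lf (nat_lit 0) (nat_lit 6365202660) (nat_lit 420) (nat_lit 22984984611) (nat_lit 84) (nat_lit 10213596489) (nat_lit 31) (nat_lit 5) (nat_lit 36) (nat_lit 5) (nat_lit 32) (nat_lit 5) (nat_lit 380) (nat_lit 328) (nat_lit 153)) (XT.lf (nat_lit 0) (nat_lit 9686426120) (nat_lit 420) (nat_lit 11850205144) (nat_lit 84) (nat_lit 18947257598) (nat_lit 31) (nat_lit 5) (nat_lit 36) (nat_lit 5) (nat_lit 32) (nat_lit 5) (nat_lit 381) (nat_lit 328) (nat_lit 152)))) (XT.nd (nat_lit 94) (nat_lit 252) (nat_lit 0) (XT.lf (nat_lit 0) (nat_lit 13108087257) (nat_lit 420) (nat_lit 373488041) (nat_lit 84) (nat_lit 27951030547) (nat_lit 31) (nat_lit 5) (nat_lit 36) (nat_lit 5) (nat_lit 32) (nat_lit 5) (nat_lit 382) (nat_lit 328) (nat_lit 151)) (XT.nd (nat_lit 94) (nat_lit 0) (nat_lit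 0) (XT.lf (nat_lit 0) (nat_lit 11691420265) (nat_lit 252) (nat_lit 5057935489) (nat_lit 336) (nat_lit 25657867868) (nat_lit 28) (nat_lit 5) (nat_lit 31) (nat_lit 5) (nat_lit 32) (nat_lit 5) (nat_lit 383) (nat_lit 328) (nat_lit 150)) (XT.lf (nat_lit 0) (nat_lit 20541011695) (nat_lit 336) (nat_lit 19312882326) (nat_lit 84) (nat_lit 3557007650) (nat_lit 28) (nat_lit 5) (nat_lit 32) (nat_lit 5) (nat_lit 29) (nat_lit 5) (nat_lit 384) (nat_lit 328) (nat_lit 149))))))) (XT.nd (nat_lit 1128) (nat_lit 588) (nat_lit 0) (XT.nd (nat_lit 564) (nat_lit 336) (nat_lit 0) (XT.nd (nat_lit 282) (nat_lit 168) (nat_lit 0) (XT.nd (nat_lit 94) (nat_lit 252) (nat_lit 0) (XT.lf (nat_lit 0) (nat_lit 24499603307) (nat_lit 336) (nat_lit 7611294212) (nat_lit 84) (nat_lit 12333274570) (nat_lit 28) (nat_lit 5) (nat_lit 32) (nat_lit 5) (nat_lit 29) (nat_lit 5) (nat_lit 385) (nat_lit 328) (nat_lit 148)) (XT.nd (nat_lit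 94) (nat_lit 0) (nat_lit 0) (XT.lf (nat_lit 0) (nat_lit 4541545454) (nat_lit 252) (nat_lit 24082152306) (nat_lit 336) (nat_lit 16884459038) (nat_lit 25) (nat_lit 5) (nat_lit 28) (nat_lit 5) (nat_lit 29) (nat_lit 5) (nat_lit 386) (nat_lit 328) (nat_lit 147)) (XT.lf (nat_lit 0) (nat_lit 17229509261) (nat_lit 252) (nat_lit 15723348674) (nat_lit 336) (nat_lit 13649882324) (nat_lit 25) (nat_lit 5) (nat_lit 28) (nat_lit 5) (nat_lit 29) (nat_lit 5) (nat_lit 387) (nat_lit 328) (nat_lit 146)))) (XT.nd (nat_lit 94) (nat_lit 168) (nat_lit 0) (XT.lf (nat_lit 0) (nat_lit 30307919899) (nat_lit 252) (nat_lit 7106141643) (nat_lit 336) (nat_lit 10317269979) (nat_lit 25) (nat_lit 5) (nat_lit 28) (nat_lit 5) (nat_lit 29) (nat_lit 5) (nat_lit 388) (nat_lit 328) (nat_lit 145)) (XT.nd (nat_lit 94) (nat_lit 168) (nat_lit 0) (XT.lf (nat_lit 0) (nat_lit 42029099922) (nat_lit 336) (nat_lit 5123647764) (nat_lit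 84) (nat_lit 1741688241) (nat_lit 25) (nat_lit 5) (nat_lit 29) (nat_lit 5) (nat_lit 26) (nat_lit 5) (nat_lit 389) (nat_lit 328) (nat_lit 144)) (XT.lf (nat_lit 0) (nat_lit 7635800044) (nat_lit 168) (nat_lit 39297792365) (nat_lit 252) (nat_lit 3155474354) (nat_lit 23) (nat_lit 5) (nat_lit 25) (nat_lit 5) (nat_lit 26) (nat_lit 5) (nat_lit 390) (nat_lit 328) (nat_lit 143))))) (XT.nd (nat_lit 282) (nat_lit 252) (nat_lit 0) (XT.nd (nat_lit 94) (nat_lit 0) (nat_lit 0) (XT.lf (nat_lit 0) (nat_lit 707900065) (nat_lit 252) (nat_lit 30429646763) (nat_lit 84) (nat_lit 20181374398) (nat_lit 22) (nat_lit 5) (nat_lit 25) (nat_lit 5) (nat_lit 23) (nat_lit 5) (nat_lit 391) (nat_lit 328) (nat_lit 142)) (XT.nd (nat_lit 94) (nat_lit 0) (nat_lit 0) (XT.lf (nat_lit 0) (nat_lit 4623520091) (nat_lit 252) (nat_lit 18068279049) (nat_lit 84) (nat_lit 29894170216) (nat_lit 22) (nat_lit 5) (nat_lit 25) (nat_lit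 5) (nat_lit 23) (nat_lit 5) (nat_lit 392) (nat_lit 328) (nat_lit 141)) (XT.lf (nat_lit 0) (nat_lit 8658611268) (nat_lit 252) (nat_lit 5326338791) (nat_lit 84) (nat_lit 39907412499) (nat_lit 22) (nat_lit 5) (nat_lit 25) (nat_lit 5) (nat_lit 23) (nat_lit 5) (nat_lit 393) (nat_lit 328) (nat_lit 140)))) (XT.nd (nat_lit 94) (nat_lit 0) (nat_lit 0) (XT.lf (nat_lit 0) (nat_lit 7968600371) (nat_lit 252) (nat_lit 4927383855) (nat_lit 336) (nat_lit 42340883769) (nat_lit 19) (nat_lit 5) (nat_lit 22) (nat_lit 5) (nat_lit 23) (nat_lit 5) (nat_lit 394) (nat_lit 328) (nat_lit 139)) (XT.nd (nat_lit 94) (nat_lit 0) (nat_lit 0) (XT.lf (nat_lit 0) (nat_lit 17362806004) (nat_lit 336) (nat_lit 34879638769) (nat_lit 84) (nat_lit 4377574372) (nat_lit 19) (nat_lit 5) (nat_lit 23) (nat_lit 5) (nat_lit 20) (nat_lit 5) (nat_lit 395) (nat_lit 328) (nat_lit 138)) (XT.lf (nat_lit 0) (nat_lit 22016718130) (nat_lit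 336) (nat_lit 22159861772) (nat_lit 84) (nat_lit 13867967531) (nat_lit 19) (nat_lit 5) (nat_lit 23) (nat_lit 5) (nat_lit 20) (nat_lit 5) (nat_lit 396) (nat_lit 328) (nat_lit 137)))))) (XT.nd (nat_lit 564) (nat_lit 420) (nat_lit 0) (XT.nd (nat_lit 282) (nat_lit 0) (nat_lit 0) (XT.nd (nat_lit 94) (nat_lit 168) (nat_lit 0) (XT.lf (nat_lit 0) (nat_lit 26813178282) (nat_lit 336) (nat_lit 9048200211) (nat_lit 84) (nat_lit 23651917467) (nat_lit 19) (nat_lit 5) (nat_lit 23) (nat_lit 5) (nat_lit 20) (nat_lit 5) (nat_lit 397) (nat_lit 328) (nat_lit 136)) (XT.nd (nat_lit 94) (nat_lit 0) (nat_lit 0) (XT.lf (nat_lit 0) (nat_lit 4559429703) (nat_lit 168) (nat_lit 27242457665) (nat_lit 252) (nat_lit 29224344250) (nat_lit 17) (nat_lit 5) (nat_lit 19) (nat_lit 5) (nat_lit 20) (nat_lit 5) (nat_lit 398) (nat_lit 328) (nat_lit 135)) (XT.lf (nat_lit 0) (nat_lit 18778381580) (nat_lit 168) (nat_lit 18259665197)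 (nat_lit 252) (nat_lit 25545150750) (nat_lit 17) (nat_lit 5) (nat_lit 19) (nat_lit 5) (nat_lit 20) (nat_lit 5) (nat_lit 399) (nat_lit 328) (nat_lit 134)))) (XT.nd (nat_lit 94) (nat_lit 0) (nat_lit 0) (XT.lf (nat_lit 0) (nat_lit 33435859419) (nat_lit 168) (nat_lit 8999072840) (nat_lit 252) (nat_lit 21753552437) (nat_lit 17) (nat_lit 5) (nat_lit 19) (nat_lit 5) (nat_lit 20) (nat_lit 5) (nat_lit 400) (nat_lit 328) (nat_lit 133)) (XT.nd (nat_lit 94) (nat_lit 0) (nat_lit 0) (XT.lf (nat_lit 0) (nat_lit 48003010021) (nat_lit 252) (nat_lit 17303499641) (nat_lit 84) (nat_lit 536911251) (nat_lit 17) (nat_lit 5) (nat_lit 20) (nat_lit 5) (nat_lit 18) (nat_lit 5) (nat_lit 401) (nat_lit 328) (nat_lit 132)) (XT.lf (nat_lit 0) (nat_lit 53834230914) (nat_lit 252) (nat_lit 3531663865) (nat_lit 84) (nat_lit 10180964386) (nat_lit 17) (nat_lit 5) (nat_lit 20) (nat_lit 5) (nat_lit 18) (nat_lit 5) (nat_lit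 402) (nat_lit 328) (nat_lit 131))))) (XT.nd (nat_lit 282) (nat_lit 252) (nat_lit 0) (XT.nd (nat_lit 94) (nat_lit 0) (nat_lit 0) (XT.lf (nat_lit 0) (nat_lit 10884284843) (nat_lit 168) (nat_lit 49068446941) (nat_lit 252) (nat_lit 9347075704) (nat_lit 15) (nat_lit 5) (nat_lit 17) (nat_lit 5) (nat_lit 18) (nat_lit 5) (nat_lit 403) (nat_lit 328) (nat_lit 130)) (XT.nd (nat_lit 94) (nat_lit 0) (nat_lit 0) (XT.lf (nat_lit 0) (nat_lit 25819910662) (nat_lit 168) (nat_lit 40476420762) (nat_lit 252) (nat_lit 4809672803) (nat_lit 15) (nat_lit 5) (nat_lit 17) (nat_lit 5) (nat_lit 18) (nat_lit 5) (nat_lit 404) (nat_lit 328) (nat_lit 129)) (XT.lf (nat_lit 0) (nat_lit 41216516907) (nat_lit 168) (nat_lit 31618670900) (nat_lit 252) (nat_lit 133053540) (nat_lit 15) (nat_lit 5) (nat_lit 17) (nat_lit 5) (nat_lit 18) (nat_lit 5) (nat_lit 405) (nat_lit 328) (nat_lit 128)))) (XT.nd (nat_lit 188) (nat_lit 168)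 (nat_lit 0) (XT.nd (nat_lit 94) (nat_lit 0) (nat_lit 0) (XT.lf (nat_lit 0) (nat_lit 4592705732) (nat_lit 252) (nat_lit 17846296845) (nat_lit 84) (nat_lit 52447810668) (nat_lit 14) (nat_lit 5) (nat_lit 17) (nat_lit 5) (nat_lit 15) (nat_lit 5) (nat_lit 406) (nat_lit 328) (nat_lit 127)) (XT.lf (nat_lit 0) (nat_lit 9460869412) (nat_lit 252) (nat_lit 3513097864) (nat_lit 84) (nat_lit 63890897250) (nat_lit 14) (nat_lit 5) (nat_lit 17) (nat_lit 5) (nat_lit 15) (nat_lit 5) (nat_lit 407) (nat_lit 328) (nat_lit 126))) (XT.nd (nat_lit 94) (nat_lit 0) (nat_lit 0) (XT.lf (nat_lit 0) (nat_lit 11494133627) (nat_lit 168) (nat_lit 3098545469) (nat_lit 252) (nat_lit 64308066043) (nat_lit 12) (nat_lit 5) (nat_lit 14) (nat_lit 5) (nat_lit 15) (nat_lit 5) (nat_lit 408) (nat_lit 328) (nat_lit 125)) (XT.lf (nat_lit 0) (nat_lit 19989608060) (nat_lit 252) (nat_lit 54030072274) (nat_lit 84) (nat_lit 6976775019)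 (nat_lit 12) (nat_lit 5) (nat_lit 15) (nat_lit 5) (nat_lit 13) (nat_lit 5) (nat_lit 409) (nat_lit 328) (nat_lit 124))))))))
noncomputable def xc178 : XT := (XT.nd (nat_lit 48410) (nat_lit 0) (nat_lit 2268) (XT.nd (nat_lit 47282) (nat_lit 0) (nat_lit 6300) (XT.nd (nat_lit 46718) (nat_lit 0) (nat_lit 6888) (XT.nd (nat_lit 46436) (nat_lit 0) (nat_lit 6804) (XT.nd (nat_lit 94) (nat_lit 0) (nat_lit 0) (XT.lf (nat_lit 0) (nat_lit 25584295230) (nat_lit 252) (nat_lit 40272390800) (nat_lit 84) (nat_lit 17299506698) (nat_lit 12) (nat_lit 5) (nat_lit 15) (nat_lit 5) (nat_lit 13) (nat_lit 5) (nat_lit 410) (nat_lit 328) (nat_lit 123)) (XT.nd (nat_lit 94) (nat_lit 0) (nat_lit 0) (XT.lf (nat_lit 0) (nat_lit 31351217487) (nat_lit 252) (nat_lit 26090005534) (nat_lit 84) (nat_lit 27941700219) (nat_lit 12) (nat_lit 5) (nat_lit 15) (nat_lit 5) (nat_lit 13) (nat_lit 5) (nat_lit 411) (nat_lit 328) (nat_lit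 122)) (XT.lf (nat_lit 0) (nat_lit 37295750207) (nat_lit 252) (nat_lit 11469697010) (nat_lit 84) (nat_lit 38913275221) (nat_lit 12) (nat_lit 5) (nat_lit 15) (nat_lit 5) (nat_lit 13) (nat_lit 5) (nat_lit 412) (nat_lit 328) (nat_lit 121)))) (XT.nd (nat_lit 94) (nat_lit 0) (nat_lit 0) (XT.lf (nat_lit 0) (nat_lit 1711100129) (nat_lit 1092) (nat_lit 2937263832) (nat_lit 1092) (nat_lit 2937263832) (nat_lit 93) (nat_lit 3) (nat_lit 106) (nat_lit 3) (nat_lit 106) (nat_lit 5) (nat_lit 329) (nat_lit 329) (nat_lit 203)) (XT.nd (nat_lit 94) (nat_lit 0) (nat_lit 84) (XT.lf (nat_lit 0) (nat_lit 3712158654) (nat_lit 1092) (nat_lit 571361785) (nat_lit 1092) (nat_lit 11114231842) (nat_lit 93) (nat_lit 3) (nat_lit 106) (nat_lit 3) (nat_lit 106) (nat_lit 5) (nat_lit 330) (nat_lit 329) (nat_lit 202)) (XT.lf (nat_lit 0) (nat_lit 4060411084) (nat_lit 1008) (nat_lit 10647587762) (nat_lit 1092) (nat_lit 921795985)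 (nat_lit 94) (nat_lit 5) (nat_lit 106) (nat_lit 5) (nat_lit 107) (nat_lit 5) (nat_lit 331) (nat_lit 329) (nat_lit 201))))) (XT.nd (nat_lit 282) (nat_lit 0) (nat_lit 84) (XT.nd (nat_lit 94) (nat_lit 0) (nat_lit 0) (XT.lf (nat_lit 0) (nat_lit 4460030142) (nat_lit 1008) (nat_lit 5197949303) (nat_lit 1092) (nat_lit 6209844895) (nat_lit 94) (nat_lit 5) (nat_lit 106) (nat_lit 5) (nat_lit 107) (nat_lit 5) (nat_lit 332) (nat_lit 329) (nat_lit 200)) (XT.nd (nat_lit 94) (nat_lit 0) (nat_lit 84) (XT.lf (nat_lit 84) (nat_lit 424049111) (nat_lit 0) (nat_lit 4443209082) (nat_lit 1092) (nat_lit 11246172516) (nat_lit 95) (nat_lit 5) (nat_lit 94) (nat_lit 5) (nat_lit 107) (nat_lit 5) (nat_lit 333) (nat_lit 329) (nat_lit 199)) (XT.lf (nat_lit 0) (nat_lit 5342449531) (nat_lit 1008) (nat_lit 10049685545) (nat_lit 1092) (nat_lit 972848577) (nat_lit 95) (nat_lit 5) (nat_lit 107) (nat_lit 5) (nat_lit 108)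 (nat_lit 5) (nat_lit 334) (nat_lit 329) (nat_lit 198)))) (XT.nd (nat_lit 94) (nat_lit 0) (nat_lit 0) (XT.lf (nat_lit 0) (nat_lit 5869348572) (nat_lit 1008) (nat_lit 4285866618) (nat_lit 1092) (nat_lit 6468020110) (nat_lit 95) (nat_lit 5) (nat_lit 107) (nat_lit 5) (nat_lit 108) (nat_lit 5) (nat_lit 335) (nat_lit 329) (nat_lit 197)) (XT.nd (nat_lit 94) (nat_lit 0) (nat_lit 84) (XT.lf (nat_lit 84) (nat_lit 1685483588) (nat_lit 0) (nat_lit 4735605876) (nat_lit 1092) (nat_lit 10468184969) (nat_lit 96) (nat_lit 5) (nat_lit 95) (nat_lit 5) (nat_lit 108) (nat_lit 5) (nat_lit 336) (nat_lit 329) (nat_lit 196)) (XT.lf (nat_lit 0) (nat_lit 7035593517) (nat_lit 1008) (nat_lit 9243655876) (nat_lit 1092) (nat_lit 882940017) (nat_lit 96) (nat_lit 5) (nat_lit 108) (nat_lit 5) (nat_lit 109) (nat_lit 5) (nat_lit 337) (nat_lit 329) (nat_lit 195)))))) (XT.nd (nat_lit 564) (nat_lit 756) (nat_lit 0) (XT.nd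 (nat_lit 282) (nat_lit 0) (nat_lit 84) (XT.nd (nat_lit 94) (nat_lit 0) (nat_lit 0) (XT.lf (nat_lit 0) (nat_lit 7709835367) (nat_lit 1008) (nat_lit 3152405258) (nat_lit 1092) (nat_lit 6580105535) (nat_lit 96) (nat_lit 5) (nat_lit 108) (nat_lit 5) (nat_lit 109) (nat_lit 5) (nat_lit 338) (nat_lit 329) (nat_lit 194)) (XT.nd (nat_lit 94) (nat_lit 0) (nat_lit 84) (XT.lf (nat_lit 84) (nat_lit 3186823886) (nat_lit 0) (nat_lit 5242255480) (nat_lit 1092) (nat_lit 9301402740) (nat_lit 97) (nat_lit 5) (nat_lit 96) (nat_lit 5) (nat_lit 109) (nat_lit 5) (nat_lit 339) (nat_lit 329) (nat_lit 193)) (XT.lf (nat_lit 0) (nat_lit 9202022838) (nat_lit 1008) (nat_lit 8248240900) (nat_lit 1092) (nat_lit 576353248) (nat_lit 97) (nat_lit 5) (nat_lit 109) (nat_lit 5) (nat_lit 110) (nat_lit 5) (nat_lit 340) (nat_lit 329) (nat_lit 192)))) (XT.nd (nat_lit 94) (nat_lit 0) (nat_lit 0) (XT.lf (nat_lit 0) (nat_lit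 10045449725) (nat_lit 1008) (nat_lit 1816419514) (nat_lit 1092) (nat_lit 6468659623) (nat_lit 97) (nat_lit 5) (nat_lit 109) (nat_lit 5) (nat_lit 110) (nat_lit 5) (nat_lit 341) (nat_lit 329) (nat_lit 191)) (XT.nd (nat_lit 94) (nat_lit 0) (nat_lit 0) (XT.lf (nat_lit 84) (nat_lit 4908704345) (nat_lit 0) (nat_lit 6048132977) (nat_lit 1092) (nat_lit 7685766262) (nat_lit 98) (nat_lit 5) (nat_lit 97) (nat_lit 5) (nat_lit 110) (nat_lit 5) (nat_lit 342) (nat_lit 329) (nat_lit 190)) (XT.lf (nat_lit 84) (nat_lit 11875881195) (nat_lit 0) (nat_lit 32833902) (nat_lit 1092) (nat_lit 7055294866) (nat_lit 98) (nat_lit 5) (nat_lit 97) (nat_lit 5) (nat_lit 110) (nat_lit 5) (nat_lit 343) (nat_lit 329) (nat_lit 189))))) (XT.nd (nat_lit 282) (nat_lit 924) (nat_lit 0) (XT.nd (nat_lit 94) (nat_lit 0) (nat_lit 0) (XT.lf (nat_lit 0) (nat_lit 12944794545) (nat_lit 1008) (nat_lit 302575660) (nat_lit 1092) (nat_lit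 6046349825) (nat_lit 98) (nat_lit 5) (nat_lit 110) (nat_lit 5) (nat_lit 111) (nat_lit 5) (nat_lit 344) (nat_lit 329) (nat_lit 188)) (XT.nd (nat_lit 94) (nat_lit 0) (nat_lit 0) (XT.lf (nat_lit 84) (nat_lit 6825626878) (nat_lit 0) (nat_lit 7249104810) (nat_lit 1092) (nat_lit 5557040021) (nat_lit 99) (nat_lit 5) (nat_lit 98) (nat_lit 5) (nat_lit 111) (nat_lit 5) (nat_lit 345) (nat_lit 329) (nat_lit 187)) (XT.lf (nat_lit 84) (nat_lit 14176379554) (nat_lit 0) (nat_lit 1060309611) (nat_lit 1092) (nat_lit 4743740545) (nat_lit 99) (nat_lit 5) (nat_lit 98) (nat_lit 5) (nat_lit 111) (nat_lit 5) (nat_lit 346) (nat_lit 329) (nat_lit 186)))) (XT.nd (nat_lit 94) (nat_lit 0) (nat_lit 0) (XT.lf (nat_lit 0) (nat_lit 1385318373) (nat_lit 1008) (nat_lit 15109902079) (nat_lit 1092) (nat_lit 3842830983) (nat_lit 87) (nat_lit 5) (nat_lit 99) (nat_lit 5) (nat_lit 100) (nat_lit 5) (nat_lit 347) (nat_lit 329)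 (nat_lit 185)) (XT.nd (nat_lit 94) (nat_lit 0) (nat_lit 0) (XT.lf (nat_lit 0) (nat_lit 8904658789) (nat_lit 1008) (nat_lit 8953587756) (nat_lit 1092) (nat_lit 2846514494) (nat_lit 87) (nat_lit 5) (nat_lit 99) (nat_lit 5) (nat_lit 100) (nat_lit 5) (nat_lit 348) (nat_lit 329) (nat_lit 184)) (XT.lf (nat_lit 0) (nat_lit 16652371411) (nat_lit 1008) (nat_lit 2605493809) (nat_lit 1092) (nat_lit 1825179470) (nat_lit 87) (nat_lit 5) (nat_lit 99) (nat_lit 5) (nat_lit 100) (nat_lit 5) (nat_lit 349) (nat_lit 329) (nat_lit 183))))))) (XT.nd (nat_lit 1128) (nat_lit 1512) (nat_lit 0) (XT.nd (nat_lit 564) (nat_lit 1344) (nat_lit 0) (XT.nd (nat_lit 282) (nat_lit 504) (nat_lit 0) (XT.nd (nat_lit 94) (nat_lit 84) (nat_lit 0) (XT.lf (nat_lit 0) (nat_lit 3187556865) (nat_lit 588) (nat_lit 17578533393) (nat_lit 672) (nat_lit 704972743) (nat_lit 80) (nat_lit 5) (nat_lit 87) (nat_lit 5) (nat_lit 88) (nat_lit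 5) (nat_lit 350) (nat_lit 329) (nat_lit 182)) (XT.nd (nat_lit 94) (nat_lit 0) (nat_lit 0) (XT.lf (nat_lit 0) (nat_lit 508815618) (nat_lit 672) (nat_lit 10770266254) (nat_lit 84) (nat_lit 10589811961) (nat_lit 79) (nat_lit 5) (nat_lit 87) (nat_lit 5) (nat_lit 80) (nat_lit 5) (nat_lit 351) (nat_lit 329) (nat_lit 181)) (XT.lf (nat_lit 0) (nat_lit 1740303976) (nat_lit 672) (nat_lit 3036064647) (nat_lit 84) (nat_lit 17502656108) (nat_lit 79) (nat_lit 5) (nat_lit 87) (nat_lit 5) (nat_lit 80) (nat_lit 5) (nat_lit 352) (nat_lit 329) (nat_lit 180)))) (XT.nd (nat_lit 94) (nat_lit 0) (nat_lit 0) (XT.lf (nat_lit 0) (nat_lit 3074430438) (nat_lit 588) (nat_lit 17685407853) (nat_lit 84) (nat_lit 1940059299) (nat_lit 73) (nat_lit 5) (nat_lit 80) (nat_lit 5) (nat_lit 74) (nat_lit 5) (nat_lit 353) (nat_lit 329) (nat_lit 179)) (XT.nd (nat_lit 94) (nat_lit 0) (nat_lit 0) (XT.lf (nat_lit 0) (nat_lit 4525769184)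 (nat_lit 588) (nat_lit 9807770997) (nat_lit 84) (nat_lit 8797951279) (nat_lit 73) (nat_lit 5) (nat_lit 80) (nat_lit 5) (nat_lit 74) (nat_lit 5) (nat_lit 354) (nat_lit 329) (nat_lit 178)) (XT.lf (nat_lit 0) (nat_lit 6017239046) (nat_lit 588) (nat_lit 1690520063) (nat_lit 84) (nat_lit 15868880973) (nat_lit 73) (nat_lit 5) (nat_lit 80) (nat_lit 5) (nat_lit 74) (nat_lit 5) (nat_lit 355) (nat_lit 329) (nat_lit 177))))) (XT.nd (nat_lit 282) (nat_lit 840) (nat_lit 0) (XT.nd (nat_lit 94) (nat_lit 0) (nat_lit 0) (XT.lf (nat_lit 0) (nat_lit 6811140374) (nat_lit 504) (nat_lit 806657212) (nat_lit 588) (nat_lit 16415866209) (nat_lit 67) (nat_lit 5) (nat_lit 73) (nat_lit 5) (nat_lit 74) (nat_lit 5) (nat_lit 356) (nat_lit 329) (nat_lit 176)) (XT.nd (nat_lit 94) (nat_lit 0) (nat_lit 0) (XT.lf (nat_lit 0) (nat_lit 9343765189) (nat_lit 588) (nat_lit 8959456021) (nat_lit 84) (nat_lit 6199307700) (nat_lit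 67) (nat_lit 5) (nat_lit 74) (nat_lit 5) (nat_lit 68) (nat_lit 5) (nat_lit 357) (nat_lit 329) (nat_lit 175)) (XT.lf (nat_lit 0) (nat_lit 11127012545) (nat_lit 588) (nat_lit 452923930) (nat_lit 84) (nat_lit 13405897863) (nat_lit 67) (nat_lit 5) (nat_lit 74) (nat_lit 5) (nat_lit 68) (nat_lit 5) (nat_lit 358) (nat_lit 329) (nat_lit 174)))) (XT.nd (nat_lit 94) (nat_lit 420) (nat_lit 0) (XT.lf (nat_lit 0) (nat_lit 8483936380) (nat_lit 420) (nat_lit 4561425006) (nat_lit 504) (nat_lit 12436308238) (nat_lit 62) (nat_lit 5) (nat_lit 67) (nat_lit 5) (nat_lit 68) (nat_lit 5) (nat_lit 359) (nat_lit 329) (nat_lit 173)) (XT.nd (nat_lit 94) (nat_lit 420) (nat_lit 0) (XT.lf (nat_lit 0) (nat_lit 15050235198) (nat_lit 504) (nat_lit 8316285446) (nat_lit 84) (nat_lit 2625537597) (nat_lit 62) (nat_lit 5) (nat_lit 68) (nat_lit 5) (nat_lit 63) (nat_lit 5) (nat_lit 360) (nat_lit 329) (nat_lit 172)) (XT.lf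 (nat_lit 0) (nat_lit 595346273) (nat_lit 420) (nat_lit 16570347499) (nat_lit 504) (nat_lit 9351094232) (nat_lit 57) (nat_lit 5) (nat_lit 62) (nat_lit 5) (nat_lit 63) (nat_lit 5) (nat_lit 361) (nat_lit 329) (nat_lit 171)))))) (XT.nd (nat_lit 564) (nat_lit 672) (nat_lit 0) (XT.nd (nat_lit 282) (nat_lit 504) (nat_lit 0) (XT.nd (nat_lit 94) (nat_lit 336) (nat_lit 0) (XT.lf (nat_lit 0) (nat_lit 9955299608) (nat_lit 420) (nat_lit 9474194003) (nat_lit 504) (nat_lit 7625745080) (nat_lit 57) (nat_lit 5) (nat_lit 62) (nat_lit 5) (nat_lit 63) (nat_lit 5) (nat_lit 362) (nat_lit 329) (nat_lit 170)) (XT.nd (nat_lit 94) (nat_lit 336) (nat_lit 0) (XT.lf (nat_lit 0) (nat_lit 19601299131) (nat_lit 420) (nat_lit 2158250760) (nat_lit 504) (nat_lit 5850972346) (nat_lit 57) (nat_lit 5) (nat_lit 62) (nat_lit 5) (nat_lit 63) (nat_lit 5) (nat_lit 363) (nat_lit 329) (nat_lit 169)) (XT.lf (nat_lit 0) (nat_lit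 1332616004) (nat_lit 336) (nat_lit 22892051117) (nat_lit 420) (nat_lit 3956423490) (nat_lit 53) (nat_lit 5) (nat_lit 57) (nat_lit 5) (nat_lit 58) (nat_lit 5) (nat_lit 364) (nat_lit 329) (nat_lit 168)))) (XT.nd (nat_lit 94) (nat_lit 504) (nat_lit 0) (XT.lf (nat_lit 0) (nat_lit 11107233955) (nat_lit 336) (nat_lit 15760687884) (nat_lit 420) (nat_lit 1898289661) (nat_lit 53) (nat_lit 5) (nat_lit 57) (nat_lit 5) (nat_lit 58) (nat_lit 5) (nat_lit 365) (nat_lit 329) (nat_lit 167)) (XT.nd (nat_lit 94) (nat_lit 420) (nat_lit 0) (XT.lf (nat_lit 0) (nat_lit 215466880) (nat_lit 420) (nat_lit 8190876364) (nat_lit 84) (nat_lit 20963190098) (nat_lit 52) (nat_lit 5) (nat_lit 57) (nat_lit 5) (nat_lit 53) (nat_lit 5) (nat_lit 366) (nat_lit 329) (nat_lit 166)) (XT.lf (nat_lit 0) (nat_lit 1579208586) (nat_lit 420) (nat_lit 788212285) (nat_lit 504) (nat_lit 27623176822) (nat_lit 47) (nat_lit 5) (nat_lit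 52) (nat_lit 5) (nat_lit 53) (nat_lit 5) (nat_lit 367) (nat_lit 329) (nat_lit 165))))) (XT.nd (nat_lit 282) (nat_lit 336) (nat_lit 0) (XT.nd (nat_lit 94) (nat_lit 336) (nat_lit 0) (XT.lf (nat_lit 0) (nat_lit 4739053816) (nat_lit 504) (nat_lit 18877437610) (nat_lit 84) (nat_lit 7009697684) (nat_lit 47) (nat_lit 5) (nat_lit 53) (nat_lit 5) (nat_lit 48) (nat_lit 5) (nat_lit 368) (nat_lit 329) (nat_lit 164)) (XT.nd (nat_lit 94) (nat_lit 336) (nat_lit 0) (XT.lf (nat_lit 0) (nat_lit 7188875740) (nat_lit 504) (nat_lit 9059885155) (nat_lit 84) (nat_lit 15032593854) (nat_lit 47) (nat_lit 5) (nat_lit 53) (nat_lit 5) (nat_lit 48) (nat_lit 5) (nat_lit 369) (nat_lit 329) (nat_lit 163)) (XT.lf (nat_lit 0) (nat_lit 1079997958) (nat_lit 336) (nat_lit 8642066725) (nat_lit 420) (nat_lit 22234550879) (nat_lit 43) (nat_lit 5) (nat_lit 47) (nat_lit 5) (nat_lit 48) (nat_lit 5) (nat_lit 370) (nat_lit 329)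 (nat_lit 162)))) (XT.nd (nat_lit 188) (nat_lit 336) (nat_lit 0) (XT.nd (nat_lit 94) (nat_lit 0) (nat_lit 0) (XT.lf (nat_lit 0) (nat_lit 11722547433) (nat_lit 336) (nat_lit 702572405) (nat_lit 420) (nat_lit 20224872846) (nat_lit 43) (nat_lit 5) (nat_lit 47) (nat_lit 5) (nat_lit 48) (nat_lit 5) (nat_lit 371) (nat_lit 329) (nat_lit 161)) (XT.lf (nat_lit 0) (nat_lit 15283065417) (nat_lit 420) (nat_lit 10747810296) (nat_lit 84) (nat_lit 7331799057) (nat_lit 43) (nat_lit 5) (nat_lit 48) (nat_lit 5) (nat_lit 44) (nat_lit 5) (nat_lit 372) (nat_lit 329) (nat_lit 160))) (XT.nd (nat_lit 94) (nat_lit 336) (nat_lit 0) (XT.lf (nat_lit 0) (nat_lit 18233750264) (nat_lit 420) (nat_lit 263409193) (nat_lit 84) (nat_lit 15600175926) (nat_lit 43) (nat_lit 5) (nat_lit 48) (nat_lit 5) (nat_lit 44) (nat_lit 5) (nat_lit 373) (nat_lit 329) (nat_lit 159)) (XT.lf (nat_lit 0) (nat_lit 10759275648) (nat_lit 336)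 (nat_lit 10620412818) (nat_lit 420) (nat_lit 13471878160) (nat_lit 39) (nat_lit 5) (nat_lit 43) (nat_lit 5) (nat_lit 44) (nat_lit 5) (nat_lit 374) (nat_lit 329) (nat_lit 158))))))))
noncomputable def xc179 : XT := (XT.nd (nat_lit 2256) (nat_lit 588) (nat_lit 0) (XT.nd (nat_lit 1128) (nat_lit 756) (nat_lit 0) (XT.nd (nat_lit 564) (nat_lit 252) (nat_lit 0) (XT.nd (nat_lit 282) (nat_lit 420) (nat_lit 0) (XT.nd (nat_lit 94) (nat_lit 252) (nat_lit 0) (XT.lf (nat_lit 0) (nat_lit 22125775253) (nat_lit 336) (nat_lit 2497228020) (nat_lit 420) (nat_lit 11006193330) (nat_lit 39) (nat_lit 5) (nat_lit 43) (nat_lit 5) (nat_lit 44) (nat_lit 5) (nat_lit 375) (nat_lit 329) (nat_lit 157)) (XT.nd (nat_lit 94) (nat_lit 252) (nat_lit 0) (XT.lf (nat_lit 0) (nat_lit 28022353735) (nat_lit 420) (nat_lit 2648067386) (nat_lit 84) (nat_lit 5758804314) (nat_lit 39) (nat_lit 5) (nat_lit 44) (nat_lit 5) (nat_lit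 40) (nat_lit 5) (nat_lit 376) (nat_lit 329) (nat_lit 156)) (XT.lf (nat_lit 0) (nat_lit 8689987408) (nat_lit 252) (nat_lit 22946112457) (nat_lit 336) (nat_lit 5614588031) (nat_lit 36) (nat_lit 5) (nat_lit 39) (nat_lit 5) (nat_lit 40) (nat_lit 5) (nat_lit 377) (nat_lit 329) (nat_lit 155)))) (XT.nd (nat_lit 94) (nat_lit 420) (nat_lit 0) (XT.lf (nat_lit 0) (nat_lit 20432335284) (nat_lit 252) (nat_lit 14954495649) (nat_lit 336) (nat_lit 2710022893) (nat_lit 36) (nat_lit 5) (nat_lit 39) (nat_lit 5) (nat_lit 40) (nat_lit 5) (nat_lit 378) (nat_lit 329) (nat_lit 154)) (XT.nd (nat_lit 94) (nat_lit 336) (nat_lit 0) (XT.lf (nat_lit 0) (nat_lit 276211209) (nat_lit 336) (nat_lit 6436667780) (nat_lit 84) (nat_lit 32256377355) (nat_lit 35) (nat_lit 5) (nat_lit 39) (nat_lit 5) (nat_lit 36) (nat_lit 5) (nat_lit 379) (nat_lit 329) (nat_lit 153)) (XT.lf (nat_lit 0) (nat_lit 3366388801) (nat_lit 420) (nat_lit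 34671460650) (nat_lit 84) (nat_lit 1827907898) (nat_lit 31) (nat_lit 5) (nat_lit 36) (nat_lit 5) (nat_lit 32) (nat_lit 5) (nat_lit 380) (nat_lit 329) (nat_lit 152))))) (XT.nd (nat_lit 282) (nat_lit 252) (nat_lit 0) (XT.nd (nat_lit 94) (nat_lit 0) (nat_lit 0) (XT.lf (nat_lit 0) (nat_lit 6686371370) (nat_lit 420) (nat_lit 23538276716) (nat_lit 84) (nat_lit 10561258001) (nat_lit 31) (nat_lit 5) (nat_lit 36) (nat_lit 5) (nat_lit 32) (nat_lit 5) (nat_lit 381) (nat_lit 329) (nat_lit 151)) (XT.nd (nat_lit 94) (nat_lit 0) (nat_lit 0) (XT.lf (nat_lit 0) (nat_lit 10106828926) (nat_lit 420) (nat_lit 12063107171) (nat_lit 84) (nat_lit 19564729295) (nat_lit 31) (nat_lit 5) (nat_lit 36) (nat_lit 5) (nat_lit 32) (nat_lit 5) (nat_lit 382) (nat_lit 329) (nat_lit 150)) (XT.lf (nat_lit 0) (nat_lit 13630949695) (nat_lit 420) (nat_lit 235255954) (nat_lit 84) (nat_lit 28846713961) (nat_lit 31) (nat_lit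 5) (nat_lit 36) (nat_lit 5) (nat_lit 32) (nat_lit 5) (nat_lit 383) (nat_lit 329) (nat_lit 149)))) (XT.nd (nat_lit 94) (nat_lit 0) (nat_lit 0) (XT.lf (nat_lit 0) (nat_lit 12202147815) (nat_lit 252) (nat_lit 5180917527) (nat_lit 336) (nat_lit 26334762780) (nat_lit 28) (nat_lit 5) (nat_lit 31) (nat_lit 5) (nat_lit 32) (nat_lit 5) (nat_lit 384) (nat_lit 329) (nat_lit 148)) (XT.nd (nat_lit 94) (nat_lit 0) (nat_lit 0) (XT.lf (nat_lit 0) (nat_lit 21289145811) (nat_lit 336) (nat_lit 19764173806) (nat_lit 84) (nat_lit 3699411343) (nat_lit 28) (nat_lit 5) (nat_lit 32) (nat_lit 5) (nat_lit 29) (nat_lit 5) (nat_lit 385) (nat_lit 329) (nat_lit 147)) (XT.lf (nat_lit 0) (nat_lit 25367105320) (nat_lit 336) (nat_lit 7704268706) (nat_lit 84) (nat_lit 12746776262) (nat_lit 28) (nat_lit 5) (nat_lit 32) (nat_lit 5) (nat_lit 29) (nat_lit 5) (nat_lit 386) (nat_lit 329) (nat_lit 146)))))) (XT.nd (nat_lit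 564) (nat_lit 252) (nat_lit 0) (XT.nd (nat_lit 282) (nat_lit 252) (nat_lit 0) (XT.nd (nat_lit 94) (nat_lit 0) (nat_lit 0) (XT.lf (nat_lit 0) (nat_lit 4823861491) (nat_lit 252) (nat_lit 24793341424) (nat_lit 336) (nat_lit 17297986076) (nat_lit 25) (nat_lit 5) (nat_lit 28) (nat_lit 5) (nat_lit 29) (nat_lit 5) (nat_lit 387) (nat_lit 329) (nat_lit 145)) (XT.nd (nat_lit 94) (nat_lit 0) (nat_lit 0) (XT.lf (nat_lit 0) (nat_lit 17900896723) (nat_lit 252) (nat_lit 16176478007) (nat_lit 336) (nat_lit 13966441681) (nat_lit 25) (nat_lit 5) (nat_lit 28) (nat_lit 5) (nat_lit 29) (nat_lit 5) (nat_lit 388) (nat_lit 329) (nat_lit 144)) (XT.lf (nat_lit 0) (nat_lit 31380610590) (nat_lit 252) (nat_lit 7293168722) (nat_lit 336) (nat_lit 10533723200) (nat_lit 25) (nat_lit 5) (nat_lit 28) (nat_lit 5) (nat_lit 29) (nat_lit 5) (nat_lit 389) (nat_lit 329) (nat_lit 143)))) (XT.nd (nat_lit 94) (nat_lit 252) (nat_lit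 0) (XT.lf (nat_lit 0) (nat_lit 43429200698) (nat_lit 336) (nat_lit 5150264079) (nat_lit 84) (nat_lit 1827293701) (nat_lit 25) (nat_lit 5) (nat_lit 29) (nat_lit 5) (nat_lit 26) (nat_lit 5) (nat_lit 390) (nat_lit 329) (nat_lit 142)) (XT.nd (nat_lit 94) (nat_lit 84) (nat_lit 0) (XT.lf (nat_lit 0) (nat_lit 8003388035) (nat_lit 168) (nat_lit 40480720186) (nat_lit 252) (nat_lit 3154376781) (nat_lit 23) (nat_lit 5) (nat_lit 25) (nat_lit 5) (nat_lit 26) (nat_lit 5) (nat_lit 391) (nat_lit 329) (nat_lit 141)) (XT.lf (nat_lit 0) (nat_lit 823854971) (nat_lit 252) (nat_lit 31243732303) (nat_lit 84) (nat_lit 20838948686) (nat_lit 22) (nat_lit 5) (nat_lit 25) (nat_lit 5) (nat_lit 23) (nat_lit 5) (nat_lit 392) (nat_lit 329) (nat_lit 140))))) (XT.nd (nat_lit 282) (nat_lit 0) (nat_lit 0) (XT.nd (nat_lit 94) (nat_lit 252) (nat_lit 0) (XT.lf (nat_lit 0) (nat_lit 4858032536) (nat_lit 252) (nat_lit 18503047969)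 (nat_lit 84) (nat_lit 30851880455) (nat_lit 22) (nat_lit 5) (nat_lit 25) (nat_lit 5) (nat_lit 23) (nat_lit 5) (nat_lit 393) (nat_lit 329) (nat_lit 139)) (XT.nd (nat_lit 94) (nat_lit 252) (nat_lit 0) (XT.lf (nat_lit 0) (nat_lit 9015469849) (nat_lit 252) (nat_lit 5369876506) (nat_lit 84) (nat_lit 41174601415) (nat_lit 22) (nat_lit 5) (nat_lit 25) (nat_lit 5) (nat_lit 23) (nat_lit 5) (nat_lit 394) (nat_lit 329) (nat_lit 138)) (XT.lf (nat_lit 0) (nat_lit 8335974894) (nat_lit 252) (nat_lit 5046761086) (nat_lit 336) (nat_lit 43563452434) (nat_lit 19) (nat_lit 5) (nat_lit 22) (nat_lit 5) (nat_lit 23) (nat_lit 5) (nat_lit 395) (nat_lit 329) (nat_lit 137)))) (XT.nd (nat_lit 94) (nat_lit 0) (nat_lit 0) (XT.lf (nat_lit 0) (nat_lit 17985735138) (nat_lit 336) (nat_lit 35841567756) (nat_lit 84) (nat_lit 4544995281) (nat_lit 19) (nat_lit 5) (nat_lit 23) (nat_lit 5) (nat_lit 20) (nat_lit 5) (nat_lit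 396) (nat_lit 329) (nat_lit 136)) (XT.nd (nat_lit 94) (nat_lit 0) (nat_lit 0) (XT.lf (nat_lit 0) (nat_lit 22781372327) (nat_lit 336) (nat_lit 22731065970) (nat_lit 84) (nat_lit 14328636992) (nat_lit 19) (nat_lit 5) (nat_lit 23) (nat_lit 5) (nat_lit 20) (nat_lit 5) (nat_lit 397) (nat_lit 329) (nat_lit 135)) (XT.lf (nat_lit 0) (nat_lit 27724053088) (nat_lit 336) (nat_lit 9216423305) (nat_lit 84) (nat_lit 24414964414) (nat_lit 19) (nat_lit 5) (nat_lit 23) (nat_lit 5) (nat_lit 20) (nat_lit 5) (nat_lit 398) (nat_lit 329) (nat_lit 134))))))) (XT.nd (nat_lit 1128) (nat_lit 0) (nat_lit 0) (XT.nd (nat_lit 564) (nat_lit 252) (nat_lit 0) (XT.nd (nat_lit 282) (nat_lit 168) (nat_lit 0) (XT.nd (nat_lit 94) (nat_lit 0) (nat_lit 0) (XT.lf (nat_lit 0) (nat_lit 4811906492) (nat_lit 168) (nat_lit 28054212733) (nat_lit 252) (nat_lit 30049207275) (nat_lit 17) (nat_lit 5) (nat_lit 19) (nat_lit 5) (nat_lit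 20) (nat_lit 5) (nat_lit 399) (nat_lit 329) (nat_lit 133)) (XT.nd (nat_lit 94) (nat_lit 0) (nat_lit 0) (XT.lf (nat_lit 0) (nat_lit 19468304298) (nat_lit 168) (nat_lit 18793938757) (nat_lit 252) (nat_lit 26258397031) (nat_lit 17) (nat_lit 5) (nat_lit 19) (nat_lit 5) (nat_lit 20) (nat_lit 5) (nat_lit 400) (nat_lit 329) (nat_lit 132)) (XT.lf (nat_lit 0) (nat_lit 34576922845) (nat_lit 168) (nat_lit 9247223476) (nat_lit 252) (nat_lit 22351624112) (nat_lit 17) (nat_lit 5) (nat_lit 19) (nat_lit 5) (nat_lit 20) (nat_lit 5) (nat_lit 401) (nat_lit 329) (nat_lit 131)))) (XT.nd (nat_lit 94) (nat_lit 168) (nat_lit 0) (XT.lf (nat_lit 0) (nat_lit 49562914104) (nat_lit 252) (nat_lit 17736316153) (nat_lit 84) (nat_lit 582847115) (nat_lit 17) (nat_lit 5) (nat_lit 20) (nat_lit 5) (nat_lit 18) (nat_lit 5) (nat_lit 402) (nat_lit 329) (nat_lit 130)) (XT.nd (nat_lit 94) (nat_lit 168) (nat_lit 0) (XT.lf (nat_lit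 0) (nat_lit 55572743646) (nat_lit 252) (nat_lit 3540668261) (nat_lit 84) (nat_lit 10524985159) (nat_lit 17) (nat_lit 5) (nat_lit 20) (nat_lit 5) (nat_lit 18) (nat_lit 5) (nat_lit 403) (nat_lit 329) (nat_lit 129)) (XT.lf (nat_lit 0) (nat_lit 11321157615) (nat_lit 168) (nat_lit 50558652807) (nat_lit 252) (nat_lit 9565918386) (nat_lit 15) (nat_lit 5) (nat_lit 17) (nat_lit 5) (nat_lit 18) (nat_lit 5) (nat_lit 404) (nat_lit 329) (nat_lit 128))))) (XT.nd (nat_lit 282) (nat_lit 168) (nat_lit 0) (XT.nd (nat_lit 94) (nat_lit 84) (nat_lit 0) (XT.lf (nat_lit 0) (nat_lit 26716797283) (nat_lit 168) (nat_lit 41701203395) (nat_lit 252) (nat_lit 4889988309) (nat_lit 15) (nat_lit 5) (nat_lit 17) (nat_lit 5) (nat_lit 18) (nat_lit 5) (nat_lit 405) (nat_lit 329) (nat_lit 127)) (XT.nd (nat_lit 94) (nat_lit 84) (nat_lit 0) (XT.lf (nat_lit 0) (nat_lit 42587797691) (nat_lit 168) (nat_lit 32569764916) (nat_lit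 252) (nat_lit 70462051) (nat_lit 15) (nat_lit 5) (nat_lit 17) (nat_lit 5) (nat_lit 18) (nat_lit 5) (nat_lit 406) (nat_lit 329) (nat_lit 126)) (XT.lf (nat_lit 0) (nat_lit 4798485980) (nat_lit 252) (nat_lit 18307253580) (nat_lit 84) (nat_lit 54100379939) (nat_lit 14) (nat_lit 5) (nat_lit 17) (nat_lit 5) (nat_lit 15) (nat_lit 5) (nat_lit 407) (nat_lit 329) (nat_lit 125)))) (XT.nd (nat_lit 94) (nat_lit 168) (nat_lit 0) (XT.lf (nat_lit 0) (nat_lit 9815656237) (nat_lit 252) (nat_lit 3532500050) (nat_lit 84) (nat_lit 65897399779) (nat_lit 14) (nat_lit 5) (nat_lit 17) (nat_lit 5) (nat_lit 15) (nat_lit 5) (nat_lit 408) (nat_lit 329) (nat_lit 124)) (XT.nd (nat_lit 94) (nat_lit 0) (nat_lit 0) (XT.lf (nat_lit 0) (nat_lit 11939049471) (nat_lit 168) (nat_lit 3166532280) (nat_lit 252) (nat_lit 66239003705) (nat_lit 12) (nat_lit 5) (nat_lit 14) (nat_lit 5) (nat_lit 15) (nat_lit 5) (nat_lit 409) (nat_lit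 329) (nat_lit 123)) (XT.lf (nat_lit 0) (nat_lit 20668265581) (nat_lit 252) (nat_lit 55617320668) (nat_lit 84) (nat_lit 7219730690) (nat_lit 12) (nat_lit 5) (nat_lit 15) (nat_lit 5) (nat_lit 13) (nat_lit 5) (nat_lit 410) (nat_lit 329) (nat_lit 122)))))) (XT.nd (nat_lit 46812) (nat_lit 0) (nat_lit 6888) (XT.nd (nat_lit 46530) (nat_lit 0) (nat_lit 6804) (XT.nd (nat_lit 94) (nat_lit 0) (nat_lit 0) (XT.lf (nat_lit 0) (nat_lit 26434614659) (nat_lit 252) (nat_lit 41435787537) (nat_lit 84) (nat_lit 17861664970) (nat_lit 12) (nat_lit 5) (nat_lit 15) (nat_lit 5) (nat_lit 13) (nat_lit 5) (nat_lit 411) (nat_lit 329) (nat_lit 121)) (XT.nd (nat_lit 46342) (nat_lit 0) (nat_lit 6804) (XT.lf (nat_lit 0) (nat_lit 32378591434) (nat_lit 252) (nat_lit 26816305524) (nat_lit 84) (nat_lit 28832988526) (nat_lit 12) (nat_lit 5) (nat_lit 15) (nat_lit 5) (nat_lit 13) (nat_lit 5) (nat_lit 412) (nat_lit 329) (nat_lit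 120)) (XT.lf (nat_lit 0) (nat_lit 1998708305) (nat_lit 1092) (nat_lit 2906751034) (nat_lit 1092) (nat_lit 2906751034) (nat_lit 93) (nat_lit 3) (nat_lit 106) (nat_lit 3) (nat_lit 106) (nat_lit 5) (nat_lit 330) (nat_lit 330) (nat_lit 201)))) (XT.nd (nat_lit 94) (nat_lit 0) (nat_lit 84) (XT.lf (nat_lit 0) (nat_lit 4282258019) (nat_lit 1092) (nat_lit 353248634) (nat_lit 1092) (nat_lit 11222947661) (nat_lit 93) (nat_lit 3) (nat_lit 106) (nat_lit 3) (nat_lit 106) (nat_lit 5) (nat_lit 331) (nat_lit 330) (nat_lit 200)) (XT.nd (nat_lit 94) (nat_lit 0) (nat_lit 0) (XT.lf (nat_lit 0) (nat_lit 4627855043) (nat_lit 1008) (nat_lit 10725939642) (nat_lit 1092) (nat_lit 744388336) (nat_lit 94) (nat_lit 5) (nat_lit 106) (nat_lit 5) (nat_lit 107) (nat_lit 5) (nat_lit 332) (nat_lit 330) (nat_lit 199)) (XT.lf (nat_lit 0) (nat_lit 5026585175) (nat_lit 1008) (nat_lit 5114931182) (nat_lit 1092) (nat_lit 6202560247)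 (nat_lit 94) (nat_lit 5) (nat_lit 106) (nat_lit 5) (nat_lit 107) (nat_lit 5) (nat_lit 333) (nat_lit 330) (nat_lit 198))))) (XT.nd (nat_lit 282) (nat_lit 0) (nat_lit 84) (XT.nd (nat_lit 94) (nat_lit 0) (nat_lit 84) (XT.lf (nat_lit 84) (nat_lit 678877339) (nat_lit 0) (nat_lit 4757079578) (nat_lit 1092) (nat_lit 11161736101) (nat_lit 95) (nat_lit 5) (nat_lit 94) (nat_lit 5) (nat_lit 107) (nat_lit 5) (nat_lit 334) (nat_lit 330) (nat_lit 197)) (XT.nd (nat_lit 94) (nat_lit 0) (nat_lit 0) (XT.lf (nat_lit 0) (nat_lit 5911621700) (nat_lit 1008) (nat_lit 10110319890) (nat_lit 1092) (nat_lit 835613705) (nat_lit 95) (nat_lit 5) (nat_lit 107) (nat_lit 5) (nat_lit 108) (nat_lit 5) (nat_lit 335) (nat_lit 330) (nat_lit 196)) (XT.lf (nat_lit 0) (nat_lit 6442720525) (nat_lit 1008) (nat_lit 4175366789) (nat_lit 1092) (nat_lit 6506168716) (nat_lit 95) (nat_lit 5) (nat_lit 107) (nat_lit 5) (nat_lit 108)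 (nat_lit 5) (nat_lit 336) (nat_lit 330) (nat_lit 195)))) (XT.nd (nat_lit 188) (nat_lit 0) (nat_lit 84) (XT.nd (nat_lit 94) (nat_lit 0) (nat_lit 84) (XT.lf (nat_lit 84) (nat_lit 1978631455) (nat_lit 0) (nat_lit 5023554426) (nat_lit 1092) (nat_lit 10396712370) (nat_lit 96) (nat_lit 5) (nat_lit 95) (nat_lit 5) (nat_lit 108) (nat_lit 5) (nat_lit 337) (nat_lit 330) (nat_lit 194)) (XT.lf (nat_lit 0) (nat_lit 7622894269) (nat_lit 1008) (nat_lit 9281672120) (nat_lit 1092) (nat_lit 776168562) (nat_lit 96) (nat_lit 5) (nat_lit 108) (nat_lit 5) (nat_lit 109) (nat_lit 5) (nat_lit 338) (nat_lit 330) (nat_lit 193))) (XT.nd (nat_lit 94) (nat_lit 0) (nat_lit 0) (XT.lf (nat_lit 0) (nat_lit 8306936628) (nat_lit 1008) (nat_lit 3009065721) (nat_lit 1092) (nat_lit 6653979597) (nat_lit 96) (nat_lit 5) (nat_lit 108) (nat_lit 5) (nat_lit 109) (nat_lit 5) (nat_lit 339) (nat_lit 330) (nat_lit 192)) (XT.lf (nat_lit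 84) (nat_lit 3524238969) (nat_lit 0) (nat_lit 5515838194) (nat_lit 1092) (nat_lit 9227292757) (nat_lit 97) (nat_lit 5) (nat_lit 96) (nat_lit 5) (nat_lit 109) (nat_lit 5) (nat_lit 340) (nat_lit 330) (nat_lit 191))))))))
noncomputable def xc180 : XT := (XT.nd (nat_lit 2256) (nat_lit 2688) (nat_lit 0) (XT.nd (nat_lit 1128) (nat_lit 1848) (nat_lit 0) (XT.nd (nat_lit 564) (nat_lit 1512) (nat_lit 0) (XT.nd (nat_lit 282) (nat_lit 0) (nat_lit 0) (XT.nd (nat_lit 94) (nat_lit 0) (nat_lit 0) (XT.lf (nat_lit 0) (nat_lit 9825398524) (nat_lit 1008) (nat_lit 8259045456) (nat_lit 1092) (nat_lit 488657712) (nat_lit 97) (nat_lit 5) (nat_lit 109) (nat_lit 5) (nat_lit 110) (nat_lit 5) (nat_lit 341) (nat_lit 330) (nat_lit 190)) (XT.nd (nat_lit 94) (nat_lit 0) (nat_lit 0) (XT.lf (nat_lit 0) (nat_lit 10684805299) (nat_lit 1008) (nat_lit 1635200961) (nat_lit 1092) (nat_lit 6566799626) (nat_lit 97) (nat_lit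 5) (nat_lit 109) (nat_lit 5) (nat_lit 110) (nat_lit 5) (nat_lit 342) (nat_lit 330) (nat_lit 189)) (XT.lf (nat_lit 84) (nat_lit 5295996984) (nat_lit 0) (nat_lit 6320920710) (nat_lit 1092) (nat_lit 7591924819) (nat_lit 98) (nat_lit 5) (nat_lit 97) (nat_lit 5) (nat_lit 110) (nat_lit 5) (nat_lit 343) (nat_lit 330) (nat_lit 188)))) (XT.nd (nat_lit 94) (nat_lit 0) (nat_lit 84) (XT.lf (nat_lit 84) (nat_lit 12472086668) (nat_lit 0) (nat_lit 116582704) (nat_lit 1092) (nat_lit 6951894363) (nat_lit 98) (nat_lit 5) (nat_lit 97) (nat_lit 5) (nat_lit 110) (nat_lit 5) (nat_lit 344) (nat_lit 330) (nat_lit 187)) (XT.nd (nat_lit 94) (nat_lit 0) (nat_lit 0) (XT.lf (nat_lit 0) (nat_lit 13646726635) (nat_lit 1008) (nat_lit 78973552) (nat_lit 1092) (nat_lit 6155159990) (nat_lit 98) (nat_lit 5) (nat_lit 110) (nat_lit 5) (nat_lit 111) (nat_lit 5) (nat_lit 345) (nat_lit 330) (nat_lit 186)) (XT.lf (nat_lit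 84) (nat_lit 7267844531) (nat_lit 0) (nat_lit 7537095392) (nat_lit 1092) (nat_lit 5424710312) (nat_lit 99) (nat_lit 5) (nat_lit 98) (nat_lit 5) (nat_lit 111) (nat_lit 5) (nat_lit 346) (nat_lit 330) (nat_lit 185))))) (XT.nd (nat_lit 282) (nat_lit 672) (nat_lit 0) (XT.nd (nat_lit 94) (nat_lit 924) (nat_lit 0) (XT.lf (nat_lit 84) (nat_lit 14839536186) (nat_lit 0) (nat_lit 1154545197) (nat_lit 1092) (nat_lit 4595357171) (nat_lit 99) (nat_lit 5) (nat_lit 98) (nat_lit 5) (nat_lit 111) (nat_lit 5) (nat_lit 347) (nat_lit 330) (nat_lit 184)) (XT.nd (nat_lit 94) (nat_lit 0) (nat_lit 0) (XT.lf (nat_lit 0) (nat_lit 1660569399) (nat_lit 1008) (nat_lit 15624200793) (nat_lit 1092) (nat_lit 3673635464) (nat_lit 87) (nat_lit 5) (nat_lit 99) (nat_lit 5) (nat_lit 100) (nat_lit 5) (nat_lit 348) (nat_lit 330) (nat_lit 183)) (XT.lf (nat_lit 0) (nat_lit 9406024410) (nat_lit 1008) (nat_lit 9275660859) (nat_lit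 1092) (nat_lit 2655102438) (nat_lit 87) (nat_lit 5) (nat_lit 99) (nat_lit 5) (nat_lit 100) (nat_lit 5) (nat_lit 349) (nat_lit 330) (nat_lit 182)))) (XT.nd (nat_lit 94) (nat_lit 672) (nat_lit 0) (XT.lf (nat_lit 0) (nat_lit 17387141189) (nat_lit 1008) (nat_lit 2729437621) (nat_lit 1092) (nat_lit 1610514635) (nat_lit 87) (nat_lit 5) (nat_lit 99) (nat_lit 5) (nat_lit 100) (nat_lit 5) (nat_lit 350) (nat_lit 330) (nat_lit 181)) (XT.nd (nat_lit 94) (nat_lit 84) (nat_lit 0) (XT.lf (nat_lit 0) (nat_lit 3512557950) (nat_lit 588) (nat_lit 18152959903) (nat_lit 672) (nat_lit 461852205) (nat_lit 80) (nat_lit 5) (nat_lit 87) (nat_lit 5) (nat_lit 88) (nat_lit 5) (nat_lit 351) (nat_lit 330) (nat_lit 180)) (XT.lf (nat_lit 0) (nat_lit 776418235) (nat_lit 672) (nat_lit 10878291806) (nat_lit 84) (nat_lit 10883024077) (nat_lit 79) (nat_lit 5) (nat_lit 87) (nat_lit 5) (nat_lit 80) (nat_lit 5) (nat_lit 352)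 (nat_lit 330) (nat_lit 179)))))) (XT.nd (nat_lit 564) (nat_lit 840) (nat_lit 0) (XT.nd (nat_lit 282) (nat_lit 504) (nat_lit 0) (XT.nd (nat_lit 94) (nat_lit 504) (nat_lit 0) (XT.lf (nat_lit 0) (nat_lit 2038510754) (nat_lit 672) (nat_lit 2911120865) (nat_lit 84) (nat_lit 18011220936) (nat_lit 79) (nat_lit 5) (nat_lit 87) (nat_lit 5) (nat_lit 80) (nat_lit 5) (nat_lit 353) (nat_lit 330) (nat_lit 178)) (XT.nd (nat_lit 94) (nat_lit 0) (nat_lit 0) (XT.lf (nat_lit 0) (nat_lit 3408581524) (nat_lit 588) (nat_lit 18007967717) (nat_lit 84) (nat_lit 1978428637) (nat_lit 73) (nat_lit 5) (nat_lit 80) (nat_lit 5) (nat_lit 74) (nat_lit 5) (nat_lit 354) (nat_lit 330) (nat_lit 177)) (XT.lf (nat_lit 0) (nat_lit 4897730243) (nat_lit 588) (nat_lit 9892910075) (nat_lit 84) (nat_lit 9049569922) (nat_lit 73) (nat_lit 5) (nat_lit 80) (nat_lit 5) (nat_lit 74) (nat_lit 5) (nat_lit 355) (nat_lit 330) (nat_lit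 176)))) (XT.nd (nat_lit 94) (nat_lit 504) (nat_lit 0) (XT.lf (nat_lit 0) (nat_lit 6428470076) (nat_lit 588) (nat_lit 1530606279) (nat_lit 84) (nat_lit 16340333405) (nat_lit 73) (nat_lit 5) (nat_lit 80) (nat_lit 5) (nat_lit 74) (nat_lit 5) (nat_lit 356) (nat_lit 330) (nat_lit 175)) (XT.nd (nat_lit 94) (nat_lit 0) (nat_lit 0) (XT.lf (nat_lit 0) (nat_lit 7232456083) (nat_lit 504) (nat_lit 841518609) (nat_lit 588) (nat_lit 16696805619) (nat_lit 67) (nat_lit 5) (nat_lit 73) (nat_lit 5) (nat_lit 74) (nat_lit 5) (nat_lit 357) (nat_lit 330) (nat_lit 174)) (XT.lf (nat_lit 0) (nat_lit 9846736767) (nat_lit 588) (nat_lit 9025564645) (nat_lit 84) (nat_lit 6382120122) (nat_lit 67) (nat_lit 5) (nat_lit 74) (nat_lit 5) (nat_lit 68) (nat_lit 5) (nat_lit 358) (nat_lit 330) (nat_lit 173))))) (XT.nd (nat_lit 282) (nat_lit 420) (nat_lit 0) (XT.nd (nat_lit 94) (nat_lit 420) (nat_lit 0) (XT.lf (nat_lit 0)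 (nat_lit 11678850862) (nat_lit 588) (nat_lit 261693463) (nat_lit 84) (nat_lit 13812396200) (nat_lit 67) (nat_lit 5) (nat_lit 74) (nat_lit 5) (nat_lit 68) (nat_lit 5) (nat_lit 359) (nat_lit 330) (nat_lit 172)) (XT.nd (nat_lit 94) (nat_lit 0) (nat_lit 0) (XT.lf (nat_lit 0) (nat_lit 8950131330) (nat_lit 420) (nat_lit 4702331810) (nat_lit 504) (nat_lit 12611845224) (nat_lit 62) (nat_lit 5) (nat_lit 67) (nat_lit 5) (nat_lit 68) (nat_lit 5) (nat_lit 360) (nat_lit 330) (nat_lit 171)) (XT.lf (nat_lit 0) (nat_lit 15713398198) (nat_lit 504) (nat_lit 8369938010) (nat_lit 84) (nat_lit 2707401959) (nat_lit 62) (nat_lit 5) (nat_lit 68) (nat_lit 5) (nat_lit 63) (nat_lit 5) (nat_lit 361) (nat_lit 330) (nat_lit 170)))) (XT.nd (nat_lit 94) (nat_lit 0) (nat_lit 0) (XT.lf (nat_lit 0) (nat_lit 815887434) (nat_lit 420) (nat_lit 17074641747) (nat_lit 504) (nat_lit 9441355922) (nat_lit 57) (nat_lit 5) (nat_lit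 62) (nat_lit 5) (nat_lit 63) (nat_lit 5) (nat_lit 362) (nat_lit 330) (nat_lit 169)) (XT.nd (nat_lit 94) (nat_lit 0) (nat_lit 0) (XT.lf (nat_lit 0) (nat_lit 10459923039) (nat_lit 420) (nat_lit 9758789725) (nat_lit 504) (nat_lit 7668523167) (nat_lit 57) (nat_lit 5) (nat_lit 62) (nat_lit 5) (nat_lit 63) (nat_lit 5) (nat_lit 363) (nat_lit 330) (nat_lit 168)) (XT.lf (nat_lit 0) (nat_lit 20399054964) (nat_lit 420) (nat_lit 2216325988) (nat_lit 504) (nat_lit 5844554224) (nat_lit 57) (nat_lit 5) (nat_lit 62) (nat_lit 5) (nat_lit 63) (nat_lit 5) (nat_lit 364) (nat_lit 330) (nat_lit 167))))))) (XT.nd (nat_lit 1128) (nat_lit 1176) (nat_lit 0) (XT.nd (nat_lit 564) (nat_lit 672) (nat_lit 0) (XT.nd (nat_lit 282) (nat_lit 420) (nat_lit 0) (XT.nd (nat_lit 94) (nat_lit 84) (nat_lit 0) (XT.lf (nat_lit 0) (nat_lit 1568478506) (nat_lit 336) (nat_lit 23585002393) (nat_lit 420) (nat_lit 3894843649) (nat_lit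 53) (nat_lit 5) (nat_lit 57) (nat_lit 5) (nat_lit 58) (nat_lit 5) (nat_lit 365) (nat_lit 330) (nat_lit 166)) (XT.nd (nat_lit 94) (nat_lit 84) (nat_lit 0) (XT.lf (nat_lit 0) (nat_lit 11640259862) (nat_lit 336) (nat_lit 16233069103) (nat_lit 420) (nat_lit 1778447049) (nat_lit 53) (nat_lit 5) (nat_lit 57) (nat_lit 5) (nat_lit 58) (nat_lit 5) (nat_lit 366) (nat_lit 330) (nat_lit 165)) (XT.lf (nat_lit 0) (nat_lit 391971179) (nat_lit 420) (nat_lit 8257483081) (nat_lit 84) (nat_lit 21624479336) (nat_lit 52) (nat_lit 5) (nat_lit 57) (nat_lit 5) (nat_lit 53) (nat_lit 5) (nat_lit 367) (nat_lit 330) (nat_lit 164)))) (XT.nd (nat_lit 94) (nat_lit 0) (nat_lit 0) (XT.lf (nat_lit 0) (nat_lit 1813578153) (nat_lit 420) (nat_lit 793790646) (nat_lit 504) (nat_lit 28307007193) (nat_lit 47) (nat_lit 5) (nat_lit 52) (nat_lit 5) (nat_lit 53) (nat_lit 5) (nat_lit 368) (nat_lit 330) (nat_lit 163)) (XT.nd (nat_lit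 94) (nat_lit 0) (nat_lit 0) (XT.lf (nat_lit 0) (nat_lit 5047695752) (nat_lit 504) (nat_lit 19277228598) (nat_lit 84) (nat_lit 7244919077) (nat_lit 47) (nat_lit 5) (nat_lit 53) (nat_lit 5) (nat_lit 48) (nat_lit 5) (nat_lit 369) (nat_lit 330) (nat_lit 162)) (XT.lf (nat_lit 0) (nat_lit 7568599237) (nat_lit 504) (nat_lit 9160906893) (nat_lit 84) (nat_lit 15515986189) (nat_lit 47) (nat_lit 5) (nat_lit 53) (nat_lit 5) (nat_lit 48) (nat_lit 5) (nat_lit 370) (nat_lit 330) (nat_lit 161))))) (XT.nd (nat_lit 282) (nat_lit 336) (nat_lit 0) (XT.nd (nat_lit 94) (nat_lit 0) (nat_lit 0) (XT.lf (nat_lit 0) (nat_lit 1291491932) (nat_lit 336) (nat_lit 8885874325) (nat_lit 420) (nat_lit 22764433128) (nat_lit 43) (nat_lit 5) (nat_lit 47) (nat_lit 5) (nat_lit 48) (nat_lit 5) (nat_lit 371) (nat_lit 330) (nat_lit 160)) (XT.nd (nat_lit 94) (nat_lit 0) (nat_lit 0) (XT.lf (nat_lit 0) (nat_lit 12258607933) (nat_lit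 336) (nat_lit 700980212) (nat_lit 420) (nat_lit 20697247562) (nat_lit 43) (nat_lit 5) (nat_lit 47) (nat_lit 5) (nat_lit 48) (nat_lit 5) (nat_lit 372) (nat_lit 330) (nat_lit 159)) (XT.lf (nat_lit 0) (nat_lit 15901866094) (nat_lit 420) (nat_lit 10908600148) (nat_lit 84) (nat_lit 7581297287) (nat_lit 43) (nat_lit 5) (nat_lit 48) (nat_lit 5) (nat_lit 44) (nat_lit 5) (nat_lit 373) (nat_lit 330) (nat_lit 158)))) (XT.nd (nat_lit 94) (nat_lit 336) (nat_lit 0) (XT.lf (nat_lit 0) (nat_lit 18939661555) (nat_lit 420) (nat_lit 104366084) (nat_lit 84) (nat_lit 16105325957) (nat_lit 43) (nat_lit 5) (nat_lit 48) (nat_lit 5) (nat_lit 44) (nat_lit 5) (nat_lit 374) (nat_lit 330) (nat_lit 157)) (XT.nd (nat_lit 94) (nat_lit 0) (nat_lit 0) (XT.lf (nat_lit 0) (nat_lit 11258329149) (nat_lit 336) (nat_lit 10922207130) (nat_lit 420) (nat_lit 13746529143) (nat_lit 39) (nat_lit 5) (nat_lit 43) (nat_lit 5) (nat_lit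 44) (nat_lit 5) (nat_lit 375) (nat_lit 330) (nat_lit 156)) (XT.lf (nat_lit 0) (nat_lit 22972213526) (nat_lit 336) (nat_lit 2548028621) (nat_lit 420) (nat_lit 11208707109) (nat_lit 39) (nat_lit 5) (nat_lit 43) (nat_lit 5) (nat_lit 44) (nat_lit 5) (nat_lit 376) (nat_lit 330) (nat_lit 155)))))) (XT.nd (nat_lit 564) (nat_lit 504) (nat_lit 0) (XT.nd (nat_lit 282) (nat_lit 420) (nat_lit 0) (XT.nd (nat_lit 94) (nat_lit 252) (nat_lit 0) (XT.lf (nat_lit 0) (nat_lit 29021201677) (nat_lit 420) (nat_lit 2570091836) (nat_lit 84) (nat_lit 5962620425) (nat_lit 39) (nat_lit 5) (nat_lit 44) (nat_lit 5) (nat_lit 40) (nat_lit 5) (nat_lit 377) (nat_lit 330) (nat_lit 154)) (XT.nd (nat_lit 94) (nat_lit 0) (nat_lit 0) (XT.lf (nat_lit 0) (nat_lit 9117822136) (nat_lit 252) (nat_lit 23626810110) (nat_lit 336) (nat_lit 5656299602) (nat_lit 36) (nat_lit 5) (nat_lit 39) (nat_lit 5) (nat_lit 40) (nat_lit 5) (nat_lit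 378) (nat_lit 330) (nat_lit 153)) (XT.lf (nat_lit 0) (nat_lit 21219418685) (nat_lit 252) (nat_lit 15388374216) (nat_lit 336) (nat_lit 2665672150) (nat_lit 36) (nat_lit 5) (nat_lit 39) (nat_lit 5) (nat_lit 40) (nat_lit 5) (nat_lit 379) (nat_lit 330) (nat_lit 152)))) (XT.nd (nat_lit 94) (nat_lit 336) (nat_lit 0) (XT.lf (nat_lit 0) (nat_lit 406767215) (nat_lit 336) (nat_lit 6484120204) (nat_lit 84) (nat_lit 33282118376) (nat_lit 35) (nat_lit 5) (nat_lit 39) (nat_lit 5) (nat_lit 36) (nat_lit 5) (nat_lit 380) (nat_lit 330) (nat_lit 151)) (XT.nd (nat_lit 94) (nat_lit 0) (nat_lit 0) (XT.lf (nat_lit 0) (nat_lit 3590870450) (nat_lit 420) (nat_lit 35591821597) (nat_lit 84) (nat_lit 1914679755) (nat_lit 31) (nat_lit 5) (nat_lit 36) (nat_lit 5) (nat_lit 32) (nat_lit 5) (nat_lit 381) (nat_lit 330) (nat_lit 150)) (XT.lf (nat_lit 0) (nat_lit 7010160615) (nat_lit 420) (nat_lit 24118153078) (nat_lit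 84) (nat_lit 10917858465) (nat_lit 31) (nat_lit 5) (nat_lit 36) (nat_lit 5) (nat_lit 32) (nat_lit 5) (nat_lit 382) (nat_lit 330) (nat_lit 149))))) (XT.nd (nat_lit 282) (nat_lit 252) (nat_lit 0) (XT.nd (nat_lit 94) (nat_lit 252) (nat_lit 0) (XT.lf (nat_lit 0) (nat_lit 10533149093) (nat_lit 420) (nat_lit 12291757755) (nat_lit 84) (nat_lit 20199559343) (nat_lit 31) (nat_lit 5) (nat_lit 36) (nat_lit 5) (nat_lit 32) (nat_lit 5) (nat_lit 383) (nat_lit 330) (nat_lit 148)) (XT.nd (nat_lit 94) (nat_lit 252) (nat_lit 0) (XT.lf (nat_lit 0) (nat_lit 14163119679) (nat_lit 420) (nat_lit 101612188) (nat_lit 84) (nat_lit 29768433907) (nat_lit 31) (nat_lit 5) (nat_lit 36) (nat_lit 5) (nat_lit 32) (nat_lit 5) (nat_lit 384) (nat_lit 330) (nat_lit 147)) (XT.lf (nat_lit 0) (nat_lit 12719924241) (nat_lit 252) (nat_lit 5309714867) (nat_lit 336) (nat_lit 27039660332) (nat_lit 28) (nat_lit 5) (nat_lit 31)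 (nat_lit 5) (nat_lit 32) (nat_lit 5) (nat_lit 385) (nat_lit 330) (nat_lit 146)))) (XT.nd (nat_lit 188) (nat_lit 252) (nat_lit 0) (XT.nd (nat_lit 94) (nat_lit 0) (nat_lit 0) (XT.lf (nat_lit 0) (nat_lit 22053875878) (nat_lit 336) (nat_lit 20238186543) (nat_lit 84) (nat_lit 3844326053) (nat_lit 28) (nat_lit 5) (nat_lit 32) (nat_lit 5) (nat_lit 29) (nat_lit 5) (nat_lit 386) (nat_lit 330) (nat_lit 145)) (XT.lf (nat_lit 0) (nat_lit 26255102022) (nat_lit 336) (nat_lit 7808594099) (nat_lit 84) (nat_lit 13171250244) (nat_lit 28) (nat_lit 5) (nat_lit 32) (nat_lit 5) (nat_lit 29) (nat_lit 5) (nat_lit 387) (nat_lit 330) (nat_lit 144))) (XT.nd (nat_lit 94) (nat_lit 0) (nat_lit 0) (XT.lf (nat_lit 0) (nat_lit 5106546371) (nat_lit 252) (nat_lit 25528671695) (nat_lit 336) (nat_lit 17730841495) (nat_lit 25) (nat_lit 5) (nat_lit 28) (nat_lit 5) (nat_lit 29) (nat_lit 5) (nat_lit 388) (nat_lit 330) (nat_lit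 143)) (XT.lf (nat_lit 0) (nat_lit 18584966300) (nat_lit 252) (nat_lit 16645685671) (nat_lit 336) (nat_lit 14299127708) (nat_lit 25) (nat_lit 5) (nat_lit 28) (nat_lit 5) (nat_lit 29) (nat_lit 5) (nat_lit 389) (nat_lit 330) (nat_lit 142))))))))
noncomputable def xc181 : XT := (XT.nd (nat_lit 48598) (nat_lit 0) (nat_lit 5124) (XT.nd (nat_lit 1128) (nat_lit 420) (nat_lit 0) (XT.nd (nat_lit 564) (nat_lit 420) (nat_lit 0) (XT.nd (nat_lit 282) (nat_lit 84) (nat_lit 0) (XT.nd (nat_lit 94) (nat_lit 168) (nat_lit 0) (XT.lf (nat_lit 0) (nat_lit 32478668276) (nat_lit 252) (nat_lit 7487963882) (nat_lit 336) (nat_lit 10763009972) (nat_lit 25) (nat_lit 5) (nat_lit 28) (nat_lit 5) (nat_lit 29) (nat_lit 5) (nat_lit 390) (nat_lit 330) (nat_lit 141)) (XT.nd (nat_lit 94) (nat_lit 168) (nat_lit 0) (XT.lf (nat_lit 0) (nat_lit 44866947354) (nat_lit 336) (nat_lit 5185536925) (nat_lit 84) (nat_lit 1913680431)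 (nat_lit 25) (nat_lit 5) (nat_lit 29) (nat_lit 5) (nat_lit 26) (nat_lit 5) (nat_lit 391) (nat_lit 330) (nat_lit 140)) (XT.lf (nat_lit 0) (nat_lit 8374619115) (nat_lit 168) (nat_lit 41702409870) (nat_lit 252) (nat_lit 3159104224) (nat_lit 23) (nat_lit 5) (nat_lit 25) (nat_lit 5) (nat_lit 26) (nat_lit 5) (nat_lit 392) (nat_lit 330) (nat_lit 139)))) (XT.nd (nat_lit 94) (nat_lit 0) (nat_lit 0) (XT.lf (nat_lit 0) (nat_lit 937836107) (nat_lit 252) (nat_lit 32090709216) (nat_lit 84) (nat_lit 21515015224) (nat_lit 22) (nat_lit 5) (nat_lit 25) (nat_lit 5) (nat_lit 23) (nat_lit 5) (nat_lit 393) (nat_lit 330) (nat_lit 138)) (XT.nd (nat_lit 94) (nat_lit 0) (nat_lit 0) (XT.lf (nat_lit 0) (nat_lit 5094413922) (nat_lit 252) (nat_lit 18958719286) (nat_lit 84) (nat_lit 31837444063) (nat_lit 22) (nat_lit 5) (nat_lit 25) (nat_lit 5) (nat_lit 23) (nat_lit 5) (nat_lit 394) (nat_lit 330) (nat_lit 137))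 (XT.lf (nat_lit 0) (nat_lit 9378152496) (nat_lit 252) (nat_lit 5421965210) (nat_lit 84) (nat_lit 42479292734) (nat_lit 22) (nat_lit 5) (nat_lit 25) (nat_lit 5) (nat_lit 23) (nat_lit 5) (nat_lit 395) (nat_lit 330) (nat_lit 136))))) (XT.nd (nat_lit 282) (nat_lit 168) (nat_lit 0) (XT.nd (nat_lit 94) (nat_lit 0) (nat_lit 0) (XT.lf (nat_lit 0) (nat_lit 8707609615) (nat_lit 252) (nat_lit 5171815673) (nat_lit 336) (nat_lit 44829251507) (nat_lit 19) (nat_lit 5) (nat_lit 22) (nat_lit 5) (nat_lit 23) (nat_lit 5) (nat_lit 396) (nat_lit 330) (nat_lit 135)) (XT.nd (nat_lit 94) (nat_lit 0) (nat_lit 0) (XT.lf (nat_lit 0) (nat_lit 18622959207) (nat_lit 336) (nat_lit 36840385244) (nat_lit 84) (nat_lit 4715727640) (nat_lit 19) (nat_lit 5) (nat_lit 23) (nat_lit 5) (nat_lit 20) (nat_lit 5) (nat_lit 397) (nat_lit 330) (nat_lit 134)) (XT.lf (nat_lit 0) (nat_lit 23564865751) (nat_lit 336) (nat_lit 23326833658)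 (nat_lit 84) (nat_lit 14801765093) (nat_lit 19) (nat_lit 5) (nat_lit 23) (nat_lit 5) (nat_lit 20) (nat_lit 5) (nat_lit 398) (nat_lit 330) (nat_lit 133)))) (XT.nd (nat_lit 94) (nat_lit 168) (nat_lit 0) (XT.lf (nat_lit 0) (nat_lit 28658446243) (nat_lit 336) (nat_lit 9396511325) (nat_lit 84) (nat_lit 25199898489) (nat_lit 19) (nat_lit 5) (nat_lit 23) (nat_lit 5) (nat_lit 20) (nat_lit 5) (nat_lit 399) (nat_lit 330) (nat_lit 132)) (XT.nd (nat_lit 94) (nat_lit 0) (nat_lit 0) (XT.lf (nat_lit 0) (nat_lit 5065627377) (nat_lit 168) (nat_lit 28893072706) (nat_lit 252) (nat_lit 30904444251) (nat_lit 17) (nat_lit 5) (nat_lit 19) (nat_lit 5) (nat_lit 20) (nat_lit 5) (nat_lit 400) (nat_lit 330) (nat_lit 131)) (XT.lf (nat_lit 0) (nat_lit 20173229863) (nat_lit 168) (nat_lit 19346656948) (nat_lit 252) (nat_lit 26998412722) (nat_lit 17) (nat_lit 5) (nat_lit 19) (nat_lit 5) (nat_lit 20) (nat_lit 5) (nat_lit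 401) (nat_lit 330) (nat_lit 130)))))) (XT.nd (nat_lit 564) (nat_lit 252) (nat_lit 0) (XT.nd (nat_lit 282) (nat_lit 168) (nat_lit 0) (XT.nd (nat_lit 94) (nat_lit 0) (nat_lit 0) (XT.lf (nat_lit 0) (nat_lit 35747166456) (nat_lit 168) (nat_lit 9504892341) (nat_lit 252) (nat_lit 22972754705) (nat_lit 17) (nat_lit 5) (nat_lit 19) (nat_lit 5) (nat_lit 20) (nat_lit 5) (nat_lit 402) (nat_lit 330) (nat_lit 129)) (XT.nd (nat_lit 94) (nat_lit 0) (nat_lit 0) (XT.lf (nat_lit 0) (nat_lit 51166921739) (nat_lit 252) (nat_lit 18188685908) (nat_lit 84) (nat_lit 628471997) (nat_lit 17) (nat_lit 5) (nat_lit 20) (nat_lit 5) (nat_lit 18) (nat_lit 5) (nat_lit 403) (nat_lit 330) (nat_lit 128)) (XT.lf (nat_lit 0) (nat_lit 57361024691) (nat_lit 252) (nat_lit 3555903230) (nat_lit 84) (nat_lit 10877987752) (nat_lit 17) (nat_lit 5) (nat_lit 20) (nat_lit 5) (nat_lit 18) (nat_lit 5) (nat_lit 404) (nat_lit 330) (nat_lit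 127)))) (XT.nd (nat_lit 94) (nat_lit 0) (nat_lit 0) (XT.lf (nat_lit 0) (nat_lit 11765682260) (nat_lit 168) (nat_lit 52096886261) (nat_lit 252) (nat_lit 9795745706) (nat_lit 15) (nat_lit 5) (nat_lit 17) (nat_lit 5) (nat_lit 18) (nat_lit 5) (nat_lit 405) (nat_lit 330) (nat_lit 126)) (XT.nd (nat_lit 94) (nat_lit 0) (nat_lit 0) (XT.lf (nat_lit 0) (nat_lit 27635773343) (nat_lit 168) (nat_lit 42965730436) (nat_lit 252) (nat_lit 4976867812) (nat_lit 15) (nat_lit 5) (nat_lit 17) (nat_lit 5) (nat_lit 18) (nat_lit 5) (nat_lit 406) (nat_lit 330) (nat_lit 125)) (XT.lf (nat_lit 0) (nat_lit 43996045941) (nat_lit 168) (nat_lit 33552065587) (nat_lit 252) (nat_lit 9881937) (nat_lit 15) (nat_lit 5) (nat_lit 17) (nat_lit 5) (nat_lit 18) (nat_lit 5) (nat_lit 407) (nat_lit 330) (nat_lit 124))))) (XT.nd (nat_lit 282) (nat_lit 0) (nat_lit 0) (XT.nd (nat_lit 94) (nat_lit 168) (nat_lit 0) (XT.lf (nat_lit 0)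 (nat_lit 5006889748) (nat_lit 252) (nat_lit 18787965786) (nat_lit 84) (nat_lit 55802598134) (nat_lit 14) (nat_lit 5) (nat_lit 17) (nat_lit 5) (nat_lit 15) (nat_lit 5) (nat_lit 408) (nat_lit 330) (nat_lit 123)) (XT.nd (nat_lit 94) (nat_lit 168) (nat_lit 0) (XT.lf (nat_lit 0) (nat_lit 10177798712) (nat_lit 252) (nat_lit 3557805170) (nat_lit 84) (nat_lit 67964570692) (nat_lit 14) (nat_lit 5) (nat_lit 17) (nat_lit 5) (nat_lit 15) (nat_lit 5) (nat_lit 409) (nat_lit 330) (nat_lit 122)) (XT.lf (nat_lit 0) (nat_lit 12392509913) (nat_lit 168) (nat_lit 3238289203) (nat_lit 252) (nat_lit 68233509073) (nat_lit 12) (nat_lit 5) (nat_lit 14) (nat_lit 5) (nat_lit 15) (nat_lit 5) (nat_lit 410) (nat_lit 330) (nat_lit 121)))) (XT.nd (nat_lit 94) (nat_lit 0) (nat_lit 0) (XT.lf (nat_lit 0) (nat_lit 21364468019) (nat_lit 252) (nat_lit 57258967427) (nat_lit 84) (nat_lit 7468637941) (nat_lit 12) (nat_lit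 5) (nat_lit 15) (nat_lit 5) (nat_lit 13) (nat_lit 5) (nat_lit 411) (nat_lit 330) (nat_lit 120)) (XT.nd (nat_lit 46436) (nat_lit 0) (nat_lit 6804) (XT.lf (nat_lit 0) (nat_lit 27307905565) (nat_lit 252) (nat_lit 42640287075) (nat_lit 84) (nat_lit 18439717612) (nat_lit 12) (nat_lit 5) (nat_lit 15) (nat_lit 5) (nat_lit 13) (nat_lit 5) (nat_lit 412) (nat_lit 330) (nat_lit 119)) (XT.lf (nat_lit 0) (nat_lit 2281338702) (nat_lit 1092) (nat_lit 2882493018) (nat_lit 1092) (nat_lit 2882493018) (nat_lit 93) (nat_lit 3) (nat_lit 106) (nat_lit 3) (nat_lit 106) (nat_lit 5) (nat_lit 331) (nat_lit 331) (nat_lit 199))))))) (XT.nd (nat_lit 1128) (nat_lit 1680) (nat_lit 0) (XT.nd (nat_lit 564) (nat_lit 0) (nat_lit 168) (XT.nd (nat_lit 282) (nat_lit 0) (nat_lit 84) (XT.nd (nat_lit 94) (nat_lit 0) (nat_lit 84) (XT.lf (nat_lit 0) (nat_lit 4843078705) (nat_lit 1092) (nat_lit 142342314) (nat_lit 1092) (nat_lit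 11349002012) (nat_lit 93) (nat_lit 3) (nat_lit 106) (nat_lit 3) (nat_lit 106) (nat_lit 5) (nat_lit 332) (nat_lit 331) (nat_lit 198)) (XT.nd (nat_lit 94) (nat_lit 0) (nat_lit 0) (XT.lf (nat_lit 0) (nat_lit 5186734746) (nat_lit 1008) (nat_lit 10821630434) (nat_lit 1092) (nat_lit 573681794) (nat_lit 94) (nat_lit 5) (nat_lit 106) (nat_lit 5) (nat_lit 107) (nat_lit 5) (nat_lit 333) (nat_lit 331) (nat_lit 197)) (XT.lf (nat_lit 0) (nat_lit 5585334821) (nat_lit 1008) (nat_lit 5043801190) (nat_lit 1092) (nat_lit 6206883669) (nat_lit 94) (nat_lit 5) (nat_lit 106) (nat_lit 5) (nat_lit 107) (nat_lit 5) (nat_lit 334) (nat_lit 331) (nat_lit 196)))) (XT.nd (nat_lit 94) (nat_lit 0) (nat_lit 84) (XT.lf (nat_lit 84) (nat_lit 927289960) (nat_lit 0) (nat_lit 5070247517) (nat_lit 1092) (nat_lit 11100333503) (nat_lit 95) (nat_lit 5) (nat_lit 94) (nat_lit 5) (nat_lit 107) (nat_lit 5) (nat_lit 335) (nat_lit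 331) (nat_lit 195)) (XT.nd (nat_lit 94) (nat_lit 0) (nat_lit 0) (XT.lf (nat_lit 0) (nat_lit 6474534880) (nat_lit 1008) (nat_lit 10187695487) (nat_lit 1092) (nat_lit 704039537) (nat_lit 95) (nat_lit 5) (nat_lit 107) (nat_lit 5) (nat_lit 108) (nat_lit 5) (nat_lit 336) (nat_lit 331) (nat_lit 194)) (XT.lf (nat_lit 0) (nat_lit 7010682405) (nat_lit 1008) (nat_lit 4075856195) (nat_lit 1092) (nat_lit 6555116790) (nat_lit 95) (nat_lit 5) (nat_lit 107) (nat_lit 5) (nat_lit 108) (nat_lit 5) (nat_lit 337) (nat_lit 331) (nat_lit 193))))) (XT.nd (nat_lit 282) (nat_lit 0) (nat_lit 84) (XT.nd (nat_lit 94) (nat_lit 0) (nat_lit 84) (XT.lf (nat_lit 84) (nat_lit 2266598112) (nat_lit 0) (nat_lit 5312069136) (nat_lit 1092) (nat_lit 10346479070) (nat_lit 96) (nat_lit 5) (nat_lit 95) (nat_lit 5) (nat_lit 108) (nat_lit 5) (nat_lit 338) (nat_lit 331) (nat_lit 192)) (XT.nd (nat_lit 94) (nat_lit 0) (nat_lit 0)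 (XT.lf (nat_lit 0) (nat_lit 8206533153) (nat_lit 1008) (nat_lit 9335588145) (nat_lit 1092) (nat_lit 674032687) (nat_lit 96) (nat_lit 5) (nat_lit 108) (nat_lit 5) (nat_lit 109) (nat_lit 5) (nat_lit 339) (nat_lit 331) (nat_lit 191)) (XT.lf (nat_lit 0) (nat_lit 8901337368) (nat_lit 1008) (nat_lit 2875561297) (nat_lit 1092) (nat_lit 6737850346) (nat_lit 96) (nat_lit 5) (nat_lit 108) (nat_lit 5) (nat_lit 109) (nat_lit 5) (nat_lit 340) (nat_lit 331) (nat_lit 190)))) (XT.nd (nat_lit 94) (nat_lit 0) (nat_lit 84) (XT.lf (nat_lit 84) (nat_lit 3857979839) (nat_lit 0) (nat_lit 5791322939) (nat_lit 1092) (nat_lit 9172354104) (nat_lit 97) (nat_lit 5) (nat_lit 96) (nat_lit 5) (nat_lit 109) (nat_lit 5) (nat_lit 341) (nat_lit 331) (nat_lit 189)) (XT.nd (nat_lit 94) (nat_lit 0) (nat_lit 0) (XT.lf (nat_lit 0) (nat_lit 10448071846) (nat_lit 1008) (nat_lit 8284690261) (nat_lit 1092) (nat_lit 404496261)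 (nat_lit 97) (nat_lit 5) (nat_lit 109) (nat_lit 5) (nat_lit 110) (nat_lit 5) (nat_lit 342) (nat_lit 331) (nat_lit 188)) (XT.lf (nat_lit 0) (nat_lit 11324556055) (nat_lit 1008) (nat_lit 1462433797) (nat_lit 1092) (nat_lit 6674046612) (nat_lit 97) (nat_lit 5) (nat_lit 109) (nat_lit 5) (nat_lit 110) (nat_lit 5) (nat_lit 343) (nat_lit 331) (nat_lit 187)))))) (XT.nd (nat_lit 564) (nat_lit 1176) (nat_lit 0) (XT.nd (nat_lit 282) (nat_lit 840) (nat_lit 0) (XT.nd (nat_lit 94) (nat_lit 0) (nat_lit 0) (XT.lf (nat_lit 84) (nat_lit 5681368969) (nat_lit 0) (nat_lit 6597112657) (nat_lit 1092) (nat_lit 7514845154) (nat_lit 98) (nat_lit 5) (nat_lit 97) (nat_lit 5) (nat_lit 110) (nat_lit 5) (nat_lit 344) (nat_lit 331) (nat_lit 186)) (XT.nd (nat_lit 94) (nat_lit 0) (nat_lit 84) (XT.lf (nat_lit 84) (nat_lit 13073266533) (nat_lit 0) (nat_lit 198027423) (nat_lit 1092) (nat_lit 6864367847) (nat_lit 98) (nat_lit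 5) (nat_lit 97) (nat_lit 5) (nat_lit 110) (nat_lit 5) (nat_lit 345) (nat_lit 331) (nat_lit 185)) (XT.lf (nat_lit 84) (nat_lit 140592935) (nat_lit 0) (nat_lit 14213412757) (nat_lit 1092) (nat_lit 6132802227) (nat_lit 99) (nat_lit 5) (nat_lit 98) (nat_lit 5) (nat_lit 111) (nat_lit 5) (nat_lit 346) (nat_lit 331) (nat_lit 184)))) (XT.nd (nat_lit 94) (nat_lit 924) (nat_lit 0) (XT.lf (nat_lit 84) (nat_lit 7710110724) (nat_lit 0) (nat_lit 7830266191) (nat_lit 1092) (nat_lit 5306320240) (nat_lit 99) (nat_lit 5) (nat_lit 98) (nat_lit 5) (nat_lit 111) (nat_lit 5) (nat_lit 347) (nat_lit 331) (nat_lit 183)) (XT.nd (nat_lit 94) (nat_lit 924) (nat_lit 0) (XT.lf (nat_lit 84) (nat_lit 15510001198) (nat_lit 0) (nat_lit 1248067274) (nat_lit 1092) (nat_lit 4459873290) (nat_lit 99) (nat_lit 5) (nat_lit 98) (nat_lit 5) (nat_lit 111) (nat_lit 5) (nat_lit 348) (nat_lit 331) (nat_lit 182)) (XT.lf (nat_lit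 0) (nat_lit 1930593314) (nat_lit 1008) (nat_lit 16151724521) (nat_lit 1092) (nat_lit 3516272765) (nat_lit 87) (nat_lit 5) (nat_lit 99) (nat_lit 5) (nat_lit 100) (nat_lit 5) (nat_lit 349) (nat_lit 331) (nat_lit 181))))) (XT.nd (nat_lit 282) (nat_lit 588) (nat_lit 0) (XT.nd (nat_lit 94) (nat_lit 588) (nat_lit 0) (XT.lf (nat_lit 0) (nat_lit 9909586205) (nat_lit 1008) (nat_lit 9605081712) (nat_lit 1092) (nat_lit 2474320994) (nat_lit 87) (nat_lit 5) (nat_lit 99) (nat_lit 5) (nat_lit 100) (nat_lit 5) (nat_lit 350) (nat_lit 331) (nat_lit 180)) (XT.nd (nat_lit 94) (nat_lit 588) (nat_lit 0) (XT.lf (nat_lit 0) (nat_lit 18131743961) (nat_lit 1008) (nat_lit 2854666449) (nat_lit 1092) (nat_lit 1405261521) (nat_lit 87) (nat_lit 5) (nat_lit 99) (nat_lit 5) (nat_lit 100) (nat_lit 5) (nat_lit 351) (nat_lit 331) (nat_lit 179)) (XT.lf (nat_lit 0) (nat_lit 3834236636) (nat_lit 588) (nat_lit 18743446775)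 (nat_lit 672) (nat_lit 226889836) (nat_lit 80) (nat_lit 5) (nat_lit 87) (nat_lit 5) (nat_lit 88) (nat_lit 5) (nat_lit 352) (nat_lit 331) (nat_lit 178)))) (XT.nd (nat_lit 188) (nat_lit 504) (nat_lit 0) (XT.nd (nat_lit 94) (nat_lit 0) (nat_lit 0) (XT.lf (nat_lit 0) (nat_lit 1037400252) (nat_lit 672) (nat_lit 11003043793) (nat_lit 84) (nat_lit 11187403147) (nat_lit 79) (nat_lit 5) (nat_lit 87) (nat_lit 5) (nat_lit 80) (nat_lit 5) (nat_lit 353) (nat_lit 331) (nat_lit 177)) (XT.lf (nat_lit 0) (nat_lit 2331494162) (nat_lit 672) (nat_lit 2795279230) (nat_lit 84) (nat_lit 18537566188) (nat_lit 79) (nat_lit 5) (nat_lit 87) (nat_lit 5) (nat_lit 80) (nat_lit 5) (nat_lit 354) (nat_lit 331) (nat_lit 176))) (XT.nd (nat_lit 94) (nat_lit 0) (nat_lit 0) (XT.lf (nat_lit 0) (nat_lit 3738944171) (nat_lit 588) (nat_lit 18353894811) (nat_lit 84) (nat_lit 2019277047) (nat_lit 73) (nat_lit 5) (nat_lit 80)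 (nat_lit 5) (nat_lit 74) (nat_lit 5) (nat_lit 355) (nat_lit 331) (nat_lit 175)) (XT.lf (nat_lit 0) (nat_lit 5267500345) (nat_lit 588) (nat_lit 9993654394) (nat_lit 84) (nat_lit 9310239588) (nat_lit 73) (nat_lit 5) (nat_lit 80) (nat_lit 5) (nat_lit 74) (nat_lit 5) (nat_lit 356) (nat_lit 331) (nat_lit 174))))))))
noncomputable def xc182 : XT := (XT.nd (nat_lit 2256) (nat_lit 1596) (nat_lit 0) (XT.nd (nat_lit 1128) (nat_lit 1344) (nat_lit 0) (XT.nd (nat_lit 564) (nat_lit 840) (nat_lit 0) (XT.nd (nat_lit 282) (nat_lit 420) (nat_lit 0) (XT.nd (nat_lit 94) (nat_lit 504) (nat_lit 0) (XT.lf (nat_lit 0) (nat_lit 6839140102) (nat_lit 588) (nat_lit 1378311240) (nat_lit 84) (nat_lit 16827614099) (nat_lit 73) (nat_lit 5) (nat_lit 80) (nat_lit 5) (nat_lit 74) (nat_lit 5) (nat_lit 357) (nat_lit 331) (nat_lit 173)) (XT.nd (nat_lit 94) (nat_lit 0) (nat_lit 0) (XT.lf (nat_lit 0) (nat_lit 7654383829)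 (nat_lit 504) (nat_lit 876876979) (nat_lit 588) (nat_lit 16999956164) (nat_lit 67) (nat_lit 5) (nat_lit 73) (nat_lit 5) (nat_lit 74) (nat_lit 5) (nat_lit 358) (nat_lit 331) (nat_lit 172)) (XT.lf (nat_lit 0) (nat_lit 10352665460) (nat_lit 588) (nat_lit 9106258111) (nat_lit 84) (nat_lit 6571154500) (nat_lit 67) (nat_lit 5) (nat_lit 74) (nat_lit 5) (nat_lit 68) (nat_lit 5) (nat_lit 359) (nat_lit 331) (nat_lit 171)))) (XT.nd (nat_lit 94) (nat_lit 420) (nat_lit 0) (XT.lf (nat_lit 0) (nat_lit 12235541070) (nat_lit 588) (nat_lit 76693412) (nat_lit 84) (nat_lit 14232034075) (nat_lit 67) (nat_lit 5) (nat_lit 74) (nat_lit 5) (nat_lit 68) (nat_lit 5) (nat_lit 360) (nat_lit 331) (nat_lit 170)) (XT.nd (nat_lit 94) (nat_lit 0) (nat_lit 0) (XT.lf (nat_lit 0) (nat_lit 9418742859) (nat_lit 420) (nat_lit 4847636186) (nat_lit 504) (nat_lit 12805261840) (nat_lit 62) (nat_lit 5) (nat_lit 67) (nat_lit 5)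 (nat_lit 68) (nat_lit 5) (nat_lit 361) (nat_lit 331) (nat_lit 169)) (XT.lf (nat_lit 0) (nat_lit 16385473959) (nat_lit 504) (nat_lit 8437346093) (nat_lit 84) (nat_lit 2791776117) (nat_lit 62) (nat_lit 5) (nat_lit 68) (nat_lit 5) (nat_lit 63) (nat_lit 5) (nat_lit 362) (nat_lit 331) (nat_lit 168))))) (XT.nd (nat_lit 282) (nat_lit 420) (nat_lit 0) (XT.nd (nat_lit 94) (nat_lit 0) (nat_lit 0) (XT.lf (nat_lit 0) (nat_lit 1031295505) (nat_lit 420) (nat_lit 17595125096) (nat_lit 504) (nat_lit 9546239692) (nat_lit 57) (nat_lit 5) (nat_lit 62) (nat_lit 5) (nat_lit 63) (nat_lit 5) (nat_lit 363) (nat_lit 331) (nat_lit 167)) (XT.nd (nat_lit 94) (nat_lit 0) (nat_lit 0) (XT.lf (nat_lit 0) (nat_lit 10968579839) (nat_lit 420) (nat_lit 10052747177) (nat_lit 504) (nat_lit 7724095820) (nat_lit 57) (nat_lit 5) (nat_lit 62) (nat_lit 5) (nat_lit 63) (nat_lit 5) (nat_lit 364) (nat_lit 331) (nat_lit 166)) (XT.lf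 (nat_lit 0) (nat_lit 21210280359) (nat_lit 420) (nat_lit 2276724597) (nat_lit 504) (nat_lit 5849060754) (nat_lit 57) (nat_lit 5) (nat_lit 62) (nat_lit 5) (nat_lit 63) (nat_lit 5) (nat_lit 365) (nat_lit 331) (nat_lit 165)))) (XT.nd (nat_lit 94) (nat_lit 84) (nat_lit 0) (XT.lf (nat_lit 0) (nat_lit 1800129133) (nat_lit 336) (nat_lit 24300424464) (nat_lit 420) (nat_lit 3842267030) (nat_lit 53) (nat_lit 5) (nat_lit 57) (nat_lit 5) (nat_lit 58) (nat_lit 5) (nat_lit 366) (nat_lit 331) (nat_lit 164)) (XT.nd (nat_lit 94) (nat_lit 84) (nat_lit 0) (XT.lf (nat_lit 0) (nat_lit 12178632451) (nat_lit 336) (nat_lit 16721053699) (nat_lit 420) (nat_lit 1665473406) (nat_lit 53) (nat_lit 5) (nat_lit 57) (nat_lit 5) (nat_lit 58) (nat_lit 5) (nat_lit 367) (nat_lit 331) (nat_lit 163)) (XT.lf (nat_lit 0) (nat_lit 563888095) (nat_lit 420) (nat_lit 8337249324) (nat_lit 84) (nat_lit 22305591502) (nat_lit 52)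 (nat_lit 5) (nat_lit 57) (nat_lit 5) (nat_lit 53) (nat_lit 5) (nat_lit 368) (nat_lit 331) (nat_lit 162)))))) (XT.nd (nat_lit 564) (nat_lit 588) (nat_lit 0) (XT.nd (nat_lit 282) (nat_lit 336) (nat_lit 0) (XT.nd (nat_lit 94) (nat_lit 0) (nat_lit 0) (XT.lf (nat_lit 0) (nat_lit 2044230782) (nat_lit 420) (nat_lit 800658823) (nat_lit 504) (nat_lit 29022253071) (nat_lit 47) (nat_lit 5) (nat_lit 52) (nat_lit 5) (nat_lit 53) (nat_lit 5) (nat_lit 369) (nat_lit 331) (nat_lit 161)) (XT.nd (nat_lit 94) (nat_lit 0) (nat_lit 0) (XT.lf (nat_lit 0) (nat_lit 5356325968) (nat_lit 504) (nat_lit 19700395233) (nat_lit 84) (nat_lit 7486370857) (nat_lit 47) (nat_lit 5) (nat_lit 53) (nat_lit 5) (nat_lit 48) (nat_lit 5) (nat_lit 370) (nat_lit 331) (nat_lit 160)) (XT.lf (nat_lit 0) (nat_lit 7950802581) (nat_lit 504) (nat_lit 9275712222) (nat_lit 84) (nat_lit 16013334125) (nat_lit 47) (nat_lit 5) (nat_lit 53)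 (nat_lit 5) (nat_lit 48) (nat_lit 5) (nat_lit 371) (nat_lit 331) (nat_lit 159)))) (XT.nd (nat_lit 94) (nat_lit 0) (nat_lit 0) (XT.lf (nat_lit 0) (nat_lit 1498998143) (nat_lit 336) (nat_lit 9138667236) (nat_lit 420) (nat_lit 23320182600) (nat_lit 43) (nat_lit 5) (nat_lit 47) (nat_lit 5) (nat_lit 48) (nat_lit 5) (nat_lit 372) (nat_lit 331) (nat_lit 158)) (XT.nd (nat_lit 94) (nat_lit 0) (nat_lit 0) (XT.lf (nat_lit 0) (nat_lit 12801059271) (nat_lit 336) (nat_lit 700723020) (nat_lit 420) (nat_lit 21193422901) (nat_lit 43) (nat_lit 5) (nat_lit 47) (nat_lit 5) (nat_lit 48) (nat_lit 5) (nat_lit 373) (nat_lit 331) (nat_lit 157)) (XT.lf (nat_lit 0) (nat_lit 16531259475) (nat_lit 420) (nat_lit 11084585575) (nat_lit 84) (nat_lit 7837214281) (nat_lit 43) (nat_lit 5) (nat_lit 48) (nat_lit 5) (nat_lit 44) (nat_lit 5) (nat_lit 374) (nat_lit 331) (nat_lit 156))))) (XT.nd (nat_lit 282) (nat_lit 252)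 (nat_lit 0) (XT.nd (nat_lit 94) (nat_lit 0) (nat_lit 0) (XT.lf (nat_lit 0) (nat_lit 50725300) (nat_lit 336) (nat_lit 19608902166) (nat_lit 420) (nat_lit 16574637418) (nat_lit 39) (nat_lit 5) (nat_lit 43) (nat_lit 5) (nat_lit 44) (nat_lit 5) (nat_lit 375) (nat_lit 331) (nat_lit 155)) (XT.nd (nat_lit 94) (nat_lit 0) (nat_lit 0) (XT.lf (nat_lit 0) (nat_lit 11763049515) (nat_lit 336) (nat_lit 11234982294) (nat_lit 420) (nat_lit 14038163094) (nat_lit 39) (nat_lit 5) (nat_lit 43) (nat_lit 5) (nat_lit 44) (nat_lit 5) (nat_lit 376) (nat_lit 331) (nat_lit 154)) (XT.lf (nat_lit 0) (nat_lit 23835382370) (nat_lit 336) (nat_lit 2601980402) (nat_lit 420) (nat_lit 11425712963) (nat_lit 39) (nat_lit 5) (nat_lit 43) (nat_lit 5) (nat_lit 44) (nat_lit 5) (nat_lit 377) (nat_lit 331) (nat_lit 153)))) (XT.nd (nat_lit 94) (nat_lit 252) (nat_lit 0) (XT.lf (nat_lit 0) (nat_lit 30043304603) (nat_lit 420) (nat_lit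 2499180006) (nat_lit 84) (nat_lit 6171256678) (nat_lit 39) (nat_lit 5) (nat_lit 44) (nat_lit 5) (nat_lit 40) (nat_lit 5) (nat_lit 378) (nat_lit 331) (nat_lit 152)) (XT.nd (nat_lit 94) (nat_lit 0) (nat_lit 0) (XT.lf (nat_lit 0) (nat_lit 9549534764) (nat_lit 252) (nat_lit 24330423766) (nat_lit 336) (nat_lit 5707142995) (nat_lit 36) (nat_lit 5) (nat_lit 39) (nat_lit 5) (nat_lit 40) (nat_lit 5) (nat_lit 379) (nat_lit 331) (nat_lit 151)) (XT.lf (nat_lit 0) (nat_lit 22021798882) (nat_lit 252) (nat_lit 15837462840) (nat_lit 336) (nat_lit 2627549602) (nat_lit 36) (nat_lit 5) (nat_lit 39) (nat_lit 5) (nat_lit 40) (nat_lit 5) (nat_lit 380) (nat_lit 331) (nat_lit 150))))))) (XT.nd (nat_lit 1128) (nat_lit 672) (nat_lit 0) (XT.nd (nat_lit 564) (nat_lit 252) (nat_lit 0) (XT.nd (nat_lit 282) (nat_lit 252) (nat_lit 0) (XT.nd (nat_lit 94) (nat_lit 336) (nat_lit 0) (XT.lf (nat_lit 0) (nat_lit 534144576)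 (nat_lit 336) (nat_lit 6542051865) (nat_lit 84) (nat_lit 34338129585) (nat_lit 35) (nat_lit 5) (nat_lit 39) (nat_lit 5) (nat_lit 36) (nat_lit 5) (nat_lit 381) (nat_lit 331) (nat_lit 149)) (XT.nd (nat_lit 94) (nat_lit 0) (nat_lit 0) (XT.lf (nat_lit 0) (nat_lit 3815195904) (nat_lit 420) (nat_lit 36549862329) (nat_lit 84) (nat_lit 2002358268) (nat_lit 31) (nat_lit 5) (nat_lit 36) (nat_lit 5) (nat_lit 32) (nat_lit 5) (nat_lit 382) (nat_lit 331) (nat_lit 148)) (XT.lf (nat_lit 0) (nat_lit 7337086137) (nat_lit 420) (nat_lit 24724879123) (nat_lit 84) (nat_lit 11283783891) (nat_lit 31) (nat_lit 5) (nat_lit 36) (nat_lit 5) (nat_lit 32) (nat_lit 5) (nat_lit 383) (nat_lit 331) (nat_lit 147)))) (XT.nd (nat_lit 94) (nat_lit 252) (nat_lit 0) (XT.lf (nat_lit 0) (nat_lit 10965991500) (nat_lit 420) (nat_lit 12536103215) (nat_lit 84) (nat_lit 20852391477) (nat_lit 31) (nat_lit 5) (nat_lit 36) (nat_lit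 5) (nat_lit 32) (nat_lit 5) (nat_lit 384) (nat_lit 331) (nat_lit 146)) (XT.nd (nat_lit 94) (nat_lit 0) (nat_lit 0) (XT.lf (nat_lit 0) (nat_lit 28398784) (nat_lit 252) (nat_lit 14677177447) (nat_lit 336) (nat_lit 30688982904) (nat_lit 28) (nat_lit 5) (nat_lit 31) (nat_lit 5) (nat_lit 32) (nat_lit 5) (nat_lit 385) (nat_lit 331) (nat_lit 145)) (XT.lf (nat_lit 0) (nat_lit 13245488328) (nat_lit 252) (nat_lit 5444389151) (nat_lit 336) (nat_lit 27773012865) (nat_lit 28) (nat_lit 5) (nat_lit 31) (nat_lit 5) (nat_lit 32) (nat_lit 5) (nat_lit 386) (nat_lit 331) (nat_lit 144))))) (XT.nd (nat_lit 282) (nat_lit 0) (nat_lit 0) (XT.nd (nat_lit 94) (nat_lit 252) (nat_lit 0) (XT.lf (nat_lit 0) (nat_lit 22836107075) (nat_lit 336) (nat_lit 20735107730) (nat_lit 84) (nat_lit 3991942370) (nat_lit 28) (nat_lit 5) (nat_lit 32) (nat_lit 5) (nat_lit 29) (nat_lit 5) (nat_lit 387) (nat_lit 331) (nat_lit 143))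 (XT.nd (nat_lit 94) (nat_lit 252) (nat_lit 0) (XT.lf (nat_lit 0) (nat_lit 27164607706) (nat_lit 336) (nat_lit 7924120656) (nat_lit 84) (nat_lit 13607146013) (nat_lit 28) (nat_lit 5) (nat_lit 32) (nat_lit 5) (nat_lit 29) (nat_lit 5) (nat_lit 388) (nat_lit 331) (nat_lit 142)) (XT.lf (nat_lit 0) (nat_lit 5390108066) (nat_lit 252) (nat_lit 26288767448) (nat_lit 336) (nat_lit 18183238935) (nat_lit 25) (nat_lit 5) (nat_lit 28) (nat_lit 5) (nat_lit 29) (nat_lit 5) (nat_lit 389) (nat_lit 331) (nat_lit 141)))) (XT.nd (nat_lit 94) (nat_lit 0) (nat_lit 0) (XT.lf (nat_lit 0) (nat_lit 19282592746) (nat_lit 252) (nat_lit 17131349773) (nat_lit 336) (nat_lit 14648066383) (nat_lit 25) (nat_lit 5) (nat_lit 28) (nat_lit 5) (nat_lit 29) (nat_lit 5) (nat_lit 390) (nat_lit 331) (nat_lit 140)) (XT.nd (nat_lit 94) (nat_lit 0) (nat_lit 0) (XT.lf (nat_lit 0) (nat_lit 33603346459) (nat_lit 252) (nat_lit 7690651235)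 (nat_lit 336) (nat_lit 11005165430) (nat_lit 25) (nat_lit 5) (nat_lit 28) (nat_lit 5) (nat_lit 29) (nat_lit 5) (nat_lit 391) (nat_lit 331) (nat_lit 139)) (XT.lf (nat_lit 0) (nat_lit 46343847924) (nat_lit 336) (nat_lit 5229270786) (nat_lit 84) (nat_lit 2000983561) (nat_lit 25) (nat_lit 5) (nat_lit 29) (nat_lit 5) (nat_lit 26) (nat_lit 5) (nat_lit 392) (nat_lit 331) (nat_lit 138)))))) (XT.nd (nat_lit 564) (nat_lit 168) (nat_lit 0) (XT.nd (nat_lit 282) (nat_lit 252) (nat_lit 0) (XT.nd (nat_lit 94) (nat_lit 84) (nat_lit 0) (XT.lf (nat_lit 0) (nat_lit 8750065391) (nat_lit 168) (nat_lit 42963939176) (nat_lit 252) (nat_lit 3169490215) (nat_lit 23) (nat_lit 5) (nat_lit 25) (nat_lit 5) (nat_lit 26) (nat_lit 5) (nat_lit 393) (nat_lit 331) (nat_lit 137)) (XT.nd (nat_lit 94) (nat_lit 0) (nat_lit 0) (XT.lf (nat_lit 0) (nat_lit 1050112108) (nat_lit 252) (nat_lit 32971143734) (nat_lit 84) (nat_lit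 22210259371) (nat_lit 22) (nat_lit 5) (nat_lit 25) (nat_lit 5) (nat_lit 23) (nat_lit 5) (nat_lit 394) (nat_lit 331) (nat_lit 136)) (XT.lf (nat_lit 0) (nat_lit 5333042094) (nat_lit 252) (nat_lit 19435501206) (nat_lit 84) (nat_lit 32851833223) (nat_lit 22) (nat_lit 5) (nat_lit 25) (nat_lit 5) (nat_lit 23) (nat_lit 5) (nat_lit 395) (nat_lit 331) (nat_lit 135)))) (XT.nd (nat_lit 94) (nat_lit 252) (nat_lit 0) (XT.lf (nat_lit 0) (nat_lit 9747150044) (nat_lit 252) (nat_lit 5482443436) (nat_lit 84) (nat_lit 43822754490) (nat_lit 22) (nat_lit 5) (nat_lit 25) (nat_lit 5) (nat_lit 23) (nat_lit 5) (nat_lit 396) (nat_lit 331) (nat_lit 134)) (XT.nd (nat_lit 94) (nat_lit 0) (nat_lit 0) (XT.lf (nat_lit 0) (nat_lit 9084058827) (nat_lit 252) (nat_lit 5302606531) (nat_lit 336) (nat_lit 46139305378) (nat_lit 19) (nat_lit 5) (nat_lit 22) (nat_lit 5) (nat_lit 23) (nat_lit 5) (nat_lit 397) (nat_lit 331)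 (nat_lit 133)) (XT.lf (nat_lit 0) (nat_lit 19275218452) (nat_lit 336) (nat_lit 37876816084) (nat_lit 84) (nat_lit 4889985375) (nat_lit 19) (nat_lit 5) (nat_lit 23) (nat_lit 5) (nat_lit 20) (nat_lit 5) (nat_lit 398) (nat_lit 331) (nat_lit 132))))) (XT.nd (nat_lit 282) (nat_lit 0) (nat_lit 0) (XT.nd (nat_lit 94) (nat_lit 168) (nat_lit 0) (XT.lf (nat_lit 0) (nat_lit 24368070585) (nat_lit 336) (nat_lit 23947520203) (nat_lit 84) (nat_lit 15287845978) (nat_lit 19) (nat_lit 5) (nat_lit 23) (nat_lit 5) (nat_lit 20) (nat_lit 5) (nat_lit 399) (nat_lit 331) (nat_lit 131)) (XT.nd (nat_lit 94) (nat_lit 168) (nat_lit 0) (XT.lf (nat_lit 0) (nat_lit 29617366317) (nat_lit 336) (nat_lit 9588438192) (nat_lit 84) (nat_lit 26007502876) (nat_lit 19) (nat_lit 5) (nat_lit 23) (nat_lit 5) (nat_lit 20) (nat_lit 5) (nat_lit 400) (nat_lit 331) (nat_lit 130)) (XT.lf (nat_lit 0) (nat_lit 5321020829) (nat_lit 168)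 (nat_lit 29759762897) (nat_lit 252) (nat_lit 31790712268) (nat_lit 17) (nat_lit 5) (nat_lit 19) (nat_lit 5) (nat_lit 20) (nat_lit 5) (nat_lit 401) (nat_lit 331) (nat_lit 129)))) (XT.nd (nat_lit 188) (nat_lit 0) (nat_lit 0) (XT.nd (nat_lit 94) (nat_lit 0) (nat_lit 0) (XT.lf (nat_lit 0) (nat_lit 20894001544) (nat_lit 168) (nat_lit 19918280071) (nat_lit 252) (nat_lit 27765751728) (nat_lit 17) (nat_lit 5) (nat_lit 19) (nat_lit 5) (nat_lit 20) (nat_lit 5) (nat_lit 402) (nat_lit 331) (nat_lit 128)) (XT.lf (nat_lit 0) (nat_lit 36947861647) (nat_lit 168) (nat_lit 9772266367) (nat_lit 252) (nat_lit 23617391392) (nat_lit 17) (nat_lit 5) (nat_lit 19) (nat_lit 5) (nat_lit 20) (nat_lit 5) (nat_lit 403) (nat_lit 331) (nat_lit 127))) (XT.nd (nat_lit 94) (nat_lit 0) (nat_lit 0) (XT.lf (nat_lit 0) (nat_lit 52816652076) (nat_lit 252) (nat_lit 18660851614) (nat_lit 84) (nat_lit 673879026) (nat_lit 17)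 (nat_lit 5) (nat_lit 20) (nat_lit 5) (nat_lit 18) (nat_lit 5) (nat_lit 404) (nat_lit 331) (nat_lit 126)) (XT.lf (nat_lit 0) (nat_lit 59200861232) (nat_lit 252) (nat_lit 3577209404) (nat_lit 84) (nat_lit 11240350277) (nat_lit 17) (nat_lit 5) (nat_lit 20) (nat_lit 5) (nat_lit 18) (nat_lit 5) (nat_lit 405) (nat_lit 331) (nat_lit 125))))))))
noncomputable def xc183 : XT := (XT.nd (nat_lit 48692) (nat_lit 0) (nat_lit 2604) (XT.nd (nat_lit 47564) (nat_lit 0) (nat_lit 6972) (XT.nd (nat_lit 564) (nat_lit 0) (nat_lit 0) (XT.nd (nat_lit 282) (nat_lit 168) (nat_lit 0) (XT.nd (nat_lit 94) (nat_lit 84) (nat_lit 0) (XT.lf (nat_lit 0) (nat_lit 12218444932) (nat_lit 168) (nat_lit 53684527695) (nat_lit 252) (nat_lit 10036649386) (nat_lit 15) (nat_lit 5) (nat_lit 17) (nat_lit 5) (nat_lit 18) (nat_lit 5) (nat_lit 406) (nat_lit 331) (nat_lit 124)) (XT.nd (nat_lit 94) (nat_lit 84) (nat_lit 0) (XT.lf (nat_lit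 0) (nat_lit 28577862066) (nat_lit 168) (nat_lit 44271128757) (nat_lit 252) (nat_lit 5070273471) (nat_lit 15) (nat_lit 5) (nat_lit 17) (nat_lit 5) (nat_lit 18) (nat_lit 5) (nat_lit 407) (nat_lit 331) (nat_lit 123)) (XT.lf (nat_lit 0) (nat_lit 47874125) (nat_lit 252) (nat_lit 34518064447) (nat_lit 84) (nat_lit 45394362092) (nat_lit 14) (nat_lit 5) (nat_lit 17) (nat_lit 5) (nat_lit 15) (nat_lit 5) (nat_lit 408) (nat_lit 331) (nat_lit 122)))) (XT.nd (nat_lit 94) (nat_lit 168) (nat_lit 0) (XT.lf (nat_lit 0) (nat_lit 5218220819) (nat_lit 252) (nat_lit 19288722132) (nat_lit 84) (nat_lit 57556097996) (nat_lit 14) (nat_lit 5) (nat_lit 17) (nat_lit 5) (nat_lit 15) (nat_lit 5) (nat_lit 409) (nat_lit 331) (nat_lit 121)) (XT.nd (nat_lit 94) (nat_lit 168) (nat_lit 0) (XT.lf (nat_lit 0) (nat_lit 10547740626) (nat_lit 252) (nat_lit 3588882200) (nat_lit 84) (nat_lit 70094381520) (nat_lit 14) (nat_lit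 5) (nat_lit 17) (nat_lit 5) (nat_lit 15) (nat_lit 5) (nat_lit 410) (nat_lit 331) (nat_lit 120)) (XT.lf (nat_lit 0) (nat_lit 12855090670) (nat_lit 168) (nat_lit 3313834638) (nat_lit 252) (nat_lit 70293333078) (nat_lit 12) (nat_lit 5) (nat_lit 14) (nat_lit 5) (nat_lit 15) (nat_lit 5) (nat_lit 411) (nat_lit 331) (nat_lit 119))))) (XT.nd (nat_lit 46718) (nat_lit 0) (nat_lit 6888) (XT.nd (nat_lit 46530) (nat_lit 0) (nat_lit 6804) (XT.lf (nat_lit 0) (nat_lit 22078966189) (nat_lit 252) (nat_lit 58956391270) (nat_lit 84) (nat_lit 7723774863) (nat_lit 12) (nat_lit 5) (nat_lit 15) (nat_lit 5) (nat_lit 13) (nat_lit 5) (nat_lit 412) (nat_lit 331) (nat_lit 118)) (XT.nd (nat_lit 94) (nat_lit 0) (nat_lit 0) (XT.lf (nat_lit 0) (nat_lit 2559659953) (nat_lit 1092) (nat_lit 2864257175) (nat_lit 1092) (nat_lit 2864257175) (nat_lit 93) (nat_lit 3) (nat_lit 106) (nat_lit 3) (nat_lit 106) (nat_lit 5) (nat_lit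 332) (nat_lit 332) (nat_lit 197)) (XT.lf (nat_lit 84) (nat_lit 63235176) (nat_lit 0) (nat_lit 5333321597) (nat_lit 1092) (nat_lit 11429497143) (nat_lit 94) (nat_lit 5) (nat_lit 93) (nat_lit 3) (nat_lit 106) (nat_lit 5) (nat_lit 333) (nat_lit 332) (nat_lit 196)))) (XT.nd (nat_lit 94) (nat_lit 0) (nat_lit 0) (XT.lf (nat_lit 0) (nat_lit 5738333907) (nat_lit 1008) (nat_lit 10934314500) (nat_lit 1092) (nat_lit 409161424) (nat_lit 94) (nat_lit 5) (nat_lit 106) (nat_lit 5) (nat_lit 107) (nat_lit 5) (nat_lit 334) (nat_lit 332) (nat_lit 195)) (XT.nd (nat_lit 94) (nat_lit 0) (nat_lit 0) (XT.lf (nat_lit 0) (nat_lit 6137539739) (nat_lit 1008) (nat_lit 4984071270) (nat_lit 1092) (nat_lit 6222474070) (nat_lit 94) (nat_lit 5) (nat_lit 106) (nat_lit 5) (nat_lit 107) (nat_lit 5) (nat_lit 335) (nat_lit 332) (nat_lit 194)) (XT.lf (nat_lit 84) (nat_lit 1169936012) (nat_lit 0) (nat_lit 5383309058) (nat_lit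 1092) (nat_lit 11061159397) (nat_lit 95) (nat_lit 5) (nat_lit 94) (nat_lit 5) (nat_lit 107) (nat_lit 5) (nat_lit 336) (nat_lit 332) (nat_lit 193)))))) (XT.nd (nat_lit 564) (nat_lit 0) (nat_lit 168) (XT.nd (nat_lit 282) (nat_lit 0) (nat_lit 84) (XT.nd (nat_lit 94) (nat_lit 0) (nat_lit 0) (XT.lf (nat_lit 0) (nat_lit 7032410877) (nat_lit 1008) (nat_lit 10281451036) (nat_lit 1092) (nat_lit 577714272) (nat_lit 95) (nat_lit 5) (nat_lit 107) (nat_lit 5) (nat_lit 108) (nat_lit 5) (nat_lit 337) (nat_lit 332) (nat_lit 192)) (XT.nd (nat_lit 94) (nat_lit 0) (nat_lit 0) (XT.lf (nat_lit 0) (nat_lit 7574439763) (nat_lit 1008) (nat_lit 3986821693) (nat_lit 1092) (nat_lit 6614629494) (nat_lit 95) (nat_lit 5) (nat_lit 107) (nat_lit 5) (nat_lit 108) (nat_lit 5) (nat_lit 338) (nat_lit 332) (nat_lit 191)) (XT.lf (nat_lit 84) (nat_lit 2550068107) (nat_lit 0) (nat_lit 5601662747) (nat_lit 1092) (nat_lit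 10316754209) (nat_lit 96) (nat_lit 5) (nat_lit 95) (nat_lit 5) (nat_lit 108) (nat_lit 5) (nat_lit 339) (nat_lit 332) (nat_lit 190)))) (XT.nd (nat_lit 94) (nat_lit 0) (nat_lit 0) (XT.lf (nat_lit 0) (nat_lit 8787691941) (nat_lit 1008) (nat_lit 9405024878) (nat_lit 1092) (nat_lit 576205471) (nat_lit 96) (nat_lit 5) (nat_lit 108) (nat_lit 5) (nat_lit 109) (nat_lit 5) (nat_lit 340) (nat_lit 332) (nat_lit 189)) (XT.nd (nat_lit 94) (nat_lit 0) (nat_lit 0) (XT.lf (nat_lit 0) (nat_lit 9494210214) (nat_lit 1008) (nat_lit 2751351127) (nat_lit 1092) (nat_lit 6831571204) (nat_lit 96) (nat_lit 5) (nat_lit 108) (nat_lit 5) (nat_lit 109) (nat_lit 5) (nat_lit 341) (nat_lit 332) (nat_lit 188)) (XT.lf (nat_lit 84) (nat_lit 4188769781) (nat_lit 0) (nat_lit 6069158368) (nat_lit 1092) (nat_lit 9135909462) (nat_lit 97) (nat_lit 5) (nat_lit 96) (nat_lit 5) (nat_lit 109) (nat_lit 5) (nat_lit 342) (nat_lit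 332) (nat_lit 187))))) (XT.nd (nat_lit 282) (nat_lit 0) (nat_lit 0) (XT.nd (nat_lit 94) (nat_lit 0) (nat_lit 0) (XT.lf (nat_lit 0) (nat_lit 11071207264) (nat_lit 1008) (nat_lit 8324776189) (nat_lit 1092) (nat_lit 323608097) (nat_lit 97) (nat_lit 5) (nat_lit 109) (nat_lit 5) (nat_lit 110) (nat_lit 5) (nat_lit 343) (nat_lit 332) (nat_lit 186)) (XT.nd (nat_lit 94) (nat_lit 0) (nat_lit 0) (XT.lf (nat_lit 0) (nat_lit 11965864811) (nat_lit 1008) (nat_lit 1297546674) (nat_lit 1092) (nat_lit 6790323678) (nat_lit 97) (nat_lit 5) (nat_lit 109) (nat_lit 5) (nat_lit 110) (nat_lit 5) (nat_lit 344) (nat_lit 332) (nat_lit 185)) (XT.lf (nat_lit 84) (nat_lit 6065585663) (nat_lit 0) (nat_lit 6877113600) (nat_lit 1092) (nat_lit 7453881744) (nat_lit 98) (nat_lit 5) (nat_lit 97) (nat_lit 5) (nat_lit 110) (nat_lit 5) (nat_lit 345) (nat_lit 332) (nat_lit 184)))) (XT.nd (nat_lit 94) (nat_lit 0) (nat_lit 84)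 (XT.lf (nat_lit 84) (nat_lit 13680375095) (nat_lit 0) (nat_lit 277386885) (nat_lit 1092) (nat_lit 6792077305) (nat_lit 98) (nat_lit 5) (nat_lit 97) (nat_lit 5) (nat_lit 110) (nat_lit 5) (nat_lit 346) (nat_lit 332) (nat_lit 183)) (XT.nd (nat_lit 94) (nat_lit 0) (nat_lit 0) (XT.lf (nat_lit 84) (nat_lit 355390707) (nat_lit 0) (nat_lit 14711759728) (nat_lit 1092) (nat_lit 6044979142) (nat_lit 99) (nat_lit 5) (nat_lit 98) (nat_lit 5) (nat_lit 111) (nat_lit 5) (nat_lit 347) (nat_lit 332) (nat_lit 182)) (XT.lf (nat_lit 84) (nat_lit 8153236078) (nat_lit 0) (nat_lit 8128999764) (nat_lit 1092) (nat_lit 5201233283) (nat_lit 99) (nat_lit 5) (nat_lit 98) (nat_lit 5) (nat_lit 111) (nat_lit 5) (nat_lit 348) (nat_lit 332) (nat_lit 181))))))) (XT.nd (nat_lit 1128) (nat_lit 2016) (nat_lit 0) (XT.nd (nat_lit 564) (nat_lit 1008) (nat_lit 0) (XT.nd (nat_lit 282) (nat_lit 672) (nat_lit 0) (XT.nd (nat_lit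 94) (nat_lit 924) (nat_lit 0) (XT.lf (nat_lit 84) (nat_lit 16188785941) (nat_lit 0) (nat_lit 1341069018) (nat_lit 1092) (nat_lit 4336652267) (nat_lit 99) (nat_lit 5) (nat_lit 98) (nat_lit 5) (nat_lit 111) (nat_lit 5) (nat_lit 349) (nat_lit 332) (nat_lit 180)) (XT.nd (nat_lit 94) (nat_lit 0) (nat_lit 0) (XT.lf (nat_lit 0) (nat_lit 2196043102) (nat_lit 1008) (nat_lit 16693044244) (nat_lit 1092) (nat_lit 3370098152) (nat_lit 87) (nat_lit 5) (nat_lit 99) (nat_lit 5) (nat_lit 100) (nat_lit 5) (nat_lit 350) (nat_lit 332) (nat_lit 179)) (XT.lf (nat_lit 0) (nat_lit 10416202771) (nat_lit 1008) (nat_lit 9942234262) (nat_lit 1092) (nat_lit 2303518574) (nat_lit 87) (nat_lit 5) (nat_lit 99) (nat_lit 5) (nat_lit 100) (nat_lit 5) (nat_lit 351) (nat_lit 332) (nat_lit 178)))) (XT.nd (nat_lit 94) (nat_lit 672) (nat_lit 0) (XT.lf (nat_lit 0) (nat_lit 18887251296) (nat_lit 1008) (nat_lit 2981371601) (nat_lit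 1092) (nat_lit 1208760252) (nat_lit 87) (nat_lit 5) (nat_lit 99) (nat_lit 5) (nat_lit 100) (nat_lit 5) (nat_lit 352) (nat_lit 332) (nat_lit 177)) (XT.nd (nat_lit 94) (nat_lit 0) (nat_lit 0) (XT.lf (nat_lit 0) (nat_lit 579188) (nat_lit 672) (nat_lit 19350010116) (nat_lit 84) (nat_lit 4152698248) (nat_lit 79) (nat_lit 5) (nat_lit 87) (nat_lit 5) (nat_lit 80) (nat_lit 5) (nat_lit 353) (nat_lit 332) (nat_lit 176)) (XT.lf (nat_lit 0) (nat_lit 1292439945) (nat_lit 672) (nat_lit 11144248353) (nat_lit 84) (nat_lit 11503172299) (nat_lit 79) (nat_lit 5) (nat_lit 87) (nat_lit 5) (nat_lit 80) (nat_lit 5) (nat_lit 354) (nat_lit 332) (nat_lit 175))))) (XT.nd (nat_lit 282) (nat_lit 504) (nat_lit 0) (XT.nd (nat_lit 94) (nat_lit 504) (nat_lit 0) (XT.lf (nat_lit 0) (nat_lit 2619949225) (nat_lit 672) (nat_lit 2688053354) (nat_lit 84) (nat_lit 19082123712) (nat_lit 79) (nat_lit 5) (nat_lit 87) (nat_lit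 5) (nat_lit 80) (nat_lit 5) (nat_lit 355) (nat_lit 332) (nat_lit 174)) (XT.nd (nat_lit 94) (nat_lit 0) (nat_lit 0) (XT.lf (nat_lit 0) (nat_lit 4066238894) (nat_lit 588) (nat_lit 18723121716) (nat_lit 84) (nat_lit 2062604994) (nat_lit 73) (nat_lit 5) (nat_lit 80) (nat_lit 5) (nat_lit 74) (nat_lit 5) (nat_lit 356) (nat_lit 332) (nat_lit 173)) (XT.lf (nat_lit 0) (nat_lit 5635824334) (nat_lit 588) (nat_lit 10109719723) (nat_lit 84) (nat_lit 9580166771) (nat_lit 73) (nat_lit 5) (nat_lit 80) (nat_lit 5) (nat_lit 74) (nat_lit 5) (nat_lit 357) (nat_lit 332) (nat_lit 172)))) (XT.nd (nat_lit 94) (nat_lit 504) (nat_lit 0) (XT.lf (nat_lit 0) (nat_lit 7250020058) (nat_lit 588) (nat_lit 1233126223) (nat_lit 84) (nat_lit 17331141868) (nat_lit 73) (nat_lit 5) (nat_lit 80) (nat_lit 5) (nat_lit 74) (nat_lit 5) (nat_lit 358) (nat_lit 332) (nat_lit 171)) (XT.nd (nat_lit 94) (nat_lit 0) (nat_lit 0) (XT.lf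 (nat_lit 0) (nat_lit 8077679946) (nat_lit 504) (nat_lit 912782305) (nat_lit 588) (nat_lit 17325206643) (nat_lit 67) (nat_lit 5) (nat_lit 73) (nat_lit 5) (nat_lit 74) (nat_lit 5) (nat_lit 359) (nat_lit 332) (nat_lit 170)) (XT.lf (nat_lit 0) (nat_lit 10862391331) (nat_lit 588) (nat_lit 9201246052) (nat_lit 84) (nat_lit 6766570855) (nat_lit 67) (nat_lit 5) (nat_lit 74) (nat_lit 5) (nat_lit 68) (nat_lit 5) (nat_lit 360) (nat_lit 332) (nat_lit 169)))))) (XT.nd (nat_lit 564) (nat_lit 1176) (nat_lit 0) (XT.nd (nat_lit 282) (nat_lit 420) (nat_lit 0) (XT.nd (nat_lit 94) (nat_lit 0) (nat_lit 0) (XT.lf (nat_lit 0) (nat_lit 104712986) (nat_lit 420) (nat_lit 12694285249) (nat_lit 504) (nat_lit 14561512721) (nat_lit 62) (nat_lit 5) (nat_lit 67) (nat_lit 5) (nat_lit 68) (nat_lit 5) (nat_lit 361) (nat_lit 332) (nat_lit 168)) (XT.nd (nat_lit 94) (nat_lit 0) (nat_lit 0) (XT.lf (nat_lit 0) (nat_lit 9890558762)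 (nat_lit 420) (nat_lit 4997472712) (nat_lit 504) (nat_lit 13016375630) (nat_lit 62) (nat_lit 5) (nat_lit 67) (nat_lit 5) (nat_lit 68) (nat_lit 5) (nat_lit 362) (nat_lit 332) (nat_lit 167)) (XT.lf (nat_lit 0) (nat_lit 17067428545) (nat_lit 504) (nat_lit 8518219868) (nat_lit 84) (nat_lit 2878739534) (nat_lit 62) (nat_lit 5) (nat_lit 68) (nat_lit 5) (nat_lit 63) (nat_lit 5) (nat_lit 363) (nat_lit 332) (nat_lit 166)))) (XT.nd (nat_lit 94) (nat_lit 0) (nat_lit 0) (XT.lf (nat_lit 0) (nat_lit 1242120356) (nat_lit 420) (nat_lit 18132266477) (nat_lit 504) (nat_lit 9665498471) (nat_lit 57) (nat_lit 5) (nat_lit 62) (nat_lit 5) (nat_lit 63) (nat_lit 5) (nat_lit 364) (nat_lit 332) (nat_lit 165)) (XT.nd (nat_lit 94) (nat_lit 0) (nat_lit 0) (XT.lf (nat_lit 0) (nat_lit 11482082721) (nat_lit 420) (nat_lit 10356324632) (nat_lit 504) (nat_lit 7792180374) (nat_lit 57) (nat_lit 5) (nat_lit 62) (nat_lit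 5) (nat_lit 63) (nat_lit 5) (nat_lit 365) (nat_lit 332) (nat_lit 164)) (XT.lf (nat_lit 0) (nat_lit 22036059871) (nat_lit 420) (nat_lit 2339487630) (nat_lit 504) (nat_lit 5864171728) (nat_lit 57) (nat_lit 5) (nat_lit 62) (nat_lit 5) (nat_lit 63) (nat_lit 5) (nat_lit 366) (nat_lit 332) (nat_lit 163))))) (XT.nd (nat_lit 282) (nat_lit 756) (nat_lit 0) (XT.nd (nat_lit 94) (nat_lit 84) (nat_lit 0) (XT.lf (nat_lit 0) (nat_lit 2028119880) (nat_lit 336) (nat_lit 25038955328) (nat_lit 420) (nat_lit 3798326385) (nat_lit 53) (nat_lit 5) (nat_lit 57) (nat_lit 5) (nat_lit 58) (nat_lit 5) (nat_lit 367) (nat_lit 332) (nat_lit 162)) (XT.nd (nat_lit 94) (nat_lit 84) (nat_lit 0) (XT.lf (nat_lit 0) (nat_lit 12723179507) (nat_lit 336) (nat_lit 17225068542) (nat_lit 420) (nat_lit 1558954757) (nat_lit 53) (nat_lit 5) (nat_lit 57) (nat_lit 5) (nat_lit 58) (nat_lit 5) (nat_lit 368) (nat_lit 332) (nat_lit 161))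 (XT.lf (nat_lit 0) (nat_lit 731671233) (nat_lit 420) (nat_lit 8429925881) (nat_lit 84) (nat_lit 23007181208) (nat_lit 52) (nat_lit 5) (nat_lit 57) (nat_lit 5) (nat_lit 53) (nat_lit 5) (nat_lit 369) (nat_lit 332) (nat_lit 160)))) (XT.nd (nat_lit 188) (nat_lit 336) (nat_lit 0) (XT.nd (nat_lit 94) (nat_lit 0) (nat_lit 0) (XT.lf (nat_lit 0) (nat_lit 2271701753) (nat_lit 420) (nat_lit 808790644) (nat_lit 504) (nat_lit 29769283180) (nat_lit 47) (nat_lit 5) (nat_lit 52) (nat_lit 5) (nat_lit 53) (nat_lit 5) (nat_lit 370) (nat_lit 332) (nat_lit 159)) (XT.lf (nat_lit 0) (nat_lit 5665511519) (nat_lit 504) (nat_lit 20147011671) (nat_lit 84) (nat_lit 7734309036) (nat_lit 47) (nat_lit 5) (nat_lit 53) (nat_lit 5) (nat_lit 48) (nat_lit 5) (nat_lit 371) (nat_lit 332) (nat_lit 158))) (XT.nd (nat_lit 94) (nat_lit 336) (nat_lit 0) (XT.lf (nat_lit 0) (nat_lit 8336113004) (nat_lit 504) (nat_lit 9404097502)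 (nat_lit 84) (nat_lit 16525131269) (nat_lit 47) (nat_lit 5) (nat_lit 53) (nat_lit 5) (nat_lit 48) (nat_lit 5) (nat_lit 372) (nat_lit 332) (nat_lit 157)) (XT.lf (nat_lit 0) (nat_lit 1703017514) (nat_lit 336) (nat_lit 9400639462) (nat_lit 420) (nat_lit 23902041979) (nat_lit 43) (nat_lit 5) (nat_lit 47) (nat_lit 5) (nat_lit 48) (nat_lit 5) (nat_lit 373) (nat_lit 332) (nat_lit 156))))))))
noncomputable def xc184 : XT := (XT.nd (nat_lit 2256) (nat_lit 840) (nat_lit 0) (XT.nd (nat_lit 1128) (nat_lit 756) (nat_lit 0) (XT.nd (nat_lit 564) (nat_lit 672) (nat_lit 0) (XT.nd (nat_lit 282) (nat_lit 0) (nat_lit 0) (XT.nd (nat_lit 94) (nat_lit 336) (nat_lit 0) (XT.lf (nat_lit 0) (nat_lit 13350705327) (nat_lit 336) (nat_lit 701760217) (nat_lit 420) (nat_lit 21713594296) (nat_lit 43) (nat_lit 5) (nat_lit 47) (nat_lit 5) (nat_lit 48) (nat_lit 5) (nat_lit 374) (nat_lit 332) (nat_lit 155)) (XT.nd (nat_lit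 94) (nat_lit 336) (nat_lit 0) (XT.lf (nat_lit 0) (nat_lit 17172082740) (nat_lit 420) (nat_lit 11275632819) (nat_lit 84) (nat_lit 8099826949) (nat_lit 43) (nat_lit 5) (nat_lit 48) (nat_lit 5) (nat_lit 44) (nat_lit 5) (nat_lit 375) (nat_lit 332) (nat_lit 154)) (XT.lf (nat_lit 0) (nat_lit 203328009) (nat_lit 336) (nat_lit 20191741027) (nat_lit 420) (nat_lit 16957987112) (nat_lit 39) (nat_lit 5) (nat_lit 43) (nat_lit 5) (nat_lit 44) (nat_lit 5) (nat_lit 376) (nat_lit 332) (nat_lit 153)))) (XT.nd (nat_lit 94) (nat_lit 0) (nat_lit 0) (XT.lf (nat_lit 0) (nat_lit 12274193114) (nat_lit 336) (nat_lit 11558982452) (nat_lit 420) (nat_lit 14346804863) (nat_lit 39) (nat_lit 5) (nat_lit 43) (nat_lit 5) (nat_lit 44) (nat_lit 5) (nat_lit 377) (nat_lit 332) (nat_lit 152)) (XT.nd (nat_lit 94) (nat_lit 0) (nat_lit 0) (XT.lf (nat_lit 0) (nat_lit 24716363670) (nat_lit 336) (nat_lit 2659087678) (nat_lit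 420) (nat_lit 11657173608) (nat_lit 39) (nat_lit 5) (nat_lit 43) (nat_lit 5) (nat_lit 44) (nat_lit 5) (nat_lit 378) (nat_lit 332) (nat_lit 151)) (XT.lf (nat_lit 0) (nat_lit 31089840053) (nat_lit 420) (nat_lit 2434989298) (nat_lit 84) (nat_lit 6384951234) (nat_lit 39) (nat_lit 5) (nat_lit 44) (nat_lit 5) (nat_lit 40) (nat_lit 5) (nat_lit 379) (nat_lit 332) (nat_lit 150))))) (XT.nd (nat_lit 282) (nat_lit 336) (nat_lit 0) (XT.nd (nat_lit 94) (nat_lit 84) (nat_lit 0) (XT.lf (nat_lit 0) (nat_lit 9985801397) (nat_lit 252) (nat_lit 25057556353) (nat_lit 336) (nat_lit 5766936994) (nat_lit 36) (nat_lit 5) (nat_lit 39) (nat_lit 5) (nat_lit 40) (nat_lit 5) (nat_lit 380) (nat_lit 332) (nat_lit 149)) (XT.nd (nat_lit 94) (nat_lit 84) (nat_lit 0) (XT.lf (nat_lit 0) (nat_lit 22840489249) (nat_lit 252) (nat_lit 16302128796) (nat_lit 336) (nat_lit 2595397981) (nat_lit 36) (nat_lit 5) (nat_lit 39) (nat_lit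 5) (nat_lit 40) (nat_lit 5) (nat_lit 381) (nat_lit 332) (nat_lit 148)) (XT.lf (nat_lit 0) (nat_lit 658672755) (nat_lit 336) (nat_lit 6610254048) (nat_lit 84) (nat_lit 35425439852) (nat_lit 35) (nat_lit 5) (nat_lit 39) (nat_lit 5) (nat_lit 36) (nat_lit 5) (nat_lit 382) (nat_lit 332) (nat_lit 147)))) (XT.nd (nat_lit 94) (nat_lit 0) (nat_lit 0) (XT.lf (nat_lit 0) (nat_lit 4039781762) (nat_lit 420) (nat_lit 37546209030) (nat_lit 84) (nat_lit 2091077168) (nat_lit 31) (nat_lit 5) (nat_lit 36) (nat_lit 5) (nat_lit 32) (nat_lit 5) (nat_lit 383) (nat_lit 332) (nat_lit 146)) (XT.nd (nat_lit 94) (nat_lit 0) (nat_lit 0) (XT.lf (nat_lit 0) (nat_lit 7667653931) (nat_lit 420) (nat_lit 25358761597) (nat_lit 84) (nat_lit 11659425803) (nat_lit 31) (nat_lit 5) (nat_lit 36) (nat_lit 5) (nat_lit 32) (nat_lit 5) (nat_lit 384) (nat_lit 332) (nat_lit 145)) (XT.lf (nat_lit 0) (nat_lit 11405954815) (nat_lit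 420) (nat_lit 12796120301) (nat_lit 84) (nat_lit 21523883131) (nat_lit 31) (nat_lit 5) (nat_lit 36) (nat_lit 5) (nat_lit 32) (nat_lit 5) (nat_lit 385) (nat_lit 332) (nat_lit 144)))))) (XT.nd (nat_lit 564) (nat_lit 252) (nat_lit 0) (XT.nd (nat_lit 282) (nat_lit 252) (nat_lit 0) (XT.nd (nat_lit 94) (nat_lit 0) (nat_lit 0) (XT.lf (nat_lit 0) (nat_lit 156579278) (nat_lit 252) (nat_lit 15103142909) (nat_lit 336) (nat_lit 31538617866) (nat_lit 28) (nat_lit 5) (nat_lit 31) (nat_lit 5) (nat_lit 32) (nat_lit 5) (nat_lit 386) (nat_lit 332) (nat_lit 143)) (XT.nd (nat_lit 94) (nat_lit 0) (nat_lit 0) (XT.lf (nat_lit 0) (nat_lit 13779570952) (nat_lit 252) (nat_lit 5585010957) (nat_lit 336) (nat_lit 28535311367) (nat_lit 28) (nat_lit 5) (nat_lit 31) (nat_lit 5) (nat_lit 32) (nat_lit 5) (nat_lit 387) (nat_lit 332) (nat_lit 142)) (XT.lf (nat_lit 0) (nat_lit 23636749500) (nat_lit 336) (nat_lit 21255160997)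 (nat_lit 84) (nat_lit 4142450111) (nat_lit 28) (nat_lit 5) (nat_lit 32) (nat_lit 5) (nat_lit 29) (nat_lit 5) (nat_lit 388) (nat_lit 332) (nat_lit 141)))) (XT.nd (nat_lit 94) (nat_lit 252) (nat_lit 0) (XT.lf (nat_lit 0) (nat_lit 28096645662) (nat_lit 336) (nat_lit 8050723709) (nat_lit 84) (nat_lit 14054920525) (nat_lit 28) (nat_lit 5) (nat_lit 32) (nat_lit 5) (nat_lit 29) (nat_lit 5) (nat_lit 389) (nat_lit 332) (nat_lit 140)) (XT.nd (nat_lit 94) (nat_lit 0) (nat_lit 0) (XT.lf (nat_lit 0) (nat_lit 5675040883) (nat_lit 252) (nat_lit 27074279711) (nat_lit 336) (nat_lit 18655421491) (nat_lit 25) (nat_lit 5) (nat_lit 28) (nat_lit 5) (nat_lit 29) (nat_lit 5) (nat_lit 390) (nat_lit 332) (nat_lit 139)) (XT.lf (nat_lit 0) (nat_lit 19994649403) (nat_lit 252) (nat_lit 17633867273) (nat_lit 336) (nat_lit 15013409737) (nat_lit 25) (nat_lit 5) (nat_lit 28) (nat_lit 5) (nat_lit 29) (nat_lit 5) (nat_lit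 391) (nat_lit 332) (nat_lit 138))))) (XT.nd (nat_lit 282) (nat_lit 84) (nat_lit 0) (XT.nd (nat_lit 94) (nat_lit 168) (nat_lit 0) (XT.lf (nat_lit 0) (nat_lit 34755909833) (nat_lit 252) (nat_lit 7901365649) (nat_lit 336) (nat_lit 11260247282) (nat_lit 25) (nat_lit 5) (nat_lit 28) (nat_lit 5) (nat_lit 29) (nat_lit 5) (nat_lit 392) (nat_lit 332) (nat_lit 137)) (XT.nd (nat_lit 94) (nat_lit 168) (nat_lit 0) (XT.lf (nat_lit 0) (nat_lit 47861436991) (nat_lit 336) (nat_lit 5281291561) (nat_lit 84) (nat_lit 2089335842) (nat_lit 25) (nat_lit 5) (nat_lit 29) (nat_lit 5) (nat_lit 26) (nat_lit 5) (nat_lit 393) (nat_lit 332) (nat_lit 136)) (XT.lf (nat_lit 0) (nat_lit 9130289510) (nat_lit 168) (nat_lit 44266426609) (nat_lit 252) (nat_lit 3185383687) (nat_lit 23) (nat_lit 5) (nat_lit 25) (nat_lit 5) (nat_lit 26) (nat_lit 5) (nat_lit 394) (nat_lit 332) (nat_lit 135)))) (XT.nd (nat_lit 94) (nat_lit 0)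 (nat_lit 0) (XT.lf (nat_lit 0) (nat_lit 1160940404) (nat_lit 252) (nat_lit 33885646495) (nat_lit 84) (nat_lit 22925381092) (nat_lit 22) (nat_lit 5) (nat_lit 25) (nat_lit 5) (nat_lit 23) (nat_lit 5) (nat_lit 395) (nat_lit 332) (nat_lit 134)) (XT.nd (nat_lit 94) (nat_lit 0) (nat_lit 0) (XT.lf (nat_lit 0) (nat_lit 5574287660) (nat_lit 252) (nat_lit 19933634435) (nat_lit 84) (nat_lit 33896043817) (nat_lit 22) (nat_lit 5) (nat_lit 25) (nat_lit 5) (nat_lit 23) (nat_lit 5) (nat_lit 396) (nat_lit 332) (nat_lit 133)) (XT.lf (nat_lit 0) (nat_lit 10122950165) (nat_lit 252) (nat_lit 5551169980) (nat_lit 84) (nat_lit 45206287778) (nat_lit 22) (nat_lit 5) (nat_lit 25) (nat_lit 5) (nat_lit 23) (nat_lit 5) (nat_lit 397) (nat_lit 332) (nat_lit 132))))))) (XT.nd (nat_lit 1128) (nat_lit 168) (nat_lit 0) (XT.nd (nat_lit 564) (nat_lit 252) (nat_lit 0) (XT.nd (nat_lit 282) (nat_lit 168) (nat_lit 0) (XT.nd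 (nat_lit 94) (nat_lit 0) (nat_lit 0) (XT.lf (nat_lit 0) (nat_lit 9465868999) (nat_lit 252) (nat_lit 5439201341) (nat_lit 336) (nat_lit 47494688899) (nat_lit 19) (nat_lit 5) (nat_lit 22) (nat_lit 5) (nat_lit 23) (nat_lit 5) (nat_lit 398) (nat_lit 332) (nat_lit 131)) (XT.nd (nat_lit 94) (nat_lit 0) (nat_lit 0) (XT.lf (nat_lit 0) (nat_lit 19943258464) (nat_lit 336) (nat_lit 38951632398) (nat_lit 84) (nat_lit 5067982456) (nat_lit 19) (nat_lit 5) (nat_lit 23) (nat_lit 5) (nat_lit 20) (nat_lit 5) (nat_lit 399) (nat_lit 332) (nat_lit 130)) (XT.lf (nat_lit 0) (nat_lit 25191868979) (nat_lit 336) (nat_lit 24593516041) (nat_lit 84) (nat_lit 15787382719) (nat_lit 19) (nat_lit 5) (nat_lit 23) (nat_lit 5) (nat_lit 20) (nat_lit 5) (nat_lit 400) (nat_lit 332) (nat_lit 129)))) (XT.nd (nat_lit 94) (nat_lit 168) (nat_lit 0) (XT.lf (nat_lit 0) (nat_lit 30601836589) (nat_lit 336) (nat_lit 9792200350) (nat_lit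 84) (nat_lit 26838578836) (nat_lit 19) (nat_lit 5) (nat_lit 23) (nat_lit 5) (nat_lit 20) (nat_lit 5) (nat_lit 401) (nat_lit 332) (nat_lit 128)) (XT.nd (nat_lit 94) (nat_lit 0) (nat_lit 0) (XT.lf (nat_lit 0) (nat_lit 5578505505) (nat_lit 168) (nat_lit 30655037911) (nat_lit 252) (nat_lit 32708705639) (nat_lit 17) (nat_lit 5) (nat_lit 19) (nat_lit 5) (nat_lit 20) (nat_lit 5) (nat_lit 402) (nat_lit 332) (nat_lit 127)) (XT.lf (nat_lit 0) (nat_lit 21631466349) (nat_lit 168) (nat_lit 20509289298) (nat_lit 252) (nat_lit 28561001468) (nat_lit 17) (nat_lit 5) (nat_lit 19) (nat_lit 5) (nat_lit 20) (nat_lit 5) (nat_lit 403) (nat_lit 332) (nat_lit 126))))) (XT.nd (nat_lit 282) (nat_lit 252) (nat_lit 0) (XT.nd (nat_lit 94) (nat_lit 0) (nat_lit 0) (XT.lf (nat_lit 0) (nat_lit 38180297499) (nat_lit 168) (nat_lit 10049544689) (nat_lit 252) (nat_lit 24286011065) (nat_lit 17) (nat_lit 5) (nat_lit 19)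 (nat_lit 5) (nat_lit 20) (nat_lit 5) (nat_lit 404) (nat_lit 332) (nat_lit 125)) (XT.nd (nat_lit 94) (nat_lit 0) (nat_lit 0) (XT.lf (nat_lit 0) (nat_lit 54513759537) (nat_lit 252) (nat_lit 19153085031) (nat_lit 84) (nat_lit 719158125) (nat_lit 17) (nat_lit 5) (nat_lit 20) (nat_lit 5) (nat_lit 18) (nat_lit 5) (nat_lit 405) (nat_lit 332) (nat_lit 124)) (XT.lf (nat_lit 0) (nat_lit 61094081380) (nat_lit 252) (nat_lit 3604443358) (nat_lit 84) (nat_lit 11612456664) (nat_lit 17) (nat_lit 5) (nat_lit 20) (nat_lit 5) (nat_lit 18) (nat_lit 5) (nat_lit 406) (nat_lit 332) (nat_lit 123)))) (XT.nd (nat_lit 94) (nat_lit 84) (nat_lit 0) (XT.lf (nat_lit 0) (nat_lit 12680029285) (nat_lit 168) (nat_lit 55323006713) (nat_lit 252) (nat_lit 10288738724) (nat_lit 15) (nat_lit 5) (nat_lit 17) (nat_lit 5) (nat_lit 18) (nat_lit 5) (nat_lit 407) (nat_lit 332) (nat_lit 122)) (XT.nd (nat_lit 94) (nat_lit 84) (nat_lit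 0) (XT.lf (nat_lit 0) (nat_lit 29544098350) (nat_lit 168) (nat_lit 45618566396) (nat_lit 252) (nat_lit 5170180569) (nat_lit 15) (nat_lit 5) (nat_lit 17) (nat_lit 5) (nat_lit 18) (nat_lit 5) (nat_lit 408) (nat_lit 332) (nat_lit 121)) (XT.lf (nat_lit 0) (nat_lit 103788377) (nat_lit 252) (nat_lit 35508909515) (nat_lit 84) (nat_lit 46824496454) (nat_lit 14) (nat_lit 5) (nat_lit 17) (nat_lit 5) (nat_lit 15) (nat_lit 5) (nat_lit 409) (nat_lit 332) (nat_lit 120)))))) (XT.nd (nat_lit 47000) (nat_lit 0) (nat_lit 6888) (XT.nd (nat_lit 282) (nat_lit 0) (nat_lit 0) (XT.nd (nat_lit 94) (nat_lit 168) (nat_lit 0) (XT.lf (nat_lit 0) (nat_lit 5432779218) (nat_lit 252) (nat_lit 19809839414) (nat_lit 84) (nat_lit 59362557341) (nat_lit 14) (nat_lit 5) (nat_lit 17) (nat_lit 5) (nat_lit 15) (nat_lit 5) (nat_lit 410) (nat_lit 332) (nat_lit 119)) (XT.nd (nat_lit 94) (nat_lit 168) (nat_lit 0) (XT.lf (nat_lit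 0) (nat_lit 10925926749) (nat_lit 252) (nat_lit 3625614654) (nat_lit 84) (nat_lit 72288859536) (nat_lit 14) (nat_lit 5) (nat_lit 17) (nat_lit 5) (nat_lit 15) (nat_lit 5) (nat_lit 411) (nat_lit 332) (nat_lit 118)) (XT.lf (nat_lit 0) (nat_lit 13327366898) (nat_lit 168) (nat_lit 3393193388) (nat_lit 252) (nat_lit 72420293939) (nat_lit 12) (nat_lit 5) (nat_lit 14) (nat_lit 5) (nat_lit 15) (nat_lit 5) (nat_lit 412) (nat_lit 332) (nat_lit 117)))) (XT.nd (nat_lit 46530) (nat_lit 0) (nat_lit 6804) (XT.lf (nat_lit 0) (nat_lit 22812521928) (nat_lit 252) (nat_lit 60711031879) (nat_lit 84) (nat_lit 7985422618) (nat_lit 12) (nat_lit 5) (nat_lit 15) (nat_lit 5) (nat_lit 13) (nat_lit 5) (nat_lit 413) (nat_lit 332) (nat_lit 116)) (XT.nd (nat_lit 94) (nat_lit 0) (nat_lit 0) (XT.lf (nat_lit 0) (nat_lit 2834312675) (nat_lit 1092) (nat_lit 2851828946) (nat_lit 1092) (nat_lit 2851828946) (nat_lit 93) (nat_lit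 3) (nat_lit 106) (nat_lit 3) (nat_lit 106) (nat_lit 5) (nat_lit 333) (nat_lit 333) (nat_lit 195)) (XT.lf (nat_lit 84) (nat_lit 265586343) (nat_lit 0) (nat_lit 5679113403) (nat_lit 1092) (nat_lit 11389055135) (nat_lit 94) (nat_lit 5) (nat_lit 93) (nat_lit 3) (nat_lit 106) (nat_lit 5) (nat_lit 334) (nat_lit 333) (nat_lit 194))))) (XT.nd (nat_lit 282) (nat_lit 0) (nat_lit 84) (XT.nd (nat_lit 94) (nat_lit 0) (nat_lit 0) (XT.lf (nat_lit 0) (nat_lit 6283884274) (nat_lit 1008) (nat_lit 11063687796) (nat_lit 1092) (nat_lit 250339130) (nat_lit 94) (nat_lit 5) (nat_lit 106) (nat_lit 5) (nat_lit 107) (nat_lit 5) (nat_lit 335) (nat_lit 333) (nat_lit 193)) (XT.nd (nat_lit 94) (nat_lit 0) (nat_lit 0) (XT.lf (nat_lit 0) (nat_lit 6684410663) (nat_lit 1008) (nat_lit 4935288970) (nat_lit 1092) (nat_lit 6249021301) (nat_lit 94) (nat_lit 5) (nat_lit 106) (nat_lit 5) (nat_lit 107) (nat_lit 5) (nat_lit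 336) (nat_lit 333) (nat_lit 192)) (XT.lf (nat_lit 84) (nat_lit 1407434424) (nat_lit 0) (nat_lit 5696842239) (nat_lit 1092) (nat_lit 11043473487) (nat_lit 95) (nat_lit 5) (nat_lit 94) (nat_lit 5) (nat_lit 107) (nat_lit 5) (nat_lit 337) (nat_lit 333) (nat_lit 191)))) (XT.nd (nat_lit 94) (nat_lit 0) (nat_lit 0) (XT.lf (nat_lit 0) (nat_lit 7586425511) (nat_lit 1008) (nat_lit 10391266179) (nat_lit 1092) (nat_lit 456248131) (nat_lit 95) (nat_lit 5) (nat_lit 107) (nat_lit 5) (nat_lit 108) (nat_lit 5) (nat_lit 338) (nat_lit 333) (nat_lit 190)) (XT.nd (nat_lit 94) (nat_lit 0) (nat_lit 0) (XT.lf (nat_lit 0) (nat_lit 8135154182) (nat_lit 1008) (nat_lit 3907784806) (nat_lit 1092) (nat_lit 6684498446) (nat_lit 95) (nat_lit 5) (nat_lit 107) (nat_lit 5) (nat_lit 108) (nat_lit 5) (nat_lit 339) (nat_lit 333) (nat_lit 189)) (XT.lf (nat_lit 84) (nat_lit 2829697147) (nat_lit 0) (nat_lit 5892834566) (nat_lit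 1092) (nat_lit 10306866561) (nat_lit 96) (nat_lit 5) (nat_lit 95) (nat_lit 5) (nat_lit 108) (nat_lit 5) (nat_lit 340) (nat_lit 333) (nat_lit 188))))))))
noncomputable def xc185 : XT := (XT.nd (nat_lit 2256) (nat_lit 2856) (nat_lit 0) (XT.nd (nat_lit 1128) (nat_lit 2100) (nat_lit 0) (XT.nd (nat_lit 564) (nat_lit 756) (nat_lit 0) (XT.nd (nat_lit 282) (nat_lit 0) (nat_lit 84) (XT.nd (nat_lit 94) (nat_lit 0) (nat_lit 0) (XT.lf (nat_lit 0) (nat_lit 9367512319) (nat_lit 1008) (nat_lit 9489643142) (nat_lit 1092) (nat_lit 482377732) (nat_lit 96) (nat_lit 5) (nat_lit 108) (nat_lit 5) (nat_lit 109) (nat_lit 5) (nat_lit 341) (nat_lit 333) (nat_lit 187)) (XT.nd (nat_lit 94) (nat_lit 0) (nat_lit 0) (XT.lf (nat_lit 0) (nat_lit 10086689729) (nat_lit 1008) (nat_lit 2635927680) (nat_lit 1092) (nat_lit 6935018089) (nat_lit 96) (nat_lit 5) (nat_lit 108) (nat_lit 5) (nat_lit 109) (nat_lit 5) (nat_lit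 342) (nat_lit 333) (nat_lit 186)) (XT.lf (nat_lit 84) (nat_lit 4517304914) (nat_lit 0) (nat_lit 6349783955) (nat_lit 1092) (nat_lit 9117335837) (nat_lit 97) (nat_lit 5) (nat_lit 96) (nat_lit 5) (nat_lit 109) (nat_lit 5) (nat_lit 343) (nat_lit 333) (nat_lit 185)))) (XT.nd (nat_lit 94) (nat_lit 0) (nat_lit 0) (XT.lf (nat_lit 0) (nat_lit 11695935075) (nat_lit 1008) (nat_lit 8378942631) (nat_lit 1092) (nat_lit 245746273) (nat_lit 97) (nat_lit 5) (nat_lit 109) (nat_lit 5) (nat_lit 110) (nat_lit 5) (nat_lit 344) (nat_lit 333) (nat_lit 184)) (XT.nd (nat_lit 94) (nat_lit 0) (nat_lit 0) (XT.lf (nat_lit 0) (nat_lit 12609862281) (nat_lit 1008) (nat_lit 1139999893) (nat_lit 1092) (nat_lit 6915572815) (nat_lit 97) (nat_lit 5) (nat_lit 109) (nat_lit 5) (nat_lit 110) (nat_lit 5) (nat_lit 345) (nat_lit 333) (nat_lit 183)) (XT.lf (nat_lit 84) (nat_lit 6449387296) (nat_lit 0) (nat_lit 7161323144) (nat_lit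 1092) (nat_lit 7408438067) (nat_lit 98) (nat_lit 5) (nat_lit 97) (nat_lit 5) (nat_lit 110) (nat_lit 5) (nat_lit 346) (nat_lit 333) (nat_lit 182))))) (XT.nd (nat_lit 282) (nat_lit 840) (nat_lit 0) (XT.nd (nat_lit 94) (nat_lit 0) (nat_lit 84) (XT.lf (nat_lit 84) (nat_lit 14294348854) (nat_lit 0) (nat_lit 354869508) (nat_lit 1092) (nat_lit 6734431884) (nat_lit 98) (nat_lit 5) (nat_lit 97) (nat_lit 5) (nat_lit 110) (nat_lit 5) (nat_lit 347) (nat_lit 333) (nat_lit 181)) (XT.nd (nat_lit 94) (nat_lit 0) (nat_lit 0) (XT.lf (nat_lit 84) (nat_lit 564382524) (nat_lit 0) (nat_lit 15222135938) (nat_lit 1092) (nat_lit 5970896401) (nat_lit 99) (nat_lit 5) (nat_lit 98) (nat_lit 5) (nat_lit 111) (nat_lit 5) (nat_lit 348) (nat_lit 333) (nat_lit 180)) (XT.lf (nat_lit 84) (nat_lit 8598008419) (nat_lit 0) (nat_lit 8433677378) (nat_lit 1092) (nat_lit 5108856486) (nat_lit 99) (nat_lit 5) (nat_lit 98) (nat_lit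 5) (nat_lit 111) (nat_lit 5) (nat_lit 349) (nat_lit 333) (nat_lit 179)))) (XT.nd (nat_lit 94) (nat_lit 924) (nat_lit 0) (XT.lf (nat_lit 84) (nat_lit 16876886630) (nat_lit 0) (nat_lit 1433736844) (nat_lit 1092) (nat_lit 4225099129) (nat_lit 99) (nat_lit 5) (nat_lit 98) (nat_lit 5) (nat_lit 111) (nat_lit 5) (nat_lit 350) (nat_lit 333) (nat_lit 178)) (XT.nd (nat_lit 94) (nat_lit 0) (nat_lit 0) (XT.lf (nat_lit 0) (nat_lit 2457543710) (nat_lit 1008) (nat_lit 17248739107) (nat_lit 1092) (nat_lit 3234506820) (nat_lit 87) (nat_lit 5) (nat_lit 99) (nat_lit 5) (nat_lit 100) (nat_lit 5) (nat_lit 351) (nat_lit 333) (nat_lit 177)) (XT.lf (nat_lit 0) (nat_lit 10926712499) (nat_lit 1008) (nat_lit 10287505107) (nat_lit 1092) (nat_lit 2142081505) (nat_lit 87) (nat_lit 5) (nat_lit 99) (nat_lit 5) (nat_lit 100) (nat_lit 5) (nat_lit 352) (nat_lit 333) (nat_lit 176)))))) (XT.nd (nat_lit 564) (nat_lit 924)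 (nat_lit 0) (XT.nd (nat_lit 282) (nat_lit 504) (nat_lit 0) (XT.nd (nat_lit 94) (nat_lit 672) (nat_lit 0) (XT.lf (nat_lit 0) (nat_lit 19654722566) (nat_lit 1008) (nat_lit 3109741340) (nat_lit 1092) (nat_lit 1020386869) (nat_lit 87) (nat_lit 5) (nat_lit 99) (nat_lit 5) (nat_lit 100) (nat_lit 5) (nat_lit 353) (nat_lit 333) (nat_lit 175)) (XT.nd (nat_lit 94) (nat_lit 0) (nat_lit 0) (XT.lf (nat_lit 0) (nat_lit 216775887) (nat_lit 672) (nat_lit 19755980898) (nat_lit 84) (nat_lit 4251324866) (nat_lit 79) (nat_lit 5) (nat_lit 87) (nat_lit 5) (nat_lit 80) (nat_lit 5) (nat_lit 354) (nat_lit 333) (nat_lit 174)) (XT.lf (nat_lit 0) (nat_lit 1542184287) (nat_lit 672) (nat_lit 11301670069) (nat_lit 84) (nat_lit 11830568867) (nat_lit 79) (nat_lit 5) (nat_lit 87) (nat_lit 5) (nat_lit 80) (nat_lit 5) (nat_lit 355) (nat_lit 333) (nat_lit 173)))) (XT.nd (nat_lit 94) (nat_lit 504) (nat_lit 0) (XT.lf (nat_lit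 0) (nat_lit 2904541758) (nat_lit 672) (nat_lit 2588987292) (nat_lit 84) (nat_lit 19645345810) (nat_lit 79) (nat_lit 5) (nat_lit 87) (nat_lit 5) (nat_lit 80) (nat_lit 5) (nat_lit 356) (nat_lit 333) (nat_lit 172)) (XT.nd (nat_lit 94) (nat_lit 0) (nat_lit 0) (XT.lf (nat_lit 0) (nat_lit 4391158912) (nat_lit 588) (nat_lit 19115625824) (nat_lit 84) (nat_lit 2108417480) (nat_lit 73) (nat_lit 5) (nat_lit 80) (nat_lit 5) (nat_lit 74) (nat_lit 5) (nat_lit 357) (nat_lit 333) (nat_lit 171)) (XT.lf (nat_lit 0) (nat_lit 6003422000) (nat_lit 588) (nat_lit 10240858507) (nat_lit 84) (nat_lit 9859568752) (nat_lit 73) (nat_lit 5) (nat_lit 80) (nat_lit 5) (nat_lit 74) (nat_lit 5) (nat_lit 358) (nat_lit 333) (nat_lit 170))))) (XT.nd (nat_lit 282) (nat_lit 420) (nat_lit 0) (XT.nd (nat_lit 94) (nat_lit 504) (nat_lit 0) (XT.lf (nat_lit 0) (nat_lit 7661858083) (nat_lit 588) (nat_lit 1094570860) (nat_lit 84)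 (nat_lit 17851352766) (nat_lit 73) (nat_lit 5) (nat_lit 80) (nat_lit 5) (nat_lit 74) (nat_lit 5) (nat_lit 359) (nat_lit 333) (nat_lit 169)) (XT.nd (nat_lit 94) (nat_lit 0) (nat_lit 0) (XT.lf (nat_lit 0) (nat_lit 8503080538) (nat_lit 504) (nat_lit 949284068) (nat_lit 588) (nat_lit 17672489775) (nat_lit 67) (nat_lit 5) (nat_lit 73) (nat_lit 5) (nat_lit 74) (nat_lit 5) (nat_lit 360) (nat_lit 333) (nat_lit 168)) (XT.lf (nat_lit 0) (nat_lit 11376736157) (nat_lit 588) (nat_lit 9310273077) (nat_lit 84) (nat_lit 6968536114) (nat_lit 67) (nat_lit 5) (nat_lit 74) (nat_lit 5) (nat_lit 68) (nat_lit 5) (nat_lit 361) (nat_lit 333) (nat_lit 167)))) (XT.nd (nat_lit 94) (nat_lit 0) (nat_lit 0) (XT.lf (nat_lit 0) (nat_lit 282386707) (nat_lit 420) (nat_lit 13087381132) (nat_lit 504) (nat_lit 14832658387) (nat_lit 62) (nat_lit 5) (nat_lit 67) (nat_lit 5) (nat_lit 68) (nat_lit 5) (nat_lit 362) (nat_lit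 333) (nat_lit 166)) (XT.nd (nat_lit 94) (nat_lit 0) (nat_lit 0) (XT.lf (nat_lit 0) (nat_lit 10366349030) (nat_lit 420) (nat_lit 5151980245) (nat_lit 504) (nat_lit 13245042121) (nat_lit 62) (nat_lit 5) (nat_lit 67) (nat_lit 5) (nat_lit 68) (nat_lit 5) (nat_lit 363) (nat_lit 333) (nat_lit 165)) (XT.lf (nat_lit 0) (nat_lit 17760217116) (nat_lit 504) (nat_lit 8612302951) (nat_lit 84) (nat_lit 2968374037) (nat_lit 62) (nat_lit 5) (nat_lit 68) (nat_lit 5) (nat_lit 63) (nat_lit 5) (nat_lit 364) (nat_lit 333) (nat_lit 164))))))) (XT.nd (nat_lit 1128) (nat_lit 1260) (nat_lit 0) (XT.nd (nat_lit 564) (nat_lit 756) (nat_lit 0) (XT.nd (nat_lit 282) (nat_lit 420) (nat_lit 0) (XT.nd (nat_lit 94) (nat_lit 0) (nat_lit 0) (XT.lf (nat_lit 0) (nat_lit 1448886908) (nat_lit 420) (nat_lit 18686551309) (nat_lit 504) (nat_lit 9798919014) (nat_lit 57) (nat_lit 5) (nat_lit 62) (nat_lit 5) (nat_lit 63) (nat_lit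 5) (nat_lit 365) (nat_lit 333) (nat_lit 163)) (XT.nd (nat_lit 94) (nat_lit 0) (nat_lit 0) (XT.lf (nat_lit 0) (nat_lit 12001228857) (nat_lit 420) (nat_lit 10669790259) (nat_lit 504) (nat_lit 7872525638) (nat_lit 57) (nat_lit 5) (nat_lit 62) (nat_lit 5) (nat_lit 63) (nat_lit 5) (nat_lit 366) (nat_lit 333) (nat_lit 162)) (XT.lf (nat_lit 0) (nat_lit 22877472171) (nat_lit 420) (nat_lit 2404659239) (nat_lit 504) (nat_lit 5889596039) (nat_lit 57) (nat_lit 5) (nat_lit 62) (nat_lit 5) (nat_lit 63) (nat_lit 5) (nat_lit 367) (nat_lit 333) (nat_lit 161)))) (XT.nd (nat_lit 94) (nat_lit 84) (nat_lit 0) (XT.lf (nat_lit 0) (nat_lit 2252979424) (nat_lit 336) (nat_lit 25801256229) (nat_lit 420) (nat_lit 3762681366) (nat_lit 53) (nat_lit 5) (nat_lit 57) (nat_lit 5) (nat_lit 58) (nat_lit 5) (nat_lit 368) (nat_lit 333) (nat_lit 160)) (XT.nd (nat_lit 94) (nat_lit 84) (nat_lit 0) (XT.lf (nat_lit 0) (nat_lit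 13274715267) (nat_lit 336) (nat_lit 17745557098) (nat_lit 420) (nat_lit 1458501426) (nat_lit 53) (nat_lit 5) (nat_lit 57) (nat_lit 5) (nat_lit 58) (nat_lit 5) (nat_lit 369) (nat_lit 333) (nat_lit 159)) (XT.lf (nat_lit 0) (nat_lit 895752968) (nat_lit 420) (nat_lit 8535294735) (nat_lit 84) (nat_lit 23729920985) (nat_lit 52) (nat_lit 5) (nat_lit 57) (nat_lit 5) (nat_lit 53) (nat_lit 5) (nat_lit 370) (nat_lit 333) (nat_lit 158))))) (XT.nd (nat_lit 282) (nat_lit 336) (nat_lit 0) (XT.nd (nat_lit 94) (nat_lit 0) (nat_lit 0) (XT.lf (nat_lit 0) (nat_lit 2496504412) (nat_lit 420) (nat_lit 818163046) (nat_lit 504) (nat_lit 30548513521) (nat_lit 47) (nat_lit 5) (nat_lit 52) (nat_lit 5) (nat_lit 53) (nat_lit 5) (nat_lit 371) (nat_lit 333) (nat_lit 157)) (XT.nd (nat_lit 94) (nat_lit 0) (nat_lit 0) (XT.lf (nat_lit 0) (nat_lit 5975803426) (nat_lit 504) (nat_lit 20617192894) (nat_lit 84) (nat_lit 7988993844)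 (nat_lit 47) (nat_lit 5) (nat_lit 53) (nat_lit 5) (nat_lit 48) (nat_lit 5) (nat_lit 372) (nat_lit 333) (nat_lit 156)) (XT.lf (nat_lit 0) (nat_lit 8725144584) (nat_lit 504) (nat_lit 9545890152) (nat_lit 84) (nat_lit 17051882916) (nat_lit 47) (nat_lit 5) (nat_lit 53) (nat_lit 5) (nat_lit 48) (nat_lit 5) (nat_lit 373) (nat_lit 333) (nat_lit 155)))) (XT.nd (nat_lit 94) (nat_lit 0) (nat_lit 0) (XT.lf (nat_lit 0) (nat_lit 1904029504) (nat_lit 336) (nat_lit 9671996030) (nat_lit 420) (nat_lit 24510294597) (nat_lit 43) (nat_lit 5) (nat_lit 47) (nat_lit 5) (nat_lit 48) (nat_lit 5) (nat_lit 374) (nat_lit 333) (nat_lit 154)) (XT.nd (nat_lit 94) (nat_lit 0) (nat_lit 0) (XT.lf (nat_lit 0) (nat_lit 13908339022) (nat_lit 336) (nat_lit 704054788) (nat_lit 420) (nat_lit 22257995366) (nat_lit 43) (nat_lit 5) (nat_lit 47) (nat_lit 5) (nat_lit 48) (nat_lit 5) (nat_lit 375) (nat_lit 333) (nat_lit 153))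 (XT.lf (nat_lit 0) (nat_lit 17825168886) (nat_lit 420) (nat_lit 11481639800) (nat_lit 84) (nat_lit 8369416172) (nat_lit 43) (nat_lit 5) (nat_lit 48) (nat_lit 5) (nat_lit 44) (nat_lit 5) (nat_lit 376) (nat_lit 333) (nat_lit 152)))))) (XT.nd (nat_lit 564) (nat_lit 672) (nat_lit 0) (XT.nd (nat_lit 282) (nat_lit 252) (nat_lit 0) (XT.nd (nat_lit 94) (nat_lit 0) (nat_lit 0) (XT.lf (nat_lit 0) (nat_lit 351715624) (nat_lit 336) (nat_lit 20794130883) (nat_lit 420) (nat_lit 17360948255) (nat_lit 39) (nat_lit 5) (nat_lit 43) (nat_lit 5) (nat_lit 44) (nat_lit 5) (nat_lit 377) (nat_lit 333) (nat_lit 151)) (XT.nd (nat_lit 94) (nat_lit 0) (nat_lit 0) (XT.lf (nat_lit 0) (nat_lit 12792505367) (nat_lit 336) (nat_lit 11894465014) (nat_lit 420) (nat_lit 14672509784) (nat_lit 39) (nat_lit 5) (nat_lit 43) (nat_lit 5) (nat_lit 44) (nat_lit 5) (nat_lit 378) (nat_lit 333) (nat_lit 150)) (XT.lf (nat_lit 0)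 (nat_lit 25616239485) (nat_lit 336) (nat_lit 2719360431) (nat_lit 420) (nat_lit 11903079424) (nat_lit 39) (nat_lit 5) (nat_lit 43) (nat_lit 5) (nat_lit 44) (nat_lit 5) (nat_lit 379) (nat_lit 333) (nat_lit 149)))) (XT.nd (nat_lit 94) (nat_lit 252) (nat_lit 0) (XT.lf (nat_lit 0) (nat_lit 32161995022) (nat_lit 420) (nat_lit 2377199755) (nat_lit 84) (nat_lit 6603944384) (nat_lit 39) (nat_lit 5) (nat_lit 44) (nat_lit 5) (nat_lit 40) (nat_lit 5) (nat_lit 380) (nat_lit 333) (nat_lit 148)) (XT.nd (nat_lit 94) (nat_lit 0) (nat_lit 0) (XT.lf (nat_lit 0) (nat_lit 10427286170) (nat_lit 252) (nat_lit 25808835855) (nat_lit 336) (nat_lit 5835522265) (nat_lit 36) (nat_lit 5) (nat_lit 39) (nat_lit 5) (nat_lit 40) (nat_lit 5) (nat_lit 381) (nat_lit 333) (nat_lit 147)) (XT.lf (nat_lit 0) (nat_lit 23676502641) (nat_lit 252) (nat_lit 16782756917) (nat_lit 336) (nat_lit 2568978718) (nat_lit 36) (nat_lit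 5) (nat_lit 39) (nat_lit 5) (nat_lit 40) (nat_lit 5) (nat_lit 382) (nat_lit 333) (nat_lit 146))))) (XT.nd (nat_lit 282) (nat_lit 252) (nat_lit 0) (XT.nd (nat_lit 94) (nat_lit 336) (nat_lit 0) (XT.lf (nat_lit 0) (nat_lit 780666077) (nat_lit 336) (nat_lit 6688543172) (nat_lit 84) (nat_lit 36545104581) (nat_lit 35) (nat_lit 5) (nat_lit 39) (nat_lit 5) (nat_lit 36) (nat_lit 5) (nat_lit 383) (nat_lit 333) (nat_lit 145)) (XT.nd (nat_lit 94) (nat_lit 0) (nat_lit 0) (XT.lf (nat_lit 0) (nat_lit 4265032575) (nat_lit 420) (nat_lit 38581539397) (nat_lit 84) (nat_lit 2180968078) (nat_lit 31) (nat_lit 5) (nat_lit 36) (nat_lit 5) (nat_lit 32) (nat_lit 5) (nat_lit 384) (nat_lit 333) (nat_lit 144)) (XT.lf (nat_lit 0) (nat_lit 8002361463) (nat_lit 420) (nat_lit 26020147889) (nat_lit 84) (nat_lit 12045181794) (nat_lit 31) (nat_lit 5) (nat_lit 36) (nat_lit 5) (nat_lit 32) (nat_lit 5) (nat_lit 385) (nat_lit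 333) (nat_lit 143)))) (XT.nd (nat_lit 188) (nat_lit 0) (nat_lit 0) (XT.nd (nat_lit 94) (nat_lit 252) (nat_lit 0) (XT.lf (nat_lit 0) (nat_lit 11853632780) (nat_lit 420) (nat_lit 13071815241) (nat_lit 84) (nat_lit 22214706234) (nat_lit 31) (nat_lit 5) (nat_lit 36) (nat_lit 5) (nat_lit 32) (nat_lit 5) (nat_lit 386) (nat_lit 333) (nat_lit 142)) (XT.lf (nat_lit 0) (nat_lit 281193163) (nat_lit 252) (nat_lit 15544032621) (nat_lit 336) (nat_lit 32420616769) (nat_lit 28) (nat_lit 5) (nat_lit 31) (nat_lit 5) (nat_lit 32) (nat_lit 5) (nat_lit 387) (nat_lit 333) (nat_lit 141))) (XT.nd (nat_lit 94) (nat_lit 0) (nat_lit 0) (XT.lf (nat_lit 0) (nat_lit 14322896649) (nat_lit 252) (nat_lit 5731659665) (nat_lit 336) (nat_lit 29327085214) (nat_lit 28) (nat_lit 5) (nat_lit 31) (nat_lit 5) (nat_lit 32) (nat_lit 5) (nat_lit 388) (nat_lit 333) (nat_lit 140)) (XT.lf (nat_lit 0) (nat_lit 24456719691) (nat_lit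 336) (nat_lit 21798605724) (nat_lit 84) (nat_lit 4296038699) (nat_lit 28) (nat_lit 5) (nat_lit 32) (nat_lit 5) (nat_lit 29) (nat_lit 5) (nat_lit 389) (nat_lit 333) (nat_lit 139))))))))
noncomputable def xc186 : XT := (XT.nd (nat_lit 48786) (nat_lit 0) (nat_lit 5124) (XT.nd (nat_lit 1128) (nat_lit 588) (nat_lit 0) (XT.nd (nat_lit 564) (nat_lit 336) (nat_lit 0) (XT.nd (nat_lit 282) (nat_lit 168) (nat_lit 0) (XT.nd (nat_lit 94) (nat_lit 252) (nat_lit 0) (XT.lf (nat_lit 0) (nat_lit 29052249784) (nat_lit 336) (nat_lit 8188302677) (nat_lit 84) (nat_lit 14515038807) (nat_lit 28) (nat_lit 5) (nat_lit 32) (nat_lit 5) (nat_lit 29) (nat_lit 5) (nat_lit 390) (nat_lit 333) (nat_lit 138)) (XT.nd (nat_lit 94) (nat_lit 0) (nat_lit 0) (XT.lf (nat_lit 0) (nat_lit 5961826784) (nat_lit 252) (nat_lit 27885886608) (nat_lit 336) (nat_lit 19147661280) (nat_lit 25) (nat_lit 5) (nat_lit 28) (nat_lit 5) (nat_lit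 29) (nat_lit 5) (nat_lit 391) (nat_lit 333) (nat_lit 137)) (XT.lf (nat_lit 0) (nat_lit 20722009852) (nat_lit 252) (nat_lit 18153654139) (nat_lit 336) (nat_lit 15395335355) (nat_lit 25) (nat_lit 5) (nat_lit 28) (nat_lit 5) (nat_lit 29) (nat_lit 5) (nat_lit 392) (nat_lit 333) (nat_lit 136)))) (XT.nd (nat_lit 94) (nat_lit 168) (nat_lit 0) (XT.lf (nat_lit 0) (nat_lit 35937636266) (nat_lit 252) (nat_lit 8120252678) (nat_lit 336) (nat_lit 11528335235) (nat_lit 25) (nat_lit 5) (nat_lit 28) (nat_lit 5) (nat_lit 29) (nat_lit 5) (nat_lit 393) (nat_lit 333) (nat_lit 135)) (XT.nd (nat_lit 94) (nat_lit 168) (nat_lit 0) (XT.lf (nat_lit 0) (nat_lit 49421277710) (nat_lit 336) (nat_lit 5341445598) (nat_lit 84) (nat_lit 2178867958) (nat_lit 25) (nat_lit 5) (nat_lit 29) (nat_lit 5) (nat_lit 26) (nat_lit 5) (nat_lit 394) (nat_lit 333) (nat_lit 134)) (XT.lf (nat_lit 0) (nat_lit 9515845973) (nat_lit 168)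 (nat_lit 45611032249) (nat_lit 252) (nat_lit 3206648222) (nat_lit 23) (nat_lit 5) (nat_lit 25) (nat_lit 5) (nat_lit 26) (nat_lit 5) (nat_lit 395) (nat_lit 333) (nat_lit 133))))) (XT.nd (nat_lit 282) (nat_lit 252) (nat_lit 0) (XT.nd (nat_lit 94) (nat_lit 0) (nat_lit 0) (XT.lf (nat_lit 0) (nat_lit 1270568026) (nat_lit 252) (nat_lit 34834872333) (nat_lit 84) (nat_lit 23661095806) (nat_lit 22) (nat_lit 5) (nat_lit 25) (nat_lit 5) (nat_lit 23) (nat_lit 5) (nat_lit 396) (nat_lit 333) (nat_lit 132)) (XT.nd (nat_lit 94) (nat_lit 0) (nat_lit 0) (XT.lf (nat_lit 0) (nat_lit 5818514893) (nat_lit 252) (nat_lit 20453391649) (nat_lit 84) (nat_lit 34971096539) (nat_lit 22) (nat_lit 5) (nat_lit 25) (nat_lit 5) (nat_lit 23) (nat_lit 5) (nat_lit 397) (nat_lit 333) (nat_lit 131)) (XT.lf (nat_lit 0) (nat_lit 10506038357) (nat_lit 252) (nat_lit 5628023025) (nat_lit 84) (nat_lit 46631228153) (nat_lit 22)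 (nat_lit 5) (nat_lit 25) (nat_lit 5) (nat_lit 23) (nat_lit 5) (nat_lit 398) (nat_lit 333) (nat_lit 130)))) (XT.nd (nat_lit 94) (nat_lit 0) (nat_lit 0) (XT.lf (nat_lit 0) (nat_lit 9853580011) (nat_lit 252) (nat_lit 5581676401) (nat_lit 336) (nat_lit 48896527835) (nat_lit 19) (nat_lit 5) (nat_lit 22) (nat_lit 5) (nat_lit 23) (nat_lit 5) (nat_lit 399) (nat_lit 333) (nat_lit 129)) (XT.nd (nat_lit 94) (nat_lit 0) (nat_lit 0) (XT.lf (nat_lit 0) (nat_lit 20627831393) (nat_lit 336) (nat_lit 40065653577) (nat_lit 84) (nat_lit 5249933282) (nat_lit 19) (nat_lit 5) (nat_lit 23) (nat_lit 5) (nat_lit 20) (nat_lit 5) (nat_lit 400) (nat_lit 333) (nat_lit 128)) (XT.lf (nat_lit 0) (nat_lit 26037154372) (nat_lit 336) (nat_lit 25265246342) (nat_lit 84) (nat_lit 16300887965) (nat_lit 19) (nat_lit 5) (nat_lit 23) (nat_lit 5) (nat_lit 20) (nat_lit 5) (nat_lit 401) (nat_lit 333) (nat_lit 127)))))) (XT.nd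 (nat_lit 564) (nat_lit 420) (nat_lit 0) (XT.nd (nat_lit 282) (nat_lit 0) (nat_lit 0) (XT.nd (nat_lit 94) (nat_lit 168) (nat_lit 0) (XT.lf (nat_lit 0) (nat_lit 31612896487) (nat_lit 336) (nat_lit 10007816082) (nat_lit 84) (nat_lit 27693946634) (nat_lit 19) (nat_lit 5) (nat_lit 23) (nat_lit 5) (nat_lit 20) (nat_lit 5) (nat_lit 402) (nat_lit 333) (nat_lit 126)) (XT.nd (nat_lit 94) (nat_lit 0) (nat_lit 0) (XT.lf (nat_lit 0) (nat_lit 5838491316) (nat_lit 168) (nat_lit 31579682151) (nat_lit 252) (nat_lit 33659156054) (nat_lit 17) (nat_lit 5) (nat_lit 19) (nat_lit 5) (nat_lit 20) (nat_lit 5) (nat_lit 403) (nat_lit 333) (nat_lit 125)) (XT.lf (nat_lit 0) (nat_lit 22386476472) (nat_lit 168) (nat_lit 21120186931) (nat_lit 252) (nat_lit 29384782949) (nat_lit 17) (nat_lit 5) (nat_lit 19) (nat_lit 5) (nat_lit 20) (nat_lit 5) (nat_lit 404) (nat_lit 333) (nat_lit 124)))) (XT.nd (nat_lit 94) (nat_lit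 0) (nat_lit 0) (XT.lf (nat_lit 0) (nat_lit 39445782614) (nat_lit 168) (nat_lit 10336938640) (nat_lit 252) (nat_lit 24979120314) (nat_lit 17) (nat_lit 5) (nat_lit 19) (nat_lit 5) (nat_lit 20) (nat_lit 5) (nat_lit 405) (nat_lit 333) (nat_lit 123)) (XT.nd (nat_lit 94) (nat_lit 0) (nat_lit 0) (XT.lf (nat_lit 0) (nat_lit 56259935791) (nat_lit 252) (nat_lit 19665686595) (nat_lit 84) (nat_lit 764396284) (nat_lit 17) (nat_lit 5) (nat_lit 20) (nat_lit 5) (nat_lit 18) (nat_lit 5) (nat_lit 406) (nat_lit 333) (nat_lit 122)) (XT.lf (nat_lit 0) (nat_lit 63042556301) (nat_lit 252) (nat_lit 3637476862) (nat_lit 84) (nat_lit 11994697191) (nat_lit 17) (nat_lit 5) (nat_lit 20) (nat_lit 5) (nat_lit 18) (nat_lit 5) (nat_lit 407) (nat_lit 333) (nat_lit 121))))) (XT.nd (nat_lit 282) (nat_lit 168) (nat_lit 0) (XT.nd (nat_lit 94) (nat_lit 84) (nat_lit 0) (XT.lf (nat_lit 0) (nat_lit 13151017623) (nat_lit 168)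 (nat_lit 57013803284) (nat_lit 252) (nat_lit 10552140275) (nat_lit 15) (nat_lit 5) (nat_lit 17) (nat_lit 5) (nat_lit 18) (nat_lit 5) (nat_lit 408) (nat_lit 333) (nat_lit 120)) (XT.nd (nat_lit 94) (nat_lit 84) (nat_lit 0) (XT.lf (nat_lit 0) (nat_lit 30535530317) (nat_lit 168) (nat_lit 47009253461) (nat_lit 252) (nat_lit 5276577069) (nat_lit 15) (nat_lit 5) (nat_lit 17) (nat_lit 5) (nat_lit 18) (nat_lit 5) (nat_lit 409) (nat_lit 333) (nat_lit 119)) (XT.lf (nat_lit 0) (nat_lit 158211979) (nat_lit 252) (nat_lit 36535162815) (nat_lit 84) (nat_lit 48297608033) (nat_lit 14) (nat_lit 5) (nat_lit 17) (nat_lit 5) (nat_lit 15) (nat_lit 5) (nat_lit 410) (nat_lit 333) (nat_lit 118)))) (XT.nd (nat_lit 94) (nat_lit 168) (nat_lit 0) (XT.lf (nat_lit 0) (nat_lit 5650861875) (nat_lit 252) (nat_lit 20351662288) (nat_lit 84) (nat_lit 61223700779) (nat_lit 14) (nat_lit 5) (nat_lit 17) (nat_lit 5) (nat_lit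 15) (nat_lit 5) (nat_lit 411) (nat_lit 333) (nat_lit 117)) (XT.nd (nat_lit 94) (nat_lit 168) (nat_lit 0) (XT.lf (nat_lit 0) (nat_lit 11312803612) (nat_lit 252) (nat_lit 3667899933) (nat_lit 84) (nat_lit 74550089798) (nat_lit 14) (nat_lit 5) (nat_lit 17) (nat_lit 5) (nat_lit 15) (nat_lit 5) (nat_lit 412) (nat_lit 333) (nat_lit 116)) (XT.lf (nat_lit 0) (nat_lit 13809914259) (nat_lit 168) (nat_lit 3476396512) (nat_lit 252) (nat_lit 74616278481) (nat_lit 12) (nat_lit 5) (nat_lit 14) (nat_lit 5) (nat_lit 15) (nat_lit 5) (nat_lit 413) (nat_lit 333) (nat_lit 115))))))) (XT.nd (nat_lit 1128) (nat_lit 1680) (nat_lit 0) (XT.nd (nat_lit 564) (nat_lit 0) (nat_lit 168) (XT.nd (nat_lit 282) (nat_lit 0) (nat_lit 84) (XT.nd (nat_lit 94) (nat_lit 0) (nat_lit 0) (XT.lf (nat_lit 0) (nat_lit 3105911484) (nat_lit 1092) (nat_lit 2845010888) (nat_lit 1092) (nat_lit 2845010888) (nat_lit 93) (nat_lit 3) (nat_lit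 106) (nat_lit 3) (nat_lit 106) (nat_lit 5) (nat_lit 334) (nat_lit 334) (nat_lit 193)) (XT.nd (nat_lit 94) (nat_lit 0) (nat_lit 84) (XT.lf (nat_lit 84) (nat_lit 462340900) (nat_lit 0) (nat_lit 6024935870) (nat_lit 1092) (nat_lit 11370741523) (nat_lit 94) (nat_lit 5) (nat_lit 93) (nat_lit 3) (nat_lit 106) (nat_lit 5) (nat_lit 335) (nat_lit 334) (nat_lit 192)) (XT.lf (nat_lit 0) (nat_lit 6824569451) (nat_lit 1008) (nat_lit 11209486066) (nat_lit 1092) (nat_lit 96751957) (nat_lit 94) (nat_lit 5) (nat_lit 106) (nat_lit 5) (nat_lit 107) (nat_lit 5) (nat_lit 336) (nat_lit 334) (nat_lit 191)))) (XT.nd (nat_lit 94) (nat_lit 0) (nat_lit 0) (XT.lf (nat_lit 0) (nat_lit 7227112132) (nat_lit 1008) (nat_lit 4897035545) (nat_lit 1092) (nat_lit 6286244661) (nat_lit 94) (nat_lit 5) (nat_lit 106) (nat_lit 5) (nat_lit 107) (nat_lit 5) (nat_lit 337) (nat_lit 334) (nat_lit 190)) (XT.nd (nat_lit 94) (nat_lit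 0) (nat_lit 84) (XT.lf (nat_lit 84) (nat_lit 1640376066) (nat_lit 0) (nat_lit 6011408582) (nat_lit 1092) (nat_lit 11046597194) (nat_lit 95) (nat_lit 5) (nat_lit 94) (nat_lit 5) (nat_lit 107) (nat_lit 5) (nat_lit 338) (nat_lit 334) (nat_lit 189)) (XT.lf (nat_lit 0) (nat_lit 8137712157) (nat_lit 1008) (nat_lit 10516859680) (nat_lit 1092) (nat_lit 339271976) (nat_lit 95) (nat_lit 5) (nat_lit 107) (nat_lit 5) (nat_lit 108) (nat_lit 5) (nat_lit 339) (nat_lit 334) (nat_lit 188))))) (XT.nd (nat_lit 282) (nat_lit 0) (nat_lit 84) (XT.nd (nat_lit 94) (nat_lit 0) (nat_lit 0) (XT.lf (nat_lit 0) (nat_lit 8693946730) (nat_lit 1008) (nat_lit 3838299801) (nat_lit 1092) (nat_lit 6764540549) (nat_lit 95) (nat_lit 5) (nat_lit 107) (nat_lit 5) (nat_lit 108) (nat_lit 5) (nat_lit 340) (nat_lit 334) (nat_lit 187)) (XT.nd (nat_lit 94) (nat_lit 0) (nat_lit 84) (XT.lf (nat_lit 84) (nat_lit 3106114173) (nat_lit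 0) (nat_lit 6186071784) (nat_lit 1092) (nat_lit 10316201509) (nat_lit 96) (nat_lit 5) (nat_lit 95) (nat_lit 5) (nat_lit 108) (nat_lit 5) (nat_lit 341) (nat_lit 334) (nat_lit 186)) (XT.lf (nat_lit 0) (nat_lit 9947099186) (nat_lit 1008) (nat_lit 9589141835) (nat_lit 1092) (nat_lit 392256929) (nat_lit 96) (nat_lit 5) (nat_lit 108) (nat_lit 5) (nat_lit 109) (nat_lit 5) (nat_lit 342) (nat_lit 334) (nat_lit 185)))) (XT.nd (nat_lit 94) (nat_lit 0) (nat_lit 0) (XT.lf (nat_lit 0) (nat_lit 10679875642) (nat_lit 1008) (nat_lit 2528814819) (nat_lit 1092) (nat_lit 7048088507) (nat_lit 96) (nat_lit 5) (nat_lit 108) (nat_lit 5) (nat_lit 109) (nat_lit 5) (nat_lit 343) (nat_lit 334) (nat_lit 184)) (XT.nd (nat_lit 94) (nat_lit 0) (nat_lit 84) (XT.lf (nat_lit 84) (nat_lit 4844256285) (nat_lit 0) (nat_lit 6633631088) (nat_lit 1092) (nat_lit 9116061778) (nat_lit 97) (nat_lit 5) (nat_lit 96) (nat_lit 5)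 (nat_lit 109) (nat_lit 5) (nat_lit 344) (nat_lit 334) (nat_lit 183)) (XT.lf (nat_lit 0) (nat_lit 12323354514) (nat_lit 1008) (nat_lit 8446865674) (nat_lit 1092) (nat_lit 170676826) (nat_lit 97) (nat_lit 5) (nat_lit 109) (nat_lit 5) (nat_lit 110) (nat_lit 5) (nat_lit 345) (nat_lit 334) (nat_lit 182)))))) (XT.nd (nat_lit 564) (nat_lit 2016) (nat_lit 0) (XT.nd (nat_lit 282) (nat_lit 0) (nat_lit 84) (XT.nd (nat_lit 94) (nat_lit 0) (nat_lit 0) (XT.lf (nat_lit 0) (nat_lit 13257650118) (nat_lit 1008) (nat_lit 989283461) (nat_lit 1092) (nat_lit 7049754232) (nat_lit 97) (nat_lit 5) (nat_lit 109) (nat_lit 5) (nat_lit 110) (nat_lit 5) (nat_lit 346) (nat_lit 334) (nat_lit 181)) (XT.nd (nat_lit 94) (nat_lit 0) (nat_lit 0) (XT.lf (nat_lit 84) (nat_lit 6833491077) (nat_lit 0) (nat_lit 7450136606) (nat_lit 1092) (nat_lit 7377964035) (nat_lit 98) (nat_lit 5) (nat_lit 97) (nat_lit 5) (nat_lit 110) (nat_lit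 5) (nat_lit 347) (nat_lit 334) (nat_lit 180)) (XT.lf (nat_lit 84) (nat_lit 14916108755) (nat_lit 0) (nat_lit 430673998) (nat_lit 1092) (nat_lit 6690885390) (nat_lit 98) (nat_lit 5) (nat_lit 97) (nat_lit 5) (nat_lit 110) (nat_lit 5) (nat_lit 348) (nat_lit 334) (nat_lit 179)))) (XT.nd (nat_lit 94) (nat_lit 0) (nat_lit 0) (XT.lf (nat_lit 84) (nat_lit 768126707) (nat_lit 0) (nat_lit 15745116839) (nat_lit 1092) (nat_lit 5910004832) (nat_lit 99) (nat_lit 5) (nat_lit 98) (nat_lit 5) (nat_lit 111) (nat_lit 5) (nat_lit 349) (nat_lit 334) (nat_lit 178)) (XT.nd (nat_lit 94) (nat_lit 0) (nat_lit 0) (XT.lf (nat_lit 84) (nat_lit 9045194910) (nat_lit 0) (nat_lit 8744679754) (nat_lit 1092) (nat_lit 5028638062) (nat_lit 99) (nat_lit 5) (nat_lit 98) (nat_lit 5) (nat_lit 111) (nat_lit 5) (nat_lit 350) (nat_lit 334) (nat_lit 177)) (XT.lf (nat_lit 84) (nat_lit 17575286633) (nat_lit 0) (nat_lit 1526250947)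 (nat_lit 1092) (nat_lit 4124658215) (nat_lit 99) (nat_lit 5) (nat_lit 98) (nat_lit 5) (nat_lit 111) (nat_lit 5) (nat_lit 351) (nat_lit 334) (nat_lit 176))))) (XT.nd (nat_lit 282) (nat_lit 1176) (nat_lit 0) (XT.nd (nat_lit 94) (nat_lit 0) (nat_lit 0) (XT.lf (nat_lit 0) (nat_lit 2715694046) (nat_lit 1008) (nat_lit 17819397239) (nat_lit 1092) (nat_lit 3108931580) (nat_lit 87) (nat_lit 5) (nat_lit 99) (nat_lit 5) (nat_lit 100) (nat_lit 5) (nat_lit 352) (nat_lit 334) (nat_lit 175)) (XT.nd (nat_lit 94) (nat_lit 0) (nat_lit 0) (XT.lf (nat_lit 0) (nat_lit 11441935718) (nat_lit 1008) (nat_lit 10641284127) (nat_lit 1092) (nat_lit 1989431762) (nat_lit 87) (nat_lit 5) (nat_lit 99) (nat_lit 5) (nat_lit 100) (nat_lit 5) (nat_lit 353) (nat_lit 334) (nat_lit 174)) (XT.lf (nat_lit 0) (nat_lit 20435207260) (nat_lit 1008) (nat_lit 3239961325) (nat_lit 1092) (nat_lit 839551094) (nat_lit 87) (nat_lit 5)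 (nat_lit 99) (nat_lit 5) (nat_lit 100) (nat_lit 5) (nat_lit 354) (nat_lit 334) (nat_lit 173)))) (XT.nd (nat_lit 188) (nat_lit 504) (nat_lit 0) (XT.nd (nat_lit 94) (nat_lit 0) (nat_lit 0) (XT.lf (nat_lit 0) (nat_lit 426870046) (nat_lit 672) (nat_lit 20186020590) (nat_lit 84) (nat_lit 4354792199) (nat_lit 79) (nat_lit 5) (nat_lit 87) (nat_lit 5) (nat_lit 80) (nat_lit 5) (nat_lit 355) (nat_lit 334) (nat_lit 172)) (XT.lf (nat_lit 0) (nat_lit 1787251076) (nat_lit 672) (nat_lit 11475110381) (nat_lit 84) (nat_lit 12169844400) (nat_lit 79) (nat_lit 5) (nat_lit 87) (nat_lit 5) (nat_lit 80) (nat_lit 5) (nat_lit 356) (nat_lit 334) (nat_lit 171))) (XT.nd (nat_lit 94) (nat_lit 504) (nat_lit 0) (XT.lf (nat_lit 0) (nat_lit 3185910463) (nat_lit 672) (nat_lit 2497653793) (nat_lit 84) (nat_lit 20227705457) (nat_lit 79) (nat_lit 5) (nat_lit 87) (nat_lit 5) (nat_lit 80) (nat_lit 5) (nat_lit 357) (nat_lit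 334) (nat_lit 170)) (XT.lf (nat_lit 0) (nat_lit 4714372241) (nat_lit 588) (nat_lit 19531427948) (nat_lit 84) (nat_lit 2156723923) (nat_lit 73) (nat_lit 5) (nat_lit 80) (nat_lit 5) (nat_lit 74) (nat_lit 5) (nat_lit 358) (nat_lit 334) (nat_lit 169))))))))
noncomputable def xc187 : XT := (XT.nd (nat_lit 2256) (nat_lit 1596) (nat_lit 0) (XT.nd (nat_lit 1128) (nat_lit 1428) (nat_lit 0) (XT.nd (nat_lit 564) (nat_lit 756) (nat_lit 0) (XT.nd (nat_lit 282) (nat_lit 420) (nat_lit 0) (XT.nd (nat_lit 94) (nat_lit 504) (nat_lit 0) (XT.lf (nat_lit 0) (nat_lit 6370990161) (nat_lit 588) (nat_lit 10386858316) (nat_lit 84) (nat_lit 10148673676) (nat_lit 73) (nat_lit 5) (nat_lit 80) (nat_lit 5) (nat_lit 74) (nat_lit 5) (nat_lit 359) (nat_lit 334) (nat_lit 168)) (XT.nd (nat_lit 94) (nat_lit 504) (nat_lit 0) (XT.lf (nat_lit 0) (nat_lit 8075381579) (nat_lit 588) (nat_lit 962191397) (nat_lit 84) (nat_lit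 18388700369) (nat_lit 73) (nat_lit 5) (nat_lit 80) (nat_lit 5) (nat_lit 74) (nat_lit 5) (nat_lit 360) (nat_lit 334) (nat_lit 167)) (XT.lf (nat_lit 0) (nat_lit 8931303443) (nat_lit 504) (nat_lit 986431359) (nat_lit 588) (nat_lit 18041780761) (nat_lit 67) (nat_lit 5) (nat_lit 73) (nat_lit 5) (nat_lit 74) (nat_lit 5) (nat_lit 361) (nat_lit 334) (nat_lit 166)))) (XT.nd (nat_lit 94) (nat_lit 420) (nat_lit 0) (XT.lf (nat_lit 0) (nat_lit 11896505486) (nat_lit 588) (nat_lit 9433117255) (nat_lit 84) (nat_lit 7177224211) (nat_lit 67) (nat_lit 5) (nat_lit 74) (nat_lit 5) (nat_lit 68) (nat_lit 5) (nat_lit 362) (nat_lit 334) (nat_lit 165)) (XT.nd (nat_lit 94) (nat_lit 0) (nat_lit 0) (XT.lf (nat_lit 0) (nat_lit 455236666) (nat_lit 420) (nat_lit 13492688277) (nat_lit 504) (nat_lit 15122886749) (nat_lit 62) (nat_lit 5) (nat_lit 67) (nat_lit 5) (nat_lit 68) (nat_lit 5) (nat_lit 363) (nat_lit 334) (nat_lit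 164)) (XT.lf (nat_lit 0) (nat_lit 10846867801) (nat_lit 420) (nat_lit 5311302040) (nat_lit 504) (nat_lit 13491153414) (nat_lit 62) (nat_lit 5) (nat_lit 67) (nat_lit 5) (nat_lit 68) (nat_lit 5) (nat_lit 364) (nat_lit 334) (nat_lit 163))))) (XT.nd (nat_lit 282) (nat_lit 336) (nat_lit 0) (XT.nd (nat_lit 94) (nat_lit 420) (nat_lit 0) (XT.lf (nat_lit 0) (nat_lit 18464786003) (nat_lit 504) (nat_lit 8719370918) (nat_lit 84) (nat_lit 3060763897) (nat_lit 62) (nat_lit 5) (nat_lit 68) (nat_lit 5) (nat_lit 63) (nat_lit 5) (nat_lit 365) (nat_lit 334) (nat_lit 162)) (XT.nd (nat_lit 94) (nat_lit 0) (nat_lit 0) (XT.lf (nat_lit 0) (nat_lit 1652096847) (nat_lit 420) (nat_lit 19258481891) (nat_lit 504) (nat_lit 9946320491) (nat_lit 57) (nat_lit 5) (nat_lit 62) (nat_lit 5) (nat_lit 63) (nat_lit 5) (nat_lit 366) (nat_lit 334) (nat_lit 161)) (XT.lf (nat_lit 0) (nat_lit 12526801815) (nat_lit 420) (nat_lit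 10993422324) (nat_lit 504) (nat_lit 7964910488) (nat_lit 57) (nat_lit 5) (nat_lit 62) (nat_lit 5) (nat_lit 63) (nat_lit 5) (nat_lit 367) (nat_lit 334) (nat_lit 160)))) (XT.nd (nat_lit 94) (nat_lit 336) (nat_lit 0) (XT.lf (nat_lit 0) (nat_lit 23735592202) (nat_lit 420) (nat_lit 2472286669) (nat_lit 504) (nat_lit 5925070272) (nat_lit 57) (nat_lit 5) (nat_lit 62) (nat_lit 5) (nat_lit 63) (nat_lit 5) (nat_lit 368) (nat_lit 334) (nat_lit 159)) (XT.nd (nat_lit 94) (nat_lit 0) (nat_lit 0) (XT.lf (nat_lit 0) (nat_lit 2475214797) (nat_lit 336) (nat_lit 26588012176) (nat_lit 420) (nat_lit 3735017089) (nat_lit 53) (nat_lit 5) (nat_lit 57) (nat_lit 5) (nat_lit 58) (nat_lit 5) (nat_lit 369) (nat_lit 334) (nat_lit 158)) (XT.lf (nat_lit 0) (nat_lit 13834042315) (nat_lit 336) (nat_lit 18282979750) (nat_lit 420) (nat_lit 1363746591) (nat_lit 53) (nat_lit 5) (nat_lit 57) (nat_lit 5) (nat_lit 58) (nat_lit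 5) (nat_lit 370) (nat_lit 334) (nat_lit 157)))))) (XT.nd (nat_lit 564) (nat_lit 588) (nat_lit 0) (XT.nd (nat_lit 282) (nat_lit 336) (nat_lit 0) (XT.nd (nat_lit 94) (nat_lit 420) (nat_lit 0) (XT.lf (nat_lit 0) (nat_lit 1056545877) (nat_lit 420) (nat_lit 8653167734) (nat_lit 84) (nat_lit 24474501978) (nat_lit 52) (nat_lit 5) (nat_lit 57) (nat_lit 5) (nat_lit 53) (nat_lit 5) (nat_lit 371) (nat_lit 334) (nat_lit 156)) (XT.nd (nat_lit 94) (nat_lit 0) (nat_lit 0) (XT.lf (nat_lit 0) (nat_lit 2719131767) (nat_lit 420) (nat_lit 828755937) (nat_lit 504) (nat_lit 31360406709) (nat_lit 47) (nat_lit 5) (nat_lit 52) (nat_lit 5) (nat_lit 53) (nat_lit 5) (nat_lit 372) (nat_lit 334) (nat_lit 155)) (XT.lf (nat_lit 0) (nat_lit 6287738179) (nat_lit 504) (nat_lit 21111093699) (nat_lit 84) (nat_lit 8250690071) (nat_lit 47) (nat_lit 5) (nat_lit 53) (nat_lit 5) (nat_lit 48) (nat_lit 5) (nat_lit 373) (nat_lit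 334) (nat_lit 154)))) (XT.nd (nat_lit 94) (nat_lit 336) (nat_lit 0) (XT.lf (nat_lit 0) (nat_lit 9118499765) (nat_lit 504) (nat_lit 9700947397) (nat_lit 84) (nat_lit 17594106629) (nat_lit 47) (nat_lit 5) (nat_lit 53) (nat_lit 5) (nat_lit 48) (nat_lit 5) (nat_lit 374) (nat_lit 334) (nat_lit 153)) (XT.nd (nat_lit 94) (nat_lit 0) (nat_lit 0) (XT.lf (nat_lit 0) (nat_lit 2102493633) (nat_lit 336) (nat_lit 9952953033) (nat_lit 420) (nat_lit 25145263727) (nat_lit 43) (nat_lit 5) (nat_lit 47) (nat_lit 5) (nat_lit 48) (nat_lit 5) (nat_lit 375) (nat_lit 334) (nat_lit 152)) (XT.lf (nat_lit 0) (nat_lit 14474744103) (nat_lit 336) (nat_lit 707573140) (nat_lit 420) (nat_lit 22826897197) (nat_lit 43) (nat_lit 5) (nat_lit 47) (nat_lit 5) (nat_lit 48) (nat_lit 5) (nat_lit 376) (nat_lit 334) (nat_lit 151))))) (XT.nd (nat_lit 282) (nat_lit 252) (nat_lit 0) (XT.nd (nat_lit 94) (nat_lit 336) (nat_lit 0)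 (XT.lf (nat_lit 0) (nat_lit 18491348379) (nat_lit 420) (nat_lit 11702534978) (nat_lit 84) (nat_lit 8646267195) (nat_lit 43) (nat_lit 5) (nat_lit 48) (nat_lit 5) (nat_lit 44) (nat_lit 5) (nat_lit 377) (nat_lit 334) (nat_lit 150)) (XT.nd (nat_lit 94) (nat_lit 0) (nat_lit 0) (XT.lf (nat_lit 0) (nat_lit 496287350) (nat_lit 336) (nat_lit 21416589975) (nat_lit 420) (nat_lit 17783671085) (nat_lit 39) (nat_lit 5) (nat_lit 43) (nat_lit 5) (nat_lit 44) (nat_lit 5) (nat_lit 378) (nat_lit 334) (nat_lit 149)) (XT.lf (nat_lit 0) (nat_lit 13318722443) (nat_lit 336) (nat_lit 12241700738) (nat_lit 420) (nat_lit 15015362858) (nat_lit 39) (nat_lit 5) (nat_lit 43) (nat_lit 5) (nat_lit 44) (nat_lit 5) (nat_lit 379) (nat_lit 334) (nat_lit 148)))) (XT.nd (nat_lit 94) (nat_lit 252) (nat_lit 0) (XT.lf (nat_lit 0) (nat_lit 26536094034) (nat_lit 336) (nat_lit 2782814152) (nat_lit 420) (nat_lit 12163447602) (nat_lit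 39) (nat_lit 5) (nat_lit 43) (nat_lit 5) (nat_lit 44) (nat_lit 5) (nat_lit 380) (nat_lit 334) (nat_lit 147)) (XT.nd (nat_lit 94) (nat_lit 252) (nat_lit 0) (XT.lf (nat_lit 0) (nat_lit 33260967860) (nat_lit 420) (nat_lit 2325512796) (nat_lit 84) (nat_lit 6828478922) (nat_lit 39) (nat_lit 5) (nat_lit 44) (nat_lit 5) (nat_lit 40) (nat_lit 5) (nat_lit 381) (nat_lit 334) (nat_lit 146)) (XT.lf (nat_lit 0) (nat_lit 10874642831) (nat_lit 252) (nat_lit 26584915711) (nat_lit 336) (nat_lit 5912760409) (nat_lit 36) (nat_lit 5) (nat_lit 39) (nat_lit 5) (nat_lit 40) (nat_lit 5) (nat_lit 382) (nat_lit 334) (nat_lit 145))))))) (XT.nd (nat_lit 1128) (nat_lit 672) (nat_lit 0) (XT.nd (nat_lit 564) (nat_lit 252) (nat_lit 0) (XT.nd (nat_lit 282) (nat_lit 252) (nat_lit 0) (XT.nd (nat_lit 94) (nat_lit 420) (nat_lit 0) (XT.lf (nat_lit 0) (nat_lit 24530853262) (nat_lit 252) (nat_lit 17279749776) (nat_lit 336)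 (nat_lit 2548070941) (nat_lit 36) (nat_lit 5) (nat_lit 39) (nat_lit 5) (nat_lit 40) (nat_lit 5) (nat_lit 383) (nat_lit 334) (nat_lit 144)) (XT.nd (nat_lit 94) (nat_lit 336) (nat_lit 0) (XT.lf (nat_lit 0) (nat_lit 900424763) (nat_lit 336) (nat_lit 6776759696) (nat_lit 84) (nat_lit 37698206851) (nat_lit 35) (nat_lit 5) (nat_lit 39) (nat_lit 5) (nat_lit 36) (nat_lit 5) (nat_lit 384) (nat_lit 334) (nat_lit 143)) (XT.lf (nat_lit 0) (nat_lit 4491341950) (nat_lit 420) (nat_lit 39656582329) (nat_lit 84) (nat_lit 2272160815) (nat_lit 31) (nat_lit 5) (nat_lit 36) (nat_lit 5) (nat_lit 32) (nat_lit 5) (nat_lit 385) (nat_lit 334) (nat_lit 142)))) (XT.nd (nat_lit 94) (nat_lit 252) (nat_lit 0) (XT.lf (nat_lit 0) (nat_lit 8341698844) (nat_lit 420) (nat_lit 26709425442) (nat_lit 84) (nat_lit 12441456072) (nat_lit 31) (nat_lit 5) (nat_lit 36) (nat_lit 5) (nat_lit 32) (nat_lit 5) (nat_lit 386) (nat_lit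 334) (nat_lit 141)) (XT.nd (nat_lit 94) (nat_lit 252) (nat_lit 0) (XT.lf (nat_lit 0) (nat_lit 12309615450) (nat_lit 420) (nat_lit 13363222860) (nat_lit 84) (nat_lit 22925548008) (nat_lit 31) (nat_lit 5) (nat_lit 36) (nat_lit 5) (nat_lit 32) (nat_lit 5) (nat_lit 387) (nat_lit 334) (nat_lit 140)) (XT.lf (nat_lit 0) (nat_lit 402576493) (nat_lit 252) (nat_lit 16000207397) (nat_lit 336) (nat_lit 33335626009) (nat_lit 28) (nat_lit 5) (nat_lit 31) (nat_lit 5) (nat_lit 32) (nat_lit 5) (nat_lit 388) (nat_lit 334) (nat_lit 139))))) (XT.nd (nat_lit 282) (nat_lit 252) (nat_lit 0) (XT.nd (nat_lit 94) (nat_lit 0) (nat_lit 0) (XT.lf (nat_lit 0) (nat_lit 14876185148) (nat_lit 252) (nat_lit 5884423331) (nat_lit 336) (nat_lit 30148901985) (nat_lit 28) (nat_lit 5) (nat_lit 31) (nat_lit 5) (nat_lit 32) (nat_lit 5) (nat_lit 389) (nat_lit 334) (nat_lit 138)) (XT.nd (nat_lit 94) (nat_lit 0) (nat_lit 0) (XT.lf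 (nat_lit 0) (nat_lit 25296942120) (nat_lit 336) (nat_lit 22365736442) (nat_lit 84) (nat_lit 4452897514) (nat_lit 28) (nat_lit 5) (nat_lit 32) (nat_lit 5) (nat_lit 29) (nat_lit 5) (nat_lit 390) (nat_lit 334) (nat_lit 137)) (XT.lf (nat_lit 0) (nat_lit 30032466150) (nat_lit 336) (nat_lit 8336780158) (nat_lit 84) (nat_lit 14987974569) (nat_lit 28) (nat_lit 5) (nat_lit 32) (nat_lit 5) (nat_lit 29) (nat_lit 5) (nat_lit 391) (nat_lit 334) (nat_lit 136)))) (XT.nd (nat_lit 94) (nat_lit 0) (nat_lit 0) (XT.lf (nat_lit 0) (nat_lit 6250936642) (nat_lit 252) (nat_lit 28724293787) (nat_lit 336) (nat_lit 19660259067) (nat_lit 25) (nat_lit 5) (nat_lit 28) (nat_lit 5) (nat_lit 29) (nat_lit 5) (nat_lit 392) (nat_lit 334) (nat_lit 135)) (XT.nd (nat_lit 94) (nat_lit 0) (nat_lit 0) (XT.lf (nat_lit 0) (nat_lit 21465549508) (nat_lit 252) (nat_lit 18691145539) (nat_lit 336) (nat_lit 15794045928) (nat_lit 25)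 (nat_lit 5) (nat_lit 28) (nat_lit 5) (nat_lit 29) (nat_lit 5) (nat_lit 393) (nat_lit 334) (nat_lit 134)) (XT.lf (nat_lit 0) (nat_lit 37149818751) (nat_lit 252) (nat_lit 8347468506) (nat_lit 336) (nat_lit 11809530481) (nat_lit 25) (nat_lit 5) (nat_lit 28) (nat_lit 5) (nat_lit 29) (nat_lit 5) (nat_lit 394) (nat_lit 334) (nat_lit 133)))))) (XT.nd (nat_lit 564) (nat_lit 168) (nat_lit 0) (XT.nd (nat_lit 282) (nat_lit 252) (nat_lit 0) (XT.nd (nat_lit 94) (nat_lit 252) (nat_lit 0) (XT.lf (nat_lit 0) (nat_lit 51024963816) (nat_lit 336) (nat_lit 5409598802) (nat_lit 84) (nat_lit 2269708833) (nat_lit 25) (nat_lit 5) (nat_lit 29) (nat_lit 5) (nat_lit 26) (nat_lit 5) (nat_lit 395) (nat_lit 334) (nat_lit 132)) (XT.nd (nat_lit 94) (nat_lit 84) (nat_lit 0) (XT.lf (nat_lit 0) (nat_lit 9907282400) (nat_lit 168) (nat_lit 46998958634) (nat_lit 252) (nat_lit 3233161371) (nat_lit 23) (nat_lit 5) (nat_lit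 25) (nat_lit 5) (nat_lit 26) (nat_lit 5) (nat_lit 396) (nat_lit 334) (nat_lit 131)) (XT.lf (nat_lit 0) (nat_lit 1379232372) (nat_lit 252) (nat_lit 35819520152) (nat_lit 84) (nat_lit 24418135229) (nat_lit 22) (nat_lit 5) (nat_lit 25) (nat_lit 5) (nat_lit 23) (nat_lit 5) (nat_lit 397) (nat_lit 334) (nat_lit 130)))) (XT.nd (nat_lit 94) (nat_lit 252) (nat_lit 0) (XT.lf (nat_lit 0) (nat_lit 6066082586) (nat_lit 252) (nat_lit 20995077029) (nat_lit 84) (nat_lit 36078038023) (nat_lit 22) (nat_lit 5) (nat_lit 25) (nat_lit 5) (nat_lit 23) (nat_lit 5) (nat_lit 398) (nat_lit 334) (nat_lit 129)) (XT.nd (nat_lit 94) (nat_lit 252) (nat_lit 0) (XT.lf (nat_lit 0) (nat_lit 10896898903) (nat_lit 252) (nat_lit 5712899342) (nat_lit 84) (nat_lit 48098947042) (nat_lit 22) (nat_lit 5) (nat_lit 25) (nat_lit 5) (nat_lit 23) (nat_lit 5) (nat_lit 399) (nat_lit 334) (nat_lit 128)) (XT.lf (nat_lit 0) (nat_lit 10247726346)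 (nat_lit 252) (nat_lit 5730116516) (nat_lit 336) (nat_lit 50345999401) (nat_lit 19) (nat_lit 5) (nat_lit 22) (nat_lit 5) (nat_lit 23) (nat_lit 5) (nat_lit 400) (nat_lit 334) (nat_lit 127))))) (XT.nd (nat_lit 282) (nat_lit 168) (nat_lit 0) (XT.nd (nat_lit 94) (nat_lit 0) (nat_lit 0) (XT.lf (nat_lit 0) (nat_lit 21329697129) (nat_lit 336) (nat_lit 41219746359) (nat_lit 84) (nat_lit 5436053069) (nat_lit 19) (nat_lit 5) (nat_lit 23) (nat_lit 5) (nat_lit 20) (nat_lit 5) (nat_lit 401) (nat_lit 334) (nat_lit 126)) (XT.nd (nat_lit 94) (nat_lit 0) (nat_lit 0) (XT.lf (nat_lit 0) (nat_lit 26904832796) (nat_lit 336) (nat_lit 25963170745) (nat_lit 84) (nat_lit 16828884605) (nat_lit 19) (nat_lit 5) (nat_lit 23) (nat_lit 5) (nat_lit 20) (nat_lit 5) (nat_lit 402) (nat_lit 334) (nat_lit 125)) (XT.lf (nat_lit 0) (nat_lit 32651603007) (nat_lit 336) (nat_lit 10235324884) (nat_lit 84) (nat_lit 28574446480)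 (nat_lit 19) (nat_lit 5) (nat_lit 23) (nat_lit 5) (nat_lit 20) (nat_lit 5) (nat_lit 403) (nat_lit 334) (nat_lit 124)))) (XT.nd (nat_lit 188) (nat_lit 0) (nat_lit 0) (XT.nd (nat_lit 94) (nat_lit 0) (nat_lit 0) (XT.lf (nat_lit 0) (nat_lit 6101380441) (nat_lit 168) (nat_lit 32534510363) (nat_lit 252) (nat_lit 34642832798) (nat_lit 17) (nat_lit 5) (nat_lit 19) (nat_lit 5) (nat_lit 20) (nat_lit 5) (nat_lit 404) (nat_lit 334) (nat_lit 123)) (XT.lf (nat_lit 0) (nat_lit 23159890698) (nat_lit 168) (nat_lit 21751496689) (nat_lit 252) (nat_lit 30237750897) (nat_lit 17) (nat_lit 5) (nat_lit 19) (nat_lit 5) (nat_lit 20) (nat_lit 5) (nat_lit 405) (nat_lit 334) (nat_lit 122))) (XT.nd (nat_lit 94) (nat_lit 0) (nat_lit 0) (XT.lf (nat_lit 0) (nat_lit 40745646935) (nat_lit 168) (nat_lit 10634671771) (nat_lit 252) (nat_lit 25697255465) (nat_lit 17) (nat_lit 5) (nat_lit 19) (nat_lit 5) (nat_lit 20) (nat_lit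 5) (nat_lit 406) (nat_lit 334) (nat_lit 121)) (XT.lf (nat_lit 0) (nat_lit 58056911743) (nat_lit 252) (nat_lit 20198985111) (nat_lit 84) (nat_lit 809677798) (nat_lit 17) (nat_lit 5) (nat_lit 20) (nat_lit 5) (nat_lit 18) (nat_lit 5) (nat_lit 407) (nat_lit 334) (nat_lit 120))))))))
noncomputable def xc188 : XT := (XT.nd (nat_lit 48880) (nat_lit 0) (nat_lit 2436) (XT.nd (nat_lit 47752) (nat_lit 0) (nat_lit 6804) (XT.nd (nat_lit 47188) (nat_lit 0) (nat_lit 6636) (XT.nd (nat_lit 282) (nat_lit 84) (nat_lit 0) (XT.nd (nat_lit 94) (nat_lit 168) (nat_lit 0) (XT.lf (nat_lit 0) (nat_lit 65048202357) (nat_lit 252) (nat_lit 3676196192) (nat_lit 84) (nat_lit 12387469011) (nat_lit 17) (nat_lit 5) (nat_lit 20) (nat_lit 5) (nat_lit 18) (nat_lit 5) (nat_lit 408) (nat_lit 334) (nat_lit 119)) (XT.nd (nat_lit 94) (nat_lit 0) (nat_lit 0) (XT.lf (nat_lit 0) (nat_lit 13631992009) (nat_lit 168) (nat_lit 58758448942)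 (nat_lit 252) (nat_lit 10826997557) (nat_lit 15) (nat_lit 5) (nat_lit 17) (nat_lit 5) (nat_lit 18) (nat_lit 5) (nat_lit 409) (nat_lit 334) (nat_lit 118)) (XT.lf (nat_lit 0) (nat_lit 31553220835) (nat_lit 168) (nat_lit 48444443088) (nat_lit 252) (nat_lit 5389463211) (nat_lit 15) (nat_lit 5) (nat_lit 17) (nat_lit 5) (nat_lit 18) (nat_lit 5) (nat_lit 410) (nat_lit 334) (nat_lit 117)))) (XT.nd (nat_lit 94) (nat_lit 0) (nat_lit 0) (XT.lf (nat_lit 0) (nat_lit 211289685) (nat_lit 252) (nat_lit 37597644087) (nat_lit 84) (nat_lit 49815109499) (nat_lit 14) (nat_lit 5) (nat_lit 17) (nat_lit 5) (nat_lit 15) (nat_lit 5) (nat_lit 411) (nat_lit 334) (nat_lit 116)) (XT.nd (nat_lit 94) (nat_lit 0) (nat_lit 0) (XT.lf (nat_lit 0) (nat_lit 5872763263) (nat_lit 252) (nat_lit 20914563067) (nat_lit 84) (nat_lit 63141301474) (nat_lit 14) (nat_lit 5) (nat_lit 17) (nat_lit 5) (nat_lit 15) (nat_lit 5) (nat_lit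 412) (nat_lit 334) (nat_lit 115)) (XT.lf (nat_lit 0) (nat_lit 11708820281) (nat_lit 252) (nat_lit 3715648718) (nat_lit 84) (nat_lit 76880217239) (nat_lit 14) (nat_lit 5) (nat_lit 17) (nat_lit 5) (nat_lit 15) (nat_lit 5) (nat_lit 413) (nat_lit 334) (nat_lit 114))))) (XT.nd (nat_lit 282) (nat_lit 0) (nat_lit 84) (XT.nd (nat_lit 94) (nat_lit 0) (nat_lit 0) (XT.lf (nat_lit 0) (nat_lit 3375046911) (nat_lit 1092) (nat_lit 2843621795) (nat_lit 1092) (nat_lit 2843621795) (nat_lit 93) (nat_lit 3) (nat_lit 106) (nat_lit 3) (nat_lit 106) (nat_lit 5) (nat_lit 335) (nat_lit 335) (nat_lit 191)) (XT.nd (nat_lit 94) (nat_lit 0) (nat_lit 0) (XT.lf (nat_lit 84) (nat_lit 654028405) (nat_lit 0) (nat_lit 6371423067) (nat_lit 1092) (nat_lit 11373857326) (nat_lit 94) (nat_lit 5) (nat_lit 93) (nat_lit 3) (nat_lit 106) (nat_lit 5) (nat_lit 336) (nat_lit 335) (nat_lit 190)) (XT.lf (nat_lit 84) (nat_lit 7308945819)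 (nat_lit 0) (nat_lit 53109557) (nat_lit 1092) (nat_lit 11318900454) (nat_lit 94) (nat_lit 5) (nat_lit 93) (nat_lit 3) (nat_lit 106) (nat_lit 5) (nat_lit 337) (nat_lit 335) (nat_lit 189)))) (XT.nd (nat_lit 94) (nat_lit 0) (nat_lit 0) (XT.lf (nat_lit 0) (nat_lit 7766766011) (nat_lit 1008) (nat_lit 4868924174) (nat_lit 1092) (nat_lit 6333891488) (nat_lit 94) (nat_lit 5) (nat_lit 106) (nat_lit 5) (nat_lit 107) (nat_lit 5) (nat_lit 338) (nat_lit 335) (nat_lit 188)) (XT.nd (nat_lit 94) (nat_lit 0) (nat_lit 84) (XT.lf (nat_lit 84) (nat_lit 1869325673) (nat_lit 0) (nat_lit 6327554624) (nat_lit 1092) (nat_lit 11069910552) (nat_lit 95) (nat_lit 5) (nat_lit 94) (nat_lit 5) (nat_lit 107) (nat_lit 5) (nat_lit 339) (nat_lit 335) (nat_lit 187)) (XT.lf (nat_lit 0) (nat_lit 8687365103) (nat_lit 1008) (nat_lit 10657987727) (nat_lit 1092) (nat_lit 226436014) (nat_lit 95) (nat_lit 5) (nat_lit 107) (nat_lit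 5) (nat_lit 108) (nat_lit 5) (nat_lit 340) (nat_lit 335) (nat_lit 186)))))) (XT.nd (nat_lit 564) (nat_lit 0) (nat_lit 168) (XT.nd (nat_lit 282) (nat_lit 0) (nat_lit 84) (XT.nd (nat_lit 94) (nat_lit 0) (nat_lit 0) (XT.lf (nat_lit 0) (nat_lit 9251901241) (nat_lit 1008) (nat_lit 3777951884) (nat_lit 1092) (nat_lit 6854596889) (nat_lit 95) (nat_lit 5) (nat_lit 107) (nat_lit 5) (nat_lit 108) (nat_lit 5) (nat_lit 341) (nat_lit 335) (nat_lit 185)) (XT.nd (nat_lit 94) (nat_lit 0) (nat_lit 84) (XT.lf (nat_lit 84) (nat_lit 3379923315) (nat_lit 0) (nat_lit 6481850736) (nat_lit 1092) (nat_lit 10344198208) (nat_lit 96) (nat_lit 5) (nat_lit 95) (nat_lit 5) (nat_lit 108) (nat_lit 5) (nat_lit 342) (nat_lit 335) (nat_lit 184)) (XT.lf (nat_lit 0) (nat_lit 10527523791) (nat_lit 1008) (nat_lit 9703256232) (nat_lit 1092) (nat_lit 305566125) (nat_lit 96) (nat_lit 5) (nat_lit 108) (nat_lit 5) (nat_lit 109)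 (nat_lit 5) (nat_lit 343) (nat_lit 335) (nat_lit 183)))) (XT.nd (nat_lit 94) (nat_lit 0) (nat_lit 0) (XT.lf (nat_lit 0) (nat_lit 11274835909) (nat_lit 1008) (nat_lit 2429565983) (nat_lit 1092) (nat_lit 7170700716) (nat_lit 96) (nat_lit 5) (nat_lit 108) (nat_lit 5) (nat_lit 109) (nat_lit 5) (nat_lit 344) (nat_lit 335) (nat_lit 182)) (XT.nd (nat_lit 94) (nat_lit 0) (nat_lit 84) (XT.lf (nat_lit 84) (nat_lit 5170271859) (nat_lit 0) (nat_lit 6921124096) (nat_lit 1092) (nat_lit 9131564787) (nat_lit 97) (nat_lit 5) (nat_lit 96) (nat_lit 5) (nat_lit 109) (nat_lit 5) (nat_lit 345) (nat_lit 335) (nat_lit 181)) (XT.lf (nat_lit 0) (nat_lit 12954536706) (nat_lit 1008) (nat_lit 8528256406) (nat_lit 1092) (nat_lit 98177953) (nat_lit 97) (nat_lit 5) (nat_lit 109) (nat_lit 5) (nat_lit 110) (nat_lit 5) (nat_lit 346) (nat_lit 335) (nat_lit 180))))) (XT.nd (nat_lit 282) (nat_lit 0) (nat_lit 84) (XT.nd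 (nat_lit 94) (nat_lit 0) (nat_lit 0) (XT.lf (nat_lit 0) (nat_lit 13910303811) (nat_lit 1008) (nat_lit 844915260) (nat_lit 1092) (nat_lit 7192845736) (nat_lit 97) (nat_lit 5) (nat_lit 109) (nat_lit 5) (nat_lit 110) (nat_lit 5) (nat_lit 347) (nat_lit 335) (nat_lit 179)) (XT.nd (nat_lit 94) (nat_lit 0) (nat_lit 0) (XT.lf (nat_lit 84) (nat_lit 7218593206) (nat_lit 0) (nat_lit 7743945869) (nat_lit 1092) (nat_lit 7361953585) (nat_lit 98) (nat_lit 5) (nat_lit 97) (nat_lit 5) (nat_lit 110) (nat_lit 5) (nat_lit 348) (nat_lit 335) (nat_lit 178)) (XT.lf (nat_lit 84) (nat_lit 15546562352) (nat_lit 0) (nat_lit 504990002) (nat_lit 1092) (nat_lit 6660933938) (nat_lit 98) (nat_lit 5) (nat_lit 97) (nat_lit 5) (nat_lit 110) (nat_lit 5) (nat_lit 349) (nat_lit 335) (nat_lit 177)))) (XT.nd (nat_lit 94) (nat_lit 0) (nat_lit 0) (XT.lf (nat_lit 84) (nat_lit 967155153) (nat_lit 0) (nat_lit 16281283722) (nat_lit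 1092) (nat_lit 5861795994) (nat_lit 99) (nat_lit 5) (nat_lit 98) (nat_lit 5) (nat_lit 111) (nat_lit 5) (nat_lit 350) (nat_lit 335) (nat_lit 176)) (XT.nd (nat_lit 94) (nat_lit 0) (nat_lit 0) (XT.lf (nat_lit 84) (nat_lit 9495544078) (nat_lit 0) (nat_lit 9062387776) (nat_lit 1092) (nat_lit 4960065136) (nat_lit 99) (nat_lit 5) (nat_lit 98) (nat_lit 5) (nat_lit 111) (nat_lit 5) (nat_lit 351) (nat_lit 335) (nat_lit 175)) (XT.lf (nat_lit 84) (nat_lit 18284958662) (nat_lit 0) (nat_lit 1618785822) (nat_lit 1092) (nat_lit 4034810975) (nat_lit 99) (nat_lit 5) (nat_lit 98) (nat_lit 5) (nat_lit 111) (nat_lit 5) (nat_lit 352) (nat_lit 335) (nat_lit 174))))))) (XT.nd (nat_lit 1128) (nat_lit 1596) (nat_lit 0) (XT.nd (nat_lit 564) (nat_lit 1428) (nat_lit 0) (XT.nd (nat_lit 282) (nat_lit 672) (nat_lit 0) (XT.nd (nat_lit 94) (nat_lit 0) (nat_lit 0) (XT.lf (nat_lit 0) (nat_lit 2971068856) (nat_lit 1008)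 (nat_lit 18405616557) (nat_lit 1092) (nat_lit 2992840691) (nat_lit 87) (nat_lit 5) (nat_lit 99) (nat_lit 5) (nat_lit 100) (nat_lit 5) (nat_lit 353) (nat_lit 335) (nat_lit 173)) (XT.nd (nat_lit 94) (nat_lit 0) (nat_lit 0) (XT.lf (nat_lit 0) (nat_lit 11962676748) (nat_lit 1008) (nat_lit 11003965103) (nat_lit 1092) (nat_lit 1845024837) (nat_lit 87) (nat_lit 5) (nat_lit 99) (nat_lit 5) (nat_lit 100) (nat_lit 5) (nat_lit 354) (nat_lit 335) (nat_lit 172)) (XT.lf (nat_lit 0) (nat_lit 21229747204) (nat_lit 1008) (nat_lit 3372215032) (nat_lit 1092) (nat_lit 665694239) (nat_lit 87) (nat_lit 5) (nat_lit 99) (nat_lit 5) (nat_lit 100) (nat_lit 5) (nat_lit 355) (nat_lit 335) (nat_lit 171)))) (XT.nd (nat_lit 94) (nat_lit 0) (nat_lit 0) (XT.lf (nat_lit 0) (nat_lit 631430928) (nat_lit 672) (nat_lit 20640195123) (nat_lit 84) (nat_lit 4463144684) (nat_lit 79) (nat_lit 5) (nat_lit 87) (nat_lit 5) (nat_lit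 80) (nat_lit 5) (nat_lit 356) (nat_lit 335) (nat_lit 170)) (XT.nd (nat_lit 94) (nat_lit 0) (nat_lit 0) (XT.lf (nat_lit 0) (nat_lit 2028230942) (nat_lit 672) (nat_lit 11664406111) (nat_lit 84) (nat_lit 12521264694) (nat_lit 79) (nat_lit 5) (nat_lit 87) (nat_lit 5) (nat_lit 80) (nat_lit 5) (nat_lit 357) (nat_lit 335) (nat_lit 169)) (XT.lf (nat_lit 0) (nat_lit 3464668918) (nat_lit 672) (nat_lit 2413652650) (nat_lit 84) (nat_lit 20829696545) (nat_lit 79) (nat_lit 5) (nat_lit 87) (nat_lit 5) (nat_lit 80) (nat_lit 5) (nat_lit 358) (nat_lit 335) (nat_lit 168))))) (XT.nd (nat_lit 282) (nat_lit 924) (nat_lit 0) (XT.nd (nat_lit 94) (nat_lit 0) (nat_lit 0) (XT.lf (nat_lit 0) (nat_lit 5036523676) (nat_lit 588) (nat_lit 19970591056) (nat_lit 84) (nat_lit 2207538032) (nat_lit 73) (nat_lit 5) (nat_lit 80) (nat_lit 5) (nat_lit 74) (nat_lit 5) (nat_lit 359) (nat_lit 335) (nat_lit 167)) (XT.nd (nat_lit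 94) (nat_lit 0) (nat_lit 0) (XT.lf (nat_lit 0) (nat_lit 6739204625) (nat_lit 588) (nat_lit 10547540391) (nat_lit 84) (nat_lit 10447720647) (nat_lit 73) (nat_lit 5) (nat_lit 80) (nat_lit 5) (nat_lit 74) (nat_lit 5) (nat_lit 360) (nat_lit 335) (nat_lit 166)) (XT.lf (nat_lit 0) (nat_lit 8491299173) (nat_lit 588) (nat_lit 835559066) (nat_lit 84) (nat_lit 18943656081) (nat_lit 73) (nat_lit 5) (nat_lit 80) (nat_lit 5) (nat_lit 74) (nat_lit 5) (nat_lit 361) (nat_lit 335) (nat_lit 165)))) (XT.nd (nat_lit 94) (nat_lit 420) (nat_lit 0) (XT.lf (nat_lit 0) (nat_lit 9363050095) (nat_lit 504) (nat_lit 1024272978) (nat_lit 588) (nat_lit 18433095957) (nat_lit 67) (nat_lit 5) (nat_lit 73) (nat_lit 5) (nat_lit 74) (nat_lit 5) (nat_lit 362) (nat_lit 335) (nat_lit 164)) (XT.nd (nat_lit 94) (nat_lit 420) (nat_lit 0) (XT.lf (nat_lit 0) (nat_lit 12422490609) (nat_lit 588) (nat_lit 9569588698) (nat_lit 84)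 (nat_lit 7392816194) (nat_lit 67) (nat_lit 5) (nat_lit 74) (nat_lit 5) (nat_lit 68) (nat_lit 5) (nat_lit 363) (nat_lit 335) (nat_lit 163)) (XT.lf (nat_lit 0) (nat_lit 623725289) (nat_lit 420) (nat_lit 13910583735) (nat_lit 504) (nat_lit 15432156944) (nat_lit 62) (nat_lit 5) (nat_lit 67) (nat_lit 5) (nat_lit 68) (nat_lit 5) (nat_lit 364) (nat_lit 335) (nat_lit 162)))))) (XT.nd (nat_lit 564) (nat_lit 840) (nat_lit 0) (XT.nd (nat_lit 282) (nat_lit 336) (nat_lit 0) (XT.nd (nat_lit 94) (nat_lit 420) (nat_lit 0) (XT.lf (nat_lit 0) (nat_lit 11332855219) (nat_lit 420) (nat_lit 5475585887) (nat_lit 504) (nat_lit 13754636886) (nat_lit 62) (nat_lit 5) (nat_lit 67) (nat_lit 5) (nat_lit 68) (nat_lit 5) (nat_lit 365) (nat_lit 335) (nat_lit 161)) (XT.nd (nat_lit 94) (nat_lit 420) (nat_lit 0) (XT.lf (nat_lit 0) (nat_lit 19182074714) (nat_lit 504) (nat_lit 8839229939) (nat_lit 84) (nat_lit 3155995911)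 (nat_lit 62) (nat_lit 5) (nat_lit 68) (nat_lit 5) (nat_lit 63) (nat_lit 5) (nat_lit 366) (nat_lit 335) (nat_lit 160)) (XT.lf (nat_lit 0) (nat_lit 1852230242) (nat_lit 420) (nat_lit 19848577823) (nat_lit 504) (nat_lit 10107553182) (nat_lit 57) (nat_lit 5) (nat_lit 62) (nat_lit 5) (nat_lit 63) (nat_lit 5) (nat_lit 367) (nat_lit 335) (nat_lit 159)))) (XT.nd (nat_lit 94) (nat_lit 336) (nat_lit 0) (XT.lf (nat_lit 0) (nat_lit 13059573402) (nat_lit 420) (nat_lit 11327509389) (nat_lit 504) (nat_lit 8069142553) (nat_lit 57) (nat_lit 5) (nat_lit 62) (nat_lit 5) (nat_lit 63) (nat_lit 5) (nat_lit 368) (nat_lit 335) (nat_lit 158)) (XT.nd (nat_lit 94) (nat_lit 336) (nat_lit 0) (XT.lf (nat_lit 0) (nat_lit 24611493262) (nat_lit 420) (nat_lit 2542420255) (nat_lit 504) (nat_lit 5970357383) (nat_lit 57) (nat_lit 5) (nat_lit 62) (nat_lit 5) (nat_lit 63) (nat_lit 5) (nat_lit 369) (nat_lit 335) (nat_lit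 157)) (XT.lf (nat_lit 0) (nat_lit 2695312969) (nat_lit 336) (nat_lit 27399932486) (nat_lit 420) (nat_lit 3715042794) (nat_lit 53) (nat_lit 5) (nat_lit 57) (nat_lit 5) (nat_lit 58) (nat_lit 5) (nat_lit 370) (nat_lit 335) (nat_lit 156))))) (XT.nd (nat_lit 282) (nat_lit 336) (nat_lit 0) (XT.nd (nat_lit 94) (nat_lit 504) (nat_lit 0) (XT.lf (nat_lit 0) (nat_lit 14401953410) (nat_lit 336) (nat_lit 18837814133) (nat_lit 420) (nat_lit 1274344923) (nat_lit 53) (nat_lit 5) (nat_lit 57) (nat_lit 5) (nat_lit 58) (nat_lit 5) (nat_lit 371) (nat_lit 335) (nat_lit 155)) (XT.nd (nat_lit 94) (nat_lit 420) (nat_lit 0) (XT.lf (nat_lit 0) (nat_lit 1214444094) (nat_lit 420) (nat_lit 8783385340) (nat_lit 84) (nat_lit 25241634653) (nat_lit 52) (nat_lit 5) (nat_lit 57) (nat_lit 5) (nat_lit 53) (nat_lit 5) (nat_lit 372) (nat_lit 335) (nat_lit 154)) (XT.lf (nat_lit 0) (nat_lit 2940058010) (nat_lit 420) (nat_lit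 840552069) (nat_lit 504) (nat_lit 32205471426) (nat_lit 47) (nat_lit 5) (nat_lit 52) (nat_lit 5) (nat_lit 53) (nat_lit 5) (nat_lit 373) (nat_lit 335) (nat_lit 153)))) (XT.nd (nat_lit 188) (nat_lit 336) (nat_lit 0) (XT.nd (nat_lit 94) (nat_lit 0) (nat_lit 0) (XT.lf (nat_lit 0) (nat_lit 6601839148) (nat_lit 504) (nat_lit 21628907778) (nat_lit 84) (nat_lit 8519667421) (nat_lit 47) (nat_lit 5) (nat_lit 53) (nat_lit 5) (nat_lit 48) (nat_lit 5) (nat_lit 374) (nat_lit 335) (nat_lit 152)) (XT.lf (nat_lit 0) (nat_lit 9516770819) (nat_lit 504) (nat_lit 9869155112) (nat_lit 84) (nat_lit 18152332816) (nat_lit 47) (nat_lit 5) (nat_lit 53) (nat_lit 5) (nat_lit 48) (nat_lit 5) (nat_lit 375) (nat_lit 335) (nat_lit 151))) (XT.nd (nat_lit 94) (nat_lit 0) (nat_lit 0) (XT.lf (nat_lit 0) (nat_lit 2298850926) (nat_lit 336) (nat_lit 10243737693) (nat_lit 420) (nat_lit 25807311979) (nat_lit 43) (nat_lit 5)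 (nat_lit 47) (nat_lit 5) (nat_lit 48) (nat_lit 5) (nat_lit 376) (nat_lit 335) (nat_lit 150)) (XT.lf (nat_lit 0) (nat_lit 15050696855) (nat_lit 336) (nat_lit 712284936) (nat_lit 420) (nat_lit 23420607709) (nat_lit 43) (nat_lit 5) (nat_lit 47) (nat_lit 5) (nat_lit 48) (nat_lit 5) (nat_lit 377) (nat_lit 335) (nat_lit 149))))))))
noncomputable def xc189 : XT := (XT.nd (nat_lit 2256) (nat_lit 420) (nat_lit 0) (XT.nd (nat_lit 1128) (nat_lit 756) (nat_lit 0) (XT.nd (nat_lit 564) (nat_lit 672) (nat_lit 0) (XT.nd (nat_lit 282) (nat_lit 252) (nat_lit 0) (XT.nd (nat_lit 94) (nat_lit 336) (nat_lit 0) (XT.lf (nat_lit 0) (nat_lit 19171450759) (nat_lit 420) (nat_lit 11938276299) (nat_lit 84) (nat_lit 8930670020) (nat_lit 43) (nat_lit 5) (nat_lit 48) (nat_lit 5) (nat_lit 44) (nat_lit 5) (nat_lit 378) (nat_lit 335) (nat_lit 148)) (XT.nd (nat_lit 94) (nat_lit 0) (nat_lit 0) (XT.lf (nat_lit 0) (nat_lit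 637423382) (nat_lit 336) (nat_lit 22059657812) (nat_lit 420) (nat_lit 18226337605) (nat_lit 39) (nat_lit 5) (nat_lit 43) (nat_lit 5) (nat_lit 44) (nat_lit 5) (nat_lit 379) (nat_lit 335) (nat_lit 147)) (XT.lf (nat_lit 0) (nat_lit 13853572892) (nat_lit 336) (nat_lit 12600973818) (nat_lit 420) (nat_lit 15375478017) (nat_lit 39) (nat_lit 5) (nat_lit 43) (nat_lit 5) (nat_lit 44) (nat_lit 5) (nat_lit 380) (nat_lit 335) (nat_lit 146)))) (XT.nd (nat_lit 94) (nat_lit 252) (nat_lit 0) (XT.lf (nat_lit 0) (nat_lit 27477015620) (nat_lit 336) (nat_lit 2849469710) (nat_lit 420) (nat_lit 12438321374) (nat_lit 39) (nat_lit 5) (nat_lit 43) (nat_lit 5) (nat_lit 44) (nat_lit 5) (nat_lit 381) (nat_lit 335) (nat_lit 145)) (XT.nd (nat_lit 94) (nat_lit 252) (nat_lit 0) (XT.lf (nat_lit 0) (nat_lit 34387970123) (nat_lit 420) (nat_lit 2279650022) (nat_lit 84) (nat_lit 7058800517) (nat_lit 39) (nat_lit 5) (nat_lit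 44) (nat_lit 5) (nat_lit 40) (nat_lit 5) (nat_lit 382) (nat_lit 335) (nat_lit 144)) (XT.lf (nat_lit 0) (nat_lit 11328516254) (nat_lit 252) (nat_lit 27386475251) (nat_lit 336) (nat_lit 5998533075) (nat_lit 36) (nat_lit 5) (nat_lit 39) (nat_lit 5) (nat_lit 40) (nat_lit 5) (nat_lit 383) (nat_lit 335) (nat_lit 143))))) (XT.nd (nat_lit 282) (nat_lit 252) (nat_lit 0) (XT.nd (nat_lit 94) (nat_lit 420) (nat_lit 0) (XT.lf (nat_lit 0) (nat_lit 25404558497) (nat_lit 252) (nat_lit 17793527891) (nat_lit 336) (nat_lit 2532470542) (nat_lit 36) (nat_lit 5) (nat_lit 39) (nat_lit 5) (nat_lit 40) (nat_lit 5) (nat_lit 384) (nat_lit 335) (nat_lit 142)) (XT.nd (nat_lit 94) (nat_lit 336) (nat_lit 0) (XT.lf (nat_lit 0) (nat_lit 1018235902) (nat_lit 336) (nat_lit 6874767106) (nat_lit 84) (nat_lit 38885858572) (nat_lit 35) (nat_lit 5) (nat_lit 39) (nat_lit 5) (nat_lit 36) (nat_lit 5) (nat_lit 385) (nat_lit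 335) (nat_lit 141)) (XT.lf (nat_lit 0) (nat_lit 4719093605) (nat_lit 420) (nat_lit 40772117727) (nat_lit 84) (nat_lit 2364783681) (nat_lit 31) (nat_lit 5) (nat_lit 36) (nat_lit 5) (nat_lit 32) (nat_lit 5) (nat_lit 386) (nat_lit 335) (nat_lit 140)))) (XT.nd (nat_lit 94) (nat_lit 252) (nat_lit 0) (XT.lf (nat_lit 0) (nat_lit 8686149951) (nat_lit 420) (nat_lit 27427021264) (nat_lit 84) (nat_lit 12848660009) (nat_lit 31) (nat_lit 5) (nat_lit 36) (nat_lit 5) (nat_lit 32) (nat_lit 5) (nat_lit 387) (nat_lit 335) (nat_lit 139)) (XT.nd (nat_lit 94) (nat_lit 252) (nat_lit 0) (XT.lf (nat_lit 0) (nat_lit 12774490389) (nat_lit 420) (nat_lit 13670405789) (nat_lit 84) (nat_lit 23657111769) (nat_lit 31) (nat_lit 5) (nat_lit 36) (nat_lit 5) (nat_lit 32) (nat_lit 5) (nat_lit 388) (nat_lit 335) (nat_lit 138)) (XT.lf (nat_lit 0) (nat_lit 521049286) (nat_lit 252) (nat_lit 16472045268) (nat_lit 336) (nat_lit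 34284333159) (nat_lit 28) (nat_lit 5) (nat_lit 31) (nat_lit 5) (nat_lit 32) (nat_lit 5) (nat_lit 389) (nat_lit 335) (nat_lit 137)))))) (XT.nd (nat_lit 564) (nat_lit 504) (nat_lit 0) (XT.nd (nat_lit 282) (nat_lit 252) (nat_lit 0) (XT.nd (nat_lit 94) (nat_lit 0) (nat_lit 0) (XT.lf (nat_lit 0) (nat_lit 15440152825) (nat_lit 252) (nat_lit 6043398593) (nat_lit 336) (nat_lit 31001367358) (nat_lit 28) (nat_lit 5) (nat_lit 31) (nat_lit 5) (nat_lit 32) (nat_lit 5) (nat_lit 390) (nat_lit 335) (nat_lit 136)) (XT.nd (nat_lit 94) (nat_lit 0) (nat_lit 0) (XT.lf (nat_lit 0) (nat_lit 26158350646) (nat_lit 336) (nat_lit 22956882320) (nat_lit 84) (nat_lit 4613216250) (nat_lit 28) (nat_lit 5) (nat_lit 32) (nat_lit 5) (nat_lit 29) (nat_lit 5) (nat_lit 391) (nat_lit 335) (nat_lit 135)) (XT.lf (nat_lit 0) (nat_lit 31038354579) (nat_lit 336) (nat_lit 8496101089) (nat_lit 84) (nat_lit 15474210814) (nat_lit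 28) (nat_lit 5) (nat_lit 32) (nat_lit 5) (nat_lit 29) (nat_lit 5) (nat_lit 392) (nat_lit 335) (nat_lit 134)))) (XT.nd (nat_lit 94) (nat_lit 0) (nat_lit 0) (XT.lf (nat_lit 0) (nat_lit 6542831440) (nat_lit 252) (nat_lit 29590234889) (nat_lit 336) (nat_lit 20193543953) (nat_lit 25) (nat_lit 5) (nat_lit 28) (nat_lit 5) (nat_lit 29) (nat_lit 5) (nat_lit 393) (nat_lit 335) (nat_lit 133)) (XT.nd (nat_lit 94) (nat_lit 0) (nat_lit 0) (XT.lf (nat_lit 0) (nat_lit 22226147169) (nat_lit 252) (nat_lit 19246796070) (nat_lit 336) (nat_lit 16209768873) (nat_lit 25) (nat_lit 5) (nat_lit 28) (nat_lit 5) (nat_lit 29) (nat_lit 5) (nat_lit 394) (nat_lit 335) (nat_lit 132)) (XT.lf (nat_lit 0) (nat_lit 38393767329) (nat_lit 252) (nat_lit 8583179912) (nat_lit 336) (nat_lit 12103955239) (nat_lit 25) (nat_lit 5) (nat_lit 28) (nat_lit 5) (nat_lit 29) (nat_lit 5) (nat_lit 395) (nat_lit 335) (nat_lit 131))))) (XT.nd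 (nat_lit 282) (nat_lit 252) (nat_lit 0) (XT.nd (nat_lit 94) (nat_lit 252) (nat_lit 0) (XT.lf (nat_lit 0) (nat_lit 52674121630) (nat_lit 336) (nat_lit 5485635797) (nat_lit 84) (nat_lit 2361985915) (nat_lit 25) (nat_lit 5) (nat_lit 29) (nat_lit 5) (nat_lit 26) (nat_lit 5) (nat_lit 396) (nat_lit 335) (nat_lit 130)) (XT.nd (nat_lit 94) (nat_lit 84) (nat_lit 0) (XT.lf (nat_lit 0) (nat_lit 10305140741) (nat_lit 168) (nat_lit 48431451686) (nat_lit 252) (nat_lit 3264814002) (nat_lit 23) (nat_lit 5) (nat_lit 25) (nat_lit 5) (nat_lit 26) (nat_lit 5) (nat_lit 397) (nat_lit 335) (nat_lit 129)) (XT.lf (nat_lit 0) (nat_lit 1487161932) (nat_lit 252) (nat_lit 36840332879) (nat_lit 84) (nat_lit 25197248238) (nat_lit 22) (nat_lit 5) (nat_lit 25) (nat_lit 5) (nat_lit 23) (nat_lit 5) (nat_lit 398) (nat_lit 335) (nat_lit 128)))) (XT.nd (nat_lit 94) (nat_lit 252) (nat_lit 0) (XT.lf (nat_lit 0) (nat_lit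 6317344878) (nat_lit 252) (nat_lit 21559025874) (nat_lit 84) (nat_lit 37217941990) (nat_lit 22) (nat_lit 5) (nat_lit 25) (nat_lit 5) (nat_lit 23) (nat_lit 5) (nat_lit 399) (nat_lit 335) (nat_lit 127)) (XT.nd (nat_lit 94) (nat_lit 252) (nat_lit 0) (XT.lf (nat_lit 0) (nat_lit 11296015796) (nat_lit 252) (nat_lit 5805713536) (nat_lit 84) (nat_lit 49610853186) (nat_lit 22) (nat_lit 5) (nat_lit 25) (nat_lit 5) (nat_lit 23) (nat_lit 5) (nat_lit 400) (nat_lit 335) (nat_lit 126)) (XT.lf (nat_lit 0) (nat_lit 10648838232) (nat_lit 252) (nat_lit 5884614892) (nat_lit 336) (nat_lit 51844332879) (nat_lit 19) (nat_lit 5) (nat_lit 22) (nat_lit 5) (nat_lit 23) (nat_lit 5) (nat_lit 401) (nat_lit 335) (nat_lit 125))))))) (XT.nd (nat_lit 47846) (nat_lit 0) (nat_lit 6636) (XT.nd (nat_lit 564) (nat_lit 252) (nat_lit 0) (XT.nd (nat_lit 282) (nat_lit 168) (nat_lit 0) (XT.nd (nat_lit 94) (nat_lit 0) (nat_lit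 0) (XT.lf (nat_lit 0) (nat_lit 22049624469) (nat_lit 336) (nat_lit 42414825000) (nat_lit 84) (nat_lit 5626558214) (nat_lit 19) (nat_lit 5) (nat_lit 23) (nat_lit 5) (nat_lit 20) (nat_lit 5) (nat_lit 402) (nat_lit 335) (nat_lit 124)) (XT.nd (nat_lit 94) (nat_lit 0) (nat_lit 0) (XT.lf (nat_lit 0) (nat_lit 27795824153) (nat_lit 336) (nat_lit 26687783164) (nat_lit 84) (nat_lit 17371906410) (nat_lit 19) (nat_lit 5) (nat_lit 23) (nat_lit 5) (nat_lit 20) (nat_lit 5) (nat_lit 403) (nat_lit 335) (nat_lit 123)) (XT.lf (nat_lit 0) (nat_lit 33719032129) (nat_lit 336) (nat_lit 10474786907) (nat_lit 84) (nat_lit 29480939464) (nat_lit 19) (nat_lit 5) (nat_lit 23) (nat_lit 5) (nat_lit 20) (nat_lit 5) (nat_lit 404) (nat_lit 335) (nat_lit 122)))) (XT.nd (nat_lit 94) (nat_lit 0) (nat_lit 0) (XT.lf (nat_lit 0) (nat_lit 6367568294) (nat_lit 168) (nat_lit 33520368217) (nat_lit 252) (nat_lit 35660543036)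 (nat_lit 17) (nat_lit 5) (nat_lit 19) (nat_lit 5) (nat_lit 20) (nat_lit 5) (nat_lit 405) (nat_lit 335) (nat_lit 121)) (XT.nd (nat_lit 94) (nat_lit 0) (nat_lit 0) (XT.lf (nat_lit 0) (nat_lit 23952575787) (nat_lit 168) (nat_lit 22403764020) (nat_lit 252) (nat_lit 31120593940) (nat_lit 17) (nat_lit 5) (nat_lit 19) (nat_lit 5) (nat_lit 20) (nat_lit 5) (nat_lit 406) (nat_lit 335) (nat_lit 120)) (XT.lf (nat_lit 0) (nat_lit 42081243538) (nat_lit 168) (nat_lit 10942979898) (nat_lit 252) (nat_lit 26440982669) (nat_lit 17) (nat_lit 5) (nat_lit 19) (nat_lit 5) (nat_lit 20) (nat_lit 5) (nat_lit 407) (nat_lit 335) (nat_lit 119))))) (XT.nd (nat_lit 282) (nat_lit 84) (nat_lit 0) (XT.nd (nat_lit 94) (nat_lit 168) (nat_lit 0) (XT.lf (nat_lit 0) (nat_lit 59906459529) (nat_lit 252) (nat_lit 20753337497) (nat_lit 84) (nat_lit 855084508) (nat_lit 17) (nat_lit 5) (nat_lit 20) (nat_lit 5) (nat_lit 18) (nat_lit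 5) (nat_lit 408) (nat_lit 335) (nat_lit 118)) (XT.nd (nat_lit 94) (nat_lit 168) (nat_lit 0) (XT.lf (nat_lit 0) (nat_lit 67112983266) (nat_lit 252) (nat_lit 3720501482) (nat_lit 84) (nat_lit 12791176670) (nat_lit 17) (nat_lit 5) (nat_lit 20) (nat_lit 5) (nat_lit 18) (nat_lit 5) (nat_lit 409) (nat_lit 335) (nat_lit 117)) (XT.lf (nat_lit 0) (nat_lit 14123535341) (nat_lit 168) (nat_lit 60558528046) (nat_lit 252) (nat_lit 11113470808) (nat_lit 15) (nat_lit 5) (nat_lit 17) (nat_lit 5) (nat_lit 18) (nat_lit 5) (nat_lit 410) (nat_lit 335) (nat_lit 116)))) (XT.nd (nat_lit 94) (nat_lit 84) (nat_lit 0) (XT.lf (nat_lit 0) (nat_lit 32598249032) (nat_lit 168) (nat_lit 49925432451) (nat_lit 252) (nat_lit 5508851146) (nat_lit 15) (nat_lit 5) (nat_lit 17) (nat_lit 5) (nat_lit 18) (nat_lit 5) (nat_lit 411) (nat_lit 335) (nat_lit 115)) (XT.nd (nat_lit 94) (nat_lit 0) (nat_lit 0) (XT.lf (nat_lit 0) (nat_lit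 263159422) (nat_lit 252) (nat_lit 38697214941) (nat_lit 84) (nat_lit 51378452550) (nat_lit 14) (nat_lit 5) (nat_lit 17) (nat_lit 5) (nat_lit 15) (nat_lit 5) (nat_lit 412) (nat_lit 335) (nat_lit 114)) (XT.lf (nat_lit 0) (nat_lit 6098776012) (nat_lit 252) (nat_lit 21498941570) (nat_lit 84) (nat_lit 65117182942) (nat_lit 14) (nat_lit 5) (nat_lit 17) (nat_lit 5) (nat_lit 15) (nat_lit 5) (nat_lit 413) (nat_lit 335) (nat_lit 113)))))) (XT.nd (nat_lit 564) (nat_lit 0) (nat_lit 168) (XT.nd (nat_lit 282) (nat_lit 0) (nat_lit 84) (XT.nd (nat_lit 94) (nat_lit 0) (nat_lit 0) (XT.lf (nat_lit 0) (nat_lit 3642287206) (nat_lit 1092) (nat_lit 2847495880) (nat_lit 1092) (nat_lit 2847495880) (nat_lit 93) (nat_lit 3) (nat_lit 106) (nat_lit 3) (nat_lit 106) (nat_lit 5) (nat_lit 336) (nat_lit 336) (nat_lit 189)) (XT.nd (nat_lit 94) (nat_lit 0) (nat_lit 0) (XT.lf (nat_lit 84) (nat_lit 841153186) (nat_lit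 0) (nat_lit 6719191224) (nat_lit 1092) (nat_lit 11397763928) (nat_lit 94) (nat_lit 5) (nat_lit 93) (nat_lit 3) (nat_lit 106) (nat_lit 5) (nat_lit 337) (nat_lit 336) (nat_lit 188)) (XT.lf (nat_lit 84) (nat_lit 7697356214) (nat_lit 0) (nat_lit 200492171) (nat_lit 1092) (nat_lit 11350986198) (nat_lit 94) (nat_lit 5) (nat_lit 93) (nat_lit 3) (nat_lit 106) (nat_lit 5) (nat_lit 338) (nat_lit 336) (nat_lit 187)))) (XT.nd (nat_lit 94) (nat_lit 0) (nat_lit 0) (XT.lf (nat_lit 0) (nat_lit 8304454838) (nat_lit 1008) (nat_lit 4850598289) (nat_lit 1092) (nat_lit 6391735860) (nat_lit 94) (nat_lit 5) (nat_lit 106) (nat_lit 5) (nat_lit 107) (nat_lit 5) (nat_lit 339) (nat_lit 336) (nat_lit 186)) (XT.nd (nat_lit 94) (nat_lit 0) (nat_lit 84) (XT.lf (nat_lit 84) (nat_lit 2094823673) (nat_lit 0) (nat_lit 6645813369) (nat_lit 1092) (nat_lit 11112849310) (nat_lit 95) (nat_lit 5) (nat_lit 94) (nat_lit 5) (nat_lit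 107) (nat_lit 5) (nat_lit 340) (nat_lit 336) (nat_lit 185)) (XT.lf (nat_lit 0) (nat_lit 9236442735) (nat_lit 1008) (nat_lit 10814442369) (nat_lit 1092) (nat_lit 117408569) (nat_lit 95) (nat_lit 5) (nat_lit 107) (nat_lit 5) (nat_lit 108) (nat_lit 5) (nat_lit 341) (nat_lit 336) (nat_lit 184))))) (XT.nd (nat_lit 282) (nat_lit 0) (nat_lit 84) (XT.nd (nat_lit 94) (nat_lit 0) (nat_lit 0) (XT.lf (nat_lit 0) (nat_lit 9810067419) (nat_lit 1008) (nat_lit 3726355513) (nat_lit 1092) (nat_lit 6954531720) (nat_lit 95) (nat_lit 5) (nat_lit 107) (nat_lit 5) (nat_lit 108) (nat_lit 5) (nat_lit 342) (nat_lit 336) (nat_lit 183)) (XT.nd (nat_lit 94) (nat_lit 0) (nat_lit 84) (XT.lf (nat_lit 84) (nat_lit 3651705751) (nat_lit 0) (nat_lit 6780638103) (nat_lit 1092) (nat_lit 10390346948) (nat_lit 96) (nat_lit 5) (nat_lit 95) (nat_lit 5) (nat_lit 108) (nat_lit 5) (nat_lit 343) (nat_lit 336) (nat_lit 182)) (XT.lf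 (nat_lit 0) (nat_lit 11109826711) (nat_lit 1008) (nat_lit 9831756404) (nat_lit 1092) (nat_lit 222043006) (nat_lit 96) (nat_lit 5) (nat_lit 108) (nat_lit 5) (nat_lit 109) (nat_lit 5) (nat_lit 344) (nat_lit 336) (nat_lit 181)))) (XT.nd (nat_lit 188) (nat_lit 0) (nat_lit 84) (XT.nd (nat_lit 94) (nat_lit 0) (nat_lit 0) (XT.lf (nat_lit 0) (nat_lit 11872609636) (nat_lit 1008) (nat_lit 2337762479) (nat_lit 1092) (nat_lit 7302792954) (nat_lit 96) (nat_lit 5) (nat_lit 108) (nat_lit 5) (nat_lit 109) (nat_lit 5) (nat_lit 345) (nat_lit 336) (nat_lit 180)) (XT.lf (nat_lit 84) (nat_lit 5495978396) (nat_lit 0) (nat_lit 7212681246) (nat_lit 1092) (nat_lit 9163368877) (nat_lit 97) (nat_lit 5) (nat_lit 96) (nat_lit 5) (nat_lit 109) (nat_lit 5) (nat_lit 346) (nat_lit 336) (nat_lit 179))) (XT.nd (nat_lit 94) (nat_lit 0) (nat_lit 0) (XT.lf (nat_lit 0) (nat_lit 13590527479) (nat_lit 1008) (nat_lit 8622859330)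 (nat_lit 1092) (nat_lit 28039241) (nat_lit 97) (nat_lit 5) (nat_lit 109) (nat_lit 5) (nat_lit 110) (nat_lit 5) (nat_lit 347) (nat_lit 336) (nat_lit 178)) (XT.lf (nat_lit 0) (nat_lit 14568875446) (nat_lit 1008) (nat_lit 706439326) (nat_lit 1092) (nat_lit 7344842161) (nat_lit 97) (nat_lit 5) (nat_lit 109) (nat_lit 5) (nat_lit 110) (nat_lit 5) (nat_lit 348) (nat_lit 336) (nat_lit 177))))))))
noncomputable def xc190 : XT := (XT.nd (nat_lit 2256) (nat_lit 2352) (nat_lit 0) (XT.nd (nat_lit 1128) (nat_lit 1680) (nat_lit 0) (XT.nd (nat_lit 564) (nat_lit 1176) (nat_lit 0) (XT.nd (nat_lit 282) (nat_lit 840) (nat_lit 0) (XT.nd (nat_lit 94) (nat_lit 0) (nat_lit 0) (XT.lf (nat_lit 84) (nat_lit 7605370783) (nat_lit 0) (nat_lit 8043140209) (nat_lit 1092) (nat_lit 7359942430) (nat_lit 98) (nat_lit 5) (nat_lit 97) (nat_lit 5) (nat_lit 110) (nat_lit 5) (nat_lit 349) (nat_lit 336) (nat_lit 176)) (XT.nd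 (nat_lit 94) (nat_lit 0) (nat_lit 84) (XT.lf (nat_lit 84) (nat_lit 16186605870) (nat_lit 0) (nat_lit 577998734) (nat_lit 1092) (nat_lit 6644113757) (nat_lit 98) (nat_lit 5) (nat_lit 97) (nat_lit 5) (nat_lit 110) (nat_lit 5) (nat_lit 350) (nat_lit 336) (nat_lit 175)) (XT.lf (nat_lit 84) (nat_lit 1161975106) (nat_lit 0) (nat_lit 16831224613) (nat_lit 1092) (nat_lit 5825800026) (nat_lit 99) (nat_lit 5) (nat_lit 98) (nat_lit 5) (nat_lit 111) (nat_lit 5) (nat_lit 351) (nat_lit 336) (nat_lit 174)))) (XT.nd (nat_lit 94) (nat_lit 924) (nat_lit 0) (XT.lf (nat_lit 84) (nat_lit 9949787752) (nat_lit 0) (nat_lit 9387183189) (nat_lit 1092) (nat_lit 4902661642) (nat_lit 99) (nat_lit 5) (nat_lit 98) (nat_lit 5) (nat_lit 111) (nat_lit 5) (nat_lit 352) (nat_lit 336) (nat_lit 173)) (XT.nd (nat_lit 94) (nat_lit 924) (nat_lit 0) (XT.lf (nat_lit 84) (nat_lit 19006866879) (nat_lit 0) (nat_lit 1711510755)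 (nat_lit 1092) (nat_lit 3955073905) (nat_lit 99) (nat_lit 5) (nat_lit 98) (nat_lit 5) (nat_lit 111) (nat_lit 5) (nat_lit 353) (nat_lit 336) (nat_lit 172)) (XT.lf (nat_lit 0) (nat_lit 3224220509) (nat_lit 1008) (nat_lit 19008005576) (nat_lit 1092) (nat_lit 2885735813) (nat_lit 87) (nat_lit 5) (nat_lit 99) (nat_lit 5) (nat_lit 100) (nat_lit 5) (nat_lit 354) (nat_lit 336) (nat_lit 171))))) (XT.nd (nat_lit 282) (nat_lit 504) (nat_lit 0) (XT.nd (nat_lit 94) (nat_lit 672) (nat_lit 0) (XT.lf (nat_lit 0) (nat_lit 12489725855) (nat_lit 1008) (nat_lit 11375946319) (nat_lit 1092) (nat_lit 1708347728) (nat_lit 87) (nat_lit 5) (nat_lit 99) (nat_lit 5) (nat_lit 100) (nat_lit 5) (nat_lit 355) (nat_lit 336) (nat_lit 170)) (XT.nd (nat_lit 94) (nat_lit 672) (nat_lit 0) (XT.lf (nat_lit 0) (nat_lit 22039378707) (nat_lit 1008) (nat_lit 3506684152) (nat_lit 1092) (nat_lit 498287230) (nat_lit 87) (nat_lit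 5) (nat_lit 99) (nat_lit 5) (nat_lit 100) (nat_lit 5) (nat_lit 356) (nat_lit 336) (nat_lit 169)) (XT.lf (nat_lit 0) (nat_lit 831000517) (nat_lit 672) (nat_lit 21118612761) (nat_lit 84) (nat_lit 4576434388) (nat_lit 79) (nat_lit 5) (nat_lit 87) (nat_lit 5) (nat_lit 80) (nat_lit 5) (nat_lit 357) (nat_lit 336) (nat_lit 168)))) (XT.nd (nat_lit 94) (nat_lit 504) (nat_lit 0) (XT.lf (nat_lit 0) (nat_lit 2265689254) (nat_lit 672) (nat_lit 11869428102) (nat_lit 84) (nat_lit 12885109854) (nat_lit 79) (nat_lit 5) (nat_lit 87) (nat_lit 5) (nat_lit 80) (nat_lit 5) (nat_lit 358) (nat_lit 336) (nat_lit 167)) (XT.nd (nat_lit 94) (nat_lit 504) (nat_lit 0) (XT.lf (nat_lit 0) (nat_lit 3741407459) (nat_lit 672) (nat_lit 2336609152) (nat_lit 84) (nat_lit 21451834165) (nat_lit 79) (nat_lit 5) (nat_lit 87) (nat_lit 5) (nat_lit 80) (nat_lit 5) (nat_lit 359) (nat_lit 336) (nat_lit 166)) (XT.lf (nat_lit 0)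 (nat_lit 5358236676) (nat_lit 588) (nat_lit 20433219114) (nat_lit 84) (nat_lit 2260877711) (nat_lit 73) (nat_lit 5) (nat_lit 80) (nat_lit 5) (nat_lit 74) (nat_lit 5) (nat_lit 360) (nat_lit 336) (nat_lit 165)))))) (XT.nd (nat_lit 564) (nat_lit 756) (nat_lit 0) (XT.nd (nat_lit 282) (nat_lit 420) (nat_lit 0) (XT.nd (nat_lit 94) (nat_lit 504) (nat_lit 0) (XT.lf (nat_lit 0) (nat_lit 7108722068) (nat_lit 588) (nat_lit 10722758310) (nat_lit 84) (nat_lit 10756959833) (nat_lit 73) (nat_lit 5) (nat_lit 80) (nat_lit 5) (nat_lit 74) (nat_lit 5) (nat_lit 361) (nat_lit 336) (nat_lit 164)) (XT.nd (nat_lit 94) (nat_lit 504) (nat_lit 0) (XT.lf (nat_lit 0) (nat_lit 8910302580) (nat_lit 588) (nat_lit 714268542) (nat_lit 84) (nat_lit 19516709464) (nat_lit 73) (nat_lit 5) (nat_lit 80) (nat_lit 5) (nat_lit 74) (nat_lit 5) (nat_lit 362) (nat_lit 336) (nat_lit 163)) (XT.lf (nat_lit 0) (nat_lit 9799007307)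 (nat_lit 504) (nat_lit 1062857531) (nat_lit 588) (nat_lit 18846491667) (nat_lit 67) (nat_lit 5) (nat_lit 73) (nat_lit 5) (nat_lit 74) (nat_lit 5) (nat_lit 363) (nat_lit 336) (nat_lit 162)))) (XT.nd (nat_lit 94) (nat_lit 420) (nat_lit 0) (XT.lf (nat_lit 0) (nat_lit 12955470432) (nat_lit 588) (nat_lit 9719528248) (nat_lit 84) (nat_lit 7615500344) (nat_lit 67) (nat_lit 5) (nat_lit 74) (nat_lit 5) (nat_lit 68) (nat_lit 5) (nat_lit 364) (nat_lit 336) (nat_lit 161)) (XT.nd (nat_lit 94) (nat_lit 0) (nat_lit 0) (XT.lf (nat_lit 0) (nat_lit 788293088) (nat_lit 420) (nat_lit 14341456335) (nat_lit 504) (nat_lit 15760464300) (nat_lit 62) (nat_lit 5) (nat_lit 67) (nat_lit 5) (nat_lit 68) (nat_lit 5) (nat_lit 365) (nat_lit 336) (nat_lit 160)) (XT.lf (nat_lit 0) (nat_lit 11825039215) (nat_lit 420) (nat_lit 5644984242) (nat_lit 504) (nat_lit 14035453997) (nat_lit 62) (nat_lit 5) (nat_lit 67) (nat_lit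 5) (nat_lit 68) (nat_lit 5) (nat_lit 366) (nat_lit 336) (nat_lit 159))))) (XT.nd (nat_lit 282) (nat_lit 336) (nat_lit 0) (XT.nd (nat_lit 94) (nat_lit 420) (nat_lit 0) (XT.lf (nat_lit 0) (nat_lit 19913017864) (nat_lit 504) (nat_lit 8971715495) (nat_lit 84) (nat_lit 3254159486) (nat_lit 62) (nat_lit 5) (nat_lit 68) (nat_lit 5) (nat_lit 63) (nat_lit 5) (nat_lit 367) (nat_lit 336) (nat_lit 158)) (XT.nd (nat_lit 94) (nat_lit 0) (nat_lit 0) (XT.lf (nat_lit 0) (nat_lit 2049747082) (nat_lit 420) (nat_lit 20457376435) (nat_lit 504) (nat_lit 10282497263) (nat_lit 57) (nat_lit 5) (nat_lit 62) (nat_lit 5) (nat_lit 63) (nat_lit 5) (nat_lit 368) (nat_lit 336) (nat_lit 157)) (XT.lf (nat_lit 0) (nat_lit 13600305437) (nat_lit 420) (nat_lit 11672350541) (nat_lit 504) (nat_lit 8185057003) (nat_lit 57) (nat_lit 5) (nat_lit 62) (nat_lit 5) (nat_lit 63) (nat_lit 5) (nat_lit 369) (nat_lit 336) (nat_lit 156))))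 (XT.nd (nat_lit 94) (nat_lit 336) (nat_lit 0) (XT.lf (nat_lit 0) (nat_lit 25506249028) (nat_lit 420) (nat_lit 2615113421) (nat_lit 504) (nat_lit 6025245475) (nat_lit 57) (nat_lit 5) (nat_lit 62) (nat_lit 5) (nat_lit 63) (nat_lit 5) (nat_lit 370) (nat_lit 336) (nat_lit 155)) (XT.nd (nat_lit 94) (nat_lit 0) (nat_lit 0) (XT.lf (nat_lit 0) (nat_lit 2913742339) (nat_lit 336) (nat_lit 28237751354) (nat_lit 420) (nat_lit 3702490583) (nat_lit 53) (nat_lit 5) (nat_lit 57) (nat_lit 5) (nat_lit 58) (nat_lit 5) (nat_lit 371) (nat_lit 336) (nat_lit 154)) (XT.lf (nat_lit 0) (nat_lit 14979233236) (nat_lit 336) (nat_lit 19410555489) (nat_lit 420) (nat_lit 1189971305) (nat_lit 53) (nat_lit 5) (nat_lit 57) (nat_lit 5) (nat_lit 58) (nat_lit 5) (nat_lit 372) (nat_lit 336) (nat_lit 153))))))) (XT.nd (nat_lit 1128) (nat_lit 924) (nat_lit 0) (XT.nd (nat_lit 564) (nat_lit 588) (nat_lit 0) (XT.nd (nat_lit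 282) (nat_lit 336) (nat_lit 0) (XT.nd (nat_lit 94) (nat_lit 420) (nat_lit 0) (XT.lf (nat_lit 0) (nat_lit 1369824585) (nat_lit 420) (nat_lit 8925815481) (nat_lit 84) (nat_lit 26032049526) (nat_lit 52) (nat_lit 5) (nat_lit 57) (nat_lit 5) (nat_lit 53) (nat_lit 5) (nat_lit 373) (nat_lit 336) (nat_lit 152)) (XT.nd (nat_lit 94) (nat_lit 0) (nat_lit 0) (XT.lf (nat_lit 0) (nat_lit 3159739950) (nat_lit 420) (nat_lit 853536924) (nat_lit 504) (nat_lit 33084261967) (nat_lit 47) (nat_lit 5) (nat_lit 52) (nat_lit 5) (nat_lit 53) (nat_lit 5) (nat_lit 374) (nat_lit 336) (nat_lit 151)) (XT.lf (nat_lit 0) (nat_lit 6918617948) (nat_lit 504) (nat_lit 22170866913) (nat_lit 84) (nat_lit 8796200857) (nat_lit 47) (nat_lit 5) (nat_lit 53) (nat_lit 5) (nat_lit 48) (nat_lit 5) (nat_lit 375) (nat_lit 336) (nat_lit 150)))) (XT.nd (nat_lit 94) (nat_lit 336) (nat_lit 0) (XT.lf (nat_lit 0) (nat_lit 9920541235) (nat_lit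 504) (nat_lit 10050426751) (nat_lit 84) (nat_lit 18727105324) (nat_lit 47) (nat_lit 5) (nat_lit 53) (nat_lit 5) (nat_lit 48) (nat_lit 5) (nat_lit 376) (nat_lit 336) (nat_lit 149)) (XT.nd (nat_lit 94) (nat_lit 0) (nat_lit 0) (XT.lf (nat_lit 0) (nat_lit 2493525281) (nat_lit 336) (nat_lit 10544588449) (nat_lit 420) (nat_lit 26496840783) (nat_lit 43) (nat_lit 5) (nat_lit 47) (nat_lit 5) (nat_lit 48) (nat_lit 5) (nat_lit 377) (nat_lit 336) (nat_lit 148)) (XT.lf (nat_lit 0) (nat_lit 15636967755) (nat_lit 336) (nat_lit 718162944) (nat_lit 420) (nat_lit 24039471119) (nat_lit 43) (nat_lit 5) (nat_lit 47) (nat_lit 5) (nat_lit 48) (nat_lit 5) (nat_lit 378) (nat_lit 336) (nat_lit 147))))) (XT.nd (nat_lit 282) (nat_lit 252) (nat_lit 0) (XT.nd (nat_lit 94) (nat_lit 336) (nat_lit 0) (XT.lf (nat_lit 0) (nat_lit 19866306185) (nat_lit 420) (nat_lit 12188850236) (nat_lit 84) (nat_lit 9222919796) (nat_lit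 43) (nat_lit 5) (nat_lit 48) (nat_lit 5) (nat_lit 44) (nat_lit 5) (nat_lit 379) (nat_lit 336) (nat_lit 146)) (XT.nd (nat_lit 94) (nat_lit 0) (nat_lit 0) (XT.lf (nat_lit 0) (nat_lit 775486178) (nat_lit 336) (nat_lit 22723895524) (nat_lit 420) (nat_lit 18689160967) (nat_lit 39) (nat_lit 5) (nat_lit 43) (nat_lit 5) (nat_lit 44) (nat_lit 5) (nat_lit 380) (nat_lit 336) (nat_lit 145)) (XT.lf (nat_lit 0) (nat_lit 14397779210) (nat_lit 336) (nat_lit 12972582007) (nat_lit 420) (nat_lit 15752997463) (nat_lit 39) (nat_lit 5) (nat_lit 43) (nat_lit 5) (nat_lit 44) (nat_lit 5) (nat_lit 381) (nat_lit 336) (nat_lit 144)))) (XT.nd (nat_lit 94) (nat_lit 252) (nat_lit 0) (XT.lf (nat_lit 0) (nat_lit 28440098505) (nat_lit 336) (nat_lit 2919353224) (nat_lit 420) (nat_lit 12727769305) (nat_lit 39) (nat_lit 5) (nat_lit 43) (nat_lit 5) (nat_lit 44) (nat_lit 5) (nat_lit 382) (nat_lit 336) (nat_lit 143)) (XT.nd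 (nat_lit 94) (nat_lit 252) (nat_lit 0) (XT.lf (nat_lit 0) (nat_lit 35544228409) (nat_lit 420) (nat_lit 2239352100) (nat_lit 84) (nat_lit 7295158076) (nat_lit 39) (nat_lit 5) (nat_lit 44) (nat_lit 5) (nat_lit 40) (nat_lit 5) (nat_lit 383) (nat_lit 336) (nat_lit 142)) (XT.lf (nat_lit 0) (nat_lit 11789543889) (nat_lit 252) (nat_lit 28214220165) (nat_lit 336) (nat_lit 6092741142) (nat_lit 36) (nat_lit 5) (nat_lit 39) (nat_lit 5) (nat_lit 40) (nat_lit 5) (nat_lit 384) (nat_lit 336) (nat_lit 141)))))) (XT.nd (nat_lit 564) (nat_lit 252) (nat_lit 0) (XT.nd (nat_lit 282) (nat_lit 252) (nat_lit 0) (XT.nd (nat_lit 94) (nat_lit 420) (nat_lit 0) (XT.lf (nat_lit 0) (nat_lit 26298640674) (nat_lit 252) (nat_lit 18324529953) (nat_lit 336) (nat_lit 2521989294) (nat_lit 36) (nat_lit 5) (nat_lit 39) (nat_lit 5) (nat_lit 40) (nat_lit 5) (nat_lit 385) (nat_lit 336) (nat_lit 140)) (XT.nd (nat_lit 94) (nat_lit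 336) (nat_lit 0) (XT.lf (nat_lit 0) (nat_lit 1134374376) (nat_lit 336) (nat_lit 6982450971) (nat_lit 84) (nat_lit 40109201662) (nat_lit 35) (nat_lit 5) (nat_lit 39) (nat_lit 5) (nat_lit 36) (nat_lit 5) (nat_lit 386) (nat_lit 336) (nat_lit 139)) (XT.lf (nat_lit 0) (nat_lit 4948662367) (nat_lit 420) (nat_lit 41928976397) (nat_lit 84) (nat_lit 2458963748) (nat_lit 31) (nat_lit 5) (nat_lit 36) (nat_lit 5) (nat_lit 32) (nat_lit 5) (nat_lit 387) (nat_lit 336) (nat_lit 138)))) (XT.nd (nat_lit 94) (nat_lit 252) (nat_lit 0) (XT.lf (nat_lit 0) (nat_lit 9036193500) (nat_lit 420) (nat_lit 28173401523) (nat_lit 84) (nat_lit 13267212672) (nat_lit 31) (nat_lit 5) (nat_lit 36) (nat_lit 5) (nat_lit 32) (nat_lit 5) (nat_lit 388) (nat_lit 336) (nat_lit 137)) (XT.nd (nat_lit 94) (nat_lit 252) (nat_lit 0) (XT.lf (nat_lit 0) (nat_lit 13248843821) (nat_lit 420) (nat_lit 13993453741) (nat_lit 84) (nat_lit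 24410117737) (nat_lit 31) (nat_lit 5) (nat_lit 36) (nat_lit 5) (nat_lit 32) (nat_lit 5) (nat_lit 389) (nat_lit 336) (nat_lit 136)) (XT.lf (nat_lit 0) (nat_lit 636916593) (nat_lit 252) (nat_lit 16959941659) (nat_lit 336) (nat_lit 35267466995) (nat_lit 28) (nat_lit 5) (nat_lit 31) (nat_lit 5) (nat_lit 32) (nat_lit 5) (nat_lit 390) (nat_lit 336) (nat_lit 135))))) (XT.nd (nat_lit 282) (nat_lit 252) (nat_lit 0) (XT.nd (nat_lit 94) (nat_lit 0) (nat_lit 0) (XT.lf (nat_lit 0) (nat_lit 16015514128) (nat_lit 252) (nat_lit 6208690590) (nat_lit 336) (nat_lit 31885125079) (nat_lit 28) (nat_lit 5) (nat_lit 31) (nat_lit 5) (nat_lit 32) (nat_lit 5) (nat_lit 391) (nat_lit 336) (nat_lit 134)) (XT.nd (nat_lit 94) (nat_lit 0) (nat_lit 0) (XT.lf (nat_lit 0) (nat_lit 27041889951) (nat_lit 336) (nat_lit 23572406725) (nat_lit 84) (nat_lit 4777185249) (nat_lit 28) (nat_lit 5) (nat_lit 32) (nat_lit 5) (nat_lit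 29) (nat_lit 5) (nat_lit 392) (nat_lit 336) (nat_lit 133)) (XT.lf (nat_lit 0) (nat_lit 32070990162) (nat_lit 336) (nat_lit 8666231971) (nat_lit 84) (nat_lit 15974240442) (nat_lit 28) (nat_lit 5) (nat_lit 32) (nat_lit 5) (nat_lit 29) (nat_lit 5) (nat_lit 393) (nat_lit 336) (nat_lit 132)))) (XT.nd (nat_lit 188) (nat_lit 0) (nat_lit 0) (XT.nd (nat_lit 94) (nat_lit 0) (nat_lit 0) (XT.lf (nat_lit 0) (nat_lit 6837963411) (nat_lit 252) (nat_lit 30484472053) (nat_lit 336) (nat_lit 20747873127) (nat_lit 25) (nat_lit 5) (nat_lit 28) (nat_lit 5) (nat_lit 29) (nat_lit 5) (nat_lit 394) (nat_lit 336) (nat_lit 131)) (XT.lf (nat_lit 0) (nat_lit 23004686535) (nat_lit 252) (nat_lit 19821080000) (nat_lit 336) (nat_lit 16642756007) (nat_lit 25) (nat_lit 5) (nat_lit 28) (nat_lit 5) (nat_lit 29) (nat_lit 5) (nat_lit 395) (nat_lit 336) (nat_lit 130))) (XT.nd (nat_lit 94) (nat_lit 0) (nat_lit 0) (XT.lf (nat_lit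 0) (nat_lit 39670810978) (nat_lit 252) (nat_lit 8827564262) (nat_lit 336) (nat_lit 12411752341) (nat_lit 25) (nat_lit 5) (nat_lit 28) (nat_lit 5) (nat_lit 29) (nat_lit 5) (nat_lit 396) (nat_lit 336) (nat_lit 129)) (XT.lf (nat_lit 0) (nat_lit 54370412072) (nat_lit 336) (nat_lit 5569459151) (nat_lit 84) (nat_lit 2455825458) (nat_lit 25) (nat_lit 5) (nat_lit 29) (nat_lit 5) (nat_lit 26) (nat_lit 5) (nat_lit 397) (nat_lit 336) (nat_lit 128))))))))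
noncomputable def xc191 : XT := (XT.nd (nat_lit 49068) (nat_lit 0) (nat_lit 3612) (XT.nd (nat_lit 1128) (nat_lit 252) (nat_lit 0) (XT.nd (nat_lit 564) (nat_lit 168) (nat_lit 0) (XT.nd (nat_lit 282) (nat_lit 252) (nat_lit 0) (XT.nd (nat_lit 94) (nat_lit 84) (nat_lit 0) (XT.lf (nat_lit 0) (nat_lit 10709958445) (nat_lit 168) (nat_lit 49909801699) (nat_lit 252) (nat_lit 3301509701) (nat_lit 23) (nat_lit 5) (nat_lit 25) (nat_lit 5) (nat_lit 26) (nat_lit 5) (nat_lit 398) (nat_lit 336) (nat_lit 127)) (XT.nd (nat_lit 94) (nat_lit 0) (nat_lit 0) (XT.lf (nat_lit 0) (nat_lit 1594576980) (nat_lit 252) (nat_lit 37898097512) (nat_lit 84) (nat_lit 25999201719) (nat_lit 22) (nat_lit 5) (nat_lit 25) (nat_lit 5) (nat_lit 23) (nat_lit 5) (nat_lit 399) (nat_lit 336) (nat_lit 126)) (XT.lf (nat_lit 0) (nat_lit 6572652043) (nat_lit 252) (nat_lit 22145604284) (nat_lit 84) (nat_lit 38391910398) (nat_lit 22)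 (nat_lit 5) (nat_lit 25) (nat_lit 5) (nat_lit 23) (nat_lit 5) (nat_lit 400) (nat_lit 336) (nat_lit 125)))) (XT.nd (nat_lit 94) (nat_lit 252) (nat_lit 0) (XT.lf (nat_lit 0) (nat_lit 11703873638) (nat_lit 252) (nat_lit 5906397355) (nat_lit 84) (nat_lit 51168394103) (nat_lit 22) (nat_lit 5) (nat_lit 25) (nat_lit 5) (nat_lit 23) (nat_lit 5) (nat_lit 401) (nat_lit 336) (nat_lit 124)) (XT.nd (nat_lit 94) (nat_lit 0) (nat_lit 0) (XT.lf (nat_lit 0) (nat_lit 11057442744) (nat_lit 252) (nat_lit 6045273057) (nat_lit 336) (nat_lit 53392810311) (nat_lit 19) (nat_lit 5) (nat_lit 22) (nat_lit 5) (nat_lit 23) (nat_lit 5) (nat_lit 402) (nat_lit 336) (nat_lit 123)) (XT.lf (nat_lit 0) (nat_lit 22788392257) (nat_lit 336) (nat_lit 43651851526) (nat_lit 84) (nat_lit 5821666662) (nat_lit 19) (nat_lit 5) (nat_lit 23) (nat_lit 5) (nat_lit 20) (nat_lit 5) (nat_lit 403) (nat_lit 336) (nat_lit 122))))) (XT.nd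 (nat_lit 282) (nat_lit 0) (nat_lit 0) (XT.nd (nat_lit 94) (nat_lit 168) (nat_lit 0) (XT.lf (nat_lit 0) (nat_lit 28711063498) (nat_lit 336) (nat_lit 27439611669) (nat_lit 84) (nat_lit 17930498692) (nat_lit 19) (nat_lit 5) (nat_lit 23) (nat_lit 5) (nat_lit 20) (nat_lit 5) (nat_lit 404) (nat_lit 336) (nat_lit 121)) (XT.nd (nat_lit 94) (nat_lit 168) (nat_lit 0) (XT.lf (nat_lit 0) (nat_lit 34816280220) (nat_lit 336) (nat_lit 10726282437) (nat_lit 84) (nat_lit 30414308513) (nat_lit 19) (nat_lit 5) (nat_lit 23) (nat_lit 5) (nat_lit 20) (nat_lit 5) (nat_lit 405) (nat_lit 336) (nat_lit 120)) (XT.lf (nat_lit 0) (nat_lit 6637444459) (nat_lit 168) (nat_lit 34538132934) (nat_lit 252) (nat_lit 36713132154) (nat_lit 17) (nat_lit 5) (nat_lit 19) (nat_lit 5) (nat_lit 20) (nat_lit 5) (nat_lit 406) (nat_lit 336) (nat_lit 119)))) (XT.nd (nat_lit 94) (nat_lit 0) (nat_lit 0) (XT.lf (nat_lit 0) (nat_lit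 24765407817) (nat_lit 168) (nat_lit 23077556459) (nat_lit 252) (nat_lit 32034034859) (nat_lit 17) (nat_lit 5) (nat_lit 19) (nat_lit 5) (nat_lit 20) (nat_lit 5) (nat_lit 407) (nat_lit 336) (nat_lit 118)) (XT.nd (nat_lit 94) (nat_lit 0) (nat_lit 0) (XT.lf (nat_lit 0) (nat_lit 43453950431) (nat_lit 168) (nat_lit 11262111163) (nat_lit 252) (nat_lit 27210898047) (nat_lit 17) (nat_lit 5) (nat_lit 19) (nat_lit 5) (nat_lit 20) (nat_lit 5) (nat_lit 408) (nat_lit 336) (nat_lit 117)) (XT.lf (nat_lit 0) (nat_lit 61810394533) (nat_lit 252) (nat_lit 21329128601) (nat_lit 84) (nat_lit 900696027) (nat_lit 17) (nat_lit 5) (nat_lit 20) (nat_lit 5) (nat_lit 18) (nat_lit 5) (nat_lit 409) (nat_lit 336) (nat_lit 116)))))) (XT.nd (nat_lit 47376) (nat_lit 0) (nat_lit 6636) (XT.nd (nat_lit 282) (nat_lit 84) (nat_lit 0) (XT.nd (nat_lit 94) (nat_lit 168) (nat_lit 0) (XT.lf (nat_lit 0) (nat_lit 69238912283) (nat_lit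 252) (nat_lit 3770306127) (nat_lit 84) (nat_lit 13206232631) (nat_lit 17) (nat_lit 5) (nat_lit 20) (nat_lit 5) (nat_lit 18) (nat_lit 5) (nat_lit 410) (nat_lit 336) (nat_lit 115)) (XT.nd (nat_lit 94) (nat_lit 0) (nat_lit 0) (XT.lf (nat_lit 0) (nat_lit 14626232396) (nat_lit 168) (nat_lit 62415679105) (nat_lit 252) (nat_lit 11411736779) (nat_lit 15) (nat_lit 5) (nat_lit 17) (nat_lit 5) (nat_lit 18) (nat_lit 5) (nat_lit 411) (nat_lit 336) (nat_lit 114)) (XT.lf (nat_lit 0) (nat_lit 33671711783) (nat_lit 168) (nat_lit 51453563815) (nat_lit 252) (nat_lit 5634764597) (nat_lit 15) (nat_lit 5) (nat_lit 17) (nat_lit 5) (nat_lit 18) (nat_lit 5) (nat_lit 412) (nat_lit 336) (nat_lit 113)))) (XT.nd (nat_lit 46906) (nat_lit 0) (nat_lit 6636) (XT.lf (nat_lit 0) (nat_lit 313952755) (nat_lit 252) (nat_lit 39834779185) (nat_lit 84) (nat_lit 52989129411) (nat_lit 14) (nat_lit 5) (nat_lit 17) (nat_lit 5)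 (nat_lit 15) (nat_lit 5) (nat_lit 413) (nat_lit 336) (nat_lit 112)) (XT.nd (nat_lit 94) (nat_lit 0) (nat_lit 0) (XT.lf (nat_lit 0) (nat_lit 3908180054) (nat_lit 1092) (nat_lit 2856482003) (nat_lit 1092) (nat_lit 2856482003) (nat_lit 93) (nat_lit 3) (nat_lit 106) (nat_lit 3) (nat_lit 106) (nat_lit 5) (nat_lit 337) (nat_lit 337) (nat_lit 187)) (XT.lf (nat_lit 84) (nat_lit 1024196030) (nat_lit 0) (nat_lit 7068840389) (nat_lit 1092) (nat_lit 11441880090) (nat_lit 94) (nat_lit 5) (nat_lit 93) (nat_lit 3) (nat_lit 106) (nat_lit 5) (nat_lit 338) (nat_lit 337) (nat_lit 186))))) (XT.nd (nat_lit 282) (nat_lit 0) (nat_lit 168) (XT.nd (nat_lit 94) (nat_lit 0) (nat_lit 84) (XT.lf (nat_lit 84) (nat_lit 8088221681) (nat_lit 0) (nat_lit 343811441) (nat_lit 1092) (nat_lit 11402949680) (nat_lit 94) (nat_lit 5) (nat_lit 93) (nat_lit 3) (nat_lit 106) (nat_lit 5) (nat_lit 339) (nat_lit 337) (nat_lit 185))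 (XT.nd (nat_lit 94) (nat_lit 0) (nat_lit 0) (XT.lf (nat_lit 0) (nat_lit 8841224992) (nat_lit 1008) (nat_lit 4841730012) (nat_lit 1092) (nat_lit 6459577371) (nat_lit 94) (nat_lit 5) (nat_lit 106) (nat_lit 5) (nat_lit 107) (nat_lit 5) (nat_lit 340) (nat_lit 337) (nat_lit 184)) (XT.lf (nat_lit 84) (nat_lit 2317387901) (nat_lit 0) (nat_lit 6966705673) (nat_lit 1092) (nat_lit 11174902215) (nat_lit 95) (nat_lit 5) (nat_lit 94) (nat_lit 5) (nat_lit 107) (nat_lit 5) (nat_lit 341) (nat_lit 337) (nat_lit 183)))) (XT.nd (nat_lit 94) (nat_lit 0) (nat_lit 0) (XT.lf (nat_lit 0) (nat_lit 9785970558) (nat_lit 1008) (nat_lit 10986050044) (nat_lit 1092) (nat_lit 11874934) (nat_lit 95) (nat_lit 5) (nat_lit 107) (nat_lit 5) (nat_lit 108) (nat_lit 5) (nat_lit 342) (nat_lit 337) (nat_lit 182)) (XT.nd (nat_lit 94) (nat_lit 0) (nat_lit 0) (XT.lf (nat_lit 0) (nat_lit 10369463794) (nat_lit 1008) (nat_lit 3683152808)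 (nat_lit 1092) (nat_lit 7064231514) (nat_lit 95) (nat_lit 5) (nat_lit 107) (nat_lit 5) (nat_lit 108) (nat_lit 5) (nat_lit 343) (nat_lit 337) (nat_lit 181)) (XT.lf (nat_lit 84) (nat_lit 3922021461) (nat_lit 0) (nat_lit 7082892055) (nat_lit 1092) (nat_lit 10454186671) (nat_lit 96) (nat_lit 5) (nat_lit 95) (nat_lit 5) (nat_lit 108) (nat_lit 5) (nat_lit 344) (nat_lit 337) (nat_lit 180))))))) (XT.nd (nat_lit 1128) (nat_lit 2520) (nat_lit 0) (XT.nd (nat_lit 564) (nat_lit 756) (nat_lit 0) (XT.nd (nat_lit 282) (nat_lit 0) (nat_lit 0) (XT.nd (nat_lit 94) (nat_lit 0) (nat_lit 0) (XT.lf (nat_lit 0) (nat_lit 11695020683) (nat_lit 1008) (nat_lit 9974445751) (nat_lit 1092) (nat_lit 141438963) (nat_lit 96) (nat_lit 5) (nat_lit 108) (nat_lit 5) (nat_lit 109) (nat_lit 5) (nat_lit 345) (nat_lit 337) (nat_lit 179)) (XT.nd (nat_lit 94) (nat_lit 0) (nat_lit 0) (XT.lf (nat_lit 0) (nat_lit 12474209851) (nat_lit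 1008) (nat_lit 2253011873) (nat_lit 1092) (nat_lit 7444322721) (nat_lit 96) (nat_lit 5) (nat_lit 108) (nat_lit 5) (nat_lit 109) (nat_lit 5) (nat_lit 346) (nat_lit 337) (nat_lit 178)) (XT.lf (nat_lit 84) (nat_lit 5821983245) (nat_lit 0) (nat_lit 7508715688) (nat_lit 1092) (nat_lit 9211042308) (nat_lit 97) (nat_lit 5) (nat_lit 96) (nat_lit 5) (nat_lit 109) (nat_lit 5) (nat_lit 347) (nat_lit 337) (nat_lit 177)))) (XT.nd (nat_lit 94) (nat_lit 0) (nat_lit 84) (XT.lf (nat_lit 84) (nat_lit 14191994101) (nat_lit 0) (nat_lit 40760291) (nat_lit 1092) (nat_lit 8690094948) (nat_lit 97) (nat_lit 5) (nat_lit 96) (nat_lit 5) (nat_lit 109) (nat_lit 5) (nat_lit 348) (nat_lit 337) (nat_lit 176)) (XT.nd (nat_lit 94) (nat_lit 0) (nat_lit 0) (XT.lf (nat_lit 0) (nat_lit 15234396340) (nat_lit 1008) (nat_lit 573424224) (nat_lit 1092) (nat_lit 7505754848) (nat_lit 97) (nat_lit 5) (nat_lit 109) (nat_lit 5)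 (nat_lit 110) (nat_lit 5) (nat_lit 349) (nat_lit 337) (nat_lit 175)) (XT.lf (nat_lit 84) (nat_lit 7994483626) (nat_lit 0) (nat_lit 8348107082) (nat_lit 1092) (nat_lit 7371505948) (nat_lit 98) (nat_lit 5) (nat_lit 97) (nat_lit 5) (nat_lit 110) (nat_lit 5) (nat_lit 350) (nat_lit 337) (nat_lit 174))))) (XT.nd (nat_lit 282) (nat_lit 840) (nat_lit 0) (XT.nd (nat_lit 94) (nat_lit 0) (nat_lit 84) (XT.lf (nat_lit 84) (nat_lit 16837126199) (nat_lit 0) (nat_lit 649873559) (nat_lit 1092) (nat_lit 6639999133) (nat_lit 98) (nat_lit 5) (nat_lit 97) (nat_lit 5) (nat_lit 110) (nat_lit 5) (nat_lit 351) (nat_lit 337) (nat_lit 173)) (XT.nd (nat_lit 94) (nat_lit 0) (nat_lit 0) (XT.lf (nat_lit 84) (nat_lit 1353070832) (nat_lit 0) (nat_lit 17395535148) (nat_lit 1092) (nat_lit 5801583615) (nat_lit 99) (nat_lit 5) (nat_lit 98) (nat_lit 5) (nat_lit 111) (nat_lit 5) (nat_lit 352) (nat_lit 337) (nat_lit 172))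 (XT.lf (nat_lit 84) (nat_lit 10408642906) (nat_lit 0) (nat_lit 9719449275) (nat_lit 1092) (nat_lit 4855986334) (nat_lit 99) (nat_lit 5) (nat_lit 98) (nat_lit 5) (nat_lit 111) (nat_lit 5) (nat_lit 353) (nat_lit 337) (nat_lit 171)))) (XT.nd (nat_lit 94) (nat_lit 924) (nat_lit 0) (XT.lf (nat_lit 84) (nat_lit 19741968922) (nat_lit 0) (nat_lit 1804590291) (nat_lit 1092) (nat_lit 3884996599) (nat_lit 99) (nat_lit 5) (nat_lit 98) (nat_lit 5) (nat_lit 111) (nat_lit 5) (nat_lit 354) (nat_lit 337) (nat_lit 170)) (XT.nd (nat_lit 94) (nat_lit 0) (nat_lit 0) (XT.lf (nat_lit 0) (nat_lit 3475680684) (nat_lit 1008) (nat_lit 19627184203) (nat_lit 1092) (nat_lit 2787150094) (nat_lit 87) (nat_lit 5) (nat_lit 99) (nat_lit 5) (nat_lit 100) (nat_lit 5) (nat_lit 355) (nat_lit 337) (nat_lit 169)) (XT.lf (nat_lit 0) (nat_lit 13023861129) (nat_lit 1008) (nat_lit 11757631163) (nat_lit 1092) (nat_lit 1578917051)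 (nat_lit 87) (nat_lit 5) (nat_lit 99) (nat_lit 5) (nat_lit 100) (nat_lit 5) (nat_lit 356) (nat_lit 337) (nat_lit 168)))))) (XT.nd (nat_lit 564) (nat_lit 1344) (nat_lit 0) (XT.nd (nat_lit 282) (nat_lit 504) (nat_lit 0) (XT.nd (nat_lit 94) (nat_lit 672) (nat_lit 0) (XT.lf (nat_lit 0) (nat_lit 22865134628) (nat_lit 1008) (nat_lit 3643548983) (nat_lit 1092) (nat_lit 336828745) (nat_lit 87) (nat_lit 5) (nat_lit 99) (nat_lit 5) (nat_lit 100) (nat_lit 5) (nat_lit 357) (nat_lit 337) (nat_lit 167)) (XT.nd (nat_lit 94) (nat_lit 0) (nat_lit 0) (XT.lf (nat_lit 0) (nat_lit 1026095338) (nat_lit 672) (nat_lit 21621423027) (nat_lit 84) (nat_lit 4694720881) (nat_lit 79) (nat_lit 5) (nat_lit 87) (nat_lit 5) (nat_lit 80) (nat_lit 5) (nat_lit 358) (nat_lit 337) (nat_lit 166)) (XT.lf (nat_lit 0) (nat_lit 2500167915) (nat_lit 672) (nat_lit 12090079956) (nat_lit 84) (nat_lit 13261674377) (nat_lit 79) (nat_lit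 5) (nat_lit 87) (nat_lit 5) (nat_lit 80) (nat_lit 5) (nat_lit 359) (nat_lit 337) (nat_lit 165)))) (XT.nd (nat_lit 94) (nat_lit 504) (nat_lit 0) (XT.lf (nat_lit 0) (nat_lit 4016694964) (nat_lit 672) (nat_lit 2266172633) (nat_lit 84) (nat_lit 22094654910) (nat_lit 79) (nat_lit 5) (nat_lit 87) (nat_lit 5) (nat_lit 80) (nat_lit 5) (nat_lit 360) (nat_lit 337) (nat_lit 164)) (XT.nd (nat_lit 94) (nat_lit 0) (nat_lit 0) (XT.lf (nat_lit 0) (nat_lit 5680115145) (nat_lit 588) (nat_lit 20919456051) (nat_lit 84) (nat_lit 2316764965) (nat_lit 73) (nat_lit 5) (nat_lit 80) (nat_lit 5) (nat_lit 74) (nat_lit 5) (nat_lit 361) (nat_lit 337) (nat_lit 163)) (XT.lf (nat_lit 0) (nat_lit 7480181815) (nat_lit 588) (nat_lit 10912396741) (nat_lit 84) (nat_lit 11076652595) (nat_lit 73) (nat_lit 5) (nat_lit 80) (nat_lit 5) (nat_lit 74) (nat_lit 5) (nat_lit 362) (nat_lit 337) (nat_lit 162))))) (XT.nd (nat_lit 282)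 (nat_lit 840) (nat_lit 0) (XT.nd (nat_lit 94) (nat_lit 504) (nat_lit 0) (XT.lf (nat_lit 0) (nat_lit 9333068384) (nat_lit 588) (nat_lit 597936497) (nat_lit 84) (nat_lit 20108368589) (nat_lit 73) (nat_lit 5) (nat_lit 80) (nat_lit 5) (nat_lit 74) (nat_lit 5) (nat_lit 363) (nat_lit 337) (nat_lit 161)) (XT.nd (nat_lit 94) (nat_lit 0) (nat_lit 0) (XT.lf (nat_lit 0) (nat_lit 10239848976) (nat_lit 504) (nat_lit 1102233530) (nat_lit 588) (nat_lit 19282063048) (nat_lit 67) (nat_lit 5) (nat_lit 73) (nat_lit 5) (nat_lit 74) (nat_lit 5) (nat_lit 364) (nat_lit 337) (nat_lit 160)) (XT.lf (nat_lit 0) (nat_lit 13496213290) (nat_lit 588) (nat_lit 9882806265) (nat_lit 84) (nat_lit 7845472303) (nat_lit 67) (nat_lit 5) (nat_lit 74) (nat_lit 5) (nat_lit 68) (nat_lit 5) (nat_lit 365) (nat_lit 337) (nat_lit 159)))) (XT.nd (nat_lit 188) (nat_lit 420) (nat_lit 0) (XT.nd (nat_lit 94) (nat_lit 0) (nat_lit 0)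 (XT.lf (nat_lit 0) (nat_lit 949360129) (nat_lit 420) (nat_lit 14785707042) (nat_lit 504) (nat_lit 16107839243) (nat_lit 62) (nat_lit 5) (nat_lit 67) (nat_lit 5) (nat_lit 68) (nat_lit 5) (nat_lit 366) (nat_lit 337) (nat_lit 158)) (XT.lf (nat_lit 0) (nat_lit 12324137211) (nat_lit 420) (nat_lit 5819654370) (nat_lit 504) (nat_lit 14333599191) (nat_lit 62) (nat_lit 5) (nat_lit 67) (nat_lit 5) (nat_lit 68) (nat_lit 5) (nat_lit 367) (nat_lit 337) (nat_lit 157))) (XT.nd (nat_lit 94) (nat_lit 420) (nat_lit 0) (XT.lf (nat_lit 0) (nat_lit 20658547039) (nat_lit 504) (nat_lit 9116691201) (nat_lit 84) (nat_lit 3355346721) (nat_lit 62) (nat_lit 5) (nat_lit 68) (nat_lit 5) (nat_lit 63) (nat_lit 5) (nat_lit 368) (nat_lit 337) (nat_lit 156)) (XT.lf (nat_lit 0) (nat_lit 2245088716) (nat_lit 420) (nat_lit 21085433243) (nat_lit 504) (nat_lit 10471061692) (nat_lit 57) (nat_lit 5) (nat_lit 62) (nat_lit 5)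 (nat_lit 63) (nat_lit 5) (nat_lit 369) (nat_lit 337) (nat_lit 155))))))))
noncomputable def xc192 : XT := (XT.nd (nat_lit 2256) (nat_lit 1092) (nat_lit 0) (XT.nd (nat_lit 1128) (nat_lit 924) (nat_lit 0) (XT.nd (nat_lit 564) (nat_lit 672) (nat_lit 0) (XT.nd (nat_lit 282) (nat_lit 504) (nat_lit 0) (XT.nd (nat_lit 94) (nat_lit 336) (nat_lit 0) (XT.lf (nat_lit 0) (nat_lit 14149751448) (nat_lit 420) (nat_lit 12028255617) (nat_lit 504) (nat_lit 8312515412) (nat_lit 57) (nat_lit 5) (nat_lit 62) (nat_lit 5) (nat_lit 63) (nat_lit 5) (nat_lit 370) (nat_lit 337) (nat_lit 154)) (XT.nd (nat_lit 94) (nat_lit 336) (nat_lit 0) (XT.lf (nat_lit 0) (nat_lit 26420935515) (nat_lit 420) (nat_lit 2690422684) (nat_lit 504) (nat_lit 6089546651) (nat_lit 57) (nat_lit 5) (nat_lit 62) (nat_lit 5) (nat_lit 63) (nat_lit 5) (nat_lit 371) (nat_lit 337) (nat_lit 153)) (XT.lf (nat_lit 0) (nat_lit 3130954163) (nat_lit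 336) (nat_lit 29102228453) (nat_lit 420) (nat_lit 3697114240) (nat_lit 53) (nat_lit 5) (nat_lit 57) (nat_lit 5) (nat_lit 58) (nat_lit 5) (nat_lit 372) (nat_lit 337) (nat_lit 152)))) (XT.nd (nat_lit 94) (nat_lit 504) (nat_lit 0) (XT.lf (nat_lit 0) (nat_lit 15566660088) (nat_lit 336) (nat_lit 20001717052) (nat_lit 420) (nat_lit 1110319629) (nat_lit 53) (nat_lit 5) (nat_lit 57) (nat_lit 5) (nat_lit 58) (nat_lit 5) (nat_lit 373) (nat_lit 337) (nat_lit 151)) (XT.nd (nat_lit 94) (nat_lit 420) (nat_lit 0) (XT.lf (nat_lit 0) (nat_lit 1523048360) (nat_lit 420) (nat_lit 9080352478) (nat_lit 84) (nat_lit 26846497896) (nat_lit 52) (nat_lit 5) (nat_lit 57) (nat_lit 5) (nat_lit 53) (nat_lit 5) (nat_lit 374) (nat_lit 337) (nat_lit 150)) (XT.lf (nat_lit 0) (nat_lit 3378618378) (nat_lit 420) (nat_lit 867698602) (nat_lit 504) (nat_lit 33997377888) (nat_lit 47) (nat_lit 5) (nat_lit 52) (nat_lit 5) (nat_lit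 53) (nat_lit 5) (nat_lit 375) (nat_lit 337) (nat_lit 149))))) (XT.nd (nat_lit 282) (nat_lit 336) (nat_lit 0) (XT.nd (nat_lit 94) (nat_lit 336) (nat_lit 0) (XT.lf (nat_lit 0) (nat_lit 7238575725) (nat_lit 504) (nat_lit 22737240247) (nat_lit 84) (nat_lit 9080570950) (nat_lit 47) (nat_lit 5) (nat_lit 53) (nat_lit 5) (nat_lit 48) (nat_lit 5) (nat_lit 376) (nat_lit 337) (nat_lit 148)) (XT.nd (nat_lit 94) (nat_lit 336) (nat_lit 0) (XT.lf (nat_lit 0) (nat_lit 10330387053) (nat_lit 504) (nat_lit 10244702357) (nat_lit 84) (nat_lit 19318982026) (nat_lit 47) (nat_lit 5) (nat_lit 53) (nat_lit 5) (nat_lit 48) (nat_lit 5) (nat_lit 377) (nat_lit 337) (nat_lit 147)) (XT.lf (nat_lit 0) (nat_lit 2686924756) (nat_lit 336) (nat_lit 10855755051) (nat_lit 420) (nat_lit 27214289958) (nat_lit 43) (nat_lit 5) (nat_lit 47) (nat_lit 5) (nat_lit 48) (nat_lit 5) (nat_lit 378) (nat_lit 337) (nat_lit 146)))) (XT.nd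 (nat_lit 94) (nat_lit 336) (nat_lit 0) (XT.lf (nat_lit 0) (nat_lit 16234323058) (nat_lit 336) (nat_lit 725182891) (nat_lit 420) (nat_lit 24683867479) (nat_lit 43) (nat_lit 5) (nat_lit 47) (nat_lit 5) (nat_lit 48) (nat_lit 5) (nat_lit 379) (nat_lit 337) (nat_lit 145)) (XT.nd (nat_lit 94) (nat_lit 336) (nat_lit 0) (XT.lf (nat_lit 0) (nat_lit 20576746946) (nat_lit 420) (nat_lit 12454270902) (nat_lit 84) (nat_lit 9523317206) (nat_lit 43) (nat_lit 5) (nat_lit 48) (nat_lit 5) (nat_lit 44) (nat_lit 5) (nat_lit 380) (nat_lit 337) (nat_lit 144)) (XT.lf (nat_lit 0) (nat_lit 910821650) (nat_lit 336) (nat_lit 23409886238) (nat_lit 420) (nat_lit 19172384926) (nat_lit 39) (nat_lit 5) (nat_lit 43) (nat_lit 5) (nat_lit 44) (nat_lit 5) (nat_lit 381) (nat_lit 337) (nat_lit 143)))))) (XT.nd (nat_lit 564) (nat_lit 588) (nat_lit 0) (XT.nd (nat_lit 282) (nat_lit 336) (nat_lit 0) (XT.nd (nat_lit 94) (nat_lit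 0) (nat_lit 0) (XT.lf (nat_lit 0) (nat_lit 14952059348) (nat_lit 336) (nat_lit 13356836756) (nat_lit 420) (nat_lit 16148091081) (nat_lit 39) (nat_lit 5) (nat_lit 43) (nat_lit 5) (nat_lit 44) (nat_lit 5) (nat_lit 382) (nat_lit 337) (nat_lit 142)) (XT.nd (nat_lit 94) (nat_lit 0) (nat_lit 0) (XT.lf (nat_lit 0) (nat_lit 29426444742) (nat_lit 336) (nat_lit 2992495955) (nat_lit 420) (nat_lit 13031884661) (nat_lit 39) (nat_lit 5) (nat_lit 43) (nat_lit 5) (nat_lit 44) (nat_lit 5) (nat_lit 383) (nat_lit 337) (nat_lit 141)) (XT.lf (nat_lit 0) (nat_lit 36730986153) (nat_lit 420) (nat_lit 2204377712) (nat_lit 84) (nat_lit 7537804106) (nat_lit 39) (nat_lit 5) (nat_lit 44) (nat_lit 5) (nat_lit 40) (nat_lit 5) (nat_lit 384) (nat_lit 337) (nat_lit 140)))) (XT.nd (nat_lit 94) (nat_lit 84) (nat_lit 0) (XT.lf (nat_lit 0) (nat_lit 12258357154) (nat_lit 252) (nat_lit 29068883006) (nat_lit 336) (nat_lit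 6195303959) (nat_lit 36) (nat_lit 5) (nat_lit 39) (nat_lit 5) (nat_lit 40) (nat_lit 5) (nat_lit 385) (nat_lit 337) (nat_lit 139)) (XT.nd (nat_lit 94) (nat_lit 84) (nat_lit 0) (XT.lf (nat_lit 0) (nat_lit 27214128801) (nat_lit 252) (nat_lit 18873213093) (nat_lit 336) (nat_lit 2516454028) (nat_lit 36) (nat_lit 5) (nat_lit 39) (nat_lit 5) (nat_lit 40) (nat_lit 5) (nat_lit 386) (nat_lit 337) (nat_lit 138)) (XT.lf (nat_lit 0) (nat_lit 1249103729) (nat_lit 336) (nat_lit 7099718067) (nat_lit 84) (nat_lit 41369409236) (nat_lit 35) (nat_lit 5) (nat_lit 39) (nat_lit 5) (nat_lit 36) (nat_lit 5) (nat_lit 387) (nat_lit 337) (nat_lit 137))))) (XT.nd (nat_lit 282) (nat_lit 252) (nat_lit 0) (XT.nd (nat_lit 94) (nat_lit 0) (nat_lit 0) (XT.lf (nat_lit 0) (nat_lit 5180415130) (nat_lit 420) (nat_lit 43128040039) (nat_lit 84) (nat_lit 2554827126) (nat_lit 31) (nat_lit 5) (nat_lit 36) (nat_lit 5) (nat_lit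 32) (nat_lit 5) (nat_lit 388) (nat_lit 337) (nat_lit 136)) (XT.nd (nat_lit 94) (nat_lit 0) (nat_lit 0) (XT.lf (nat_lit 0) (nat_lit 9392304081) (nat_lit 420) (nat_lit 28949071222) (nat_lit 84) (nat_lit 13697541369) (nat_lit 31) (nat_lit 5) (nat_lit 36) (nat_lit 5) (nat_lit 32) (nat_lit 5) (nat_lit 389) (nat_lit 337) (nat_lit 135)) (XT.lf (nat_lit 0) (nat_lit 13733261745) (nat_lit 420) (nat_lit 14332482865) (nat_lit 84) (nat_lit 25185303844) (nat_lit 31) (nat_lit 5) (nat_lit 36) (nat_lit 5) (nat_lit 32) (nat_lit 5) (nat_lit 390) (nat_lit 337) (nat_lit 134)))) (XT.nd (nat_lit 94) (nat_lit 0) (nat_lit 0) (XT.lf (nat_lit 0) (nat_lit 750469510) (nat_lit 252) (nat_lit 17464309589) (nat_lit 336) (nat_lit 36285797592) (nat_lit 28) (nat_lit 5) (nat_lit 31) (nat_lit 5) (nat_lit 32) (nat_lit 5) (nat_lit 391) (nat_lit 337) (nat_lit 133)) (XT.nd (nat_lit 94) (nat_lit 0) (nat_lit 0) (XT.lf (nat_lit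 0) (nat_lit 16602982944) (nat_lit 252) (nat_lit 6380412898) (nat_lit 336) (nat_lit 32800856992) (nat_lit 28) (nat_lit 5) (nat_lit 31) (nat_lit 5) (nat_lit 32) (nat_lit 5) (nat_lit 392) (nat_lit 337) (nat_lit 132)) (XT.lf (nat_lit 0) (nat_lit 27948516950) (nat_lit 336) (nat_lit 24212706861) (nat_lit 84) (nat_lit 4944995832) (nat_lit 28) (nat_lit 5) (nat_lit 32) (nat_lit 5) (nat_lit 29) (nat_lit 5) (nat_lit 393) (nat_lit 337) (nat_lit 131))))))) (XT.nd (nat_lit 1128) (nat_lit 336) (nat_lit 0) (XT.nd (nat_lit 564) (nat_lit 336) (nat_lit 0) (XT.nd (nat_lit 282) (nat_lit 168) (nat_lit 0) (XT.nd (nat_lit 94) (nat_lit 252) (nat_lit 0) (XT.lf (nat_lit 0) (nat_lit 33131464776) (nat_lit 336) (nat_lit 8847160164) (nat_lit 84) (nat_lit 16488566862) (nat_lit 28) (nat_lit 5) (nat_lit 32) (nat_lit 5) (nat_lit 29) (nat_lit 5) (nat_lit 394) (nat_lit 337) (nat_lit 130)) (XT.nd (nat_lit 94) (nat_lit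 0) (nat_lit 0) (XT.lf (nat_lit 0) (nat_lit 7136777138) (nat_lit 252) (nat_lit 31407796460) (nat_lit 336) (nat_lit 21323631684) (nat_lit 25) (nat_lit 5) (nat_lit 28) (nat_lit 5) (nat_lit 29) (nat_lit 5) (nat_lit 395) (nat_lit 337) (nat_lit 129)) (XT.lf (nat_lit 0) (nat_lit 23802057677) (nat_lit 252) (nat_lit 20414491552) (nat_lit 336) (nat_lit 17093283276) (nat_lit 25) (nat_lit 5) (nat_lit 28) (nat_lit 5) (nat_lit 29) (nat_lit 5) (nat_lit 396) (nat_lit 337) (nat_lit 128)))) (XT.nd (nat_lit 94) (nat_lit 168) (nat_lit 0) (XT.lf (nat_lit 0) (nat_lit 40982299483) (nat_lit 252) (nat_lit 9080809513) (nat_lit 336) (nat_lit 12733084882) (nat_lit 25) (nat_lit 5) (nat_lit 28) (nat_lit 5) (nat_lit 29) (nat_lit 5) (nat_lit 397) (nat_lit 337) (nat_lit 127)) (XT.nd (nat_lit 94) (nat_lit 168) (nat_lit 0) (XT.lf (nat_lit 0) (nat_lit 56115532660) (nat_lit 336) (nat_lit 5660988660) (nat_lit 84) (nat_lit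 2551352789) (nat_lit 25) (nat_lit 5) (nat_lit 29) (nat_lit 5) (nat_lit 26) (nat_lit 5) (nat_lit 398) (nat_lit 337) (nat_lit 126)) (XT.lf (nat_lit 0) (nat_lit 11122269577) (nat_lit 168) (nat_lit 51435344372) (nat_lit 252) (nat_lit 3343164213) (nat_lit 23) (nat_lit 5) (nat_lit 25) (nat_lit 5) (nat_lit 26) (nat_lit 5) (nat_lit 399) (nat_lit 337) (nat_lit 125))))) (XT.nd (nat_lit 282) (nat_lit 252) (nat_lit 0) (XT.nd (nat_lit 94) (nat_lit 0) (nat_lit 0) (XT.lf (nat_lit 0) (nat_lit 1701690218) (nat_lit 252) (nat_lit 38993645235) (nat_lit 84) (nat_lit 26824781441) (nat_lit 22) (nat_lit 5) (nat_lit 25) (nat_lit 5) (nat_lit 23) (nat_lit 5) (nat_lit 400) (nat_lit 337) (nat_lit 124)) (XT.nd (nat_lit 94) (nat_lit 0) (nat_lit 0) (XT.lf (nat_lit 0) (nat_lit 6832351251) (nat_lit 252) (nat_lit 22755208899) (nat_lit 84) (nat_lit 39601074624) (nat_lit 22) (nat_lit 5) (nat_lit 25) (nat_lit 5) (nat_lit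 23) (nat_lit 5) (nat_lit 401) (nat_lit 337) (nat_lit 123)) (XT.lf (nat_lit 0) (nat_lit 12120958507) (nat_lit 252) (nat_lit 6014899050) (nat_lit 84) (nat_lit 52773057583) (nat_lit 22) (nat_lit 5) (nat_lit 25) (nat_lit 5) (nat_lit 23) (nat_lit 5) (nat_lit 402) (nat_lit 337) (nat_lit 122)))) (XT.nd (nat_lit 94) (nat_lit 0) (nat_lit 0) (XT.lf (nat_lit 0) (nat_lit 11474064868) (nat_lit 252) (nat_lit 6212200798) (nat_lit 336) (nat_lit 54992767260) (nat_lit 19) (nat_lit 5) (nat_lit 22) (nat_lit 5) (nat_lit 23) (nat_lit 5) (nat_lit 403) (nat_lit 337) (nat_lit 121)) (XT.nd (nat_lit 94) (nat_lit 0) (nat_lit 0) (XT.lf (nat_lit 0) (nat_lit 23546790512) (nat_lit 336) (nat_lit 44931836059) (nat_lit 84) (nat_lit 6021598254) (nat_lit 19) (nat_lit 5) (nat_lit 23) (nat_lit 5) (nat_lit 20) (nat_lit 5) (nat_lit 404) (nat_lit 337) (nat_lit 120)) (XT.lf (nat_lit 0) (nat_lit 29651502292) (nat_lit 336) (nat_lit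 28219218424) (nat_lit 84) (nat_lit 18505218959) (nat_lit 19) (nat_lit 5) (nat_lit 23) (nat_lit 5) (nat_lit 20) (nat_lit 5) (nat_lit 405) (nat_lit 337) (nat_lit 119)))))) (XT.nd (nat_lit 564) (nat_lit 168) (nat_lit 0) (XT.nd (nat_lit 282) (nat_lit 0) (nat_lit 0) (XT.nd (nat_lit 94) (nat_lit 168) (nat_lit 0) (XT.lf (nat_lit 0) (nat_lit 35944465435) (nat_lit 336) (nat_lit 10989911443) (nat_lit 84) (nat_lit 31375459359) (nat_lit 19) (nat_lit 5) (nat_lit 23) (nat_lit 5) (nat_lit 20) (nat_lit 5) (nat_lit 406) (nat_lit 337) (nat_lit 118)) (XT.nd (nat_lit 94) (nat_lit 0) (nat_lit 0) (XT.lf (nat_lit 0) (nat_lit 6911393580) (nat_lit 168) (nat_lit 35588713943) (nat_lit 252) (nat_lit 37801484166) (nat_lit 17) (nat_lit 5) (nat_lit 19) (nat_lit 5) (nat_lit 20) (nat_lit 5) (nat_lit 407) (nat_lit 337) (nat_lit 117)) (XT.lf (nat_lit 0) (nat_lit 25599273522) (nat_lit 168) (nat_lit 23773463995) (nat_lit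 252) (nat_lit 32978830885) (nat_lit 17) (nat_lit 5) (nat_lit 19) (nat_lit 5) (nat_lit 20) (nat_lit 5) (nat_lit 408) (nat_lit 337) (nat_lit 116)))) (XT.nd (nat_lit 94) (nat_lit 0) (nat_lit 0) (XT.lf (nat_lit 0) (nat_lit 44865172324) (nat_lit 168) (nat_lit 11592326121) (nat_lit 252) (nat_lit 28007627879) (nat_lit 17) (nat_lit 5) (nat_lit 19) (nat_lit 5) (nat_lit 20) (nat_lit 5) (nat_lit 409) (nat_lit 337) (nat_lit 115)) (XT.nd (nat_lit 94) (nat_lit 0) (nat_lit 0) (XT.lf (nat_lit 0) (nat_lit 63770577419) (nat_lit 252) (nat_lit 21926771063) (nat_lit 84) (nat_lit 946589945) (nat_lit 17) (nat_lit 5) (nat_lit 20) (nat_lit 5) (nat_lit 18) (nat_lit 5) (nat_lit 410) (nat_lit 337) (nat_lit 114)) (XT.lf (nat_lit 0) (nat_lit 71428054408) (nat_lit 252) (nat_lit 3825536224) (nat_lit 84) (nat_lit 13633057794) (nat_lit 17) (nat_lit 5) (nat_lit 20) (nat_lit 5) (nat_lit 18) (nat_lit 5) (nat_lit 411)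 (nat_lit 337) (nat_lit 113))))) (XT.nd (nat_lit 47188) (nat_lit 0) (nat_lit 6552) (XT.nd (nat_lit 94) (nat_lit 0) (nat_lit 0) (XT.lf (nat_lit 0) (nat_lit 15140670848) (nat_lit 168) (nat_lit 64331596155) (nat_lit 252) (nat_lit 11721988558) (nat_lit 15) (nat_lit 5) (nat_lit 17) (nat_lit 5) (nat_lit 18) (nat_lit 5) (nat_lit 412) (nat_lit 337) (nat_lit 112)) (XT.nd (nat_lit 47000) (nat_lit 0) (nat_lit 6552) (XT.lf (nat_lit 0) (nat_lit 34774725196) (nat_lit 168) (nat_lit 53030225648) (nat_lit 252) (nat_lit 5767238554) (nat_lit 15) (nat_lit 5) (nat_lit 17) (nat_lit 5) (nat_lit 18) (nat_lit 5) (nat_lit 413) (nat_lit 337) (nat_lit 111)) (XT.lf (nat_lit 0) (nat_lit 4173254198) (nat_lit 1092) (nat_lit 2870442955) (nat_lit 1092) (nat_lit 2870442955) (nat_lit 93) (nat_lit 3) (nat_lit 106) (nat_lit 3) (nat_lit 106) (nat_lit 5) (nat_lit 338) (nat_lit 338) (nat_lit 185)))) (XT.nd (nat_lit 94) (nat_lit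 0) (nat_lit 0) (XT.lf (nat_lit 84) (nat_lit 1203615772) (nat_lit 0) (nat_lit 7420956024) (nat_lit 1092) (nat_lit 11505679158) (nat_lit 94) (nat_lit 5) (nat_lit 93) (nat_lit 3) (nat_lit 106) (nat_lit 5) (nat_lit 339) (nat_lit 338) (nat_lit 184)) (XT.nd (nat_lit 94) (nat_lit 0) (nat_lit 84) (XT.lf (nat_lit 84) (nat_lit 8482186103) (nat_lit 0) (nat_lit 483452703) (nat_lit 1092) (nat_lit 11474288633) (nat_lit 94) (nat_lit 5) (nat_lit 93) (nat_lit 3) (nat_lit 106) (nat_lit 5) (nat_lit 340) (nat_lit 338) (nat_lit 183)) (XT.lf (nat_lit 0) (nat_lit 9378089706) (nat_lit 1008) (nat_lit 4842018687) (nat_lit 1092) (nat_lit 6537239997) (nat_lit 94) (nat_lit 5) (nat_lit 106) (nat_lit 5) (nat_lit 107) (nat_lit 5) (nat_lit 341) (nat_lit 338) (nat_lit 182))))))))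
noncomputable def xc193 : XT := (XT.nd (nat_lit 2256) (nat_lit 3024) (nat_lit 0) (XT.nd (nat_lit 1128) (nat_lit 2268) (nat_lit 0) (XT.nd (nat_lit 564) (nat_lit 0) (nat_lit 168) (XT.nd (nat_lit 282) (nat_lit 0) (nat_lit 84) (XT.nd (nat_lit 94) (nat_lit 0) (nat_lit 0) (XT.lf (nat_lit 84) (nat_lit 2537515241) (nat_lit 0) (nat_lit 7290741568) (nat_lit 1092) (nat_lit 11255608486) (nat_lit 95) (nat_lit 5) (nat_lit 94) (nat_lit 5) (nat_lit 107) (nat_lit 5) (nat_lit 342) (nat_lit 338) (nat_lit 181)) (XT.nd (nat_lit 94) (nat_lit 0) (nat_lit 84) (XT.lf (nat_lit 84) (nat_lit 10245536092) (nat_lit 0) (nat_lit 92323840) (nat_lit 1092) (nat_lit 11081262260) (nat_lit 95) (nat_lit 5) (nat_lit 94) (nat_lit 5) (nat_lit 107) (nat_lit 5) (nat_lit 343) (nat_lit 338) (nat_lit 180)) (XT.lf (nat_lit 0) (nat_lit 10931080532) (nat_lit 1008) (nat_lit 3648012059) (nat_lit 1092) (nat_lit 7183604088) (nat_lit 95)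 (nat_lit 5) (nat_lit 107) (nat_lit 5) (nat_lit 108) (nat_lit 5) (nat_lit 344) (nat_lit 338) (nat_lit 179)))) (XT.nd (nat_lit 94) (nat_lit 0) (nat_lit 84) (XT.lf (nat_lit 84) (nat_lit 4191410896) (nat_lit 0) (nat_lit 7389063354) (nat_lit 1092) (nat_lit 10535302669) (nat_lit 96) (nat_lit 5) (nat_lit 95) (nat_lit 5) (nat_lit 108) (nat_lit 5) (nat_lit 345) (nat_lit 338) (nat_lit 178)) (XT.nd (nat_lit 94) (nat_lit 0) (nat_lit 0) (XT.lf (nat_lit 0) (nat_lit 12284093303) (nat_lit 1008) (nat_lit 10131159638) (nat_lit 1092) (nat_lit 63518222) (nat_lit 96) (nat_lit 5) (nat_lit 108) (nat_lit 5) (nat_lit 109) (nat_lit 5) (nat_lit 346) (nat_lit 338) (nat_lit 177)) (XT.lf (nat_lit 0) (nat_lit 13080626146) (nat_lit 1008) (nat_lit 2174946481) (nat_lit 1092) (nat_lit 7595266125) (nat_lit 96) (nat_lit 5) (nat_lit 108) (nat_lit 5) (nat_lit 109) (nat_lit 5) (nat_lit 347) (nat_lit 338) (nat_lit 176)))))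 (XT.nd (nat_lit 282) (nat_lit 0) (nat_lit 84) (XT.nd (nat_lit 94) (nat_lit 0) (nat_lit 0) (XT.lf (nat_lit 84) (nat_lit 6148876042) (nat_lit 0) (nat_lit 7809636375) (nat_lit 1092) (nat_lit 9274195459) (nat_lit 97) (nat_lit 5) (nat_lit 96) (nat_lit 5) (nat_lit 109) (nat_lit 5) (nat_lit 348) (nat_lit 338) (nat_lit 175)) (XT.nd (nat_lit 94) (nat_lit 0) (nat_lit 84) (XT.lf (nat_lit 84) (nat_lit 14773954954) (nat_lit 0) (nat_lit 108125218) (nat_lit 1092) (nat_lit 8743785505) (nat_lit 97) (nat_lit 5) (nat_lit 96) (nat_lit 5) (nat_lit 109) (nat_lit 5) (nat_lit 349) (nat_lit 338) (nat_lit 174)) (XT.lf (nat_lit 0) (nat_lit 15907879562) (nat_lit 1008) (nat_lit 445461519) (nat_lit 1092) (nat_lit 7675611170) (nat_lit 97) (nat_lit 5) (nat_lit 109) (nat_lit 5) (nat_lit 110) (nat_lit 5) (nat_lit 350) (nat_lit 338) (nat_lit 173)))) (XT.nd (nat_lit 94) (nat_lit 0) (nat_lit 0) (XT.lf (nat_lit 84) (nat_lit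 8386576001) (nat_lit 0) (nat_lit 8659232897) (nat_lit 1092) (nat_lit 7396257210) (nat_lit 98) (nat_lit 5) (nat_lit 97) (nat_lit 5) (nat_lit 110) (nat_lit 5) (nat_lit 351) (nat_lit 338) (nat_lit 172)) (XT.nd (nat_lit 94) (nat_lit 0) (nat_lit 84) (XT.lf (nat_lit 84) (nat_lit 17499002797) (nat_lit 0) (nat_lit 720780546) (nat_lit 1092) (nat_lit 6648200481) (nat_lit 98) (nat_lit 5) (nat_lit 97) (nat_lit 5) (nat_lit 110) (nat_lit 5) (nat_lit 352) (nat_lit 338) (nat_lit 171)) (XT.lf (nat_lit 84) (nat_lit 1540905198) (nat_lit 0) (nat_lit 17974819441) (nat_lit 1092) (nat_lit 5788748111) (nat_lit 99) (nat_lit 5) (nat_lit 98) (nat_lit 5) (nat_lit 111) (nat_lit 5) (nat_lit 353) (nat_lit 338) (nat_lit 170)))))) (XT.nd (nat_lit 564) (nat_lit 1008) (nat_lit 0) (XT.nd (nat_lit 282) (nat_lit 672) (nat_lit 0) (XT.nd (nat_lit 94) (nat_lit 924) (nat_lit 0) (XT.lf (nat_lit 84) (nat_lit 10872813426) (nat_lit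 0) (nat_lit 10059571507) (nat_lit 1092) (nat_lit 4819630934) (nat_lit 99) (nat_lit 5) (nat_lit 98) (nat_lit 5) (nat_lit 111) (nat_lit 5) (nat_lit 354) (nat_lit 338) (nat_lit 169)) (XT.nd (nat_lit 94) (nat_lit 924) (nat_lit 0) (XT.lf (nat_lit 84) (nat_lit 20491217863) (nat_lit 0) (nat_lit 1898184680) (nat_lit 1092) (nat_lit 3824159936) (nat_lit 99) (nat_lit 5) (nat_lit 98) (nat_lit 5) (nat_lit 111) (nat_lit 5) (nat_lit 355) (nat_lit 338) (nat_lit 168)) (XT.lf (nat_lit 0) (nat_lit 3725961967) (nat_lit 1008) (nat_lit 20263784535) (nat_lit 1092) (nat_lit 2696646357) (nat_lit 87) (nat_lit 5) (nat_lit 99) (nat_lit 5) (nat_lit 100) (nat_lit 5) (nat_lit 356) (nat_lit 338) (nat_lit 167)))) (XT.nd (nat_lit 94) (nat_lit 672) (nat_lit 0) (XT.lf (nat_lit 0) (nat_lit 13565850273) (nat_lit 1008) (nat_lit 12149428711) (nat_lit 1092) (nat_lit 1456277262) (nat_lit 87) (nat_lit 5) (nat_lit 99) (nat_lit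 5) (nat_lit 100) (nat_lit 5) (nat_lit 357) (nat_lit 338) (nat_lit 166)) (XT.nd (nat_lit 94) (nat_lit 672) (nat_lit 0) (XT.lf (nat_lit 0) (nat_lit 23708046380) (nat_lit 1008) (nat_lit 3782988799) (nat_lit 1092) (nat_lit 180843456) (nat_lit 87) (nat_lit 5) (nat_lit 99) (nat_lit 5) (nat_lit 100) (nat_lit 5) (nat_lit 358) (nat_lit 338) (nat_lit 165)) (XT.lf (nat_lit 0) (nat_lit 1217208168) (nat_lit 672) (nat_lit 22148815737) (nat_lit 84) (nat_lit 4818071115) (nat_lit 79) (nat_lit 5) (nat_lit 87) (nat_lit 5) (nat_lit 80) (nat_lit 5) (nat_lit 359) (nat_lit 338) (nat_lit 164))))) (XT.nd (nat_lit 282) (nat_lit 504) (nat_lit 0) (XT.nd (nat_lit 94) (nat_lit 504) (nat_lit 0) (XT.lf (nat_lit 0) (nat_lit 2732187062) (nat_lit 672) (nat_lit 12326296874) (nat_lit 84) (nat_lit 13651267258) (nat_lit 79) (nat_lit 5) (nat_lit 87) (nat_lit 5) (nat_lit 80) (nat_lit 5) (nat_lit 360) (nat_lit 338) (nat_lit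 163)) (XT.nd (nat_lit 94) (nat_lit 504) (nat_lit 0) (XT.lf (nat_lit 0) (nat_lit 4291080541) (nat_lit 672) (nat_lit 2202015099) (nat_lit 84) (nat_lit 22758717220) (nat_lit 79) (nat_lit 5) (nat_lit 87) (nat_lit 5) (nat_lit 80) (nat_lit 5) (nat_lit 361) (nat_lit 338) (nat_lit 162)) (XT.lf (nat_lit 0) (nat_lit 6002745138) (nat_lit 588) (nat_lit 21429484819) (nat_lit 84) (nat_lit 2375225810) (nat_lit 73) (nat_lit 5) (nat_lit 80) (nat_lit 5) (nat_lit 74) (nat_lit 5) (nat_lit 362) (nat_lit 338) (nat_lit 161)))) (XT.nd (nat_lit 94) (nat_lit 504) (nat_lit 0) (XT.lf (nat_lit 0) (nat_lit 7854207532) (nat_lit 588) (nat_lit 11116370303) (nat_lit 84) (nat_lit 11407071630) (nat_lit 73) (nat_lit 5) (nat_lit 80) (nat_lit 5) (nat_lit 74) (nat_lit 5) (nat_lit 363) (nat_lit 338) (nat_lit 160)) (XT.nd (nat_lit 94) (nat_lit 504) (nat_lit 0) (XT.lf (nat_lit 0) (nat_lit 9760259732) (nat_lit 588) (nat_lit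 486200232) (nat_lit 84) (nat_lit 20719160416) (nat_lit 73) (nat_lit 5) (nat_lit 80) (nat_lit 5) (nat_lit 74) (nat_lit 5) (nat_lit 364) (nat_lit 338) (nat_lit 159)) (XT.lf (nat_lit 0) (nat_lit 10686237700) (nat_lit 504) (nat_lit 1142449477) (nat_lit 588) (nat_lit 19739943111) (nat_lit 67) (nat_lit 5) (nat_lit 73) (nat_lit 5) (nat_lit 74) (nat_lit 5) (nat_lit 365) (nat_lit 338) (nat_lit 158))))))) (XT.nd (nat_lit 1128) (nat_lit 1344) (nat_lit 0) (XT.nd (nat_lit 564) (nat_lit 840) (nat_lit 0) (XT.nd (nat_lit 282) (nat_lit 420) (nat_lit 0) (XT.nd (nat_lit 94) (nat_lit 420) (nat_lit 0) (XT.lf (nat_lit 0) (nat_lit 14045478667) (nat_lit 588) (nat_lit 10059321497) (nat_lit 84) (nat_lit 8082935212) (nat_lit 67) (nat_lit 5) (nat_lit 74) (nat_lit 5) (nat_lit 68) (nat_lit 5) (nat_lit 366) (nat_lit 338) (nat_lit 157)) (XT.nd (nat_lit 94) (nat_lit 0) (nat_lit 0) (XT.lf (nat_lit 0) (nat_lit 1107327423)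 (nat_lit 420) (nat_lit 15243749330) (nat_lit 504) (nat_lit 16474346295) (nat_lit 62) (nat_lit 5) (nat_lit 67) (nat_lit 5) (nat_lit 68) (nat_lit 5) (nat_lit 367) (nat_lit 338) (nat_lit 156)) (XT.lf (nat_lit 0) (nat_lit 12830857754) (nat_lit 420) (nat_lit 5999758486) (nat_lit 504) (nat_lit 14649098899) (nat_lit 62) (nat_lit 5) (nat_lit 67) (nat_lit 5) (nat_lit 68) (nat_lit 5) (nat_lit 368) (nat_lit 338) (nat_lit 155)))) (XT.nd (nat_lit 94) (nat_lit 420) (nat_lit 0) (XT.lf (nat_lit 0) (nat_lit 21419592595) (nat_lit 504) (nat_lit 9274047708) (nat_lit 84) (nat_lit 3459652500) (nat_lit 62) (nat_lit 5) (nat_lit 68) (nat_lit 5) (nat_lit 63) (nat_lit 5) (nat_lit 369) (nat_lit 338) (nat_lit 154)) (XT.nd (nat_lit 94) (nat_lit 0) (nat_lit 0) (XT.lf (nat_lit 0) (nat_lit 2438679233) (nat_lit 420) (nat_lit 21733322420) (nat_lit 504) (nat_lit 10673183171) (nat_lit 57) (nat_lit 5) (nat_lit 62) (nat_lit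 5) (nat_lit 63) (nat_lit 5) (nat_lit 370) (nat_lit 338) (nat_lit 153)) (XT.lf (nat_lit 0) (nat_lit 14708658308) (nat_lit 420) (nat_lit 12395545456) (nat_lit 504) (nat_lit 8451404715) (nat_lit 57) (nat_lit 5) (nat_lit 62) (nat_lit 5) (nat_lit 63) (nat_lit 5) (nat_lit 371) (nat_lit 338) (nat_lit 152))))) (XT.nd (nat_lit 282) (nat_lit 504) (nat_lit 0) (XT.nd (nat_lit 94) (nat_lit 336) (nat_lit 0) (XT.lf (nat_lit 0) (nat_lit 27356632979) (nat_lit 420) (nat_lit 2768407664) (nat_lit 504) (nat_lit 6163095949) (nat_lit 57) (nat_lit 5) (nat_lit 62) (nat_lit 5) (nat_lit 63) (nat_lit 5) (nat_lit 372) (nat_lit 338) (nat_lit 151)) (XT.nd (nat_lit 94) (nat_lit 0) (nat_lit 0) (XT.lf (nat_lit 0) (nat_lit 3347383889) (nat_lit 336) (nat_lit 29994149564) (nat_lit 420) (nat_lit 3698688132) (nat_lit 53) (nat_lit 5) (nat_lit 57) (nat_lit 5) (nat_lit 58) (nat_lit 5) (nat_lit 373) (nat_lit 338) (nat_lit 150))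 (XT.lf (nat_lit 0) (nat_lit 16165007489) (nat_lit 336) (nat_lit 20611830444) (nat_lit 420) (nat_lit 1035101662) (nat_lit 53) (nat_lit 5) (nat_lit 57) (nat_lit 5) (nat_lit 58) (nat_lit 5) (nat_lit 374) (nat_lit 338) (nat_lit 149)))) (XT.nd (nat_lit 94) (nat_lit 420) (nat_lit 0) (XT.lf (nat_lit 0) (nat_lit 1674461615) (nat_lit 420) (nat_lit 9246916062) (nat_lit 84) (nat_lit 27685752603) (nat_lit 52) (nat_lit 5) (nat_lit 57) (nat_lit 5) (nat_lit 53) (nat_lit 5) (nat_lit 375) (nat_lit 338) (nat_lit 148)) (XT.nd (nat_lit 94) (nat_lit 0) (nat_lit 0) (XT.lf (nat_lit 0) (nat_lit 3597119354) (nat_lit 420) (nat_lit 883027721) (nat_lit 504) (nat_lit 34945463745) (nat_lit 47) (nat_lit 5) (nat_lit 52) (nat_lit 5) (nat_lit 53) (nat_lit 5) (nat_lit 376) (nat_lit 338) (nat_lit 147)) (XT.lf (nat_lit 0) (nat_lit 7562204395) (nat_lit 504) (nat_lit 23328333664) (nat_lit 84) (nat_lit 9373064224) (nat_lit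 47) (nat_lit 5) (nat_lit 53) (nat_lit 5) (nat_lit 48) (nat_lit 5) (nat_lit 377) (nat_lit 338) (nat_lit 146)))))) (XT.nd (nat_lit 564) (nat_lit 672) (nat_lit 0) (XT.nd (nat_lit 282) (nat_lit 336) (nat_lit 0) (XT.nd (nat_lit 94) (nat_lit 336) (nat_lit 0) (XT.lf (nat_lit 0) (nat_lit 10746878153) (nat_lit 504) (nat_lit 10451947654) (nat_lit 84) (nat_lit 19928535429) (nat_lit 47) (nat_lit 5) (nat_lit 53) (nat_lit 5) (nat_lit 48) (nat_lit 5) (nat_lit 378) (nat_lit 338) (nat_lit 145)) (XT.nd (nat_lit 94) (nat_lit 0) (nat_lit 0) (XT.lf (nat_lit 0) (nat_lit 2879442802) (nat_lit 336) (nat_lit 11177498681) (nat_lit 420) (nat_lit 27960137366) (nat_lit 43) (nat_lit 5) (nat_lit 47) (nat_lit 5) (nat_lit 48) (nat_lit 5) (nat_lit 379) (nat_lit 338) (nat_lit 144)) (XT.lf (nat_lit 0) (nat_lit 16843526334) (nat_lit 336) (nat_lit 733323332) (nat_lit 420) (nat_lit 25354212297) (nat_lit 43) (nat_lit 5) (nat_lit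 47) (nat_lit 5) (nat_lit 48) (nat_lit 5) (nat_lit 380) (nat_lit 338) (nat_lit 143)))) (XT.nd (nat_lit 94) (nat_lit 336) (nat_lit 0) (XT.lf (nat_lit 0) (nat_lit 21303608923) (nat_lit 420) (nat_lit 12734579249) (nat_lit 84) (nat_lit 9832168851) (nat_lit 43) (nat_lit 5) (nat_lit 48) (nat_lit 5) (nat_lit 44) (nat_lit 5) (nat_lit 381) (nat_lit 338) (nat_lit 142)) (XT.nd (nat_lit 94) (nat_lit 0) (nat_lit 0) (XT.lf (nat_lit 0) (nat_lit 1043760305) (nat_lit 336) (nat_lit 24118235492) (nat_lit 420) (nat_lit 19676283366) (nat_lit 39) (nat_lit 5) (nat_lit 43) (nat_lit 5) (nat_lit 44) (nat_lit 5) (nat_lit 382) (nat_lit 338) (nat_lit 141)) (XT.lf (nat_lit 0) (nat_lit 15517128167) (nat_lit 336) (nat_lit 13754063372) (nat_lit 420) (nat_lit 16560955918) (nat_lit 39) (nat_lit 5) (nat_lit 43) (nat_lit 5) (nat_lit 44) (nat_lit 5) (nat_lit 383) (nat_lit 338) (nat_lit 140))))) (XT.nd (nat_lit 282) (nat_lit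 420) (nat_lit 0) (XT.nd (nat_lit 94) (nat_lit 252) (nat_lit 0) (XT.lf (nat_lit 0) (nat_lit 30437165963) (nat_lit 336) (nat_lit 3068934207) (nat_lit 420) (nat_lit 13350784835) (nat_lit 39) (nat_lit 5) (nat_lit 43) (nat_lit 5) (nat_lit 44) (nat_lit 5) (nat_lit 384) (nat_lit 338) (nat_lit 139)) (XT.nd (nat_lit 94) (nat_lit 252) (nat_lit 0) (XT.lf (nat_lit 0) (nat_lit 37949505405) (nat_lit 420) (nat_lit 2174502572) (nat_lit 84) (nat_lit 7786995070) (nat_lit 39) (nat_lit 5) (nat_lit 44) (nat_lit 5) (nat_lit 40) (nat_lit 5) (nat_lit 385) (nat_lit 338) (nat_lit 138)) (XT.lf (nat_lit 0) (nat_lit 12735582779) (nat_lit 252) (nat_lit 29951223725) (nat_lit 336) (nat_lit 6306158641) (nat_lit 36) (nat_lit 5) (nat_lit 39) (nat_lit 5) (nat_lit 40) (nat_lit 5) (nat_lit 386) (nat_lit 338) (nat_lit 137)))) (XT.nd (nat_lit 188) (nat_lit 336) (nat_lit 0) (XT.nd (nat_lit 94) (nat_lit 84) (nat_lit 0) (XT.lf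 (nat_lit 0) (nat_lit 28152060250) (nat_lit 252) (nat_lit 19440053161) (nat_lit 336) (nat_lit 2515705867) (nat_lit 36) (nat_lit 5) (nat_lit 39) (nat_lit 5) (nat_lit 40) (nat_lit 5) (nat_lit 387) (nat_lit 338) (nat_lit 136)) (XT.lf (nat_lit 0) (nat_lit 1362676995) (nat_lit 336) (nat_lit 7226495570) (nat_lit 84) (nat_lit 42667686831) (nat_lit 35) (nat_lit 5) (nat_lit 39) (nat_lit 5) (nat_lit 36) (nat_lit 5) (nat_lit 388) (nat_lit 338) (nat_lit 135))) (XT.nd (nat_lit 94) (nat_lit 0) (nat_lit 0) (XT.lf (nat_lit 0) (nat_lit 5414711765) (nat_lit 420) (nat_lit 44370241337) (nat_lit 84) (nat_lit 2652499225) (nat_lit 31) (nat_lit 5) (nat_lit 36) (nat_lit 5) (nat_lit 32) (nat_lit 5) (nat_lit 389) (nat_lit 338) (nat_lit 134)) (XT.lf (nat_lit 0) (nat_lit 9754953157) (nat_lit 420) (nat_lit 29754573960) (nat_lit 84) (nat_lit 14140082181) (nat_lit 31) (nat_lit 5) (nat_lit 36) (nat_lit 5) (nat_lit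 32) (nat_lit 5) (nat_lit 390) (nat_lit 338) (nat_lit 133))))))))
noncomputable def xc194 : XT := (XT.nd (nat_lit 49350) (nat_lit 0) (nat_lit 4704) (XT.nd (nat_lit 1128) (nat_lit 420) (nat_lit 0) (XT.nd (nat_lit 564) (nat_lit 252) (nat_lit 0) (XT.nd (nat_lit 282) (nat_lit 252) (nat_lit 0) (XT.nd (nat_lit 94) (nat_lit 252) (nat_lit 0) (XT.lf (nat_lit 0) (nat_lit 14228331026) (nat_lit 420) (nat_lit 14687635159) (nat_lit 84) (nat_lit 25983426566) (nat_lit 31) (nat_lit 5) (nat_lit 36) (nat_lit 5) (nat_lit 32) (nat_lit 5) (nat_lit 391) (nat_lit 338) (nat_lit 132)) (XT.nd (nat_lit 94) (nat_lit 0) (nat_lit 0) (XT.lf (nat_lit 0) (nat_lit 861986129) (nat_lit 252) (nat_lit 17985579907) (nat_lit 336) (nat_lit 37340136498) (nat_lit 28) (nat_lit 5) (nat_lit 31) (nat_lit 5) (nat_lit 32) (nat_lit 5) (nat_lit 392) (nat_lit 338) (nat_lit 131)) (XT.lf (nat_lit 0) (nat_lit 17203273925) (nat_lit 252) (nat_lit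 6558687483) (nat_lit 336) (nat_lit 33749283152) (nat_lit 28) (nat_lit 5) (nat_lit 31) (nat_lit 5) (nat_lit 32) (nat_lit 5) (nat_lit 393) (nat_lit 338) (nat_lit 130)))) (XT.nd (nat_lit 94) (nat_lit 252) (nat_lit 0) (XT.lf (nat_lit 0) (nat_lit 28879202177) (nat_lit 336) (nat_lit 24878213481) (nat_lit 84) (nat_lit 5116840621) (nat_lit 28) (nat_lit 5) (nat_lit 32) (nat_lit 5) (nat_lit 29) (nat_lit 5) (nat_lit 394) (nat_lit 338) (nat_lit 129)) (XT.nd (nat_lit 94) (nat_lit 252) (nat_lit 0) (XT.lf (nat_lit 0) (nat_lit 34220888585) (nat_lit 336) (nat_lit 9038893233) (nat_lit 84) (nat_lit 17017704596) (nat_lit 28) (nat_lit 5) (nat_lit 32) (nat_lit 5) (nat_lit 29) (nat_lit 5) (nat_lit 395) (nat_lit 338) (nat_lit 128)) (XT.lf (nat_lit 0) (nat_lit 7439710594) (nat_lit 252) (nat_lit 32361028909) (nat_lit 336) (nat_lit 21921232485) (nat_lit 25) (nat_lit 5) (nat_lit 28) (nat_lit 5) (nat_lit 29) (nat_lit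 5) (nat_lit 396) (nat_lit 338) (nat_lit 127))))) (XT.nd (nat_lit 282) (nat_lit 252) (nat_lit 0) (XT.nd (nat_lit 94) (nat_lit 0) (nat_lit 0) (XT.lf (nat_lit 0) (nat_lit 24619158483) (nat_lit 252) (nat_lit 21027545212) (nat_lit 336) (nat_lit 17561650537) (nat_lit 25) (nat_lit 5) (nat_lit 28) (nat_lit 5) (nat_lit 29) (nat_lit 5) (nat_lit 397) (nat_lit 338) (nat_lit 126)) (XT.nd (nat_lit 94) (nat_lit 0) (nat_lit 0) (XT.lf (nat_lit 0) (nat_lit 42329605294) (nat_lit 252) (nat_lit 9343114241) (nat_lit 336) (nat_lit 13068135905) (nat_lit 25) (nat_lit 5) (nat_lit 28) (nat_lit 5) (nat_lit 29) (nat_lit 5) (nat_lit 398) (nat_lit 338) (nat_lit 125)) (XT.lf (nat_lit 0) (nat_lit 57911219537) (nat_lit 336) (nat_lit 5760160680) (nat_lit 84) (nat_lit 2648692564) (nat_lit 25) (nat_lit 5) (nat_lit 29) (nat_lit 5) (nat_lit 26) (nat_lit 5) (nat_lit 399) (nat_lit 338) (nat_lit 124)))) (XT.nd (nat_lit 94)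 (nat_lit 84) (nat_lit 0) (XT.lf (nat_lit 0) (nat_lit 11542605905) (nat_lit 168) (nat_lit 53009461897) (nat_lit 252) (nat_lit 3389704924) (nat_lit 23) (nat_lit 5) (nat_lit 25) (nat_lit 5) (nat_lit 26) (nat_lit 5) (nat_lit 400) (nat_lit 338) (nat_lit 123)) (XT.nd (nat_lit 94) (nat_lit 0) (nat_lit 0) (XT.lf (nat_lit 0) (nat_lit 1808707401) (nat_lit 252) (nat_lit 40127851615) (nat_lit 84) (nat_lit 27674792927) (nat_lit 22) (nat_lit 5) (nat_lit 25) (nat_lit 5) (nat_lit 23) (nat_lit 5) (nat_lit 401) (nat_lit 338) (nat_lit 122)) (XT.lf (nat_lit 0) (nat_lit 7096787298) (nat_lit 252) (nat_lit 23388266715) (nat_lit 84) (nat_lit 40846596650) (nat_lit 22) (nat_lit 5) (nat_lit 25) (nat_lit 5) (nat_lit 23) (nat_lit 5) (nat_lit 402) (nat_lit 338) (nat_lit 121)))))) (XT.nd (nat_lit 564) (nat_lit 0) (nat_lit 0) (XT.nd (nat_lit 282) (nat_lit 168) (nat_lit 0) (XT.nd (nat_lit 94) (nat_lit 252) (nat_lit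 0) (XT.lf (nat_lit 0) (nat_lit 12547758811) (nat_lit 252) (nat_lit 6131182784) (nat_lit 84) (nat_lit 54426373204) (nat_lit 22) (nat_lit 5) (nat_lit 25) (nat_lit 5) (nat_lit 23) (nat_lit 5) (nat_lit 403) (nat_lit 338) (nat_lit 120)) (XT.nd (nat_lit 94) (nat_lit 0) (nat_lit 0) (XT.lf (nat_lit 0) (nat_lit 11899228525) (nat_lit 252) (nat_lit 6385516111) (nat_lit 336) (nat_lit 56645593660) (nat_lit 19) (nat_lit 5) (nat_lit 22) (nat_lit 5) (nat_lit 23) (nat_lit 5) (nat_lit 404) (nat_lit 338) (nat_lit 119)) (XT.lf (nat_lit 0) (nat_lit 24325621546) (nat_lit 336) (nat_lit 46255837228) (nat_lit 84) (nat_lit 6226575082) (nat_lit 19) (nat_lit 5) (nat_lit 23) (nat_lit 5) (nat_lit 20) (nat_lit 5) (nat_lit 405) (nat_lit 338) (nat_lit 118)))) (XT.nd (nat_lit 94) (nat_lit 168) (nat_lit 0) (XT.lf (nat_lit 0) (nat_lit 30618109656) (nat_lit 336) (nat_lit 29027199696) (nat_lit 84) (nat_lit 19096637567)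 (nat_lit 19) (nat_lit 5) (nat_lit 23) (nat_lit 5) (nat_lit 20) (nat_lit 5) (nat_lit 406) (nat_lit 338) (nat_lit 117)) (XT.nd (nat_lit 94) (nat_lit 168) (nat_lit 0) (XT.lf (nat_lit 0) (nat_lit 37104729115) (nat_lit 336) (nat_lit 11265793170) (nat_lit 84) (nat_lit 32365321509) (nat_lit 19) (nat_lit 5) (nat_lit 23) (nat_lit 5) (nat_lit 20) (nat_lit 5) (nat_lit 407) (nat_lit 338) (nat_lit 116)) (XT.lf (nat_lit 0) (nat_lit 7189796211) (nat_lit 168) (nat_lit 36673053587) (nat_lit 252) (nat_lit 38926522168) (nat_lit 17) (nat_lit 5) (nat_lit 19) (nat_lit 5) (nat_lit 20) (nat_lit 5) (nat_lit 408) (nat_lit 338) (nat_lit 115))))) (XT.nd (nat_lit 282) (nat_lit 0) (nat_lit 0) (XT.nd (nat_lit 94) (nat_lit 0) (nat_lit 0) (XT.lf (nat_lit 0) (nat_lit 26455071593) (nat_lit 168) (nat_lit 24492099489) (nat_lit 252) (nat_lit 33955774054) (nat_lit 17) (nat_lit 5) (nat_lit 19) (nat_lit 5) (nat_lit 20) (nat_lit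 5) (nat_lit 409) (nat_lit 338) (nat_lit 114)) (XT.nd (nat_lit 94) (nat_lit 0) (nat_lit 0) (XT.lf (nat_lit 0) (nat_lit 46316342416) (nat_lit 168) (nat_lit 11933897843) (nat_lit 252) (nat_lit 28831828856) (nat_lit 17) (nat_lit 5) (nat_lit 19) (nat_lit 5) (nat_lit 20) (nat_lit 5) (nat_lit 410) (nat_lit 338) (nat_lit 113)) (XT.lf (nat_lit 0) (nat_lit 65788916186) (nat_lit 252) (nat_lit 22546705240) (nat_lit 84) (nat_lit 992842043) (nat_lit 17) (nat_lit 5) (nat_lit 20) (nat_lit 5) (nat_lit 18) (nat_lit 5) (nat_lit 411) (nat_lit 338) (nat_lit 112)))) (XT.nd (nat_lit 47188) (nat_lit 0) (nat_lit 6384) (XT.lf (nat_lit 0) (nat_lit 73682528622) (nat_lit 252) (nat_lit 3886130052) (nat_lit 84) (nat_lit 14072082012) (nat_lit 17) (nat_lit 5) (nat_lit 20) (nat_lit 5) (nat_lit 18) (nat_lit 5) (nat_lit 412) (nat_lit 338) (nat_lit 111)) (XT.nd (nat_lit 94) (nat_lit 0) (nat_lit 0) (XT.lf (nat_lit 0) (nat_lit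 4438020979) (nat_lit 1092) (nat_lit 2889254791) (nat_lit 1092) (nat_lit 2889254791) (nat_lit 93) (nat_lit 3) (nat_lit 106) (nat_lit 3) (nat_lit 106) (nat_lit 5) (nat_lit 339) (nat_lit 339) (nat_lit 183)) (XT.lf (nat_lit 84) (nat_lit 1379850799) (nat_lit 0) (nat_lit 7776110518) (nat_lit 1092) (nat_lit 11588686456) (nat_lit 94) (nat_lit 5) (nat_lit 93) (nat_lit 3) (nat_lit 106) (nat_lit 5) (nat_lit 340) (nat_lit 339) (nat_lit 182))))))) (XT.nd (nat_lit 1128) (nat_lit 1680) (nat_lit 0) (XT.nd (nat_lit 564) (nat_lit 0) (nat_lit 168) (XT.nd (nat_lit 282) (nat_lit 0) (nat_lit 84) (XT.nd (nat_lit 94) (nat_lit 0) (nat_lit 84) (XT.lf (nat_lit 84) (nat_lit 8879879690) (nat_lit 0) (nat_lit 619782954) (nat_lit 1092) (nat_lit 11564551468) (nat_lit 94) (nat_lit 5) (nat_lit 93) (nat_lit 3) (nat_lit 106) (nat_lit 5) (nat_lit 341) (nat_lit 339) (nat_lit 181)) (XT.nd (nat_lit 94) (nat_lit 0) (nat_lit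 0) (XT.lf (nat_lit 0) (nat_lit 9916031918) (nat_lit 1008) (nat_lit 4851189516) (nat_lit 1092) (nat_lit 6624571041) (nat_lit 94) (nat_lit 5) (nat_lit 106) (nat_lit 5) (nat_lit 107) (nat_lit 5) (nat_lit 342) (nat_lit 339) (nat_lit 180)) (XT.lf (nat_lit 84) (nat_lit 2755683157) (nat_lit 0) (nat_lit 7618421522) (nat_lit 1092) (nat_lit 11354555448) (nat_lit 95) (nat_lit 5) (nat_lit 94) (nat_lit 5) (nat_lit 107) (nat_lit 5) (nat_lit 343) (nat_lit 339) (nat_lit 179)))) (XT.nd (nat_lit 94) (nat_lit 0) (nat_lit 84) (XT.lf (nat_lit 84) (nat_lit 10698458034) (nat_lit 0) (nat_lit 193795933) (nat_lit 1092) (nat_lit 11182320768) (nat_lit 95) (nat_lit 5) (nat_lit 94) (nat_lit 5) (nat_lit 107) (nat_lit 5) (nat_lit 344) (nat_lit 339) (nat_lit 178)) (XT.nd (nat_lit 94) (nat_lit 0) (nat_lit 0) (XT.lf (nat_lit 0) (nat_lit 11495882101) (nat_lit 1008) (nat_lit 3620626338) (nat_lit 1092) (nat_lit 7312577793)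 (nat_lit 95) (nat_lit 5) (nat_lit 107) (nat_lit 5) (nat_lit 108) (nat_lit 5) (nat_lit 345) (nat_lit 339) (nat_lit 177)) (XT.lf (nat_lit 84) (nat_lit 4460396555) (nat_lit 0) (nat_lit 7699596399) (nat_lit 1092) (nat_lit 10633324424) (nat_lit 96) (nat_lit 5) (nat_lit 95) (nat_lit 5) (nat_lit 108) (nat_lit 5) (nat_lit 346) (nat_lit 339) (nat_lit 176))))) (XT.nd (nat_lit 282) (nat_lit 0) (nat_lit 84) (XT.nd (nat_lit 94) (nat_lit 0) (nat_lit 84) (XT.lf (nat_lit 84) (nat_lit 12865941959) (nat_lit 0) (nat_lit 12188546) (nat_lit 1092) (nat_lit 10289696497) (nat_lit 96) (nat_lit 5) (nat_lit 95) (nat_lit 5) (nat_lit 108) (nat_lit 5) (nat_lit 347) (nat_lit 339) (nat_lit 175)) (XT.nd (nat_lit 94) (nat_lit 0) (nat_lit 0) (XT.lf (nat_lit 0) (nat_lit 13692827204) (nat_lit 1008) (nat_lit 2103221952) (nat_lit 1092) (nat_lit 7755617277) (nat_lit 96) (nat_lit 5) (nat_lit 108) (nat_lit 5) (nat_lit 109)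 (nat_lit 5) (nat_lit 348) (nat_lit 339) (nat_lit 174)) (XT.lf (nat_lit 84) (nat_lit 6477230323) (nat_lit 0) (nat_lit 8115848933) (nat_lit 1092) (nat_lit 9352478849) (nat_lit 97) (nat_lit 5) (nat_lit 96) (nat_lit 5) (nat_lit 109) (nat_lit 5) (nat_lit 349) (nat_lit 339) (nat_lit 173)))) (XT.nd (nat_lit 94) (nat_lit 0) (nat_lit 84) (XT.lf (nat_lit 84) (nat_lit 15365545156) (nat_lit 0) (nat_lit 173663162) (nat_lit 1092) (nat_lit 8811916891) (nat_lit 97) (nat_lit 5) (nat_lit 96) (nat_lit 5) (nat_lit 109) (nat_lit 5) (nat_lit 350) (nat_lit 339) (nat_lit 172)) (XT.nd (nat_lit 94) (nat_lit 0) (nat_lit 0) (XT.lf (nat_lit 0) (nat_lit 16590322341) (nat_lit 1008) (nat_lit 322164331) (nat_lit 1092) (nat_lit 7854454096) (nat_lit 97) (nat_lit 5) (nat_lit 109) (nat_lit 5) (nat_lit 110) (nat_lit 5) (nat_lit 351) (nat_lit 339) (nat_lit 171)) (XT.lf (nat_lit 84) (nat_lit 8782278272) (nat_lit 0) (nat_lit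 8976903749) (nat_lit 1092) (nat_lit 7433845136) (nat_lit 98) (nat_lit 5) (nat_lit 97) (nat_lit 5) (nat_lit 110) (nat_lit 5) (nat_lit 352) (nat_lit 339) (nat_lit 170)))))) (XT.nd (nat_lit 564) (nat_lit 1176) (nat_lit 0) (XT.nd (nat_lit 282) (nat_lit 840) (nat_lit 0) (XT.nd (nat_lit 94) (nat_lit 0) (nat_lit 84) (XT.lf (nat_lit 84) (nat_lit 18173109531) (nat_lit 0) (nat_lit 790878995) (nat_lit 1092) (nat_lit 6668362545) (nat_lit 98) (nat_lit 5) (nat_lit 97) (nat_lit 5) (nat_lit 110) (nat_lit 5) (nat_lit 353) (nat_lit 339) (nat_lit 169)) (XT.nd (nat_lit 94) (nat_lit 0) (nat_lit 0) (XT.lf (nat_lit 84) (nat_lit 1725921163) (nat_lit 0) (nat_lit 18569690933) (nat_lit 1092) (nat_lit 5786927745) (nat_lit 99) (nat_lit 5) (nat_lit 98) (nat_lit 5) (nat_lit 111) (nat_lit 5) (nat_lit 354) (nat_lit 339) (nat_lit 168)) (XT.lf (nat_lit 84) (nat_lit 11342991791) (nat_lit 0) (nat_lit 10407938194) (nat_lit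 1092) (nat_lit 4793218390) (nat_lit 99) (nat_lit 5) (nat_lit 98) (nat_lit 5) (nat_lit 111) (nat_lit 5) (nat_lit 355) (nat_lit 339) (nat_lit 167)))) (XT.nd (nat_lit 94) (nat_lit 924) (nat_lit 0) (XT.lf (nat_lit 84) (nat_lit 21255564093) (nat_lit 0) (nat_lit 1992450297) (nat_lit 1092) (nat_lit 3772174362) (nat_lit 99) (nat_lit 5) (nat_lit 98) (nat_lit 5) (nat_lit 111) (nat_lit 5) (nat_lit 356) (nat_lit 339) (nat_lit 166)) (XT.nd (nat_lit 94) (nat_lit 0) (nat_lit 0) (XT.lf (nat_lit 0) (nat_lit 3975559366) (nat_lit 1008) (nat_lit 20918451653) (nat_lit 1092) (nat_lit 2613815414) (nat_lit 87) (nat_lit 5) (nat_lit 99) (nat_lit 5) (nat_lit 100) (nat_lit 5) (nat_lit 357) (nat_lit 339) (nat_lit 165)) (XT.lf (nat_lit 0) (nat_lit 14116452328) (nat_lit 1008) (nat_lit 12551754307) (nat_lit 1092) (nat_lit 1339998986) (nat_lit 87) (nat_lit 5) (nat_lit 99) (nat_lit 5) (nat_lit 100) (nat_lit 5) (nat_lit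 358) (nat_lit 339) (nat_lit 164))))) (XT.nd (nat_lit 282) (nat_lit 504) (nat_lit 0) (XT.nd (nat_lit 94) (nat_lit 672) (nat_lit 0) (XT.lf (nat_lit 0) (nat_lit 24569145864) (nat_lit 1008) (nat_lit 3925182214) (nat_lit 1092) (nat_lit 29880377) (nat_lit 87) (nat_lit 5) (nat_lit 99) (nat_lit 5) (nat_lit 100) (nat_lit 5) (nat_lit 359) (nat_lit 339) (nat_lit 163)) (XT.nd (nat_lit 94) (nat_lit 0) (nat_lit 0) (XT.lf (nat_lit 0) (nat_lit 1404809653) (nat_lit 672) (nat_lit 22701020140) (nat_lit 84) (nat_lit 4946559327) (nat_lit 79) (nat_lit 5) (nat_lit 87) (nat_lit 5) (nat_lit 80) (nat_lit 5) (nat_lit 360) (nat_lit 339) (nat_lit 162)) (XT.lf (nat_lit 0) (nat_lit 2962246677) (nat_lit 672) (nat_lit 12578044584) (nat_lit 84) (nat_lit 14054212128) (nat_lit 79) (nat_lit 5) (nat_lit 87) (nat_lit 5) (nat_lit 80) (nat_lit 5) (nat_lit 361) (nat_lit 339) (nat_lit 161)))) (XT.nd (nat_lit 188) (nat_lit 0)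 (nat_lit 0) (XT.nd (nat_lit 94) (nat_lit 504) (nat_lit 0) (XT.lf (nat_lit 0) (nat_lit 4565095130) (nat_lit 672) (nat_lit 2143829950) (nat_lit 84) (nat_lit 23444601746) (nat_lit 79) (nat_lit 5) (nat_lit 87) (nat_lit 5) (nat_lit 80) (nat_lit 5) (nat_lit 362) (nat_lit 339) (nat_lit 160)) (XT.lf (nat_lit 0) (nat_lit 6326696466) (nat_lit 588) (nat_lit 21963526552) (nat_lit 84) (nat_lit 2436290211) (nat_lit 73) (nat_lit 5) (nat_lit 80) (nat_lit 5) (nat_lit 74) (nat_lit 5) (nat_lit 363) (nat_lit 339) (nat_lit 159))) (XT.nd (nat_lit 94) (nat_lit 0) (nat_lit 0) (XT.lf (nat_lit 0) (nat_lit 8231408846) (nat_lit 588) (nat_lit 11334622500) (nat_lit 84) (nat_lit 11748501132) (nat_lit 73) (nat_lit 5) (nat_lit 80) (nat_lit 5) (nat_lit 74) (nat_lit 5) (nat_lit 364) (nat_lit 339) (nat_lit 158)) (XT.lf (nat_lit 0) (nat_lit 10192527958) (nat_lit 588) (nat_lit 378716394) (nat_lit 84) (nat_lit 21349631190)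 (nat_lit 73) (nat_lit 5) (nat_lit 80) (nat_lit 5) (nat_lit 74) (nat_lit 5) (nat_lit 365) (nat_lit 339) (nat_lit 157))))))))
noncomputable def xc195 : XT := (XT.nd (nat_lit 2256) (nat_lit 1512) (nat_lit 0) (XT.nd (nat_lit 1128) (nat_lit 1008) (nat_lit 0) (XT.nd (nat_lit 564) (nat_lit 840) (nat_lit 0) (XT.nd (nat_lit 282) (nat_lit 420) (nat_lit 0) (XT.nd (nat_lit 94) (nat_lit 420) (nat_lit 0) (XT.lf (nat_lit 0) (nat_lit 11138826344) (nat_lit 504) (nat_lit 1183553962) (nat_lit 588) (nat_lit 20220301835) (nat_lit 67) (nat_lit 5) (nat_lit 73) (nat_lit 5) (nat_lit 74) (nat_lit 5) (nat_lit 366) (nat_lit 339) (nat_lit 156)) (XT.nd (nat_lit 94) (nat_lit 420) (nat_lit 0) (XT.lf (nat_lit 0) (nat_lit 14604018860) (nat_lit 588) (nat_lit 10249000044) (nat_lit 84) (nat_lit 8328099861) (nat_lit 67) (nat_lit 5) (nat_lit 74) (nat_lit 5) (nat_lit 68) (nat_lit 5) (nat_lit 367) (nat_lit 339) (nat_lit 155))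 (XT.lf (nat_lit 0) (nat_lit 1262578228) (nat_lit 420) (nat_lit 15716009566) (nat_lit 504) (nat_lit 16860083167) (nat_lit 62) (nat_lit 5) (nat_lit 67) (nat_lit 5) (nat_lit 68) (nat_lit 5) (nat_lit 368) (nat_lit 339) (nat_lit 154)))) (XT.nd (nat_lit 94) (nat_lit 420) (nat_lit 0) (XT.lf (nat_lit 0) (nat_lit 13345902080) (nat_lit 420) (nat_lit 6185463905) (nat_lit 504) (nat_lit 14982010622) (nat_lit 62) (nat_lit 5) (nat_lit 67) (nat_lit 5) (nat_lit 68) (nat_lit 5) (nat_lit 369) (nat_lit 339) (nat_lit 153)) (XT.nd (nat_lit 94) (nat_lit 420) (nat_lit 0) (XT.lf (nat_lit 0) (nat_lit 22197085406) (nat_lit 504) (nat_lit 9443701684) (nat_lit 84) (nat_lit 3567174578) (nat_lit 62) (nat_lit 5) (nat_lit 68) (nat_lit 5) (nat_lit 63) (nat_lit 5) (nat_lit 370) (nat_lit 339) (nat_lit 152)) (XT.lf (nat_lit 0) (nat_lit 2630926752) (nat_lit 420) (nat_lit 22401637292) (nat_lit 504) (nat_lit 10888825201)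 (nat_lit 57) (nat_lit 5) (nat_lit 62) (nat_lit 5) (nat_lit 63) (nat_lit 5) (nat_lit 371) (nat_lit 339) (nat_lit 151))))) (XT.nd (nat_lit 282) (nat_lit 504) (nat_lit 0) (XT.nd (nat_lit 94) (nat_lit 336) (nat_lit 0) (XT.lf (nat_lit 0) (nat_lit 15277767804) (nat_lit 420) (nat_lit 12774552154) (nat_lit 504) (nat_lit 8601636236) (nat_lit 57) (nat_lit 5) (nat_lit 62) (nat_lit 5) (nat_lit 63) (nat_lit 5) (nat_lit 372) (nat_lit 339) (nat_lit 150)) (XT.nd (nat_lit 94) (nat_lit 336) (nat_lit 0) (XT.lf (nat_lit 0) (nat_lit 28314427776) (nat_lit 420) (nat_lit 2849131103) (nat_lit 504) (nat_lit 6245750347) (nat_lit 57) (nat_lit 5) (nat_lit 62) (nat_lit 5) (nat_lit 63) (nat_lit 5) (nat_lit 373) (nat_lit 339) (nat_lit 149)) (XT.lf (nat_lit 0) (nat_lit 3563452438) (nat_lit 336) (nat_lit 30914327235) (nat_lit 420) (nat_lit 3707006169) (nat_lit 53) (nat_lit 5) (nat_lit 57) (nat_lit 5) (nat_lit 58) (nat_lit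 5) (nat_lit 374) (nat_lit 339) (nat_lit 148)))) (XT.nd (nat_lit 94) (nat_lit 504) (nat_lit 0) (XT.lf (nat_lit 0) (nat_lit 16775045756) (nat_lit 336) (nat_lit 21241446106) (nat_lit 420) (nat_lit 964045977) (nat_lit 53) (nat_lit 5) (nat_lit 57) (nat_lit 5) (nat_lit 58) (nat_lit 5) (nat_lit 375) (nat_lit 339) (nat_lit 147)) (XT.nd (nat_lit 94) (nat_lit 420) (nat_lit 0) (XT.lf (nat_lit 0) (nat_lit 1824396809) (nat_lit 420) (nat_lit 9425450461) (nat_lit 84) (nat_lit 28550608798) (nat_lit 52) (nat_lit 5) (nat_lit 57) (nat_lit 5) (nat_lit 53) (nat_lit 5) (nat_lit 376) (nat_lit 339) (nat_lit 146)) (XT.lf (nat_lit 0) (nat_lit 3815655435) (nat_lit 420) (nat_lit 899517327) (nat_lit 504) (nat_lit 35929208926) (nat_lit 47) (nat_lit 5) (nat_lit 52) (nat_lit 5) (nat_lit 53) (nat_lit 5) (nat_lit 377) (nat_lit 339) (nat_lit 145)))))) (XT.nd (nat_lit 564) (nat_lit 336) (nat_lit 0) (XT.nd (nat_lit 282)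 (nat_lit 336) (nat_lit 0) (XT.nd (nat_lit 94) (nat_lit 336) (nat_lit 0) (XT.lf (nat_lit 0) (nat_lit 7889987824) (nat_lit 504) (nat_lit 23944489237) (nat_lit 84) (nat_lit 9673973502) (nat_lit 47) (nat_lit 5) (nat_lit 53) (nat_lit 5) (nat_lit 48) (nat_lit 5) (nat_lit 378) (nat_lit 339) (nat_lit 144)) (XT.nd (nat_lit 94) (nat_lit 336) (nat_lit 0) (XT.lf (nat_lit 0) (nat_lit 11170579477) (nat_lit 504) (nat_lit 10672153210) (nat_lit 84) (nat_lit 20556353283) (nat_lit 47) (nat_lit 5) (nat_lit 53) (nat_lit 5) (nat_lit 48) (nat_lit 5) (nat_lit 379) (nat_lit 339) (nat_lit 143)) (XT.lf (nat_lit 0) (nat_lit 3071459419) (nat_lit 336) (nat_lit 11510092092) (nat_lit 420) (nat_lit 28734898642) (nat_lit 43) (nat_lit 5) (nat_lit 47) (nat_lit 5) (nat_lit 48) (nat_lit 5) (nat_lit 380) (nat_lit 339) (nat_lit 142)))) (XT.nd (nat_lit 94) (nat_lit 336) (nat_lit 0) (XT.lf (nat_lit 0) (nat_lit 17465339948)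 (nat_lit 336) (nat_lit 742565523) (nat_lit 420) (nat_lit 26050956232) (nat_lit 43) (nat_lit 5) (nat_lit 47) (nat_lit 5) (nat_lit 48) (nat_lit 5) (nat_lit 381) (nat_lit 339) (nat_lit 141)) (XT.nd (nat_lit 94) (nat_lit 336) (nat_lit 0) (XT.lf (nat_lit 0) (nat_lit 22047733016) (nat_lit 420) (nat_lit 13029842333) (nat_lit 84) (nat_lit 10149787640) (nat_lit 43) (nat_lit 5) (nat_lit 48) (nat_lit 5) (nat_lit 44) (nat_lit 5) (nat_lit 382) (nat_lit 339) (nat_lit 140)) (XT.lf (nat_lit 0) (nat_lit 1174618309) (nat_lit 336) (nat_lit 24849571670) (nat_lit 420) (nat_lit 20201159899) (nat_lit 39) (nat_lit 5) (nat_lit 43) (nat_lit 5) (nat_lit 44) (nat_lit 5) (nat_lit 383) (nat_lit 339) (nat_lit 139))))) (XT.nd (nat_lit 282) (nat_lit 336) (nat_lit 0) (XT.nd (nat_lit 94) (nat_lit 0) (nat_lit 0) (XT.lf (nat_lit 0) (nat_lit 16093698844) (nat_lit 336) (nat_lit 14164601197) (nat_lit 420) (nat_lit 16991815725)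 (nat_lit 39) (nat_lit 5) (nat_lit 43) (nat_lit 5) (nat_lit 44) (nat_lit 5) (nat_lit 384) (nat_lit 339) (nat_lit 138)) (XT.nd (nat_lit 94) (nat_lit 0) (nat_lit 0) (XT.lf (nat_lit 0) (nat_lit 31473385134) (nat_lit 336) (nat_lit 3148709248) (nat_lit 420) (nat_lit 13684610836) (nat_lit 39) (nat_lit 5) (nat_lit 43) (nat_lit 5) (nat_lit 44) (nat_lit 5) (nat_lit 385) (nat_lit 339) (nat_lit 137)) (XT.lf (nat_lit 0) (nat_lit 39201068587) (nat_lit 420) (nat_lit 2149518499) (nat_lit 84) (nat_lit 8042991734) (nat_lit 39) (nat_lit 5) (nat_lit 44) (nat_lit 5) (nat_lit 40) (nat_lit 5) (nat_lit 386) (nat_lit 339) (nat_lit 136)))) (XT.nd (nat_lit 94) (nat_lit 84) (nat_lit 0) (XT.lf (nat_lit 0) (nat_lit 13221844095) (nat_lit 252) (nat_lit 30862030246) (nat_lit 336) (nat_lit 6425259417) (nat_lit 36) (nat_lit 5) (nat_lit 39) (nat_lit 5) (nat_lit 40) (nat_lit 5) (nat_lit 387) (nat_lit 339) (nat_lit 135))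 (XT.nd (nat_lit 94) (nat_lit 84) (nat_lit 0) (XT.lf (nat_lit 0) (nat_lit 29113482410) (nat_lit 252) (nat_lit 20025545037) (nat_lit 336) (nat_lit 2519599498) (nat_lit 36) (nat_lit 5) (nat_lit 39) (nat_lit 5) (nat_lit 40) (nat_lit 5) (nat_lit 388) (nat_lit 339) (nat_lit 134)) (XT.lf (nat_lit 0) (nat_lit 1475337477) (nat_lit 336) (nat_lit 7362730310) (nat_lit 84) (nat_lit 44005273635) (nat_lit 35) (nat_lit 5) (nat_lit 39) (nat_lit 5) (nat_lit 36) (nat_lit 5) (nat_lit 389) (nat_lit 339) (nat_lit 133))))))) (XT.nd (nat_lit 1128) (nat_lit 504) (nat_lit 0) (XT.nd (nat_lit 564) (nat_lit 420) (nat_lit 0) (XT.nd (nat_lit 282) (nat_lit 252) (nat_lit 0) (XT.nd (nat_lit 94) (nat_lit 0) (nat_lit 0) (XT.lf (nat_lit 0) (nat_lit 5651905996) (nat_lit 420) (nat_lit 45656564144) (nat_lit 84) (nat_lit 2752105004) (nat_lit 31) (nat_lit 5) (nat_lit 36) (nat_lit 5) (nat_lit 32) (nat_lit 5) (nat_lit 390) (nat_lit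 339) (nat_lit 132)) (XT.nd (nat_lit 94) (nat_lit 0) (nat_lit 0) (XT.lf (nat_lit 0) (nat_lit 10124610018) (nat_lit 420) (nat_lit 30590491771) (nat_lit 84) (nat_lit 14595280502) (nat_lit 31) (nat_lit 5) (nat_lit 36) (nat_lit 5) (nat_lit 32) (nat_lit 5) (nat_lit 391) (nat_lit 339) (nat_lit 131)) (XT.lf (nat_lit 0) (nat_lit 14734640435) (nat_lit 420) (nat_lit 15059077958) (nat_lit 84) (nat_lit 26805261745) (nat_lit 31) (nat_lit 5) (nat_lit 36) (nat_lit 5) (nat_lit 32) (nat_lit 5) (nat_lit 392) (nat_lit 339) (nat_lit 130)))) (XT.nd (nat_lit 94) (nat_lit 0) (nat_lit 0) (XT.lf (nat_lit 0) (nat_lit 971732442) (nat_lit 252) (nat_lit 18524201541) (nat_lit 336) (nat_lit 38431336979) (nat_lit 28) (nat_lit 5) (nat_lit 31) (nat_lit 5) (nat_lit 32) (nat_lit 5) (nat_lit 393) (nat_lit 339) (nat_lit 129)) (XT.nd (nat_lit 94) (nat_lit 0) (nat_lit 0) (XT.lf (nat_lit 0) (nat_lit 17817103781) (nat_lit 252)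 (nat_lit 6743644678) (nat_lit 336) (nat_lit 34731161997) (nat_lit 28) (nat_lit 5) (nat_lit 31) (nat_lit 5) (nat_lit 32) (nat_lit 5) (nat_lit 394) (nat_lit 339) (nat_lit 128)) (XT.lf (nat_lit 0) (nat_lit 29834931160) (nat_lit 336) (nat_lit 25569390673) (nat_lit 84) (nat_lit 5292913856) (nat_lit 28) (nat_lit 5) (nat_lit 32) (nat_lit 5) (nat_lit 29) (nat_lit 5) (nat_lit 395) (nat_lit 339) (nat_lit 127))))) (XT.nd (nat_lit 282) (nat_lit 168) (nat_lit 0) (XT.nd (nat_lit 94) (nat_lit 252) (nat_lit 0) (XT.lf (nat_lit 0) (nat_lit 35340391530) (nat_lit 336) (nat_lit 9241458355) (nat_lit 84) (nat_lit 17562179894) (nat_lit 28) (nat_lit 5) (nat_lit 32) (nat_lit 5) (nat_lit 29) (nat_lit 5) (nat_lit 396) (nat_lit 339) (nat_lit 126)) (XT.nd (nat_lit 94) (nat_lit 0) (nat_lit 0) (XT.lf (nat_lit 0) (nat_lit 7747196150) (nat_lit 252) (nat_lit 33345020438) (nat_lit 336) (nat_lit 22541116083) (nat_lit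 25) (nat_lit 5) (nat_lit 28) (nat_lit 5) (nat_lit 29) (nat_lit 5) (nat_lit 397) (nat_lit 339) (nat_lit 125)) (XT.lf (nat_lit 0) (nat_lit 25456896069) (nat_lit 252) (nat_lit 21660776062) (nat_lit 336) (nat_lit 18048181384) (nat_lit 25) (nat_lit 5) (nat_lit 28) (nat_lit 5) (nat_lit 29) (nat_lit 5) (nat_lit 398) (nat_lit 339) (nat_lit 124)))) (XT.nd (nat_lit 94) (nat_lit 168) (nat_lit 0) (XT.lf (nat_lit 0) (nat_lit 43714125360) (nat_lit 252) (nat_lit 9614687687) (nat_lit 336) (nat_lit 13417108138) (nat_lit 25) (nat_lit 5) (nat_lit 28) (nat_lit 5) (nat_lit 29) (nat_lit 5) (nat_lit 399) (nat_lit 339) (nat_lit 123)) (XT.nd (nat_lit 94) (nat_lit 168) (nat_lit 0) (XT.lf (nat_lit 0) (nat_lit 59759249490) (nat_lit 336) (nat_lit 5866927516) (nat_lit 84) (nat_lit 2747969022) (nat_lit 25) (nat_lit 5) (nat_lit 29) (nat_lit 5) (nat_lit 26) (nat_lit 5) (nat_lit 400) (nat_lit 339) (nat_lit 122)) (XT.lf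 (nat_lit 0) (nat_lit 11971497941) (nat_lit 168) (nat_lit 54633584098) (nat_lit 252) (nat_lit 3441070372) (nat_lit 23) (nat_lit 5) (nat_lit 25) (nat_lit 5) (nat_lit 26) (nat_lit 5) (nat_lit 401) (nat_lit 339) (nat_lit 121)))))) (XT.nd (nat_lit 564) (nat_lit 168) (nat_lit 0) (XT.nd (nat_lit 282) (nat_lit 252) (nat_lit 0) (XT.nd (nat_lit 94) (nat_lit 0) (nat_lit 0) (XT.lf (nat_lit 0) (nat_lit 1915827921) (nat_lit 252) (nat_lit 41301636878) (nat_lit 84) (nat_lit 28550062345) (nat_lit 22) (nat_lit 5) (nat_lit 25) (nat_lit 5) (nat_lit 23) (nat_lit 5) (nat_lit 402) (nat_lit 339) (nat_lit 120)) (XT.nd (nat_lit 94) (nat_lit 0) (nat_lit 0) (XT.lf (nat_lit 0) (nat_lit 7366303311) (nat_lit 252) (nat_lit 24045234956) (nat_lit 84) (nat_lit 42129670279) (nat_lit 22) (nat_lit 5) (nat_lit 25) (nat_lit 5) (nat_lit 23) (nat_lit 5) (nat_lit 403) (nat_lit 339) (nat_lit 119)) (XT.lf (nat_lit 0) (nat_lit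 12984766111) (nat_lit 252) (nat_lit 6255228085) (nat_lit 84) (nat_lit 56129913890) (nat_lit 22) (nat_lit 5) (nat_lit 25) (nat_lit 5) (nat_lit 23) (nat_lit 5) (nat_lit 404) (nat_lit 339) (nat_lit 118)))) (XT.nd (nat_lit 94) (nat_lit 0) (nat_lit 0) (XT.lf (nat_lit 0) (nat_lit 12333457568) (nat_lit 252) (nat_lit 6565345174) (nat_lit 336) (nat_lit 58352734729) (nat_lit 19) (nat_lit 5) (nat_lit 22) (nat_lit 5) (nat_lit 23) (nat_lit 5) (nat_lit 405) (nat_lit 339) (nat_lit 117)) (XT.nd (nat_lit 94) (nat_lit 0) (nat_lit 0) (XT.lf (nat_lit 0) (nat_lit 25125701065) (nat_lit 336) (nat_lit 47624962654) (nat_lit 84) (nat_lit 6436821819) (nat_lit 19) (nat_lit 5) (nat_lit 23) (nat_lit 5) (nat_lit 20) (nat_lit 5) (nat_lit 406) (nat_lit 339) (nat_lit 116)) (XT.lf (nat_lit 0) (nat_lit 31611873627) (nat_lit 336) (nat_lit 29864185925) (nat_lit 84) (nat_lit 19705338385) (nat_lit 19) (nat_lit 5) (nat_lit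 23) (nat_lit 5) (nat_lit 20) (nat_lit 5) (nat_lit 407) (nat_lit 339) (nat_lit 115))))) (XT.nd (nat_lit 282) (nat_lit 0) (nat_lit 0) (XT.nd (nat_lit 94) (nat_lit 168) (nat_lit 0) (XT.lf (nat_lit 0) (nat_lit 38298237183) (nat_lit 336) (nat_lit 11554065773) (nat_lit 84) (nat_lit 33384849243) (nat_lit 19) (nat_lit 5) (nat_lit 23) (nat_lit 5) (nat_lit 20) (nat_lit 5) (nat_lit 408) (nat_lit 339) (nat_lit 114)) (XT.nd (nat_lit 94) (nat_lit 0) (nat_lit 0) (XT.lf (nat_lit 0) (nat_lit 7473029643) (nat_lit 168) (nat_lit 37792127860) (nat_lit 252) (nat_lit 40089208867) (nat_lit 17) (nat_lit 5) (nat_lit 19) (nat_lit 5) (nat_lit 20) (nat_lit 5) (nat_lit 409) (nat_lit 339) (nat_lit 113)) (XT.lf (nat_lit 0) (nat_lit 27333713972) (nat_lit 168) (nat_lit 25234099105) (nat_lit 252) (nat_lit 34965691616) (nat_lit 17) (nat_lit 5) (nat_lit 19) (nat_lit 5) (nat_lit 20) (nat_lit 5) (nat_lit 410) (nat_lit 339)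 (nat_lit 112)))) (XT.nd (nat_lit 47376) (nat_lit 0) (nat_lit 6384) (XT.nd (nat_lit 94) (nat_lit 0) (nat_lit 0) (XT.lf (nat_lit 0) (nat_lit 47808924161) (nat_lit 168) (nat_lit 12287112043) (nat_lit 252) (nat_lit 29684188359) (nat_lit 17) (nat_lit 5) (nat_lit 19) (nat_lit 5) (nat_lit 20) (nat_lit 5) (nat_lit 411) (nat_lit 339) (nat_lit 111)) (XT.lf (nat_lit 0) (nat_lit 67867368250) (nat_lit 252) (nat_lit 23189399180) (nat_lit 84) (nat_lit 1039526477) (nat_lit 17) (nat_lit 5) (nat_lit 20) (nat_lit 5) (nat_lit 18) (nat_lit 5) (nat_lit 412) (nat_lit 339) (nat_lit 110))) (XT.nd (nat_lit 94) (nat_lit 0) (nat_lit 0) (XT.lf (nat_lit 0) (nat_lit 4702975799) (nat_lit 1092) (nat_lit 2912806194) (nat_lit 1092) (nat_lit 2912806194) (nat_lit 93) (nat_lit 3) (nat_lit 106) (nat_lit 3) (nat_lit 106) (nat_lit 5) (nat_lit 340) (nat_lit 340) (nat_lit 181)) (XT.lf (nat_lit 84) (nat_lit 1553320468) (nat_lit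 0) (nat_lit 8134864625) (nat_lit 1092) (nat_lit 11690476850) (nat_lit 94) (nat_lit 5) (nat_lit 93) (nat_lit 3) (nat_lit 106) (nat_lit 5) (nat_lit 341) (nat_lit 340) (nat_lit 180))))))))
noncomputable def xc196 : XT := (XT.nd (nat_lit 2256) (nat_lit 3108) (nat_lit 0) (XT.nd (nat_lit 1128) (nat_lit 1680) (nat_lit 0) (XT.nd (nat_lit 564) (nat_lit 0) (nat_lit 168) (XT.nd (nat_lit 282) (nat_lit 0) (nat_lit 84) (XT.nd (nat_lit 94) (nat_lit 0) (nat_lit 84) (XT.lf (nat_lit 84) (nat_lit 9281920552) (nat_lit 0) (nat_lit 753152076) (nat_lit 1092) (nat_lit 11673334924) (nat_lit 94) (nat_lit 5) (nat_lit 93) (nat_lit 3) (nat_lit 106) (nat_lit 5) (nat_lit 342) (nat_lit 340) (nat_lit 179)) (XT.nd (nat_lit 94) (nat_lit 0) (nat_lit 0) (XT.lf (nat_lit 0) (nat_lit 10456006989) (nat_lit 1008) (nat_lit 4868992269) (nat_lit 1092) (nat_lit 6721440149) (nat_lit 94) (nat_lit 5) (nat_lit 106) (nat_lit 5) (nat_lit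 107) (nat_lit 5) (nat_lit 343) (nat_lit 340) (nat_lit 178)) (XT.lf (nat_lit 84) (nat_lit 2972351161) (nat_lit 0) (nat_lit 7950237646) (nat_lit 1092) (nat_lit 11471376325) (nat_lit 95) (nat_lit 5) (nat_lit 94) (nat_lit 5) (nat_lit 107) (nat_lit 5) (nat_lit 344) (nat_lit 340) (nat_lit 177)))) (XT.nd (nat_lit 94) (nat_lit 0) (nat_lit 84) (XT.lf (nat_lit 84) (nat_lit 11157405895) (nat_lit 0) (nat_lit 292572818) (nat_lit 1092) (nat_lit 11300873447) (nat_lit 95) (nat_lit 5) (nat_lit 94) (nat_lit 5) (nat_lit 107) (nat_lit 5) (nat_lit 345) (nat_lit 340) (nat_lit 176)) (XT.nd (nat_lit 94) (nat_lit 0) (nat_lit 0) (XT.lf (nat_lit 0) (nat_lit 12064809820) (nat_lit 1008) (nat_lit 3600712180) (nat_lit 1092) (nat_lit 7451100761) (nat_lit 95) (nat_lit 5) (nat_lit 107) (nat_lit 5) (nat_lit 108) (nat_lit 5) (nat_lit 346) (nat_lit 340) (nat_lit 175)) (XT.lf (nat_lit 84) (nat_lit 4729484487) (nat_lit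 0) (nat_lit 8014930238) (nat_lit 1092) (nat_lit 10747923601) (nat_lit 96) (nat_lit 5) (nat_lit 95) (nat_lit 5) (nat_lit 108) (nat_lit 5) (nat_lit 347) (nat_lit 340) (nat_lit 174))))) (XT.nd (nat_lit 282) (nat_lit 0) (nat_lit 84) (XT.nd (nat_lit 94) (nat_lit 0) (nat_lit 84) (XT.lf (nat_lit 84) (nat_lit 13391668447) (nat_lit 0) (nat_lit 86908147) (nat_lit 1092) (nat_lit 10400108825) (nat_lit 96) (nat_lit 5) (nat_lit 95) (nat_lit 5) (nat_lit 108) (nat_lit 5) (nat_lit 348) (nat_lit 340) (nat_lit 173)) (XT.nd (nat_lit 94) (nat_lit 0) (nat_lit 0) (XT.lf (nat_lit 0) (nat_lit 14311763202) (nat_lit 1008) (nat_lit 2037515928) (nat_lit 1092) (nat_lit 7925387741) (nat_lit 96) (nat_lit 5) (nat_lit 108) (nat_lit 5) (nat_lit 109) (nat_lit 5) (nat_lit 349) (nat_lit 340) (nat_lit 172)) (XT.lf (nat_lit 84) (nat_lit 6807605062) (nat_lit 0) (nat_lit 8427756507) (nat_lit 1092) (nat_lit 9445581286) (nat_lit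 97) (nat_lit 5) (nat_lit 96) (nat_lit 5) (nat_lit 109) (nat_lit 5) (nat_lit 350) (nat_lit 340) (nat_lit 171)))) (XT.nd (nat_lit 94) (nat_lit 0) (nat_lit 84) (XT.lf (nat_lit 84) (nat_lit 15967561439) (nat_lit 0) (nat_lit 237549394) (nat_lit 1092) (nat_lit 8894180003) (nat_lit 97) (nat_lit 5) (nat_lit 96) (nat_lit 5) (nat_lit 109) (nat_lit 5) (nat_lit 351) (nat_lit 340) (nat_lit 170)) (XT.nd (nat_lit 94) (nat_lit 0) (nat_lit 0) (XT.lf (nat_lit 0) (nat_lit 17282708371) (nat_lit 1008) (nat_lit 203165982) (nat_lit 1092) (nat_lit 8042341808) (nat_lit 97) (nat_lit 5) (nat_lit 109) (nat_lit 5) (nat_lit 110) (nat_lit 5) (nat_lit 352) (nat_lit 340) (nat_lit 169)) (XT.lf (nat_lit 84) (nat_lit 9182208479) (nat_lit 0) (nat_lit 9301506147) (nat_lit 1092) (nat_lit 7483952773) (nat_lit 98) (nat_lit 5) (nat_lit 97) (nat_lit 5) (nat_lit 110) (nat_lit 5) (nat_lit 353) (nat_lit 340) (nat_lit 168))))))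 (XT.nd (nat_lit 564) (nat_lit 1176) (nat_lit 0) (XT.nd (nat_lit 282) (nat_lit 840) (nat_lit 0) (XT.nd (nat_lit 94) (nat_lit 0) (nat_lit 84) (XT.lf (nat_lit 84) (nat_lit 18860316451) (nat_lit 0) (nat_lit 860321929) (nat_lit 1092) (nat_lit 6700162713) (nat_lit 98) (nat_lit 5) (nat_lit 97) (nat_lit 5) (nat_lit 110) (nat_lit 5) (nat_lit 354) (nat_lit 340) (nat_lit 167)) (XT.nd (nat_lit 94) (nat_lit 0) (nat_lit 0) (XT.lf (nat_lit 84) (nat_lit 1908543196) (nat_lit 0) (nat_lit 19180773244) (nat_lit 1092) (nat_lit 5795787972) (nat_lit 99) (nat_lit 5) (nat_lit 98) (nat_lit 5) (nat_lit 111) (nat_lit 5) (nat_lit 355) (nat_lit 340) (nat_lit 166)) (XT.lf (nat_lit 84) (nat_lit 11819860692) (nat_lit 0) (nat_lit 10764941109) (nat_lit 1092) (nat_lit 4776401242) (nat_lit 99) (nat_lit 5) (nat_lit 98) (nat_lit 5) (nat_lit 111) (nat_lit 5) (nat_lit 356) (nat_lit 340) (nat_lit 165)))) (XT.nd (nat_lit 94)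 (nat_lit 924) (nat_lit 0) (XT.lf (nat_lit 84) (nat_lit 22035957147) (nat_lit 0) (nat_lit 2087540049) (nat_lit 1092) (nat_lit 3728678286) (nat_lit 99) (nat_lit 5) (nat_lit 98) (nat_lit 5) (nat_lit 111) (nat_lit 5) (nat_lit 357) (nat_lit 340) (nat_lit 164)) (XT.nd (nat_lit 94) (nat_lit 0) (nat_lit 0) (XT.lf (nat_lit 0) (nat_lit 4224951752) (nat_lit 1008) (nat_lit 21591844416) (nat_lit 1092) (nat_lit 2538274466) (nat_lit 87) (nat_lit 5) (nat_lit 99) (nat_lit 5) (nat_lit 100) (nat_lit 5) (nat_lit 358) (nat_lit 340) (nat_lit 163)) (XT.lf (nat_lit 0) (nat_lit 14676419330) (nat_lit 1008) (nat_lit 12965030137) (nat_lit 1092) (nat_lit 1229677436) (nat_lit 87) (nat_lit 5) (nat_lit 99) (nat_lit 5) (nat_lit 100) (nat_lit 5) (nat_lit 359) (nat_lit 340) (nat_lit 162))))) (XT.nd (nat_lit 282) (nat_lit 504) (nat_lit 0) (XT.nd (nat_lit 94) (nat_lit 588) (nat_lit 0) (XT.lf (nat_lit 0) (nat_lit 114141705)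 (nat_lit 1092) (nat_lit 3954974414) (nat_lit 84) (nat_lit 25334134238) (nat_lit 86) (nat_lit 5) (nat_lit 99) (nat_lit 5) (nat_lit 87) (nat_lit 5) (nat_lit 360) (nat_lit 340) (nat_lit 161)) (XT.nd (nat_lit 94) (nat_lit 0) (nat_lit 0) (XT.lf (nat_lit 0) (nat_lit 1589349845) (nat_lit 672) (nat_lit 23278304147) (nat_lit 84) (nat_lit 5080266958) (nat_lit 79) (nat_lit 5) (nat_lit 87) (nat_lit 5) (nat_lit 80) (nat_lit 5) (nat_lit 361) (nat_lit 340) (nat_lit 160)) (XT.lf (nat_lit 0) (nat_lit 3190828111) (nat_lit 672) (nat_lit 12845318363) (nat_lit 84) (nat_lit 14470847401) (nat_lit 79) (nat_lit 5) (nat_lit 87) (nat_lit 5) (nat_lit 80) (nat_lit 5) (nat_lit 362) (nat_lit 340) (nat_lit 159)))) (XT.nd (nat_lit 94) (nat_lit 504) (nat_lit 0) (XT.lf (nat_lit 0) (nat_lit 4839253028) (nat_lit 672) (nat_lit 2091330770) (nat_lit 84) (nat_lit 24152911749) (nat_lit 79) (nat_lit 5) (nat_lit 87) (nat_lit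 5) (nat_lit 80) (nat_lit 5) (nat_lit 363) (nat_lit 340) (nat_lit 158)) (XT.nd (nat_lit 94) (nat_lit 0) (nat_lit 0) (XT.lf (nat_lit 0) (nat_lit 6652524231) (nat_lit 588) (nat_lit 22521839830) (nat_lit 84) (nat_lit 2499992009) (nat_lit 73) (nat_lit 5) (nat_lit 80) (nat_lit 5) (nat_lit 74) (nat_lit 5) (nat_lit 364) (nat_lit 340) (nat_lit 157)) (XT.lf (nat_lit 0) (nat_lit 8612382884) (nat_lit 588) (nat_lit 11567124755) (nat_lit 84) (nat_lit 12101236967) (nat_lit 73) (nat_lit 5) (nat_lit 80) (nat_lit 5) (nat_lit 74) (nat_lit 5) (nat_lit 365) (nat_lit 340) (nat_lit 156))))))) (XT.nd (nat_lit 1128) (nat_lit 1344) (nat_lit 0) (XT.nd (nat_lit 564) (nat_lit 840) (nat_lit 0) (XT.nd (nat_lit 282) (nat_lit 420) (nat_lit 0) (XT.nd (nat_lit 94) (nat_lit 504) (nat_lit 0) (XT.lf (nat_lit 0) (nat_lit 10630514137) (nat_lit 588) (nat_lit 275159762) (nat_lit 84) (nat_lit 22000346866) (nat_lit 73) (nat_lit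 5) (nat_lit 80) (nat_lit 5) (nat_lit 74) (nat_lit 5) (nat_lit 366) (nat_lit 340) (nat_lit 155)) (XT.nd (nat_lit 94) (nat_lit 0) (nat_lit 0) (XT.lf (nat_lit 0) (nat_lit 11598259524) (nat_lit 504) (nat_lit 1225595744) (nat_lit 588) (nat_lit 20723345359) (nat_lit 67) (nat_lit 5) (nat_lit 73) (nat_lit 5) (nat_lit 74) (nat_lit 5) (nat_lit 367) (nat_lit 340) (nat_lit 154)) (XT.lf (nat_lit 0) (nat_lit 15172580577) (nat_lit 588) (nat_lit 10451794396) (nat_lit 84) (nat_lit 8581184841) (nat_lit 67) (nat_lit 5) (nat_lit 74) (nat_lit 5) (nat_lit 68) (nat_lit 5) (nat_lit 368) (nat_lit 340) (nat_lit 153)))) (XT.nd (nat_lit 94) (nat_lit 0) (nat_lit 0) (XT.lf (nat_lit 0) (nat_lit 1415479294) (nat_lit 420) (nat_lit 16202927400) (nat_lit 504) (nat_lit 17265179942) (nat_lit 62) (nat_lit 5) (nat_lit 67) (nat_lit 5) (nat_lit 68) (nat_lit 5) (nat_lit 369) (nat_lit 340) (nat_lit 152)) (XT.nd (nat_lit 94)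 (nat_lit 0) (nat_lit 0) (XT.lf (nat_lit 0) (nat_lit 13869965626) (nat_lit 420) (nat_lit 6376943197) (nat_lit 504) (nat_lit 15332422104) (nat_lit 62) (nat_lit 5) (nat_lit 67) (nat_lit 5) (nat_lit 68) (nat_lit 5) (nat_lit 370) (nat_lit 340) (nat_lit 151)) (XT.lf (nat_lit 0) (nat_lit 22991958558) (nat_lit 504) (nat_lit 9625594888) (nat_lit 84) (nat_lit 3678013680) (nat_lit 62) (nat_lit 5) (nat_lit 68) (nat_lit 5) (nat_lit 63) (nat_lit 5) (nat_lit 371) (nat_lit 340) (nat_lit 150))))) (XT.nd (nat_lit 282) (nat_lit 420) (nat_lit 0) (XT.nd (nat_lit 94) (nat_lit 0) (nat_lit 0) (XT.lf (nat_lit 0) (nat_lit 2822224656) (nat_lit 420) (nat_lit 23090990849) (nat_lit 504) (nat_lit 11117977205) (nat_lit 57) (nat_lit 5) (nat_lit 62) (nat_lit 5) (nat_lit 63) (nat_lit 5) (nat_lit 372) (nat_lit 340) (nat_lit 149)) (XT.nd (nat_lit 94) (nat_lit 0) (nat_lit 0) (XT.lf (nat_lit 0) (nat_lit 15857818155) (nat_lit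 420) (nat_lit 13165619334) (nat_lit 504) (nat_lit 8763144790) (nat_lit 57) (nat_lit 5) (nat_lit 62) (nat_lit 5) (nat_lit 63) (nat_lit 5) (nat_lit 373) (nat_lit 340) (nat_lit 148)) (XT.lf (nat_lit 0) (nat_lit 29295414172) (nat_lit 420) (nat_lit 2932658885) (nat_lit 504) (nat_lit 6337387842) (nat_lit 57) (nat_lit 5) (nat_lit 62) (nat_lit 5) (nat_lit 63) (nat_lit 5) (nat_lit 374) (nat_lit 340) (nat_lit 147)))) (XT.nd (nat_lit 94) (nat_lit 84) (nat_lit 0) (XT.lf (nat_lit 0) (nat_lit 3779567412) (nat_lit 336) (nat_lit 31863601464) (nat_lit 420) (nat_lit 3721880841) (nat_lit 53) (nat_lit 5) (nat_lit 57) (nat_lit 5) (nat_lit 58) (nat_lit 5) (nat_lit 375) (nat_lit 340) (nat_lit 146)) (XT.nd (nat_lit 94) (nat_lit 84) (nat_lit 0) (XT.lf (nat_lit 0) (nat_lit 17397543512) (nat_lit 336) (nat_lit 21891133734) (nat_lit 420) (nat_lit 896896952) (nat_lit 53) (nat_lit 5) (nat_lit 57) (nat_lit 5) (nat_lit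 58) (nat_lit 5) (nat_lit 376) (nat_lit 340) (nat_lit 145)) (XT.lf (nat_lit 0) (nat_lit 1973173695) (nat_lit 420) (nat_lit 9615923558) (nat_lit 84) (nat_lit 29441884732) (nat_lit 52) (nat_lit 5) (nat_lit 57) (nat_lit 5) (nat_lit 53) (nat_lit 5) (nat_lit 377) (nat_lit 340) (nat_lit 144)))))) (XT.nd (nat_lit 564) (nat_lit 588) (nat_lit 0) (XT.nd (nat_lit 282) (nat_lit 336) (nat_lit 0) (XT.nd (nat_lit 94) (nat_lit 0) (nat_lit 0) (XT.lf (nat_lit 0) (nat_lit 4034626838) (nat_lit 420) (nat_lit 917162803) (nat_lit 504) (nat_lit 36949347564) (nat_lit 47) (nat_lit 5) (nat_lit 52) (nat_lit 5) (nat_lit 53) (nat_lit 5) (nat_lit 378) (nat_lit 340) (nat_lit 143)) (XT.nd (nat_lit 94) (nat_lit 0) (nat_lit 0) (XT.lf (nat_lit 0) (nat_lit 8222402958) (nat_lit 504) (nat_lit 24586084774) (nat_lit 84) (nat_lit 9983598258) (nat_lit 47) (nat_lit 5) (nat_lit 53) (nat_lit 5) (nat_lit 48) (nat_lit 5) (nat_lit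 379) (nat_lit 340) (nat_lit 142)) (XT.lf (nat_lit 0) (nat_lit 11602052224) (nat_lit 504) (nat_lit 10905333675) (nat_lit 84) (nat_lit 21203039205) (nat_lit 47) (nat_lit 5) (nat_lit 53) (nat_lit 5) (nat_lit 48) (nat_lit 5) (nat_lit 380) (nat_lit 340) (nat_lit 141)))) (XT.nd (nat_lit 94) (nat_lit 0) (nat_lit 0) (XT.lf (nat_lit 0) (nat_lit 3263342263) (nat_lit 336) (nat_lit 11853819755) (nat_lit 420) (nat_lit 29539127012) (nat_lit 43) (nat_lit 5) (nat_lit 47) (nat_lit 5) (nat_lit 48) (nat_lit 5) (nat_lit 381) (nat_lit 340) (nat_lit 140)) (XT.nd (nat_lit 94) (nat_lit 0) (nat_lit 0) (XT.lf (nat_lit 0) (nat_lit 18100526497) (nat_lit 336) (nat_lit 752893306) (nat_lit 420) (nat_lit 26774584869) (nat_lit 43) (nat_lit 5) (nat_lit 47) (nat_lit 5) (nat_lit 48) (nat_lit 5) (nat_lit 382) (nat_lit 340) (nat_lit 139)) (XT.lf (nat_lit 0) (nat_lit 22809966538) (nat_lit 420) (nat_lit 13340152654) (nat_lit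 84) (nat_lit 10476493168) (nat_lit 43) (nat_lit 5) (nat_lit 48) (nat_lit 5) (nat_lit 44) (nat_lit 5) (nat_lit 383) (nat_lit 340) (nat_lit 138))))) (XT.nd (nat_lit 282) (nat_lit 252) (nat_lit 0) (XT.nd (nat_lit 94) (nat_lit 0) (nat_lit 0) (XT.lf (nat_lit 0) (nat_lit 1303698502) (nat_lit 336) (nat_lit 25604546472) (nat_lit 420) (nat_lit 20747347528) (nat_lit 39) (nat_lit 5) (nat_lit 43) (nat_lit 5) (nat_lit 44) (nat_lit 5) (nat_lit 384) (nat_lit 340) (nat_lit 137)) (XT.nd (nat_lit 94) (nat_lit 0) (nat_lit 0) (XT.lf (nat_lit 0) (nat_lit 16682484232) (nat_lit 336) (nat_lit 14588803815) (nat_lit 420) (nat_lit 17440920569) (nat_lit 39) (nat_lit 5) (nat_lit 43) (nat_lit 5) (nat_lit 44) (nat_lit 5) (nat_lit 385) (nat_lit 340) (nat_lit 136)) (XT.lf (nat_lit 0) (nat_lit 32536238273) (nat_lit 336) (nat_lit 3231867228) (nat_lit 420) (nat_lit 14033526843) (nat_lit 39) (nat_lit 5) (nat_lit 43) (nat_lit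 5) (nat_lit 44) (nat_lit 5) (nat_lit 386) (nat_lit 340) (nat_lit 135)))) (XT.nd (nat_lit 94) (nat_lit 252) (nat_lit 0) (XT.lf (nat_lit 0) (nat_lit 40486980237) (nat_lit 420) (nat_lit 2129232554) (nat_lit 84) (nat_lit 8306059523) (nat_lit 39) (nat_lit 5) (nat_lit 44) (nat_lit 5) (nat_lit 40) (nat_lit 5) (nat_lit 387) (nat_lit 340) (nat_lit 134)) (XT.nd (nat_lit 94) (nat_lit 0) (nat_lit 0) (XT.lf (nat_lit 0) (nat_lit 13717762283) (nat_lit 252) (nat_lit 31802119069) (nat_lit 336) (nat_lit 6552577036) (nat_lit 36) (nat_lit 5) (nat_lit 39) (nat_lit 5) (nat_lit 40) (nat_lit 5) (nat_lit 388) (nat_lit 340) (nat_lit 133)) (XT.lf (nat_lit 0) (nat_lit 30099454314) (nat_lit 252) (nat_lit 20630202972) (nat_lit 336) (nat_lit 2528002502) (nat_lit 36) (nat_lit 5) (nat_lit 39) (nat_lit 5) (nat_lit 40) (nat_lit 5) (nat_lit 389) (nat_lit 340) (nat_lit 132))))))))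
noncomputable def xc197 : XT := (XT.nd (nat_lit 49538) (nat_lit 0) (nat_lit 4704) (XT.nd (nat_lit 1128) (nat_lit 672) (nat_lit 0) (XT.nd (nat_lit 564) (nat_lit 252) (nat_lit 0) (XT.nd (nat_lit 282) (nat_lit 252) (nat_lit 0) (XT.nd (nat_lit 94) (nat_lit 336) (nat_lit 0) (XT.lf (nat_lit 0) (nat_lit 1587319484) (nat_lit 336) (nat_lit 7508388078) (nat_lit 84) (nat_lit 45383443758) (nat_lit 35) (nat_lit 5) (nat_lit 39) (nat_lit 5) (nat_lit 36) (nat_lit 5) (nat_lit 390) (nat_lit 340) (nat_lit 131)) (XT.nd (nat_lit 94) (nat_lit 0) (nat_lit 0) (XT.lf (nat_lit 0) (nat_lit 5892346230) (nat_lit 420) (nat_lit 46988043741) (nat_lit 84) (nat_lit 2853769215) (nat_lit 31) (nat_lit 5) (nat_lit 36) (nat_lit 5) (nat_lit 32) (nat_lit 5) (nat_lit 391) (nat_lit 340) (nat_lit 130)) (XT.lf (nat_lit 0) (nat_lit 10501742713) (nat_lit 420) (nat_lit 31457445036) (nat_lit 84) (nat_lit 15063591575) (nat_lit 31)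 (nat_lit 5) (nat_lit 36) (nat_lit 5) (nat_lit 32) (nat_lit 5) (nat_lit 392) (nat_lit 340) (nat_lit 129)))) (XT.nd (nat_lit 94) (nat_lit 252) (nat_lit 0) (XT.lf (nat_lit 0) (nat_lit 15252781684) (nat_lit 420) (nat_lit 15447003478) (nat_lit 84) (nat_lit 27651605439) (nat_lit 31) (nat_lit 5) (nat_lit 36) (nat_lit 5) (nat_lit 32) (nat_lit 5) (nat_lit 393) (nat_lit 340) (nat_lit 128)) (XT.nd (nat_lit 94) (nat_lit 0) (nat_lit 0) (XT.lf (nat_lit 0) (nat_lit 1079963193) (nat_lit 252) (nat_lit 19080641782) (nat_lit 336) (nat_lit 39560294329) (nat_lit 28) (nat_lit 5) (nat_lit 31) (nat_lit 5) (nat_lit 32) (nat_lit 5) (nat_lit 394) (nat_lit 340) (nat_lit 127)) (XT.lf (nat_lit 0) (nat_lit 18445192529) (nat_lit 252) (nat_lit 6935423165) (nat_lit 336) (nat_lit 35747290583) (nat_lit 28) (nat_lit 5) (nat_lit 31) (nat_lit 5) (nat_lit 32) (nat_lit 5) (nat_lit 395) (nat_lit 340) (nat_lit 126))))) (XT.nd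 (nat_lit 282) (nat_lit 0) (nat_lit 0) (XT.nd (nat_lit 94) (nat_lit 252) (nat_lit 0) (XT.lf (nat_lit 0) (nat_lit 30816705780) (nat_lit 336) (nat_lit 26286735705) (nat_lit 84) (nat_lit 5473411697) (nat_lit 28) (nat_lit 5) (nat_lit 32) (nat_lit 5) (nat_lit 29) (nat_lit 5) (nat_lit 396) (nat_lit 340) (nat_lit 125)) (XT.nd (nat_lit 94) (nat_lit 252) (nat_lit 0) (XT.lf (nat_lit 0) (nat_lit 36491124806) (nat_lit 336) (nat_lit 9454901780) (nat_lit 84) (nat_lit 18122531343) (nat_lit 28) (nat_lit 5) (nat_lit 32) (nat_lit 5) (nat_lit 29) (nat_lit 5) (nat_lit 397) (nat_lit 340) (nat_lit 124)) (XT.lf (nat_lit 0) (nat_lit 8059661533) (nat_lit 252) (nat_lit 34360652976) (nat_lit 336) (nat_lit 23183750702) (nat_lit 25) (nat_lit 5) (nat_lit 28) (nat_lit 5) (nat_lit 29) (nat_lit 5) (nat_lit 398) (nat_lit 340) (nat_lit 123)))) (XT.nd (nat_lit 94) (nat_lit 0) (nat_lit 0) (XT.lf (nat_lit 0) (nat_lit 26316188171)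 (nat_lit 252) (nat_lit 22314740143) (nat_lit 336) (nat_lit 18553223039) (nat_lit 25) (nat_lit 5) (nat_lit 28) (nat_lit 5) (nat_lit 29) (nat_lit 5) (nat_lit 399) (nat_lit 340) (nat_lit 122)) (XT.nd (nat_lit 94) (nat_lit 0) (nat_lit 0) (XT.lf (nat_lit 0) (nat_lit 45137282959) (nat_lit 252) (nat_lit 9895749817) (nat_lit 336) (nat_lit 13780223778) (nat_lit 25) (nat_lit 5) (nat_lit 28) (nat_lit 5) (nat_lit 29) (nat_lit 5) (nat_lit 400) (nat_lit 340) (nat_lit 121)) (XT.lf (nat_lit 0) (nat_lit 61661441994) (nat_lit 336) (nat_lit 5981256851) (nat_lit 84) (nat_lit 2849306220) (nat_lit 25) (nat_lit 5) (nat_lit 29) (nat_lit 5) (nat_lit 26) (nat_lit 5) (nat_lit 401) (nat_lit 340) (nat_lit 120)))))) (XT.nd (nat_lit 564) (nat_lit 168) (nat_lit 0) (XT.nd (nat_lit 282) (nat_lit 252) (nat_lit 0) (XT.nd (nat_lit 94) (nat_lit 84) (nat_lit 0) (XT.lf (nat_lit 0) (nat_lit 12409475958) (nat_lit 168) (nat_lit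 56309189625) (nat_lit 252) (nat_lit 3497209805) (nat_lit 23) (nat_lit 5) (nat_lit 25) (nat_lit 5) (nat_lit 26) (nat_lit 5) (nat_lit 402) (nat_lit 340) (nat_lit 119)) (XT.nd (nat_lit 94) (nat_lit 0) (nat_lit 0) (XT.lf (nat_lit 0) (nat_lit 2023245363) (nat_lit 252) (nat_lit 42515966255) (nat_lit 84) (nat_lit 29451437394) (nat_lit 22) (nat_lit 5) (nat_lit 25) (nat_lit 5) (nat_lit 23) (nat_lit 5) (nat_lit 403) (nat_lit 340) (nat_lit 118)) (XT.lf (nat_lit 0) (nat_lit 7641241426) (nat_lit 252) (nat_lit 24726600997) (nat_lit 84) (nat_lit 43451522373) (nat_lit 22) (nat_lit 5) (nat_lit 25) (nat_lit 5) (nat_lit 23) (nat_lit 5) (nat_lit 404) (nat_lit 340) (nat_lit 117)))) (XT.nd (nat_lit 94) (nat_lit 252) (nat_lit 0) (XT.lf (nat_lit 0) (nat_lit 13432475929) (nat_lit 252) (nat_lit 6387029348) (nat_lit 84) (nat_lit 57885297491) (nat_lit 22) (nat_lit 5) (nat_lit 25) (nat_lit 5) (nat_lit 23) (nat_lit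 5) (nat_lit 405) (nat_lit 340) (nat_lit 116)) (XT.nd (nat_lit 94) (nat_lit 0) (nat_lit 0) (XT.lf (nat_lit 0) (nat_lit 12777276743) (nat_lit 252) (nat_lit 6751822330) (nat_lit 336) (nat_lit 60115691963) (nat_lit 19) (nat_lit 5) (nat_lit 22) (nat_lit 5) (nat_lit 23) (nat_lit 5) (nat_lit 406) (nat_lit 340) (nat_lit 115)) (XT.lf (nat_lit 0) (nat_lit 25947859264) (nat_lit 336) (nat_lit 49040369511) (nat_lit 84) (nat_lit 6652566063) (nat_lit 19) (nat_lit 5) (nat_lit 23) (nat_lit 5) (nat_lit 20) (nat_lit 5) (nat_lit 407) (nat_lit 340) (nat_lit 114))))) (XT.nd (nat_lit 282) (nat_lit 0) (nat_lit 0) (XT.nd (nat_lit 94) (nat_lit 168) (nat_lit 0) (XT.lf (nat_lit 0) (nat_lit 32633802394) (nat_lit 336) (nat_lit 30730841852) (nat_lit 84) (nat_lit 20331919459) (nat_lit 19) (nat_lit 5) (nat_lit 23) (nat_lit 5) (nat_lit 20) (nat_lit 5) (nat_lit 408) (nat_lit 340) (nat_lit 113)) (XT.nd (nat_lit 94) (nat_lit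 168) (nat_lit 0) (XT.lf (nat_lit 0) (nat_lit 39526181551) (nat_lit 336) (nat_lit 11854886005) (nat_lit 84) (nat_lit 34435022619) (nat_lit 19) (nat_lit 5) (nat_lit 23) (nat_lit 5) (nat_lit 20) (nat_lit 5) (nat_lit 409) (nat_lit 340) (nat_lit 112)) (XT.lf (nat_lit 0) (nat_lit 7761468693) (nat_lit 168) (nat_lit 38946947191) (nat_lit 252) (nat_lit 41290547151) (nat_lit 17) (nat_lit 5) (nat_lit 19) (nat_lit 5) (nat_lit 20) (nat_lit 5) (nat_lit 410) (nat_lit 340) (nat_lit 111)))) (XT.nd (nat_lit 94) (nat_lit 0) (nat_lit 0) (XT.lf (nat_lit 0) (nat_lit 28236127127) (nat_lit 168) (nat_lit 26000122780) (nat_lit 252) (nat_lit 36009446494) (nat_lit 17) (nat_lit 5) (nat_lit 19) (nat_lit 5) (nat_lit 20) (nat_lit 5) (nat_lit 411) (nat_lit 340) (nat_lit 110)) (XT.nd (nat_lit 47376) (nat_lit 0) (nat_lit 6384) (XT.lf (nat_lit 0) (nat_lit 49344413052) (nat_lit 168) (nat_lit 12652267223) (nat_lit 252)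 (nat_lit 30565424811) (nat_lit 17) (nat_lit 5) (nat_lit 19) (nat_lit 5) (nat_lit 20) (nat_lit 5) (nat_lit 412) (nat_lit 340) (nat_lit 109)) (XT.lf (nat_lit 0) (nat_lit 4968599510) (nat_lit 1092) (nat_lit 2940997902) (nat_lit 1092) (nat_lit 2940997902) (nat_lit 93) (nat_lit 3) (nat_lit 106) (nat_lit 3) (nat_lit 106) (nat_lit 5) (nat_lit 341) (nat_lit 341) (nat_lit 179))))))) (XT.nd (nat_lit 1128) (nat_lit 1680) (nat_lit 0) (XT.nd (nat_lit 564) (nat_lit 0) (nat_lit 168) (XT.nd (nat_lit 282) (nat_lit 0) (nat_lit 84) (XT.nd (nat_lit 94) (nat_lit 0) (nat_lit 0) (XT.lf (nat_lit 84) (nat_lit 1724426451) (nat_lit 0) (nat_lit 8497768853) (nat_lit 1092) (nat_lit 11810672476) (nat_lit 94) (nat_lit 5) (nat_lit 93) (nat_lit 3) (nat_lit 106) (nat_lit 5) (nat_lit 342) (nat_lit 341) (nat_lit 178)) (XT.nd (nat_lit 94) (nat_lit 0) (nat_lit 84) (XT.lf (nat_lit 84) (nat_lit 9688916198) (nat_lit 0) (nat_lit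 883893994) (nat_lit 1092) (nat_lit 11800281870) (nat_lit 94) (nat_lit 5) (nat_lit 93) (nat_lit 3) (nat_lit 106) (nat_lit 5) (nat_lit 343) (nat_lit 341) (nat_lit 177)) (XT.lf (nat_lit 0) (nat_lit 10998945290) (nat_lit 1008) (nat_lit 4895200092) (nat_lit 1092) (nat_lit 6827738402) (nat_lit 94) (nat_lit 5) (nat_lit 106) (nat_lit 5) (nat_lit 107) (nat_lit 5) (nat_lit 344) (nat_lit 341) (nat_lit 176)))) (XT.nd (nat_lit 94) (nat_lit 0) (nat_lit 0) (XT.lf (nat_lit 84) (nat_lit 3187962196) (nat_lit 0) (nat_lit 8286674849) (nat_lit 1092) (nat_lit 11605748191) (nat_lit 95) (nat_lit 5) (nat_lit 94) (nat_lit 5) (nat_lit 107) (nat_lit 5) (nat_lit 345) (nat_lit 341) (nat_lit 175)) (XT.nd (nat_lit 94) (nat_lit 0) (nat_lit 84) (XT.lf (nat_lit 84) (nat_lit 11623041199) (nat_lit 0) (nat_lit 388916908) (nat_lit 1092) (nat_lit 11436611970) (nat_lit 95) (nat_lit 5) (nat_lit 94) (nat_lit 5) (nat_lit 107)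 (nat_lit 5) (nat_lit 346) (nat_lit 341) (nat_lit 174)) (XT.lf (nat_lit 0) (nat_lit 12638784280) (nat_lit 1008) (nat_lit 3588008365) (nat_lit 1092) (nat_lit 7599140221) (nat_lit 95) (nat_lit 5) (nat_lit 107) (nat_lit 5) (nat_lit 108) (nat_lit 5) (nat_lit 347) (nat_lit 341) (nat_lit 173))))) (XT.nd (nat_lit 282) (nat_lit 0) (nat_lit 84) (XT.nd (nat_lit 94) (nat_lit 0) (nat_lit 0) (XT.lf (nat_lit 84) (nat_lit 4999165710) (nat_lit 0) (nat_lit 8335499532) (nat_lit 1092) (nat_lit 10878812178) (nat_lit 96) (nat_lit 5) (nat_lit 95) (nat_lit 5) (nat_lit 108) (nat_lit 5) (nat_lit 348) (nat_lit 341) (nat_lit 172)) (XT.nd (nat_lit 94) (nat_lit 0) (nat_lit 84) (XT.lf (nat_lit 84) (nat_lit 13926177001) (nat_lit 0) (nat_lit 159540666) (nat_lit 1092) (nat_lit 10526297791) (nat_lit 96) (nat_lit 5) (nat_lit 95) (nat_lit 5) (nat_lit 108) (nat_lit 5) (nat_lit 349) (nat_lit 341) (nat_lit 171)) (XT.lf (nat_lit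 0) (nat_lit 14938368115) (nat_lit 1008) (nat_lit 1977526799) (nat_lit 1092) (nat_lit 8104606028) (nat_lit 96) (nat_lit 5) (nat_lit 108) (nat_lit 5) (nat_lit 109) (nat_lit 5) (nat_lit 350) (nat_lit 341) (nat_lit 170)))) (XT.nd (nat_lit 94) (nat_lit 0) (nat_lit 0) (XT.lf (nat_lit 84) (nat_lit 7140546138) (nat_lit 0) (nat_lit 8745760581) (nat_lit 1092) (nat_lit 9553228144) (nat_lit 97) (nat_lit 5) (nat_lit 96) (nat_lit 5) (nat_lit 109) (nat_lit 5) (nat_lit 351) (nat_lit 341) (nat_lit 169)) (XT.nd (nat_lit 94) (nat_lit 0) (nat_lit 84) (XT.lf (nat_lit 84) (nat_lit 16580795726) (nat_lit 0) (nat_lit 299950887) (nat_lit 1092) (nat_lit 8990300978) (nat_lit 97) (nat_lit 5) (nat_lit 96) (nat_lit 5) (nat_lit 109) (nat_lit 5) (nat_lit 352) (nat_lit 341) (nat_lit 168)) (XT.lf (nat_lit 0) (nat_lit 17986010027) (nat_lit 1008) (nat_lit 88118714) (nat_lit 1092) (nat_lit 8239347344) (nat_lit 97) (nat_lit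 5) (nat_lit 109) (nat_lit 5) (nat_lit 110) (nat_lit 5) (nat_lit 353) (nat_lit 341) (nat_lit 167)))))) (XT.nd (nat_lit 564) (nat_lit 1176) (nat_lit 0) (XT.nd (nat_lit 282) (nat_lit 840) (nat_lit 0) (XT.nd (nat_lit 94) (nat_lit 0) (nat_lit 0) (XT.lf (nat_lit 84) (nat_lit 9586973842) (nat_lit 0) (nat_lit 9633427702) (nat_lit 1092) (nat_lit 7546295686) (nat_lit 98) (nat_lit 5) (nat_lit 97) (nat_lit 5) (nat_lit 110) (nat_lit 5) (nat_lit 354) (nat_lit 341) (nat_lit 166)) (XT.nd (nat_lit 94) (nat_lit 0) (nat_lit 84) (XT.lf (nat_lit 84) (nat_lit 19561491499) (nat_lit 0) (nat_lit 929256568) (nat_lit 1092) (nat_lit 6743309442) (nat_lit 98) (nat_lit 5) (nat_lit 97) (nat_lit 5) (nat_lit 110) (nat_lit 5) (nat_lit 355) (nat_lit 341) (nat_lit 165)) (XT.lf (nat_lit 84) (nat_lit 2089178602) (nat_lit 0) (nat_lit 19808701008) (nat_lit 1092) (nat_lit 5815023919) (nat_lit 99) (nat_lit 5) (nat_lit 98) (nat_lit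 5) (nat_lit 111) (nat_lit 5) (nat_lit 356) (nat_lit 341) (nat_lit 164)))) (XT.nd (nat_lit 94) (nat_lit 924) (nat_lit 0) (XT.lf (nat_lit 84) (nat_lit 12304094576) (nat_lit 0) (nat_lit 11130976099) (nat_lit 1092) (nat_lit 4768860097) (nat_lit 99) (nat_lit 5) (nat_lit 98) (nat_lit 5) (nat_lit 111) (nat_lit 5) (nat_lit 357) (nat_lit 341) (nat_lit 163)) (XT.nd (nat_lit 94) (nat_lit 924) (nat_lit 0) (XT.lf (nat_lit 84) (nat_lit 22833347477) (nat_lit 0) (nat_lit 2183603758) (nat_lit 1092) (nat_lit 3693336582) (nat_lit 99) (nat_lit 5) (nat_lit 98) (nat_lit 5) (nat_lit 111) (nat_lit 5) (nat_lit 358) (nat_lit 341) (nat_lit 162)) (XT.lf (nat_lit 0) (nat_lit 4474603219) (nat_lit 1008) (nat_lit 22284636256) (nat_lit 1092) (nat_lit 2469665612) (nat_lit 87) (nat_lit 5) (nat_lit 99) (nat_lit 5) (nat_lit 100) (nat_lit 5) (nat_lit 359) (nat_lit 341) (nat_lit 161))))) (XT.nd (nat_lit 282) (nat_lit 504)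 (nat_lit 0) (XT.nd (nat_lit 94) (nat_lit 672) (nat_lit 0) (XT.lf (nat_lit 0) (nat_lit 15246497895) (nat_lit 1008) (nat_lit 13389685802) (nat_lit 1092) (nat_lit 1124930936) (nat_lit 87) (nat_lit 5) (nat_lit 99) (nat_lit 5) (nat_lit 100) (nat_lit 5) (nat_lit 360) (nat_lit 341) (nat_lit 160)) (XT.nd (nat_lit 94) (nat_lit 588) (nat_lit 0) (XT.lf (nat_lit 0) (nat_lit 253459010) (nat_lit 1092) (nat_lit 3962438450) (nat_lit 84) (nat_lit 26093944696) (nat_lit 86) (nat_lit 5) (nat_lit 99) (nat_lit 5) (nat_lit 87) (nat_lit 5) (nat_lit 361) (nat_lit 341) (nat_lit 159)) (XT.lf (nat_lit 0) (nat_lit 1771259639) (nat_lit 672) (nat_lit 23880973667) (nat_lit 84) (nat_lit 5219282582) (nat_lit 79) (nat_lit 5) (nat_lit 87) (nat_lit 5) (nat_lit 80) (nat_lit 5) (nat_lit 362) (nat_lit 341) (nat_lit 158)))) (XT.nd (nat_lit 188) (nat_lit 504) (nat_lit 0) (XT.nd (nat_lit 94) (nat_lit 0) (nat_lit 0) (XT.lf (nat_lit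 0) (nat_lit 3418395527) (nat_lit 672) (nat_lit 13128142138) (nat_lit 84) (nat_lit 14901526452) (nat_lit 79) (nat_lit 5) (nat_lit 87) (nat_lit 5) (nat_lit 80) (nat_lit 5) (nat_lit 363) (nat_lit 341) (nat_lit 157)) (XT.lf (nat_lit 0) (nat_lit 5114053329) (nat_lit 672) (nat_lit 2044250197) (nat_lit 84) (nat_lit 24884273528) (nat_lit 79) (nat_lit 5) (nat_lit 87) (nat_lit 5) (nat_lit 80) (nat_lit 5) (nat_lit 364) (nat_lit 341) (nat_lit 156))) (XT.nd (nat_lit 94) (nat_lit 0) (nat_lit 0) (XT.lf (nat_lit 0) (nat_lit 6980770294) (nat_lit 588) (nat_lit 23104720024) (nat_lit 84) (nat_lit 2566368870) (nat_lit 73) (nat_lit 5) (nat_lit 80) (nat_lit 5) (nat_lit 74) (nat_lit 5) (nat_lit 365) (nat_lit 341) (nat_lit 155)) (XT.lf (nat_lit 0) (nat_lit 8997715747) (nat_lit 588) (nat_lit 11813875515) (nat_lit 84) (nat_lit 12465586864) (nat_lit 73) (nat_lit 5) (nat_lit 80) (nat_lit 5) (nat_lit 74) (nat_lit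 5) (nat_lit 366) (nat_lit 341) (nat_lit 154))))))))
noncomputable def xc198 : XT := (XT.nd (nat_lit 2256) (nat_lit 1596) (nat_lit 0) (XT.nd (nat_lit 1128) (nat_lit 1344) (nat_lit 0) (XT.nd (nat_lit 564) (nat_lit 840) (nat_lit 0) (XT.nd (nat_lit 282) (nat_lit 420) (nat_lit 0) (XT.nd (nat_lit 94) (nat_lit 504) (nat_lit 0) (XT.lf (nat_lit 0) (nat_lit 11074850563) (nat_lit 588) (nat_lit 175222103) (nat_lit 84) (nat_lit 22671893556) (nat_lit 73) (nat_lit 5) (nat_lit 80) (nat_lit 5) (nat_lit 74) (nat_lit 5) (nat_lit 367) (nat_lit 341) (nat_lit 153)) (XT.nd (nat_lit 94) (nat_lit 0) (nat_lit 0) (XT.lf (nat_lit 0) (nat_lit 12065175044) (nat_lit 504) (nat_lit 1268623836) (nat_lit 588) (nat_lit 21249315278) (nat_lit 67) (nat_lit 5) (nat_lit 73) (nat_lit 5) (nat_lit 74) (nat_lit 5) (nat_lit 368) (nat_lit 341) (nat_lit 152)) (XT.lf (nat_lit 0) (nat_lit 15751906476) (nat_lit 588) (nat_lit 10667682557)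 (nat_lit 84) (nat_lit 8842416714) (nat_lit 67) (nat_lit 5) (nat_lit 74) (nat_lit 5) (nat_lit 68) (nat_lit 5) (nat_lit 369) (nat_lit 341) (nat_lit 151)))) (XT.nd (nat_lit 94) (nat_lit 0) (nat_lit 0) (XT.lf (nat_lit 0) (nat_lit 1566382025) (nat_lit 420) (nat_lit 16704956182) (nat_lit 504) (nat_lit 17689798341) (nat_lit 62) (nat_lit 5) (nat_lit 67) (nat_lit 5) (nat_lit 68) (nat_lit 5) (nat_lit 370) (nat_lit 341) (nat_lit 150)) (XT.nd (nat_lit 94) (nat_lit 0) (nat_lit 0) (XT.lf (nat_lit 0) (nat_lit 14403739481) (nat_lit 420) (nat_lit 6574374345) (nat_lit 504) (nat_lit 15700450585) (nat_lit 62) (nat_lit 5) (nat_lit 67) (nat_lit 5) (nat_lit 68) (nat_lit 5) (nat_lit 371) (nat_lit 341) (nat_lit 149)) (XT.lf (nat_lit 0) (nat_lit 23805148992) (nat_lit 504) (nat_lit 9819693301) (nat_lit 84) (nat_lit 3792273590) (nat_lit 62) (nat_lit 5) (nat_lit 68) (nat_lit 5) (nat_lit 63) (nat_lit 5) (nat_lit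 372) (nat_lit 341) (nat_lit 148))))) (XT.nd (nat_lit 282) (nat_lit 420) (nat_lit 0) (XT.nd (nat_lit 94) (nat_lit 0) (nat_lit 0) (XT.lf (nat_lit 0) (nat_lit 3012952756) (nat_lit 420) (nat_lit 23802016283) (nat_lit 504) (nat_lit 11360653733) (nat_lit 57) (nat_lit 5) (nat_lit 62) (nat_lit 5) (nat_lit 63) (nat_lit 5) (nat_lit 373) (nat_lit 341) (nat_lit 147)) (XT.nd (nat_lit 94) (nat_lit 0) (nat_lit 0) (XT.lf (nat_lit 0) (nat_lit 16449545469) (nat_lit 420) (nat_lit 13569102435) (nat_lit 504) (nat_lit 8935887860) (nat_lit 57) (nat_lit 5) (nat_lit 62) (nat_lit 5) (nat_lit 63) (nat_lit 5) (nat_lit 374) (nat_lit 341) (nat_lit 146)) (XT.lf (nat_lit 0) (nat_lit 30300696116) (nat_lit 420) (nat_lit 3019060060) (nat_lit 504) (nat_lit 6437906595) (nat_lit 57) (nat_lit 5) (nat_lit 62) (nat_lit 5) (nat_lit 63) (nat_lit 5) (nat_lit 375) (nat_lit 341) (nat_lit 145)))) (XT.nd (nat_lit 94) (nat_lit 84)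 (nat_lit 0) (XT.lf (nat_lit 0) (nat_lit 3996124242) (nat_lit 336) (nat_lit 32842840422) (nat_lit 420) (nat_lit 3743142319) (nat_lit 53) (nat_lit 5) (nat_lit 57) (nat_lit 5) (nat_lit 58) (nat_lit 5) (nat_lit 376) (nat_lit 341) (nat_lit 144)) (XT.nd (nat_lit 94) (nat_lit 84) (nat_lit 0) (XT.lf (nat_lit 0) (nat_lit 18033269145) (nat_lit 336) (nat_lit 22561482751) (nat_lit 420) (nat_lit 833413824) (nat_lit 53) (nat_lit 5) (nat_lit 57) (nat_lit 5) (nat_lit 58) (nat_lit 5) (nat_lit 377) (nat_lit 341) (nat_lit 143)) (XT.lf (nat_lit 0) (nat_lit 2121100281) (nat_lit 420) (nat_lit 9818326127) (nat_lit 84) (nat_lit 30360422566) (nat_lit 52) (nat_lit 5) (nat_lit 57) (nat_lit 5) (nat_lit 53) (nat_lit 5) (nat_lit 378) (nat_lit 341) (nat_lit 142)))))) (XT.nd (nat_lit 564) (nat_lit 588) (nat_lit 0) (XT.nd (nat_lit 282) (nat_lit 336) (nat_lit 0) (XT.nd (nat_lit 94) (nat_lit 0) (nat_lit 0) (XT.lf (nat_lit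 0) (nat_lit 4254422546) (nat_lit 420) (nat_lit 935961796) (nat_lit 504) (nat_lit 38006658548) (nat_lit 47) (nat_lit 5) (nat_lit 52) (nat_lit 5) (nat_lit 53) (nat_lit 5) (nat_lit 379) (nat_lit 341) (nat_lit 141)) (XT.nd (nat_lit 94) (nat_lit 0) (nat_lit 0) (XT.lf (nat_lit 0) (nat_lit 8559920905) (nat_lit 504) (nat_lit 25253533437) (nat_lit 84) (nat_lit 10302244963) (nat_lit 47) (nat_lit 5) (nat_lit 53) (nat_lit 5) (nat_lit 48) (nat_lit 5) (nat_lit 380) (nat_lit 341) (nat_lit 140)) (XT.lf (nat_lit 0) (nat_lit 12041854985) (nat_lit 504) (nat_lit 11151527084) (nat_lit 84) (nat_lit 21869213303) (nat_lit 47) (nat_lit 5) (nat_lit 53) (nat_lit 5) (nat_lit 48) (nat_lit 5) (nat_lit 381) (nat_lit 341) (nat_lit 139)))) (XT.nd (nat_lit 94) (nat_lit 0) (nat_lit 0) (XT.lf (nat_lit 0) (nat_lit 3455447687) (nat_lit 336) (nat_lit 12208978034) (nat_lit 420) (nat_lit 30373413173) (nat_lit 43) (nat_lit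 5) (nat_lit 47) (nat_lit 5) (nat_lit 48) (nat_lit 5) (nat_lit 382) (nat_lit 341) (nat_lit 138)) (XT.nd (nat_lit 94) (nat_lit 0) (nat_lit 0) (XT.lf (nat_lit 0) (nat_lit 18749850204) (nat_lit 336) (nat_lit 764293005) (nat_lit 420) (nat_lit 27525618555) (nat_lit 43) (nat_lit 5) (nat_lit 47) (nat_lit 5) (nat_lit 48) (nat_lit 5) (nat_lit 383) (nat_lit 341) (nat_lit 137)) (XT.lf (nat_lit 0) (nat_lit 23591164578) (nat_lit 420) (nat_lit 13665627559) (nat_lit 84) (nat_lit 10812612109) (nat_lit 43) (nat_lit 5) (nat_lit 48) (nat_lit 5) (nat_lit 44) (nat_lit 5) (nat_lit 384) (nat_lit 341) (nat_lit 136))))) (XT.nd (nat_lit 282) (nat_lit 252) (nat_lit 0) (XT.nd (nat_lit 94) (nat_lit 0) (nat_lit 0) (XT.lf (nat_lit 0) (nat_lit 1431291355) (nat_lit 336) (nat_lit 26383835406) (nat_lit 420) (nat_lit 21315208372) (nat_lit 39) (nat_lit 5) (nat_lit 43) (nat_lit 5) (nat_lit 44) (nat_lit 5) (nat_lit 385)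 (nat_lit 341) (nat_lit 135)) (XT.nd (nat_lit 94) (nat_lit 0) (nat_lit 0) (XT.lf (nat_lit 0) (nat_lit 17284198177) (nat_lit 336) (nat_lit 15027039267) (nat_lit 420) (nat_lit 17908546498) (nat_lit 39) (nat_lit 5) (nat_lit 43) (nat_lit 5) (nat_lit 44) (nat_lit 5) (nat_lit 386) (nat_lit 341) (nat_lit 134)) (XT.lf (nat_lit 0) (nat_lit 33626876145) (nat_lit 336) (nat_lit 3318459122) (nat_lit 420) (nat_lit 14397719805) (nat_lit 39) (nat_lit 5) (nat_lit 43) (nat_lit 5) (nat_lit 44) (nat_lit 5) (nat_lit 387) (nat_lit 341) (nat_lit 133)))) (XT.nd (nat_lit 94) (nat_lit 252) (nat_lit 0) (XT.lf (nat_lit 0) (nat_lit 41808568738) (nat_lit 420) (nat_lit 2113466225) (nat_lit 84) (nat_lit 8576468862) (nat_lit 39) (nat_lit 5) (nat_lit 44) (nat_lit 5) (nat_lit 40) (nat_lit 5) (nat_lit 388) (nat_lit 341) (nat_lit 132)) (XT.nd (nat_lit 94) (nat_lit 0) (nat_lit 0) (XT.lf (nat_lit 0) (nat_lit 14223957578)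 (nat_lit 252) (nat_lit 32772335913) (nat_lit 336) (nat_lit 6688098214) (nat_lit 36) (nat_lit 5) (nat_lit 39) (nat_lit 5) (nat_lit 40) (nat_lit 5) (nat_lit 389) (nat_lit 341) (nat_lit 131)) (XT.lf (nat_lit 0) (nat_lit 31111048226) (nat_lit 252) (nat_lit 21254560944) (nat_lit 336) (nat_lit 2540794721) (nat_lit 36) (nat_lit 5) (nat_lit 39) (nat_lit 5) (nat_lit 40) (nat_lit 5) (nat_lit 390) (nat_lit 341) (nat_lit 130))))))) (XT.nd (nat_lit 1128) (nat_lit 672) (nat_lit 0) (XT.nd (nat_lit 564) (nat_lit 252) (nat_lit 0) (XT.nd (nat_lit 282) (nat_lit 252) (nat_lit 0) (XT.nd (nat_lit 94) (nat_lit 336) (nat_lit 0) (XT.lf (nat_lit 0) (nat_lit 1698849038) (nat_lit 336) (nat_lit 7663453000) (nat_lit 84) (nat_lit 46803507518) (nat_lit 35) (nat_lit 5) (nat_lit 39) (nat_lit 5) (nat_lit 36) (nat_lit 5) (nat_lit 391) (nat_lit 341) (nat_lit 129)) (XT.nd (nat_lit 94) (nat_lit 0) (nat_lit 0) (XT.lf (nat_lit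 0) (nat_lit 6136376358) (nat_lit 420) (nat_lit 48365767201) (nat_lit 84) (nat_lit 2957616640) (nat_lit 31) (nat_lit 5) (nat_lit 36) (nat_lit 5) (nat_lit 32) (nat_lit 5) (nat_lit 392) (nat_lit 341) (nat_lit 128)) (XT.lf (nat_lit 0) (nat_lit 10886818944) (nat_lit 420) (nat_lit 32356092470) (nat_lit 84) (nat_lit 15545481031) (nat_lit 31) (nat_lit 5) (nat_lit 36) (nat_lit 5) (nat_lit 32) (nat_lit 5) (nat_lit 393) (nat_lit 341) (nat_lit 127)))) (XT.nd (nat_lit 94) (nat_lit 252) (nat_lit 0) (XT.lf (nat_lit 0) (nat_lit 15783350415) (nat_lit 420) (nat_lit 15851628420) (nat_lit 84) (nat_lit 28523274769) (nat_lit 31) (nat_lit 5) (nat_lit 36) (nat_lit 5) (nat_lit 32) (nat_lit 5) (nat_lit 394) (nat_lit 341) (nat_lit 126)) (XT.nd (nat_lit 94) (nat_lit 0) (nat_lit 0) (XT.lf (nat_lit 0) (nat_lit 1186922683) (nat_lit 252) (nat_lit 19655386587) (nat_lit 336) (nat_lit 40727946251) (nat_lit 28) (nat_lit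 5) (nat_lit 31) (nat_lit 5) (nat_lit 32) (nat_lit 5) (nat_lit 395) (nat_lit 341) (nat_lit 125)) (XT.lf (nat_lit 0) (nat_lit 19088264721) (nat_lit 252) (nat_lit 7134169984) (nat_lit 336) (nat_lit 36798504891) (nat_lit 28) (nat_lit 5) (nat_lit 31) (nat_lit 5) (nat_lit 32) (nat_lit 5) (nat_lit 396) (nat_lit 341) (nat_lit 124))))) (XT.nd (nat_lit 282) (nat_lit 0) (nat_lit 0) (XT.nd (nat_lit 94) (nat_lit 252) (nat_lit 0) (XT.lf (nat_lit 0) (nat_lit 31825545617) (nat_lit 336) (nat_lit 27030778940) (nat_lit 84) (nat_lit 5658532535) (nat_lit 28) (nat_lit 5) (nat_lit 32) (nat_lit 5) (nat_lit 29) (nat_lit 5) (nat_lit 397) (nat_lit 341) (nat_lit 123)) (XT.nd (nat_lit 94) (nat_lit 252) (nat_lit 0) (XT.lf (nat_lit 0) (nat_lit 37674262340) (nat_lit 336) (nat_lit 9679288340) (nat_lit 84) (nat_lit 18699310488) (nat_lit 28) (nat_lit 5) (nat_lit 32) (nat_lit 5) (nat_lit 29) (nat_lit 5) (nat_lit 398)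 (nat_lit 341) (nat_lit 122)) (XT.lf (nat_lit 0) (nat_lit 8377530753) (nat_lit 252) (nat_lit 35408840030) (nat_lit 336) (nat_lit 23849632262) (nat_lit 25) (nat_lit 5) (nat_lit 28) (nat_lit 5) (nat_lit 29) (nat_lit 5) (nat_lit 399) (nat_lit 341) (nat_lit 121)))) (XT.nd (nat_lit 94) (nat_lit 0) (nat_lit 0) (XT.lf (nat_lit 0) (nat_lit 27197964508) (nat_lit 252) (nat_lit 22990014849) (nat_lit 336) (nat_lit 19077146268) (nat_lit 25) (nat_lit 5) (nat_lit 28) (nat_lit 5) (nat_lit 29) (nat_lit 5) (nat_lit 400) (nat_lit 341) (nat_lit 120)) (XT.nd (nat_lit 94) (nat_lit 0) (nat_lit 0) (XT.lf (nat_lit 0) (nat_lit 46600529520) (nat_lit 252) (nat_lit 10186531409) (nat_lit 336) (nat_lit 14157724309) (nat_lit 25) (nat_lit 5) (nat_lit 28) (nat_lit 5) (nat_lit 29) (nat_lit 5) (nat_lit 401) (nat_lit 341) (nat_lit 119)) (XT.lf (nat_lit 0) (nat_lit 63619661270) (nat_lit 336) (nat_lit 6103131227) (nat_lit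 84) (nat_lit 2952828270) (nat_lit 25) (nat_lit 5) (nat_lit 29) (nat_lit 5) (nat_lit 26) (nat_lit 5) (nat_lit 402) (nat_lit 341) (nat_lit 118)))))) (XT.nd (nat_lit 564) (nat_lit 168) (nat_lit 0) (XT.nd (nat_lit 282) (nat_lit 252) (nat_lit 0) (XT.nd (nat_lit 94) (nat_lit 84) (nat_lit 0) (XT.lf (nat_lit 0) (nat_lit 12857070968) (nat_lit 168) (nat_lit 58037807201) (nat_lit 252) (nat_lit 3558082760) (nat_lit 23) (nat_lit 5) (nat_lit 25) (nat_lit 5) (nat_lit 26) (nat_lit 5) (nat_lit 403) (nat_lit 341) (nat_lit 117)) (XT.nd (nat_lit 94) (nat_lit 0) (nat_lit 0) (XT.lf (nat_lit 0) (nat_lit 2131148038) (nat_lit 252) (nat_lit 43771850402) (nat_lit 84) (nat_lit 30379788224) (nat_lit 22) (nat_lit 5) (nat_lit 25) (nat_lit 5) (nat_lit 23) (nat_lit 5) (nat_lit 404) (nat_lit 341) (nat_lit 116)) (XT.lf (nat_lit 0) (nat_lit 7921943449) (nat_lit 252) (nat_lit 25432882362) (nat_lit 84) (nat_lit 44813414106)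 (nat_lit 22) (nat_lit 5) (nat_lit 25) (nat_lit 5) (nat_lit 23) (nat_lit 5) (nat_lit 405) (nat_lit 341) (nat_lit 115)))) (XT.nd (nat_lit 94) (nat_lit 252) (nat_lit 0) (XT.lf (nat_lit 0) (nat_lit 13891388539) (nat_lit 252) (nat_lit 6526595380) (nat_lit 84) (nat_lit 59694188406) (nat_lit 22) (nat_lit 5) (nat_lit 25) (nat_lit 5) (nat_lit 23) (nat_lit 5) (nat_lit 406) (nat_lit 341) (nat_lit 114)) (XT.nd (nat_lit 94) (nat_lit 0) (nat_lit 0) (XT.lf (nat_lit 0) (nat_lit 13231212630) (nat_lit 252) (nat_lit 6945090094) (nat_lit 336) (nat_lit 61936024200) (nat_lit 19) (nat_lit 5) (nat_lit 22) (nat_lit 5) (nat_lit 23) (nat_lit 5) (nat_lit 407) (nat_lit 341) (nat_lit 113)) (XT.lf (nat_lit 0) (nat_lit 26792941916) (nat_lit 336) (nat_lit 50503265159) (nat_lit 84) (nat_lit 6874038661) (nat_lit 19) (nat_lit 5) (nat_lit 23) (nat_lit 5) (nat_lit 20) (nat_lit 5) (nat_lit 408) (nat_lit 341) (nat_lit 112)))))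 (XT.nd (nat_lit 282) (nat_lit 0) (nat_lit 0) (XT.nd (nat_lit 94) (nat_lit 168) (nat_lit 0) (XT.lf (nat_lit 0) (nat_lit 33684925550) (nat_lit 336) (nat_lit 31627866711) (nat_lit 84) (nat_lit 20976993686) (nat_lit 19) (nat_lit 5) (nat_lit 23) (nat_lit 5) (nat_lit 20) (nat_lit 5) (nat_lit 409) (nat_lit 341) (nat_lit 111)) (XT.nd (nat_lit 94) (nat_lit 168) (nat_lit 0) (XT.lf (nat_lit 0) (nat_lit 40789781522) (nat_lit 336) (nat_lit 12168428948) (nat_lit 84) (nat_lit 35516848499) (nat_lit 19) (nat_lit 5) (nat_lit 23) (nat_lit 5) (nat_lit 20) (nat_lit 5) (nat_lit 410) (nat_lit 341) (nat_lit 110)) (XT.lf (nat_lit 0) (nat_lit 8055486465) (nat_lit 168) (nat_lit 40138557260) (nat_lit 252) (nat_lit 42531580726) (nat_lit 17) (nat_lit 5) (nat_lit 19) (nat_lit 5) (nat_lit 20) (nat_lit 5) (nat_lit 411) (nat_lit 341) (nat_lit 109)))) (XT.nd (nat_lit 47564) (nat_lit 0) (nat_lit 6384) (XT.nd (nat_lit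 47470) (nat_lit 0) (nat_lit 6384) (XT.lf (nat_lit 0) (nat_lit 29163253316) (nat_lit 168) (nat_lit 26790854720) (nat_lit 252) (nat_lit 37087937796) (nat_lit 17) (nat_lit 5) (nat_lit 19) (nat_lit 5) (nat_lit 20) (nat_lit 5) (nat_lit 412) (nat_lit 341) (nat_lit 108)) (XT.lf (nat_lit 0) (nat_lit 5235359733) (nat_lit 1092) (nat_lit 2973742155) (nat_lit 1092) (nat_lit 2973742155) (nat_lit 93) (nat_lit 3) (nat_lit 106) (nat_lit 3) (nat_lit 106) (nat_lit 5) (nat_lit 342) (nat_lit 342) (nat_lit 177))) (XT.nd (nat_lit 94) (nat_lit 0) (nat_lit 0) (XT.lf (nat_lit 84) (nat_lit 1893553999) (nat_lit 0) (nat_lit 8865364774) (nat_lit 1092) (nat_lit 11948940629) (nat_lit 94) (nat_lit 5) (nat_lit 93) (nat_lit 3) (nat_lit 106) (nat_lit 5) (nat_lit 343) (nat_lit 342) (nat_lit 176)) (XT.lf (nat_lit 84) (nat_lit 10101464965) (nat_lit 0) (nat_lit 1012327769) (nat_lit 1092) (nat_lit 11945079266) (nat_lit 94)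 (nat_lit 5) (nat_lit 93) (nat_lit 3) (nat_lit 106) (nat_lit 5) (nat_lit 344) (nat_lit 342) (nat_lit 175))))))))
noncomputable def xc199 : XT := (XT.nd (nat_lit 2256) (nat_lit 3528) (nat_lit 0) (XT.nd (nat_lit 1128) (nat_lit 1764) (nat_lit 0) (XT.nd (nat_lit 564) (nat_lit 0) (nat_lit 168) (XT.nd (nat_lit 282) (nat_lit 0) (nat_lit 84) (XT.nd (nat_lit 94) (nat_lit 0) (nat_lit 0) (XT.lf (nat_lit 0) (nat_lit 11545754656) (nat_lit 1008) (nat_lit 4929608384) (nat_lit 1092) (nat_lit 6943377467) (nat_lit 94) (nat_lit 5) (nat_lit 106) (nat_lit 5) (nat_lit 107) (nat_lit 5) (nat_lit 345) (nat_lit 342) (nat_lit 174)) (XT.nd (nat_lit 94) (nat_lit 0) (nat_lit 0) (XT.lf (nat_lit 84) (nat_lit 3402943943) (nat_lit 0) (nat_lit 8628211946) (nat_lit 1092) (nat_lit 11757390057) (nat_lit 95) (nat_lit 5) (nat_lit 94) (nat_lit 5) (nat_lit 107) (nat_lit 5) (nat_lit 346) (nat_lit 342) (nat_lit 173)) (XT.lf (nat_lit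 84) (nat_lit 12096017861) (nat_lit 0) (nat_lit 483078256) (nat_lit 1092) (nat_lit 11589268834) (nat_lit 95) (nat_lit 5) (nat_lit 94) (nat_lit 5) (nat_lit 107) (nat_lit 5) (nat_lit 347) (nat_lit 342) (nat_lit 172)))) (XT.nd (nat_lit 94) (nat_lit 0) (nat_lit 0) (XT.lf (nat_lit 0) (nat_lit 13218707658) (nat_lit 1008) (nat_lit 3582274768) (nat_lit 1092) (nat_lit 7756681858) (nat_lit 95) (nat_lit 5) (nat_lit 107) (nat_lit 5) (nat_lit 108) (nat_lit 5) (nat_lit 348) (nat_lit 342) (nat_lit 171)) (XT.nd (nat_lit 94) (nat_lit 0) (nat_lit 0) (XT.lf (nat_lit 84) (nat_lit 5269917569) (nat_lit 0) (nat_lit 8661735484) (nat_lit 1092) (nat_lit 11025740702) (nat_lit 96) (nat_lit 5) (nat_lit 95) (nat_lit 5) (nat_lit 108) (nat_lit 5) (nat_lit 349) (nat_lit 342) (nat_lit 170)) (XT.lf (nat_lit 84) (nat_lit 14470185019) (nat_lit 0) (nat_lit 230282224) (nat_lit 1092) (nat_lit 10668020729) (nat_lit 96) (nat_lit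 5) (nat_lit 95) (nat_lit 5) (nat_lit 108) (nat_lit 5) (nat_lit 350) (nat_lit 342) (nat_lit 169))))) (XT.nd (nat_lit 282) (nat_lit 0) (nat_lit 84) (XT.nd (nat_lit 94) (nat_lit 0) (nat_lit 0) (XT.lf (nat_lit 0) (nat_lit 15573561915) (nat_lit 1008) (nat_lit 1922972518) (nat_lit 1092) (nat_lit 8293317138) (nat_lit 96) (nat_lit 5) (nat_lit 108) (nat_lit 5) (nat_lit 109) (nat_lit 5) (nat_lit 351) (nat_lit 342) (nat_lit 168)) (XT.nd (nat_lit 94) (nat_lit 0) (nat_lit 0) (XT.lf (nat_lit 84) (nat_lit 7476587726) (nat_lit 0) (nat_lit 9070261760) (nat_lit 1092) (nat_lit 9675179764) (nat_lit 97) (nat_lit 5) (nat_lit 96) (nat_lit 5) (nat_lit 109) (nat_lit 5) (nat_lit 352) (nat_lit 342) (nat_lit 167)) (XT.lf (nat_lit 84) (nat_lit 17206036725) (nat_lit 0) (nat_lit 361026863) (nat_lit 1092) (nat_lit 9100039637) (nat_lit 97) (nat_lit 5) (nat_lit 96) (nat_lit 5) (nat_lit 109) (nat_lit 5) (nat_lit 353)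 (nat_lit 342) (nat_lit 166)))) (XT.nd (nat_lit 94) (nat_lit 0) (nat_lit 0) (XT.lf (nat_lit 84) (nat_lit 23786772) (nat_lit 0) (nat_lit 18677639684) (nat_lit 1092) (nat_lit 8422007483) (nat_lit 98) (nat_lit 5) (nat_lit 97) (nat_lit 5) (nat_lit 110) (nat_lit 5) (nat_lit 354) (nat_lit 342) (nat_lit 165)) (XT.nd (nat_lit 94) (nat_lit 0) (nat_lit 0) (XT.lf (nat_lit 84) (nat_lit 9997172202) (nat_lit 0) (nat_lit 9973057812) (nat_lit 1092) (nat_lit 7620620459) (nat_lit 98) (nat_lit 5) (nat_lit 97) (nat_lit 5) (nat_lit 110) (nat_lit 5) (nat_lit 355) (nat_lit 342) (nat_lit 164)) (XT.lf (nat_lit 84) (nat_lit 20277502169) (nat_lit 0) (nat_lit 997824774) (nat_lit 1092) (nat_lit 6797540790) (nat_lit 98) (nat_lit 5) (nat_lit 97) (nat_lit 5) (nat_lit 110) (nat_lit 5) (nat_lit 356) (nat_lit 342) (nat_lit 163)))))) (XT.nd (nat_lit 564) (nat_lit 1092) (nat_lit 0) (XT.nd (nat_lit 282) (nat_lit 1008) (nat_lit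 0) (XT.nd (nat_lit 94) (nat_lit 0) (nat_lit 0) (XT.lf (nat_lit 84) (nat_lit 2268218797) (nat_lit 0) (nat_lit 20454120706) (nat_lit 1092) (nat_lit 5844358930) (nat_lit 99) (nat_lit 5) (nat_lit 98) (nat_lit 5) (nat_lit 111) (nat_lit 5) (nat_lit 357) (nat_lit 342) (nat_lit 162)) (XT.nd (nat_lit 94) (nat_lit 0) (nat_lit 0) (XT.lf (nat_lit 84) (nat_lit 12796361138) (nat_lit 0) (nat_lit 11506443698) (nat_lit 1092) (nat_lit 4770302198) (nat_lit 99) (nat_lit 5) (nat_lit 98) (nat_lit 5) (nat_lit 111) (nat_lit 5) (nat_lit 358) (nat_lit 342) (nat_lit 161)) (XT.lf (nat_lit 84) (nat_lit 23648688164) (nat_lit 0) (nat_lit 2280788530) (nat_lit 1092) (nat_lit 3665839171) (nat_lit 99) (nat_lit 5) (nat_lit 98) (nat_lit 5) (nat_lit 111) (nat_lit 5) (nat_lit 359) (nat_lit 342) (nat_lit 160)))) (XT.nd (nat_lit 94) (nat_lit 84) (nat_lit 0) (XT.lf (nat_lit 0) (nat_lit 4724964383) (nat_lit 1008) (nat_lit 22997515975)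 (nat_lit 1092) (nat_lit 2407654440) (nat_lit 87) (nat_lit 5) (nat_lit 99) (nat_lit 5) (nat_lit 100) (nat_lit 5) (nat_lit 360) (nat_lit 342) (nat_lit 159)) (XT.nd (nat_lit 94) (nat_lit 84) (nat_lit 0) (XT.lf (nat_lit 0) (nat_lit 15827430759) (nat_lit 1008) (nat_lit 13826158880) (nat_lit 1092) (nat_lit 1025399522) (nat_lit 87) (nat_lit 5) (nat_lit 99) (nat_lit 5) (nat_lit 100) (nat_lit 5) (nat_lit 361) (nat_lit 342) (nat_lit 158)) (XT.lf (nat_lit 0) (nat_lit 389052735) (nat_lit 1092) (nat_lit 3976953820) (nat_lit 84) (nat_lit 26878822514) (nat_lit 86) (nat_lit 5) (nat_lit 99) (nat_lit 5) (nat_lit 87) (nat_lit 5) (nat_lit 362) (nat_lit 342) (nat_lit 157))))) (XT.nd (nat_lit 282) (nat_lit 504) (nat_lit 0) (XT.nd (nat_lit 94) (nat_lit 0) (nat_lit 0) (XT.lf (nat_lit 0) (nat_lit 1950952145) (nat_lit 672) (nat_lit 24509372023) (nat_lit 84) (nat_lit 5363701857) (nat_lit 79) (nat_lit 5) (nat_lit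 87) (nat_lit 5) (nat_lit 80) (nat_lit 5) (nat_lit 363) (nat_lit 342) (nat_lit 156)) (XT.nd (nat_lit 94) (nat_lit 0) (nat_lit 0) (XT.lf (nat_lit 0) (nat_lit 3645397270) (nat_lit 672) (nat_lit 13426567670) (nat_lit 84) (nat_lit 15346617822) (nat_lit 79) (nat_lit 5) (nat_lit 87) (nat_lit 5) (nat_lit 80) (nat_lit 5) (nat_lit 364) (nat_lit 342) (nat_lit 155)) (XT.lf (nat_lit 0) (nat_lit 5389981302) (nat_lit 672) (nat_lit 2002338854) (nat_lit 84) (nat_lit 25639336880) (nat_lit 79) (nat_lit 5) (nat_lit 87) (nat_lit 5) (nat_lit 80) (nat_lit 5) (nat_lit 365) (nat_lit 342) (nat_lit 154)))) (XT.nd (nat_lit 94) (nat_lit 0) (nat_lit 0) (XT.lf (nat_lit 0) (nat_lit 7311964661) (nat_lit 588) (nat_lit 23712498733) (nat_lit 84) (nat_lit 2635462242) (nat_lit 73) (nat_lit 5) (nat_lit 80) (nat_lit 5) (nat_lit 74) (nat_lit 5) (nat_lit 366) (nat_lit 342) (nat_lit 153)) (XT.nd (nat_lit 94) (nat_lit 0) (nat_lit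 0) (XT.lf (nat_lit 0) (nat_lit 9387983915) (nat_lit 588) (nat_lit 12074899437) (nat_lit 84) (nat_lit 12841870627) (nat_lit 73) (nat_lit 5) (nat_lit 80) (nat_lit 5) (nat_lit 74) (nat_lit 5) (nat_lit 367) (nat_lit 342) (nat_lit 152)) (XT.lf (nat_lit 0) (nat_lit 11526162181) (nat_lit 588) (nat_lit 78611099) (nat_lit 84) (nat_lit 23364877998) (nat_lit 73) (nat_lit 5) (nat_lit 80) (nat_lit 5) (nat_lit 74) (nat_lit 5) (nat_lit 368) (nat_lit 342) (nat_lit 151))))))) (XT.nd (nat_lit 1128) (nat_lit 1344) (nat_lit 0) (XT.nd (nat_lit 564) (nat_lit 840) (nat_lit 0) (XT.nd (nat_lit 282) (nat_lit 420) (nat_lit 0) (XT.nd (nat_lit 94) (nat_lit 420) (nat_lit 0) (XT.lf (nat_lit 0) (nat_lit 12540205267) (nat_lit 504) (nat_lit 1312687589) (nat_lit 588) (nat_lit 21798488023) (nat_lit 67) (nat_lit 5) (nat_lit 73) (nat_lit 5) (nat_lit 74) (nat_lit 5) (nat_lit 369) (nat_lit 342) (nat_lit 150)) (XT.nd (nat_lit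 94) (nat_lit 420) (nat_lit 0) (XT.lf (nat_lit 0) (nat_lit 16342736649) (nat_lit 588) (nat_lit 10896667234) (nat_lit 84) (nat_lit 9112030191) (nat_lit 67) (nat_lit 5) (nat_lit 74) (nat_lit 5) (nat_lit 68) (nat_lit 5) (nat_lit 370) (nat_lit 342) (nat_lit 149)) (XT.lf (nat_lit 0) (nat_lit 1715623593) (nat_lit 420) (nat_lit 17222563372) (nat_lit 504) (nat_lit 18134131067) (nat_lit 62) (nat_lit 5) (nat_lit 67) (nat_lit 5) (nat_lit 68) (nat_lit 5) (nat_lit 371) (nat_lit 342) (nat_lit 148)))) (XT.nd (nat_lit 94) (nat_lit 420) (nat_lit 0) (XT.lf (nat_lit 0) (nat_lit 14947911782) (nat_lit 420) (nat_lit 6777940909) (nat_lit 504) (nat_lit 16086242126) (nat_lit 62) (nat_lit 5) (nat_lit 67) (nat_lit 5) (nat_lit 68) (nat_lit 5) (nat_lit 372) (nat_lit 342) (nat_lit 147)) (XT.nd (nat_lit 94) (nat_lit 420) (nat_lit 0) (XT.lf (nat_lit 0) (nat_lit 24637599113) (nat_lit 504) (nat_lit 10025986338) (nat_lit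 84) (nat_lit 3910061253) (nat_lit 62) (nat_lit 5) (nat_lit 68) (nat_lit 5) (nat_lit 63) (nat_lit 5) (nat_lit 373) (nat_lit 342) (nat_lit 146)) (XT.lf (nat_lit 0) (nat_lit 3203478396) (nat_lit 420) (nat_lit 24535367538) (nat_lit 504) (nat_lit 11616893728) (nat_lit 57) (nat_lit 5) (nat_lit 62) (nat_lit 5) (nat_lit 63) (nat_lit 5) (nat_lit 374) (nat_lit 342) (nat_lit 145))))) (XT.nd (nat_lit 282) (nat_lit 504) (nat_lit 0) (XT.nd (nat_lit 94) (nat_lit 336) (nat_lit 0) (XT.lf (nat_lit 0) (nat_lit 17053685166) (nat_lit 420) (nat_lit 13985369005) (nat_lit 504) (nat_lit 9119844835) (nat_lit 57) (nat_lit 5) (nat_lit 62) (nat_lit 5) (nat_lit 63) (nat_lit 5) (nat_lit 375) (nat_lit 342) (nat_lit 144)) (XT.nd (nat_lit 94) (nat_lit 336) (nat_lit 0) (XT.lf (nat_lit 0) (nat_lit 31331388973) (nat_lit 420) (nat_lit 3108406881) (nat_lit 504) (nat_lit 6547224136) (nat_lit 57) (nat_lit 5) (nat_lit 62)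 (nat_lit 5) (nat_lit 63) (nat_lit 5) (nat_lit 376) (nat_lit 342) (nat_lit 143)) (XT.lf (nat_lit 0) (nat_lit 4213507279) (nat_lit 336) (nat_lit 33852941192) (nat_lit 420) (nat_lit 3770637603) (nat_lit 53) (nat_lit 5) (nat_lit 57) (nat_lit 5) (nat_lit 58) (nat_lit 5) (nat_lit 377) (nat_lit 342) (nat_lit 142)))) (XT.nd (nat_lit 94) (nat_lit 504) (nat_lit 0) (XT.lf (nat_lit 0) (nat_lit 18682992230) (nat_lit 336) (nat_lit 23253102797) (nat_lit 420) (nat_lit 773369800) (nat_lit 53) (nat_lit 5) (nat_lit 57) (nat_lit 5) (nat_lit 58) (nat_lit 5) (nat_lit 378) (nat_lit 342) (nat_lit 141)) (XT.nd (nat_lit 94) (nat_lit 420) (nat_lit 0) (XT.lf (nat_lit 0) (nat_lit 2268473754) (nat_lit 420) (nat_lit 10032671121) (nat_lit 84) (nat_lit 31307089194) (nat_lit 52) (nat_lit 5) (nat_lit 57) (nat_lit 5) (nat_lit 53) (nat_lit 5) (nat_lit 379) (nat_lit 342) (nat_lit 140)) (XT.lf (nat_lit 0) (nat_lit 4475421358)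 (nat_lit 420) (nat_lit 955914140) (nat_lit 504) (nat_lit 39101965598) (nat_lit 47) (nat_lit 5) (nat_lit 52) (nat_lit 5) (nat_lit 53) (nat_lit 5) (nat_lit 380) (nat_lit 342) (nat_lit 139)))))) (XT.nd (nat_lit 564) (nat_lit 672) (nat_lit 0) (XT.nd (nat_lit 282) (nat_lit 336) (nat_lit 0) (XT.nd (nat_lit 94) (nat_lit 336) (nat_lit 0) (XT.lf (nat_lit 0) (nat_lit 8903007980) (nat_lit 504) (nat_lit 25947283434) (nat_lit 84) (nat_lit 10630227441) (nat_lit 47) (nat_lit 5) (nat_lit 53) (nat_lit 5) (nat_lit 48) (nat_lit 5) (nat_lit 381) (nat_lit 342) (nat_lit 138)) (XT.nd (nat_lit 94) (nat_lit 336) (nat_lit 0) (XT.lf (nat_lit 0) (nat_lit 12490544853) (nat_lit 504) (nat_lit 11410794221) (nat_lit 84) (nat_lit 22555512828) (nat_lit 47) (nat_lit 5) (nat_lit 53) (nat_lit 5) (nat_lit 48) (nat_lit 5) (nat_lit 382) (nat_lit 342) (nat_lit 137)) (XT.lf (nat_lit 0) (nat_lit 3648121741) (nat_lit 336) (nat_lit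 12575875370) (nat_lit 420) (nat_lit 31238385253) (nat_lit 43) (nat_lit 5) (nat_lit 47) (nat_lit 5) (nat_lit 48) (nat_lit 5) (nat_lit 383) (nat_lit 342) (nat_lit 136)))) (XT.nd (nat_lit 94) (nat_lit 336) (nat_lit 0) (XT.lf (nat_lit 0) (nat_lit 19414078271) (nat_lit 336) (nat_lit 776753321) (nat_lit 420) (nat_lit 28304612314) (nat_lit 43) (nat_lit 5) (nat_lit 47) (nat_lit 5) (nat_lit 48) (nat_lit 5) (nat_lit 384) (nat_lit 342) (nat_lit 135)) (XT.nd (nat_lit 94) (nat_lit 336) (nat_lit 0) (XT.lf (nat_lit 0) (nat_lit 24392191333) (nat_lit 420) (nat_lit 14006408713) (nat_lit 84) (nat_lit 11158478595) (nat_lit 43) (nat_lit 5) (nat_lit 48) (nat_lit 5) (nat_lit 44) (nat_lit 5) (nat_lit 385) (nat_lit 342) (nat_lit 134)) (XT.lf (nat_lit 0) (nat_lit 1557675873) (nat_lit 336) (nat_lit 27188138314) (nat_lit 420) (nat_lit 21905133461) (nat_lit 39) (nat_lit 5) (nat_lit 43) (nat_lit 5) (nat_lit 44)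 (nat_lit 5) (nat_lit 386) (nat_lit 342) (nat_lit 133))))) (XT.nd (nat_lit 282) (nat_lit 672) (nat_lit 0) (XT.nd (nat_lit 94) (nat_lit 0) (nat_lit 0) (XT.lf (nat_lit 0) (nat_lit 17899556803) (nat_lit 336) (nat_lit 15479690298) (nat_lit 420) (nat_lit 18394995271) (nat_lit 39) (nat_lit 5) (nat_lit 43) (nat_lit 5) (nat_lit 44) (nat_lit 5) (nat_lit 387) (nat_lit 342) (nat_lit 132)) (XT.nd (nat_lit 94) (nat_lit 0) (nat_lit 0) (XT.lf (nat_lit 0) (nat_lit 34746465933) (nat_lit 336) (nat_lit 3408540679) (nat_lit 420) (nat_lit 14777399100) (nat_lit 39) (nat_lit 5) (nat_lit 43) (nat_lit 5) (nat_lit 44) (nat_lit 5) (nat_lit 388) (nat_lit 342) (nat_lit 131)) (XT.lf (nat_lit 0) (nat_lit 43167188042) (nat_lit 420) (nat_lit 2102054668) (nat_lit 84) (nat_lit 8854495530) (nat_lit 39) (nat_lit 5) (nat_lit 44) (nat_lit 5) (nat_lit 40) (nat_lit 5) (nat_lit 389) (nat_lit 342) (nat_lit 130)))) (XT.nd (nat_lit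 188) (nat_lit 420) (nat_lit 0) (XT.nd (nat_lit 94) (nat_lit 0) (nat_lit 0) (XT.lf (nat_lit 0) (nat_lit 14741050436) (nat_lit 252) (nat_lit 33773556387) (nat_lit 336) (nat_lit 6831825127) (nat_lit 36) (nat_lit 5) (nat_lit 39) (nat_lit 5) (nat_lit 40) (nat_lit 5) (nat_lit 390) (nat_lit 342) (nat_lit 129)) (XT.lf (nat_lit 0) (nat_lit 32149351219) (nat_lit 252) (nat_lit 21899173052) (nat_lit 336) (nat_lit 2557867668) (nat_lit 36) (nat_lit 5) (nat_lit 39) (nat_lit 5) (nat_lit 40) (nat_lit 5) (nat_lit 391) (nat_lit 342) (nat_lit 128))) (XT.nd (nat_lit 94) (nat_lit 336) (nat_lit 0) (XT.lf (nat_lit 0) (nat_lit 1810144530) (nat_lit 336) (nat_lit 7827926948) (nat_lit 84) (nat_lit 48266812757) (nat_lit 35) (nat_lit 5) (nat_lit 39) (nat_lit 5) (nat_lit 36) (nat_lit 5) (nat_lit 392) (nat_lit 342) (nat_lit 127)) (XT.lf (nat_lit 0) (nat_lit 6384336524) (nat_lit 420) (nat_lit 49790873819) (nat_lit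 84) (nat_lit 3063772317) (nat_lit 31) (nat_lit 5) (nat_lit 36) (nat_lit 5) (nat_lit 32) (nat_lit 5) (nat_lit 393) (nat_lit 342) (nat_lit 126))))))))
noncomputable def xc200 : XT := (XT.nd (nat_lit 49726) (nat_lit 0) (nat_lit 4200) (XT.nd (nat_lit 1128) (nat_lit 420) (nat_lit 0) (XT.nd (nat_lit 564) (nat_lit 504) (nat_lit 0) (XT.nd (nat_lit 282) (nat_lit 0) (nat_lit 0) (XT.nd (nat_lit 94) (nat_lit 252) (nat_lit 0) (XT.lf (nat_lit 0) (nat_lit 11280306936) (nat_lit 420) (nat_lit 33287131176) (nat_lit 84) (nat_lit 16041425435) (nat_lit 31) (nat_lit 5) (nat_lit 36) (nat_lit 5) (nat_lit 32) (nat_lit 5) (nat_lit 394) (nat_lit 342) (nat_lit 125)) (XT.nd (nat_lit 94) (nat_lit 252) (nat_lit 0) (XT.lf (nat_lit 0) (nat_lit 16326947183) (nat_lit 420) (nat_lit 16273193634) (nat_lit 84) (nat_lit 29421108791) (nat_lit 31) (nat_lit 5) (nat_lit 36) (nat_lit 5) (nat_lit 32) (nat_lit 5) (nat_lit 395)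 (nat_lit 342) (nat_lit 124)) (XT.lf (nat_lit 0) (nat_lit 1292845534) (nat_lit 252) (nat_lit 20248940914) (nat_lit 336) (nat_lit 41935273303) (nat_lit 28) (nat_lit 5) (nat_lit 31) (nat_lit 5) (nat_lit 32) (nat_lit 5) (nat_lit 396) (nat_lit 342) (nat_lit 123)))) (XT.nd (nat_lit 94) (nat_lit 0) (nat_lit 0) (XT.lf (nat_lit 0) (nat_lit 19747050634) (nat_lit 252) (nat_lit 7340040546) (nat_lit 336) (nat_lit 37885680190) (nat_lit 28) (nat_lit 5) (nat_lit 31) (nat_lit 5) (nat_lit 32) (nat_lit 5) (nat_lit 397) (nat_lit 342) (nat_lit 122)) (XT.nd (nat_lit 94) (nat_lit 0) (nat_lit 0) (XT.lf (nat_lit 0) (nat_lit 32862489292) (nat_lit 336) (nat_lit 27802083820) (nat_lit 84) (nat_lit 5848477280) (nat_lit 28) (nat_lit 5) (nat_lit 32) (nat_lit 5) (nat_lit 29) (nat_lit 5) (nat_lit 398) (nat_lit 342) (nat_lit 121)) (XT.lf (nat_lit 0) (nat_lit 38891002262) (nat_lit 336) (nat_lit 9914701015) (nat_lit 84)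 (nat_lit 19293082456) (nat_lit 28) (nat_lit 5) (nat_lit 32) (nat_lit 5) (nat_lit 29) (nat_lit 5) (nat_lit 399) (nat_lit 342) (nat_lit 120))))) (XT.nd (nat_lit 282) (nat_lit 252) (nat_lit 0) (XT.nd (nat_lit 94) (nat_lit 0) (nat_lit 0) (XT.lf (nat_lit 0) (nat_lit 8701224995) (nat_lit 252) (nat_lit 36490527419) (nat_lit 336) (nat_lit 24539284456) (nat_lit 25) (nat_lit 5) (nat_lit 28) (nat_lit 5) (nat_lit 29) (nat_lit 5) (nat_lit 400) (nat_lit 342) (nat_lit 119)) (XT.nd (nat_lit 94) (nat_lit 0) (nat_lit 0) (XT.lf (nat_lit 0) (nat_lit 28103168128) (nat_lit 252) (nat_lit 23687199341) (nat_lit 336) (nat_lit 19620345362) (nat_lit 25) (nat_lit 5) (nat_lit 28) (nat_lit 5) (nat_lit 29) (nat_lit 5) (nat_lit 401) (nat_lit 342) (nat_lit 118)) (XT.lf (nat_lit 0) (nat_lit 48105346440) (nat_lit 252) (nat_lit 10487274147) (nat_lit 336) (nat_lit 14549870367) (nat_lit 25) (nat_lit 5) (nat_lit 28) (nat_lit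 5) (nat_lit 29) (nat_lit 5) (nat_lit 402) (nat_lit 342) (nat_lit 117)))) (XT.nd (nat_lit 94) (nat_lit 252) (nat_lit 0) (XT.lf (nat_lit 0) (nat_lit 65635818360) (nat_lit 336) (nat_lit 6232547562) (nat_lit 84) (nat_lit 3058659562) (nat_lit 25) (nat_lit 5) (nat_lit 29) (nat_lit 5) (nat_lit 26) (nat_lit 5) (nat_lit 403) (nat_lit 342) (nat_lit 116)) (XT.nd (nat_lit 94) (nat_lit 84) (nat_lit 0) (XT.lf (nat_lit 0) (nat_lit 13314815674) (nat_lit 168) (nat_lit 59821016925) (nat_lit 252) (nat_lit 3623658685) (nat_lit 23) (nat_lit 5) (nat_lit 25) (nat_lit 5) (nat_lit 26) (nat_lit 5) (nat_lit 404) (nat_lit 342) (nat_lit 115)) (XT.lf (nat_lit 0) (nat_lit 2239719484) (nat_lit 252) (nat_lit 45070345887) (nat_lit 84) (nat_lit 31336008351) (nat_lit 22) (nat_lit 5) (nat_lit 25) (nat_lit 5) (nat_lit 23) (nat_lit 5) (nat_lit 405) (nat_lit 342) (nat_lit 114)))))) (XT.nd (nat_lit 564) (nat_lit 168) (nat_lit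 0) (XT.nd (nat_lit 282) (nat_lit 0) (nat_lit 0) (XT.nd (nat_lit 94) (nat_lit 252) (nat_lit 0) (XT.lf (nat_lit 0) (nat_lit 8208751492) (nat_lit 252) (nat_lit 26164626761) (nat_lit 84) (nat_lit 46216642254) (nat_lit 22) (nat_lit 5) (nat_lit 25) (nat_lit 5) (nat_lit 23) (nat_lit 5) (nat_lit 406) (nat_lit 342) (nat_lit 113)) (XT.nd (nat_lit 94) (nat_lit 252) (nat_lit 0) (XT.lf (nat_lit 0) (nat_lit 14362009747) (nat_lit 252) (nat_lit 6673948980) (nat_lit 84) (nat_lit 61558299236) (nat_lit 22) (nat_lit 5) (nat_lit 25) (nat_lit 5) (nat_lit 23) (nat_lit 5) (nat_lit 407) (nat_lit 342) (nat_lit 112)) (XT.lf (nat_lit 0) (nat_lit 13695794548) (nat_lit 252) (nat_lit 7145299159) (nat_lit 336) (nat_lit 63815348758) (nat_lit 19) (nat_lit 5) (nat_lit 22) (nat_lit 5) (nat_lit 23) (nat_lit 5) (nat_lit 408) (nat_lit 342) (nat_lit 111)))) (XT.nd (nat_lit 94) (nat_lit 0) (nat_lit 0) (XT.lf (nat_lit 0) (nat_lit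 27661811458) (nat_lit 336) (nat_lit 52014907855) (nat_lit 84) (nat_lit 7101474037) (nat_lit 19) (nat_lit 5) (nat_lit 23) (nat_lit 5) (nat_lit 20) (nat_lit 5) (nat_lit 409) (nat_lit 342) (nat_lit 110)) (XT.nd (nat_lit 94) (nat_lit 0) (nat_lit 0) (XT.lf (nat_lit 0) (nat_lit 34766295335) (nat_lit 336) (nat_lit 32555994474) (nat_lit 84) (nat_lit 21641189489) (nat_lit 19) (nat_lit 5) (nat_lit 23) (nat_lit 5) (nat_lit 20) (nat_lit 5) (nat_lit 410) (nat_lit 342) (nat_lit 109)) (XT.lf (nat_lit 0) (nat_lit 42090285208) (nat_lit 336) (nat_lit 12494887777) (nat_lit 84) (nat_lit 36631361587) (nat_lit 19) (nat_lit 5) (nat_lit 23) (nat_lit 5) (nat_lit 20) (nat_lit 5) (nat_lit 411) (nat_lit 342) (nat_lit 108))))) (XT.nd (nat_lit 47752) (nat_lit 0) (nat_lit 6384) (XT.nd (nat_lit 47564) (nat_lit 0) (nat_lit 6384) (XT.lf (nat_lit 0) (nat_lit 8355455089) (nat_lit 168) (nat_lit 41368039863) (nat_lit 252)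 (nat_lit 43813394801) (nat_lit 17) (nat_lit 5) (nat_lit 19) (nat_lit 5) (nat_lit 20) (nat_lit 5) (nat_lit 412) (nat_lit 342) (nat_lit 107)) (XT.nd (nat_lit 94) (nat_lit 0) (nat_lit 0) (XT.lf (nat_lit 0) (nat_lit 5503712117) (nat_lit 1092) (nat_lit 3010962193) (nat_lit 1092) (nat_lit 3010962193) (nat_lit 93) (nat_lit 3) (nat_lit 106) (nat_lit 3) (nat_lit 106) (nat_lit 5) (nat_lit 343) (nat_lit 343) (nat_lit 175)) (XT.lf (nat_lit 84) (nat_lit 2061073149) (nat_lit 0) (nat_lit 9238186292) (nat_lit 1092) (nat_lit 12104991793) (nat_lit 94) (nat_lit 5) (nat_lit 93) (nat_lit 3) (nat_lit 106) (nat_lit 5) (nat_lit 344) (nat_lit 343) (nat_lit 174)))) (XT.nd (nat_lit 94) (nat_lit 0) (nat_lit 84) (XT.lf (nat_lit 84) (nat_lit 10520157398) (nat_lit 0) (nat_lit 1138758630) (nat_lit 1092) (nat_lit 12107456262) (nat_lit 94) (nat_lit 5) (nat_lit 93) (nat_lit 3) (nat_lit 106) (nat_lit 5) (nat_lit 345)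 (nat_lit 343) (nat_lit 173)) (XT.nd (nat_lit 94) (nat_lit 0) (nat_lit 0) (XT.lf (nat_lit 0) (nat_lit 12097322734) (nat_lit 1008) (nat_lit 4972033755) (nat_lit 1092) (nat_lit 7068288822) (nat_lit 94) (nat_lit 5) (nat_lit 106) (nat_lit 5) (nat_lit 107) (nat_lit 5) (nat_lit 346) (nat_lit 343) (nat_lit 172)) (XT.lf (nat_lit 84) (nat_lit 3617710069) (nat_lit 0) (nat_lit 8975322718) (nat_lit 1092) (nat_lit 11926061091) (nat_lit 95) (nat_lit 5) (nat_lit 94) (nat_lit 5) (nat_lit 107) (nat_lit 5) (nat_lit 347) (nat_lit 343) (nat_lit 171))))))) (XT.nd (nat_lit 1128) (nat_lit 2268) (nat_lit 0) (XT.nd (nat_lit 564) (nat_lit 0) (nat_lit 168) (XT.nd (nat_lit 282) (nat_lit 0) (nat_lit 84) (XT.nd (nat_lit 94) (nat_lit 0) (nat_lit 84) (XT.lf (nat_lit 84) (nat_lit 12576983614) (nat_lit 0) (nat_lit 575295391) (nat_lit 1092) (nat_lit 11758615646) (nat_lit 95) (nat_lit 5) (nat_lit 94) (nat_lit 5) (nat_lit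 107) (nat_lit 5) (nat_lit 348) (nat_lit 343) (nat_lit 170)) (XT.nd (nat_lit 94) (nat_lit 0) (nat_lit 0) (XT.lf (nat_lit 0) (nat_lit 13805465927) (nat_lit 1008) (nat_lit 3583291280) (nat_lit 1092) (nat_lit 7923729238) (nat_lit 95) (nat_lit 5) (nat_lit 107) (nat_lit 5) (nat_lit 108) (nat_lit 5) (nat_lit 349) (nat_lit 343) (nat_lit 169)) (XT.lf (nat_lit 84) (nat_lit 5542205024) (nat_lit 0) (nat_lit 8994066740) (nat_lit 1092) (nat_lit 11188496672) (nat_lit 96) (nat_lit 5) (nat_lit 95) (nat_lit 5) (nat_lit 108) (nat_lit 5) (nat_lit 350) (nat_lit 343) (nat_lit 168)))) (XT.nd (nat_lit 94) (nat_lit 0) (nat_lit 84) (XT.lf (nat_lit 84) (nat_lit 15024405769) (nat_lit 0) (nat_lit 299319573) (nat_lit 1092) (nat_lit 10825070797) (nat_lit 96) (nat_lit 5) (nat_lit 95) (nat_lit 5) (nat_lit 108) (nat_lit 5) (nat_lit 351) (nat_lit 343) (nat_lit 167)) (XT.nd (nat_lit 94) (nat_lit 0) (nat_lit 0) (XT.lf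 (nat_lit 0) (nat_lit 16218252686) (nat_lit 1008) (nat_lit 1873589498) (nat_lit 1092) (nat_lit 8491582151) (nat_lit 96) (nat_lit 5) (nat_lit 108) (nat_lit 5) (nat_lit 109) (nat_lit 5) (nat_lit 352) (nat_lit 343) (nat_lit 166)) (XT.lf (nat_lit 84) (nat_lit 7816253634) (nat_lit 0) (nat_lit 9401660532) (nat_lit 1092) (nat_lit 9811229957) (nat_lit 97) (nat_lit 5) (nat_lit 96) (nat_lit 5) (nat_lit 109) (nat_lit 5) (nat_lit 353) (nat_lit 343) (nat_lit 165))))) (XT.nd (nat_lit 282) (nat_lit 0) (nat_lit 84) (XT.nd (nat_lit 94) (nat_lit 0) (nat_lit 84) (XT.lf (nat_lit 84) (nat_lit 17844071476) (nat_lit 0) (nat_lit 420929324) (nat_lit 1092) (nat_lit 9223188024) (nat_lit 97) (nat_lit 5) (nat_lit 96) (nat_lit 5) (nat_lit 109) (nat_lit 5) (nat_lit 354) (nat_lit 343) (nat_lit 164)) (XT.nd (nat_lit 94) (nat_lit 0) (nat_lit 0) (XT.lf (nat_lit 84) (nat_lit 134128596) (nat_lit 0) (nat_lit 19296407766)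 (nat_lit 1092) (nat_lit 8528278471) (nat_lit 98) (nat_lit 5) (nat_lit 97) (nat_lit 5) (nat_lit 110) (nat_lit 5) (nat_lit 355) (nat_lit 343) (nat_lit 163)) (XT.lf (nat_lit 84) (nat_lit 10413393399) (nat_lit 0) (nat_lit 10320788318) (nat_lit 1092) (nat_lit 7706703297) (nat_lit 98) (nat_lit 5) (nat_lit 97) (nat_lit 5) (nat_lit 110) (nat_lit 5) (nat_lit 356) (nat_lit 343) (nat_lit 162)))) (XT.nd (nat_lit 94) (nat_lit 0) (nat_lit 84) (XT.lf (nat_lit 84) (nat_lit 21009217111) (nat_lit 0) (nat_lit 1066163467) (nat_lit 1092) (nat_lit 6862623045) (nat_lit 98) (nat_lit 5) (nat_lit 97) (nat_lit 5) (nat_lit 110) (nat_lit 5) (nat_lit 357) (nat_lit 343) (nat_lit 161)) (XT.nd (nat_lit 94) (nat_lit 0) (nat_lit 0) (XT.lf (nat_lit 84) (nat_lit 2446040495) (nat_lit 0) (nat_lit 21117691503) (nat_lit 1092) (nat_lit 5883543211) (nat_lit 99) (nat_lit 5) (nat_lit 98) (nat_lit 5) (nat_lit 111) (nat_lit 5)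 (nat_lit 358) (nat_lit 343) (nat_lit 160)) (XT.lf (nat_lit 84) (nat_lit 13297322742) (nat_lit 0) (nat_lit 11891749714) (nat_lit 1092) (nat_lit 4780460087) (nat_lit 99) (nat_lit 5) (nat_lit 98) (nat_lit 5) (nat_lit 111) (nat_lit 5) (nat_lit 359) (nat_lit 343) (nat_lit 159)))))) (XT.nd (nat_lit 564) (nat_lit 1008) (nat_lit 0) (XT.nd (nat_lit 282) (nat_lit 672) (nat_lit 0) (XT.nd (nat_lit 94) (nat_lit 924) (nat_lit 0) (XT.lf (nat_lit 84) (nat_lit 24482936593) (nat_lit 0) (nat_lit 2379239106) (nat_lit 1092) (nat_lit 3645899701) (nat_lit 99) (nat_lit 5) (nat_lit 98) (nat_lit 5) (nat_lit 111) (nat_lit 5) (nat_lit 360) (nat_lit 343) (nat_lit 158)) (XT.nd (nat_lit 94) (nat_lit 0) (nat_lit 0) (XT.lf (nat_lit 0) (nat_lit 4976473612) (nat_lit 1008) (nat_lit 23731188550) (nat_lit 1092) (nat_lit 2351928708) (nat_lit 87) (nat_lit 5) (nat_lit 99) (nat_lit 5) (nat_lit 100) (nat_lit 5) (nat_lit 361)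 (nat_lit 343) (nat_lit 157)) (XT.lf (nat_lit 0) (nat_lit 16419958255) (nat_lit 1008) (nat_lit 14274895489) (nat_lit 1092) (nat_lit 930743629) (nat_lit 87) (nat_lit 5) (nat_lit 99) (nat_lit 5) (nat_lit 100) (nat_lit 5) (nat_lit 362) (nat_lit 343) (nat_lit 156)))) (XT.nd (nat_lit 94) (nat_lit 588) (nat_lit 0) (XT.lf (nat_lit 0) (nat_lit 521283814) (nat_lit 1092) (nat_lit 3998335159) (nat_lit 84) (nat_lit 27689455146) (nat_lit 86) (nat_lit 5) (nat_lit 99) (nat_lit 5) (nat_lit 87) (nat_lit 5) (nat_lit 363) (nat_lit 343) (nat_lit 155)) (XT.nd (nat_lit 94) (nat_lit 0) (nat_lit 0) (XT.lf (nat_lit 0) (nat_lit 2128823981) (nat_lit 672) (nat_lit 25163879458) (nat_lit 84) (nat_lit 5513627488) (nat_lit 79) (nat_lit 5) (nat_lit 87) (nat_lit 5) (nat_lit 80) (nat_lit 5) (nat_lit 364) (nat_lit 343) (nat_lit 154)) (XT.lf (nat_lit 0) (nat_lit 3872267165) (nat_lit 672) (nat_lit 13740673810) (nat_lit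 84) (nat_lit 15806505431) (nat_lit 79) (nat_lit 5) (nat_lit 87) (nat_lit 5) (nat_lit 80) (nat_lit 5) (nat_lit 365) (nat_lit 343) (nat_lit 153))))) (XT.nd (nat_lit 282) (nat_lit 504) (nat_lit 0) (XT.nd (nat_lit 94) (nat_lit 504) (nat_lit 0) (XT.lf (nat_lit 0) (nat_lit 5667509693) (nat_lit 672) (nat_lit 1965364359) (nat_lit 84) (nat_lit 26418775583) (nat_lit 79) (nat_lit 5) (nat_lit 87) (nat_lit 5) (nat_lit 80) (nat_lit 5) (nat_lit 366) (nat_lit 343) (nat_lit 152)) (XT.nd (nat_lit 94) (nat_lit 0) (nat_lit 0) (XT.lf (nat_lit 0) (nat_lit 7646626817) (nat_lit 588) (nat_lit 24345543305) (nat_lit 84) (nat_lit 2707317313) (nat_lit 73) (nat_lit 5) (nat_lit 80) (nat_lit 5) (nat_lit 74) (nat_lit 5) (nat_lit 367) (nat_lit 343) (nat_lit 151)) (XT.lf (nat_lit 0) (nat_lit 9783755597) (nat_lit 588) (nat_lit 12350246645) (nat_lit 84) (nat_lit 13230420354) (nat_lit 73) (nat_lit 5) (nat_lit 80) (nat_lit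 5) (nat_lit 74) (nat_lit 5) (nat_lit 368) (nat_lit 343) (nat_lit 150)))) (XT.nd (nat_lit 94) (nat_lit 0) (nat_lit 0) (XT.lf (nat_lit 0) (nat_lit 15258086) (nat_lit 504) (nat_lit 11969961228) (nat_lit 588) (nat_lit 24064821325) (nat_lit 67) (nat_lit 5) (nat_lit 73) (nat_lit 5) (nat_lit 74) (nat_lit 5) (nat_lit 369) (nat_lit 343) (nat_lit 149)) (XT.nd (nat_lit 94) (nat_lit 0) (nat_lit 0) (XT.lf (nat_lit 0) (nat_lit 13023978443) (nat_lit 504) (nat_lit 1357836773) (nat_lit 588) (nat_lit 22371174314) (nat_lit 67) (nat_lit 5) (nat_lit 73) (nat_lit 5) (nat_lit 74) (nat_lit 5) (nat_lit 370) (nat_lit 343) (nat_lit 148)) (XT.lf (nat_lit 0) (nat_lit 16945810058) (nat_lit 588) (nat_lit 11138775099) (nat_lit 84) (nat_lit 9390268313) (nat_lit 67) (nat_lit 5) (nat_lit 74) (nat_lit 5) (nat_lit 68) (nat_lit 5) (nat_lit 371) (nat_lit 343) (nat_lit 147))))))))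
noncomputable def xc201 : XT := (XT.nd (nat_lit 2256) (nat_lit 1008) (nat_lit 0) (XT.nd (nat_lit 1128) (nat_lit 1344) (nat_lit 0) (XT.nd (nat_lit 564) (nat_lit 840) (nat_lit 0) (XT.nd (nat_lit 282) (nat_lit 420) (nat_lit 0) (XT.nd (nat_lit 94) (nat_lit 0) (nat_lit 0) (XT.lf (nat_lit 0) (nat_lit 1863527980) (nat_lit 420) (nat_lit 17756230984) (nat_lit 504) (nat_lit 18598401228) (nat_lit 62) (nat_lit 5) (nat_lit 67) (nat_lit 5) (nat_lit 68) (nat_lit 5) (nat_lit 372) (nat_lit 343) (nat_lit 146)) (XT.nd (nat_lit 94) (nat_lit 0) (nat_lit 0) (XT.lf (nat_lit 0) (nat_lit 15503169071) (nat_lit 420) (nat_lit 6987832195) (nat_lit 504) (nat_lit 16489971013) (nat_lit 62) (nat_lit 5) (nat_lit 67) (nat_lit 5) (nat_lit 68) (nat_lit 5) (nat_lit 373) (nat_lit 343) (nat_lit 145)) (XT.lf (nat_lit 0) (nat_lit 25490258353) (nat_lit 504) (nat_lit 10244486123) (nat_lit 84) (nat_lit 4031486878) (nat_lit 62)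 (nat_lit 5) (nat_lit 68) (nat_lit 5) (nat_lit 63) (nat_lit 5) (nat_lit 374) (nat_lit 343) (nat_lit 144)))) (XT.nd (nat_lit 94) (nat_lit 0) (nat_lit 0) (XT.lf (nat_lit 0) (nat_lit 3394157504) (nat_lit 420) (nat_lit 25291719891) (nat_lit 504) (nat_lit 11886759870) (nat_lit 57) (nat_lit 5) (nat_lit 62) (nat_lit 5) (nat_lit 63) (nat_lit 5) (nat_lit 375) (nat_lit 343) (nat_lit 143)) (XT.nd (nat_lit 94) (nat_lit 0) (nat_lit 0) (XT.lf (nat_lit 0) (nat_lit 17670973342) (nat_lit 420) (nat_lit 14414799013) (nat_lit 504) (nat_lit 9315016316) (nat_lit 57) (nat_lit 5) (nat_lit 62) (nat_lit 5) (nat_lit 63) (nat_lit 5) (nat_lit 376) (nat_lit 343) (nat_lit 142)) (XT.lf (nat_lit 0) (nat_lit 32388621232) (nat_lit 420) (nat_lit 3200774836) (nat_lit 504) (nat_lit 6665276630) (nat_lit 57) (nat_lit 5) (nat_lit 62) (nat_lit 5) (nat_lit 63) (nat_lit 5) (nat_lit 377) (nat_lit 343) (nat_lit 141))))) (XT.nd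 (nat_lit 282) (nat_lit 420) (nat_lit 0) (XT.nd (nat_lit 94) (nat_lit 84) (nat_lit 0) (XT.lf (nat_lit 0) (nat_lit 4432090836) (nat_lit 336) (nat_lit 34894830556) (nat_lit 420) (nat_lit 3804229742) (nat_lit 53) (nat_lit 5) (nat_lit 57) (nat_lit 5) (nat_lit 58) (nat_lit 5) (nat_lit 378) (nat_lit 343) (nat_lit 140)) (XT.nd (nat_lit 94) (nat_lit 84) (nat_lit 0) (XT.lf (nat_lit 0) (nat_lit 19347484903) (nat_lit 336) (nat_lit 23966624238) (nat_lit 420) (nat_lit 716551222) (nat_lit 53) (nat_lit 5) (nat_lit 57) (nat_lit 5) (nat_lit 58) (nat_lit 5) (nat_lit 379) (nat_lit 343) (nat_lit 139)) (XT.lf (nat_lit 0) (nat_lit 2415581350) (nat_lit 420) (nat_lit 10258993033) (nat_lit 84) (nat_lit 32282777096) (nat_lit 52) (nat_lit 5) (nat_lit 57) (nat_lit 5) (nat_lit 53) (nat_lit 5) (nat_lit 380) (nat_lit 343) (nat_lit 138)))) (XT.nd (nat_lit 94) (nat_lit 0) (nat_lit 0) (XT.lf (nat_lit 0) (nat_lit 4697992894)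 (nat_lit 420) (nat_lit 977021793) (nat_lit 504) (nat_lit 40236137439) (nat_lit 47) (nat_lit 5) (nat_lit 52) (nat_lit 5) (nat_lit 53) (nat_lit 5) (nat_lit 381) (nat_lit 343) (nat_lit 137)) (XT.nd (nat_lit 94) (nat_lit 0) (nat_lit 0) (XT.lf (nat_lit 0) (nat_lit 9252126701) (nat_lit 504) (nat_lit 26667817792) (nat_lit 84) (nat_lit 10967867220) (nat_lit 47) (nat_lit 5) (nat_lit 53) (nat_lit 5) (nat_lit 48) (nat_lit 5) (nat_lit 382) (nat_lit 343) (nat_lit 136)) (XT.lf (nat_lit 0) (nat_lit 12948678488) (nat_lit 504) (nat_lit 11683218048) (nat_lit 84) (nat_lit 23262592822) (nat_lit 47) (nat_lit 5) (nat_lit 53) (nat_lit 5) (nat_lit 48) (nat_lit 5) (nat_lit 383) (nat_lit 343) (nat_lit 135)))))) (XT.nd (nat_lit 564) (nat_lit 672) (nat_lit 0) (XT.nd (nat_lit 282) (nat_lit 336) (nat_lit 0) (XT.nd (nat_lit 94) (nat_lit 0) (nat_lit 0) (XT.lf (nat_lit 0) (nat_lit 3841701110) (nat_lit 336) (nat_lit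 12954832485) (nat_lit 420) (nat_lit 32134708836) (nat_lit 43) (nat_lit 5) (nat_lit 47) (nat_lit 5) (nat_lit 48) (nat_lit 5) (nat_lit 384) (nat_lit 343) (nat_lit 134)) (XT.nd (nat_lit 94) (nat_lit 0) (nat_lit 0) (XT.lf (nat_lit 0) (nat_lit 20093982200) (nat_lit 336) (nat_lit 790265243) (nat_lit 420) (nat_lit 29112155821) (nat_lit 43) (nat_lit 5) (nat_lit 47) (nat_lit 5) (nat_lit 48) (nat_lit 5) (nat_lit 385) (nat_lit 343) (nat_lit 133)) (XT.lf (nat_lit 0) (nat_lit 25213921429) (nat_lit 420) (nat_lit 14362661625) (nat_lit 84) (nat_lit 11514434614) (nat_lit 43) (nat_lit 5) (nat_lit 48) (nat_lit 5) (nat_lit 44) (nat_lit 5) (nat_lit 386) (nat_lit 343) (nat_lit 132)))) (XT.nd (nat_lit 94) (nat_lit 0) (nat_lit 0) (XT.lf (nat_lit 0) (nat_lit 1683120452) (nat_lit 336) (nat_lit 28018179925) (nat_lit 420) (nat_lit 22517542580) (nat_lit 39) (nat_lit 5) (nat_lit 43) (nat_lit 5) (nat_lit 44) (nat_lit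 5) (nat_lit 387) (nat_lit 343) (nat_lit 131)) (XT.nd (nat_lit 94) (nat_lit 0) (nat_lit 0) (XT.lf (nat_lit 0) (nat_lit 18529279754) (nat_lit 336) (nat_lit 15947154609) (nat_lit 420) (nat_lit 18900594131) (nat_lit 39) (nat_lit 5) (nat_lit 43) (nat_lit 5) (nat_lit 44) (nat_lit 5) (nat_lit 388) (nat_lit 343) (nat_lit 130)) (XT.lf (nat_lit 0) (nat_lit 35896192884) (nat_lit 336) (nat_lit 3502172377) (nat_lit 420) (nat_lit 15172796248) (nat_lit 39) (nat_lit 5) (nat_lit 43) (nat_lit 5) (nat_lit 44) (nat_lit 5) (nat_lit 389) (nat_lit 343) (nat_lit 129))))) (XT.nd (nat_lit 282) (nat_lit 420) (nat_lit 0) (XT.nd (nat_lit 94) (nat_lit 252) (nat_lit 0) (XT.lf (nat_lit 0) (nat_lit 44564219382) (nat_lit 420) (nat_lit 2094845989) (nat_lit 84) (nat_lit 9140420995) (nat_lit 39) (nat_lit 5) (nat_lit 44) (nat_lit 5) (nat_lit 40) (nat_lit 5) (nat_lit 390) (nat_lit 343) (nat_lit 128)) (XT.nd (nat_lit 94)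 (nat_lit 0) (nat_lit 0) (XT.lf (nat_lit 0) (nat_lit 15269662668) (nat_lit 252) (nat_lit 34806686702) (nat_lit 336) (nat_lit 6983774957) (nat_lit 36) (nat_lit 5) (nat_lit 39) (nat_lit 5) (nat_lit 40) (nat_lit 5) (nat_lit 391) (nat_lit 343) (nat_lit 127)) (XT.lf (nat_lit 0) (nat_lit 33215466721) (nat_lit 252) (nat_lit 22564613922) (nat_lit 336) (nat_lit 2579123982) (nat_lit 36) (nat_lit 5) (nat_lit 39) (nat_lit 5) (nat_lit 40) (nat_lit 5) (nat_lit 392) (nat_lit 343) (nat_lit 126)))) (XT.nd (nat_lit 94) (nat_lit 336) (nat_lit 0) (XT.lf (nat_lit 0) (nat_lit 1921417358) (nat_lit 336) (nat_lit 8001829017) (nat_lit 84) (nat_lit 49774746193) (nat_lit 35) (nat_lit 5) (nat_lit 39) (nat_lit 5) (nat_lit 36) (nat_lit 5) (nat_lit 393) (nat_lit 343) (nat_lit 125)) (XT.nd (nat_lit 94) (nat_lit 0) (nat_lit 0) (XT.lf (nat_lit 0) (nat_lit 6636563861) (nat_lit 420) (nat_lit 51264555640) (nat_lit 84) (nat_lit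 3172361763) (nat_lit 31) (nat_lit 5) (nat_lit 36) (nat_lit 5) (nat_lit 32) (nat_lit 5) (nat_lit 394) (nat_lit 343) (nat_lit 124)) (XT.lf (nat_lit 0) (nat_lit 11682676281) (nat_lit 420) (nat_lit 34251296775) (nat_lit 84) (nat_lit 16551912829) (nat_lit 31) (nat_lit 5) (nat_lit 36) (nat_lit 5) (nat_lit 32) (nat_lit 5) (nat_lit 395) (nat_lit 343) (nat_lit 123))))))) (XT.nd (nat_lit 1128) (nat_lit 252) (nat_lit 0) (XT.nd (nat_lit 564) (nat_lit 252) (nat_lit 0) (XT.nd (nat_lit 282) (nat_lit 252) (nat_lit 0) (XT.nd (nat_lit 94) (nat_lit 252) (nat_lit 0) (XT.lf (nat_lit 0) (nat_lit 16884178404) (nat_lit 420) (nat_lit 16711963832) (nat_lit 84) (nat_lit 30345969376) (nat_lit 31) (nat_lit 5) (nat_lit 36) (nat_lit 5) (nat_lit 32) (nat_lit 5) (nat_lit 396) (nat_lit 343) (nat_lit 122)) (XT.nd (nat_lit 94) (nat_lit 0) (nat_lit 0) (XT.lf (nat_lit 0) (nat_lit 1397957409) (nat_lit 252) (nat_lit 20861829075)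 (nat_lit 336) (nat_lit 43183299410) (nat_lit 28) (nat_lit 5) (nat_lit 31) (nat_lit 5) (nat_lit 32) (nat_lit 5) (nat_lit 397) (nat_lit 343) (nat_lit 121)) (XT.lf (nat_lit 0) (nat_lit 20422287442) (nat_lit 252) (nat_lit 7553198672) (nat_lit 336) (nat_lit 39009731460) (nat_lit 28) (nat_lit 5) (nat_lit 31) (nat_lit 5) (nat_lit 32) (nat_lit 5) (nat_lit 398) (nat_lit 343) (nat_lit 120)))) (XT.nd (nat_lit 94) (nat_lit 252) (nat_lit 0) (XT.lf (nat_lit 0) (nat_lit 33928595800) (nat_lit 336) (nat_lit 28601246901) (nat_lit 84) (nat_lit 6043449661) (nat_lit 28) (nat_lit 5) (nat_lit 32) (nat_lit 5) (nat_lit 29) (nat_lit 5) (nat_lit 399) (nat_lit 343) (nat_lit 119)) (XT.nd (nat_lit 94) (nat_lit 252) (nat_lit 0) (XT.lf (nat_lit 0) (nat_lit 40142568376) (nat_lit 336) (nat_lit 10161240532) (nat_lit 84) (nat_lit 19904426583) (nat_lit 28) (nat_lit 5) (nat_lit 32) (nat_lit 5) (nat_lit 29) (nat_lit 5)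 (nat_lit 400) (nat_lit 343) (nat_lit 118)) (XT.lf (nat_lit 0) (nat_lit 9031163475) (nat_lit 252) (nat_lit 37606694033) (nat_lit 336) (nat_lit 25253258878) (nat_lit 25) (nat_lit 5) (nat_lit 28) (nat_lit 5) (nat_lit 29) (nat_lit 5) (nat_lit 401) (nat_lit 343) (nat_lit 117))))) (XT.nd (nat_lit 282) (nat_lit 252) (nat_lit 0) (XT.nd (nat_lit 94) (nat_lit 0) (nat_lit 0) (XT.lf (nat_lit 0) (nat_lit 29032756743) (nat_lit 252) (nat_lit 24406914999) (nat_lit 336) (nat_lit 20183238148) (nat_lit 25) (nat_lit 5) (nat_lit 28) (nat_lit 5) (nat_lit 29) (nat_lit 5) (nat_lit 402) (nat_lit 343) (nat_lit 116)) (XT.nd (nat_lit 94) (nat_lit 0) (nat_lit 0) (XT.lf (nat_lit 0) (nat_lit 49653246905) (nat_lit 252) (nat_lit 10798230739) (nat_lit 336) (nat_lit 14956941644) (nat_lit 25) (nat_lit 5) (nat_lit 28) (nat_lit 5) (nat_lit 29) (nat_lit 5) (nat_lit 403) (nat_lit 343) (nat_lit 115)) (XT.lf (nat_lit 0) (nat_lit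 67711873228) (nat_lit 336) (nat_lit 6369516720) (nat_lit 84) (nat_lit 3166924990) (nat_lit 25) (nat_lit 5) (nat_lit 29) (nat_lit 5) (nat_lit 26) (nat_lit 5) (nat_lit 404) (nat_lit 343) (nat_lit 114)))) (XT.nd (nat_lit 94) (nat_lit 84) (nat_lit 0) (XT.lf (nat_lit 0) (nat_lit 13783245400) (nat_lit 168) (nat_lit 61660451625) (nat_lit 252) (nat_lit 3693916581) (nat_lit 23) (nat_lit 5) (nat_lit 25) (nat_lit 5) (nat_lit 26) (nat_lit 5) (nat_lit 405) (nat_lit 343) (nat_lit 113)) (XT.nd (nat_lit 94) (nat_lit 0) (nat_lit 0) (XT.lf (nat_lit 0) (nat_lit 2349138950) (nat_lit 252) (nat_lit 46412555752) (nat_lit 84) (nat_lit 32321015600) (nat_lit 22) (nat_lit 5) (nat_lit 25) (nat_lit 5) (nat_lit 23) (nat_lit 5) (nat_lit 406) (nat_lit 343) (nat_lit 112)) (XT.lf (nat_lit 0) (nat_lit 8502008590) (nat_lit 252) (nat_lit 26922412191) (nat_lit 84) (nat_lit 47662540501) (nat_lit 22) (nat_lit 5) (nat_lit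 25) (nat_lit 5) (nat_lit 23) (nat_lit 5) (nat_lit 407) (nat_lit 343) (nat_lit 111)))))) (XT.nd (nat_lit 48128) (nat_lit 0) (nat_lit 6216) (XT.nd (nat_lit 282) (nat_lit 0) (nat_lit 0) (XT.nd (nat_lit 94) (nat_lit 252) (nat_lit 0) (XT.lf (nat_lit 0) (nat_lit 14844851644) (nat_lit 252) (nat_lit 6829126559) (nat_lit 84) (nat_lit 63479392485) (nat_lit 22) (nat_lit 5) (nat_lit 25) (nat_lit 5) (nat_lit 23) (nat_lit 5) (nat_lit 408) (nat_lit 343) (nat_lit 110)) (XT.nd (nat_lit 94) (nat_lit 0) (nat_lit 0) (XT.lf (nat_lit 0) (nat_lit 14171555452) (nat_lit 252) (nat_lit 7352608437) (nat_lit 336) (nat_lit 65755342645) (nat_lit 19) (nat_lit 5) (nat_lit 22) (nat_lit 5) (nat_lit 23) (nat_lit 5) (nat_lit 409) (nat_lit 343) (nat_lit 109)) (XT.lf (nat_lit 0) (nat_lit 28555348072) (nat_lit 336) (nat_lit 53576607531) (nat_lit 84) (nat_lit 7335110517) (nat_lit 19) (nat_lit 5) (nat_lit 23) (nat_lit 5) (nat_lit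 20) (nat_lit 5) (nat_lit 410) (nat_lit 343) (nat_lit 108)))) (XT.nd (nat_lit 94) (nat_lit 0) (nat_lit 0) (XT.lf (nat_lit 0) (nat_lit 35878987889) (nat_lit 336) (nat_lit 33515994156) (nat_lit 84) (nat_lit 22325151508) (nat_lit 19) (nat_lit 5) (nat_lit 23) (nat_lit 5) (nat_lit 20) (nat_lit 5) (nat_lit 411) (nat_lit 343) (nat_lit 107)) (XT.nd (nat_lit 47658) (nat_lit 0) (nat_lit 6216) (XT.lf (nat_lit 0) (nat_lit 43428970954) (nat_lit 336) (nat_lit 12834473578) (nat_lit 84) (nat_lit 37779625498) (nat_lit 19) (nat_lit 5) (nat_lit 23) (nat_lit 5) (nat_lit 20) (nat_lit 5) (nat_lit 412) (nat_lit 343) (nat_lit 106)) (XT.lf (nat_lit 0) (nat_lit 5774101532) (nat_lit 1092) (nat_lit 3052591780) (nat_lit 1092) (nat_lit 3052591780) (nat_lit 93) (nat_lit 3) (nat_lit 106) (nat_lit 3) (nat_lit 106) (nat_lit 5) (nat_lit 344) (nat_lit 344) (nat_lit 173))))) (XT.nd (nat_lit 282) (nat_lit 0) (nat_lit 84)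 (XT.nd (nat_lit 94) (nat_lit 0) (nat_lit 0) (XT.lf (nat_lit 84) (nat_lit 2227339859) (nat_lit 0) (nat_lit 9616760852) (nat_lit 1092) (nat_lit 12278577808) (nat_lit 94) (nat_lit 5) (nat_lit 93) (nat_lit 3) (nat_lit 106) (nat_lit 5) (nat_lit 345) (nat_lit 344) (nat_lit 172)) (XT.nd (nat_lit 94) (nat_lit 0) (nat_lit 84) (XT.lf (nat_lit 84) (nat_lit 10945577566) (nat_lit 0) (nat_lit 1263478951) (nat_lit 1092) (nat_lit 12287182430) (nat_lit 94) (nat_lit 5) (nat_lit 93) (nat_lit 3) (nat_lit 106) (nat_lit 5) (nat_lit 346) (nat_lit 344) (nat_lit 171)) (XT.lf (nat_lit 0) (nat_lit 12654519221) (nat_lit 1008) (nat_lit 5022313048) (nat_lit 1092) (nat_lit 7202423027) (nat_lit 94) (nat_lit 5) (nat_lit 106) (nat_lit 5) (nat_lit 107) (nat_lit 5) (nat_lit 347) (nat_lit 344) (nat_lit 170)))) (XT.nd (nat_lit 188) (nat_lit 0) (nat_lit 84) (XT.nd (nat_lit 94) (nat_lit 0) (nat_lit 0) (XT.lf (nat_lit 84)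 (nat_lit 3832661408) (nat_lit 0) (nat_lit 9328476936) (nat_lit 1092) (nat_lit 12111558975) (nat_lit 95) (nat_lit 5) (nat_lit 94) (nat_lit 5) (nat_lit 107) (nat_lit 5) (nat_lit 348) (nat_lit 344) (nat_lit 169)) (XT.lf (nat_lit 84) (nat_lit 13066581383) (nat_lit 0) (nat_lit 665796098) (nat_lit 1092) (nat_lit 11944461528) (nat_lit 95) (nat_lit 5) (nat_lit 94) (nat_lit 5) (nat_lit 107) (nat_lit 5) (nat_lit 349) (nat_lit 344) (nat_lit 168))) (XT.nd (nat_lit 94) (nat_lit 0) (nat_lit 0) (XT.lf (nat_lit 0) (nat_lit 14399930974) (nat_lit 1008) (nat_lit 3590856807) (nat_lit 1092) (nat_lit 8100303272) (nat_lit 95) (nat_lit 5) (nat_lit 107) (nat_lit 5) (nat_lit 108) (nat_lit 5) (nat_lit 350) (nat_lit 344) (nat_lit 167)) (XT.lf (nat_lit 84) (nat_lit 5816481871) (nat_lit 0) (nat_lit 9332920248) (nat_lit 1092) (nat_lit 11366903042) (nat_lit 96) (nat_lit 5) (nat_lit 95) (nat_lit 5) (nat_lit 108) (nat_lit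 5) (nat_lit 351) (nat_lit 344) (nat_lit 166))))))))
noncomputable def xc202 : XT := (XT.nd (nat_lit 2256) (nat_lit 2856) (nat_lit 0) (XT.nd (nat_lit 1128) (nat_lit 2100) (nat_lit 0) (XT.nd (nat_lit 564) (nat_lit 672) (nat_lit 0) (XT.nd (nat_lit 282) (nat_lit 0) (nat_lit 84) (XT.nd (nat_lit 94) (nat_lit 0) (nat_lit 84) (XT.lf (nat_lit 84) (nat_lit 15589549827) (nat_lit 0) (nat_lit 366830719) (nat_lit 1092) (nat_lit 10997275511) (nat_lit 96) (nat_lit 5) (nat_lit 95) (nat_lit 5) (nat_lit 108) (nat_lit 5) (nat_lit 352) (nat_lit 344) (nat_lit 165)) (XT.nd (nat_lit 94) (nat_lit 0) (nat_lit 0) (XT.lf (nat_lit 0) (nat_lit 16873338644) (nat_lit 1008) (nat_lit 1829131576) (nat_lit 1092) (nat_lit 8699477852) (nat_lit 96) (nat_lit 5) (nat_lit 108) (nat_lit 5) (nat_lit 109) (nat_lit 5) (nat_lit 353) (nat_lit 344) (nat_lit 164)) (XT.lf (nat_lit 84) (nat_lit 8160058577) (nat_lit 0) (nat_lit 9740358011)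 (nat_lit 1092) (nat_lit 9961204621) (nat_lit 97) (nat_lit 5) (nat_lit 96) (nat_lit 5) (nat_lit 109) (nat_lit 5) (nat_lit 354) (nat_lit 344) (nat_lit 163)))) (XT.nd (nat_lit 94) (nat_lit 0) (nat_lit 84) (XT.lf (nat_lit 84) (nat_lit 18495686848) (nat_lit 0) (nat_lit 479803547) (nat_lit 1092) (nat_lit 9359569060) (nat_lit 97) (nat_lit 5) (nat_lit 96) (nat_lit 5) (nat_lit 109) (nat_lit 5) (nat_lit 355) (nat_lit 344) (nat_lit 162)) (XT.nd (nat_lit 94) (nat_lit 0) (nat_lit 0) (XT.lf (nat_lit 84) (nat_lit 241398957) (nat_lit 0) (nat_lit 19932002532) (nat_lit 1092) (nat_lit 8647013594) (nat_lit 98) (nat_lit 5) (nat_lit 97) (nat_lit 5) (nat_lit 110) (nat_lit 5) (nat_lit 356) (nat_lit 344) (nat_lit 161)) (XT.lf (nat_lit 84) (nat_lit 10836220598) (nat_lit 0) (nat_lit 10677014158) (nat_lit 1092) (nat_lit 7804348723) (nat_lit 98) (nat_lit 5) (nat_lit 97) (nat_lit 5) (nat_lit 110) (nat_lit 5) (nat_lit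 357) (nat_lit 344) (nat_lit 160))))) (XT.nd (nat_lit 282) (nat_lit 840) (nat_lit 0) (XT.nd (nat_lit 94) (nat_lit 0) (nat_lit 84) (XT.lf (nat_lit 84) (nat_lit 21757507694) (nat_lit 0) (nat_lit 1134405030) (nat_lit 1092) (nat_lit 6938349446) (nat_lit 98) (nat_lit 5) (nat_lit 97) (nat_lit 5) (nat_lit 110) (nat_lit 5) (nat_lit 358) (nat_lit 344) (nat_lit 159)) (XT.nd (nat_lit 94) (nat_lit 0) (nat_lit 0) (XT.lf (nat_lit 84) (nat_lit 2623006847) (nat_lit 0) (nat_lit 21800086071) (nat_lit 1092) (nat_lit 5932352567) (nat_lit 99) (nat_lit 5) (nat_lit 98) (nat_lit 5) (nat_lit 111) (nat_lit 5) (nat_lit 359) (nat_lit 344) (nat_lit 158)) (XT.lf (nat_lit 84) (nat_lit 13807637803) (nat_lit 0) (nat_lit 12287305819) (nat_lit 1092) (nat_lit 4799090350) (nat_lit 99) (nat_lit 5) (nat_lit 98) (nat_lit 5) (nat_lit 111) (nat_lit 5) (nat_lit 360) (nat_lit 344) (nat_lit 157)))) (XT.nd (nat_lit 94) (nat_lit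 924) (nat_lit 0) (XT.lf (nat_lit 84) (nat_lit 25337056082) (nat_lit 0) (nat_lit 2479098198) (nat_lit 1092) (nat_lit 3633254309) (nat_lit 99) (nat_lit 5) (nat_lit 98) (nat_lit 5) (nat_lit 111) (nat_lit 5) (nat_lit 361) (nat_lit 344) (nat_lit 156)) (XT.nd (nat_lit 94) (nat_lit 0) (nat_lit 0) (XT.lf (nat_lit 0) (nat_lit 5229558206) (nat_lit 1008) (nat_lit 24486375943) (nat_lit 1092) (nat_lit 2302197104) (nat_lit 87) (nat_lit 5) (nat_lit 99) (nat_lit 5) (nat_lit 100) (nat_lit 5) (nat_lit 362) (nat_lit 344) (nat_lit 155)) (XT.lf (nat_lit 0) (nat_lit 17024819746) (nat_lit 1008) (nat_lit 14736350855) (nat_lit 1092) (nat_lit 840642855) (nat_lit 87) (nat_lit 5) (nat_lit 99) (nat_lit 5) (nat_lit 100) (nat_lit 5) (nat_lit 363) (nat_lit 344) (nat_lit 154)))))) (XT.nd (nat_lit 564) (nat_lit 924) (nat_lit 0) (XT.nd (nat_lit 282) (nat_lit 504) (nat_lit 0) (XT.nd (nat_lit 94) (nat_lit 588) (nat_lit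 0) (XT.lf (nat_lit 0) (nat_lit 650496155) (nat_lit 1092) (nat_lit 4026415281) (nat_lit 84) (nat_lit 28526556670) (nat_lit 86) (nat_lit 5) (nat_lit 99) (nat_lit 5) (nat_lit 87) (nat_lit 5) (nat_lit 364) (nat_lit 344) (nat_lit 153)) (XT.nd (nat_lit 94) (nat_lit 0) (nat_lit 0) (XT.lf (nat_lit 0) (nat_lit 2305256496) (nat_lit 672) (nat_lit 25844912721) (nat_lit 84) (nat_lit 5669169199) (nat_lit 79) (nat_lit 5) (nat_lit 87) (nat_lit 5) (nat_lit 80) (nat_lit 5) (nat_lit 365) (nat_lit 344) (nat_lit 152)) (XT.lf (nat_lit 0) (nat_lit 4099425751) (nat_lit 672) (nat_lit 14070565833) (nat_lit 84) (nat_lit 16281588825) (nat_lit 79) (nat_lit 5) (nat_lit 87) (nat_lit 5) (nat_lit 80) (nat_lit 5) (nat_lit 366) (nat_lit 344) (nat_lit 151)))) (XT.nd (nat_lit 94) (nat_lit 504) (nat_lit 0) (XT.lf (nat_lit 0) (nat_lit 5947099976) (nat_lit 672) (nat_lit 1933110377) (nat_lit 84) (nat_lit 27223287913) (nat_lit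 79) (nat_lit 5) (nat_lit 87) (nat_lit 5) (nat_lit 80) (nat_lit 5) (nat_lit 367) (nat_lit 344) (nat_lit 150)) (XT.nd (nat_lit 94) (nat_lit 0) (nat_lit 0) (XT.lf (nat_lit 0) (nat_lit 7985266992) (nat_lit 588) (nat_lit 25004256433) (nat_lit 84) (nat_lit 2781982984) (nat_lit 73) (nat_lit 5) (nat_lit 80) (nat_lit 5) (nat_lit 74) (nat_lit 5) (nat_lit 368) (nat_lit 344) (nat_lit 149)) (XT.lf (nat_lit 0) (nat_lit 10185592024) (nat_lit 588) (nat_lit 12639992057) (nat_lit 84) (nat_lit 13631580682) (nat_lit 73) (nat_lit 5) (nat_lit 80) (nat_lit 5) (nat_lit 74) (nat_lit 5) (nat_lit 369) (nat_lit 344) (nat_lit 148))))) (XT.nd (nat_lit 282) (nat_lit 420) (nat_lit 0) (XT.nd (nat_lit 94) (nat_lit 0) (nat_lit 0) (XT.lf (nat_lit 0) (nat_lit 107900644) (nat_lit 504) (nat_lit 12345351916) (nat_lit 588) (nat_lit 24710862951) (nat_lit 67) (nat_lit 5) (nat_lit 73) (nat_lit 5) (nat_lit 74) (nat_lit 5) (nat_lit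 370) (nat_lit 344) (nat_lit 147)) (XT.nd (nat_lit 94) (nat_lit 0) (nat_lit 0) (XT.lf (nat_lit 0) (nat_lit 13517119988) (nat_lit 504) (nat_lit 1404121652) (nat_lit 588) (nat_lit 22967718705) (nat_lit 67) (nat_lit 5) (nat_lit 73) (nat_lit 5) (nat_lit 74) (nat_lit 5) (nat_lit 371) (nat_lit 344) (nat_lit 146)) (XT.lf (nat_lit 0) (nat_lit 17561865929) (nat_lit 588) (nat_lit 11394056120) (nat_lit 84) (nat_lit 9677382653) (nat_lit 67) (nat_lit 5) (nat_lit 74) (nat_lit 5) (nat_lit 68) (nat_lit 5) (nat_lit 372) (nat_lit 344) (nat_lit 145)))) (XT.nd (nat_lit 94) (nat_lit 0) (nat_lit 0) (XT.lf (nat_lit 0) (nat_lit 2010406972) (nat_lit 420) (nat_lit 18306456024) (nat_lit 504) (nat_lit 19082861832) (nat_lit 62) (nat_lit 5) (nat_lit 67) (nat_lit 5) (nat_lit 68) (nat_lit 5) (nat_lit 373) (nat_lit 344) (nat_lit 144)) (XT.nd (nat_lit 94) (nat_lit 0) (nat_lit 0) (XT.lf (nat_lit 0) (nat_lit 16070197597)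 (nat_lit 420) (nat_lit 7204243431) (nat_lit 504) (nat_lit 16911839228) (nat_lit 62) (nat_lit 5) (nat_lit 67) (nat_lit 5) (nat_lit 68) (nat_lit 5) (nat_lit 374) (nat_lit 344) (nat_lit 143)) (XT.lf (nat_lit 0) (nat_lit 26364084706) (nat_lit 504) (nat_lit 10475226832) (nat_lit 84) (nat_lit 4156664037) (nat_lit 62) (nat_lit 5) (nat_lit 68) (nat_lit 5) (nat_lit 63) (nat_lit 5) (nat_lit 375) (nat_lit 344) (nat_lit 142))))))) (XT.nd (nat_lit 1128) (nat_lit 1260) (nat_lit 0) (XT.nd (nat_lit 564) (nat_lit 756) (nat_lit 0) (XT.nd (nat_lit 282) (nat_lit 420) (nat_lit 0) (XT.nd (nat_lit 94) (nat_lit 0) (nat_lit 0) (XT.lf (nat_lit 0) (nat_lit 3585335587) (nat_lit 420) (nat_lit 26071770549) (nat_lit 504) (nat_lit 12170337972) (nat_lit 57) (nat_lit 5) (nat_lit 62) (nat_lit 5) (nat_lit 63) (nat_lit 5) (nat_lit 376) (nat_lit 344) (nat_lit 141)) (XT.nd (nat_lit 94) (nat_lit 0) (nat_lit 0) (XT.lf (nat_lit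 0) (nat_lit 18302148104) (nat_lit 420) (nat_lit 14857785174) (nat_lit 504) (nat_lit 9521423477) (nat_lit 57) (nat_lit 5) (nat_lit 62) (nat_lit 5) (nat_lit 63) (nat_lit 5) (nat_lit 377) (nat_lit 344) (nat_lit 140)) (XT.lf (nat_lit 0) (nat_lit 33473536180) (nat_lit 420) (nat_lit 3296242689) (nat_lit 504) (nat_lit 6792018202) (nat_lit 57) (nat_lit 5) (nat_lit 62) (nat_lit 5) (nat_lit 63) (nat_lit 5) (nat_lit 378) (nat_lit 344) (nat_lit 139)))) (XT.nd (nat_lit 94) (nat_lit 84) (nat_lit 0) (XT.lf (nat_lit 0) (nat_lit 4652240176) (nat_lit 336) (nat_lit 35969465797) (nat_lit 420) (nat_lit 3843797099) (nat_lit 53) (nat_lit 5) (nat_lit 57) (nat_lit 5) (nat_lit 58) (nat_lit 5) (nat_lit 379) (nat_lit 344) (nat_lit 138)) (XT.nd (nat_lit 94) (nat_lit 84) (nat_lit 0) (XT.lf (nat_lit 0) (nat_lit 20027523205) (nat_lit 336) (nat_lit 24702698701) (nat_lit 420) (nat_lit 662756778) (nat_lit 53) (nat_lit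 5) (nat_lit 57) (nat_lit 5) (nat_lit 58) (nat_lit 5) (nat_lit 380) (nat_lit 344) (nat_lit 137)) (XT.lf (nat_lit 0) (nat_lit 2562701180) (nat_lit 420) (nat_lit 10497347310) (nat_lit 84) (nat_lit 33288405206) (nat_lit 52) (nat_lit 5) (nat_lit 57) (nat_lit 5) (nat_lit 53) (nat_lit 5) (nat_lit 381) (nat_lit 344) (nat_lit 136))))) (XT.nd (nat_lit 282) (nat_lit 336) (nat_lit 0) (XT.nd (nat_lit 94) (nat_lit 0) (nat_lit 0) (XT.lf (nat_lit 0) (nat_lit 4922498547) (nat_lit 420) (nat_lit 999288773) (nat_lit 504) (nat_lit 41410088034) (nat_lit 47) (nat_lit 5) (nat_lit 52) (nat_lit 5) (nat_lit 53) (nat_lit 5) (nat_lit 382) (nat_lit 344) (nat_lit 135)) (XT.nd (nat_lit 94) (nat_lit 0) (nat_lit 0) (XT.lf (nat_lit 0) (nat_lit 9607736755) (nat_lit 504) (nat_lit 27415654194) (nat_lit 84) (nat_lit 11315493893) (nat_lit 47) (nat_lit 5) (nat_lit 53) (nat_lit 5) (nat_lit 48) (nat_lit 5) (nat_lit 383) (nat_lit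 344) (nat_lit 134)) (XT.lf (nat_lit 0) (nat_lit 13416813153) (nat_lit 504) (nat_lit 11968903191) (nat_lit 84) (nat_lit 23991126787) (nat_lit 47) (nat_lit 5) (nat_lit 53) (nat_lit 5) (nat_lit 48) (nat_lit 5) (nat_lit 384) (nat_lit 344) (nat_lit 133)))) (XT.nd (nat_lit 94) (nat_lit 0) (nat_lit 0) (XT.lf (nat_lit 0) (nat_lit 4036514022) (nat_lit 336) (nat_lit 13346182601) (nat_lit 420) (nat_lit 33063087065) (nat_lit 43) (nat_lit 5) (nat_lit 47) (nat_lit 5) (nat_lit 48) (nat_lit 5) (nat_lit 385) (nat_lit 344) (nat_lit 132)) (XT.nd (nat_lit 94) (nat_lit 0) (nat_lit 0) (XT.lf (nat_lit 0) (nat_lit 20790339079) (nat_lit 336) (nat_lit 804821961) (nat_lit 420) (nat_lit 29948873441) (nat_lit 43) (nat_lit 5) (nat_lit 47) (nat_lit 5) (nat_lit 48) (nat_lit 5) (nat_lit 386) (nat_lit 344) (nat_lit 131)) (XT.lf (nat_lit 0) (nat_lit 26057241207) (nat_lit 420) (nat_lit 14734575238) (nat_lit 84) (nat_lit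 11880830395) (nat_lit 43) (nat_lit 5) (nat_lit 48) (nat_lit 5) (nat_lit 44) (nat_lit 5) (nat_lit 387) (nat_lit 344) (nat_lit 130)))))) (XT.nd (nat_lit 564) (nat_lit 672) (nat_lit 0) (XT.nd (nat_lit 282) (nat_lit 252) (nat_lit 0) (XT.nd (nat_lit 94) (nat_lit 0) (nat_lit 0) (XT.lf (nat_lit 0) (nat_lit 1807883694) (nat_lit 336) (nat_lit 28874710440) (nat_lit 420) (nat_lit 23152884176) (nat_lit 39) (nat_lit 5) (nat_lit 43) (nat_lit 5) (nat_lit 44) (nat_lit 5) (nat_lit 388) (nat_lit 344) (nat_lit 129)) (XT.nd (nat_lit 94) (nat_lit 0) (nat_lit 0) (XT.lf (nat_lit 0) (nat_lit 19174091411) (nat_lit 336) (nat_lit 16429845149) (nat_lit 420) (nat_lit 19425695649) (nat_lit 39) (nat_lit 5) (nat_lit 43) (nat_lit 5) (nat_lit 44) (nat_lit 5) (nat_lit 389) (nat_lit 344) (nat_lit 128)) (XT.lf (nat_lit 0) (nat_lit 37077261949) (nat_lit 336) (nat_lit 3599419397) (nat_lit 420) (nat_lit 15584164668) (nat_lit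 39) (nat_lit 5) (nat_lit 43) (nat_lit 5) (nat_lit 44) (nat_lit 5) (nat_lit 390) (nat_lit 344) (nat_lit 127)))) (XT.nd (nat_lit 94) (nat_lit 252) (nat_lit 0) (XT.lf (nat_lit 0) (nat_lit 46001072996) (nat_lit 420) (nat_lit 2091700581) (nat_lit 84) (nat_lit 9434532770) (nat_lit 39) (nat_lit 5) (nat_lit 44) (nat_lit 5) (nat_lit 40) (nat_lit 5) (nat_lit 391) (nat_lit 344) (nat_lit 126)) (XT.nd (nat_lit 94) (nat_lit 0) (nat_lit 0) (XT.lf (nat_lit 0) (nat_lit 15810418538) (nat_lit 252) (nat_lit 35872664411) (nat_lit 336) (nat_lit 7143979464) (nat_lit 36) (nat_lit 5) (nat_lit 39) (nat_lit 5) (nat_lit 40) (nat_lit 5) (nat_lit 392) (nat_lit 344) (nat_lit 125)) (XT.lf (nat_lit 0) (nat_lit 34310516051) (nat_lit 252) (nat_lit 23251479147) (nat_lit 336) (nat_lit 2604476906) (nat_lit 36) (nat_lit 5) (nat_lit 39) (nat_lit 5) (nat_lit 40) (nat_lit 5) (nat_lit 393) (nat_lit 344) (nat_lit 124))))) (XT.nd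 (nat_lit 282) (nat_lit 252) (nat_lit 0) (XT.nd (nat_lit 94) (nat_lit 336) (nat_lit 0) (XT.lf (nat_lit 0) (nat_lit 2032872521) (nat_lit 336) (nat_lit 8185195041) (nat_lit 84) (nat_lit 51328734791) (nat_lit 35) (nat_lit 5) (nat_lit 39) (nat_lit 5) (nat_lit 36) (nat_lit 5) (nat_lit 394) (nat_lit 344) (nat_lit 123)) (XT.nd (nat_lit 94) (nat_lit 0) (nat_lit 0) (XT.lf (nat_lit 0) (nat_lit 6893393199) (nat_lit 420) (nat_lit 52788058060) (nat_lit 84) (nat_lit 3283511190) (nat_lit 31) (nat_lit 5) (nat_lit 36) (nat_lit 5) (nat_lit 32) (nat_lit 5) (nat_lit 395) (nat_lit 344) (nat_lit 122)) (XT.lf (nat_lit 0) (nat_lit 12094398759) (nat_lit 420) (nat_lit 35249363595) (nat_lit 84) (nat_lit 17077443283) (nat_lit 31) (nat_lit 5) (nat_lit 36) (nat_lit 5) (nat_lit 32) (nat_lit 5) (nat_lit 396) (nat_lit 344) (nat_lit 121)))) (XT.nd (nat_lit 188) (nat_lit 0) (nat_lit 0) (XT.nd (nat_lit 94) (nat_lit 252)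 (nat_lit 0) (XT.lf (nat_lit 0) (nat_lit 17455657297) (nat_lit 420) (nat_lit 17168227359) (nat_lit 84) (nat_lit 31298742105) (nat_lit 31) (nat_lit 5) (nat_lit 36) (nat_lit 5) (nat_lit 32) (nat_lit 5) (nat_lit 397) (nat_lit 344) (nat_lit 120)) (XT.lf (nat_lit 0) (nat_lit 1502475697) (nat_lit 252) (nat_lit 21494595115) (nat_lit 336) (nat_lit 44473092443) (nat_lit 28) (nat_lit 5) (nat_lit 31) (nat_lit 5) (nat_lit 32) (nat_lit 5) (nat_lit 398) (nat_lit 344) (nat_lit 119))) (XT.nd (nat_lit 94) (nat_lit 0) (nat_lit 0) (XT.lf (nat_lit 0) (nat_lit 21114720358) (nat_lit 252) (nat_lit 7773816637) (nat_lit 336) (nat_lit 40171613884) (nat_lit 28) (nat_lit 5) (nat_lit 31) (nat_lit 5) (nat_lit 32) (nat_lit 5) (nat_lit 399) (nat_lit 344) (nat_lit 118)) (XT.lf (nat_lit 0) (nat_lit 35024945843) (nat_lit 336) (nat_lit 29428897956) (nat_lit 84) (nat_lit 6243656514) (nat_lit 28) (nat_lit 5) (nat_lit 32)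 (nat_lit 5) (nat_lit 29) (nat_lit 5) (nat_lit 400) (nat_lit 344) (nat_lit 117))))))))
noncomputable def xc203 : XT := (XT.nd (nat_lit 49820) (nat_lit 0) (nat_lit 2856) (XT.nd (nat_lit 1128) (nat_lit 0) (nat_lit 0) (XT.nd (nat_lit 564) (nat_lit 336) (nat_lit 0) (XT.nd (nat_lit 282) (nat_lit 168) (nat_lit 0) (XT.nd (nat_lit 94) (nat_lit 252) (nat_lit 0) (XT.lf (nat_lit 0) (nat_lit 41430211635) (nat_lit 336) (nat_lit 10419025023) (nat_lit 84) (nat_lit 20533937049) (nat_lit 28) (nat_lit 5) (nat_lit 32) (nat_lit 5) (nat_lit 29) (nat_lit 5) (nat_lit 401) (nat_lit 344) (nat_lit 116)) (XT.nd (nat_lit 94) (nat_lit 0) (nat_lit 0) (XT.lf (nat_lit 0) (nat_lit 9367764268) (nat_lit 252) (nat_lit 38758352642) (nat_lit 336) (nat_lit 25992135199) (nat_lit 25) (nat_lit 5) (nat_lit 28) (nat_lit 5) (nat_lit 29) (nat_lit 5) (nat_lit 402) (nat_lit 344) (nat_lit 115)) (XT.lf (nat_lit 0) (nat_lit 29987704040)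 (nat_lit 252) (nat_lit 25149805885) (nat_lit 336) (nat_lit 20766266053) (nat_lit 25) (nat_lit 5) (nat_lit 28) (nat_lit 5) (nat_lit 29) (nat_lit 5) (nat_lit 403) (nat_lit 344) (nat_lit 114)))) (XT.nd (nat_lit 94) (nat_lit 168) (nat_lit 0) (XT.lf (nat_lit 0) (nat_lit 51245777714) (nat_lit 252) (nat_lit 11119665050) (nat_lit 336) (nat_lit 15379236828) (nat_lit 25) (nat_lit 5) (nat_lit 28) (nat_lit 5) (nat_lit 29) (nat_lit 5) (nat_lit 404) (nat_lit 344) (nat_lit 113)) (XT.nd (nat_lit 94) (nat_lit 168) (nat_lit 0) (XT.lf (nat_lit 0) (nat_lit 69849836891) (nat_lit 336) (nat_lit 6514063101) (nat_lit 84) (nat_lit 3277750158) (nat_lit 25) (nat_lit 5) (nat_lit 29) (nat_lit 5) (nat_lit 26) (nat_lit 5) (nat_lit 405) (nat_lit 344) (nat_lit 112)) (XT.lf (nat_lit 0) (nat_lit 14262898991) (nat_lit 168) (nat_lit 63557798272) (nat_lit 252) (nat_lit 3768844677) (nat_lit 23) (nat_lit 5) (nat_lit 25) (nat_lit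 5) (nat_lit 26) (nat_lit 5) (nat_lit 406) (nat_lit 344) (nat_lit 111))))) (XT.nd (nat_lit 282) (nat_lit 252) (nat_lit 0) (XT.nd (nat_lit 94) (nat_lit 0) (nat_lit 0) (XT.lf (nat_lit 0) (nat_lit 2459581853) (nat_lit 252) (nat_lit 47799630141) (nat_lit 84) (nat_lit 33335753055) (nat_lit 22) (nat_lit 5) (nat_lit 25) (nat_lit 5) (nat_lit 23) (nat_lit 5) (nat_lit 407) (nat_lit 344) (nat_lit 110)) (XT.nd (nat_lit 94) (nat_lit 0) (nat_lit 0) (XT.lf (nat_lit 0) (nat_lit 8802059310) (nat_lit 252) (nat_lit 27706847086) (nat_lit 84) (nat_lit 49152480782) (nat_lit 22) (nat_lit 5) (nat_lit 25) (nat_lit 5) (nat_lit 23) (nat_lit 5) (nat_lit 408) (nat_lit 344) (nat_lit 109)) (XT.lf (nat_lit 0) (nat_lit 15340433367) (nat_lit 252) (nat_lit 6992177801) (nat_lit 84) (nat_lit 65459282289) (nat_lit 22) (nat_lit 5) (nat_lit 25) (nat_lit 5) (nat_lit 23) (nat_lit 5) (nat_lit 409) (nat_lit 344) (nat_lit 108))))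 (XT.nd (nat_lit 94) (nat_lit 0) (nat_lit 0) (XT.lf (nat_lit 0) (nat_lit 14659032798) (nat_lit 252) (nat_lit 7567185096) (nat_lit 336) (nat_lit 67757743846) (nat_lit 19) (nat_lit 5) (nat_lit 22) (nat_lit 5) (nat_lit 23) (nat_lit 5) (nat_lit 410) (nat_lit 344) (nat_lit 107)) (XT.nd (nat_lit 94) (nat_lit 0) (nat_lit 0) (XT.lf (nat_lit 0) (nat_lit 29474450768) (nat_lit 336) (nat_lit 55189726644) (nat_lit 84) (nat_lit 7575190645) (nat_lit 19) (nat_lit 5) (nat_lit 23) (nat_lit 5) (nat_lit 20) (nat_lit 5) (nat_lit 411) (nat_lit 344) (nat_lit 106)) (XT.lf (nat_lit 0) (nat_lit 37024104511) (nat_lit 336) (nat_lit 34508670168) (nat_lit 84) (nat_lit 23029541294) (nat_lit 19) (nat_lit 5) (nat_lit 23) (nat_lit 5) (nat_lit 20) (nat_lit 5) (nat_lit 412) (nat_lit 344) (nat_lit 105)))))) (XT.nd (nat_lit 48128) (nat_lit 0) (nat_lit 6300) (XT.nd (nat_lit 47846) (nat_lit 0) (nat_lit 6216) (XT.nd (nat_lit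 47658) (nat_lit 0) (nat_lit 6216) (XT.lf (nat_lit 0) (nat_lit 44807148780) (nat_lit 336) (nat_lit 13187415191) (nat_lit 84) (nat_lit 38962733840) (nat_lit 19) (nat_lit 5) (nat_lit 23) (nat_lit 5) (nat_lit 20) (nat_lit 5) (nat_lit 413) (nat_lit 344) (nat_lit 104)) (XT.nd (nat_lit 94) (nat_lit 0) (nat_lit 0) (XT.lf (nat_lit 0) (nat_lit 6046963215) (nat_lit 1092) (nat_lit 3098574770) (nat_lit 1092) (nat_lit 3098574770) (nat_lit 93) (nat_lit 3) (nat_lit 106) (nat_lit 3) (nat_lit 106) (nat_lit 5) (nat_lit 345) (nat_lit 345) (nat_lit 171)) (XT.lf (nat_lit 84) (nat_lit 2392697083) (nat_lit 0) (nat_lit 10001610607) (nat_lit 1092) (nat_lit 12469490174) (nat_lit 94) (nat_lit 5) (nat_lit 93) (nat_lit 3) (nat_lit 106) (nat_lit 5) (nat_lit 346) (nat_lit 345) (nat_lit 170)))) (XT.nd (nat_lit 94) (nat_lit 0) (nat_lit 84) (XT.lf (nat_lit 84) (nat_lit 11378304329) (nat_lit 0) (nat_lit 1386769173) (nat_lit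 1092) (nat_lit 12484066126) (nat_lit 94) (nat_lit 5) (nat_lit 93) (nat_lit 3) (nat_lit 106) (nat_lit 5) (nat_lit 347) (nat_lit 345) (nat_lit 169)) (XT.nd (nat_lit 94) (nat_lit 0) (nat_lit 0) (XT.lf (nat_lit 0) (nat_lit 13218197996) (nat_lit 1008) (nat_lit 5080302436) (nat_lit 1092) (nat_lit 7345749067) (nat_lit 94) (nat_lit 5) (nat_lit 106) (nat_lit 5) (nat_lit 107) (nat_lit 5) (nat_lit 348) (nat_lit 345) (nat_lit 168)) (XT.lf (nat_lit 84) (nat_lit 4048187081) (nat_lit 0) (nat_lit 9688141341) (nat_lit 1092) (nat_lit 12313718366) (nat_lit 95) (nat_lit 5) (nat_lit 94) (nat_lit 5) (nat_lit 107) (nat_lit 5) (nat_lit 349) (nat_lit 345) (nat_lit 167))))) (XT.nd (nat_lit 282) (nat_lit 0) (nat_lit 84) (XT.nd (nat_lit 94) (nat_lit 0) (nat_lit 84) (XT.lf (nat_lit 84) (nat_lit 13565450614) (nat_lit 0) (nat_lit 754798163) (nat_lit 1092) (nat_lit 12146651633) (nat_lit 95) (nat_lit 5) (nat_lit 94)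 (nat_lit 5) (nat_lit 107) (nat_lit 5) (nat_lit 350) (nat_lit 345) (nat_lit 166)) (XT.nd (nat_lit 94) (nat_lit 0) (nat_lit 0) (XT.lf (nat_lit 0) (nat_lit 15002962617) (nat_lit 1008) (nat_lit 3604788325) (nat_lit 1092) (nat_lit 8286441736) (nat_lit 95) (nat_lit 5) (nat_lit 107) (nat_lit 5) (nat_lit 108) (nat_lit 5) (nat_lit 351) (nat_lit 345) (nat_lit 165)) (XT.lf (nat_lit 84) (nat_lit 6093191916) (nat_lit 0) (nat_lit 9678722094) (nat_lit 1092) (nat_lit 11560816822) (nat_lit 96) (nat_lit 5) (nat_lit 95) (nat_lit 5) (nat_lit 108) (nat_lit 5) (nat_lit 352) (nat_lit 345) (nat_lit 164)))) (XT.nd (nat_lit 94) (nat_lit 0) (nat_lit 84) (XT.lf (nat_lit 84) (nat_lit 16166326461) (nat_lit 0) (nat_lit 432985516) (nat_lit 1092) (nat_lit 11184495403) (nat_lit 96) (nat_lit 5) (nat_lit 95) (nat_lit 5) (nat_lit 108) (nat_lit 5) (nat_lit 353) (nat_lit 345) (nat_lit 163)) (XT.nd (nat_lit 94) (nat_lit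 0) (nat_lit 0) (XT.lf (nat_lit 0) (nat_lit 17539710084) (nat_lit 1008) (nat_lit 1789369030) (nat_lit 1092) (nat_lit 8917096401) (nat_lit 96) (nat_lit 5) (nat_lit 108) (nat_lit 5) (nat_lit 109) (nat_lit 5) (nat_lit 354) (nat_lit 345) (nat_lit 162)) (XT.lf (nat_lit 84) (nat_lit 8508509389) (nat_lit 0) (nat_lit 10086756650) (nat_lit 1092) (nat_lit 10124960459) (nat_lit 97) (nat_lit 5) (nat_lit 96) (nat_lit 5) (nat_lit 109) (nat_lit 5) (nat_lit 355) (nat_lit 345) (nat_lit 161))))))) (XT.nd (nat_lit 1128) (nat_lit 2184) (nat_lit 0) (XT.nd (nat_lit 564) (nat_lit 1428) (nat_lit 0) (XT.nd (nat_lit 282) (nat_lit 0) (nat_lit 84) (XT.nd (nat_lit 94) (nat_lit 0) (nat_lit 84) (XT.lf (nat_lit 84) (nat_lit 19161670984) (nat_lit 0) (nat_lit 537788554) (nat_lit 1092) (nat_lit 9509035288) (nat_lit 97) (nat_lit 5) (nat_lit 96) (nat_lit 5) (nat_lit 109) (nat_lit 5) (nat_lit 356) (nat_lit 345) (nat_lit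 160)) (XT.nd (nat_lit 94) (nat_lit 0) (nat_lit 0) (XT.lf (nat_lit 84) (nat_lit 345887178) (nat_lit 0) (nat_lit 20585085106) (nat_lit 1092) (nat_lit 8778056102) (nat_lit 98) (nat_lit 5) (nat_lit 97) (nat_lit 5) (nat_lit 110) (nat_lit 5) (nat_lit 357) (nat_lit 345) (nat_lit 159)) (XT.lf (nat_lit 84) (nat_lit 11266231557) (nat_lit 0) (nat_lit 11042133988) (nat_lit 1092) (nat_lit 7913388371) (nat_lit 98) (nat_lit 5) (nat_lit 97) (nat_lit 5) (nat_lit 110) (nat_lit 5) (nat_lit 358) (nat_lit 345) (nat_lit 158)))) (XT.nd (nat_lit 94) (nat_lit 0) (nat_lit 84) (XT.lf (nat_lit 84) (nat_lit 22523249522) (nat_lit 0) (nat_lit 1202677689) (nat_lit 1092) (nat_lit 7024538994) (nat_lit 98) (nat_lit 5) (nat_lit 97) (nat_lit 5) (nat_lit 110) (nat_lit 5) (nat_lit 359) (nat_lit 345) (nat_lit 157)) (XT.nd (nat_lit 94) (nat_lit 0) (nat_lit 0) (XT.lf (nat_lit 84) (nat_lit 2799468514) (nat_lit 0) (nat_lit 22501991420)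 (nat_lit 1092) (nat_lit 5990587213) (nat_lit 99) (nat_lit 5) (nat_lit 98) (nat_lit 5) (nat_lit 111) (nat_lit 5) (nat_lit 360) (nat_lit 345) (nat_lit 156)) (XT.lf (nat_lit 84) (nat_lit 14327962116) (nat_lit 0) (nat_lit 12693530127) (nat_lit 1092) (nat_lit 4825972448) (nat_lit 99) (nat_lit 5) (nat_lit 98) (nat_lit 5) (nat_lit 111) (nat_lit 5) (nat_lit 361) (nat_lit 345) (nat_lit 155))))) (XT.nd (nat_lit 282) (nat_lit 672) (nat_lit 0) (XT.nd (nat_lit 94) (nat_lit 924) (nat_lit 0) (XT.lf (nat_lit 84) (nat_lit 26212017470) (nat_lit 0) (nat_lit 2580506816) (nat_lit 1092) (nat_lit 3627660456) (nat_lit 99) (nat_lit 5) (nat_lit 98) (nat_lit 5) (nat_lit 111) (nat_lit 5) (nat_lit 362) (nat_lit 345) (nat_lit 154)) (XT.nd (nat_lit 94) (nat_lit 0) (nat_lit 0) (XT.lf (nat_lit 0) (nat_lit 5484635504) (nat_lit 1008) (nat_lit 25263817909) (nat_lit 1092) (nat_lit 2258188079) (nat_lit 87) (nat_lit 5)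 (nat_lit 99) (nat_lit 5) (nat_lit 100) (nat_lit 5) (nat_lit 363) (nat_lit 345) (nat_lit 153)) (XT.lf (nat_lit 0) (nat_lit 17642755011) (nat_lit 1008) (nat_lit 15210989867) (nat_lit 1092) (nat_lit 754794797) (nat_lit 87) (nat_lit 5) (nat_lit 99) (nat_lit 5) (nat_lit 100) (nat_lit 5) (nat_lit 364) (nat_lit 345) (nat_lit 152)))) (XT.nd (nat_lit 94) (nat_lit 588) (nat_lit 0) (XT.lf (nat_lit 0) (nat_lit 777017783) (nat_lit 1092) (nat_lit 4061044329) (nat_lit 84) (nat_lit 29390868294) (nat_lit 86) (nat_lit 5) (nat_lit 99) (nat_lit 5) (nat_lit 87) (nat_lit 5) (nat_lit 365) (nat_lit 345) (nat_lit 151)) (XT.nd (nat_lit 94) (nat_lit 0) (nat_lit 0) (XT.lf (nat_lit 0) (nat_lit 2480616929) (nat_lit 672) (nat_lit 26552924738) (nat_lit 84) (nat_lit 5830443731) (nat_lit 79) (nat_lit 5) (nat_lit 87) (nat_lit 5) (nat_lit 80) (nat_lit 5) (nat_lit 366) (nat_lit 345) (nat_lit 150)) (XT.lf (nat_lit 0) (nat_lit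 4327281453) (nat_lit 672) (nat_lit 14416374832) (nat_lit 84) (nat_lit 16772283439) (nat_lit 79) (nat_lit 5) (nat_lit 87) (nat_lit 5) (nat_lit 80) (nat_lit 5) (nat_lit 367) (nat_lit 345) (nat_lit 149)))))) (XT.nd (nat_lit 564) (nat_lit 1176) (nat_lit 0) (XT.nd (nat_lit 282) (nat_lit 504) (nat_lit 0) (XT.nd (nat_lit 94) (nat_lit 504) (nat_lit 0) (XT.lf (nat_lit 0) (nat_lit 6229203532) (nat_lit 672) (nat_lit 1905375749) (nat_lit 84) (nat_lit 28053597191) (nat_lit 79) (nat_lit 5) (nat_lit 87) (nat_lit 5) (nat_lit 80) (nat_lit 5) (nat_lit 368) (nat_lit 345) (nat_lit 148)) (XT.nd (nat_lit 94) (nat_lit 0) (nat_lit 0) (XT.lf (nat_lit 0) (nat_lit 8328387382) (nat_lit 588) (nat_lit 25689075837) (nat_lit 84) (nat_lit 2859511845) (nat_lit 73) (nat_lit 5) (nat_lit 80) (nat_lit 5) (nat_lit 74) (nat_lit 5) (nat_lit 369) (nat_lit 345) (nat_lit 147)) (XT.lf (nat_lit 0) (nat_lit 10594048688) (nat_lit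 588) (nat_lit 12944234773) (nat_lit 84) (nat_lit 14045709042) (nat_lit 73) (nat_lit 5) (nat_lit 80) (nat_lit 5) (nat_lit 74) (nat_lit 5) (nat_lit 370) (nat_lit 345) (nat_lit 146)))) (XT.nd (nat_lit 94) (nat_lit 0) (nat_lit 0) (XT.lf (nat_lit 0) (nat_lit 197955761) (nat_lit 504) (nat_lit 12732123722) (nat_lit 588) (nat_lit 25382853133) (nat_lit 67) (nat_lit 5) (nat_lit 73) (nat_lit 5) (nat_lit 74) (nat_lit 5) (nat_lit 371) (nat_lit 345) (nat_lit 145)) (XT.nd (nat_lit 94) (nat_lit 0) (nat_lit 0) (XT.lf (nat_lit 0) (nat_lit 14020253711) (nat_lit 504) (nat_lit 1451593067) (nat_lit 588) (nat_lit 23588499198) (nat_lit 67) (nat_lit 5) (nat_lit 73) (nat_lit 5) (nat_lit 74) (nat_lit 5) (nat_lit 372) (nat_lit 345) (nat_lit 144)) (XT.lf (nat_lit 0) (nat_lit 18191645097) (nat_lit 588) (nat_lit 11662582952) (nat_lit 84) (nat_lit 9973633515) (nat_lit 67) (nat_lit 5) (nat_lit 74) (nat_lit 5) (nat_lit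 68) (nat_lit 5) (nat_lit 373) (nat_lit 345) (nat_lit 143))))) (XT.nd (nat_lit 282) (nat_lit 756) (nat_lit 0) (XT.nd (nat_lit 94) (nat_lit 0) (nat_lit 0) (XT.lf (nat_lit 0) (nat_lit 2156561097) (nat_lit 420) (nat_lit 18873750960) (nat_lit 504) (nat_lit 19587795353) (nat_lit 62) (nat_lit 5) (nat_lit 67) (nat_lit 5) (nat_lit 68) (nat_lit 5) (nat_lit 374) (nat_lit 345) (nat_lit 142)) (XT.nd (nat_lit 94) (nat_lit 0) (nat_lit 0) (XT.lf (nat_lit 0) (nat_lit 16649684595) (nat_lit 420) (nat_lit 7427375947) (nat_lit 504) (nat_lit 17352075986) (nat_lit 62) (nat_lit 5) (nat_lit 67) (nat_lit 5) (nat_lit 68) (nat_lit 5) (nat_lit 375) (nat_lit 345) (nat_lit 141)) (XT.lf (nat_lit 0) (nat_lit 27260046226) (nat_lit 504) (nat_lit 10718264088) (nat_lit 84) (nat_lit 4285709779) (nat_lit 62) (nat_lit 5) (nat_lit 68) (nat_lit 5) (nat_lit 63) (nat_lit 5) (nat_lit 376) (nat_lit 345) (nat_lit 140)))) (XT.nd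 (nat_lit 188) (nat_lit 336) (nat_lit 0) (XT.nd (nat_lit 94) (nat_lit 0) (nat_lit 0) (XT.lf (nat_lit 0) (nat_lit 3777348680) (nat_lit 420) (nat_lit 26876239269) (nat_lit 504) (nat_lit 12467736446) (nat_lit 57) (nat_lit 5) (nat_lit 62) (nat_lit 5) (nat_lit 63) (nat_lit 5) (nat_lit 377) (nat_lit 345) (nat_lit 139)) (XT.lf (nat_lit 0) (nat_lit 18947950863) (nat_lit 420) (nat_lit 15314733287) (nat_lit 504) (nat_lit 9739107485) (nat_lit 57) (nat_lit 5) (nat_lit 62) (nat_lit 5) (nat_lit 63) (nat_lit 5) (nat_lit 378) (nat_lit 345) (nat_lit 138))) (XT.nd (nat_lit 94) (nat_lit 336) (nat_lit 0) (XT.lf (nat_lit 0) (nat_lit 34587293560) (nat_lit 420) (nat_lit 3394892529) (nat_lit 504) (nat_lit 6927420312) (nat_lit 57) (nat_lit 5) (nat_lit 62) (nat_lit 5) (nat_lit 63) (nat_lit 5) (nat_lit 379) (nat_lit 345) (nat_lit 137)) (XT.lf (nat_lit 0) (nat_lit 4874312454) (nat_lit 336) (nat_lit 37077835543)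 (nat_lit 420) (nat_lit 3889232664) (nat_lit 53) (nat_lit 5) (nat_lit 57) (nat_lit 5) (nat_lit 58) (nat_lit 5) (nat_lit 380) (nat_lit 345) (nat_lit 136))))))))
noncomputable def xc204 : XT := (XT.nd (nat_lit 2256) (nat_lit 504) (nat_lit 0) (XT.nd (nat_lit 1128) (nat_lit 1176) (nat_lit 0) (XT.nd (nat_lit 564) (nat_lit 336) (nat_lit 0) (XT.nd (nat_lit 282) (nat_lit 336) (nat_lit 0) (XT.nd (nat_lit 94) (nat_lit 504) (nat_lit 0) (XT.lf (nat_lit 0) (nat_lit 20723888386) (nat_lit 336) (nat_lit 25461999631) (nat_lit 420) (nat_lit 611796763) (nat_lit 53) (nat_lit 5) (nat_lit 57) (nat_lit 5) (nat_lit 58) (nat_lit 5) (nat_lit 381) (nat_lit 345) (nat_lit 135)) (XT.nd (nat_lit 94) (nat_lit 420) (nat_lit 0) (XT.lf (nat_lit 0) (nat_lit 2710103015) (nat_lit 420) (nat_lit 10747809828) (nat_lit 84) (nat_lit 34324919801) (nat_lit 52) (nat_lit 5) (nat_lit 57) (nat_lit 5) (nat_lit 53) (nat_lit 5) (nat_lit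 382) (nat_lit 345) (nat_lit 134)) (XT.lf (nat_lit 0) (nat_lit 5149292396) (nat_lit 420) (nat_lit 1022721110) (nat_lit 504) (nat_lit 42624776909) (nat_lit 47) (nat_lit 5) (nat_lit 52) (nat_lit 5) (nat_lit 53) (nat_lit 5) (nat_lit 383) (nat_lit 345) (nat_lit 133)))) (XT.nd (nat_lit 94) (nat_lit 336) (nat_lit 0) (XT.lf (nat_lit 0) (nat_lit 9970295928) (nat_lit 504) (nat_lit 28191344890) (nat_lit 84) (nat_lit 11673445482) (nat_lit 47) (nat_lit 5) (nat_lit 53) (nat_lit 5) (nat_lit 48) (nat_lit 5) (nat_lit 384) (nat_lit 345) (nat_lit 132)) (XT.nd (nat_lit 94) (nat_lit 336) (nat_lit 0) (XT.lf (nat_lit 0) (nat_lit 13895507720) (nat_lit 504) (nat_lit 12267975480) (nat_lit 84) (nat_lit 24741807371) (nat_lit 47) (nat_lit 5) (nat_lit 53) (nat_lit 5) (nat_lit 48) (nat_lit 5) (nat_lit 385) (nat_lit 345) (nat_lit 131)) (XT.lf (nat_lit 0) (nat_lit 4232881098) (nat_lit 336) (nat_lit 13750271678) (nat_lit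 420) (nat_lit 34024260796) (nat_lit 43) (nat_lit 5) (nat_lit 47) (nat_lit 5) (nat_lit 48) (nat_lit 5) (nat_lit 386) (nat_lit 345) (nat_lit 130))))) (XT.nd (nat_lit 282) (nat_lit 0) (nat_lit 0) (XT.nd (nat_lit 94) (nat_lit 336) (nat_lit 0) (XT.lf (nat_lit 0) (nat_lit 21503932842) (nat_lit 336) (nat_lit 820418790) (nat_lit 420) (nat_lit 30815424339) (nat_lit 43) (nat_lit 5) (nat_lit 47) (nat_lit 5) (nat_lit 48) (nat_lit 5) (nat_lit 387) (nat_lit 345) (nat_lit 129)) (XT.nd (nat_lit 94) (nat_lit 336) (nat_lit 0) (XT.lf (nat_lit 0) (nat_lit 26923049999) (nat_lit 420) (nat_lit 15122361569) (nat_lit 84) (nat_lit 12258024805) (nat_lit 43) (nat_lit 5) (nat_lit 48) (nat_lit 5) (nat_lit 44) (nat_lit 5) (nat_lit 388) (nat_lit 345) (nat_lit 128)) (XT.lf (nat_lit 0) (nat_lit 1932215173) (nat_lit 336) (nat_lit 29758506141) (nat_lit 420) (nat_lit 23811635322) (nat_lit 39) (nat_lit 5) (nat_lit 43)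 (nat_lit 5) (nat_lit 44) (nat_lit 5) (nat_lit 389) (nat_lit 345) (nat_lit 127)))) (XT.nd (nat_lit 94) (nat_lit 0) (nat_lit 0) (XT.lf (nat_lit 0) (nat_lit 19834722080) (nat_lit 336) (nat_lit 16928190403) (nat_lit 420) (nat_lit 19970677603) (nat_lit 39) (nat_lit 5) (nat_lit 43) (nat_lit 5) (nat_lit 44) (nat_lit 5) (nat_lit 390) (nat_lit 345) (nat_lit 126)) (XT.nd (nat_lit 94) (nat_lit 0) (nat_lit 0) (XT.lf (nat_lit 0) (nat_lit 38290899393) (nat_lit 336) (nat_lit 3700351597) (nat_lit 420) (nat_lit 16011779485) (nat_lit 39) (nat_lit 5) (nat_lit 43) (nat_lit 5) (nat_lit 44) (nat_lit 5) (nat_lit 391) (nat_lit 345) (nat_lit 125)) (XT.lf (nat_lit 0) (nat_lit 47479189838) (nat_lit 420) (nat_lit 2092490494) (nat_lit 84) (nat_lit 9737124752) (nat_lit 39) (nat_lit 5) (nat_lit 44) (nat_lit 5) (nat_lit 40) (nat_lit 5) (nat_lit 392) (nat_lit 345) (nat_lit 124)))))) (XT.nd (nat_lit 564) (nat_lit 504)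 (nat_lit 0) (XT.nd (nat_lit 282) (nat_lit 336) (nat_lit 0) (XT.nd (nat_lit 94) (nat_lit 84) (nat_lit 0) (XT.lf (nat_lit 0) (nat_lit 16363945841) (nat_lit 252) (nat_lit 36972459194) (nat_lit 336) (nat_lit 7312484613) (nat_lit 36) (nat_lit 5) (nat_lit 39) (nat_lit 5) (nat_lit 40) (nat_lit 5) (nat_lit 393) (nat_lit 345) (nat_lit 123)) (XT.nd (nat_lit 94) (nat_lit 84) (nat_lit 0) (XT.lf (nat_lit 0) (nat_lit 35435639942) (nat_lit 252) (nat_lit 23960385753) (nat_lit 336) (nat_lit 2633849818) (nat_lit 36) (nat_lit 5) (nat_lit 39) (nat_lit 5) (nat_lit 40) (nat_lit 5) (nat_lit 394) (nat_lit 345) (nat_lit 122)) (XT.lf (nat_lit 0) (nat_lit 2144709187) (nat_lit 336) (nat_lit 8378077150) (nat_lit 84) (nat_lit 52930247177) (nat_lit 35) (nat_lit 5) (nat_lit 39) (nat_lit 5) (nat_lit 36) (nat_lit 5) (nat_lit 395) (nat_lit 345) (nat_lit 121)))) (XT.nd (nat_lit 94) (nat_lit 0) (nat_lit 0) (XT.lf (nat_lit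 0) (nat_lit 7155157751) (nat_lit 420) (nat_lit 54362680508) (nat_lit 84) (nat_lit 3397347715) (nat_lit 31) (nat_lit 5) (nat_lit 36) (nat_lit 5) (nat_lit 32) (nat_lit 5) (nat_lit 396) (nat_lit 345) (nat_lit 120)) (XT.nd (nat_lit 94) (nat_lit 0) (nat_lit 0) (XT.lf (nat_lit 0) (nat_lit 12515949139) (nat_lit 420) (nat_lit 36282144931) (nat_lit 84) (nat_lit 17618529455) (nat_lit 31) (nat_lit 5) (nat_lit 36) (nat_lit 5) (nat_lit 32) (nat_lit 5) (nat_lit 397) (nat_lit 345) (nat_lit 119)) (XT.lf (nat_lit 0) (nat_lit 18042004806) (nat_lit 420) (nat_lit 17642296010) (nat_lit 84) (nat_lit 32280337184) (nat_lit 31) (nat_lit 5) (nat_lit 36) (nat_lit 5) (nat_lit 32) (nat_lit 5) (nat_lit 398) (nat_lit 345) (nat_lit 118))))) (XT.nd (nat_lit 282) (nat_lit 252) (nat_lit 0) (XT.nd (nat_lit 94) (nat_lit 0) (nat_lit 0) (XT.lf (nat_lit 0) (nat_lit 1606610160) (nat_lit 252) (nat_lit 22147803225) (nat_lit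 336) (nat_lit 45805764854) (nat_lit 28) (nat_lit 5) (nat_lit 31) (nat_lit 5) (nat_lit 32) (nat_lit 5) (nat_lit 399) (nat_lit 345) (nat_lit 117)) (XT.nd (nat_lit 94) (nat_lit 0) (nat_lit 0) (XT.lf (nat_lit 0) (nat_lit 21825103767) (nat_lit 252) (nat_lit 8002075235) (nat_lit 336) (nat_lit 41372323386) (nat_lit 28) (nat_lit 5) (nat_lit 31) (nat_lit 5) (nat_lit 32) (nat_lit 5) (nat_lit 400) (nat_lit 345) (nat_lit 116)) (XT.lf (nat_lit 0) (nat_lit 36152643160) (nat_lit 336) (nat_lit 30285700131) (nat_lit 84) (nat_lit 6449308064) (nat_lit 28) (nat_lit 5) (nat_lit 32) (nat_lit 5) (nat_lit 29) (nat_lit 5) (nat_lit 401) (nat_lit 345) (nat_lit 115)))) (XT.nd (nat_lit 94) (nat_lit 252) (nat_lit 0) (XT.lf (nat_lit 0) (nat_lit 42755211626) (nat_lit 336) (nat_lit 10688189714) (nat_lit 84) (nat_lit 21182223528) (nat_lit 28) (nat_lit 5) (nat_lit 32) (nat_lit 5) (nat_lit 29) (nat_lit 5) (nat_lit 402)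 (nat_lit 345) (nat_lit 114)) (XT.nd (nat_lit 94) (nat_lit 0) (nat_lit 0) (XT.lf (nat_lit 0) (nat_lit 9711445115) (nat_lit 252) (nat_lit 39946550731) (nat_lit 336) (nat_lit 26756521383) (nat_lit 25) (nat_lit 5) (nat_lit 28) (nat_lit 5) (nat_lit 29) (nat_lit 5) (nat_lit 403) (nat_lit 345) (nat_lit 113)) (XT.lf (nat_lit 0) (nat_lit 30969000998) (nat_lit 252) (nat_lit 25916539254) (nat_lit 336) (nat_lit 21369894203) (nat_lit 25) (nat_lit 5) (nat_lit 28) (nat_lit 5) (nat_lit 29) (nat_lit 5) (nat_lit 404) (nat_lit 345) (nat_lit 112))))))) (XT.nd (nat_lit 48786) (nat_lit 0) (nat_lit 6300) (XT.nd (nat_lit 564) (nat_lit 252) (nat_lit 0) (XT.nd (nat_lit 282) (nat_lit 84) (nat_lit 0) (XT.nd (nat_lit 94) (nat_lit 168) (nat_lit 0) (XT.lf (nat_lit 0) (nat_lit 52884521102) (nat_lit 252) (nat_lit 11451852248) (nat_lit 336) (nat_lit 15817073579) (nat_lit 25) (nat_lit 5) (nat_lit 28) (nat_lit 5) (nat_lit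 29) (nat_lit 5) (nat_lit 405) (nat_lit 345) (nat_lit 111)) (XT.nd (nat_lit 94) (nat_lit 168) (nat_lit 0) (XT.lf (nat_lit 0) (nat_lit 72051773576) (nat_lit 336) (nat_lit 6666224290) (nat_lit 84) (nat_lit 3391261596) (nat_lit 25) (nat_lit 5) (nat_lit 29) (nat_lit 5) (nat_lit 26) (nat_lit 5) (nat_lit 406) (nat_lit 345) (nat_lit 110)) (XT.lf (nat_lit 0) (nat_lit 14754319703) (nat_lit 168) (nat_lit 65514799453) (nat_lit 252) (nat_lit 3848440132) (nat_lit 23) (nat_lit 5) (nat_lit 25) (nat_lit 5) (nat_lit 26) (nat_lit 5) (nat_lit 407) (nat_lit 345) (nat_lit 109)))) (XT.nd (nat_lit 94) (nat_lit 0) (nat_lit 0) (XT.lf (nat_lit 0) (nat_lit 2571220212) (nat_lit 252) (nat_lit 49232766994) (nat_lit 84) (nat_lit 34381190037) (nat_lit 22) (nat_lit 5) (nat_lit 25) (nat_lit 5) (nat_lit 23) (nat_lit 5) (nat_lit 408) (nat_lit 345) (nat_lit 108)) (XT.nd (nat_lit 94) (nat_lit 0) (nat_lit 0) (XT.lf (nat_lit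 0) (nat_lit 9109250328) (nat_lit 252) (nat_lit 28518570518) (nat_lit 84) (nat_lit 50687874647) (nat_lit 22) (nat_lit 5) (nat_lit 25) (nat_lit 5) (nat_lit 23) (nat_lit 5) (nat_lit 409) (nat_lit 345) (nat_lit 107)) (XT.lf (nat_lit 0) (nat_lit 15849281834) (nat_lit 252) (nat_lit 7163165354) (nat_lit 84) (nat_lit 67499836200) (nat_lit 22) (nat_lit 5) (nat_lit 25) (nat_lit 5) (nat_lit 23) (nat_lit 5) (nat_lit 410) (nat_lit 345) (nat_lit 106))))) (XT.nd (nat_lit 47940) (nat_lit 0) (nat_lit 6216) (XT.nd (nat_lit 94) (nat_lit 0) (nat_lit 0) (XT.lf (nat_lit 0) (nat_lit 15158769393) (nat_lit 252) (nat_lit 7789204623) (nat_lit 336) (nat_lit 69824352681) (nat_lit 19) (nat_lit 5) (nat_lit 22) (nat_lit 5) (nat_lit 23) (nat_lit 5) (nat_lit 411) (nat_lit 345) (nat_lit 105)) (XT.nd (nat_lit 94) (nat_lit 0) (nat_lit 0) (XT.lf (nat_lit 0) (nat_lit 30420038467) (nat_lit 336) (nat_lit 56855681103) (nat_lit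 84) (nat_lit 7821961506) (nat_lit 19) (nat_lit 5) (nat_lit 23) (nat_lit 5) (nat_lit 20) (nat_lit 5) (nat_lit 412) (nat_lit 345) (nat_lit 104)) (XT.lf (nat_lit 0) (nat_lit 38202772920) (nat_lit 336) (nat_lit 35534862739) (nat_lit 84) (nat_lit 23755038016) (nat_lit 19) (nat_lit 5) (nat_lit 23) (nat_lit 5) (nat_lit 20) (nat_lit 5) (nat_lit 413) (nat_lit 345) (nat_lit 103)))) (XT.nd (nat_lit 94) (nat_lit 0) (nat_lit 0) (XT.lf (nat_lit 0) (nat_lit 6322723852) (nat_lit 1092) (nat_lit 3148864699) (nat_lit 1092) (nat_lit 3148864699) (nat_lit 93) (nat_lit 3) (nat_lit 106) (nat_lit 3) (nat_lit 106) (nat_lit 5) (nat_lit 346) (nat_lit 346) (nat_lit 169)) (XT.nd (nat_lit 94) (nat_lit 0) (nat_lit 0) (XT.lf (nat_lit 84) (nat_lit 2557475793) (nat_lit 0) (nat_lit 10393253527) (nat_lit 1092) (nat_lit 12677558473) (nat_lit 94) (nat_lit 5) (nat_lit 93) (nat_lit 3) (nat_lit 106) (nat_lit 5) (nat_lit 347)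 (nat_lit 346) (nat_lit 168)) (XT.lf (nat_lit 84) (nat_lit 11818912559) (nat_lit 0) (nat_lit 1508898679) (nat_lit 1092) (nat_lit 12697952975) (nat_lit 94) (nat_lit 5) (nat_lit 93) (nat_lit 3) (nat_lit 106) (nat_lit 5) (nat_lit 348) (nat_lit 346) (nat_lit 167)))))) (XT.nd (nat_lit 564) (nat_lit 0) (nat_lit 168) (XT.nd (nat_lit 282) (nat_lit 0) (nat_lit 84) (XT.nd (nat_lit 94) (nat_lit 0) (nat_lit 0) (XT.lf (nat_lit 0) (nat_lit 13789199168) (nat_lit 1008) (nat_lit 5145876569) (nat_lit 1092) (nat_lit 7498253734) (nat_lit 94) (nat_lit 5) (nat_lit 106) (nat_lit 5) (nat_lit 107) (nat_lit 5) (nat_lit 349) (nat_lit 346) (nat_lit 166)) (XT.nd (nat_lit 94) (nat_lit 0) (nat_lit 0) (XT.lf (nat_lit 84) (nat_lit 4264665563) (nat_lit 0) (nat_lit 10054780595) (nat_lit 1092) (nat_lit 12532409492) (nat_lit 95) (nat_lit 5) (nat_lit 94) (nat_lit 5) (nat_lit 107) (nat_lit 5) (nat_lit 350) (nat_lit 346)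 (nat_lit 165)) (XT.lf (nat_lit 84) (nat_lit 14074228547) (nat_lit 0) (nat_lit 842510071) (nat_lit 1092) (nat_lit 12365065784) (nat_lit 95) (nat_lit 5) (nat_lit 94) (nat_lit 5) (nat_lit 107) (nat_lit 5) (nat_lit 351) (nat_lit 346) (nat_lit 164)))) (XT.nd (nat_lit 94) (nat_lit 0) (nat_lit 0) (XT.lf (nat_lit 0) (nat_lit 15615410554) (nat_lit 1008) (nat_lit 3624920002) (nat_lit 1092) (nat_lit 8482198833) (nat_lit 95) (nat_lit 5) (nat_lit 107) (nat_lit 5) (nat_lit 108) (nat_lit 5) (nat_lit 352) (nat_lit 346) (nat_lit 163)) (XT.nd (nat_lit 94) (nat_lit 0) (nat_lit 0) (XT.lf (nat_lit 84) (nat_lit 6372770089) (nat_lit 0) (nat_lit 10031898313) (nat_lit 1092) (nat_lit 11770127800) (nat_lit 96) (nat_lit 5) (nat_lit 95) (nat_lit 5) (nat_lit 108) (nat_lit 5) (nat_lit 353) (nat_lit 346) (nat_lit 162)) (XT.lf (nat_lit 84) (nat_lit 16755444970) (nat_lit 0) (nat_lit 497946218) (nat_lit 1092) (nat_lit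 11386622768) (nat_lit 96) (nat_lit 5) (nat_lit 95) (nat_lit 5) (nat_lit 108) (nat_lit 5) (nat_lit 354) (nat_lit 346) (nat_lit 161))))) (XT.nd (nat_lit 282) (nat_lit 0) (nat_lit 84) (XT.nd (nat_lit 94) (nat_lit 0) (nat_lit 0) (XT.lf (nat_lit 0) (nat_lit 18218251257) (nat_lit 1008) (nat_lit 1754087669) (nat_lit 1092) (nat_lit 9144545039) (nat_lit 96) (nat_lit 5) (nat_lit 108) (nat_lit 5) (nat_lit 109) (nat_lit 5) (nat_lit 355) (nat_lit 346) (nat_lit 160)) (XT.nd (nat_lit 94) (nat_lit 0) (nat_lit 0) (XT.lf (nat_lit 84) (nat_lit 8862106201) (nat_lit 0) (nat_lit 10441260943) (nat_lit 1092) (nat_lit 10302383783) (nat_lit 97) (nat_lit 5) (nat_lit 96) (nat_lit 5) (nat_lit 109) (nat_lit 5) (nat_lit 356) (nat_lit 346) (nat_lit 159)) (XT.lf (nat_lit 84) (nat_lit 19842814715) (nat_lit 0) (nat_lit 595017551) (nat_lit 1092) (nat_lit 9671467710) (nat_lit 97) (nat_lit 5) (nat_lit 96) (nat_lit 5) (nat_lit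 109) (nat_lit 5) (nat_lit 357) (nat_lit 346) (nat_lit 158)))) (XT.nd (nat_lit 188) (nat_lit 0) (nat_lit 0) (XT.nd (nat_lit 94) (nat_lit 0) (nat_lit 0) (XT.lf (nat_lit 84) (nat_lit 447868769) (nat_lit 0) (nat_lit 21256328847) (nat_lit 1092) (nat_lit 8921276556) (nat_lit 98) (nat_lit 5) (nat_lit 97) (nat_lit 5) (nat_lit 110) (nat_lit 5) (nat_lit 358) (nat_lit 346) (nat_lit 157)) (XT.lf (nat_lit 84) (nat_lit 11703999856) (nat_lit 0) (nat_lit 11416550814) (nat_lit 1092) (nat_lit 8033679855) (nat_lit 98) (nat_lit 5) (nat_lit 97) (nat_lit 5) (nat_lit 110) (nat_lit 5) (nat_lit 359) (nat_lit 346) (nat_lit 156))) (XT.nd (nat_lit 94) (nat_lit 0) (nat_lit 84) (XT.lf (nat_lit 84) (nat_lit 23307323914) (nat_lit 0) (nat_lit 1271105869) (nat_lit 1092) (nat_lit 7121035342) (nat_lit 98) (nat_lit 5) (nat_lit 97) (nat_lit 5) (nat_lit 110) (nat_lit 5) (nat_lit 360) (nat_lit 346) (nat_lit 155)) (XT.lf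 (nat_lit 84) (nat_lit 2975764686) (nat_lit 0) (nat_lit 23224109727) (nat_lit 1092) (nat_lit 6058070680) (nat_lit 99) (nat_lit 5) (nat_lit 98) (nat_lit 5) (nat_lit 111) (nat_lit 5) (nat_lit 361) (nat_lit 346) (nat_lit 154))))))))
noncomputable def xc205 : XT := (XT.nd (nat_lit 2256) (nat_lit 2100) (nat_lit 0) (XT.nd (nat_lit 1128) (nat_lit 1680) (nat_lit 0) (XT.nd (nat_lit 564) (nat_lit 1008) (nat_lit 0) (XT.nd (nat_lit 282) (nat_lit 672) (nat_lit 0) (XT.nd (nat_lit 94) (nat_lit 924) (nat_lit 0) (XT.lf (nat_lit 84) (nat_lit 14858950133) (nat_lit 0) (nat_lit 13110847770) (nat_lit 1092) (nat_lit 4860907627) (nat_lit 99) (nat_lit 5) (nat_lit 98) (nat_lit 5) (nat_lit 111) (nat_lit 5) (nat_lit 362) (nat_lit 346) (nat_lit 153)) (XT.nd (nat_lit 94) (nat_lit 924) (nat_lit 0) (XT.lf (nat_lit 84) (nat_lit 27108800673) (nat_lit 0) (nat_lit 2683604573) (nat_lit 1092) (nat_lit 3628895848) (nat_lit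 99) (nat_lit 5) (nat_lit 98) (nat_lit 5) (nat_lit 111) (nat_lit 5) (nat_lit 363) (nat_lit 346) (nat_lit 152)) (XT.lf (nat_lit 0) (nat_lit 5742113960) (nat_lit 1008) (nat_lit 26064272827) (nat_lit 1092) (nat_lit 2219648760) (nat_lit 87) (nat_lit 5) (nat_lit 99) (nat_lit 5) (nat_lit 100) (nat_lit 5) (nat_lit 364) (nat_lit 346) (nat_lit 151)))) (XT.nd (nat_lit 94) (nat_lit 672) (nat_lit 0) (XT.lf (nat_lit 0) (nat_lit 18274505591) (nat_lit 1008) (nat_lit 15699287646) (nat_lit 1092) (nat_lit 672913950) (nat_lit 87) (nat_lit 5) (nat_lit 99) (nat_lit 5) (nat_lit 100) (nat_lit 5) (nat_lit 365) (nat_lit 346) (nat_lit 150)) (XT.nd (nat_lit 94) (nat_lit 588) (nat_lit 0) (XT.lf (nat_lit 0) (nat_lit 901161919) (nat_lit 1092) (nat_lit 4102088975) (nat_lit 84) (nat_lit 30283158901) (nat_lit 86) (nat_lit 5) (nat_lit 99) (nat_lit 5) (nat_lit 87) (nat_lit 5) (nat_lit 366) (nat_lit 346) (nat_lit 149))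 (XT.lf (nat_lit 0) (nat_lit 2655259511) (nat_lit 672) (nat_lit 27288404356) (nat_lit 84) (nat_lit 5997574840) (nat_lit 79) (nat_lit 5) (nat_lit 87) (nat_lit 5) (nat_lit 80) (nat_lit 5) (nat_lit 367) (nat_lit 346) (nat_lit 148))))) (XT.nd (nat_lit 282) (nat_lit 504) (nat_lit 0) (XT.nd (nat_lit 94) (nat_lit 504) (nat_lit 0) (XT.lf (nat_lit 0) (nat_lit 4556231694) (nat_lit 672) (nat_lit 14778257185) (nat_lit 84) (nat_lit 17279020883) (nat_lit 79) (nat_lit 5) (nat_lit 87) (nat_lit 5) (nat_lit 80) (nat_lit 5) (nat_lit 368) (nat_lit 346) (nat_lit 147)) (XT.nd (nat_lit 94) (nat_lit 504) (nat_lit 0) (XT.lf (nat_lit 0) (nat_lit 6514262785) (nat_lit 672) (nat_lit 1881973662) (nat_lit 84) (nat_lit 28910452357) (nat_lit 79) (nat_lit 5) (nat_lit 87) (nat_lit 5) (nat_lit 80) (nat_lit 5) (nat_lit 369) (nat_lit 346) (nat_lit 146)) (XT.lf (nat_lit 0) (nat_lit 8676483308) (nat_lit 588) (nat_lit 26400474009)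 (nat_lit 84) (nat_lit 2939960163) (nat_lit 73) (nat_lit 5) (nat_lit 80) (nat_lit 5) (nat_lit 74) (nat_lit 5) (nat_lit 370) (nat_lit 346) (nat_lit 145)))) (XT.nd (nat_lit 94) (nat_lit 504) (nat_lit 0) (XT.lf (nat_lit 0) (nat_lit 11009676532) (nat_lit 588) (nat_lit 13263097535) (nat_lit 84) (nat_lit 14473175926) (nat_lit 73) (nat_lit 5) (nat_lit 80) (nat_lit 5) (nat_lit 74) (nat_lit 5) (nat_lit 371) (nat_lit 346) (nat_lit 144)) (XT.nd (nat_lit 94) (nat_lit 0) (nat_lit 0) (XT.lf (nat_lit 0) (nat_lit 285666592) (nat_lit 504) (nat_lit 13130644624) (nat_lit 588) (nat_lit 26081245551) (nat_lit 67) (nat_lit 5) (nat_lit 73) (nat_lit 5) (nat_lit 74) (nat_lit 5) (nat_lit 372) (nat_lit 346) (nat_lit 143)) (XT.lf (nat_lit 0) (nat_lit 14534003014) (nat_lit 504) (nat_lit 1500302508) (nat_lit 588) (nat_lit 24233926931) (nat_lit 67) (nat_lit 5) (nat_lit 73) (nat_lit 5) (nat_lit 74) (nat_lit 5) (nat_lit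 373) (nat_lit 346) (nat_lit 142)))))) (XT.nd (nat_lit 564) (nat_lit 840) (nat_lit 0) (XT.nd (nat_lit 282) (nat_lit 420) (nat_lit 0) (XT.nd (nat_lit 94) (nat_lit 420) (nat_lit 0) (XT.lf (nat_lit 0) (nat_lit 18835891322) (nat_lit 588) (nat_lit 11944450385) (nat_lit 84) (nat_lit 10279290154) (nat_lit 67) (nat_lit 5) (nat_lit 74) (nat_lit 5) (nat_lit 68) (nat_lit 5) (nat_lit 374) (nat_lit 346) (nat_lit 141)) (XT.nd (nat_lit 94) (nat_lit 0) (nat_lit 0) (XT.lf (nat_lit 0) (nat_lit 2302280516) (nat_lit 420) (nat_lit 19458644193) (nat_lit 504) (nat_lit 20113513364) (nat_lit 62) (nat_lit 5) (nat_lit 67) (nat_lit 5) (nat_lit 68) (nat_lit 5) (nat_lit 375) (nat_lit 346) (nat_lit 140)) (XT.lf (nat_lit 0) (nat_lit 17242319507) (nat_lit 420) (nat_lit 7657437359) (nat_lit 504) (nat_lit 17810937340) (nat_lit 62) (nat_lit 5) (nat_lit 67) (nat_lit 5) (nat_lit 68) (nat_lit 5) (nat_lit 376) (nat_lit 346)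 (nat_lit 139)))) (XT.nd (nat_lit 94) (nat_lit 420) (nat_lit 0) (XT.lf (nat_lit 0) (nat_lit 28179122504) (nat_lit 504) (nat_lit 10973674420) (nat_lit 84) (nat_lit 4418744735) (nat_lit 62) (nat_lit 5) (nat_lit 68) (nat_lit 5) (nat_lit 63) (nat_lit 5) (nat_lit 377) (nat_lit 346) (nat_lit 138)) (XT.nd (nat_lit 94) (nat_lit 0) (nat_lit 0) (XT.lf (nat_lit 0) (nat_lit 3970524247) (nat_lit 420) (nat_lit 27705869004) (nat_lit 504) (nat_lit 12779085821) (nat_lit 57) (nat_lit 5) (nat_lit 62) (nat_lit 5) (nat_lit 63) (nat_lit 5) (nat_lit 378) (nat_lit 346) (nat_lit 137)) (XT.lf (nat_lit 0) (nat_lit 19609127600) (nat_lit 420) (nat_lit 15786062587) (nat_lit 504) (nat_lit 9968128978) (nat_lit 57) (nat_lit 5) (nat_lit 62) (nat_lit 5) (nat_lit 63) (nat_lit 5) (nat_lit 379) (nat_lit 346) (nat_lit 136))))) (XT.nd (nat_lit 282) (nat_lit 504) (nat_lit 0) (XT.nd (nat_lit 94) (nat_lit 336) (nat_lit 0) (XT.lf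 (nat_lit 0) (nat_lit 35731071202) (nat_lit 420) (nat_lit 3496809821) (nat_lit 504) (nat_lit 7071471176) (nat_lit 57) (nat_lit 5) (nat_lit 62) (nat_lit 5) (nat_lit 63) (nat_lit 5) (nat_lit 380) (nat_lit 346) (nat_lit 135)) (XT.nd (nat_lit 94) (nat_lit 0) (nat_lit 0) (XT.lf (nat_lit 0) (nat_lit 5098657615) (nat_lit 336) (nat_lit 38220960638) (nat_lit 420) (nat_lit 3940443421) (nat_lit 53) (nat_lit 5) (nat_lit 57) (nat_lit 5) (nat_lit 58) (nat_lit 5) (nat_lit 381) (nat_lit 346) (nat_lit 134)) (XT.lf (nat_lit 0) (nat_lit 21437368184) (nat_lit 336) (nat_lit 26245222874) (nat_lit 420) (nat_lit 563492379) (nat_lit 53) (nat_lit 5) (nat_lit 57) (nat_lit 5) (nat_lit 58) (nat_lit 5) (nat_lit 382) (nat_lit 346) (nat_lit 133)))) (XT.nd (nat_lit 94) (nat_lit 420) (nat_lit 0) (XT.lf (nat_lit 0) (nat_lit 2858049032) (nat_lit 420) (nat_lit 11010476412) (nat_lit 84) (nat_lit 35393295421) (nat_lit 52)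 (nat_lit 5) (nat_lit 57) (nat_lit 5) (nat_lit 53) (nat_lit 5) (nat_lit 383) (nat_lit 346) (nat_lit 132)) (XT.nd (nat_lit 94) (nat_lit 0) (nat_lit 0) (XT.lf (nat_lit 0) (nat_lit 5378722075) (nat_lit 420) (nat_lit 1047326788) (nat_lit 504) (nat_lit 43881209540) (nat_lit 47) (nat_lit 5) (nat_lit 52) (nat_lit 5) (nat_lit 53) (nat_lit 5) (nat_lit 384) (nat_lit 346) (nat_lit 131)) (XT.lf (nat_lit 0) (nat_lit 10340260997) (nat_lit 504) (nat_lit 28995476669) (nat_lit 84) (nat_lit 12042068804) (nat_lit 47) (nat_lit 5) (nat_lit 53) (nat_lit 5) (nat_lit 48) (nat_lit 5) (nat_lit 385) (nat_lit 346) (nat_lit 130))))))) (XT.nd (nat_lit 1128) (nat_lit 756) (nat_lit 0) (XT.nd (nat_lit 564) (nat_lit 672) (nat_lit 0) (XT.nd (nat_lit 282) (nat_lit 336) (nat_lit 0) (XT.nd (nat_lit 94) (nat_lit 336) (nat_lit 0) (XT.lf (nat_lit 0) (nat_lit 14385323644) (nat_lit 504) (nat_lit 12580581544) (nat_lit 84) (nat_lit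 25515347058) (nat_lit 47) (nat_lit 5) (nat_lit 53) (nat_lit 5) (nat_lit 48) (nat_lit 5) (nat_lit 386) (nat_lit 346) (nat_lit 129)) (XT.nd (nat_lit 94) (nat_lit 0) (nat_lit 0) (XT.lf (nat_lit 0) (nat_lit 4431116174) (nat_lit 336) (nat_lit 14167458662) (nat_lit 420) (nat_lit 35019008827) (nat_lit 43) (nat_lit 5) (nat_lit 47) (nat_lit 5) (nat_lit 48) (nat_lit 5) (nat_lit 387) (nat_lit 346) (nat_lit 128)) (XT.lf (nat_lit 0) (nat_lit 22235555499) (nat_lit 336) (nat_lit 837053094) (nat_lit 420) (nat_lit 31712502636) (nat_lit 43) (nat_lit 5) (nat_lit 47) (nat_lit 5) (nat_lit 48) (nat_lit 5) (nat_lit 388) (nat_lit 346) (nat_lit 127)))) (XT.nd (nat_lit 94) (nat_lit 336) (nat_lit 0) (XT.lf (nat_lit 0) (nat_lit 27812261391) (nat_lit 420) (nat_lit 15526255406) (nat_lit 84) (nat_lit 12646385751) (nat_lit 43) (nat_lit 5) (nat_lit 48) (nat_lit 5) (nat_lit 44) (nat_lit 5) (nat_lit 389) (nat_lit 346)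 (nat_lit 126)) (XT.nd (nat_lit 94) (nat_lit 0) (nat_lit 0) (XT.lf (nat_lit 0) (nat_lit 2056356168) (nat_lit 336) (nat_lit 30670370030) (nat_lit 420) (nat_lit 24494301729) (nat_lit 39) (nat_lit 5) (nat_lit 43) (nat_lit 5) (nat_lit 44) (nat_lit 5) (nat_lit 390) (nat_lit 346) (nat_lit 125)) (XT.lf (nat_lit 0) (nat_lit 20511909157) (nat_lit 336) (nat_lit 17442634721) (nat_lit 420) (nat_lit 20535942918) (nat_lit 39) (nat_lit 5) (nat_lit 43) (nat_lit 5) (nat_lit 44) (nat_lit 5) (nat_lit 391) (nat_lit 346) (nat_lit 124))))) (XT.nd (nat_lit 282) (nat_lit 420) (nat_lit 0) (XT.nd (nat_lit 94) (nat_lit 252) (nat_lit 0) (XT.lf (nat_lit 0) (nat_lit 39538354415) (nat_lit 336) (nat_lit 3805043501) (nat_lit 420) (nat_lit 16455937383) (nat_lit 39) (nat_lit 5) (nat_lit 43) (nat_lit 5) (nat_lit 44) (nat_lit 5) (nat_lit 392) (nat_lit 346) (nat_lit 123)) (XT.nd (nat_lit 94) (nat_lit 252) (nat_lit 0) (XT.lf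 (nat_lit 0) (nat_lit 49000043302) (nat_lit 420) (nat_lit 2097098851) (nat_lit 84) (nat_lit 10048497573) (nat_lit 39) (nat_lit 5) (nat_lit 44) (nat_lit 5) (nat_lit 40) (nat_lit 5) (nat_lit 393) (nat_lit 346) (nat_lit 122)) (XT.lf (nat_lit 0) (nat_lit 16930876943) (nat_lit 252) (nat_lit 38107073666) (nat_lit 336) (nat_lit 7489350228) (nat_lit 36) (nat_lit 5) (nat_lit 39) (nat_lit 5) (nat_lit 40) (nat_lit 5) (nat_lit 394) (nat_lit 346) (nat_lit 121)))) (XT.nd (nat_lit 94) (nat_lit 420) (nat_lit 0) (XT.lf (nat_lit 0) (nat_lit 36592000048) (nat_lit 252) (nat_lit 24691972685) (nat_lit 336) (nat_lit 2667175779) (nat_lit 36) (nat_lit 5) (nat_lit 39) (nat_lit 5) (nat_lit 40) (nat_lit 5) (nat_lit 395) (nat_lit 346) (nat_lit 120)) (XT.nd (nat_lit 94) (nat_lit 336) (nat_lit 0) (XT.lf (nat_lit 0) (nat_lit 2257121239) (nat_lit 336) (nat_lit 8580543384) (nat_lit 84) (nat_lit 54580795080) (nat_lit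 35) (nat_lit 5) (nat_lit 39) (nat_lit 5) (nat_lit 36) (nat_lit 5) (nat_lit 396) (nat_lit 346) (nat_lit 119)) (XT.lf (nat_lit 0) (nat_lit 7422189774) (nat_lit 420) (nat_lit 55989777207) (nat_lit 84) (nat_lit 3513999568) (nat_lit 31) (nat_lit 5) (nat_lit 36) (nat_lit 5) (nat_lit 32) (nat_lit 5) (nat_lit 397) (nat_lit 346) (nat_lit 118)))))) (XT.nd (nat_lit 564) (nat_lit 504) (nat_lit 0) (XT.nd (nat_lit 282) (nat_lit 0) (nat_lit 0) (XT.nd (nat_lit 94) (nat_lit 252) (nat_lit 0) (XT.lf (nat_lit 0) (nat_lit 12947805960) (nat_lit 420) (nat_lit 37350493367) (nat_lit 84) (nat_lit 18175697150) (nat_lit 31) (nat_lit 5) (nat_lit 36) (nat_lit 5) (nat_lit 32) (nat_lit 5) (nat_lit 398) (nat_lit 346) (nat_lit 117)) (XT.nd (nat_lit 94) (nat_lit 252) (nat_lit 0) (XT.lf (nat_lit 0) (nat_lit 18643850503) (nat_lit 420) (nat_lit 18134504901) (nat_lit 84) (nat_lit 33291690374) (nat_lit 31) (nat_lit 5) (nat_lit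 36) (nat_lit 5) (nat_lit 32) (nat_lit 5) (nat_lit 399) (nat_lit 346) (nat_lit 116)) (XT.lf (nat_lit 0) (nat_lit 1710563550) (nat_lit 252) (nat_lit 22822038163) (nat_lit 336) (nat_lit 47182474381) (nat_lit 28) (nat_lit 5) (nat_lit 31) (nat_lit 5) (nat_lit 32) (nat_lit 5) (nat_lit 400) (nat_lit 346) (nat_lit 115)))) (XT.nd (nat_lit 94) (nat_lit 0) (nat_lit 0) (XT.lf (nat_lit 0) (nat_lit 22554202328) (nat_lit 252) (nat_lit 8238163853) (nat_lit 336) (nat_lit 42612897240) (nat_lit 28) (nat_lit 5) (nat_lit 31) (nat_lit 5) (nat_lit 32) (nat_lit 5) (nat_lit 401) (nat_lit 346) (nat_lit 114)) (XT.nd (nat_lit 94) (nat_lit 0) (nat_lit 0) (XT.lf (nat_lit 0) (nat_lit 37312815864) (nat_lit 336) (nat_lit 31172350157) (nat_lit 84) (nat_lit 6660618215) (nat_lit 28) (nat_lit 5) (nat_lit 32) (nat_lit 5) (nat_lit 29) (nat_lit 5) (nat_lit 402) (nat_lit 346) (nat_lit 113)) (XT.lf (nat_lit 0) (nat_lit 44118878051)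 (nat_lit 336) (nat_lit 10968886662) (nat_lit 84) (nat_lit 21849911838) (nat_lit 28) (nat_lit 5) (nat_lit 32) (nat_lit 5) (nat_lit 29) (nat_lit 5) (nat_lit 403) (nat_lit 346) (nat_lit 112))))) (XT.nd (nat_lit 282) (nat_lit 252) (nat_lit 0) (XT.nd (nat_lit 94) (nat_lit 0) (nat_lit 0) (XT.lf (nat_lit 0) (nat_lit 10062624193) (nat_lit 252) (nat_lit 41172371386) (nat_lit 336) (nat_lit 27547053955) (nat_lit 25) (nat_lit 5) (nat_lit 28) (nat_lit 5) (nat_lit 29) (nat_lit 5) (nat_lit 404) (nat_lit 346) (nat_lit 111)) (XT.nd (nat_lit 94) (nat_lit 0) (nat_lit 0) (XT.lf (nat_lit 0) (nat_lit 31977657176) (nat_lit 252) (nat_lit 26707806076) (nat_lit 336) (nat_lit 21994611562) (nat_lit 25) (nat_lit 5) (nat_lit 28) (nat_lit 5) (nat_lit 29) (nat_lit 5) (nat_lit 405) (nat_lit 346) (nat_lit 110)) (XT.lf (nat_lit 0) (nat_lit 54571096589) (nat_lit 252) (nat_lit 11795078974) (nat_lit 336) (nat_lit 16270788543)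 (nat_lit 25) (nat_lit 5) (nat_lit 28) (nat_lit 5) (nat_lit 29) (nat_lit 5) (nat_lit 406) (nat_lit 346) (nat_lit 109)))) (XT.nd (nat_lit 188) (nat_lit 84) (nat_lit 0) (XT.nd (nat_lit 94) (nat_lit 168) (nat_lit 0) (XT.lf (nat_lit 0) (nat_lit 74319802906) (nat_lit 336) (nat_lit 6826050720) (nat_lit 84) (nat_lit 3507586961) (nat_lit 25) (nat_lit 5) (nat_lit 29) (nat_lit 5) (nat_lit 26) (nat_lit 5) (nat_lit 407) (nat_lit 346) (nat_lit 108)) (XT.lf (nat_lit 0) (nat_lit 15258056060) (nat_lit 168) (nat_lit 67533254894) (nat_lit 252) (nat_lit 3932708759) (nat_lit 23) (nat_lit 5) (nat_lit 25) (nat_lit 5) (nat_lit 26) (nat_lit 5) (nat_lit 408) (nat_lit 346) (nat_lit 107))) (XT.nd (nat_lit 94) (nat_lit 0) (nat_lit 0) (XT.lf (nat_lit 0) (nat_lit 2684223072) (nat_lit 252) (nat_lit 50713212813) (nat_lit 84) (nat_lit 35458323089) (nat_lit 22) (nat_lit 5) (nat_lit 25) (nat_lit 5) (nat_lit 23) (nat_lit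 5) (nat_lit 409) (nat_lit 346) (nat_lit 106)) (XT.lf (nat_lit 0) (nat_lit 9423931010) (nat_lit 252) (nat_lit 29358252452) (nat_lit 84) (nat_lit 52270174669) (nat_lit 22) (nat_lit 5) (nat_lit 25) (nat_lit 5) (nat_lit 23) (nat_lit 5) (nat_lit 410) (nat_lit 346) (nat_lit 105))))))))
noncomputable def xc206 : XT := (XT.nd (nat_lit 49914) (nat_lit 0) (nat_lit 1680) (XT.nd (nat_lit 48786) (nat_lit 0) (nat_lit 5712) (XT.nd (nat_lit 48222) (nat_lit 0) (nat_lit 6216) (XT.nd (nat_lit 282) (nat_lit 0) (nat_lit 0) (XT.nd (nat_lit 94) (nat_lit 252) (nat_lit 0) (XT.lf (nat_lit 0) (nat_lit 16371932483) (nat_lit 252) (nat_lit 7342164554) (nat_lit 84) (nat_lit 69602977008) (nat_lit 22) (nat_lit 5) (nat_lit 25) (nat_lit 5) (nat_lit 23) (nat_lit 5) (nat_lit 411) (nat_lit 346) (nat_lit 104)) (XT.nd (nat_lit 94) (nat_lit 0) (nat_lit 0) (XT.lf (nat_lit 0) (nat_lit 15671314237) (nat_lit 252) (nat_lit 8018850897)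 (nat_lit 336) (nat_lit 71957033232) (nat_lit 19) (nat_lit 5) (nat_lit 22) (nat_lit 5) (nat_lit 23) (nat_lit 5) (nat_lit 412) (nat_lit 346) (nat_lit 103)) (XT.lf (nat_lit 0) (nat_lit 31393051095) (nat_lit 336) (nat_lit 58575941257) (nat_lit 84) (nat_lit 8075675040) (nat_lit 19) (nat_lit 5) (nat_lit 23) (nat_lit 5) (nat_lit 20) (nat_lit 5) (nat_lit 413) (nat_lit 346) (nat_lit 102)))) (XT.nd (nat_lit 47752) (nat_lit 0) (nat_lit 6216) (XT.lf (nat_lit 0) (nat_lit 39416148537) (nat_lit 336) (nat_lit 36595448372) (nat_lit 84) (nat_lit 24502339178) (nat_lit 19) (nat_lit 5) (nat_lit 23) (nat_lit 5) (nat_lit 20) (nat_lit 5) (nat_lit 414) (nat_lit 346) (nat_lit 101)) (XT.nd (nat_lit 94) (nat_lit 0) (nat_lit 0) (XT.lf (nat_lit 0) (nat_lit 6601802626) (nat_lit 1092) (nat_lit 3203424408) (nat_lit 1092) (nat_lit 3203424408) (nat_lit 93) (nat_lit 3) (nat_lit 106) (nat_lit 3) (nat_lit 106) (nat_lit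 5) (nat_lit 347) (nat_lit 347) (nat_lit 167)) (XT.lf (nat_lit 84) (nat_lit 2721995948) (nat_lit 0) (nat_lit 10792204485) (nat_lit 1092) (nat_lit 12902648915) (nat_lit 94) (nat_lit 5) (nat_lit 93) (nat_lit 3) (nat_lit 106) (nat_lit 5) (nat_lit 348) (nat_lit 347) (nat_lit 166))))) (XT.nd (nat_lit 282) (nat_lit 0) (nat_lit 84) (XT.nd (nat_lit 94) (nat_lit 0) (nat_lit 84) (XT.lf (nat_lit 84) (nat_lit 12267974314) (nat_lit 0) (nat_lit 1630126622) (nat_lit 1092) (nat_lit 12928724463) (nat_lit 94) (nat_lit 5) (nat_lit 93) (nat_lit 3) (nat_lit 106) (nat_lit 5) (nat_lit 349) (nat_lit 347) (nat_lit 165)) (XT.nd (nat_lit 94) (nat_lit 0) (nat_lit 0) (XT.lf (nat_lit 0) (nat_lit 14368351031) (nat_lit 1008) (nat_lit 5218927799) (nat_lit 1092) (nat_lit 7659941073) (nat_lit 94) (nat_lit 5) (nat_lit 106) (nat_lit 5) (nat_lit 107) (nat_lit 5) (nat_lit 350) (nat_lit 347) (nat_lit 164)) (XT.lf (nat_lit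 84) (nat_lit 4482465699) (nat_lit 0) (nat_lit 10428858197) (nat_lit 1092) (nat_lit 12767536834) (nat_lit 95) (nat_lit 5) (nat_lit 94) (nat_lit 5) (nat_lit 107) (nat_lit 5) (nat_lit 351) (nat_lit 347) (nat_lit 163)))) (XT.nd (nat_lit 94) (nat_lit 0) (nat_lit 84) (XT.lf (nat_lit 84) (nat_lit 14593551459) (nat_lit 0) (nat_lit 929131669) (nat_lit 1092) (nat_lit 12599617205) (nat_lit 95) (nat_lit 5) (nat_lit 94) (nat_lit 5) (nat_lit 107) (nat_lit 5) (nat_lit 352) (nat_lit 347) (nat_lit 162)) (XT.nd (nat_lit 94) (nat_lit 0) (nat_lit 0) (XT.lf (nat_lit 0) (nat_lit 16238116223) (nat_lit 1008) (nat_lit 3651102380) (nat_lit 1092) (nat_lit 8687644795) (nat_lit 95) (nat_lit 5) (nat_lit 107) (nat_lit 5) (nat_lit 108) (nat_lit 5) (nat_lit 353) (nat_lit 347) (nat_lit 161)) (XT.lf (nat_lit 84) (nat_lit 6655643507) (nat_lit 0) (nat_lit 10392875668) (nat_lit 1092) (nat_lit 11994757346) (nat_lit 96)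 (nat_lit 5) (nat_lit 95) (nat_lit 5) (nat_lit 108) (nat_lit 5) (nat_lit 354) (nat_lit 347) (nat_lit 160)))))) (XT.nd (nat_lit 564) (nat_lit 672) (nat_lit 0) (XT.nd (nat_lit 282) (nat_lit 0) (nat_lit 84) (XT.nd (nat_lit 94) (nat_lit 0) (nat_lit 84) (XT.lf (nat_lit 84) (nat_lit 17357615990) (nat_lit 0) (nat_lit 561868008) (nat_lit 1092) (nat_lit 11603580513) (nat_lit 96) (nat_lit 5) (nat_lit 95) (nat_lit 5) (nat_lit 108) (nat_lit 5) (nat_lit 355) (nat_lit 347) (nat_lit 159)) (XT.nd (nat_lit 94) (nat_lit 0) (nat_lit 0) (XT.lf (nat_lit 0) (nat_lit 18909842169) (nat_lit 1008) (nat_lit 1723087971) (nat_lit 1092) (nat_lit 9381945834) (nat_lit 96) (nat_lit 5) (nat_lit 108) (nat_lit 5) (nat_lit 109) (nat_lit 5) (nat_lit 356) (nat_lit 347) (nat_lit 158)) (XT.lf (nat_lit 84) (nat_lit 9221343549) (nat_lit 0) (nat_lit 10804278105) (nat_lit 1092) (nat_lit 10493389425) (nat_lit 97) (nat_lit 5) (nat_lit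 96) (nat_lit 5) (nat_lit 109) (nat_lit 5) (nat_lit 357) (nat_lit 347) (nat_lit 157)))) (XT.nd (nat_lit 94) (nat_lit 0) (nat_lit 84) (XT.lf (nat_lit 84) (nat_lit 20539912928) (nat_lit 0) (nat_lit 651618355) (nat_lit 1092) (nat_lit 9846774717) (nat_lit 97) (nat_lit 5) (nat_lit 96) (nat_lit 5) (nat_lit 109) (nat_lit 5) (nat_lit 358) (nat_lit 347) (nat_lit 156)) (XT.nd (nat_lit 94) (nat_lit 0) (nat_lit 0) (XT.lf (nat_lit 84) (nat_lit 547606358) (nat_lit 0) (nat_lit 21946420213) (nat_lit 1092) (nat_lit 9076571769) (nat_lit 98) (nat_lit 5) (nat_lit 97) (nat_lit 5) (nat_lit 110) (nat_lit 5) (nat_lit 359) (nat_lit 347) (nat_lit 155)) (XT.lf (nat_lit 84) (nat_lit 12150096069) (nat_lit 0) (nat_lit 11800672591) (nat_lit 1092) (nat_lit 8165105734) (nat_lit 98) (nat_lit 5) (nat_lit 97) (nat_lit 5) (nat_lit 110) (nat_lit 5) (nat_lit 360) (nat_lit 347) (nat_lit 154))))) (XT.nd (nat_lit 282) (nat_lit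 840) (nat_lit 0) (XT.nd (nat_lit 94) (nat_lit 0) (nat_lit 84) (XT.lf (nat_lit 84) (nat_lit 24110619354) (nat_lit 0) (nat_lit 1339810540) (nat_lit 1092) (nat_lit 7227705774) (nat_lit 98) (nat_lit 5) (nat_lit 97) (nat_lit 5) (nat_lit 110) (nat_lit 5) (nat_lit 361) (nat_lit 347) (nat_lit 153)) (XT.nd (nat_lit 94) (nat_lit 0) (nat_lit 0) (XT.lf (nat_lit 84) (nat_lit 3152224053) (nat_lit 0) (nat_lit 23967159175) (nat_lit 1092) (nat_lit 6134648789) (nat_lit 99) (nat_lit 5) (nat_lit 98) (nat_lit 5) (nat_lit 111) (nat_lit 5) (nat_lit 362) (nat_lit 347) (nat_lit 152)) (XT.lf (nat_lit 84) (nat_lit 15401256211) (nat_lit 0) (nat_lit 13539691467) (nat_lit 1092) (nat_lit 4903717895) (nat_lit 99) (nat_lit 5) (nat_lit 98) (nat_lit 5) (nat_lit 111) (nat_lit 5) (nat_lit 363) (nat_lit 347) (nat_lit 151)))) (XT.nd (nat_lit 94) (nat_lit 924) (nat_lit 0) (XT.lf (nat_lit 84) (nat_lit 28028396213) (nat_lit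 0) (nat_lit 2788529987) (nat_lit 1092) (nat_lit 3636757411) (nat_lit 99) (nat_lit 5) (nat_lit 98) (nat_lit 5) (nat_lit 111) (nat_lit 5) (nat_lit 364) (nat_lit 347) (nat_lit 150)) (XT.nd (nat_lit 94) (nat_lit 0) (nat_lit 0) (XT.lf (nat_lit 0) (nat_lit 6002394153) (nat_lit 1008) (nat_lit 26888518526) (nat_lit 1092) (nat_lit 2186343918) (nat_lit 87) (nat_lit 5) (nat_lit 99) (nat_lit 5) (nat_lit 100) (nat_lit 5) (nat_lit 365) (nat_lit 347) (nat_lit 149)) (XT.lf (nat_lit 0) (nat_lit 18920816099) (nat_lit 1008) (nat_lit 16201730104) (nat_lit 1092) (nat_lit 594730681) (nat_lit 87) (nat_lit 5) (nat_lit 99) (nat_lit 5) (nat_lit 100) (nat_lit 5) (nat_lit 366) (nat_lit 347) (nat_lit 148))))))) (XT.nd (nat_lit 1128) (nat_lit 1932) (nat_lit 0) (XT.nd (nat_lit 564) (nat_lit 924) (nat_lit 0) (XT.nd (nat_lit 282) (nat_lit 504) (nat_lit 0) (XT.nd (nat_lit 94) (nat_lit 588) (nat_lit 0) (XT.lf (nat_lit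 0) (nat_lit 1023228000) (nat_lit 1092) (nat_lit 4149431681) (nat_lit 84) (nat_lit 31204225632) (nat_lit 86) (nat_lit 5) (nat_lit 99) (nat_lit 5) (nat_lit 87) (nat_lit 5) (nat_lit 367) (nat_lit 347) (nat_lit 147)) (XT.nd (nat_lit 94) (nat_lit 0) (nat_lit 0) (XT.lf (nat_lit 0) (nat_lit 2829526500) (nat_lit 672) (nat_lit 28051876155) (nat_lit 84) (nat_lit 6170693313) (nat_lit 79) (nat_lit 5) (nat_lit 87) (nat_lit 5) (nat_lit 80) (nat_lit 5) (nat_lit 368) (nat_lit 347) (nat_lit 146)) (XT.lf (nat_lit 0) (nat_lit 4786663959) (nat_lit 672) (nat_lit 15156394084) (nat_lit 84) (nat_lit 17802249243) (nat_lit 79) (nat_lit 5) (nat_lit 87) (nat_lit 5) (nat_lit 80) (nat_lit 5) (nat_lit 369) (nat_lit 347) (nat_lit 145)))) (XT.nd (nat_lit 94) (nat_lit 504) (nat_lit 0) (XT.lf (nat_lit 0) (nat_lit 6802712286) (nat_lit 672) (nat_lit 1862730874) (nat_lit 84) (nat_lit 29794628575) (nat_lit 79) (nat_lit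 5) (nat_lit 87) (nat_lit 5) (nat_lit 80) (nat_lit 5) (nat_lit 370) (nat_lit 347) (nat_lit 144)) (XT.nd (nat_lit 94) (nat_lit 0) (nat_lit 0) (XT.lf (nat_lit 0) (nat_lit 9030044335) (nat_lit 588) (nat_lit 27138958038) (nat_lit 84) (nat_lit 3023387875) (nat_lit 73) (nat_lit 5) (nat_lit 80) (nat_lit 5) (nat_lit 74) (nat_lit 5) (nat_lit 371) (nat_lit 347) (nat_lit 143)) (XT.lf (nat_lit 0) (nat_lit 11433023104) (nat_lit 588) (nat_lit 13596726241) (nat_lit 84) (nat_lit 14914365182) (nat_lit 73) (nat_lit 5) (nat_lit 80) (nat_lit 5) (nat_lit 74) (nat_lit 5) (nat_lit 372) (nat_lit 347) (nat_lit 142))))) (XT.nd (nat_lit 282) (nat_lit 420) (nat_lit 0) (XT.nd (nat_lit 94) (nat_lit 0) (nat_lit 0) (XT.lf (nat_lit 0) (nat_lit 371264680) (nat_lit 504) (nat_lit 13541293109) (nat_lit 588) (nat_lit 26806528720) (nat_lit 67) (nat_lit 5) (nat_lit 73) (nat_lit 5) (nat_lit 74) (nat_lit 5) (nat_lit 373) (nat_lit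 347) (nat_lit 141)) (XT.nd (nat_lit 94) (nat_lit 0) (nat_lit 0) (XT.lf (nat_lit 0) (nat_lit 15058992047) (nat_lit 504) (nat_lit 1550302188) (nat_lit 588) (nat_lit 24904445938) (nat_lit 67) (nat_lit 5) (nat_lit 73) (nat_lit 5) (nat_lit 74) (nat_lit 5) (nat_lit 374) (nat_lit 347) (nat_lit 140)) (XT.lf (nat_lit 0) (nat_lit 19495352565) (nat_lit 588) (nat_lit 12239774854) (nat_lit 84) (nat_lit 10594631000) (nat_lit 67) (nat_lit 5) (nat_lit 74) (nat_lit 5) (nat_lit 68) (nat_lit 5) (nat_lit 375) (nat_lit 347) (nat_lit 139)))) (XT.nd (nat_lit 94) (nat_lit 0) (nat_lit 0) (XT.lf (nat_lit 0) (nat_lit 2447845867) (nat_lit 420) (nat_lit 20061680552) (nat_lit 504) (nat_lit 20660356234) (nat_lit 62) (nat_lit 5) (nat_lit 67) (nat_lit 5) (nat_lit 68) (nat_lit 5) (nat_lit 376) (nat_lit 347) (nat_lit 138)) (XT.nd (nat_lit 94) (nat_lit 0) (nat_lit 0) (XT.lf (nat_lit 0) (nat_lit 17848795190) (nat_lit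 420) (nat_lit 7894641766) (nat_lit 504) (nat_lit 18288705840) (nat_lit 62) (nat_lit 5) (nat_lit 67) (nat_lit 5) (nat_lit 68) (nat_lit 5) (nat_lit 377) (nat_lit 347) (nat_lit 137)) (XT.lf (nat_lit 0) (nat_lit 29122306121) (nat_lit 504) (nat_lit 11241554777) (nat_lit 84) (nat_lit 4555893234) (nat_lit 62) (nat_lit 5) (nat_lit 68) (nat_lit 5) (nat_lit 63) (nat_lit 5) (nat_lit 378) (nat_lit 347) (nat_lit 136)))))) (XT.nd (nat_lit 564) (nat_lit 1092) (nat_lit 0) (XT.nd (nat_lit 282) (nat_lit 420) (nat_lit 0) (XT.nd (nat_lit 94) (nat_lit 0) (nat_lit 0) (XT.lf (nat_lit 0) (nat_lit 4165182041) (nat_lit 420) (nat_lit 28561426566) (nat_lit 504) (nat_lit 13104538317) (nat_lit 57) (nat_lit 5) (nat_lit 62) (nat_lit 5) (nat_lit 63) (nat_lit 5) (nat_lit 379) (nat_lit 347) (nat_lit 135)) (XT.nd (nat_lit 94) (nat_lit 0) (nat_lit 0) (XT.lf (nat_lit 0) (nat_lit 20286430092) (nat_lit 420) (nat_lit 16272206108)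 (nat_lit 504) (nat_lit 10208567587) (nat_lit 57) (nat_lit 5) (nat_lit 62) (nat_lit 5) (nat_lit 63) (nat_lit 5) (nat_lit 380) (nat_lit 347) (nat_lit 134)) (XT.lf (nat_lit 0) (nat_lit 36906066647) (nat_lit 420) (nat_lit 3602083458) (nat_lit 504) (nat_lit 7224175250) (nat_lit 57) (nat_lit 5) (nat_lit 62) (nat_lit 5) (nat_lit 63) (nat_lit 5) (nat_lit 381) (nat_lit 347) (nat_lit 133)))) (XT.nd (nat_lit 94) (nat_lit 84) (nat_lit 0) (XT.lf (nat_lit 0) (nat_lit 5325619259) (nat_lit 336) (nat_lit 39399895048) (nat_lit 420) (nat_lit 3997349753) (nat_lit 53) (nat_lit 5) (nat_lit 57) (nat_lit 5) (nat_lit 58) (nat_lit 5) (nat_lit 382) (nat_lit 347) (nat_lit 132)) (XT.nd (nat_lit 94) (nat_lit 84) (nat_lit 0) (XT.lf (nat_lit 0) (nat_lit 22168758080) (nat_lit 336) (nat_lit 27053087276) (nat_lit 420) (nat_lit 517675081) (nat_lit 53) (nat_lit 5) (nat_lit 57) (nat_lit 5) (nat_lit 58) (nat_lit 5) (nat_lit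 383) (nat_lit 347) (nat_lit 131)) (XT.lf (nat_lit 0) (nat_lit 3006794526) (nat_lit 420) (nat_lit 11285462415) (nat_lit 84) (nat_lit 36494535805) (nat_lit 52) (nat_lit 5) (nat_lit 57) (nat_lit 5) (nat_lit 53) (nat_lit 5) (nat_lit 384) (nat_lit 347) (nat_lit 130))))) (XT.nd (nat_lit 282) (nat_lit 672) (nat_lit 0) (XT.nd (nat_lit 94) (nat_lit 0) (nat_lit 0) (XT.lf (nat_lit 0) (nat_lit 5611129605) (nat_lit 420) (nat_lit 1073115710) (nat_lit 504) (nat_lit 45180437820) (nat_lit 47) (nat_lit 5) (nat_lit 52) (nat_lit 5) (nat_lit 53) (nat_lit 5) (nat_lit 385) (nat_lit 347) (nat_lit 129)) (XT.nd (nat_lit 94) (nat_lit 0) (nat_lit 0) (XT.lf (nat_lit 0) (nat_lit 10718088608) (nat_lit 504) (nat_lit 29828670902) (nat_lit 84) (nat_lit 12421719840) (nat_lit 47) (nat_lit 5) (nat_lit 53) (nat_lit 5) (nat_lit 48) (nat_lit 5) (nat_lit 386) (nat_lit 347) (nat_lit 128)) (XT.lf (nat_lit 0) (nat_lit 14886825923)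 (nat_lit 504) (nat_lit 12906888453) (nat_lit 84) (nat_lit 26312478882) (nat_lit 47) (nat_lit 5) (nat_lit 53) (nat_lit 5) (nat_lit 48) (nat_lit 5) (nat_lit 387) (nat_lit 347) (nat_lit 127)))) (XT.nd (nat_lit 188) (nat_lit 336) (nat_lit 0) (XT.nd (nat_lit 94) (nat_lit 0) (nat_lit 0) (XT.lf (nat_lit 0) (nat_lit 4631527079) (nat_lit 336) (nat_lit 14598115760) (nat_lit 420) (nat_lit 36048148190) (nat_lit 43) (nat_lit 5) (nat_lit 47) (nat_lit 5) (nat_lit 48) (nat_lit 5) (nat_lit 388) (nat_lit 347) (nat_lit 126)) (XT.lf (nat_lit 0) (nat_lit 22986008353) (nat_lit 336) (nat_lit 854724223) (nat_lit 420) (nat_lit 32640837637) (nat_lit 43) (nat_lit 5) (nat_lit 47) (nat_lit 5) (nat_lit 48) (nat_lit 5) (nat_lit 389) (nat_lit 347) (nat_lit 125))) (XT.nd (nat_lit 94) (nat_lit 336) (nat_lit 0) (XT.lf (nat_lit 0) (nat_lit 28725804473) (nat_lit 420) (nat_lit 15946514053) (nat_lit 84) (nat_lit 13046290580)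 (nat_lit 43) (nat_lit 5) (nat_lit 48) (nat_lit 5) (nat_lit 44) (nat_lit 5) (nat_lit 390) (nat_lit 347) (nat_lit 124)) (XT.lf (nat_lit 0) (nat_lit 2180540350) (nat_lit 336) (nat_lit 31611132505) (nat_lit 420) (nat_lit 25201417816) (nat_lit 39) (nat_lit 5) (nat_lit 43) (nat_lit 5) (nat_lit 44) (nat_lit 5) (nat_lit 391) (nat_lit 347) (nat_lit 123))))))))
noncomputable def xc207 : XT := (XT.nd (nat_lit 49914) (nat_lit 0) (nat_lit 4536) (XT.nd (nat_lit 1128) (nat_lit 756) (nat_lit 0) (XT.nd (nat_lit 564) (nat_lit 588) (nat_lit 0) (XT.nd (nat_lit 282) (nat_lit 336) (nat_lit 0) (XT.nd (nat_lit 94) (nat_lit 0) (nat_lit 0) (XT.lf (nat_lit 0) (nat_lit 21206398264) (nat_lit 336) (nat_lit 17973638652) (nat_lit 420) (nat_lit 21121919644) (nat_lit 39) (nat_lit 5) (nat_lit 43) (nat_lit 5) (nat_lit 44) (nat_lit 5) (nat_lit 392) (nat_lit 347) (nat_lit 122)) (XT.nd (nat_lit 94) (nat_lit 0) (nat_lit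 0) (XT.lf (nat_lit 0) (nat_lit 40820900748) (nat_lit 336) (nat_lit 3913574297) (nat_lit 420) (nat_lit 16916956501) (nat_lit 39) (nat_lit 5) (nat_lit 43) (nat_lit 5) (nat_lit 44) (nat_lit 5) (nat_lit 393) (nat_lit 347) (nat_lit 121)) (XT.lf (nat_lit 0) (nat_lit 50565140954) (nat_lit 420) (nat_lit 2105419303) (nat_lit 84) (nat_lit 10368958951) (nat_lit 39) (nat_lit 5) (nat_lit 44) (nat_lit 5) (nat_lit 40) (nat_lit 5) (nat_lit 394) (nat_lit 347) (nat_lit 120)))) (XT.nd (nat_lit 94) (nat_lit 84) (nat_lit 0) (XT.lf (nat_lit 0) (nat_lit 17511849810) (nat_lit 252) (nat_lit 39277544233) (nat_lit 336) (nat_lit 7674649684) (nat_lit 36) (nat_lit 5) (nat_lit 39) (nat_lit 5) (nat_lit 40) (nat_lit 5) (nat_lit 395) (nat_lit 347) (nat_lit 119)) (XT.nd (nat_lit 94) (nat_lit 84) (nat_lit 0) (XT.lf (nat_lit 0) (nat_lit 37780780451) (nat_lit 252) (nat_lit 25446901319) (nat_lit 336) (nat_lit 2704397121)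 (nat_lit 36) (nat_lit 5) (nat_lit 39) (nat_lit 5) (nat_lit 40) (nat_lit 5) (nat_lit 396) (nat_lit 347) (nat_lit 118)) (XT.lf (nat_lit 0) (nat_lit 2370297785) (nat_lit 336) (nat_lit 8792677333) (nat_lit 84) (nat_lit 56281934814) (nat_lit 35) (nat_lit 5) (nat_lit 39) (nat_lit 5) (nat_lit 36) (nat_lit 5) (nat_lit 397) (nat_lit 347) (nat_lit 117))))) (XT.nd (nat_lit 282) (nat_lit 252) (nat_lit 0) (XT.nd (nat_lit 94) (nat_lit 0) (nat_lit 0) (XT.lf (nat_lit 0) (nat_lit 7694821205) (nat_lit 420) (nat_lit 57670758014) (nat_lit 84) (nat_lit 3633596292) (nat_lit 31) (nat_lit 5) (nat_lit 36) (nat_lit 5) (nat_lit 32) (nat_lit 5) (nat_lit 398) (nat_lit 347) (nat_lit 116)) (XT.nd (nat_lit 94) (nat_lit 0) (nat_lit 0) (XT.lf (nat_lit 0) (nat_lit 13390452298) (nat_lit 420) (nat_lit 38455301158) (nat_lit 84) (nat_lit 18749485893) (nat_lit 31) (nat_lit 5) (nat_lit 36) (nat_lit 5) (nat_lit 32) (nat_lit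 5) (nat_lit 399) (nat_lit 347) (nat_lit 115)) (XT.lf (nat_lit 0) (nat_lit 19261833489) (nat_lit 420) (nat_lit 18645212377) (nat_lit 84) (nat_lit 34333763941) (nat_lit 31) (nat_lit 5) (nat_lit 36) (nat_lit 5) (nat_lit 32) (nat_lit 5) (nat_lit 400) (nat_lit 347) (nat_lit 114)))) (XT.nd (nat_lit 94) (nat_lit 0) (nat_lit 0) (XT.lf (nat_lit 0) (nat_lit 1814532188) (nat_lit 252) (nat_lit 23517905716) (nat_lit 336) (nat_lit 48604424811) (nat_lit 28) (nat_lit 5) (nat_lit 31) (nat_lit 5) (nat_lit 32) (nat_lit 5) (nat_lit 401) (nat_lit 347) (nat_lit 113)) (XT.nd (nat_lit 94) (nat_lit 0) (nat_lit 0) (XT.lf (nat_lit 0) (nat_lit 23302792074) (nat_lit 252) (nat_lit 8482280560) (nat_lit 336) (nat_lit 43894414731) (nat_lit 28) (nat_lit 5) (nat_lit 31) (nat_lit 5) (nat_lit 32) (nat_lit 5) (nat_lit 402) (nat_lit 347) (nat_lit 112)) (XT.lf (nat_lit 0) (nat_lit 38506617778) (nat_lit 336) (nat_lit 32089578625)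 (nat_lit 84) (nat_lit 6877804829) (nat_lit 28) (nat_lit 5) (nat_lit 32) (nat_lit 5) (nat_lit 29) (nat_lit 5) (nat_lit 403) (nat_lit 347) (nat_lit 111)))))) (XT.nd (nat_lit 564) (nat_lit 336) (nat_lit 0) (XT.nd (nat_lit 282) (nat_lit 168) (nat_lit 0) (XT.nd (nat_lit 94) (nat_lit 252) (nat_lit 0) (XT.lf (nat_lit 0) (nat_lit 45522552235) (nat_lit 336) (nat_lit 11261284528) (nat_lit 84) (nat_lit 22537644604) (nat_lit 28) (nat_lit 5) (nat_lit 32) (nat_lit 5) (nat_lit 29) (nat_lit 5) (nat_lit 404) (nat_lit 347) (nat_lit 110)) (XT.nd (nat_lit 94) (nat_lit 0) (nat_lit 0) (XT.lf (nat_lit 0) (nat_lit 10421720875) (nat_lit 252) (nat_lit 42436934204) (nat_lit 336) (nat_lit 28364398311) (nat_lit 25) (nat_lit 5) (nat_lit 28) (nat_lit 5) (nat_lit 29) (nat_lit 5) (nat_lit 405) (nat_lit 347) (nat_lit 109)) (XT.lf (nat_lit 0) (nat_lit 33014702020) (nat_lit 252) (nat_lit 27524321590) (nat_lit 336) (nat_lit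 22640931119) (nat_lit 25) (nat_lit 5) (nat_lit 28) (nat_lit 5) (nat_lit 29) (nat_lit 5) (nat_lit 406) (nat_lit 347) (nat_lit 108)))) (XT.nd (nat_lit 94) (nat_lit 168) (nat_lit 0) (XT.lf (nat_lit 0) (nat_lit 56307162824) (nat_lit 252) (nat_lit 12149643519) (nat_lit 336) (nat_lit 16740737400) (nat_lit 25) (nat_lit 5) (nat_lit 28) (nat_lit 5) (nat_lit 29) (nat_lit 5) (nat_lit 407) (nat_lit 347) (nat_lit 107)) (XT.nd (nat_lit 94) (nat_lit 168) (nat_lit 0) (XT.lf (nat_lit 0) (nat_lit 76656102133) (nat_lit 336) (nat_lit 6993605385) (nat_lit 84) (nat_lit 3626855238) (nat_lit 25) (nat_lit 5) (nat_lit 29) (nat_lit 5) (nat_lit 26) (nat_lit 5) (nat_lit 408) (nat_lit 347) (nat_lit 106)) (XT.lf (nat_lit 0) (nat_lit 15774662709) (nat_lit 168) (nat_lit 69615023047) (nat_lit 252) (nat_lit 4021664780) (nat_lit 23) (nat_lit 5) (nat_lit 25) (nat_lit 5) (nat_lit 26) (nat_lit 5) (nat_lit 409) (nat_lit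 347) (nat_lit 105))))) (XT.nd (nat_lit 282) (nat_lit 252) (nat_lit 0) (XT.nd (nat_lit 94) (nat_lit 0) (nat_lit 0) (XT.lf (nat_lit 0) (nat_lit 2798756899) (nat_lit 252) (nat_lit 52242263484) (nat_lit 84) (nat_lit 36568176990) (nat_lit 22) (nat_lit 5) (nat_lit 25) (nat_lit 5) (nat_lit 23) (nat_lit 5) (nat_lit 410) (nat_lit 347) (nat_lit 104)) (XT.nd (nat_lit 94) (nat_lit 0) (nat_lit 0) (XT.lf (nat_lit 0) (nat_lit 9746453968) (nat_lit 252) (nat_lit 30226594044) (nat_lit 84) (nat_lit 53900875869) (nat_lit 22) (nat_lit 5) (nat_lit 25) (nat_lit 5) (nat_lit 23) (nat_lit 5) (nat_lit 411) (nat_lit 347) (nat_lit 103)) (XT.lf (nat_lit 0) (nat_lit 16908929992) (nat_lit 252) (nat_lit 7529263184) (nat_lit 84) (nat_lit 71770684606) (nat_lit 22) (nat_lit 5) (nat_lit 25) (nat_lit 5) (nat_lit 23) (nat_lit 5) (nat_lit 412) (nat_lit 347) (nat_lit 102)))) (XT.nd (nat_lit 94) (nat_lit 0) (nat_lit 0) (XT.lf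 (nat_lit 0) (nat_lit 16197223339) (nat_lit 252) (nat_lit 8256316269) (nat_lit 336) (nat_lit 74157714855) (nat_lit 19) (nat_lit 5) (nat_lit 22) (nat_lit 5) (nat_lit 23) (nat_lit 5) (nat_lit 413) (nat_lit 347) (nat_lit 101)) (XT.nd (nat_lit 94) (nat_lit 0) (nat_lit 0) (XT.lf (nat_lit 0) (nat_lit 32394450670) (nat_lit 336) (nat_lit 60352032961) (nat_lit 84) (nat_lit 8336588360) (nat_lit 19) (nat_lit 5) (nat_lit 23) (nat_lit 5) (nat_lit 20) (nat_lit 5) (nat_lit 414) (nat_lit 347) (nat_lit 100)) (XT.lf (nat_lit 0) (nat_lit 40665415767) (nat_lit 336) (nat_lit 37691340370) (nat_lit 84) (nat_lit 25272161347) (nat_lit 19) (nat_lit 5) (nat_lit 23) (nat_lit 5) (nat_lit 20) (nat_lit 5) (nat_lit 415) (nat_lit 347) (nat_lit 99))))))) (XT.nd (nat_lit 1128) (nat_lit 1680) (nat_lit 0) (XT.nd (nat_lit 564) (nat_lit 0) (nat_lit 168) (XT.nd (nat_lit 282) (nat_lit 0) (nat_lit 84) (XT.nd (nat_lit 94) (nat_lit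 0) (nat_lit 0) (XT.lf (nat_lit 0) (nat_lit 6884612207) (nat_lit 1092) (nat_lit 3262225695) (nat_lit 1092) (nat_lit 3262225695) (nat_lit 93) (nat_lit 3) (nat_lit 106) (nat_lit 3) (nat_lit 106) (nat_lit 5) (nat_lit 348) (nat_lit 348) (nat_lit 165)) (XT.nd (nat_lit 94) (nat_lit 0) (nat_lit 0) (XT.lf (nat_lit 84) (nat_lit 2886567411) (nat_lit 0) (nat_lit 11198976291) (nat_lit 1092) (nat_lit 13144662986) (nat_lit 94) (nat_lit 5) (nat_lit 93) (nat_lit 3) (nat_lit 106) (nat_lit 5) (nat_lit 349) (nat_lit 348) (nat_lit 164)) (XT.lf (nat_lit 84) (nat_lit 12726059974) (nat_lit 0) (nat_lit 1750702707) (nat_lit 1092) (nat_lit 13176296644) (nat_lit 94) (nat_lit 5) (nat_lit 93) (nat_lit 3) (nat_lit 106) (nat_lit 5) (nat_lit 350) (nat_lit 348) (nat_lit 163)))) (XT.nd (nat_lit 94) (nat_lit 0) (nat_lit 0) (XT.lf (nat_lit 0) (nat_lit 14956471939) (nat_lit 1008) (nat_lit 5299365438) (nat_lit 1092) (nat_lit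 7830831869) (nat_lit 94) (nat_lit 5) (nat_lit 106) (nat_lit 5) (nat_lit 107) (nat_lit 5) (nat_lit 351) (nat_lit 348) (nat_lit 162)) (XT.nd (nat_lit 94) (nat_lit 0) (nat_lit 0) (XT.lf (nat_lit 84) (nat_lit 4701947672) (nat_lit 0) (nat_lit 10810837365) (nat_lit 1092) (nat_lit 13019037927) (nat_lit 95) (nat_lit 5) (nat_lit 94) (nat_lit 5) (nat_lit 107) (nat_lit 5) (nat_lit 352) (nat_lit 348) (nat_lit 161)) (XT.lf (nat_lit 84) (nat_lit 15124055857) (nat_lit 0) (nat_lit 1014854794) (nat_lit 1092) (nat_lit 12850251362) (nat_lit 95) (nat_lit 5) (nat_lit 94) (nat_lit 5) (nat_lit 107) (nat_lit 5) (nat_lit 353) (nat_lit 348) (nat_lit 160))))) (XT.nd (nat_lit 282) (nat_lit 0) (nat_lit 84) (XT.nd (nat_lit 94) (nat_lit 0) (nat_lit 0) (XT.lf (nat_lit 0) (nat_lit 16871914597) (nat_lit 1008) (nat_lit 3683201600) (nat_lit 1092) (nat_lit 8902865536) (nat_lit 95) (nat_lit 5) (nat_lit 107) (nat_lit 5)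 (nat_lit 108) (nat_lit 5) (nat_lit 354) (nat_lit 348) (nat_lit 159)) (XT.nd (nat_lit 94) (nat_lit 0) (nat_lit 0) (XT.lf (nat_lit 84) (nat_lit 6942232496) (nat_lit 0) (nat_lit 10762082415) (nat_lit 1092) (nat_lit 12234657325) (nat_lit 96) (nat_lit 5) (nat_lit 95) (nat_lit 5) (nat_lit 108) (nat_lit 5) (nat_lit 355) (nat_lit 348) (nat_lit 158)) (XT.lf (nat_lit 84) (nat_lit 17973552756) (nat_lit 0) (nat_lit 624899498) (nat_lit 1092) (nat_lit 11835321093) (nat_lit 96) (nat_lit 5) (nat_lit 95) (nat_lit 5) (nat_lit 108) (nat_lit 5) (nat_lit 356) (nat_lit 348) (nat_lit 157)))) (XT.nd (nat_lit 94) (nat_lit 0) (nat_lit 0) (XT.lf (nat_lit 0) (nat_lit 19615360330) (nat_lit 1008) (nat_lit 1696184273) (nat_lit 1092) (nat_lit 9629435458) (nat_lit 96) (nat_lit 5) (nat_lit 108) (nat_lit 5) (nat_lit 109) (nat_lit 5) (nat_lit 357) (nat_lit 348) (nat_lit 156)) (XT.nd (nat_lit 94) (nat_lit 0) (nat_lit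 0) (XT.lf (nat_lit 84) (nat_lit 9586711462) (nat_lit 0) (nat_lit 11176218737) (nat_lit 1092) (nat_lit 10697919713) (nat_lit 97) (nat_lit 5) (nat_lit 96) (nat_lit 5) (nat_lit 109) (nat_lit 5) (nat_lit 358) (nat_lit 348) (nat_lit 155)) (XT.lf (nat_lit 84) (nat_lit 21253765905) (nat_lit 0) (nat_lit 707713782) (nat_lit 1092) (nat_lit 10034891092) (nat_lit 97) (nat_lit 5) (nat_lit 96) (nat_lit 5) (nat_lit 109) (nat_lit 5) (nat_lit 359) (nat_lit 348) (nat_lit 154)))))) (XT.nd (nat_lit 564) (nat_lit 2016) (nat_lit 0) (XT.nd (nat_lit 282) (nat_lit 0) (nat_lit 84) (XT.nd (nat_lit 94) (nat_lit 0) (nat_lit 0) (XT.lf (nat_lit 84) (nat_lit 645350553) (nat_lit 0) (nat_lit 22656059629) (nat_lit 1092) (nat_lit 9243863829) (nat_lit 98) (nat_lit 5) (nat_lit 97) (nat_lit 5) (nat_lit 110) (nat_lit 5) (nat_lit 360) (nat_lit 348) (nat_lit 153)) (XT.nd (nat_lit 94) (nat_lit 0) (nat_lit 0) (XT.lf (nat_lit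 84) (nat_lit 12605088910) (nat_lit 0) (nat_lit 12194912830) (nat_lit 1092) (nat_lit 8307572543) (nat_lit 98) (nat_lit 5) (nat_lit 97) (nat_lit 5) (nat_lit 110) (nat_lit 5) (nat_lit 361) (nat_lit 348) (nat_lit 152)) (XT.lf (nat_lit 84) (nat_lit 24934032901) (nat_lit 0) (nat_lit 1408909544) (nat_lit 1092) (nat_lit 7344440241) (nat_lit 98) (nat_lit 5) (nat_lit 97) (nat_lit 5) (nat_lit 110) (nat_lit 5) (nat_lit 362) (nat_lit 348) (nat_lit 151)))) (XT.nd (nat_lit 94) (nat_lit 0) (nat_lit 0) (XT.lf (nat_lit 84) (nat_lit 3329165718) (nat_lit 0) (nat_lit 24731874781) (nat_lit 1092) (nat_lit 6220188693) (nat_lit 99) (nat_lit 5) (nat_lit 98) (nat_lit 5) (nat_lit 111) (nat_lit 5) (nat_lit 363) (nat_lit 348) (nat_lit 150)) (XT.nd (nat_lit 94) (nat_lit 0) (nat_lit 0) (XT.lf (nat_lit 84) (nat_lit 15955535813) (nat_lit 0) (nat_lit 13980502089) (nat_lit 1092) (nat_lit 4954245072) (nat_lit 99) (nat_lit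 5) (nat_lit 98) (nat_lit 5) (nat_lit 111) (nat_lit 5) (nat_lit 364) (nat_lit 348) (nat_lit 149)) (XT.lf (nat_lit 84) (nat_lit 28971806718) (nat_lit 0) (nat_lit 2895420766) (nat_lit 1092) (nat_lit 3651060346) (nat_lit 99) (nat_lit 5) (nat_lit 98) (nat_lit 5) (nat_lit 111) (nat_lit 5) (nat_lit 365) (nat_lit 348) (nat_lit 148))))) (XT.nd (nat_lit 282) (nat_lit 1092) (nat_lit 0) (XT.nd (nat_lit 94) (nat_lit 84) (nat_lit 0) (XT.lf (nat_lit 0) (nat_lit 6265869763) (nat_lit 1008) (nat_lit 27737353135) (nat_lit 1092) (nat_lit 2158055011) (nat_lit 87) (nat_lit 5) (nat_lit 99) (nat_lit 5) (nat_lit 100) (nat_lit 5) (nat_lit 366) (nat_lit 348) (nat_lit 147)) (XT.nd (nat_lit 94) (nat_lit 84) (nat_lit 0) (XT.lf (nat_lit 0) (nat_lit 19582435492) (nat_lit 1008) (nat_lit 16718814518) (nat_lit 1092) (nat_lit 519990252) (nat_lit 87) (nat_lit 5) (nat_lit 99) (nat_lit 5) (nat_lit 100) (nat_lit 5) (nat_lit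 367) (nat_lit 348) (nat_lit 146)) (XT.lf (nat_lit 0) (nat_lit 1143502645) (nat_lit 1092) (nat_lit 4202970008) (nat_lit 84) (nat_lit 32154894496) (nat_lit 86) (nat_lit 5) (nat_lit 99) (nat_lit 5) (nat_lit 87) (nat_lit 5) (nat_lit 368) (nat_lit 348) (nat_lit 145)))) (XT.nd (nat_lit 188) (nat_lit 504) (nat_lit 0) (XT.nd (nat_lit 94) (nat_lit 0) (nat_lit 0) (XT.lf (nat_lit 0) (nat_lit 3003749176) (nat_lit 672) (nat_lit 28843900345) (nat_lit 84) (nat_lit 6349937001) (nat_lit 79) (nat_lit 5) (nat_lit 87) (nat_lit 5) (nat_lit 80) (nat_lit 5) (nat_lit 369) (nat_lit 348) (nat_lit 144)) (XT.lf (nat_lit 0) (nat_lit 5018956802) (nat_lit 672) (nat_lit 15550991116) (nat_lit 84) (nat_lit 18342433417) (nat_lit 79) (nat_lit 5) (nat_lit 87) (nat_lit 5) (nat_lit 80) (nat_lit 5) (nat_lit 370) (nat_lit 348) (nat_lit 143))) (XT.nd (nat_lit 94) (nat_lit 504) (nat_lit 0) (XT.lf (nat_lit 0) (nat_lit 7094979743)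 (nat_lit 672) (nat_lit 1847486992) (nat_lit 84) (nat_lit 30706927868) (nat_lit 79) (nat_lit 5) (nat_lit 87) (nat_lit 5) (nat_lit 80) (nat_lit 5) (nat_lit 371) (nat_lit 348) (nat_lit 142)) (XT.lf (nat_lit 0) (nat_lit 9389555339) (nat_lit 588) (nat_lit 27905069503) (nat_lit 84) (nat_lit 3109858585) (nat_lit 73) (nat_lit 5) (nat_lit 80) (nat_lit 5) (nat_lit 74) (nat_lit 5) (nat_lit 372) (nat_lit 348) (nat_lit 141))))))))
noncomputable def xc208 : XT := (XT.nd (nat_lit 2256) (nat_lit 1428) (nat_lit 0) (XT.nd (nat_lit 1128) (nat_lit 1428) (nat_lit 0) (XT.nd (nat_lit 564) (nat_lit 756) (nat_lit 0) (XT.nd (nat_lit 282) (nat_lit 420) (nat_lit 0) (XT.nd (nat_lit 94) (nat_lit 504) (nat_lit 0) (XT.lf (nat_lit 0) (nat_lit 11864633659) (nat_lit 588) (nat_lit 13945289513) (nat_lit 84) (nat_lit 15369674311) (nat_lit 73) (nat_lit 5) (nat_lit 80) (nat_lit 5) (nat_lit 74) (nat_lit 5) (nat_lit 373) (nat_lit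 348) (nat_lit 140)) (XT.nd (nat_lit 94) (nat_lit 0) (nat_lit 0) (XT.lf (nat_lit 0) (nat_lit 454970723) (nat_lit 504) (nat_lit 13964458552) (nat_lit 588) (nat_lit 27559225845) (nat_lit 67) (nat_lit 5) (nat_lit 73) (nat_lit 5) (nat_lit 74) (nat_lit 5) (nat_lit 374) (nat_lit 348) (nat_lit 139)) (XT.lf (nat_lit 0) (nat_lit 15595846832) (nat_lit 504) (nat_lit 1601645121) (nat_lit 588) (nat_lit 25600532971) (nat_lit 67) (nat_lit 5) (nat_lit 73) (nat_lit 5) (nat_lit 74) (nat_lit 5) (nat_lit 375) (nat_lit 348) (nat_lit 138)))) (XT.nd (nat_lit 94) (nat_lit 420) (nat_lit 0) (XT.lf (nat_lit 0) (nat_lit 20170782232) (nat_lit 588) (nat_lit 12548694006) (nat_lit 84) (nat_lit 10919943893) (nat_lit 67) (nat_lit 5) (nat_lit 74) (nat_lit 5) (nat_lit 68) (nat_lit 5) (nat_lit 376) (nat_lit 348) (nat_lit 137)) (XT.nd (nat_lit 94) (nat_lit 0) (nat_lit 0) (XT.lf (nat_lit 0) (nat_lit 2593529068) (nat_lit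 420) (nat_lit 20683421794) (nat_lit 504) (nat_lit 21228692886) (nat_lit 62) (nat_lit 5) (nat_lit 67) (nat_lit 5) (nat_lit 68) (nat_lit 5) (nat_lit 377) (nat_lit 348) (nat_lit 136)) (XT.lf (nat_lit 0) (nat_lit 18469809081) (nat_lit 420) (nat_lit 8139209944) (nat_lit 504) (nat_lit 18785690260) (nat_lit 62) (nat_lit 5) (nat_lit 67) (nat_lit 5) (nat_lit 68) (nat_lit 5) (nat_lit 378) (nat_lit 348) (nat_lit 135))))) (XT.nd (nat_lit 282) (nat_lit 336) (nat_lit 0) (XT.nd (nat_lit 94) (nat_lit 420) (nat_lit 0) (XT.lf (nat_lit 0) (nat_lit 30090604077) (nat_lit 504) (nat_lit 11522022087) (nat_lit 84) (nat_lit 4697283421) (nat_lit 62) (nat_lit 5) (nat_lit 68) (nat_lit 5) (nat_lit 63) (nat_lit 5) (nat_lit 379) (nat_lit 348) (nat_lit 134)) (XT.nd (nat_lit 94) (nat_lit 0) (nat_lit 0) (XT.lf (nat_lit 0) (nat_lit 4361634921) (nat_lit 420) (nat_lit 29443703322) (nat_lit 504) (nat_lit 13444267472) (nat_lit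 57) (nat_lit 5) (nat_lit 62) (nat_lit 5) (nat_lit 63) (nat_lit 5) (nat_lit 380) (nat_lit 348) (nat_lit 133)) (XT.lf (nat_lit 0) (nat_lit 20980617124) (nat_lit 420) (nat_lit 16773611065) (nat_lit 504) (nat_lit 10460521511) (nat_lit 57) (nat_lit 5) (nat_lit 62) (nat_lit 5) (nat_lit 63) (nat_lit 5) (nat_lit 381) (nat_lit 348) (nat_lit 132)))) (XT.nd (nat_lit 94) (nat_lit 336) (nat_lit 0) (XT.lf (nat_lit 0) (nat_lit 38113498746) (nat_lit 420) (nat_lit 3710805822) (nat_lit 504) (nat_lit 7385552742) (nat_lit 57) (nat_lit 5) (nat_lit 62) (nat_lit 5) (nat_lit 63) (nat_lit 5) (nat_lit 382) (nat_lit 348) (nat_lit 131)) (XT.nd (nat_lit 94) (nat_lit 0) (nat_lit 0) (XT.lf (nat_lit 0) (nat_lit 5555535456) (nat_lit 336) (nat_lit 40615726802) (nat_lit 420) (nat_lit 4059884898) (nat_lit 53) (nat_lit 5) (nat_lit 57) (nat_lit 5) (nat_lit 58) (nat_lit 5) (nat_lit 383) (nat_lit 348) (nat_lit 130)) (XT.lf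 (nat_lit 0) (nat_lit 22918862518) (nat_lit 336) (nat_lit 27886335317) (nat_lit 420) (nat_lit 474185960) (nat_lit 53) (nat_lit 5) (nat_lit 57) (nat_lit 5) (nat_lit 58) (nat_lit 5) (nat_lit 384) (nat_lit 348) (nat_lit 129)))))) (XT.nd (nat_lit 564) (nat_lit 588) (nat_lit 0) (XT.nd (nat_lit 282) (nat_lit 336) (nat_lit 0) (XT.nd (nat_lit 94) (nat_lit 420) (nat_lit 0) (XT.lf (nat_lit 0) (nat_lit 3156588580) (nat_lit 420) (nat_lit 11572902342) (nat_lit 84) (nat_lit 37629674857) (nat_lit 52) (nat_lit 5) (nat_lit 57) (nat_lit 5) (nat_lit 53) (nat_lit 5) (nat_lit 385) (nat_lit 348) (nat_lit 128)) (XT.nd (nat_lit 94) (nat_lit 0) (nat_lit 0) (XT.lf (nat_lit 0) (nat_lit 5846852191) (nat_lit 420) (nat_lit 1100099649) (nat_lit 504) (nat_lit 46523560596) (nat_lit 47) (nat_lit 5) (nat_lit 52) (nat_lit 5) (nat_lit 53) (nat_lit 5) (nat_lit 386) (nat_lit 348) (nat_lit 127)) (XT.lf (nat_lit 0) (nat_lit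 11104236111) (nat_lit 504) (nat_lit 30691583639) (nat_lit 84) (nat_lit 12812764122) (nat_lit 47) (nat_lit 5) (nat_lit 53) (nat_lit 5) (nat_lit 48) (nat_lit 5) (nat_lit 387) (nat_lit 348) (nat_lit 126)))) (XT.nd (nat_lit 94) (nat_lit 336) (nat_lit 0) (XT.lf (nat_lit 0) (nat_lit 15400584021) (nat_lit 504) (nat_lit 13247083410) (nat_lit 84) (nat_lit 27133957159) (nat_lit 47) (nat_lit 5) (nat_lit 53) (nat_lit 5) (nat_lit 48) (nat_lit 5) (nat_lit 388) (nat_lit 348) (nat_lit 125)) (XT.nd (nat_lit 94) (nat_lit 0) (nat_lit 0) (XT.lf (nat_lit 0) (nat_lit 4834416382) (nat_lit 336) (nat_lit 15042628719) (nat_lit 420) (nat_lit 37112534498) (nat_lit 43) (nat_lit 5) (nat_lit 47) (nat_lit 5) (nat_lit 48) (nat_lit 5) (nat_lit 389) (nat_lit 348) (nat_lit 124)) (XT.lf (nat_lit 0) (nat_lit 23756103190) (nat_lit 336) (nat_lit 873433448) (nat_lit 420) (nat_lit 33601194112) (nat_lit 43) (nat_lit 5) (nat_lit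 47) (nat_lit 5) (nat_lit 48) (nat_lit 5) (nat_lit 390) (nat_lit 348) (nat_lit 123))))) (XT.nd (nat_lit 282) (nat_lit 252) (nat_lit 0) (XT.nd (nat_lit 94) (nat_lit 336) (nat_lit 0) (XT.lf (nat_lit 0) (nat_lit 29664625072) (nat_lit 420) (nat_lit 16383417126) (nat_lit 84) (nat_lit 13458126491) (nat_lit 43) (nat_lit 5) (nat_lit 48) (nat_lit 5) (nat_lit 44) (nat_lit 5) (nat_lit 391) (nat_lit 348) (nat_lit 122)) (XT.nd (nat_lit 94) (nat_lit 0) (nat_lit 0) (XT.lf (nat_lit 0) (nat_lit 2304994446) (nat_lit 336) (nat_lit 32581652059) (nat_lit 420) (nat_lit 25933546828) (nat_lit 39) (nat_lit 5) (nat_lit 43) (nat_lit 5) (nat_lit 44) (nat_lit 5) (nat_lit 392) (nat_lit 348) (nat_lit 121)) (XT.lf (nat_lit 0) (nat_lit 21918944375) (nat_lit 336) (nat_lit 18521679304) (nat_lit 420) (nat_lit 21729060996) (nat_lit 39) (nat_lit 5) (nat_lit 43) (nat_lit 5) (nat_lit 44) (nat_lit 5) (nat_lit 393) (nat_lit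 348) (nat_lit 120)))) (XT.nd (nat_lit 94) (nat_lit 252) (nat_lit 0) (XT.lf (nat_lit 0) (nat_lit 42139838258) (nat_lit 336) (nat_lit 4026027838) (nat_lit 420) (nat_lit 17395176374) (nat_lit 39) (nat_lit 5) (nat_lit 43) (nat_lit 5) (nat_lit 44) (nat_lit 5) (nat_lit 394) (nat_lit 348) (nat_lit 119)) (XT.nd (nat_lit 94) (nat_lit 252) (nat_lit 0) (XT.lf (nat_lit 0) (nat_lit 52176026269) (nat_lit 420) (nat_lit 2117355511) (nat_lit 84) (nat_lit 10698824036) (nat_lit 39) (nat_lit 5) (nat_lit 44) (nat_lit 5) (nat_lit 40) (nat_lit 5) (nat_lit 395) (nat_lit 348) (nat_lit 118)) (XT.lf (nat_lit 0) (nat_lit 18107509008) (nat_lit 252) (nat_lit 40484941976) (nat_lit 336) (nat_lit 7868469637) (nat_lit 36) (nat_lit 5) (nat_lit 39) (nat_lit 5) (nat_lit 40) (nat_lit 5) (nat_lit 396) (nat_lit 348) (nat_lit 117))))))) (XT.nd (nat_lit 1128) (nat_lit 504) (nat_lit 0) (XT.nd (nat_lit 564) (nat_lit 252) (nat_lit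 0) (XT.nd (nat_lit 282) (nat_lit 252) (nat_lit 0) (XT.nd (nat_lit 94) (nat_lit 420) (nat_lit 0) (XT.lf (nat_lit 0) (nat_lit 39003189159) (nat_lit 252) (nat_lit 26225856009) (nat_lit 336) (nat_lit 2745465064) (nat_lit 36) (nat_lit 5) (nat_lit 39) (nat_lit 5) (nat_lit 40) (nat_lit 5) (nat_lit 397) (nat_lit 348) (nat_lit 116)) (XT.nd (nat_lit 94) (nat_lit 336) (nat_lit 0) (XT.lf (nat_lit 0) (nat_lit 2484423651) (nat_lit 336) (nat_lit 9014577826) (nat_lit 84) (nat_lit 58035268793) (nat_lit 35) (nat_lit 5) (nat_lit 39) (nat_lit 5) (nat_lit 36) (nat_lit 5) (nat_lit 398) (nat_lit 348) (nat_lit 115)) (XT.lf (nat_lit 0) (nat_lit 7973384283) (nat_lit 420) (nat_lit 59407089337) (nat_lit 84) (nat_lit 3756268942) (nat_lit 31) (nat_lit 5) (nat_lit 36) (nat_lit 5) (nat_lit 32) (nat_lit 5) (nat_lit 399) (nat_lit 348) (nat_lit 114)))) (XT.nd (nat_lit 94) (nat_lit 252) (nat_lit 0) (XT.lf (nat_lit 0)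 (nat_lit 13844376514) (nat_lit 420) (nat_lit 39597500677) (nat_lit 84) (nat_lit 19340449505) (nat_lit 31) (nat_lit 5) (nat_lit 36) (nat_lit 5) (nat_lit 32) (nat_lit 5) (nat_lit 400) (nat_lit 348) (nat_lit 113)) (XT.nd (nat_lit 94) (nat_lit 252) (nat_lit 0) (XT.lf (nat_lit 0) (nat_lit 19896603281) (nat_lit 420) (nat_lit 19174799977) (nat_lit 84) (nat_lit 35407547625) (nat_lit 31) (nat_lit 5) (nat_lit 36) (nat_lit 5) (nat_lit 32) (nat_lit 5) (nat_lit 401) (nat_lit 348) (nat_lit 112)) (XT.lf (nat_lit 0) (nat_lit 1918706520) (nat_lit 252) (nat_lit 24236033177) (nat_lit 336) (nat_lit 50072866806) (nat_lit 28) (nat_lit 5) (nat_lit 31) (nat_lit 5) (nat_lit 32) (nat_lit 5) (nat_lit 402) (nat_lit 348) (nat_lit 111))))) (XT.nd (nat_lit 282) (nat_lit 252) (nat_lit 0) (XT.nd (nat_lit 94) (nat_lit 0) (nat_lit 0) (XT.lf (nat_lit 0) (nat_lit 24071661494) (nat_lit 252) (nat_lit 8734632211) (nat_lit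 336) (nat_lit 45217997869) (nat_lit 28) (nat_lit 5) (nat_lit 31) (nat_lit 5) (nat_lit 32) (nat_lit 5) (nat_lit 403) (nat_lit 348) (nat_lit 110)) (XT.nd (nat_lit 94) (nat_lit 0) (nat_lit 0) (XT.lf (nat_lit 0) (nat_lit 39735229780) (nat_lit 336) (nat_lit 33038150305) (nat_lit 84) (nat_lit 7101090008) (nat_lit 28) (nat_lit 5) (nat_lit 32) (nat_lit 5) (nat_lit 29) (nat_lit 5) (nat_lit 404) (nat_lit 348) (nat_lit 109)) (XT.lf (nat_lit 0) (nat_lit 46967608630) (nat_lit 336) (nat_lit 11565568386) (nat_lit 84) (nat_lit 23246081935) (nat_lit 28) (nat_lit 5) (nat_lit 32) (nat_lit 5) (nat_lit 29) (nat_lit 5) (nat_lit 405) (nat_lit 348) (nat_lit 108)))) (XT.nd (nat_lit 94) (nat_lit 0) (nat_lit 0) (XT.lf (nat_lit 0) (nat_lit 10789156464) (nat_lit 252) (nat_lit 43741396261) (nat_lit 336) (nat_lit 29209249071) (nat_lit 25) (nat_lit 5) (nat_lit 28) (nat_lit 5) (nat_lit 29) (nat_lit 5) (nat_lit 406)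 (nat_lit 348) (nat_lit 107)) (XT.nd (nat_lit 94) (nat_lit 0) (nat_lit 0) (XT.lf (nat_lit 0) (nat_lit 34081186144) (nat_lit 252) (nat_lit 28366825896) (nat_lit 336) (nat_lit 23309390102) (nat_lit 25) (nat_lit 5) (nat_lit 28) (nat_lit 5) (nat_lit 29) (nat_lit 5) (nat_lit 407) (nat_lit 348) (nat_lit 106)) (XT.lf (nat_lit 0) (nat_lit 58094419462) (nat_lit 252) (nat_lit 12515856024) (nat_lit 336) (nat_lit 17227294942) (nat_lit 25) (nat_lit 5) (nat_lit 28) (nat_lit 5) (nat_lit 29) (nat_lit 5) (nat_lit 408) (nat_lit 348) (nat_lit 105)))))) (XT.nd (nat_lit 564) (nat_lit 0) (nat_lit 0) (XT.nd (nat_lit 282) (nat_lit 252) (nat_lit 0) (XT.nd (nat_lit 94) (nat_lit 252) (nat_lit 0) (XT.lf (nat_lit 0) (nat_lit 79062908396) (nat_lit 336) (nat_lit 7168963573) (nat_lit 84) (nat_lit 3749196940) (nat_lit 25) (nat_lit 5) (nat_lit 29) (nat_lit 5) (nat_lit 26) (nat_lit 5) (nat_lit 409) (nat_lit 348) (nat_lit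 104)) (XT.nd (nat_lit 94) (nat_lit 84) (nat_lit 0) (XT.lf (nat_lit 0) (nat_lit 16304701253) (nat_lit 168) (nat_lit 71762022741) (nat_lit 252) (nat_lit 4115330592) (nat_lit 23) (nat_lit 5) (nat_lit 25) (nat_lit 5) (nat_lit 26) (nat_lit 5) (nat_lit 410) (nat_lit 348) (nat_lit 103)) (XT.lf (nat_lit 0) (nat_lit 2914985965) (nat_lit 252) (nat_lit 53821265180) (nat_lit 84) (nat_lit 37711805788) (nat_lit 22) (nat_lit 5) (nat_lit 25) (nat_lit 5) (nat_lit 23) (nat_lit 5) (nat_lit 411) (nat_lit 348) (nat_lit 102)))) (XT.nd (nat_lit 94) (nat_lit 252) (nat_lit 0) (XT.lf (nat_lit 0) (nat_lit 10077175615) (nat_lit 252) (nat_lit 31124327992) (nat_lit 84) (nat_lit 55581517193) (nat_lit 22) (nat_lit 5) (nat_lit 25) (nat_lit 5) (nat_lit 23) (nat_lit 5) (nat_lit 412) (nat_lit 348) (nat_lit 101)) (XT.nd (nat_lit 94) (nat_lit 252) (nat_lit 0) (XT.lf (nat_lit 0) (nat_lit 17460829007) (nat_lit 252) (nat_lit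 7724561257) (nat_lit 84) (nat_lit 74004997916) (nat_lit 22) (nat_lit 5) (nat_lit 25) (nat_lit 5) (nat_lit 23) (nat_lit 5) (nat_lit 413) (nat_lit 348) (nat_lit 100)) (XT.lf (nat_lit 0) (nat_lit 16737060527) (nat_lit 252) (nat_lit 8501801665) (nat_lit 336) (nat_lit 76428393754) (nat_lit 19) (nat_lit 5) (nat_lit 22) (nat_lit 5) (nat_lit 23) (nat_lit 5) (nat_lit 414) (nat_lit 348) (nat_lit 99))))) (XT.nd (nat_lit 48034) (nat_lit 0) (nat_lit 6216) (XT.nd (nat_lit 47846) (nat_lit 0) (nat_lit 6216) (XT.lf (nat_lit 0) (nat_lit 33425222409) (nat_lit 336) (nat_lit 62185538707) (nat_lit 84) (nat_lit 8604964068) (nat_lit 19) (nat_lit 5) (nat_lit 23) (nat_lit 5) (nat_lit 20) (nat_lit 5) (nat_lit 415) (nat_lit 348) (nat_lit 98)) (XT.nd (nat_lit 94) (nat_lit 0) (nat_lit 0) (XT.lf (nat_lit 0) (nat_lit 7171559708) (nat_lit 1092) (nat_lit 3325248995) (nat_lit 1092) (nat_lit 3325248995) (nat_lit 93)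 (nat_lit 3) (nat_lit 106) (nat_lit 3) (nat_lit 106) (nat_lit 5) (nat_lit 349) (nat_lit 349) (nat_lit 163)) (XT.lf (nat_lit 84) (nat_lit 3051490822) (nat_lit 0) (nat_lit 11614080695) (nat_lit 1092) (nat_lit 13403536212) (nat_lit 94) (nat_lit 5) (nat_lit 93) (nat_lit 3) (nat_lit 106) (nat_lit 5) (nat_lit 350) (nat_lit 349) (nat_lit 162)))) (XT.nd (nat_lit 94) (nat_lit 0) (nat_lit 84) (XT.lf (nat_lit 84) (nat_lit 13193739338) (nat_lit 0) (nat_lit 1870867934) (nat_lit 1092) (nat_lit 13440618942) (nat_lit 94) (nat_lit 5) (nat_lit 93) (nat_lit 3) (nat_lit 106) (nat_lit 5) (nat_lit 351) (nat_lit 349) (nat_lit 161)) (XT.nd (nat_lit 94) (nat_lit 0) (nat_lit 0) (XT.lf (nat_lit 0) (nat_lit 15554372110) (nat_lit 1008) (nat_lit 5387115092) (nat_lit 1092) (nat_lit 8010963179) (nat_lit 94) (nat_lit 5) (nat_lit 106) (nat_lit 5) (nat_lit 107) (nat_lit 5) (nat_lit 352) (nat_lit 349) (nat_lit 160)) (XT.lf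 (nat_lit 84) (nat_lit 4923463920) (nat_lit 0) (nat_lit 11201181901) (nat_lit 1092) (nat_lit 13286882248) (nat_lit 95) (nat_lit 5) (nat_lit 94) (nat_lit 5) (nat_lit 107) (nat_lit 5) (nat_lit 353) (nat_lit 349) (nat_lit 159))))))))
noncomputable def xc209 : XT := (XT.nd (nat_lit 2256) (nat_lit 3024) (nat_lit 0) (XT.nd (nat_lit 1128) (nat_lit 2268) (nat_lit 0) (XT.nd (nat_lit 564) (nat_lit 0) (nat_lit 168) (XT.nd (nat_lit 282) (nat_lit 0) (nat_lit 84) (XT.nd (nat_lit 94) (nat_lit 0) (nat_lit 84) (XT.lf (nat_lit 84) (nat_lit 15666379639) (nat_lit 0) (nat_lit 1099863864) (nat_lit 1092) (nat_lit 13116944892) (nat_lit 95) (nat_lit 5) (nat_lit 94) (nat_lit 5) (nat_lit 107) (nat_lit 5) (nat_lit 354) (nat_lit 349) (nat_lit 158)) (XT.nd (nat_lit 94) (nat_lit 0) (nat_lit 0) (XT.lf (nat_lit 0) (nat_lit 17517635913) (nat_lit 1008) (nat_lit 3721098698) (nat_lit 1092) (nat_lit 9127962334) (nat_lit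 95) (nat_lit 5) (nat_lit 107) (nat_lit 5) (nat_lit 108) (nat_lit 5) (nat_lit 355) (nat_lit 349) (nat_lit 157)) (XT.lf (nat_lit 84) (nat_lit 7232951568) (nat_lit 0) (nat_lit 11139949047) (nat_lit 1092) (nat_lit 12489809087) (nat_lit 96) (nat_lit 5) (nat_lit 95) (nat_lit 5) (nat_lit 108) (nat_lit 5) (nat_lit 356) (nat_lit 349) (nat_lit 156)))) (XT.nd (nat_lit 94) (nat_lit 0) (nat_lit 84) (XT.lf (nat_lit 84) (nat_lit 18603972333) (nat_lit 0) (nat_lit 687183193) (nat_lit 1092) (nat_lit 12081825538) (nat_lit 96) (nat_lit 5) (nat_lit 95) (nat_lit 5) (nat_lit 108) (nat_lit 5) (nat_lit 357) (nat_lit 349) (nat_lit 155)) (XT.nd (nat_lit 94) (nat_lit 0) (nat_lit 0) (XT.lf (nat_lit 0) (nat_lit 20335682438) (nat_lit 1008) (nat_lit 1673204018) (nat_lit 1092) (nat_lit 9887164995) (nat_lit 96) (nat_lit 5) (nat_lit 108) (nat_lit 5) (nat_lit 109) (nat_lit 5) (nat_lit 358) (nat_lit 349) (nat_lit 154))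 (XT.lf (nat_lit 84) (nat_lit 9958696488) (nat_lit 0) (nat_lit 11557497481) (nat_lit 1092) (nat_lit 10915943545) (nat_lit 97) (nat_lit 5) (nat_lit 96) (nat_lit 5) (nat_lit 109) (nat_lit 5) (nat_lit 359) (nat_lit 349) (nat_lit 153))))) (XT.nd (nat_lit 282) (nat_lit 0) (nat_lit 84) (XT.nd (nat_lit 94) (nat_lit 0) (nat_lit 84) (XT.lf (nat_lit 84) (nat_lit 21985180632) (nat_lit 0) (nat_lit 763422029) (nat_lit 1092) (nat_lit 10235777101) (nat_lit 97) (nat_lit 5) (nat_lit 96) (nat_lit 5) (nat_lit 109) (nat_lit 5) (nat_lit 360) (nat_lit 349) (nat_lit 152)) (XT.nd (nat_lit 94) (nat_lit 0) (nat_lit 0) (XT.lf (nat_lit 84) (nat_lit 741340768) (nat_lit 0) (nat_lit 23385962355) (nat_lit 1092) (nat_lit 9423099196) (nat_lit 98) (nat_lit 5) (nat_lit 97) (nat_lit 5) (nat_lit 110) (nat_lit 5) (nat_lit 361) (nat_lit 349) (nat_lit 151)) (XT.lf (nat_lit 84) (nat_lit 13069546324) (nat_lit 0) (nat_lit 12599691187)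 (nat_lit 1092) (nat_lit 8461009899) (nat_lit 98) (nat_lit 5) (nat_lit 97) (nat_lit 5) (nat_lit 110) (nat_lit 5) (nat_lit 362) (nat_lit 349) (nat_lit 150)))) (XT.nd (nat_lit 94) (nat_lit 0) (nat_lit 84) (XT.lf (nat_lit 84) (nat_lit 25778471585) (nat_lit 0) (nat_lit 1478517903) (nat_lit 1092) (nat_lit 7471150485) (nat_lit 98) (nat_lit 5) (nat_lit 97) (nat_lit 5) (nat_lit 110) (nat_lit 5) (nat_lit 363) (nat_lit 349) (nat_lit 149)) (XT.nd (nat_lit 94) (nat_lit 0) (nat_lit 0) (XT.lf (nat_lit 84) (nat_lit 3506900078) (nat_lit 0) (nat_lit 25519009249) (nat_lit 1092) (nat_lit 6314577998) (nat_lit 99) (nat_lit 5) (nat_lit 98) (nat_lit 5) (nat_lit 111) (nat_lit 5) (nat_lit 364) (nat_lit 349) (nat_lit 148)) (XT.lf (nat_lit 84) (nat_lit 16522446679) (nat_lit 0) (nat_lit 14433729224) (nat_lit 1092) (nat_lit 5012349904) (nat_lit 99) (nat_lit 5) (nat_lit 98) (nat_lit 5) (nat_lit 111) (nat_lit 5)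 (nat_lit 365) (nat_lit 349) (nat_lit 147)))))) (XT.nd (nat_lit 564) (nat_lit 1008) (nat_lit 0) (XT.nd (nat_lit 282) (nat_lit 672) (nat_lit 0) (XT.nd (nat_lit 94) (nat_lit 924) (nat_lit 0) (XT.lf (nat_lit 84) (nat_lit 29940048396) (nat_lit 0) (nat_lit 3004414087) (nat_lit 1092) (nat_lit 3671637237) (nat_lit 99) (nat_lit 5) (nat_lit 98) (nat_lit 5) (nat_lit 111) (nat_lit 5) (nat_lit 366) (nat_lit 349) (nat_lit 146)) (XT.nd (nat_lit 94) (nat_lit 0) (nat_lit 0) (XT.lf (nat_lit 0) (nat_lit 6532928501) (nat_lit 1008) (nat_lit 28611595932) (nat_lit 1092) (nat_lit 2134579275) (nat_lit 87) (nat_lit 5) (nat_lit 99) (nat_lit 5) (nat_lit 100) (nat_lit 5) (nat_lit 367) (nat_lit 349) (nat_lit 145)) (XT.lf (nat_lit 0) (nat_lit 20260118320) (nat_lit 1008) (nat_lit 17251050095) (nat_lit 1092) (nat_lit 448451909) (nat_lit 87) (nat_lit 5) (nat_lit 99) (nat_lit 5) (nat_lit 100) (nat_lit 5) (nat_lit 368)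 (nat_lit 349) (nat_lit 144)))) (XT.nd (nat_lit 94) (nat_lit 588) (nat_lit 0) (XT.lf (nat_lit 0) (nat_lit 1262260565) (nat_lit 1092) (nat_lit 4262615973) (nat_lit 84) (nat_lit 33136021021) (nat_lit 86) (nat_lit 5) (nat_lit 99) (nat_lit 5) (nat_lit 87) (nat_lit 5) (nat_lit 369) (nat_lit 349) (nat_lit 143)) (XT.nd (nat_lit 94) (nat_lit 0) (nat_lit 0) (XT.lf (nat_lit 0) (nat_lit 3178248776) (nat_lit 672) (nat_lit 29665072716) (nat_lit 84) (nat_lit 6535450855) (nat_lit 79) (nat_lit 5) (nat_lit 87) (nat_lit 5) (nat_lit 80) (nat_lit 5) (nat_lit 370) (nat_lit 349) (nat_lit 142)) (XT.lf (nat_lit 0) (nat_lit 5253480812) (nat_lit 672) (nat_lit 15962277913) (nat_lit 84) (nat_lit 18900055455) (nat_lit 79) (nat_lit 5) (nat_lit 87) (nat_lit 5) (nat_lit 80) (nat_lit 5) (nat_lit 371) (nat_lit 349) (nat_lit 141))))) (XT.nd (nat_lit 282) (nat_lit 504) (nat_lit 0) (XT.nd (nat_lit 94) (nat_lit 504) (nat_lit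 0) (XT.lf (nat_lit 0) (nat_lit 7391487014) (nat_lit 672) (nat_lit 1836093785) (nat_lit 84) (nat_lit 31648179783) (nat_lit 79) (nat_lit 5) (nat_lit 87) (nat_lit 5) (nat_lit 80) (nat_lit 5) (nat_lit 372) (nat_lit 349) (nat_lit 140)) (XT.nd (nat_lit 94) (nat_lit 0) (nat_lit 0) (XT.lf (nat_lit 0) (nat_lit 9755497548) (nat_lit 588) (nat_lit 28699384425) (nat_lit 84) (nat_lit 3199439573) (nat_lit 73) (nat_lit 5) (nat_lit 80) (nat_lit 5) (nat_lit 74) (nat_lit 5) (nat_lit 373) (nat_lit 349) (nat_lit 139)) (XT.lf (nat_lit 0) (nat_lit 12305052232) (nat_lit 588) (nat_lit 14308978325) (nat_lit 84) (nat_lit 15839514788) (nat_lit 73) (nat_lit 5) (nat_lit 80) (nat_lit 5) (nat_lit 74) (nat_lit 5) (nat_lit 374) (nat_lit 349) (nat_lit 138)))) (XT.nd (nat_lit 94) (nat_lit 0) (nat_lit 0) (XT.lf (nat_lit 0) (nat_lit 536995311) (nat_lit 504) (nat_lit 14400541603) (nat_lit 588) (nat_lit 28339894736) (nat_lit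 67) (nat_lit 5) (nat_lit 73) (nat_lit 5) (nat_lit 74) (nat_lit 5) (nat_lit 375) (nat_lit 349) (nat_lit 137)) (XT.nd (nat_lit 94) (nat_lit 0) (nat_lit 0) (XT.lf (nat_lit 0) (nat_lit 16145196353) (nat_lit 504) (nat_lit 1654385194) (nat_lit 588) (nat_lit 26322697398) (nat_lit 67) (nat_lit 5) (nat_lit 73) (nat_lit 5) (nat_lit 74) (nat_lit 5) (nat_lit 376) (nat_lit 349) (nat_lit 136)) (XT.lf (nat_lit 0) (nat_lit 20862940399) (nat_lit 588) (nat_lit 12871366309) (nat_lit 84) (nat_lit 11255526328) (nat_lit 67) (nat_lit 5) (nat_lit 74) (nat_lit 5) (nat_lit 68) (nat_lit 5) (nat_lit 377) (nat_lit 349) (nat_lit 135))))))) (XT.nd (nat_lit 1128) (nat_lit 1344) (nat_lit 0) (XT.nd (nat_lit 564) (nat_lit 840) (nat_lit 0) (XT.nd (nat_lit 282) (nat_lit 420) (nat_lit 0) (XT.nd (nat_lit 94) (nat_lit 0) (nat_lit 0) (XT.lf (nat_lit 0) (nat_lit 2739594076) (nat_lit 420) (nat_lit 21324447135) (nat_lit 504)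 (nat_lit 21818920618) (nat_lit 62) (nat_lit 5) (nat_lit 67) (nat_lit 5) (nat_lit 68) (nat_lit 5) (nat_lit 378) (nat_lit 349) (nat_lit 134)) (XT.nd (nat_lit 94) (nat_lit 0) (nat_lit 0) (XT.lf (nat_lit 0) (nat_lit 19106064343) (nat_lit 420) (nat_lit 8391369550) (nat_lit 504) (nat_lit 19302225370) (nat_lit 62) (nat_lit 5) (nat_lit 67) (nat_lit 5) (nat_lit 68) (nat_lit 5) (nat_lit 379) (nat_lit 349) (nat_lit 133)) (XT.lf (nat_lit 0) (nat_lit 31085039210) (nat_lit 504) (nat_lit 11815212878) (nat_lit 84) (nat_lit 4843047374) (nat_lit 62) (nat_lit 5) (nat_lit 68) (nat_lit 5) (nat_lit 63) (nat_lit 5) (nat_lit 380) (nat_lit 349) (nat_lit 132)))) (XT.nd (nat_lit 94) (nat_lit 0) (nat_lit 0) (XT.lf (nat_lit 0) (nat_lit 4560189638) (nat_lit 420) (nat_lit 30353515902) (nat_lit 504) (nat_lit 13798467823) (nat_lit 57) (nat_lit 5) (nat_lit 62) (nat_lit 5) (nat_lit 63) (nat_lit 5) (nat_lit 381) (nat_lit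 349) (nat_lit 131)) (XT.nd (nat_lit 94) (nat_lit 0) (nat_lit 0) (XT.lf (nat_lit 0) (nat_lit 21692455667) (nat_lit 420) (nat_lit 17290739252) (nat_lit 504) (nat_lit 10724107144) (nat_lit 57) (nat_lit 5) (nat_lit 62) (nat_lit 5) (nat_lit 63) (nat_lit 5) (nat_lit 382) (nat_lit 349) (nat_lit 130)) (XT.lf (nat_lit 0) (nat_lit 39354609265) (nat_lit 420) (nat_lit 3823072853) (nat_lit 504) (nat_lit 7555639180) (nat_lit 57) (nat_lit 5) (nat_lit 62) (nat_lit 5) (nat_lit 63) (nat_lit 5) (nat_lit 383) (nat_lit 349) (nat_lit 129))))) (XT.nd (nat_lit 282) (nat_lit 420) (nat_lit 0) (XT.nd (nat_lit 94) (nat_lit 84) (nat_lit 0) (XT.lf (nat_lit 0) (nat_lit 5788739536) (nat_lit 336) (nat_lit 41869578964) (nat_lit 420) (nat_lit 4127994434) (nat_lit 53) (nat_lit 5) (nat_lit 57) (nat_lit 5) (nat_lit 58) (nat_lit 5) (nat_lit 384) (nat_lit 349) (nat_lit 128)) (XT.nd (nat_lit 94) (nat_lit 84) (nat_lit 0) (XT.lf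 (nat_lit 0) (nat_lit 23688496123) (nat_lit 336) (nat_lit 28745733760) (nat_lit 420) (nat_lit 432875157) (nat_lit 53) (nat_lit 5) (nat_lit 57) (nat_lit 5) (nat_lit 58) (nat_lit 5) (nat_lit 385) (nat_lit 349) (nat_lit 127)) (XT.lf (nat_lit 0) (nat_lit 3307674717) (nat_lit 420) (nat_lit 11872949523) (nat_lit 84) (nat_lit 38799777640) (nat_lit 52) (nat_lit 5) (nat_lit 57) (nat_lit 5) (nat_lit 53) (nat_lit 5) (nat_lit 386) (nat_lit 349) (nat_lit 126)))) (XT.nd (nat_lit 94) (nat_lit 0) (nat_lit 0) (XT.lf (nat_lit 0) (nat_lit 6086222986) (nat_lit 420) (nat_lit 1128292223) (nat_lit 504) (nat_lit 47911724272) (nat_lit 47) (nat_lit 5) (nat_lit 52) (nat_lit 5) (nat_lit 53) (nat_lit 5) (nat_lit 387) (nat_lit 349) (nat_lit 125)) (XT.nd (nat_lit 94) (nat_lit 0) (nat_lit 0) (XT.lf (nat_lit 0) (nat_lit 11499162382) (nat_lit 504) (nat_lit 31584905772) (nat_lit 84) (nat_lit 13215577105) (nat_lit 47)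 (nat_lit 5) (nat_lit 53) (nat_lit 5) (nat_lit 48) (nat_lit 5) (nat_lit 388) (nat_lit 349) (nat_lit 124)) (XT.lf (nat_lit 0) (nat_lit 15927172787) (nat_lit 504) (nat_lit 13601373491) (nat_lit 84) (nat_lit 27980558227) (nat_lit 47) (nat_lit 5) (nat_lit 53) (nat_lit 5) (nat_lit 48) (nat_lit 5) (nat_lit 389) (nat_lit 349) (nat_lit 123)))))) (XT.nd (nat_lit 564) (nat_lit 672) (nat_lit 0) (XT.nd (nat_lit 282) (nat_lit 336) (nat_lit 0) (XT.nd (nat_lit 94) (nat_lit 0) (nat_lit 0) (XT.lf (nat_lit 0) (nat_lit 5040082104) (nat_lit 336) (nat_lit 15501397129) (nat_lit 420) (nat_lit 38213062358) (nat_lit 43) (nat_lit 5) (nat_lit 47) (nat_lit 5) (nat_lit 48) (nat_lit 5) (nat_lit 390) (nat_lit 349) (nat_lit 122)) (XT.nd (nat_lit 94) (nat_lit 0) (nat_lit 0) (XT.lf (nat_lit 0) (nat_lit 24546663450) (nat_lit 336) (nat_lit 893183909) (nat_lit 420) (nat_lit 34594372633) (nat_lit 43) (nat_lit 5) (nat_lit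 47) (nat_lit 5) (nat_lit 48) (nat_lit 5) (nat_lit 391) (nat_lit 349) (nat_lit 121)) (XT.lf (nat_lit 0) (nat_lit 30629686995) (nat_lit 420) (nat_lit 16837266397) (nat_lit 84) (nat_lit 13882290947) (nat_lit 43) (nat_lit 5) (nat_lit 48) (nat_lit 5) (nat_lit 44) (nat_lit 5) (nat_lit 392) (nat_lit 349) (nat_lit 120)))) (XT.nd (nat_lit 94) (nat_lit 0) (nat_lit 0) (XT.lf (nat_lit 0) (nat_lit 2429938862) (nat_lit 336) (nat_lit 33582816012) (nat_lit 420) (nat_lit 26691281001) (nat_lit 39) (nat_lit 5) (nat_lit 43) (nat_lit 5) (nat_lit 44) (nat_lit 5) (nat_lit 393) (nat_lit 349) (nat_lit 119)) (XT.nd (nat_lit 94) (nat_lit 0) (nat_lit 0) (XT.lf (nat_lit 0) (nat_lit 22650312919) (nat_lit 336) (nat_lit 19087250721) (nat_lit 420) (nat_lit 22357845419) (nat_lit 39) (nat_lit 5) (nat_lit 43) (nat_lit 5) (nat_lit 44) (nat_lit 5) (nat_lit 394) (nat_lit 349) (nat_lit 118)) (XT.lf (nat_lit 0) (nat_lit 43496494552)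 (nat_lit 336) (nat_lit 4142492663) (nat_lit 420) (nat_lit 17890957910) (nat_lit 39) (nat_lit 5) (nat_lit 43) (nat_lit 5) (nat_lit 44) (nat_lit 5) (nat_lit 395) (nat_lit 349) (nat_lit 117))))) (XT.nd (nat_lit 282) (nat_lit 420) (nat_lit 0) (XT.nd (nat_lit 94) (nat_lit 252) (nat_lit 0) (XT.lf (nat_lit 0) (nat_lit 53834280391) (nat_lit 420) (nat_lit 2132820675) (nat_lit 84) (nat_lit 11038415773) (nat_lit 39) (nat_lit 5) (nat_lit 44) (nat_lit 5) (nat_lit 40) (nat_lit 5) (nat_lit 396) (nat_lit 349) (nat_lit 116)) (XT.nd (nat_lit 94) (nat_lit 0) (nat_lit 0) (XT.lf (nat_lit 0) (nat_lit 18718506689) (nat_lit 252) (nat_lit 41730373575) (nat_lit 336) (nat_lit 8070909783) (nat_lit 36) (nat_lit 5) (nat_lit 39) (nat_lit 5) (nat_lit 40) (nat_lit 5) (nat_lit 397) (nat_lit 349) (nat_lit 115)) (XT.lf (nat_lit 0) (nat_lit 40260459606) (nat_lit 252) (nat_lit 27029544643) (nat_lit 336) (nat_lit 2790339357)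 (nat_lit 36) (nat_lit 5) (nat_lit 39) (nat_lit 5) (nat_lit 40) (nat_lit 5) (nat_lit 398) (nat_lit 349) (nat_lit 114)))) (XT.nd (nat_lit 188) (nat_lit 0) (nat_lit 0) (XT.nd (nat_lit 94) (nat_lit 336) (nat_lit 0) (XT.lf (nat_lit 0) (nat_lit 2599679849) (nat_lit 336) (nat_lit 9246358654) (nat_lit 84) (nat_lit 59842447088) (nat_lit 35) (nat_lit 5) (nat_lit 39) (nat_lit 5) (nat_lit 36) (nat_lit 5) (nat_lit 399) (nat_lit 349) (nat_lit 113)) (XT.lf (nat_lit 0) (nat_lit 8258212149) (nat_lit 420) (nat_lit 61200295123) (nat_lit 84) (nat_lit 3882150282) (nat_lit 31) (nat_lit 5) (nat_lit 36) (nat_lit 5) (nat_lit 32) (nat_lit 5) (nat_lit 400) (nat_lit 349) (nat_lit 112))) (XT.nd (nat_lit 94) (nat_lit 0) (nat_lit 0) (XT.lf (nat_lit 0) (nat_lit 14310072994) (nat_lit 420) (nat_lit 40778064922) (nat_lit 84) (nat_lit 19949156691) (nat_lit 31) (nat_lit 5) (nat_lit 36) (nat_lit 5) (nat_lit 32) (nat_lit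 5) (nat_lit 401) (nat_lit 349) (nat_lit 111)) (XT.lf (nat_lit 0) (nat_lit 20548820687) (nat_lit 420) (nat_lit 19723672436) (nat_lit 84) (nat_lit 36514059633) (nat_lit 31) (nat_lit 5) (nat_lit 36) (nat_lit 5) (nat_lit 32) (nat_lit 5) (nat_lit 402) (nat_lit 349) (nat_lit 110))))))))
noncomputable def xc210 : XT := (XT.nd (nat_lit 50008) (nat_lit 0) (nat_lit 3192) (XT.nd (nat_lit 1128) (nat_lit 252) (nat_lit 0) (XT.nd (nat_lit 564) (nat_lit 252) (nat_lit 0) (XT.nd (nat_lit 282) (nat_lit 252) (nat_lit 0) (XT.nd (nat_lit 94) (nat_lit 0) (nat_lit 0) (XT.lf (nat_lit 0) (nat_lit 2023271647) (nat_lit 252) (nat_lit 24977069850) (nat_lit 336) (nat_lit 51589098793) (nat_lit 28) (nat_lit 5) (nat_lit 31) (nat_lit 5) (nat_lit 32) (nat_lit 5) (nat_lit 403) (nat_lit 349) (nat_lit 109)) (XT.nd (nat_lit 94) (nat_lit 0) (nat_lit 0) (XT.lf (nat_lit 0) (nat_lit 24861612607) (nat_lit 252) (nat_lit 8995434563)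 (nat_lit 336) (nat_lit 46584812171) (nat_lit 28) (nat_lit 5) (nat_lit 31) (nat_lit 5) (nat_lit 32) (nat_lit 5) (nat_lit 404) (nat_lit 349) (nat_lit 108)) (XT.lf (nat_lit 0) (nat_lit 40999861162) (nat_lit 336) (nat_lit 34018864523) (nat_lit 84) (nat_lit 7330700372) (nat_lit 28) (nat_lit 5) (nat_lit 32) (nat_lit 5) (nat_lit 29) (nat_lit 5) (nat_lit 405) (nat_lit 349) (nat_lit 107)))) (XT.nd (nat_lit 94) (nat_lit 252) (nat_lit 0) (XT.lf (nat_lit 0) (nat_lit 48455456349) (nat_lit 336) (nat_lit 11881939569) (nat_lit 84) (nat_lit 23975902108) (nat_lit 28) (nat_lit 5) (nat_lit 32) (nat_lit 5) (nat_lit 29) (nat_lit 5) (nat_lit 406) (nat_lit 349) (nat_lit 106)) (XT.nd (nat_lit 94) (nat_lit 0) (nat_lit 0) (XT.lf (nat_lit 0) (nat_lit 11165354904) (nat_lit 252) (nat_lit 45086953101) (nat_lit 336) (nat_lit 30082330475) (nat_lit 25) (nat_lit 5) (nat_lit 28) (nat_lit 5) (nat_lit 29) (nat_lit 5) (nat_lit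 407) (nat_lit 349) (nat_lit 105)) (XT.lf (nat_lit 0) (nat_lit 35178182634) (nat_lit 252) (nat_lit 29236084556) (nat_lit 336) (nat_lit 24000550238) (nat_lit 25) (nat_lit 5) (nat_lit 28) (nat_lit 5) (nat_lit 29) (nat_lit 5) (nat_lit 408) (nat_lit 349) (nat_lit 104))))) (XT.nd (nat_lit 282) (nat_lit 84) (nat_lit 0) (XT.nd (nat_lit 94) (nat_lit 168) (nat_lit 0) (XT.lf (nat_lit 0) (nat_lit 59934609044) (nat_lit 252) (nat_lit 12894038692) (nat_lit 336) (nat_lit 17730855191) (nat_lit 25) (nat_lit 5) (nat_lit 28) (nat_lit 5) (nat_lit 29) (nat_lit 5) (nat_lit 409) (nat_lit 349) (nat_lit 103)) (XT.nd (nat_lit 94) (nat_lit 168) (nat_lit 0) (XT.lf (nat_lit 0) (nat_lit 81542521035) (nat_lit 336) (nat_lit 7352212640) (nat_lit 84) (nat_lit 3874744297) (nat_lit 25) (nat_lit 5) (nat_lit 29) (nat_lit 5) (nat_lit 26) (nat_lit 5) (nat_lit 410) (nat_lit 349) (nat_lit 102)) (XT.lf (nat_lit 0) (nat_lit 16848741069)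 (nat_lit 168) (nat_lit 73976234885) (nat_lit 252) (nat_lit 4213736572) (nat_lit 23) (nat_lit 5) (nat_lit 25) (nat_lit 5) (nat_lit 26) (nat_lit 5) (nat_lit 411) (nat_lit 349) (nat_lit 101)))) (XT.nd (nat_lit 94) (nat_lit 0) (nat_lit 0) (XT.lf (nat_lit 0) (nat_lit 3033072715) (nat_lit 252) (nat_lit 55451615315) (nat_lit 84) (nat_lit 38890293854) (nat_lit 22) (nat_lit 5) (nat_lit 25) (nat_lit 5) (nat_lit 23) (nat_lit 5) (nat_lit 412) (nat_lit 349) (nat_lit 100)) (XT.nd (nat_lit 94) (nat_lit 0) (nat_lit 0) (XT.lf (nat_lit 0) (nat_lit 10416456696) (nat_lit 252) (nat_lit 32052218934) (nat_lit 84) (nat_lit 57313683010) (nat_lit 22) (nat_lit 5) (nat_lit 25) (nat_lit 5) (nat_lit 23) (nat_lit 5) (nat_lit 413) (nat_lit 349) (nat_lit 99)) (XT.lf (nat_lit 0) (nat_lit 18028194859) (nat_lit 252) (nat_lit 7928170837) (nat_lit 84) (nat_lit 76308016852) (nat_lit 22) (nat_lit 5) (nat_lit 25) (nat_lit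 5) (nat_lit 23) (nat_lit 5) (nat_lit 414) (nat_lit 349) (nat_lit 98)))))) (XT.nd (nat_lit 48316) (nat_lit 0) (nat_lit 6300) (XT.nd (nat_lit 48034) (nat_lit 0) (nat_lit 6216) (XT.nd (nat_lit 94) (nat_lit 0) (nat_lit 0) (XT.lf (nat_lit 0) (nat_lit 17291398256) (nat_lit 252) (nat_lit 8755516696) (nat_lit 336) (nat_lit 78771134642) (nat_lit 19) (nat_lit 5) (nat_lit 22) (nat_lit 5) (nat_lit 23) (nat_lit 5) (nat_lit 415) (nat_lit 349) (nat_lit 97)) (XT.nd (nat_lit 47846) (nat_lit 0) (nat_lit 6216) (XT.lf (nat_lit 0) (nat_lit 34486375840) (nat_lit 336) (nat_lit 64078098829) (nat_lit 84) (nat_lit 8881070573) (nat_lit 19) (nat_lit 5) (nat_lit 23) (nat_lit 5) (nat_lit 20) (nat_lit 5) (nat_lit 416) (nat_lit 349) (nat_lit 96)) (XT.lf (nat_lit 0) (nat_lit 7463047597) (nat_lit 1092) (nat_lit 3392483083) (nat_lit 1092) (nat_lit 3392483083) (nat_lit 93) (nat_lit 3) (nat_lit 106) (nat_lit 3) (nat_lit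 106) (nat_lit 5) (nat_lit 350) (nat_lit 350) (nat_lit 161)))) (XT.nd (nat_lit 94) (nat_lit 0) (nat_lit 0) (XT.lf (nat_lit 84) (nat_lit 3217058430) (nat_lit 0) (nat_lit 12038029362) (nat_lit 1092) (nat_lit 13679237011) (nat_lit 94) (nat_lit 5) (nat_lit 93) (nat_lit 3) (nat_lit 106) (nat_lit 5) (nat_lit 351) (nat_lit 350) (nat_lit 160)) (XT.nd (nat_lit 94) (nat_lit 0) (nat_lit 84) (XT.lf (nat_lit 84) (nat_lit 13671582689) (nat_lit 0) (nat_lit 1990855301) (nat_lit 1092) (nat_lit 13721673063) (nat_lit 94) (nat_lit 5) (nat_lit 93) (nat_lit 3) (nat_lit 106) (nat_lit 5) (nat_lit 352) (nat_lit 350) (nat_lit 159)) (XT.lf (nat_lit 0) (nat_lit 16162855357) (nat_lit 1008) (nat_lit 5482118028) (nat_lit 1092) (nat_lit 8200387915) (nat_lit 94) (nat_lit 5) (nat_lit 106) (nat_lit 5) (nat_lit 107) (nat_lit 5) (nat_lit 353) (nat_lit 350) (nat_lit 158))))) (XT.nd (nat_lit 282) (nat_lit 0) (nat_lit 84)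 (XT.nd (nat_lit 94) (nat_lit 0) (nat_lit 0) (XT.lf (nat_lit 84) (nat_lit 5147360022) (nat_lit 0) (nat_lit 11600357018) (nat_lit 1092) (nat_lit 13571070203) (nat_lit 95) (nat_lit 5) (nat_lit 94) (nat_lit 5) (nat_lit 107) (nat_lit 5) (nat_lit 354) (nat_lit 350) (nat_lit 157)) (XT.nd (nat_lit 94) (nat_lit 0) (nat_lit 84) (XT.lf (nat_lit 84) (nat_lit 16221163228) (nat_lit 0) (nat_lit 1184336441) (nat_lit 1092) (nat_lit 13399704622) (nat_lit 95) (nat_lit 5) (nat_lit 94) (nat_lit 5) (nat_lit 107) (nat_lit 5) (nat_lit 355) (nat_lit 350) (nat_lit 156)) (XT.lf (nat_lit 0) (nat_lit 18176107334) (nat_lit 1008) (nat_lit 3764688927) (nat_lit 1092) (nat_lit 9363051555) (nat_lit 95) (nat_lit 5) (nat_lit 107) (nat_lit 5) (nat_lit 108) (nat_lit 5) (nat_lit 356) (nat_lit 350) (nat_lit 155)))) (XT.nd (nat_lit 94) (nat_lit 0) (nat_lit 0) (XT.lf (nat_lit 84) (nat_lit 7528210352) (nat_lit 0) (nat_lit 11526909010)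 (nat_lit 1092) (nat_lit 12760222550) (nat_lit 96) (nat_lit 5) (nat_lit 95) (nat_lit 5) (nat_lit 108) (nat_lit 5) (nat_lit 357) (nat_lit 350) (nat_lit 154)) (XT.nd (nat_lit 94) (nat_lit 0) (nat_lit 84) (XT.lf (nat_lit 84) (nat_lit 19249596819) (nat_lit 0) (nat_lit 748855942) (nat_lit 1092) (nat_lit 12343102557) (nat_lit 96) (nat_lit 5) (nat_lit 95) (nat_lit 5) (nat_lit 108) (nat_lit 5) (nat_lit 358) (nat_lit 350) (nat_lit 153)) (XT.lf (nat_lit 0) (nat_lit 21071686012) (nat_lit 1008) (nat_lit 1653987040) (nat_lit 1092) (nat_lit 10155299793) (nat_lit 96) (nat_lit 5) (nat_lit 108) (nat_lit 5) (nat_lit 109) (nat_lit 5) (nat_lit 359) (nat_lit 350) (nat_lit 152))))))) (XT.nd (nat_lit 1128) (nat_lit 1848) (nat_lit 0) (XT.nd (nat_lit 564) (nat_lit 1428) (nat_lit 0) (XT.nd (nat_lit 282) (nat_lit 0) (nat_lit 84) (XT.nd (nat_lit 94) (nat_lit 0) (nat_lit 0) (XT.lf (nat_lit 84) (nat_lit 10337782697)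 (nat_lit 0) (nat_lit 11948533657) (nat_lit 1092) (nat_lit 11147455530) (nat_lit 97) (nat_lit 5) (nat_lit 96) (nat_lit 5) (nat_lit 109) (nat_lit 5) (nat_lit 360) (nat_lit 350) (nat_lit 151)) (XT.nd (nat_lit 94) (nat_lit 0) (nat_lit 84) (XT.lf (nat_lit 84) (nat_lit 22734972073) (nat_lit 0) (nat_lit 818857030) (nat_lit 1092) (nat_lit 10449417651) (nat_lit 97) (nat_lit 5) (nat_lit 96) (nat_lit 5) (nat_lit 109) (nat_lit 5) (nat_lit 361) (nat_lit 350) (nat_lit 150)) (XT.lf (nat_lit 84) (nat_lit 835805996) (nat_lit 0) (nat_lit 24136859351) (nat_lit 1092) (nat_lit 9614247868) (nat_lit 98) (nat_lit 5) (nat_lit 97) (nat_lit 5) (nat_lit 110) (nat_lit 5) (nat_lit 362) (nat_lit 350) (nat_lit 149)))) (XT.nd (nat_lit 94) (nat_lit 0) (nat_lit 0) (XT.lf (nat_lit 84) (nat_lit 13544036561) (nat_lit 0) (nat_lit 13015434051) (nat_lit 1092) (nat_lit 8625369680) (nat_lit 98) (nat_lit 5) (nat_lit 97) (nat_lit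 5) (nat_lit 110) (nat_lit 5) (nat_lit 363) (nat_lit 350) (nat_lit 148)) (XT.nd (nat_lit 94) (nat_lit 0) (nat_lit 84) (XT.lf (nat_lit 84) (nat_lit 26644853769) (nat_lit 0) (nat_lit 1548748114) (nat_lit 1092) (nat_lit 7607769218) (nat_lit 98) (nat_lit 5) (nat_lit 97) (nat_lit 5) (nat_lit 110) (nat_lit 5) (nat_lit 364) (nat_lit 350) (nat_lit 147)) (XT.lf (nat_lit 84) (nat_lit 3685729650) (nat_lit 0) (nat_lit 26329333813) (nat_lit 1092) (nat_lit 6417723937) (nat_lit 99) (nat_lit 5) (nat_lit 98) (nat_lit 5) (nat_lit 111) (nat_lit 5) (nat_lit 365) (nat_lit 350) (nat_lit 146))))) (XT.nd (nat_lit 282) (nat_lit 672) (nat_lit 0) (XT.nd (nat_lit 94) (nat_lit 924) (nat_lit 0) (XT.lf (nat_lit 84) (nat_lit 17102649965) (nat_lit 0) (nat_lit 14899831743) (nat_lit 1092) (nat_lit 5077911238) (nat_lit 99) (nat_lit 5) (nat_lit 98) (nat_lit 5) (nat_lit 111) (nat_lit 5) (nat_lit 366) (nat_lit 350) (nat_lit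 145)) (XT.nd (nat_lit 94) (nat_lit 924) (nat_lit 0) (XT.lf (nat_lit 84) (nat_lit 30934152495) (nat_lit 0) (nat_lit 3115646863) (nat_lit 1092) (nat_lit 3698337223) (nat_lit 99) (nat_lit 5) (nat_lit 98) (nat_lit 5) (nat_lit 111) (nat_lit 5) (nat_lit 367) (nat_lit 350) (nat_lit 144)) (XT.lf (nat_lit 0) (nat_lit 6803952996) (nat_lit 1008) (nat_lit 29512088217) (nat_lit 1092) (nat_lit 2115728884) (nat_lit 87) (nat_lit 5) (nat_lit 99) (nat_lit 5) (nat_lit 100) (nat_lit 5) (nat_lit 368) (nat_lit 350) (nat_lit 143)))) (XT.nd (nat_lit 94) (nat_lit 672) (nat_lit 0) (XT.lf (nat_lit 0) (nat_lit 20954625938) (nat_lit 1008) (nat_lit 17798958556) (nat_lit 1092) (nat_lit 379888012) (nat_lit 87) (nat_lit 5) (nat_lit 99) (nat_lit 5) (nat_lit 100) (nat_lit 5) (nat_lit 369) (nat_lit 350) (nat_lit 142)) (XT.nd (nat_lit 94) (nat_lit 588) (nat_lit 0) (XT.lf (nat_lit 0) (nat_lit 1379765425) (nat_lit 1092)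 (nat_lit 4328295452) (nat_lit 84) (nat_lit 34148490938) (nat_lit 86) (nat_lit 5) (nat_lit 99) (nat_lit 5) (nat_lit 87) (nat_lit 5) (nat_lit 370) (nat_lit 350) (nat_lit 141)) (XT.lf (nat_lit 0) (nat_lit 3353337387) (nat_lit 672) (nat_lit 30516024667) (nat_lit 84) (nat_lit 6727386983) (nat_lit 79) (nat_lit 5) (nat_lit 87) (nat_lit 5) (nat_lit 80) (nat_lit 5) (nat_lit 371) (nat_lit 350) (nat_lit 140)))))) (XT.nd (nat_lit 564) (nat_lit 840) (nat_lit 0) (XT.nd (nat_lit 282) (nat_lit 504) (nat_lit 0) (XT.nd (nat_lit 94) (nat_lit 504) (nat_lit 0) (XT.lf (nat_lit 0) (nat_lit 5490599531) (nat_lit 672) (nat_lit 16390507846) (nat_lit 84) (nat_lit 19475614935) (nat_lit 79) (nat_lit 5) (nat_lit 87) (nat_lit 5) (nat_lit 80) (nat_lit 5) (nat_lit 372) (nat_lit 350) (nat_lit 139)) (XT.nd (nat_lit 94) (nat_lit 504) (nat_lit 0) (XT.lf (nat_lit 0) (nat_lit 7692651059) (nat_lit 672) (nat_lit 1828414553)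 (nat_lit 84) (nat_lit 32619242086) (nat_lit 79) (nat_lit 5) (nat_lit 87) (nat_lit 5) (nat_lit 80) (nat_lit 5) (nat_lit 373) (nat_lit 350) (nat_lit 138)) (XT.lf (nat_lit 0) (nat_lit 10128349523) (nat_lit 588) (nat_lit 29522513293) (nat_lit 84) (nat_lit 3292201805) (nat_lit 73) (nat_lit 5) (nat_lit 80) (nat_lit 5) (nat_lit 74) (nat_lit 5) (nat_lit 374) (nat_lit 350) (nat_lit 137)))) (XT.nd (nat_lit 94) (nat_lit 504) (nat_lit 0) (XT.lf (nat_lit 0) (nat_lit 12754822674) (nat_lit 588) (nat_lit 14688005684) (nat_lit 84) (nat_lit 16324312400) (nat_lit 73) (nat_lit 5) (nat_lit 80) (nat_lit 5) (nat_lit 74) (nat_lit 5) (nat_lit 375) (nat_lit 350) (nat_lit 136)) (XT.nd (nat_lit 94) (nat_lit 0) (nat_lit 0) (XT.lf (nat_lit 0) (nat_lit 617539614) (nat_lit 504) (nat_lit 14849954585) (nat_lit 588) (nat_lit 29149127791) (nat_lit 67) (nat_lit 5) (nat_lit 73) (nat_lit 5) (nat_lit 74) (nat_lit 5) (nat_lit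 376) (nat_lit 350) (nat_lit 135)) (XT.lf (nat_lit 0) (nat_lit 16707673627) (nat_lit 504) (nat_lit 1708577239) (nat_lit 588) (nat_lit 27071481152) (nat_lit 67) (nat_lit 5) (nat_lit 73) (nat_lit 5) (nat_lit 74) (nat_lit 5) (nat_lit 377) (nat_lit 350) (nat_lit 134))))) (XT.nd (nat_lit 282) (nat_lit 420) (nat_lit 0) (XT.nd (nat_lit 94) (nat_lit 420) (nat_lit 0) (XT.lf (nat_lit 0) (nat_lit 21572595006) (nat_lit 588) (nat_lit 13207970720) (nat_lit 84) (nat_lit 11601685712) (nat_lit 67) (nat_lit 5) (nat_lit 74) (nat_lit 5) (nat_lit 68) (nat_lit 5) (nat_lit 378) (nat_lit 350) (nat_lit 133)) (XT.nd (nat_lit 94) (nat_lit 0) (nat_lit 0) (XT.lf (nat_lit 0) (nat_lit 2886297612) (nat_lit 420) (nat_lit 21985353782) (nat_lit 504) (nat_lit 22431464978) (nat_lit 62) (nat_lit 5) (nat_lit 67) (nat_lit 5) (nat_lit 68) (nat_lit 5) (nat_lit 379) (nat_lit 350) (nat_lit 132)) (XT.lf (nat_lit 0) (nat_lit 19758270980)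 (nat_lit 420) (nat_lit 8651355339) (nat_lit 504) (nat_lit 19838671777) (nat_lit 62) (nat_lit 5) (nat_lit 67) (nat_lit 5) (nat_lit 68) (nat_lit 5) (nat_lit 380) (nat_lit 350) (nat_lit 131)))) (XT.nd (nat_lit 188) (nat_lit 0) (nat_lit 0) (XT.nd (nat_lit 94) (nat_lit 420) (nat_lit 0) (XT.lf (nat_lit 0) (nat_lit 32106651594) (nat_lit 504) (nat_lit 12121282933) (nat_lit 84) (nat_lit 4993321234) (nat_lit 62) (nat_lit 5) (nat_lit 68) (nat_lit 5) (nat_lit 63) (nat_lit 5) (nat_lit 381) (nat_lit 350) (nat_lit 130)) (XT.lf (nat_lit 0) (nat_lit 4761147574) (nat_lit 420) (nat_lit 31291706945) (nat_lit 504) (nat_lit 14167354628) (nat_lit 57) (nat_lit 5) (nat_lit 62) (nat_lit 5) (nat_lit 63) (nat_lit 5) (nat_lit 382) (nat_lit 350) (nat_lit 129))) (XT.nd (nat_lit 94) (nat_lit 0) (nat_lit 0) (XT.lf (nat_lit 0) (nat_lit 22422722042) (nat_lit 420) (nat_lit 17824067445) (nat_lit 504) (nat_lit 10999458736)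 (nat_lit 57) (nat_lit 5) (nat_lit 62) (nat_lit 5) (nat_lit 63) (nat_lit 5) (nat_lit 383) (nat_lit 350) (nat_lit 128)) (XT.lf (nat_lit 0) (nat_lit 40630664471) (nat_lit 420) (nat_lit 3938984112) (nat_lit 504) (nat_lit 7734485013) (nat_lit 57) (nat_lit 5) (nat_lit 62) (nat_lit 5) (nat_lit 63) (nat_lit 5) (nat_lit 384) (nat_lit 350) (nat_lit 127))))))))
noncomputable def xc211 : XT := (XT.nd (nat_lit 2256) (nat_lit 504) (nat_lit 0) (XT.nd (nat_lit 1128) (nat_lit 1176) (nat_lit 0) (XT.nd (nat_lit 564) (nat_lit 672) (nat_lit 0) (XT.nd (nat_lit 282) (nat_lit 420) (nat_lit 0) (XT.nd (nat_lit 94) (nat_lit 84) (nat_lit 0) (XT.lf (nat_lit 0) (nat_lit 6025560847) (nat_lit 336) (nat_lit 43162610644) (nat_lit 420) (nat_lit 4201635813) (nat_lit 53) (nat_lit 5) (nat_lit 57) (nat_lit 5) (nat_lit 58) (nat_lit 5) (nat_lit 385) (nat_lit 350) (nat_lit 126)) (XT.nd (nat_lit 94) (nat_lit 84) (nat_lit 0)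 (XT.lf (nat_lit 0) (nat_lit 24478484881) (nat_lit 336) (nat_lit 29632074330) (nat_lit 420) (nat_lit 393601321) (nat_lit 53) (nat_lit 5) (nat_lit 57) (nat_lit 5) (nat_lit 58) (nat_lit 5) (nat_lit 386) (nat_lit 350) (nat_lit 125)) (XT.lf (nat_lit 0) (nat_lit 3460291509) (nat_lit 420) (nat_lit 12185775826) (nat_lit 84) (nat_lit 40005941389) (nat_lit 52) (nat_lit 5) (nat_lit 57) (nat_lit 5) (nat_lit 53) (nat_lit 5) (nat_lit 387) (nat_lit 350) (nat_lit 124)))) (XT.nd (nat_lit 94) (nat_lit 0) (nat_lit 0) (XT.lf (nat_lit 0) (nat_lit 6329571825) (nat_lit 420) (nat_lit 1157708857) (nat_lit 504) (nat_lit 49346123485) (nat_lit 47) (nat_lit 5) (nat_lit 52) (nat_lit 5) (nat_lit 53) (nat_lit 5) (nat_lit 388) (nat_lit 350) (nat_lit 123)) (XT.nd (nat_lit 94) (nat_lit 0) (nat_lit 0) (XT.lf (nat_lit 0) (nat_lit 11903328618) (nat_lit 504) (nat_lit 32509363259) (nat_lit 84) (nat_lit 13630544569) (nat_lit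 47) (nat_lit 5) (nat_lit 53) (nat_lit 5) (nat_lit 48) (nat_lit 5) (nat_lit 389) (nat_lit 350) (nat_lit 122)) (XT.lf (nat_lit 0) (nat_lit 16467173342) (nat_lit 504) (nat_lit 13969985427) (nat_lit 84) (nat_lit 28853081209) (nat_lit 47) (nat_lit 5) (nat_lit 53) (nat_lit 5) (nat_lit 48) (nat_lit 5) (nat_lit 390) (nat_lit 350) (nat_lit 121))))) (XT.nd (nat_lit 282) (nat_lit 336) (nat_lit 0) (XT.nd (nat_lit 94) (nat_lit 0) (nat_lit 0) (XT.lf (nat_lit 0) (nat_lit 5248818404) (nat_lit 336) (nat_lit 15974834741) (nat_lit 420) (nat_lit 39350665840) (nat_lit 43) (nat_lit 5) (nat_lit 47) (nat_lit 5) (nat_lit 48) (nat_lit 5) (nat_lit 391) (nat_lit 350) (nat_lit 120)) (XT.nd (nat_lit 94) (nat_lit 0) (nat_lit 0) (XT.lf (nat_lit 0) (nat_lit 25358525395) (nat_lit 336) (nat_lit 913980565) (nat_lit 420) (nat_lit 35621209968) (nat_lit 43) (nat_lit 5) (nat_lit 47) (nat_lit 5) (nat_lit 48) (nat_lit 5) (nat_lit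 392) (nat_lit 350) (nat_lit 119)) (XT.lf (nat_lit 0) (nat_lit 31621973250) (nat_lit 420) (nat_lit 17308385679) (nat_lit 84) (nat_lit 14319192098) (nat_lit 43) (nat_lit 5) (nat_lit 48) (nat_lit 5) (nat_lit 44) (nat_lit 5) (nat_lit 393) (nat_lit 350) (nat_lit 118)))) (XT.nd (nat_lit 94) (nat_lit 0) (nat_lit 0) (XT.lf (nat_lit 0) (nat_lit 2555588274) (nat_lit 336) (nat_lit 34615541270) (nat_lit 420) (nat_lit 27475241781) (nat_lit 39) (nat_lit 5) (nat_lit 43) (nat_lit 5) (nat_lit 44) (nat_lit 5) (nat_lit 394) (nat_lit 350) (nat_lit 117)) (XT.nd (nat_lit 94) (nat_lit 0) (nat_lit 0) (XT.lf (nat_lit 0) (nat_lit 23401280872) (nat_lit 336) (nat_lit 19670864282) (nat_lit 420) (nat_lit 23008776715) (nat_lit 39) (nat_lit 5) (nat_lit 43) (nat_lit 5) (nat_lit 44) (nat_lit 5) (nat_lit 395) (nat_lit 350) (nat_lit 116)) (XT.lf (nat_lit 0) (nat_lit 44892226574) (nat_lit 336) (nat_lit 4263062010) (nat_lit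 420) (nat_lit 18404683414) (nat_lit 39) (nat_lit 5) (nat_lit 43) (nat_lit 5) (nat_lit 44) (nat_lit 5) (nat_lit 396) (nat_lit 350) (nat_lit 115)))))) (XT.nd (nat_lit 564) (nat_lit 504) (nat_lit 0) (XT.nd (nat_lit 282) (nat_lit 420) (nat_lit 0) (XT.nd (nat_lit 94) (nat_lit 252) (nat_lit 0) (XT.lf (nat_lit 0) (nat_lit 55541523895) (nat_lit 420) (nat_lit 2151737083) (nat_lit 84) (nat_lit 11388065252) (nat_lit 39) (nat_lit 5) (nat_lit 44) (nat_lit 5) (nat_lit 40) (nat_lit 5) (nat_lit 397) (nat_lit 350) (nat_lit 114)) (XT.nd (nat_lit 94) (nat_lit 0) (nat_lit 0) (XT.lf (nat_lit 0) (nat_lit 19345503561) (nat_lit 252) (nat_lit 43014982273) (nat_lit 336) (nat_lit 8282082647) (nat_lit 36) (nat_lit 5) (nat_lit 39) (nat_lit 5) (nat_lit 40) (nat_lit 5) (nat_lit 398) (nat_lit 350) (nat_lit 113)) (XT.lf (nat_lit 0) (nat_lit 41553852151) (nat_lit 252) (nat_lit 27858699244) (nat_lit 336) (nat_lit 2838987949)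 (nat_lit 36) (nat_lit 5) (nat_lit 39) (nat_lit 5) (nat_lit 40) (nat_lit 5) (nat_lit 399) (nat_lit 350) (nat_lit 112)))) (XT.nd (nat_lit 94) (nat_lit 336) (nat_lit 0) (XT.lf (nat_lit 0) (nat_lit 2716244024) (nat_lit 336) (nat_lit 9488148327) (nat_lit 84) (nat_lit 61705169023) (nat_lit 35) (nat_lit 5) (nat_lit 39) (nat_lit 5) (nat_lit 36) (nat_lit 5) (nat_lit 400) (nat_lit 350) (nat_lit 111)) (XT.nd (nat_lit 94) (nat_lit 0) (nat_lit 0) (XT.lf (nat_lit 0) (nat_lit 8549639430) (nat_lit 420) (nat_lit 63051957932) (nat_lit 84) (nat_lit 4011374973) (nat_lit 31) (nat_lit 5) (nat_lit 36) (nat_lit 5) (nat_lit 32) (nat_lit 5) (nat_lit 401) (nat_lit 350) (nat_lit 110)) (XT.lf (nat_lit 0) (nat_lit 14788042875) (nat_lit 420) (nat_lit 41998008077) (nat_lit 84) (nat_lit 20576191637) (nat_lit 31) (nat_lit 5) (nat_lit 36) (nat_lit 5) (nat_lit 32) (nat_lit 5) (nat_lit 402) (nat_lit 350) (nat_lit 109)))))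 (XT.nd (nat_lit 282) (nat_lit 252) (nat_lit 0) (XT.nd (nat_lit 94) (nat_lit 252) (nat_lit 0) (XT.lf (nat_lit 0) (nat_lit 21219158685) (nat_lit 420) (nat_lit 20292257729) (nat_lit 84) (nat_lit 37654347653) (nat_lit 31) (nat_lit 5) (nat_lit 36) (nat_lit 5) (nat_lit 32) (nat_lit 5) (nat_lit 403) (nat_lit 350) (nat_lit 108)) (XT.nd (nat_lit 94) (nat_lit 0) (nat_lit 0) (XT.lf (nat_lit 0) (nat_lit 2128407817) (nat_lit 252) (nat_lit 25741687583) (nat_lit 336) (nat_lit 53154467904) (nat_lit 28) (nat_lit 5) (nat_lit 31) (nat_lit 5) (nat_lit 32) (nat_lit 5) (nat_lit 404) (nat_lit 350) (nat_lit 107)) (XT.lf (nat_lit 0) (nat_lit 25673462025) (nat_lit 252) (nat_lit 9264912402) (nat_lit 336) (nat_lit 47996067487) (nat_lit 28) (nat_lit 5) (nat_lit 31) (nat_lit 5) (nat_lit 32) (nat_lit 5) (nat_lit 405) (nat_lit 350) (nat_lit 106)))) (XT.nd (nat_lit 94) (nat_lit 252) (nat_lit 0) (XT.lf (nat_lit 0)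 (nat_lit 42301750992) (nat_lit 336) (nat_lit 35032555593) (nat_lit 84) (nat_lit 7566867344) (nat_lit 28) (nat_lit 5) (nat_lit 32) (nat_lit 5) (nat_lit 29) (nat_lit 5) (nat_lit 406) (nat_lit 350) (nat_lit 105)) (XT.nd (nat_lit 94) (nat_lit 252) (nat_lit 0) (XT.lf (nat_lit 0) (nat_lit 49987540708) (nat_lit 336) (nat_lit 12210615553) (nat_lit 84) (nat_lit 24727802271) (nat_lit 28) (nat_lit 5) (nat_lit 32) (nat_lit 5) (nat_lit 29) (nat_lit 5) (nat_lit 407) (nat_lit 350) (nat_lit 104)) (XT.lf (nat_lit 0) (nat_lit 11550743484) (nat_lit 252) (nat_lit 46474839780) (nat_lit 336) (nat_lit 30984396825) (nat_lit 25) (nat_lit 5) (nat_lit 28) (nat_lit 5) (nat_lit 29) (nat_lit 5) (nat_lit 408) (nat_lit 350) (nat_lit 103))))))) (XT.nd (nat_lit 48974) (nat_lit 0) (nat_lit 6300) (XT.nd (nat_lit 564) (nat_lit 252) (nat_lit 0) (XT.nd (nat_lit 282) (nat_lit 252) (nat_lit 0) (XT.nd (nat_lit 94) (nat_lit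 0) (nat_lit 0) (XT.lf (nat_lit 0) (nat_lit 36306788331) (nat_lit 252) (nat_lit 30132889241) (nat_lit 336) (nat_lit 24714998048) (nat_lit 25) (nat_lit 5) (nat_lit 28) (nat_lit 5) (nat_lit 29) (nat_lit 5) (nat_lit 409) (nat_lit 350) (nat_lit 102)) (XT.nd (nat_lit 94) (nat_lit 0) (nat_lit 0) (XT.lf (nat_lit 0) (nat_lit 61829518913) (nat_lit 252) (nat_lit 13284526020) (nat_lit 336) (nat_lit 18251831539) (nat_lit 25) (nat_lit 5) (nat_lit 28) (nat_lit 5) (nat_lit 29) (nat_lit 5) (nat_lit 410) (nat_lit 350) (nat_lit 101)) (XT.lf (nat_lit 0) (nat_lit 84097303939) (nat_lit 336) (nat_lit 7543451801) (nat_lit 84) (nat_lit 4003631449) (nat_lit 25) (nat_lit 5) (nat_lit 29) (nat_lit 5) (nat_lit 26) (nat_lit 5) (nat_lit 411) (nat_lit 350) (nat_lit 100)))) (XT.nd (nat_lit 94) (nat_lit 84) (nat_lit 0) (XT.lf (nat_lit 0) (nat_lit 17407360127) (nat_lit 168) (nat_lit 76259704241) (nat_lit 252) (nat_lit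 4316920883) (nat_lit 23) (nat_lit 5) (nat_lit 25) (nat_lit 5) (nat_lit 26) (nat_lit 5) (nat_lit 412) (nat_lit 350) (nat_lit 99)) (XT.nd (nat_lit 94) (nat_lit 0) (nat_lit 0) (XT.lf (nat_lit 0) (nat_lit 3153178122) (nat_lit 252) (nat_lit 57134763571) (nat_lit 84) (nat_lit 40104756964) (nat_lit 22) (nat_lit 5) (nat_lit 25) (nat_lit 5) (nat_lit 23) (nat_lit 5) (nat_lit 413) (nat_lit 350) (nat_lit 98)) (XT.lf (nat_lit 0) (nat_lit 10764662831) (nat_lit 252) (nat_lit 33011063891) (nat_lit 84) (nat_lit 59099004663) (nat_lit 22) (nat_lit 5) (nat_lit 25) (nat_lit 5) (nat_lit 23) (nat_lit 5) (nat_lit 414) (nat_lit 350) (nat_lit 97))))) (XT.nd (nat_lit 48128) (nat_lit 0) (nat_lit 6216) (XT.nd (nat_lit 94) (nat_lit 252) (nat_lit 0) (XT.lf (nat_lit 0) (nat_lit 18611604280) (nat_lit 252) (nat_lit 8140215878) (nat_lit 84) (nat_lit 78681904345) (nat_lit 22) (nat_lit 5) (nat_lit 25) (nat_lit 5) (nat_lit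 23) (nat_lit 5) (nat_lit 415) (nat_lit 350) (nat_lit 96)) (XT.nd (nat_lit 47940) (nat_lit 0) (nat_lit 6216) (XT.lf (nat_lit 0) (nat_lit 17860818388) (nat_lit 252) (nat_lit 9017679782) (nat_lit 336) (nat_lit 81188072466) (nat_lit 19) (nat_lit 5) (nat_lit 22) (nat_lit 5) (nat_lit 23) (nat_lit 5) (nat_lit 416) (nat_lit 350) (nat_lit 95)) (XT.lf (nat_lit 0) (nat_lit 7759474581) (nat_lit 1092) (nat_lit 3463924803) (nat_lit 1092) (nat_lit 3463924803) (nat_lit 93) (nat_lit 3) (nat_lit 106) (nat_lit 3) (nat_lit 106) (nat_lit 5) (nat_lit 351) (nat_lit 351) (nat_lit 159)))) (XT.nd (nat_lit 94) (nat_lit 0) (nat_lit 0) (XT.lf (nat_lit 84) (nat_lit 3383554876) (nat_lit 0) (nat_lit 12471334811) (nat_lit 1092) (nat_lit 13971765651) (nat_lit 94) (nat_lit 5) (nat_lit 93) (nat_lit 3) (nat_lit 106) (nat_lit 5) (nat_lit 352) (nat_lit 351) (nat_lit 158)) (XT.nd (nat_lit 94) (nat_lit 0) (nat_lit 84) (XT.lf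 (nat_lit 84) (nat_lit 14160161825) (nat_lit 0) (nat_lit 2110890475) (nat_lit 1092) (nat_lit 14019471982) (nat_lit 94) (nat_lit 5) (nat_lit 93) (nat_lit 3) (nat_lit 106) (nat_lit 5) (nat_lit 353) (nat_lit 351) (nat_lit 157)) (XT.lf (nat_lit 0) (nat_lit 16782720754) (nat_lit 1008) (nat_lit 5584330598) (nat_lit 1092) (nat_lit 8399174461) (nat_lit 94) (nat_lit 5) (nat_lit 106) (nat_lit 5) (nat_lit 107) (nat_lit 5) (nat_lit 354) (nat_lit 351) (nat_lit 156)))))) (XT.nd (nat_lit 564) (nat_lit 0) (nat_lit 168) (XT.nd (nat_lit 282) (nat_lit 0) (nat_lit 84) (XT.nd (nat_lit 94) (nat_lit 0) (nat_lit 0) (XT.lf (nat_lit 84) (nat_lit 5373975535) (nat_lit 0) (nat_lit 12008830159) (nat_lit 1092) (nat_lit 13871632193) (nat_lit 95) (nat_lit 5) (nat_lit 94) (nat_lit 5) (nat_lit 107) (nat_lit 5) (nat_lit 355) (nat_lit 351) (nat_lit 155)) (XT.nd (nat_lit 94) (nat_lit 0) (nat_lit 84) (XT.lf (nat_lit 84)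 (nat_lit 16789050668) (nat_lit 0) (nat_lit 1268443765) (nat_lit 1092) (nat_lit 13698566672) (nat_lit 95) (nat_lit 5) (nat_lit 94) (nat_lit 5) (nat_lit 107) (nat_lit 5) (nat_lit 356) (nat_lit 351) (nat_lit 154)) (XT.lf (nat_lit 0) (nat_lit 18848154566) (nat_lit 1008) (nat_lit 3813881149) (nat_lit 1092) (nat_lit 9608264414) (nat_lit 95) (nat_lit 5) (nat_lit 107) (nat_lit 5) (nat_lit 108) (nat_lit 5) (nat_lit 357) (nat_lit 351) (nat_lit 153)))) (XT.nd (nat_lit 94) (nat_lit 0) (nat_lit 0) (XT.lf (nat_lit 84) (nat_lit 7828414499) (nat_lit 0) (nat_lit 11923399417) (nat_lit 1092) (nat_lit 13045935353) (nat_lit 96) (nat_lit 5) (nat_lit 95) (nat_lit 5) (nat_lit 108) (nat_lit 5) (nat_lit 358) (nat_lit 351) (nat_lit 152)) (XT.nd (nat_lit 94) (nat_lit 0) (nat_lit 84) (XT.lf (nat_lit 84) (nat_lit 19911154520) (nat_lit 0) (nat_lit 810049359) (nat_lit 1092) (nat_lit 12619187721) (nat_lit 96) (nat_lit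 5) (nat_lit 95) (nat_lit 5) (nat_lit 108) (nat_lit 5) (nat_lit 359) (nat_lit 351) (nat_lit 151)) (XT.lf (nat_lit 0) (nat_lit 21824250981) (nat_lit 1008) (nat_lit 1638384898) (nat_lit 1092) (nat_lit 10434019332) (nat_lit 96) (nat_lit 5) (nat_lit 108) (nat_lit 5) (nat_lit 109) (nat_lit 5) (nat_lit 360) (nat_lit 351) (nat_lit 150))))) (XT.nd (nat_lit 282) (nat_lit 0) (nat_lit 84) (XT.nd (nat_lit 94) (nat_lit 0) (nat_lit 0) (XT.lf (nat_lit 84) (nat_lit 10724452644) (nat_lit 0) (nat_lit 12349751893) (nat_lit 1092) (nat_lit 11392475206) (nat_lit 97) (nat_lit 5) (nat_lit 96) (nat_lit 5) (nat_lit 109) (nat_lit 5) (nat_lit 361) (nat_lit 351) (nat_lit 149)) (XT.nd (nat_lit 94) (nat_lit 0) (nat_lit 84) (XT.lf (nat_lit 84) (nat_lit 23503964435) (nat_lit 0) (nat_lit 874128788) (nat_lit 1092) (nat_lit 10675821523) (nat_lit 97) (nat_lit 5) (nat_lit 96) (nat_lit 5) (nat_lit 109) (nat_lit 5) (nat_lit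 362) (nat_lit 351) (nat_lit 148)) (XT.lf (nat_lit 84) (nat_lit 928965547) (nat_lit 0) (nat_lit 24909498147) (nat_lit 1092) (nat_lit 9817302620) (nat_lit 98) (nat_lit 5) (nat_lit 97) (nat_lit 5) (nat_lit 110) (nat_lit 5) (nat_lit 363) (nat_lit 351) (nat_lit 147)))) (XT.nd (nat_lit 188) (nat_lit 0) (nat_lit 84) (XT.nd (nat_lit 94) (nat_lit 0) (nat_lit 0) (XT.lf (nat_lit 84) (nat_lit 14029129206) (nat_lit 0) (nat_lit 13442575122) (nat_lit 1092) (nat_lit 8800625266) (nat_lit 98) (nat_lit 5) (nat_lit 97) (nat_lit 5) (nat_lit 110) (nat_lit 5) (nat_lit 364) (nat_lit 351) (nat_lit 146)) (XT.lf (nat_lit 84) (nat_lit 27534110494) (nat_lit 0) (nat_lit 1619710436) (nat_lit 1092) (nat_lit 7754249371) (nat_lit 98) (nat_lit 5) (nat_lit 97) (nat_lit 5) (nat_lit 110) (nat_lit 5) (nat_lit 365) (nat_lit 351) (nat_lit 145))) (XT.nd (nat_lit 94) (nat_lit 0) (nat_lit 0) (XT.lf (nat_lit 84) (nat_lit 3865949867)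 (nat_lit 0) (nat_lit 27163639100) (nat_lit 1092) (nat_lit 6529552610) (nat_lit 99) (nat_lit 5) (nat_lit 98) (nat_lit 5) (nat_lit 111) (nat_lit 5) (nat_lit 366) (nat_lit 351) (nat_lit 144)) (XT.lf (nat_lit 84) (nat_lit 17696811356) (nat_lit 0) (nat_lit 15379278359) (nat_lit 1092) (nat_lit 5150825256) (nat_lit 99) (nat_lit 5) (nat_lit 98) (nat_lit 5) (nat_lit 111) (nat_lit 5) (nat_lit 367) (nat_lit 351) (nat_lit 143))))))))
noncomputable def xc212 : XT := (XT.nd (nat_lit 2256) (nat_lit 2100) (nat_lit 0) (XT.nd (nat_lit 1128) (nat_lit 1680) (nat_lit 0) (XT.nd (nat_lit 564) (nat_lit 1008) (nat_lit 0) (XT.nd (nat_lit 282) (nat_lit 672) (nat_lit 0) (XT.nd (nat_lit 94) (nat_lit 924) (nat_lit 0) (XT.lf (nat_lit 84) (nat_lit 31955166743) (nat_lit 0) (nat_lit 3229256001) (nat_lit 1092) (nat_lit 3731025220) (nat_lit 99) (nat_lit 5) (nat_lit 98) (nat_lit 5) (nat_lit 111) (nat_lit 5) (nat_lit 368)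 (nat_lit 351) (nat_lit 142)) (XT.nd (nat_lit 94) (nat_lit 0) (nat_lit 0) (XT.lf (nat_lit 0) (nat_lit 7079321659) (nat_lit 1008) (nat_lit 30439694191) (nat_lit 1092) (nat_lit 2101330150) (nat_lit 87) (nat_lit 5) (nat_lit 99) (nat_lit 5) (nat_lit 100) (nat_lit 5) (nat_lit 369) (nat_lit 351) (nat_lit 141)) (XT.lf (nat_lit 0) (nat_lit 21666727703) (nat_lit 1008) (nat_lit 18363074709) (nat_lit 1092) (nat_lit 314083232) (nat_lit 87) (nat_lit 5) (nat_lit 99) (nat_lit 5) (nat_lit 100) (nat_lit 5) (nat_lit 370) (nat_lit 351) (nat_lit 140)))) (XT.nd (nat_lit 94) (nat_lit 588) (nat_lit 0) (XT.lf (nat_lit 0) (nat_lit 1496270664) (nat_lit 1092) (nat_lit 4399947631) (nat_lit 84) (nat_lit 35193220896) (nat_lit 86) (nat_lit 5) (nat_lit 99) (nat_lit 5) (nat_lit 87) (nat_lit 5) (nat_lit 371) (nat_lit 351) (nat_lit 139)) (XT.nd (nat_lit 94) (nat_lit 0) (nat_lit 0) (XT.lf (nat_lit 0) (nat_lit 3529318793)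 (nat_lit 672) (nat_lit 31397423292) (nat_lit 84) (nat_lit 6925904709) (nat_lit 79) (nat_lit 5) (nat_lit 87) (nat_lit 5) (nat_lit 80) (nat_lit 5) (nat_lit 372) (nat_lit 351) (nat_lit 138)) (XT.lf (nat_lit 0) (nat_lit 5730670335) (nat_lit 672) (nat_lit 16835957779) (nat_lit 84) (nat_lit 20069629347) (nat_lit 79) (nat_lit 5) (nat_lit 87) (nat_lit 5) (nat_lit 80) (nat_lit 5) (nat_lit 373) (nat_lit 351) (nat_lit 137))))) (XT.nd (nat_lit 282) (nat_lit 504) (nat_lit 0) (XT.nd (nat_lit 94) (nat_lit 504) (nat_lit 0) (XT.lf (nat_lit 0) (nat_lit 7998884850) (nat_lit 672) (nat_lit 1824323522) (nat_lit 84) (nat_lit 33621001490) (nat_lit 79) (nat_lit 5) (nat_lit 87) (nat_lit 5) (nat_lit 80) (nat_lit 5) (nat_lit 374) (nat_lit 351) (nat_lit 136)) (XT.nd (nat_lit 94) (nat_lit 0) (nat_lit 0) (XT.lf (nat_lit 0) (nat_lit 10508588129) (nat_lit 588) (nat_lit 30375101148) (nat_lit 84) (nat_lit 3388219958)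 (nat_lit 73) (nat_lit 5) (nat_lit 80) (nat_lit 5) (nat_lit 74) (nat_lit 5) (nat_lit 375) (nat_lit 351) (nat_lit 135)) (XT.lf (nat_lit 0) (nat_lit 13214489656) (nat_lit 588) (nat_lit 15082606356) (nat_lit 84) (nat_lit 16824507594) (nat_lit 73) (nat_lit 5) (nat_lit 80) (nat_lit 5) (nat_lit 74) (nat_lit 5) (nat_lit 376) (nat_lit 351) (nat_lit 134)))) (XT.nd (nat_lit 94) (nat_lit 0) (nat_lit 0) (XT.lf (nat_lit 0) (nat_lit 696796036) (nat_lit 504) (nat_lit 15313121900) (nat_lit 588) (nat_lit 29987552047) (nat_lit 67) (nat_lit 5) (nat_lit 73) (nat_lit 5) (nat_lit 74) (nat_lit 5) (nat_lit 377) (nat_lit 351) (nat_lit 133)) (XT.nd (nat_lit 94) (nat_lit 0) (nat_lit 0) (XT.lf (nat_lit 0) (nat_lit 17283916741) (nat_lit 504) (nat_lit 1764277103) (nat_lit 588) (nat_lit 27847458750) (nat_lit 67) (nat_lit 5) (nat_lit 73) (nat_lit 5) (nat_lit 74) (nat_lit 5) (nat_lit 378) (nat_lit 351) (nat_lit 132))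 (XT.lf (nat_lit 0) (nat_lit 22300523026) (nat_lit 588) (nat_lit 13558706397) (nat_lit 84) (nat_lit 11958739631) (nat_lit 67) (nat_lit 5) (nat_lit 74) (nat_lit 5) (nat_lit 68) (nat_lit 5) (nat_lit 379) (nat_lit 351) (nat_lit 131)))))) (XT.nd (nat_lit 564) (nat_lit 840) (nat_lit 0) (XT.nd (nat_lit 282) (nat_lit 420) (nat_lit 0) (XT.nd (nat_lit 94) (nat_lit 0) (nat_lit 0) (XT.lf (nat_lit 0) (nat_lit 3033889853) (nat_lit 420) (nat_lit 22666757492) (nat_lit 504) (nat_lit 23066779694) (nat_lit 62) (nat_lit 5) (nat_lit 67) (nat_lit 5) (nat_lit 68) (nat_lit 5) (nat_lit 380) (nat_lit 351) (nat_lit 130)) (XT.nd (nat_lit 94) (nat_lit 0) (nat_lit 0) (XT.lf (nat_lit 0) (nat_lit 20427146939) (nat_lit 420) (nat_lit 8919409375) (nat_lit 504) (nat_lit 20395415802) (nat_lit 62) (nat_lit 5) (nat_lit 67) (nat_lit 5) (nat_lit 68) (nat_lit 5) (nat_lit 381) (nat_lit 351) (nat_lit 129)) (XT.lf (nat_lit 0)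 (nat_lit 33156499935) (nat_lit 504) (nat_lit 12440407000) (nat_lit 84) (nat_lit 5148245327) (nat_lit 62) (nat_lit 5) (nat_lit 68) (nat_lit 5) (nat_lit 63) (nat_lit 5) (nat_lit 382) (nat_lit 351) (nat_lit 128)))) (XT.nd (nat_lit 94) (nat_lit 0) (nat_lit 0) (XT.lf (nat_lit 0) (nat_lit 4964805467) (nat_lit 420) (nat_lit 32259145861) (nat_lit 504) (nat_lit 14551163640) (nat_lit 57) (nat_lit 5) (nat_lit 62) (nat_lit 5) (nat_lit 63) (nat_lit 5) (nat_lit 383) (nat_lit 351) (nat_lit 127)) (XT.nd (nat_lit 94) (nat_lit 0) (nat_lit 0) (XT.lf (nat_lit 0) (nat_lit 23172203068) (nat_lit 420) (nat_lit 18374087833) (nat_lit 504) (nat_lit 11286728105) (nat_lit 57) (nat_lit 5) (nat_lit 62) (nat_lit 5) (nat_lit 63) (nat_lit 5) (nat_lit 384) (nat_lit 351) (nat_lit 126)) (XT.lf (nat_lit 0) (nat_lit 41942956721) (nat_lit 420) (nat_lit 4058642859) (nat_lit 504) (nat_lit 7922155259) (nat_lit 57) (nat_lit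 5) (nat_lit 62) (nat_lit 5) (nat_lit 63) (nat_lit 5) (nat_lit 385) (nat_lit 351) (nat_lit 125))))) (XT.nd (nat_lit 282) (nat_lit 420) (nat_lit 0) (XT.nd (nat_lit 94) (nat_lit 84) (nat_lit 0) (XT.lf (nat_lit 0) (nat_lit 6266325471) (nat_lit 336) (nat_lit 44496018037) (nat_lit 420) (nat_lit 4280777924) (nat_lit 53) (nat_lit 5) (nat_lit 57) (nat_lit 5) (nat_lit 58) (nat_lit 5) (nat_lit 386) (nat_lit 351) (nat_lit 124)) (XT.nd (nat_lit 94) (nat_lit 84) (nat_lit 0) (XT.lf (nat_lit 0) (nat_lit 25289667319) (nat_lit 336) (nat_lit 30546174419) (nat_lit 420) (nat_lit 356231090) (nat_lit 53) (nat_lit 5) (nat_lit 57) (nat_lit 5) (nat_lit 58) (nat_lit 5) (nat_lit 387) (nat_lit 351) (nat_lit 123)) (XT.lf (nat_lit 0) (nat_lit 3614673163) (nat_lit 420) (nat_lit 12511571416) (nat_lit 84) (nat_lit 41249296566) (nat_lit 52) (nat_lit 5) (nat_lit 57) (nat_lit 5) (nat_lit 53) (nat_lit 5) (nat_lit 388)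 (nat_lit 351) (nat_lit 122)))) (XT.nd (nat_lit 94) (nat_lit 0) (nat_lit 0) (XT.lf (nat_lit 0) (nat_lit 6577225929) (nat_lit 420) (nat_lit 1188366759) (nat_lit 504) (nat_lit 50828001849) (nat_lit 47) (nat_lit 5) (nat_lit 52) (nat_lit 5) (nat_lit 53) (nat_lit 5) (nat_lit 389) (nat_lit 351) (nat_lit 121)) (XT.nd (nat_lit 94) (nat_lit 0) (nat_lit 0) (XT.lf (nat_lit 0) (nat_lit 12317199117) (nat_lit 504) (nat_lit 33465717397) (nat_lit 84) (nat_lit 14058063009) (nat_lit 47) (nat_lit 5) (nat_lit 53) (nat_lit 5) (nat_lit 48) (nat_lit 5) (nat_lit 390) (nat_lit 351) (nat_lit 120)) (XT.lf (nat_lit 0) (nat_lit 17021173961) (nat_lit 504) (nat_lit 14353165428) (nat_lit 84) (nat_lit 29752348801) (nat_lit 47) (nat_lit 5) (nat_lit 53) (nat_lit 5) (nat_lit 48) (nat_lit 5) (nat_lit 391) (nat_lit 351) (nat_lit 119))))))) (XT.nd (nat_lit 1128) (nat_lit 756) (nat_lit 0) (XT.nd (nat_lit 564) (nat_lit 672)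 (nat_lit 0) (XT.nd (nat_lit 282) (nat_lit 336) (nat_lit 0) (XT.nd (nat_lit 94) (nat_lit 0) (nat_lit 0) (XT.lf (nat_lit 0) (nat_lit 5460916235) (nat_lit 336) (nat_lit 16463369802) (nat_lit 420) (nat_lit 40526319006) (nat_lit 43) (nat_lit 5) (nat_lit 47) (nat_lit 5) (nat_lit 48) (nat_lit 5) (nat_lit 392) (nat_lit 351) (nat_lit 118)) (XT.nd (nat_lit 94) (nat_lit 0) (nat_lit 0) (XT.lf (nat_lit 0) (nat_lit 26192539255) (nat_lit 336) (nat_lit 935830145) (nat_lit 420) (nat_lit 36682579529) (nat_lit 43) (nat_lit 5) (nat_lit 47) (nat_lit 5) (nat_lit 48) (nat_lit 5) (nat_lit 393) (nat_lit 351) (nat_lit 117)) (XT.lf (nat_lit 0) (nat_lit 32642487278) (nat_lit 420) (nat_lit 17797120760) (nat_lit 84) (nat_lit 14769249209) (nat_lit 43) (nat_lit 5) (nat_lit 48) (nat_lit 5) (nat_lit 44) (nat_lit 5) (nat_lit 394) (nat_lit 351) (nat_lit 116)))) (XT.nd (nat_lit 94) (nat_lit 0) (nat_lit 0) (XT.lf (nat_lit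 0) (nat_lit 2682152202) (nat_lit 336) (nat_lit 35680775124) (nat_lit 420) (nat_lit 28286080084) (nat_lit 39) (nat_lit 5) (nat_lit 43) (nat_lit 5) (nat_lit 44) (nat_lit 5) (nat_lit 395) (nat_lit 351) (nat_lit 115)) (XT.nd (nat_lit 94) (nat_lit 0) (nat_lit 0) (XT.lf (nat_lit 0) (nat_lit 24172637835) (nat_lit 336) (nat_lit 20273049120) (nat_lit 420) (nat_lit 23682384203) (nat_lit 39) (nat_lit 5) (nat_lit 43) (nat_lit 5) (nat_lit 44) (nat_lit 5) (nat_lit 396) (nat_lit 351) (nat_lit 114)) (XT.lf (nat_lit 0) (nat_lit 46328422218) (nat_lit 336) (nat_lit 4387833854) (nat_lit 420) (nat_lit 18936756641) (nat_lit 39) (nat_lit 5) (nat_lit 43) (nat_lit 5) (nat_lit 44) (nat_lit 5) (nat_lit 397) (nat_lit 351) (nat_lit 113))))) (XT.nd (nat_lit 282) (nat_lit 420) (nat_lit 0) (XT.nd (nat_lit 94) (nat_lit 252) (nat_lit 0) (XT.lf (nat_lit 0) (nat_lit 57299418588) (nat_lit 420) (nat_lit 2174035698) (nat_lit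 84) (nat_lit 11748112081) (nat_lit 39) (nat_lit 5) (nat_lit 44) (nat_lit 5) (nat_lit 40) (nat_lit 5) (nat_lit 398) (nat_lit 351) (nat_lit 112)) (XT.nd (nat_lit 94) (nat_lit 0) (nat_lit 0) (XT.lf (nat_lit 0) (nat_lit 19989169844) (nat_lit 252) (nat_lit 44339948874) (nat_lit 336) (nat_lit 8502113409) (nat_lit 36) (nat_lit 5) (nat_lit 39) (nat_lit 5) (nat_lit 40) (nat_lit 5) (nat_lit 399) (nat_lit 351) (nat_lit 111)) (XT.lf (nat_lit 0) (nat_lit 42884655585) (nat_lit 252) (nat_lit 28714076583) (nat_lit 336) (nat_lit 2891386681) (nat_lit 36) (nat_lit 5) (nat_lit 39) (nat_lit 5) (nat_lit 40) (nat_lit 5) (nat_lit 400) (nat_lit 351) (nat_lit 110)))) (XT.nd (nat_lit 94) (nat_lit 336) (nat_lit 0) (XT.lf (nat_lit 0) (nat_lit 2834290881) (nat_lit 336) (nat_lit 9740089871) (nat_lit 84) (nat_lit 63625184818) (nat_lit 35) (nat_lit 5) (nat_lit 39) (nat_lit 5) (nat_lit 36) (nat_lit 5) (nat_lit 401)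 (nat_lit 351) (nat_lit 109)) (XT.nd (nat_lit 94) (nat_lit 0) (nat_lit 0) (XT.lf (nat_lit 0) (nat_lit 8848002809) (nat_lit 420) (nat_lit 64963720075) (nat_lit 84) (nat_lit 4144079768) (nat_lit 31) (nat_lit 5) (nat_lit 36) (nat_lit 5) (nat_lit 32) (nat_lit 5) (nat_lit 402) (nat_lit 351) (nat_lit 108)) (XT.lf (nat_lit 0) (nat_lit 15278794762) (nat_lit 420) (nat_lit 43258386141) (nat_lit 84) (nat_lit 21222154616) (nat_lit 31) (nat_lit 5) (nat_lit 36) (nat_lit 5) (nat_lit 32) (nat_lit 5) (nat_lit 403) (nat_lit 351) (nat_lit 107)))))) (XT.nd (nat_lit 564) (nat_lit 252) (nat_lit 0) (XT.nd (nat_lit 282) (nat_lit 252) (nat_lit 0) (XT.nd (nat_lit 94) (nat_lit 252) (nat_lit 0) (XT.lf (nat_lit 0) (nat_lit 21908303290) (nat_lit 420) (nat_lit 20881007160) (nat_lit 84) (nat_lit 38829489888) (nat_lit 31) (nat_lit 5) (nat_lit 36) (nat_lit 5) (nat_lit 32) (nat_lit 5) (nat_lit 404) (nat_lit 351) (nat_lit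 106)) (XT.nd (nat_lit 94) (nat_lit 0) (nat_lit 0) (XT.lf (nat_lit 0) (nat_lit 2234290911) (nat_lit 252) (nat_lit 26530581322) (nat_lit 336) (nat_lit 54770370996) (nat_lit 28) (nat_lit 5) (nat_lit 31) (nat_lit 5) (nat_lit 32) (nat_lit 5) (nat_lit 405) (nat_lit 351) (nat_lit 105)) (XT.lf (nat_lit 0) (nat_lit 26508042016) (nat_lit 252) (nat_lit 9543299685) (nat_lit 336) (nat_lit 49453018893) (nat_lit 28) (nat_lit 5) (nat_lit 31) (nat_lit 5) (nat_lit 32) (nat_lit 5) (nat_lit 406) (nat_lit 351) (nat_lit 104)))) (XT.nd (nat_lit 94) (nat_lit 252) (nat_lit 0) (XT.lf (nat_lit 0) (nat_lit 43642169494) (nat_lit 336) (nat_lit 36080093291) (nat_lit 84) (nat_lit 7809827426) (nat_lit 28) (nat_lit 5) (nat_lit 32) (nat_lit 5) (nat_lit 29) (nat_lit 5) (nat_lit 407) (nat_lit 351) (nat_lit 103)) (XT.nd (nat_lit 94) (nat_lit 252) (nat_lit 0) (XT.lf (nat_lit 0) (nat_lit 51565344791) (nat_lit 336) (nat_lit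 12551829868) (nat_lit 84) (nat_lit 25502499151) (nat_lit 28) (nat_lit 5) (nat_lit 32) (nat_lit 5) (nat_lit 29) (nat_lit 5) (nat_lit 408) (nat_lit 351) (nat_lit 102)) (XT.lf (nat_lit 0) (nat_lit 11945753521) (nat_lit 252) (nat_lit 47906331941) (nat_lit 336) (nat_lit 31916232964) (nat_lit 25) (nat_lit 5) (nat_lit 28) (nat_lit 5) (nat_lit 29) (nat_lit 5) (nat_lit 409) (nat_lit 351) (nat_lit 101))))) (XT.nd (nat_lit 282) (nat_lit 252) (nat_lit 0) (XT.nd (nat_lit 94) (nat_lit 0) (nat_lit 0) (XT.lf (nat_lit 0) (nat_lit 37468125140) (nat_lit 252) (nat_lit 31058058398) (nat_lit 336) (nat_lit 25453345176) (nat_lit 25) (nat_lit 5) (nat_lit 28) (nat_lit 5) (nat_lit 29) (nat_lit 5) (nat_lit 410) (nat_lit 351) (nat_lit 100)) (XT.nd (nat_lit 94) (nat_lit 0) (nat_lit 0) (XT.lf (nat_lit 0) (nat_lit 63780983147) (nat_lit 252) (nat_lit 13687665037) (nat_lit 336) (nat_lit 18790656929) (nat_lit 25) (nat_lit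 5) (nat_lit 28) (nat_lit 5) (nat_lit 29) (nat_lit 5) (nat_lit 411) (nat_lit 351) (nat_lit 99)) (XT.lf (nat_lit 0) (nat_lit 86729687944) (nat_lit 336) (nat_lit 7742791961) (nat_lit 84) (nat_lit 4135994635) (nat_lit 25) (nat_lit 5) (nat_lit 29) (nat_lit 5) (nat_lit 26) (nat_lit 5) (nat_lit 412) (nat_lit 351) (nat_lit 98)))) (XT.nd (nat_lit 94) (nat_lit 84) (nat_lit 0) (XT.lf (nat_lit 0) (nat_lit 17981145785) (nat_lit 168) (nat_lit 78614541257) (nat_lit 252) (nat_lit 4424929315) (nat_lit 23) (nat_lit 5) (nat_lit 25) (nat_lit 5) (nat_lit 26) (nat_lit 5) (nat_lit 413) (nat_lit 351) (nat_lit 97)) (XT.nd (nat_lit 94) (nat_lit 0) (nat_lit 0) (XT.lf (nat_lit 0) (nat_lit 3275462025) (nat_lit 252) (nat_lit 58872212987) (nat_lit 84) (nat_lit 41356343401) (nat_lit 22) (nat_lit 5) (nat_lit 25) (nat_lit 5) (nat_lit 23) (nat_lit 5) (nat_lit 414) (nat_lit 351) (nat_lit 96)) (XT.lf (nat_lit 0) (nat_lit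 11122165033) (nat_lit 252) (nat_lit 34001692754) (nat_lit 84) (nat_lit 60939162042) (nat_lit 22) (nat_lit 5) (nat_lit 25) (nat_lit 5) (nat_lit 23) (nat_lit 5) (nat_lit 415) (nat_lit 351) (nat_lit 95))))))))
noncomputable def xc213 : XT := (XT.nd (nat_lit 50196) (nat_lit 0) (nat_lit 1428) (XT.nd (nat_lit 49068) (nat_lit 0) (nat_lit 4788) (XT.nd (nat_lit 48504) (nat_lit 0) (nat_lit 6048) (XT.nd (nat_lit 48222) (nat_lit 0) (nat_lit 5964) (XT.nd (nat_lit 48034) (nat_lit 0) (nat_lit 5964) (XT.lf (nat_lit 0) (nat_lit 19211646121) (nat_lit 252) (nat_lit 8360832098) (nat_lit 84) (nat_lit 81128888419) (nat_lit 22) (nat_lit 5) (nat_lit 25) (nat_lit 5) (nat_lit 23) (nat_lit 5) (nat_lit 416) (nat_lit 351) (nat_lit 94)) (XT.nd (nat_lit 94) (nat_lit 0) (nat_lit 0) (XT.lf (nat_lit 0) (nat_lit 8061236446) (nat_lit 1092) (nat_lit 3539578821) (nat_lit 1092) (nat_lit 3539578821) (nat_lit 93) (nat_lit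 3) (nat_lit 106) (nat_lit 3) (nat_lit 106) (nat_lit 5) (nat_lit 352) (nat_lit 352) (nat_lit 157)) (XT.lf (nat_lit 84) (nat_lit 3551257951) (nat_lit 0) (nat_lit 12914511331) (nat_lit 1092) (nat_lit 14281153289) (nat_lit 94) (nat_lit 5) (nat_lit 93) (nat_lit 3) (nat_lit 106) (nat_lit 5) (nat_lit 353) (nat_lit 352) (nat_lit 156)))) (XT.nd (nat_lit 94) (nat_lit 0) (nat_lit 84) (XT.lf (nat_lit 84) (nat_lit 14660051065) (nat_lit 0) (nat_lit 2231192426) (nat_lit 1092) (nat_lit 14334059031) (nat_lit 94) (nat_lit 5) (nat_lit 93) (nat_lit 3) (nat_lit 106) (nat_lit 5) (nat_lit 354) (nat_lit 352) (nat_lit 155)) (XT.nd (nat_lit 94) (nat_lit 0) (nat_lit 0) (XT.lf (nat_lit 0) (nat_lit 17414764251) (nat_lit 1008) (nat_lit 5693723705) (nat_lit 1092) (nat_lit 8607406336) (nat_lit 94) (nat_lit 5) (nat_lit 106) (nat_lit 5) (nat_lit 107) (nat_lit 5) (nat_lit 355) (nat_lit 352) (nat_lit 154)) (XT.lf (nat_lit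 84) (nat_lit 5603644799) (nat_lit 0) (nat_lit 12427071784) (nat_lit 1092) (nat_lit 14188627774) (nat_lit 95) (nat_lit 5) (nat_lit 94) (nat_lit 5) (nat_lit 107) (nat_lit 5) (nat_lit 356) (nat_lit 352) (nat_lit 153))))) (XT.nd (nat_lit 282) (nat_lit 0) (nat_lit 84) (XT.nd (nat_lit 94) (nat_lit 0) (nat_lit 84) (XT.lf (nat_lit 84) (nat_lit 17370690698) (nat_lit 0) (nat_lit 1352351253) (nat_lit 1092) (nat_lit 14013595645) (nat_lit 95) (nat_lit 5) (nat_lit 94) (nat_lit 5) (nat_lit 107) (nat_lit 5) (nat_lit 357) (nat_lit 352) (nat_lit 152)) (XT.nd (nat_lit 94) (nat_lit 0) (nat_lit 0) (XT.lf (nat_lit 0) (nat_lit 19534603415) (nat_lit 1008) (nat_lit 3868597247) (nat_lit 1092) (nat_lit 9863746772) (nat_lit 95) (nat_lit 5) (nat_lit 107) (nat_lit 5) (nat_lit 108) (nat_lit 5) (nat_lit 358) (nat_lit 352) (nat_lit 151)) (XT.lf (nat_lit 84) (nat_lit 8133966541) (nat_lit 0) (nat_lit 12329861737) (nat_lit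 1092) (nat_lit 13347012099) (nat_lit 96) (nat_lit 5) (nat_lit 95) (nat_lit 5) (nat_lit 108) (nat_lit 5) (nat_lit 359) (nat_lit 352) (nat_lit 150)))) (XT.nd (nat_lit 94) (nat_lit 0) (nat_lit 84) (XT.lf (nat_lit 84) (nat_lit 20589381098) (nat_lit 0) (nat_lit 870890217) (nat_lit 1092) (nat_lit 12910142725) (nat_lit 96) (nat_lit 5) (nat_lit 95) (nat_lit 5) (nat_lit 108) (nat_lit 5) (nat_lit 360) (nat_lit 352) (nat_lit 149)) (XT.nd (nat_lit 94) (nat_lit 0) (nat_lit 0) (XT.lf (nat_lit 0) (nat_lit 22594261226) (nat_lit 1008) (nat_lit 1626260255) (nat_lit 1092) (nat_lit 10723517130) (nat_lit 96) (nat_lit 5) (nat_lit 108) (nat_lit 5) (nat_lit 109) (nat_lit 5) (nat_lit 361) (nat_lit 352) (nat_lit 148)) (XT.lf (nat_lit 84) (nat_lit 11119188297) (nat_lit 0) (nat_lit 12761582747) (nat_lit 1092) (nat_lit 11651046327) (nat_lit 97) (nat_lit 5) (nat_lit 96) (nat_lit 5) (nat_lit 109) (nat_lit 5) (nat_lit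 362) (nat_lit 352) (nat_lit 147)))))) (XT.nd (nat_lit 564) (nat_lit 1428) (nat_lit 0) (XT.nd (nat_lit 282) (nat_lit 0) (nat_lit 84) (XT.nd (nat_lit 94) (nat_lit 0) (nat_lit 84) (XT.lf (nat_lit 84) (nat_lit 24292992397) (nat_lit 0) (nat_lit 929343701) (nat_lit 1092) (nat_lit 10915020670) (nat_lit 97) (nat_lit 5) (nat_lit 96) (nat_lit 5) (nat_lit 109) (nat_lit 5) (nat_lit 363) (nat_lit 352) (nat_lit 146)) (XT.nd (nat_lit 94) (nat_lit 0) (nat_lit 0) (XT.lf (nat_lit 84) (nat_lit 1021029736) (nat_lit 0) (nat_lit 25704643719) (nat_lit 1092) (nat_lit 10032278309) (nat_lit 98) (nat_lit 5) (nat_lit 97) (nat_lit 5) (nat_lit 110) (nat_lit 5) (nat_lit 364) (nat_lit 352) (nat_lit 145)) (XT.lf (nat_lit 84) (nat_lit 14525396186) (nat_lit 0) (nat_lit 13881555988) (nat_lit 1092) (nat_lit 8986770844) (nat_lit 98) (nat_lit 5) (nat_lit 97) (nat_lit 5) (nat_lit 110) (nat_lit 5) (nat_lit 365) (nat_lit 352)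 (nat_lit 144)))) (XT.nd (nat_lit 94) (nat_lit 0) (nat_lit 84) (XT.lf (nat_lit 84) (nat_lit 28447186808) (nat_lit 0) (nat_lit 1691513155) (nat_lit 1092) (nat_lit 7910563396) (nat_lit 98) (nat_lit 5) (nat_lit 97) (nat_lit 5) (nat_lit 110) (nat_lit 5) (nat_lit 366) (nat_lit 352) (nat_lit 143)) (XT.nd (nat_lit 94) (nat_lit 0) (nat_lit 0) (XT.lf (nat_lit 84) (nat_lit 4047849834) (nat_lit 0) (nat_lit 28022735998) (nat_lit 1092) (nat_lit 6650008284) (nat_lit 99) (nat_lit 5) (nat_lit 98) (nat_lit 5) (nat_lit 111) (nat_lit 5) (nat_lit 367) (nat_lit 352) (nat_lit 142)) (XT.lf (nat_lit 84) (nat_lit 18305602150) (nat_lit 0) (nat_lit 15872548195) (nat_lit 1092) (nat_lit 5231004761) (nat_lit 99) (nat_lit 5) (nat_lit 98) (nat_lit 5) (nat_lit 111) (nat_lit 5) (nat_lit 368) (nat_lit 352) (nat_lit 141))))) (XT.nd (nat_lit 282) (nat_lit 672) (nat_lit 0) (XT.nd (nat_lit 94) (nat_lit 924) (nat_lit 0) (XT.lf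 (nat_lit 84) (nat_lit 33004156778) (nat_lit 0) (nat_lit 3345378657) (nat_lit 1092) (nat_lit 3769581204) (nat_lit 99) (nat_lit 5) (nat_lit 98) (nat_lit 5) (nat_lit 111) (nat_lit 5) (nat_lit 369) (nat_lit 352) (nat_lit 140)) (XT.nd (nat_lit 94) (nat_lit 0) (nat_lit 0) (XT.lf (nat_lit 0) (nat_lit 7359409497) (nat_lit 1008) (nat_lit 31395301857) (nat_lit 1092) (nat_lit 2091222783) (nat_lit 87) (nat_lit 5) (nat_lit 99) (nat_lit 5) (nat_lit 100) (nat_lit 5) (nat_lit 370) (nat_lit 352) (nat_lit 139)) (XT.lf (nat_lit 0) (nat_lit 22397202145) (nat_lit 1008) (nat_lit 18943947044) (nat_lit 1092) (nat_lit 250833777) (nat_lit 87) (nat_lit 5) (nat_lit 99) (nat_lit 5) (nat_lit 100) (nat_lit 5) (nat_lit 371) (nat_lit 352) (nat_lit 138)))) (XT.nd (nat_lit 94) (nat_lit 588) (nat_lit 0) (XT.lf (nat_lit 0) (nat_lit 1612020262) (nat_lit 1092) (nat_lit 4477524488) (nat_lit 84) (nat_lit 36271159220) (nat_lit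 86) (nat_lit 5) (nat_lit 99) (nat_lit 5) (nat_lit 87) (nat_lit 5) (nat_lit 372) (nat_lit 352) (nat_lit 137)) (XT.nd (nat_lit 94) (nat_lit 0) (nat_lit 0) (XT.lf (nat_lit 0) (nat_lit 3706489285) (nat_lit 672) (nat_lit 32309971532) (nat_lit 84) (nat_lit 7131170654) (nat_lit 79) (nat_lit 5) (nat_lit 87) (nat_lit 5) (nat_lit 80) (nat_lit 5) (nat_lit 373) (nat_lit 352) (nat_lit 136)) (XT.lf (nat_lit 0) (nat_lit 5974045276) (nat_lit 672) (nat_lit 17298927871) (nat_lit 84) (nat_lit 20682634509) (nat_lit 79) (nat_lit 5) (nat_lit 87) (nat_lit 5) (nat_lit 80) (nat_lit 5) (nat_lit 374) (nat_lit 352) (nat_lit 135))))))) (XT.nd (nat_lit 1128) (nat_lit 1512) (nat_lit 0) (XT.nd (nat_lit 564) (nat_lit 840) (nat_lit 0) (XT.nd (nat_lit 282) (nat_lit 504) (nat_lit 0) (XT.nd (nat_lit 94) (nat_lit 504) (nat_lit 0) (XT.lf (nat_lit 0) (nat_lit 8310598254) (nat_lit 672) (nat_lit 1823705292) (nat_lit 84) (nat_lit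 34654374411) (nat_lit 79) (nat_lit 5) (nat_lit 87) (nat_lit 5) (nat_lit 80) (nat_lit 5) (nat_lit 375) (nat_lit 352) (nat_lit 134)) (XT.nd (nat_lit 94) (nat_lit 0) (nat_lit 0) (XT.lf (nat_lit 0) (nat_lit 10896689452) (nat_lit 588) (nat_lit 31257827727) (nat_lit 84) (nat_lit 3487572439) (nat_lit 73) (nat_lit 5) (nat_lit 80) (nat_lit 5) (nat_lit 74) (nat_lit 5) (nat_lit 376) (nat_lit 352) (nat_lit 133)) (XT.lf (nat_lit 0) (nat_lit 13684599641) (nat_lit 588) (nat_lit 15493036642) (nat_lit 84) (nat_lit 17340555848) (nat_lit 73) (nat_lit 5) (nat_lit 80) (nat_lit 5) (nat_lit 74) (nat_lit 5) (nat_lit 377) (nat_lit 352) (nat_lit 132)))) (XT.nd (nat_lit 94) (nat_lit 0) (nat_lit 0) (XT.lf (nat_lit 0) (nat_lit 774948828) (nat_lit 504) (nat_lit 15790480444) (nat_lit 588) (nat_lit 30855829286) (nat_lit 67) (nat_lit 5) (nat_lit 73) (nat_lit 5) (nat_lit 74) (nat_lit 5) (nat_lit 378) (nat_lit 352)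 (nat_lit 131)) (XT.nd (nat_lit 94) (nat_lit 0) (nat_lit 0) (XT.lf (nat_lit 0) (nat_lit 17874569872) (nat_lit 504) (nat_lit 1821541725) (nat_lit 588) (nat_lit 28651237367) (nat_lit 67) (nat_lit 5) (nat_lit 73) (nat_lit 5) (nat_lit 74) (nat_lit 5) (nat_lit 379) (nat_lit 352) (nat_lit 130)) (XT.lf (nat_lit 0) (nat_lit 23047511625) (nat_lit 588) (nat_lit 13923792458) (nat_lit 84) (nat_lit 12327016126) (nat_lit 67) (nat_lit 5) (nat_lit 74) (nat_lit 5) (nat_lit 68) (nat_lit 5) (nat_lit 380) (nat_lit 352) (nat_lit 129))))) (XT.nd (nat_lit 282) (nat_lit 420) (nat_lit 0) (XT.nd (nat_lit 94) (nat_lit 0) (nat_lit 0) (XT.lf (nat_lit 0) (nat_lit 3182615084) (nat_lit 420) (nat_lit 23369293143) (nat_lit 504) (nat_lit 23725346664) (nat_lit 62) (nat_lit 5) (nat_lit 67) (nat_lit 5) (nat_lit 68) (nat_lit 5) (nat_lit 381) (nat_lit 352) (nat_lit 128)) (XT.nd (nat_lit 94) (nat_lit 0) (nat_lit 0) (XT.lf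 (nat_lit 0) (nat_lit 21113419188) (nat_lit 420) (nat_lit 9195781258) (nat_lit 504) (nat_lit 20972869424) (nat_lit 62) (nat_lit 5) (nat_lit 67) (nat_lit 5) (nat_lit 68) (nat_lit 5) (nat_lit 382) (nat_lit 352) (nat_lit 127)) (XT.lf (nat_lit 0) (nat_lit 34235662950) (nat_lit 504) (nat_lit 12772778542) (nat_lit 84) (nat_lit 5307964300) (nat_lit 62) (nat_lit 5) (nat_lit 68) (nat_lit 5) (nat_lit 63) (nat_lit 5) (nat_lit 383) (nat_lit 352) (nat_lit 126)))) (XT.nd (nat_lit 94) (nat_lit 0) (nat_lit 0) (XT.lf (nat_lit 0) (nat_lit 5171456088) (nat_lit 420) (nat_lit 33256729622) (nat_lit 504) (nat_lit 14950150924) (nat_lit 57) (nat_lit 5) (nat_lit 62) (nat_lit 5) (nat_lit 63) (nat_lit 5) (nat_lit 384) (nat_lit 352) (nat_lit 125)) (XT.nd (nat_lit 94) (nat_lit 0) (nat_lit 0) (XT.lf (nat_lit 0) (nat_lit 23941697184) (nat_lit 420) (nat_lit 18941308455) (nat_lit 504) (nat_lit 11586084388) (nat_lit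 57) (nat_lit 5) (nat_lit 62) (nat_lit 5) (nat_lit 63) (nat_lit 5) (nat_lit 385) (nat_lit 352) (nat_lit 124)) (XT.lf (nat_lit 0) (nat_lit 43292806052) (nat_lit 420) (nat_lit 4182156131) (nat_lit 504) (nat_lit 8118729184) (nat_lit 57) (nat_lit 5) (nat_lit 62) (nat_lit 5) (nat_lit 63) (nat_lit 5) (nat_lit 386) (nat_lit 352) (nat_lit 123)))))) (XT.nd (nat_lit 564) (nat_lit 672) (nat_lit 0) (XT.nd (nat_lit 282) (nat_lit 420) (nat_lit 0) (XT.nd (nat_lit 94) (nat_lit 84) (nat_lit 0) (XT.lf (nat_lit 0) (nat_lit 6511356932) (nat_lit 336) (nat_lit 45871035513) (nat_lit 420) (nat_lit 4365400690) (nat_lit 53) (nat_lit 5) (nat_lit 57) (nat_lit 5) (nat_lit 58) (nat_lit 5) (nat_lit 387) (nat_lit 352) (nat_lit 122)) (XT.nd (nat_lit 94) (nat_lit 84) (nat_lit 0) (XT.lf (nat_lit 0) (nat_lit 26122895668) (nat_lit 336) (nat_lit 31488877810) (nat_lit 420) (nat_lit 320638609) (nat_lit 53) (nat_lit 5) (nat_lit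 57) (nat_lit 5) (nat_lit 58) (nat_lit 5) (nat_lit 388) (nat_lit 352) (nat_lit 121)) (XT.lf (nat_lit 0) (nat_lit 3771050088) (nat_lit 420) (nat_lit 12850544554) (nat_lit 84) (nat_lit 42531007930) (nat_lit 52) (nat_lit 5) (nat_lit 57) (nat_lit 5) (nat_lit 53) (nat_lit 5) (nat_lit 389) (nat_lit 352) (nat_lit 120)))) (XT.nd (nat_lit 94) (nat_lit 0) (nat_lit 0) (XT.lf (nat_lit 0) (nat_lit 6829510586) (nat_lit 420) (nat_lit 1220284902) (nat_lit 504) (nat_lit 52358652767) (nat_lit 47) (nat_lit 5) (nat_lit 52) (nat_lit 5) (nat_lit 53) (nat_lit 5) (nat_lit 390) (nat_lit 352) (nat_lit 119)) (XT.nd (nat_lit 94) (nat_lit 0) (nat_lit 0) (XT.lf (nat_lit 0) (nat_lit 12741242034) (nat_lit 504) (nat_lit 34454765163) (nat_lit 84) (nat_lit 14498540048) (nat_lit 47) (nat_lit 5) (nat_lit 53) (nat_lit 5) (nat_lit 48) (nat_lit 5) (nat_lit 391) (nat_lit 352) (nat_lit 118)) (XT.lf (nat_lit 0) (nat_lit 17589770940)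 (nat_lit 504) (nat_lit 14751179053) (nat_lit 84) (nat_lit 30679208069) (nat_lit 47) (nat_lit 5) (nat_lit 53) (nat_lit 5) (nat_lit 48) (nat_lit 5) (nat_lit 392) (nat_lit 352) (nat_lit 117))))) (XT.nd (nat_lit 282) (nat_lit 336) (nat_lit 0) (XT.nd (nat_lit 94) (nat_lit 0) (nat_lit 0) (XT.lf (nat_lit 0) (nat_lit 5676663972) (nat_lit 336) (nat_lit 16967445403) (nat_lit 420) (nat_lit 41741036497) (nat_lit 43) (nat_lit 5) (nat_lit 47) (nat_lit 5) (nat_lit 48) (nat_lit 5) (nat_lit 393) (nat_lit 352) (nat_lit 116)) (XT.nd (nat_lit 94) (nat_lit 0) (nat_lit 0) (XT.lf (nat_lit 0) (nat_lit 27049570372) (nat_lit 336) (nat_lit 958741110) (nat_lit 420) (nat_lit 37779391873) (nat_lit 43) (nat_lit 5) (nat_lit 47) (nat_lit 5) (nat_lit 48) (nat_lit 5) (nat_lit 394) (nat_lit 352) (nat_lit 115)) (XT.lf (nat_lit 0) (nat_lit 33692254180) (nat_lit 420) (nat_lit 18303839379) (nat_lit 84) (nat_lit 15232893096)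 (nat_lit 43) (nat_lit 5) (nat_lit 48) (nat_lit 5) (nat_lit 44) (nat_lit 5) (nat_lit 395) (nat_lit 352) (nat_lit 114)))) (XT.nd (nat_lit 188) (nat_lit 0) (nat_lit 0) (XT.nd (nat_lit 94) (nat_lit 0) (nat_lit 0) (XT.lf (nat_lit 0) (nat_lit 2809835540) (nat_lit 336) (nat_lit 36779496074) (nat_lit 420) (nat_lit 29124476608) (nat_lit 39) (nat_lit 5) (nat_lit 43) (nat_lit 5) (nat_lit 44) (nat_lit 5) (nat_lit 396) (nat_lit 352) (nat_lit 113)) (XT.lf (nat_lit 0) (nat_lit 24965187106) (nat_lit 336) (nat_lit 20894352557) (nat_lit 420) (nat_lit 24379222925) (nat_lit 39) (nat_lit 5) (nat_lit 43) (nat_lit 5) (nat_lit 44) (nat_lit 5) (nat_lit 397) (nat_lit 352) (nat_lit 112))) (XT.nd (nat_lit 94) (nat_lit 0) (nat_lit 0) (XT.lf (nat_lit 0) (nat_lit 47806501947) (nat_lit 336) (nat_lit 4516910936) (nat_lit 420) (nat_lit 19487602898) (nat_lit 39) (nat_lit 5) (nat_lit 43) (nat_lit 5) (nat_lit 44) (nat_lit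 5) (nat_lit 398) (nat_lit 352) (nat_lit 111)) (XT.lf (nat_lit 0) (nat_lit 59109669309) (nat_lit 420) (nat_lit 2199655768) (nat_lit 84) (nat_lit 12118904744) (nat_lit 39) (nat_lit 5) (nat_lit 44) (nat_lit 5) (nat_lit 40) (nat_lit 5) (nat_lit 399) (nat_lit 352) (nat_lit 110))))))))
noncomputable def xc214 : XT := (XT.nd (nat_lit 50290) (nat_lit 0) (nat_lit 3360) (XT.nd (nat_lit 1128) (nat_lit 252) (nat_lit 0) (XT.nd (nat_lit 564) (nat_lit 504) (nat_lit 0) (XT.nd (nat_lit 282) (nat_lit 336) (nat_lit 0) (XT.nd (nat_lit 94) (nat_lit 84) (nat_lit 0) (XT.lf (nat_lit 0) (nat_lit 20650186211) (nat_lit 252) (nat_lit 45706492782) (nat_lit 336) (nat_lit 8731139745) (nat_lit 36) (nat_lit 5) (nat_lit 39) (nat_lit 5) (nat_lit 40) (nat_lit 5) (nat_lit 400) (nat_lit 352) (nat_lit 109)) (XT.nd (nat_lit 94) (nat_lit 84) (nat_lit 0) (XT.lf (nat_lit 0) (nat_lit 44254188639) (nat_lit 252) (nat_lit 29596458828)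 (nat_lit 336) (nat_lit 2947519009) (nat_lit 36) (nat_lit 5) (nat_lit 39) (nat_lit 5) (nat_lit 40) (nat_lit 5) (nat_lit 401) (nat_lit 352) (nat_lit 108)) (XT.lf (nat_lit 0) (nat_lit 2953992594) (nat_lit 336) (nat_lit 10002340651) (nat_lit 84) (nat_lit 65604297267) (nat_lit 35) (nat_lit 5) (nat_lit 39) (nat_lit 5) (nat_lit 36) (nat_lit 5) (nat_lit 402) (nat_lit 352) (nat_lit 107)))) (XT.nd (nat_lit 94) (nat_lit 0) (nat_lit 0) (XT.lf (nat_lit 0) (nat_lit 9153641583) (nat_lit 420) (nat_lit 66937284838) (nat_lit 84) (nat_lit 4280403699) (nat_lit 31) (nat_lit 5) (nat_lit 36) (nat_lit 5) (nat_lit 32) (nat_lit 5) (nat_lit 403) (nat_lit 352) (nat_lit 106)) (XT.nd (nat_lit 94) (nat_lit 0) (nat_lit 0) (XT.lf (nat_lit 0) (nat_lit 15782845437) (nat_lit 420) (nat_lit 44560297605) (nat_lit 84) (nat_lit 21887662610) (nat_lit 31) (nat_lit 5) (nat_lit 36) (nat_lit 5) (nat_lit 32) (nat_lit 5) (nat_lit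 404) (nat_lit 352) (nat_lit 105)) (XT.lf (nat_lit 0) (nat_lit 22616954424) (nat_lit 420) (nat_lit 21490395486) (nat_lit 84) (nat_lit 40040596122) (nat_lit 31) (nat_lit 5) (nat_lit 36) (nat_lit 5) (nat_lit 32) (nat_lit 5) (nat_lit 405) (nat_lit 352) (nat_lit 104))))) (XT.nd (nat_lit 282) (nat_lit 252) (nat_lit 0) (XT.nd (nat_lit 94) (nat_lit 0) (nat_lit 0) (XT.lf (nat_lit 0) (nat_lit 2341092890) (nat_lit 252) (nat_lit 27344469690) (nat_lit 336) (nat_lit 56438255712) (nat_lit 28) (nat_lit 5) (nat_lit 31) (nat_lit 5) (nat_lit 32) (nat_lit 5) (nat_lit 406) (nat_lit 352) (nat_lit 103)) (XT.nd (nat_lit 94) (nat_lit 0) (nat_lit 0) (XT.lf (nat_lit 0) (nat_lit 27366201562) (nat_lit 252) (nat_lit 9830839693) (nat_lit 336) (nat_lit 50956967633) (nat_lit 28) (nat_lit 5) (nat_lit 31) (nat_lit 5) (nat_lit 32) (nat_lit 5) (nat_lit 407) (nat_lit 352) (nat_lit 102)) (XT.lf (nat_lit 0) (nat_lit 45022419446)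 (nat_lit 336) (nat_lit 37162383392) (nat_lit 84) (nat_lit 8059822483) (nat_lit 28) (nat_lit 5) (nat_lit 32) (nat_lit 5) (nat_lit 29) (nat_lit 5) (nat_lit 408) (nat_lit 352) (nat_lit 101)))) (XT.nd (nat_lit 94) (nat_lit 252) (nat_lit 0) (XT.lf (nat_lit 0) (nat_lit 53190391040) (nat_lit 336) (nat_lit 12905832044) (nat_lit 84) (nat_lit 26300729783) (nat_lit 28) (nat_lit 5) (nat_lit 32) (nat_lit 5) (nat_lit 29) (nat_lit 5) (nat_lit 409) (nat_lit 352) (nat_lit 100)) (XT.nd (nat_lit 94) (nat_lit 0) (nat_lit 0) (XT.lf (nat_lit 0) (nat_lit 12350821028) (nat_lit 252) (nat_lit 49382746942) (nat_lit 336) (nat_lit 32878654798) (nat_lit 25) (nat_lit 5) (nat_lit 28) (nat_lit 5) (nat_lit 29) (nat_lit 5) (nat_lit 410) (nat_lit 352) (nat_lit 99)) (XT.lf (nat_lit 0) (nat_lit 38663341334) (nat_lit 252) (nat_lit 32012437948) (nat_lit 336) (nat_lit 26216228763) (nat_lit 25) (nat_lit 5) (nat_lit 28) (nat_lit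 5) (nat_lit 29) (nat_lit 5) (nat_lit 411) (nat_lit 352) (nat_lit 98)))))) (XT.nd (nat_lit 48598) (nat_lit 0) (nat_lit 5964) (XT.nd (nat_lit 282) (nat_lit 84) (nat_lit 0) (XT.nd (nat_lit 94) (nat_lit 168) (nat_lit 0) (XT.lf (nat_lit 0) (nat_lit 65790884521) (nat_lit 252) (nat_lit 14103815572) (nat_lit 336) (nat_lit 19347784060) (nat_lit 25) (nat_lit 5) (nat_lit 28) (nat_lit 5) (nat_lit 29) (nat_lit 5) (nat_lit 412) (nat_lit 352) (nat_lit 97)) (XT.nd (nat_lit 94) (nat_lit 168) (nat_lit 0) (XT.lf (nat_lit 0) (nat_lit 89442173288) (nat_lit 336) (nat_lit 7950355567) (nat_lit 84) (nat_lit 4271972383) (nat_lit 25) (nat_lit 5) (nat_lit 29) (nat_lit 5) (nat_lit 26) (nat_lit 5) (nat_lit 413) (nat_lit 352) (nat_lit 96)) (XT.lf (nat_lit 0) (nat_lit 18570695592) (nat_lit 168) (nat_lit 81042923972) (nat_lit 252) (nat_lit 4537815142) (nat_lit 23) (nat_lit 5) (nat_lit 25) (nat_lit 5) (nat_lit 26)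 (nat_lit 5) (nat_lit 414) (nat_lit 352) (nat_lit 95)))) (XT.nd (nat_lit 94) (nat_lit 0) (nat_lit 0) (XT.lf (nat_lit 0) (nat_lit 3400083456) (nat_lit 252) (nat_lit 60665521117) (nat_lit 84) (nat_lit 42646235085) (nat_lit 22) (nat_lit 5) (nat_lit 25) (nat_lit 5) (nat_lit 23) (nat_lit 5) (nat_lit 415) (nat_lit 352) (nat_lit 94)) (XT.nd (nat_lit 48128) (nat_lit 0) (nat_lit 5964) (XT.lf (nat_lit 0) (nat_lit 11489340227) (nat_lit 252) (nat_lit 35024968826) (nat_lit 84) (nat_lit 62835885221) (nat_lit 22) (nat_lit 5) (nat_lit 25) (nat_lit 5) (nat_lit 23) (nat_lit 5) (nat_lit 416) (nat_lit 352) (nat_lit 93)) (XT.lf (nat_lit 0) (nat_lit 8368726872) (nat_lit 1092) (nat_lit 3619457397) (nat_lit 1092) (nat_lit 3619457397) (nat_lit 93) (nat_lit 3) (nat_lit 106) (nat_lit 3) (nat_lit 106) (nat_lit 5) (nat_lit 353) (nat_lit 353) (nat_lit 155))))) (XT.nd (nat_lit 282) (nat_lit 0) (nat_lit 84) (XT.nd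 (nat_lit 94) (nat_lit 0) (nat_lit 0) (XT.lf (nat_lit 84) (nat_lit 3720439307) (nat_lit 0) (nat_lit 13368075873) (nat_lit 1092) (nat_lit 14607461105) (nat_lit 94) (nat_lit 5) (nat_lit 93) (nat_lit 3) (nat_lit 106) (nat_lit 5) (nat_lit 354) (nat_lit 353) (nat_lit 154)) (XT.nd (nat_lit 94) (nat_lit 0) (nat_lit 84) (XT.lf (nat_lit 84) (nat_lit 15171828224) (nat_lit 0) (nat_lit 2351974028) (nat_lit 1092) (nat_lit 14665507066) (nat_lit 94) (nat_lit 5) (nat_lit 93) (nat_lit 3) (nat_lit 106) (nat_lit 5) (nat_lit 355) (nat_lit 353) (nat_lit 153)) (XT.lf (nat_lit 0) (nat_lit 18059780226) (nat_lit 1008) (nat_lit 5810282310) (nat_lit 1092) (nat_lit 8825181891) (nat_lit 94) (nat_lit 5) (nat_lit 106) (nat_lit 5) (nat_lit 107) (nat_lit 5) (nat_lit 356) (nat_lit 353) (nat_lit 152)))) (XT.nd (nat_lit 94) (nat_lit 0) (nat_lit 0) (XT.lf (nat_lit 84) (nat_lit 5836697710) (nat_lit 0) (nat_lit 12855556141)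 (nat_lit 1092) (nat_lit 14522144882) (nat_lit 95) (nat_lit 5) (nat_lit 94) (nat_lit 5) (nat_lit 107) (nat_lit 5) (nat_lit 357) (nat_lit 353) (nat_lit 151)) (XT.nd (nat_lit 94) (nat_lit 0) (nat_lit 84) (XT.lf (nat_lit 84) (nat_lit 17966737805) (nat_lit 0) (nat_lit 1436218985) (nat_lit 1092) (nat_lit 14344883888) (nat_lit 95) (nat_lit 5) (nat_lit 94) (nat_lit 5) (nat_lit 107) (nat_lit 5) (nat_lit 358) (nat_lit 353) (nat_lit 150)) (XT.lf (nat_lit 0) (nat_lit 20236281300) (nat_lit 1008) (nat_lit 3928771601) (nat_lit 1092) (nat_lit 10129658957) (nat_lit 95) (nat_lit 5) (nat_lit 107) (nat_lit 5) (nat_lit 108) (nat_lit 5) (nat_lit 359) (nat_lit 353) (nat_lit 149))))))) (XT.nd (nat_lit 1128) (nat_lit 2100) (nat_lit 0) (XT.nd (nat_lit 564) (nat_lit 672) (nat_lit 0) (XT.nd (nat_lit 282) (nat_lit 0) (nat_lit 84) (XT.nd (nat_lit 94) (nat_lit 0) (nat_lit 0) (XT.lf (nat_lit 84) (nat_lit 8445266727)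 (nat_lit 0) (nat_lit 12746742473) (nat_lit 1092) (nat_lit 13663543659) (nat_lit 96) (nat_lit 5) (nat_lit 95) (nat_lit 5) (nat_lit 108) (nat_lit 5) (nat_lit 360) (nat_lit 353) (nat_lit 148)) (XT.nd (nat_lit 94) (nat_lit 0) (nat_lit 84) (XT.lf (nat_lit 84) (nat_lit 21285020704) (nat_lit 0) (nat_lit 931500832) (nat_lit 1092) (nat_lit 13216054710) (nat_lit 96) (nat_lit 5) (nat_lit 95) (nat_lit 5) (nat_lit 108) (nat_lit 5) (nat_lit 361) (nat_lit 353) (nat_lit 147)) (XT.lf (nat_lit 0) (nat_lit 23382606084) (nat_lit 1008) (nat_lit 1617486286) (nat_lit 1092) (nat_lit 11024000680) (nat_lit 96) (nat_lit 5) (nat_lit 108) (nat_lit 5) (nat_lit 109) (nat_lit 5) (nat_lit 362) (nat_lit 353) (nat_lit 146)))) (XT.nd (nat_lit 94) (nat_lit 0) (nat_lit 0) (XT.lf (nat_lit 84) (nat_lit 11522471946) (nat_lit 0) (nat_lit 13184463316) (nat_lit 1092) (nat_lit 11923236212) (nat_lit 97) (nat_lit 5) (nat_lit 96)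 (nat_lit 5) (nat_lit 109) (nat_lit 5) (nat_lit 363) (nat_lit 353) (nat_lit 145)) (XT.nd (nat_lit 94) (nat_lit 0) (nat_lit 84) (XT.lf (nat_lit 84) (nat_lit 25102902330) (nat_lit 0) (nat_lit 984604863) (nat_lit 1092) (nat_lit 11167069578) (nat_lit 97) (nat_lit 5) (nat_lit 96) (nat_lit 5) (nat_lit 109) (nat_lit 5) (nat_lit 364) (nat_lit 353) (nat_lit 144)) (XT.lf (nat_lit 84) (nat_lit 1112200547) (nat_lit 0) (nat_lit 26523079370) (nat_lit 1092) (nat_lit 10259211230) (nat_lit 98) (nat_lit 5) (nat_lit 97) (nat_lit 5) (nat_lit 110) (nat_lit 5) (nat_lit 365) (nat_lit 353) (nat_lit 143))))) (XT.nd (nat_lit 282) (nat_lit 840) (nat_lit 0) (XT.nd (nat_lit 94) (nat_lit 0) (nat_lit 0) (XT.lf (nat_lit 84) (nat_lit 15033412749) (nat_lit 0) (nat_lit 14332826703) (nat_lit 1092) (nat_lit 9183820774) (nat_lit 98) (nat_lit 5) (nat_lit 97) (nat_lit 5) (nat_lit 110) (nat_lit 5) (nat_lit 366) (nat_lit 353)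 (nat_lit 142)) (XT.nd (nat_lit 94) (nat_lit 0) (nat_lit 84) (XT.lf (nat_lit 84) (nat_lit 29385043082) (nat_lit 0) (nat_lit 1764262845) (nat_lit 1092) (nat_lit 8076702630) (nat_lit 98) (nat_lit 5) (nat_lit 97) (nat_lit 5) (nat_lit 110) (nat_lit 5) (nat_lit 367) (nat_lit 353) (nat_lit 141)) (XT.lf (nat_lit 84) (nat_lit 4231713045) (nat_lit 0) (nat_lit 28907456533) (nat_lit 1092) (nat_lit 6779052742) (nat_lit 99) (nat_lit 5) (nat_lit 98) (nat_lit 5) (nat_lit 111) (nat_lit 5) (nat_lit 368) (nat_lit 353) (nat_lit 140)))) (XT.nd (nat_lit 94) (nat_lit 924) (nat_lit 0) (XT.lf (nat_lit 84) (nat_lit 18929700323) (nat_lit 0) (nat_lit 16380131350) (nat_lit 1092) (nat_lit 5318378519) (nat_lit 99) (nat_lit 5) (nat_lit 98) (nat_lit 5) (nat_lit 111) (nat_lit 5) (nat_lit 369) (nat_lit 353) (nat_lit 139)) (XT.nd (nat_lit 94) (nat_lit 924) (nat_lit 0) (XT.lf (nat_lit 84) (nat_lit 34082207565) (nat_lit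 0) (nat_lit 3464152476) (nat_lit 1092) (nat_lit 3813899531) (nat_lit 99) (nat_lit 5) (nat_lit 98) (nat_lit 5) (nat_lit 111) (nat_lit 5) (nat_lit 370) (nat_lit 353) (nat_lit 138)) (XT.lf (nat_lit 0) (nat_lit 7644588906) (nat_lit 1008) (nat_lit 32379823934) (nat_lit 1092) (nat_lit 2085259191) (nat_lit 87) (nat_lit 5) (nat_lit 99) (nat_lit 5) (nat_lit 100) (nat_lit 5) (nat_lit 371) (nat_lit 353) (nat_lit 137)))))) (XT.nd (nat_lit 564) (nat_lit 924) (nat_lit 0) (XT.nd (nat_lit 282) (nat_lit 504) (nat_lit 0) (XT.nd (nat_lit 94) (nat_lit 672) (nat_lit 0) (XT.lf (nat_lit 0) (nat_lit 23146838122) (nat_lit 1008) (nat_lit 19542138325) (nat_lit 1092) (nat_lit 189946677) (nat_lit 87) (nat_lit 5) (nat_lit 99) (nat_lit 5) (nat_lit 100) (nat_lit 5) (nat_lit 372) (nat_lit 353) (nat_lit 136)) (XT.nd (nat_lit 94) (nat_lit 588) (nat_lit 0) (XT.lf (nat_lit 0) (nat_lit 1727249478) (nat_lit 1092) (nat_lit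 4560990328) (nat_lit 84) (nat_lit 37383286696) (nat_lit 86) (nat_lit 5) (nat_lit 99) (nat_lit 5) (nat_lit 87) (nat_lit 5) (nat_lit 373) (nat_lit 353) (nat_lit 135)) (XT.lf (nat_lit 0) (nat_lit 3885138425) (nat_lit 672) (nat_lit 33254408391) (nat_lit 84) (nat_lit 7343358819) (nat_lit 79) (nat_lit 5) (nat_lit 87) (nat_lit 5) (nat_lit 80) (nat_lit 5) (nat_lit 374) (nat_lit 353) (nat_lit 134)))) (XT.nd (nat_lit 94) (nat_lit 504) (nat_lit 0) (XT.lf (nat_lit 0) (nat_lit 6221071885) (nat_lit 672) (nat_lit 17779741426) (nat_lit 84) (nat_lit 21315185000) (nat_lit 79) (nat_lit 5) (nat_lit 87) (nat_lit 5) (nat_lit 80) (nat_lit 5) (nat_lit 375) (nat_lit 353) (nat_lit 133)) (XT.nd (nat_lit 94) (nat_lit 504) (nat_lit 0) (XT.lf (nat_lit 0) (nat_lit 8628198871) (nat_lit 672) (nat_lit 1826454308) (nat_lit 84) (nat_lit 35720307759) (nat_lit 79) (nat_lit 5) (nat_lit 87) (nat_lit 5) (nat_lit 80) (nat_lit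 5) (nat_lit 376) (nat_lit 353) (nat_lit 132)) (XT.lf (nat_lit 0) (nat_lit 11293129701) (nat_lit 588) (nat_lit 32171407670) (nat_lit 84) (nat_lit 3590341422) (nat_lit 73) (nat_lit 5) (nat_lit 80) (nat_lit 5) (nat_lit 74) (nat_lit 5) (nat_lit 377) (nat_lit 353) (nat_lit 131))))) (XT.nd (nat_lit 282) (nat_lit 420) (nat_lit 0) (XT.nd (nat_lit 94) (nat_lit 504) (nat_lit 0) (XT.lf (nat_lit 0) (nat_lit 14165701839) (nat_lit 588) (nat_lit 15919574205) (nat_lit 84) (nat_lit 17872928052) (nat_lit 73) (nat_lit 5) (nat_lit 80) (nat_lit 5) (nat_lit 74) (nat_lit 5) (nat_lit 378) (nat_lit 353) (nat_lit 130)) (XT.nd (nat_lit 94) (nat_lit 0) (nat_lit 0) (XT.lf (nat_lit 0) (nat_lit 852174679) (nat_lit 504) (nat_lit 16282480034) (nat_lit 588) (nat_lit 31754656208) (nat_lit 67) (nat_lit 5) (nat_lit 73) (nat_lit 5) (nat_lit 74) (nat_lit 5) (nat_lit 379) (nat_lit 353) (nat_lit 129)) (XT.lf (nat_lit 0) (nat_lit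 18480284290) (nat_lit 504) (nat_lit 1880429205) (nat_lit 588) (nat_lit 29483456971) (nat_lit 67) (nat_lit 5) (nat_lit 73) (nat_lit 5) (nat_lit 74) (nat_lit 5) (nat_lit 380) (nat_lit 353) (nat_lit 128)))) (XT.nd (nat_lit 188) (nat_lit 0) (nat_lit 0) (XT.nd (nat_lit 94) (nat_lit 420) (nat_lit 0) (XT.lf (nat_lit 0) (nat_lit 23814359300) (nat_lit 588) (nat_lit 14303467781) (nat_lit 84) (nat_lit 12706853980) (nat_lit 67) (nat_lit 5) (nat_lit 74) (nat_lit 5) (nat_lit 68) (nat_lit 5) (nat_lit 381) (nat_lit 353) (nat_lit 127)) (XT.lf (nat_lit 0) (nat_lit 3332712323) (nat_lit 420) (nat_lit 24093615326) (nat_lit 504) (nat_lit 24407675991) (nat_lit 62) (nat_lit 5) (nat_lit 67) (nat_lit 5) (nat_lit 68) (nat_lit 5) (nat_lit 382) (nat_lit 353) (nat_lit 126))) (XT.nd (nat_lit 94) (nat_lit 0) (nat_lit 0) (XT.lf (nat_lit 0) (nat_lit 21817824777) (nat_lit 420) (nat_lit 9480728358) (nat_lit 504) (nat_lit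 21571470259) (nat_lit 62) (nat_lit 5) (nat_lit 67) (nat_lit 5) (nat_lit 68) (nat_lit 5) (nat_lit 383) (nat_lit 353) (nat_lit 125)) (XT.lf (nat_lit 0) (nat_lit 35345240749) (nat_lit 504) (nat_lit 13118609532) (nat_lit 84) (nat_lit 5472627254) (nat_lit 62) (nat_lit 5) (nat_lit 68) (nat_lit 5) (nat_lit 63) (nat_lit 5) (nat_lit 384) (nat_lit 353) (nat_lit 124))))))))
noncomputable def xc215 : XT := (XT.nd (nat_lit 2256) (nat_lit 504) (nat_lit 0) (XT.nd (nat_lit 1128) (nat_lit 1260) (nat_lit 0) (XT.nd (nat_lit 564) (nat_lit 756) (nat_lit 0) (XT.nd (nat_lit 282) (nat_lit 420) (nat_lit 0) (XT.nd (nat_lit 94) (nat_lit 0) (nat_lit 0) (XT.lf (nat_lit 0) (nat_lit 5381388900) (nat_lit 420) (nat_lit 34285383584) (nat_lit 504) (nat_lit 15364592714) (nat_lit 57) (nat_lit 5) (nat_lit 62) (nat_lit 5) (nat_lit 63) (nat_lit 5) (nat_lit 385) (nat_lit 353) (nat_lit 123)) (XT.nd (nat_lit 94) (nat_lit 0)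 (nat_lit 0) (XT.lf (nat_lit 0) (nat_lit 24732015571) (nat_lit 420) (nat_lit 19526253657) (nat_lit 504) (nat_lit 11897713829) (nat_lit 57) (nat_lit 5) (nat_lit 62) (nat_lit 5) (nat_lit 63) (nat_lit 5) (nat_lit 386) (nat_lit 353) (nat_lit 122)) (XT.lf (nat_lit 0) (nat_lit 44681561773) (nat_lit 420) (nat_lit 4309634823) (nat_lit 504) (nat_lit 8324300017) (nat_lit 57) (nat_lit 5) (nat_lit 62) (nat_lit 5) (nat_lit 63) (nat_lit 5) (nat_lit 387) (nat_lit 353) (nat_lit 121)))) (XT.nd (nat_lit 94) (nat_lit 84) (nat_lit 0) (XT.lf (nat_lit 0) (nat_lit 6760976855) (nat_lit 336) (nat_lit 47288936725) (nat_lit 420) (nat_lit 4455494703) (nat_lit 53) (nat_lit 5) (nat_lit 57) (nat_lit 5) (nat_lit 58) (nat_lit 5) (nat_lit 388) (nat_lit 353) (nat_lit 120)) (XT.nd (nat_lit 94) (nat_lit 84) (nat_lit 0) (XT.lf (nat_lit 0) (nat_lit 26979037013) (nat_lit 336) (nat_lit 32461055439) (nat_lit 420) (nat_lit 286705071)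 (nat_lit 53) (nat_lit 5) (nat_lit 57) (nat_lit 5) (nat_lit 58) (nat_lit 5) (nat_lit 389) (nat_lit 353) (nat_lit 119)) (XT.lf (nat_lit 0) (nat_lit 3929649426) (nat_lit 420) (nat_lit 13202921436) (nat_lit 84) (nat_lit 43852275648) (nat_lit 52) (nat_lit 5) (nat_lit 57) (nat_lit 5) (nat_lit 53) (nat_lit 5) (nat_lit 390) (nat_lit 353) (nat_lit 118))))) (XT.nd (nat_lit 282) (nat_lit 336) (nat_lit 0) (XT.nd (nat_lit 94) (nat_lit 0) (nat_lit 0) (XT.lf (nat_lit 0) (nat_lit 7086749806) (nat_lit 420) (nat_lit 1253484001) (nat_lit 504) (nat_lit 53939420306) (nat_lit 47) (nat_lit 5) (nat_lit 52) (nat_lit 5) (nat_lit 53) (nat_lit 5) (nat_lit 391) (nat_lit 353) (nat_lit 117)) (XT.nd (nat_lit 94) (nat_lit 0) (nat_lit 0) (XT.lf (nat_lit 0) (nat_lit 13175930126) (nat_lit 504) (nat_lit 35477339602) (nat_lit 84) (nat_lit 14952394843) (nat_lit 47) (nat_lit 5) (nat_lit 53) (nat_lit 5) (nat_lit 48) (nat_lit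 5) (nat_lit 392) (nat_lit 353) (nat_lit 116)) (XT.lf (nat_lit 0) (nat_lit 18173569444) (nat_lit 504) (nat_lit 15164311111) (nat_lit 84) (nat_lit 31634531273) (nat_lit 47) (nat_lit 5) (nat_lit 53) (nat_lit 5) (nat_lit 48) (nat_lit 5) (nat_lit 393) (nat_lit 353) (nat_lit 115)))) (XT.nd (nat_lit 94) (nat_lit 0) (nat_lit 0) (XT.lf (nat_lit 0) (nat_lit 5896348023) (nat_lit 336) (nat_lit 17487519848) (nat_lit 420) (nat_lit 42995874175) (nat_lit 43) (nat_lit 5) (nat_lit 47) (nat_lit 5) (nat_lit 48) (nat_lit 5) (nat_lit 394) (nat_lit 353) (nat_lit 114)) (XT.nd (nat_lit 94) (nat_lit 0) (nat_lit 0) (XT.lf (nat_lit 0) (nat_lit 27930500330) (nat_lit 336) (nat_lit 982723614) (nat_lit 420) (nat_lit 38912595258) (nat_lit 43) (nat_lit 5) (nat_lit 47) (nat_lit 5) (nat_lit 48) (nat_lit 5) (nat_lit 395) (nat_lit 353) (nat_lit 113)) (XT.lf (nat_lit 0) (nat_lit 34772321948) (nat_lit 420) (nat_lit 18828931235)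 (nat_lit 84) (nat_lit 15710566568) (nat_lit 43) (nat_lit 5) (nat_lit 48) (nat_lit 5) (nat_lit 44) (nat_lit 5) (nat_lit 396) (nat_lit 353) (nat_lit 112)))))) (XT.nd (nat_lit 564) (nat_lit 672) (nat_lit 0) (XT.nd (nat_lit 282) (nat_lit 252) (nat_lit 0) (XT.nd (nat_lit 94) (nat_lit 0) (nat_lit 0) (XT.lf (nat_lit 0) (nat_lit 2938839082) (nat_lit 336) (nat_lit 37912714685) (nat_lit 420) (nat_lit 29991142184) (nat_lit 39) (nat_lit 5) (nat_lit 43) (nat_lit 5) (nat_lit 44) (nat_lit 5) (nat_lit 397) (nat_lit 353) (nat_lit 111)) (XT.nd (nat_lit 94) (nat_lit 0) (nat_lit 0) (XT.lf (nat_lit 0) (nat_lit 25779746742) (nat_lit 336) (nat_lit 21535340565) (nat_lit 420) (nat_lit 25099873890) (nat_lit 39) (nat_lit 5) (nat_lit 43) (nat_lit 5) (nat_lit 44) (nat_lit 5) (nat_lit 398) (nat_lit 353) (nat_lit 110)) (XT.lf (nat_lit 0) (nat_lit 49327920420) (nat_lit 336) (nat_lit 4650400818) (nat_lit 420) (nat_lit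 20057669174) (nat_lit 39) (nat_lit 5) (nat_lit 43) (nat_lit 5) (nat_lit 44) (nat_lit 5) (nat_lit 399) (nat_lit 353) (nat_lit 109)))) (XT.nd (nat_lit 94) (nat_lit 252) (nat_lit 0) (XT.lf (nat_lit 0) (nat_lit 60974025776) (nat_lit 420) (nat_lit 2228544467) (nat_lit 84) (nat_lit 12500800979) (nat_lit 39) (nat_lit 5) (nat_lit 44) (nat_lit 5) (nat_lit 40) (nat_lit 5) (nat_lit 400) (nat_lit 353) (nat_lit 108)) (XT.nd (nat_lit 94) (nat_lit 0) (nat_lit 0) (XT.lf (nat_lit 0) (nat_lit 21329244729) (nat_lit 252) (nat_lit 47115873079) (nat_lit 336) (nat_lit 8969311712) (nat_lit 36) (nat_lit 5) (nat_lit 39) (nat_lit 5) (nat_lit 40) (nat_lit 5) (nat_lit 401) (nat_lit 353) (nat_lit 107)) (XT.lf (nat_lit 0) (nat_lit 45663801510) (nat_lit 252) (nat_lit 30506654212) (nat_lit 336) (nat_lit 3007375740) (nat_lit 36) (nat_lit 5) (nat_lit 39) (nat_lit 5) (nat_lit 40) (nat_lit 5) (nat_lit 402) (nat_lit 353)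 (nat_lit 106))))) (XT.nd (nat_lit 282) (nat_lit 252) (nat_lit 0) (XT.nd (nat_lit 94) (nat_lit 336) (nat_lit 0) (XT.lf (nat_lit 0) (nat_lit 3075519200) (nat_lit 336) (nat_lit 10275072231) (nat_lit 84) (nat_lit 67644363471) (nat_lit 35) (nat_lit 5) (nat_lit 39) (nat_lit 5) (nat_lit 36) (nat_lit 5) (nat_lit 403) (nat_lit 353) (nat_lit 105)) (XT.nd (nat_lit 94) (nat_lit 0) (nat_lit 0) (XT.lf (nat_lit 0) (nat_lit 9466898203) (nat_lit 420) (nat_lit 68974417772) (nat_lit 84) (nat_lit 4420488260) (nat_lit 31) (nat_lit 5) (nat_lit 36) (nat_lit 5) (nat_lit 32) (nat_lit 5) (nat_lit 404) (nat_lit 353) (nat_lit 104)) (XT.lf (nat_lit 0) (nat_lit 16300720563) (nat_lit 420) (nat_lit 45904884197) (nat_lit 84) (nat_lit 22573349935) (nat_lit 31) (nat_lit 5) (nat_lit 36) (nat_lit 5) (nat_lit 32) (nat_lit 5) (nat_lit 405) (nat_lit 353) (nat_lit 103)))) (XT.nd (nat_lit 94) (nat_lit 252) (nat_lit 0) (XT.lf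 (nat_lit 0) (nat_lit 23345826778) (nat_lit 420) (nat_lit 22120921088) (nat_lit 84) (nat_lit 41288808805) (nat_lit 31) (nat_lit 5) (nat_lit 36) (nat_lit 5) (nat_lit 32) (nat_lit 5) (nat_lit 406) (nat_lit 353) (nat_lit 102)) (XT.nd (nat_lit 94) (nat_lit 0) (nat_lit 0) (XT.lf (nat_lit 0) (nat_lit 2448982233) (nat_lit 252) (nat_lit 28184095601) (nat_lit 336) (nat_lit 58159621614) (nat_lit 28) (nat_lit 5) (nat_lit 31) (nat_lit 5) (nat_lit 32) (nat_lit 5) (nat_lit 407) (nat_lit 353) (nat_lit 101)) (XT.lf (nat_lit 0) (nat_lit 28248807412) (nat_lit 252) (nat_lit 10127785201) (nat_lit 336) (nat_lit 52509262122) (nat_lit 28) (nat_lit 5) (nat_lit 31) (nat_lit 5) (nat_lit 32) (nat_lit 5) (nat_lit 408) (nat_lit 353) (nat_lit 100))))))) (XT.nd (nat_lit 49162) (nat_lit 0) (nat_lit 6048) (XT.nd (nat_lit 564) (nat_lit 252) (nat_lit 0) (XT.nd (nat_lit 282) (nat_lit 0) (nat_lit 0) (XT.nd (nat_lit 94)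 (nat_lit 252) (nat_lit 0) (XT.lf (nat_lit 0) (nat_lit 46443837591) (nat_lit 336) (nat_lit 38280368247) (nat_lit 84) (nat_lit 8317100024) (nat_lit 28) (nat_lit 5) (nat_lit 32) (nat_lit 5) (nat_lit 29) (nat_lit 5) (nat_lit 409) (nat_lit 353) (nat_lit 99)) (XT.nd (nat_lit 94) (nat_lit 252) (nat_lit 0) (XT.lf (nat_lit 0) (nat_lit 54864242864) (nat_lit 336) (nat_lit 13272887590) (nat_lit 84) (nat_lit 27123252255) (nat_lit 28) (nat_lit 5) (nat_lit 32) (nat_lit 5) (nat_lit 29) (nat_lit 5) (nat_lit 410) (nat_lit 353) (nat_lit 98)) (XT.lf (nat_lit 0) (nat_lit 12766387376) (nat_lit 252) (nat_lit 50905445015) (nat_lit 336) (nat_lit 33872509863) (nat_lit 25) (nat_lit 5) (nat_lit 28) (nat_lit 5) (nat_lit 29) (nat_lit 5) (nat_lit 411) (nat_lit 353) (nat_lit 97)))) (XT.nd (nat_lit 94) (nat_lit 0) (nat_lit 0) (XT.lf (nat_lit 0) (nat_lit 39893612865) (nat_lit 252) (nat_lit 32996902009) (nat_lit 336)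 (nat_lit 27004311841) (nat_lit 25) (nat_lit 5) (nat_lit 28) (nat_lit 5) (nat_lit 29) (nat_lit 5) (nat_lit 412) (nat_lit 353) (nat_lit 96)) (XT.nd (nat_lit 94) (nat_lit 0) (nat_lit 0) (XT.lf (nat_lit 0) (nat_lit 67861156499) (nat_lit 252) (nat_lit 14533350523) (nat_lit 336) (nat_lit 19923685624) (nat_lit 25) (nat_lit 5) (nat_lit 28) (nat_lit 5) (nat_lit 29) (nat_lit 5) (nat_lit 413) (nat_lit 353) (nat_lit 95)) (XT.lf (nat_lit 0) (nat_lit 92237332111) (nat_lit 336) (nat_lit 8166276479) (nat_lit 84) (nat_lit 4411705689) (nat_lit 25) (nat_lit 5) (nat_lit 29) (nat_lit 5) (nat_lit 26) (nat_lit 5) (nat_lit 414) (nat_lit 353) (nat_lit 94))))) (XT.nd (nat_lit 48316) (nat_lit 0) (nat_lit 5964) (XT.nd (nat_lit 94) (nat_lit 84) (nat_lit 0) (XT.lf (nat_lit 0) (nat_lit 19176618074) (nat_lit 168) (nat_lit 83547099974) (nat_lit 252) (nat_lit 4655638989) (nat_lit 23) (nat_lit 5) (nat_lit 25) (nat_lit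 5) (nat_lit 26) (nat_lit 5) (nat_lit 415) (nat_lit 353) (nat_lit 93)) (XT.nd (nat_lit 94) (nat_lit 0) (nat_lit 0) (XT.lf (nat_lit 0) (nat_lit 3527200958) (nat_lit 252) (nat_lit 62516301250) (nat_lit 84) (nat_lit 43975648737) (nat_lit 22) (nat_lit 5) (nat_lit 25) (nat_lit 5) (nat_lit 23) (nat_lit 5) (nat_lit 416) (nat_lit 353) (nat_lit 92)) (XT.lf (nat_lit 0) (nat_lit 11866571767) (nat_lit 252) (nat_lit 36081789395) (nat_lit 84) (nat_lit 64790956115) (nat_lit 22) (nat_lit 5) (nat_lit 25) (nat_lit 5) (nat_lit 23) (nat_lit 5) (nat_lit 417) (nat_lit 353) (nat_lit 91)))) (XT.nd (nat_lit 94) (nat_lit 0) (nat_lit 0) (XT.lf (nat_lit 0) (nat_lit 8682338223) (nat_lit 1092) (nat_lit 3703580178) (nat_lit 1092) (nat_lit 3703580178) (nat_lit 93) (nat_lit 3) (nat_lit 106) (nat_lit 3) (nat_lit 106) (nat_lit 5) (nat_lit 354) (nat_lit 354) (nat_lit 153)) (XT.nd (nat_lit 94) (nat_lit 0) (nat_lit 0) (XT.lf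 (nat_lit 84) (nat_lit 3891365143) (nat_lit 0) (nat_lit 13832548918) (nat_lit 1092) (nat_lit 14950779505) (nat_lit 94) (nat_lit 5) (nat_lit 93) (nat_lit 3) (nat_lit 106) (nat_lit 5) (nat_lit 355) (nat_lit 354) (nat_lit 152)) (XT.lf (nat_lit 84) (nat_lit 15696075576) (nat_lit 0) (nat_lit 2473442637) (nat_lit 1092) (nat_lit 15013917713) (nat_lit 94) (nat_lit 5) (nat_lit 93) (nat_lit 3) (nat_lit 106) (nat_lit 5) (nat_lit 356) (nat_lit 354) (nat_lit 151)))))) (XT.nd (nat_lit 564) (nat_lit 0) (nat_lit 168) (XT.nd (nat_lit 282) (nat_lit 0) (nat_lit 84) (XT.nd (nat_lit 94) (nat_lit 0) (nat_lit 0) (XT.lf (nat_lit 0) (nat_lit 18718562991) (nat_lit 1008) (nat_lit 5934004985) (nat_lit 1092) (nat_lit 9052614043) (nat_lit 94) (nat_lit 5) (nat_lit 106) (nat_lit 5) (nat_lit 107) (nat_lit 5) (nat_lit 357) (nat_lit 354) (nat_lit 150)) (XT.nd (nat_lit 94) (nat_lit 0) (nat_lit 0) (XT.lf (nat_lit 84) (nat_lit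 6073460455) (nat_lit 0) (nat_lit 13294762031) (nat_lit 1092) (nat_lit 14872299150) (nat_lit 95) (nat_lit 5) (nat_lit 94) (nat_lit 5) (nat_lit 107) (nat_lit 5) (nat_lit 358) (nat_lit 354) (nat_lit 149)) (XT.lf (nat_lit 84) (nat_lit 18577853249) (nat_lit 0) (nat_lit 1520202151) (nat_lit 1092) (nat_lit 14692550823) (nat_lit 95) (nat_lit 5) (nat_lit 94) (nat_lit 5) (nat_lit 107) (nat_lit 5) (nat_lit 359) (nat_lit 354) (nat_lit 148)))) (XT.nd (nat_lit 94) (nat_lit 0) (nat_lit 0) (XT.lf (nat_lit 0) (nat_lit 20954018725) (nat_lit 1008) (nat_lit 3994350582) (nat_lit 1092) (nat_lit 10406175631) (nat_lit 95) (nat_lit 5) (nat_lit 107) (nat_lit 5) (nat_lit 108) (nat_lit 5) (nat_lit 360) (nat_lit 354) (nat_lit 147)) (XT.nd (nat_lit 94) (nat_lit 0) (nat_lit 0) (XT.lf (nat_lit 84) (nat_lit 8762713829) (nat_lit 0) (nat_lit 13174493835) (nat_lit 1092) (nat_lit 13995646548) (nat_lit 96) (nat_lit 5)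 (nat_lit 95) (nat_lit 5) (nat_lit 108) (nat_lit 5) (nat_lit 361) (nat_lit 354) (nat_lit 146)) (XT.lf (nat_lit 84) (nat_lit 21998827086) (nat_lit 0) (nat_lit 991999420) (nat_lit 1092) (nat_lit 13537035662) (nat_lit 96) (nat_lit 5) (nat_lit 95) (nat_lit 5) (nat_lit 108) (nat_lit 5) (nat_lit 362) (nat_lit 354) (nat_lit 145))))) (XT.nd (nat_lit 282) (nat_lit 0) (nat_lit 84) (XT.nd (nat_lit 94) (nat_lit 0) (nat_lit 0) (XT.lf (nat_lit 0) (nat_lit 24190181816) (nat_lit 1008) (nat_lit 1611946133) (nat_lit 1092) (nat_lit 11335691405) (nat_lit 96) (nat_lit 5) (nat_lit 108) (nat_lit 5) (nat_lit 109) (nat_lit 5) (nat_lit 363) (nat_lit 354) (nat_lit 144)) (XT.nd (nat_lit 94) (nat_lit 0) (nat_lit 0) (XT.lf (nat_lit 84) (nat_lit 11934787072) (nat_lit 0) (nat_lit 13618837845) (nat_lit 1092) (nat_lit 12209135165) (nat_lit 97) (nat_lit 5) (nat_lit 96) (nat_lit 5) (nat_lit 109) (nat_lit 5) (nat_lit 364)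 (nat_lit 354) (nat_lit 143)) (XT.lf (nat_lit 84) (nat_lit 25934553501) (nat_lit 0) (nat_lit 1040012353) (nat_lit 1092) (nat_lit 11432044691) (nat_lit 97) (nat_lit 5) (nat_lit 96) (nat_lit 5) (nat_lit 109) (nat_lit 5) (nat_lit 365) (nat_lit 354) (nat_lit 142)))) (XT.nd (nat_lit 188) (nat_lit 0) (nat_lit 0) (XT.nd (nat_lit 94) (nat_lit 0) (nat_lit 0) (XT.lf (nat_lit 84) (nat_lit 1202672248) (nat_lit 0) (nat_lit 27365607613) (nat_lit 1092) (nat_lit 10498158547) (nat_lit 98) (nat_lit 5) (nat_lit 97) (nat_lit 5) (nat_lit 110) (nat_lit 5) (nat_lit 366) (nat_lit 354) (nat_lit 141)) (XT.lf (nat_lit 84) (nat_lit 15553758422) (nat_lit 0) (nat_lit 14796846350) (nat_lit 1092) (nat_lit 9391809002) (nat_lit 98) (nat_lit 5) (nat_lit 97) (nat_lit 5) (nat_lit 110) (nat_lit 5) (nat_lit 367) (nat_lit 354) (nat_lit 140))) (XT.nd (nat_lit 94) (nat_lit 0) (nat_lit 84) (XT.lf (nat_lit 84) (nat_lit 30348656311)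 (nat_lit 0) (nat_lit 1838064614) (nat_lit 1092) (nat_lit 8252676711) (nat_lit 98) (nat_lit 5) (nat_lit 97) (nat_lit 5) (nat_lit 110) (nat_lit 5) (nat_lit 368) (nat_lit 354) (nat_lit 139)) (XT.lf (nat_lit 84) (nat_lit 4417818076) (nat_lit 0) (nat_lit 29818654767) (nat_lit 1092) (nat_lit 6916664687) (nat_lit 99) (nat_lit 5) (nat_lit 98) (nat_lit 5) (nat_lit 111) (nat_lit 5) (nat_lit 369) (nat_lit 354) (nat_lit 138))))))))
noncomputable def xc216 : XT := (XT.nd (nat_lit 2256) (nat_lit 2100) (nat_lit 0) (XT.nd (nat_lit 1128) (nat_lit 1680) (nat_lit 0) (XT.nd (nat_lit 564) (nat_lit 1008) (nat_lit 0) (XT.nd (nat_lit 282) (nat_lit 672) (nat_lit 0) (XT.nd (nat_lit 94) (nat_lit 924) (nat_lit 0) (XT.lf (nat_lit 84) (nat_lit 19569791573) (nat_lit 0) (nat_lit 16902529468) (nat_lit 1092) (nat_lit 5412890649) (nat_lit 99) (nat_lit 5) (nat_lit 98) (nat_lit 5) (nat_lit 111) (nat_lit 5) (nat_lit 370)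 (nat_lit 354) (nat_lit 137)) (XT.nd (nat_lit 94) (nat_lit 924) (nat_lit 0) (XT.lf (nat_lit 84) (nat_lit 35190424806) (nat_lit 0) (nat_lit 3585715835) (nat_lit 1092) (nat_lit 3863888317) (nat_lit 99) (nat_lit 5) (nat_lit 98) (nat_lit 5) (nat_lit 111) (nat_lit 5) (nat_lit 371) (nat_lit 354) (nat_lit 136)) (XT.lf (nat_lit 0) (nat_lit 7935230435) (nat_lit 1008) (nat_lit 33394198789) (nat_lit 1092) (nat_lit 2083303829) (nat_lit 87) (nat_lit 5) (nat_lit 99) (nat_lit 5) (nat_lit 100) (nat_lit 5) (nat_lit 372) (nat_lit 354) (nat_lit 135)))) (XT.nd (nat_lit 94) (nat_lit 672) (nat_lit 0) (XT.lf (nat_lit 0) (nat_lit 23916435955) (nat_lit 1008) (nat_lit 20158226196) (nat_lit 1092) (nat_lit 131239101) (nat_lit 87) (nat_lit 5) (nat_lit 99) (nat_lit 5) (nat_lit 100) (nat_lit 5) (nat_lit 373) (nat_lit 354) (nat_lit 134)) (XT.nd (nat_lit 94) (nat_lit 588) (nat_lit 0) (XT.lf (nat_lit 0) (nat_lit 1842185540)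 (nat_lit 1092) (nat_lit 4650321339) (nat_lit 84) (nat_lit 38530617399) (nat_lit 86) (nat_lit 5) (nat_lit 99) (nat_lit 5) (nat_lit 87) (nat_lit 5) (nat_lit 374) (nat_lit 354) (nat_lit 133)) (XT.lf (nat_lit 0) (nat_lit 4065549788) (nat_lit 672) (nat_lit 34231509203) (nat_lit 84) (nat_lit 7562650683) (nat_lit 79) (nat_lit 5) (nat_lit 87) (nat_lit 5) (nat_lit 80) (nat_lit 5) (nat_lit 375) (nat_lit 354) (nat_lit 132))))) (XT.nd (nat_lit 282) (nat_lit 504) (nat_lit 0) (XT.nd (nat_lit 94) (nat_lit 504) (nat_lit 0) (XT.lf (nat_lit 0) (nat_lit 6472093950) (nat_lit 672) (nat_lit 18278744789) (nat_lit 84) (nat_lit 21967854611) (nat_lit 79) (nat_lit 5) (nat_lit 87) (nat_lit 5) (nat_lit 80) (nat_lit 5) (nat_lit 376) (nat_lit 354) (nat_lit 131)) (XT.nd (nat_lit 94) (nat_lit 504) (nat_lit 0) (XT.lf (nat_lit 0) (nat_lit 8952092858) (nat_lit 672) (nat_lit 1832474372) (nat_lit 84) (nat_lit 36819779759)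 (nat_lit 79) (nat_lit 5) (nat_lit 87) (nat_lit 5) (nat_lit 80) (nat_lit 5) (nat_lit 377) (nat_lit 354) (nat_lit 130)) (XT.lf (nat_lit 0) (nat_lit 11698386081) (nat_lit 588) (nat_lit 33116590781) (nat_lit 84) (nat_lit 3696612882) (nat_lit 73) (nat_lit 5) (nat_lit 80) (nat_lit 5) (nat_lit 74) (nat_lit 5) (nat_lit 378) (nat_lit 354) (nat_lit 129)))) (XT.nd (nat_lit 94) (nat_lit 504) (nat_lit 0) (XT.lf (nat_lit 0) (nat_lit 14658349128) (nat_lit 588) (nat_lit 16362517935) (nat_lit 84) (nat_lit 18422110913) (nat_lit 73) (nat_lit 5) (nat_lit 80) (nat_lit 5) (nat_lit 74) (nat_lit 5) (nat_lit 379) (nat_lit 354) (nat_lit 128)) (XT.nd (nat_lit 94) (nat_lit 0) (nat_lit 0) (XT.lf (nat_lit 0) (nat_lit 928643259) (nat_lit 504) (nat_lit 16789583847) (nat_lit 588) (nat_lit 32684764658) (nat_lit 67) (nat_lit 5) (nat_lit 73) (nat_lit 5) (nat_lit 74) (nat_lit 5) (nat_lit 380) (nat_lit 354) (nat_lit 127))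 (XT.lf (nat_lit 0) (nat_lit 19101719335) (nat_lit 504) (nat_lit 1940998874) (nat_lit 588) (nat_lit 30344790507) (nat_lit 67) (nat_lit 5) (nat_lit 73) (nat_lit 5) (nat_lit 74) (nat_lit 5) (nat_lit 381) (nat_lit 354) (nat_lit 126)))))) (XT.nd (nat_lit 564) (nat_lit 840) (nat_lit 0) (XT.nd (nat_lit 282) (nat_lit 420) (nat_lit 0) (XT.nd (nat_lit 94) (nat_lit 420) (nat_lit 0) (XT.lf (nat_lit 0) (nat_lit 24601877004) (nat_lit 588) (nat_lit 14697990852) (nat_lit 84) (nat_lit 13098603019) (nat_lit 67) (nat_lit 5) (nat_lit 74) (nat_lit 5) (nat_lit 68) (nat_lit 5) (nat_lit 382) (nat_lit 354) (nat_lit 125)) (XT.nd (nat_lit 94) (nat_lit 0) (nat_lit 0) (XT.lf (nat_lit 0) (nat_lit 3484415924) (nat_lit 420) (nat_lit 24840398955) (nat_lit 504) (nat_lit 25114306074) (nat_lit 62) (nat_lit 5) (nat_lit 67) (nat_lit 5) (nat_lit 68) (nat_lit 5) (nat_lit 383) (nat_lit 354) (nat_lit 124)) (XT.lf (nat_lit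 0) (nat_lit 22541111893) (nat_lit 420) (nat_lit 9774516052) (nat_lit 504) (nat_lit 22191681595) (nat_lit 62) (nat_lit 5) (nat_lit 67) (nat_lit 5) (nat_lit 68) (nat_lit 5) (nat_lit 384) (nat_lit 354) (nat_lit 123)))) (XT.nd (nat_lit 94) (nat_lit 420) (nat_lit 0) (XT.lf (nat_lit 0) (nat_lit 36486356212) (nat_lit 504) (nat_lit 13478130281) (nat_lit 84) (nat_lit 5642387884) (nat_lit 62) (nat_lit 5) (nat_lit 68) (nat_lit 5) (nat_lit 63) (nat_lit 5) (nat_lit 385) (nat_lit 354) (nat_lit 122)) (XT.nd (nat_lit 94) (nat_lit 0) (nat_lit 0) (XT.lf (nat_lit 0) (nat_lit 5594890689) (nat_lit 420) (nat_lit 35346062327) (nat_lit 504) (nat_lit 15794785316) (nat_lit 57) (nat_lit 5) (nat_lit 62) (nat_lit 5) (nat_lit 63) (nat_lit 5) (nat_lit 386) (nat_lit 354) (nat_lit 121)) (XT.lf (nat_lit 0) (nat_lit 25543983255) (nat_lit 420) (nat_lit 20129464564) (nat_lit 504) (nat_lit 12221819610) (nat_lit 57) (nat_lit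 5) (nat_lit 62) (nat_lit 5) (nat_lit 63) (nat_lit 5) (nat_lit 387) (nat_lit 354) (nat_lit 120))))) (XT.nd (nat_lit 282) (nat_lit 504) (nat_lit 0) (XT.nd (nat_lit 94) (nat_lit 336) (nat_lit 0) (XT.lf (nat_lit 0) (nat_lit 46110604060) (nat_lit 420) (nat_lit 4441193778) (nat_lit 504) (nat_lit 8538974706) (nat_lit 57) (nat_lit 5) (nat_lit 62) (nat_lit 5) (nat_lit 63) (nat_lit 5) (nat_lit 388) (nat_lit 354) (nat_lit 119)) (XT.nd (nat_lit 94) (nat_lit 0) (nat_lit 0) (XT.lf (nat_lit 0) (nat_lit 7015505624) (nat_lit 336) (nat_lit 48751035778) (nat_lit 420) (nat_lit 4551060882) (nat_lit 53) (nat_lit 5) (nat_lit 57) (nat_lit 5) (nat_lit 58) (nat_lit 5) (nat_lit 389) (nat_lit 354) (nat_lit 118)) (XT.lf (nat_lit 0) (nat_lit 27858974442) (nat_lit 336) (nat_lit 33463606174) (nat_lit 420) (nat_lit 254318285) (nat_lit 53) (nat_lit 5) (nat_lit 57) (nat_lit 5) (nat_lit 58) (nat_lit 5) (nat_lit 390)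 (nat_lit 354) (nat_lit 117)))) (XT.nd (nat_lit 94) (nat_lit 420) (nat_lit 0) (XT.lf (nat_lit 0) (nat_lit 4090695571) (nat_lit 420) (nat_lit 13568946067) (nat_lit 84) (nat_lit 45214336433) (nat_lit 52) (nat_lit 5) (nat_lit 57) (nat_lit 5) (nat_lit 53) (nat_lit 5) (nat_lit 391) (nat_lit 354) (nat_lit 116)) (XT.nd (nat_lit 94) (nat_lit 0) (nat_lit 0) (XT.lf (nat_lit 0) (nat_lit 7349266955) (nat_lit 420) (nat_lit 1287986498) (nat_lit 504) (nat_lit 55571700143) (nat_lit 47) (nat_lit 5) (nat_lit 52) (nat_lit 5) (nat_lit 53) (nat_lit 5) (nat_lit 392) (nat_lit 354) (nat_lit 115)) (XT.lf (nat_lit 0) (nat_lit 13621741481) (nat_lit 504) (nat_lit 36534310270) (nat_lit 84) (nat_lit 15420058514) (nat_lit 47) (nat_lit 5) (nat_lit 53) (nat_lit 5) (nat_lit 48) (nat_lit 5) (nat_lit 393) (nat_lit 354) (nat_lit 114))))))) (XT.nd (nat_lit 1128) (nat_lit 756) (nat_lit 0) (XT.nd (nat_lit 564) (nat_lit 672)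 (nat_lit 0) (XT.nd (nat_lit 282) (nat_lit 336) (nat_lit 0) (XT.nd (nat_lit 94) (nat_lit 336) (nat_lit 0) (XT.lf (nat_lit 0) (nat_lit 18773184356) (nat_lit 504) (nat_lit 15592865609) (nat_lit 84) (nat_lit 32619216709) (nat_lit 47) (nat_lit 5) (nat_lit 53) (nat_lit 5) (nat_lit 48) (nat_lit 5) (nat_lit 394) (nat_lit 354) (nat_lit 113)) (XT.nd (nat_lit 94) (nat_lit 0) (nat_lit 0) (XT.lf (nat_lit 0) (nat_lit 6120253411) (nat_lit 336) (nat_lit 18024067037) (nat_lit 420) (nat_lit 44291929821) (nat_lit 43) (nat_lit 5) (nat_lit 47) (nat_lit 5) (nat_lit 48) (nat_lit 5) (nat_lit 395) (nat_lit 354) (nat_lit 112)) (XT.lf (nat_lit 0) (nat_lit 28836228090) (nat_lit 336) (nat_lit 1007789475) (nat_lit 420) (nat_lit 40083176251) (nat_lit 43) (nat_lit 5) (nat_lit 47) (nat_lit 5) (nat_lit 48) (nat_lit 5) (nat_lit 396) (nat_lit 354) (nat_lit 111)))) (XT.nd (nat_lit 94) (nat_lit 336) (nat_lit 0) (XT.lf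 (nat_lit 0) (nat_lit 35883762700) (nat_lit 420) (nat_lit 19372808049) (nat_lit 84) (nat_lit 16202724880) (nat_lit 43) (nat_lit 5) (nat_lit 48) (nat_lit 5) (nat_lit 44) (nat_lit 5) (nat_lit 397) (nat_lit 354) (nat_lit 110)) (XT.nd (nat_lit 94) (nat_lit 0) (nat_lit 0) (XT.lf (nat_lit 0) (nat_lit 3069360006) (nat_lit 336) (nat_lit 39081474483) (nat_lit 420) (nat_lit 30886818178) (nat_lit 39) (nat_lit 5) (nat_lit 43) (nat_lit 5) (nat_lit 44) (nat_lit 5) (nat_lit 398) (nat_lit 354) (nat_lit 109)) (XT.lf (nat_lit 0) (nat_lit 26617150620) (nat_lit 336) (nat_lit 22196598239) (nat_lit 420) (nat_lit 25844944362) (nat_lit 39) (nat_lit 5) (nat_lit 43) (nat_lit 5) (nat_lit 44) (nat_lit 5) (nat_lit 399) (nat_lit 354) (nat_lit 108))))) (XT.nd (nat_lit 282) (nat_lit 420) (nat_lit 0) (XT.nd (nat_lit 94) (nat_lit 252) (nat_lit 0) (XT.lf (nat_lit 0) (nat_lit 50894168134) (nat_lit 336) (nat_lit 4788415928)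 (nat_lit 420) (nat_lit 20647424309) (nat_lit 39) (nat_lit 5) (nat_lit 43) (nat_lit 5) (nat_lit 44) (nat_lit 5) (nat_lit 400) (nat_lit 354) (nat_lit 107)) (XT.nd (nat_lit 94) (nat_lit 252) (nat_lit 0) (XT.lf (nat_lit 0) (nat_lit 62894284442) (nat_lit 420) (nat_lit 2260656559) (nat_lit 84) (nat_lit 12894168158) (nat_lit 39) (nat_lit 5) (nat_lit 44) (nat_lit 5) (nat_lit 40) (nat_lit 5) (nat_lit 401) (nat_lit 354) (nat_lit 106)) (XT.lf (nat_lit 0) (nat_lit 22027049786) (nat_lit 252) (nat_lit 48569389646) (nat_lit 336) (nat_lit 9216791648) (nat_lit 36) (nat_lit 5) (nat_lit 39) (nat_lit 5) (nat_lit 40) (nat_lit 5) (nat_lit 402) (nat_lit 354) (nat_lit 105)))) (XT.nd (nat_lit 94) (nat_lit 420) (nat_lit 0) (XT.lf (nat_lit 0) (nat_lit 47114877387) (nat_lit 252) (nat_lit 31445497739) (nat_lit 336) (nat_lit 3070954798) (nat_lit 36) (nat_lit 5) (nat_lit 39) (nat_lit 5) (nat_lit 40) (nat_lit 5)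 (nat_lit 403) (nat_lit 354) (nat_lit 104)) (XT.nd (nat_lit 94) (nat_lit 336) (nat_lit 0) (XT.lf (nat_lit 0) (nat_lit 3199038973) (nat_lit 336) (nat_lit 10558470260) (nat_lit 84) (nat_lit 69747296613) (nat_lit 35) (nat_lit 5) (nat_lit 39) (nat_lit 5) (nat_lit 36) (nat_lit 5) (nat_lit 404) (nat_lit 354) (nat_lit 103)) (XT.lf (nat_lit 0) (nat_lit 9788118815) (nat_lit 420) (nat_lit 71076948065) (nat_lit 84) (nat_lit 4564477600) (nat_lit 31) (nat_lit 5) (nat_lit 36) (nat_lit 5) (nat_lit 32) (nat_lit 5) (nat_lit 405) (nat_lit 354) (nat_lit 102)))))) (XT.nd (nat_lit 564) (nat_lit 504) (nat_lit 0) (XT.nd (nat_lit 282) (nat_lit 0) (nat_lit 0) (XT.nd (nat_lit 94) (nat_lit 252) (nat_lit 0) (XT.lf (nat_lit 0) (nat_lit 16832955381) (nat_lit 420) (nat_lit 47293331671) (nat_lit 84) (nat_lit 23279868888) (nat_lit 31) (nat_lit 5) (nat_lit 36) (nat_lit 5) (nat_lit 32) (nat_lit 5) (nat_lit 406) (nat_lit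 354) (nat_lit 101)) (XT.nd (nat_lit 94) (nat_lit 252) (nat_lit 0) (XT.lf (nat_lit 0) (nat_lit 24095650687) (nat_lit 420) (nat_lit 22773106174) (nat_lit 84) (nat_lit 42575304172) (nat_lit 31) (nat_lit 5) (nat_lit 36) (nat_lit 5) (nat_lit 32) (nat_lit 5) (nat_lit 407) (nat_lit 354) (nat_lit 100)) (XT.lf (nat_lit 0) (nat_lit 2558124350) (nat_lit 252) (nat_lit 29050226888) (nat_lit 336) (nat_lit 59936021380) (nat_lit 28) (nat_lit 5) (nat_lit 31) (nat_lit 5) (nat_lit 32) (nat_lit 5) (nat_lit 408) (nat_lit 354) (nat_lit 99)))) (XT.nd (nat_lit 94) (nat_lit 0) (nat_lit 0) (XT.lf (nat_lit 0) (nat_lit 29156745144) (nat_lit 252) (nat_lit 10434398649) (nat_lit 336) (nat_lit 54111299001) (nat_lit 28) (nat_lit 5) (nat_lit 31) (nat_lit 5) (nat_lit 32) (nat_lit 5) (nat_lit 409) (nat_lit 354) (nat_lit 98)) (XT.nd (nat_lit 94) (nat_lit 0) (nat_lit 0) (XT.lf (nat_lit 0) (nat_lit 47907796073) (nat_lit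 336) (nat_lit 39435027415) (nat_lit 84) (nat_lit 8581913490) (nat_lit 28) (nat_lit 5) (nat_lit 32) (nat_lit 5) (nat_lit 29) (nat_lit 5) (nat_lit 410) (nat_lit 354) (nat_lit 97)) (XT.lf (nat_lit 0) (nat_lit 56588506281) (nat_lit 336) (nat_lit 13653278000) (nat_lit 84) (nat_lit 27970846465) (nat_lit 28) (nat_lit 5) (nat_lit 32) (nat_lit 5) (nat_lit 29) (nat_lit 5) (nat_lit 411) (nat_lit 354) (nat_lit 96))))) (XT.nd (nat_lit 282) (nat_lit 252) (nat_lit 0) (XT.nd (nat_lit 94) (nat_lit 0) (nat_lit 0) (XT.lf (nat_lit 0) (nat_lit 13192899944) (nat_lit 252) (nat_lit 52475830479) (nat_lit 336) (nat_lit 34898677927) (nat_lit 25) (nat_lit 5) (nat_lit 28) (nat_lit 5) (nat_lit 29) (nat_lit 5) (nat_lit 412) (nat_lit 354) (nat_lit 95)) (XT.nd (nat_lit 94) (nat_lit 0) (nat_lit 0) (XT.lf (nat_lit 0) (nat_lit 41160144697) (nat_lit 252) (nat_lit 34012353662) (nat_lit 336) (nat_lit 27818283780) (nat_lit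 25) (nat_lit 5) (nat_lit 28) (nat_lit 5) (nat_lit 29) (nat_lit 5) (nat_lit 413) (nat_lit 354) (nat_lit 94)) (XT.lf (nat_lit 0) (nat_lit 69993785264) (nat_lit 252) (nat_lit 14976656155) (nat_lit 336) (nat_lit 20518854575) (nat_lit 25) (nat_lit 5) (nat_lit 28) (nat_lit 5) (nat_lit 29) (nat_lit 5) (nat_lit 414) (nat_lit 354) (nat_lit 93)))) (XT.nd (nat_lit 94) (nat_lit 252) (nat_lit 0) (XT.lf (nat_lit 0) (nat_lit 95117811021) (nat_lit 336) (nat_lit 8390699883) (nat_lit 84) (nat_lit 4555338208) (nat_lit 25) (nat_lit 5) (nat_lit 29) (nat_lit 5) (nat_lit 26) (nat_lit 5) (nat_lit 415) (nat_lit 354) (nat_lit 92)) (XT.nd (nat_lit 94) (nat_lit 84) (nat_lit 0) (XT.lf (nat_lit 0) (nat_lit 19799533524) (nat_lit 168) (nat_lit 86129388446) (nat_lit 252) (nat_lit 4778468726) (nat_lit 23) (nat_lit 5) (nat_lit 25) (nat_lit 5) (nat_lit 26) (nat_lit 5) (nat_lit 416) (nat_lit 354) (nat_lit 91)) (XT.lf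 (nat_lit 0) (nat_lit 3656972892) (nat_lit 252) (nat_lit 64426223694) (nat_lit 84) (nat_lit 45345837060) (nat_lit 22) (nat_lit 5) (nat_lit 25) (nat_lit 5) (nat_lit 23) (nat_lit 5) (nat_lit 417) (nat_lit 354) (nat_lit 90))))))))
noncomputable def xc217 : XT := (XT.nd (nat_lit 50290) (nat_lit 0) (nat_lit 1428) (XT.nd (nat_lit 49162) (nat_lit 0) (nat_lit 4788) (XT.nd (nat_lit 48598) (nat_lit 0) (nat_lit 6048) (XT.nd (nat_lit 48316) (nat_lit 0) (nat_lit 5964) (XT.nd (nat_lit 48128) (nat_lit 0) (nat_lit 5964) (XT.lf (nat_lit 0) (nat_lit 12254249948) (nat_lit 252) (nat_lit 37173086365) (nat_lit 84) (nat_lit 66806210199) (nat_lit 22) (nat_lit 5) (nat_lit 25) (nat_lit 5) (nat_lit 23) (nat_lit 5) (nat_lit 418) (nat_lit 354) (nat_lit 89)) (XT.nd (nat_lit 94) (nat_lit 0) (nat_lit 0) (XT.lf (nat_lit 0) (nat_lit 9002462304) (nat_lit 1092) (nat_lit 3791974016) (nat_lit 1092) (nat_lit 3791974016)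 (nat_lit 93) (nat_lit 3) (nat_lit 106) (nat_lit 3) (nat_lit 106) (nat_lit 5) (nat_lit 355) (nat_lit 355) (nat_lit 151)) (XT.lf (nat_lit 84) (nat_lit 4064296858) (nat_lit 0) (nat_lit 14308455329) (nat_lit 1092) (nat_lit 15311227411) (nat_lit 94) (nat_lit 5) (nat_lit 93) (nat_lit 3) (nat_lit 106) (nat_lit 5) (nat_lit 356) (nat_lit 355) (nat_lit 150)))) (XT.nd (nat_lit 94) (nat_lit 0) (nat_lit 84) (XT.lf (nat_lit 84) (nat_lit 16233380782) (nat_lit 0) (nat_lit 2595800633) (nat_lit 1092) (nat_lit 15379420686) (nat_lit 94) (nat_lit 5) (nat_lit 93) (nat_lit 3) (nat_lit 106) (nat_lit 5) (nat_lit 357) (nat_lit 355) (nat_lit 149)) (XT.nd (nat_lit 94) (nat_lit 0) (nat_lit 0) (XT.lf (nat_lit 0) (nat_lit 19391908254) (nat_lit 1008) (nat_lit 6064903500) (nat_lit 1092) (nat_lit 9289830045) (nat_lit 94) (nat_lit 5) (nat_lit 106) (nat_lit 5) (nat_lit 107) (nat_lit 5) (nat_lit 358) (nat_lit 355) (nat_lit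 148)) (XT.lf (nat_lit 84) (nat_lit 6314256229) (nat_lit 0) (nat_lit 13745173541) (nat_lit 1092) (nat_lit 15239233280) (nat_lit 95) (nat_lit 5) (nat_lit 94) (nat_lit 5) (nat_lit 107) (nat_lit 5) (nat_lit 359) (nat_lit 355) (nat_lit 147))))) (XT.nd (nat_lit 282) (nat_lit 0) (nat_lit 84) (XT.nd (nat_lit 94) (nat_lit 0) (nat_lit 84) (XT.lf (nat_lit 84) (nat_lit 19204706079) (nat_lit 0) (nat_lit 1604451489) (nat_lit 1092) (nat_lit 15056742359) (nat_lit 95) (nat_lit 5) (nat_lit 94) (nat_lit 5) (nat_lit 107) (nat_lit 5) (nat_lit 360) (nat_lit 355) (nat_lit 146)) (XT.nd (nat_lit 94) (nat_lit 0) (nat_lit 0) (XT.lf (nat_lit 0) (nat_lit 21688650711) (nat_lit 1008) (nat_lit 4065292101) (nat_lit 1092) (nat_lit 10693485675) (nat_lit 95) (nat_lit 5) (nat_lit 107) (nat_lit 5) (nat_lit 108) (nat_lit 5) (nat_lit 361) (nat_lit 355) (nat_lit 145)) (XT.lf (nat_lit 84) (nat_lit 9086705911) (nat_lit 0) (nat_lit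 13613574398) (nat_lit 1092) (nat_lit 14343462373) (nat_lit 96) (nat_lit 5) (nat_lit 95) (nat_lit 5) (nat_lit 108) (nat_lit 5) (nat_lit 362) (nat_lit 355) (nat_lit 144)))) (XT.nd (nat_lit 94) (nat_lit 0) (nat_lit 84) (XT.lf (nat_lit 84) (nat_lit 22731564686) (nat_lit 0) (nat_lit 1052500436) (nat_lit 1092) (nat_lit 13873221867) (nat_lit 96) (nat_lit 5) (nat_lit 95) (nat_lit 5) (nat_lit 108) (nat_lit 5) (nat_lit 363) (nat_lit 355) (nat_lit 143)) (XT.nd (nat_lit 94) (nat_lit 0) (nat_lit 0) (XT.lf (nat_lit 0) (nat_lit 25017893049) (nat_lit 1008) (nat_lit 1609532389) (nat_lit 1092) (nat_lit 11658824651) (nat_lit 96) (nat_lit 5) (nat_lit 108) (nat_lit 5) (nat_lit 109) (nat_lit 5) (nat_lit 364) (nat_lit 355) (nat_lit 142)) (XT.lf (nat_lit 84) (nat_lit 12356619204) (nat_lit 0) (nat_lit 14065158326) (nat_lit 1092) (nat_lit 12508855945) (nat_lit 97) (nat_lit 5) (nat_lit 96) (nat_lit 5) (nat_lit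 109) (nat_lit 5) (nat_lit 365) (nat_lit 355) (nat_lit 141)))))) (XT.nd (nat_lit 564) (nat_lit 1428) (nat_lit 0) (XT.nd (nat_lit 282) (nat_lit 0) (nat_lit 84) (XT.nd (nat_lit 94) (nat_lit 0) (nat_lit 84) (XT.lf (nat_lit 84) (nat_lit 26788819260) (nat_lit 0) (nat_lit 1095663510) (nat_lit 1092) (nat_lit 11710043886) (nat_lit 97) (nat_lit 5) (nat_lit 96) (nat_lit 5) (nat_lit 109) (nat_lit 5) (nat_lit 366) (nat_lit 355) (nat_lit 140)) (XT.nd (nat_lit 94) (nat_lit 0) (nat_lit 0) (XT.lf (nat_lit 84) (nat_lit 1292631981) (nat_lit 0) (nat_lit 28233051070) (nat_lit 1092) (nat_lit 10749197762) (nat_lit 98) (nat_lit 5) (nat_lit 97) (nat_lit 5) (nat_lit 110) (nat_lit 5) (nat_lit 367) (nat_lit 355) (nat_lit 139)) (XT.lf (nat_lit 84) (nat_lit 16087017943) (nat_lit 0) (nat_lit 15274083622) (nat_lit 1092) (nat_lit 9610788544) (nat_lit 98) (nat_lit 5) (nat_lit 97) (nat_lit 5) (nat_lit 110) (nat_lit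 5) (nat_lit 368) (nat_lit 355) (nat_lit 138)))) (XT.nd (nat_lit 94) (nat_lit 0) (nat_lit 84) (XT.lf (nat_lit 84) (nat_lit 31339021408) (nat_lit 0) (nat_lit 1913022343) (nat_lit 1092) (nat_lit 8438513047) (nat_lit 98) (nat_lit 5) (nat_lit 97) (nat_lit 5) (nat_lit 110) (nat_lit 5) (nat_lit 369) (nat_lit 355) (nat_lit 137)) (XT.nd (nat_lit 94) (nat_lit 0) (nat_lit 0) (XT.lf (nat_lit 84) (nat_lit 4606439244) (nat_lit 0) (nat_lit 30757207697) (nat_lit 1092) (nat_lit 7062839194) (nat_lit 99) (nat_lit 5) (nat_lit 98) (nat_lit 5) (nat_lit 111) (nat_lit 5) (nat_lit 370) (nat_lit 355) (nat_lit 136)) (XT.lf (nat_lit 84) (nat_lit 20226570346) (nat_lit 0) (nat_lit 17440256312) (nat_lit 1092) (nat_lit 5514500056) (nat_lit 99) (nat_lit 5) (nat_lit 98) (nat_lit 5) (nat_lit 111) (nat_lit 5) (nat_lit 371) (nat_lit 355) (nat_lit 135))))) (XT.nd (nat_lit 282) (nat_lit 672) (nat_lit 0) (XT.nd (nat_lit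 94) (nat_lit 924) (nat_lit 0) (XT.lf (nat_lit 84) (nat_lit 36329936350) (nat_lit 0) (nat_lit 3710208071) (nat_lit 1092) (nat_lit 3919468852) (nat_lit 99) (nat_lit 5) (nat_lit 98) (nat_lit 5) (nat_lit 111) (nat_lit 5) (nat_lit 372) (nat_lit 355) (nat_lit 134)) (XT.nd (nat_lit 94) (nat_lit 0) (nat_lit 0) (XT.lf (nat_lit 0) (nat_lit 8231703521) (nat_lit 1008) (nat_lit 34439391390) (nat_lit 1092) (nat_lit 2085232588) (nat_lit 87) (nat_lit 5) (nat_lit 99) (nat_lit 5) (nat_lit 100) (nat_lit 5) (nat_lit 373) (nat_lit 355) (nat_lit 133)) (XT.lf (nat_lit 0) (nat_lit 24706808557) (nat_lit 1008) (nat_lit 20792803797) (nat_lit 1092) (nat_lit 74537717) (nat_lit 87) (nat_lit 5) (nat_lit 99) (nat_lit 5) (nat_lit 100) (nat_lit 5) (nat_lit 374) (nat_lit 355) (nat_lit 132)))) (XT.nd (nat_lit 94) (nat_lit 588) (nat_lit 0) (XT.lf (nat_lit 0) (nat_lit 1957048307) (nat_lit 1092) (nat_lit 4745505195) (nat_lit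 84) (nat_lit 39714199549) (nat_lit 86) (nat_lit 5) (nat_lit 99) (nat_lit 5) (nat_lit 87) (nat_lit 5) (nat_lit 375) (nat_lit 355) (nat_lit 131)) (XT.nd (nat_lit 94) (nat_lit 0) (nat_lit 0) (XT.lf (nat_lit 0) (nat_lit 4248001654) (nat_lit 672) (nat_lit 35242085968) (nat_lit 84) (nat_lit 7789235314) (nat_lit 79) (nat_lit 5) (nat_lit 87) (nat_lit 5) (nat_lit 80) (nat_lit 5) (nat_lit 376) (nat_lit 355) (nat_lit 130)) (XT.lf (nat_lit 0) (nat_lit 6727452260) (nat_lit 672) (nat_lit 18796307294) (nat_lit 84) (nat_lit 22641236824) (nat_lit 79) (nat_lit 5) (nat_lit 87) (nat_lit 5) (nat_lit 80) (nat_lit 5) (nat_lit 377) (nat_lit 355) (nat_lit 129))))))) (XT.nd (nat_lit 1128) (nat_lit 1512) (nat_lit 0) (XT.nd (nat_lit 564) (nat_lit 840) (nat_lit 0) (XT.nd (nat_lit 282) (nat_lit 504) (nat_lit 0) (XT.nd (nat_lit 94) (nat_lit 504) (nat_lit 0) (XT.lf (nat_lit 0) (nat_lit 9282685717) (nat_lit 672) (nat_lit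 1841678183) (nat_lit 84) (nat_lit 37953800807) (nat_lit 79) (nat_lit 5) (nat_lit 87) (nat_lit 5) (nat_lit 80) (nat_lit 5) (nat_lit 378) (nat_lit 355) (nat_lit 128)) (XT.nd (nat_lit 94) (nat_lit 0) (nat_lit 0) (XT.lf (nat_lit 0) (nat_lit 12112937632) (nat_lit 588) (nat_lit 34094162350) (nat_lit 84) (nat_lit 3806476640) (nat_lit 73) (nat_lit 5) (nat_lit 80) (nat_lit 5) (nat_lit 74) (nat_lit 5) (nat_lit 379) (nat_lit 355) (nat_lit 127)) (XT.lf (nat_lit 0) (nat_lit 15163098962) (nat_lit 588) (nat_lit 16822187857) (nat_lit 84) (nat_lit 18988607369) (nat_lit 73) (nat_lit 5) (nat_lit 80) (nat_lit 5) (nat_lit 74) (nat_lit 5) (nat_lit 380) (nat_lit 355) (nat_lit 126)))) (XT.nd (nat_lit 94) (nat_lit 0) (nat_lit 0) (XT.lf (nat_lit 0) (nat_lit 1004517750) (nat_lit 504) (nat_lit 17312268865) (nat_lit 588) (nat_lit 33646921916) (nat_lit 67) (nat_lit 5) (nat_lit 73) (nat_lit 5) (nat_lit 74) (nat_lit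 5) (nat_lit 381) (nat_lit 355) (nat_lit 125)) (XT.nd (nat_lit 94) (nat_lit 0) (nat_lit 0) (XT.lf (nat_lit 0) (nat_lit 19739543390) (nat_lit 504) (nat_lit 2003311370) (nat_lit 588) (nat_lit 31235944147) (nat_lit 67) (nat_lit 5) (nat_lit 73) (nat_lit 5) (nat_lit 74) (nat_lit 5) (nat_lit 382) (nat_lit 355) (nat_lit 124)) (XT.lf (nat_lit 0) (nat_lit 25410889257) (nat_lit 588) (nat_lit 15107639647) (nat_lit 84) (nat_lit 13502624423) (nat_lit 67) (nat_lit 5) (nat_lit 74) (nat_lit 5) (nat_lit 68) (nat_lit 5) (nat_lit 383) (nat_lit 355) (nat_lit 123))))) (XT.nd (nat_lit 282) (nat_lit 420) (nat_lit 0) (XT.nd (nat_lit 94) (nat_lit 0) (nat_lit 0) (XT.lf (nat_lit 0) (nat_lit 3637956143) (nat_lit 420) (nat_lit 25610339892) (nat_lit 504) (nat_lit 25845803741) (nat_lit 62) (nat_lit 5) (nat_lit 67) (nat_lit 5) (nat_lit 68) (nat_lit 5) (nat_lit 384) (nat_lit 355) (nat_lit 122)) (XT.nd (nat_lit 94)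 (nat_lit 0) (nat_lit 0) (XT.lf (nat_lit 0) (nat_lit 23284040897) (nat_lit 420) (nat_lit 10077417970) (nat_lit 504) (nat_lit 22833992472) (nat_lit 62) (nat_lit 5) (nat_lit 67) (nat_lit 5) (nat_lit 68) (nat_lit 5) (nat_lit 385) (nat_lit 355) (nat_lit 121)) (XT.lf (nat_lit 0) (nat_lit 37660156364) (nat_lit 504) (nat_lit 13851589312) (nat_lit 84) (nat_lit 5817404627) (nat_lit 62) (nat_lit 5) (nat_lit 68) (nat_lit 5) (nat_lit 63) (nat_lit 5) (nat_lit 386) (nat_lit 355) (nat_lit 120)))) (XT.nd (nat_lit 94) (nat_lit 0) (nat_lit 0) (XT.lf (nat_lit 0) (nat_lit 5812246172) (nat_lit 420) (nat_lit 36439750534) (nat_lit 504) (nat_lit 16241045050) (nat_lit 57) (nat_lit 5) (nat_lit 62) (nat_lit 5) (nat_lit 63) (nat_lit 5) (nat_lit 387) (nat_lit 355) (nat_lit 119)) (XT.nd (nat_lit 94) (nat_lit 0) (nat_lit 0) (XT.lf (nat_lit 0) (nat_lit 26378440210) (nat_lit 420) (nat_lit 20751499571) (nat_lit 504)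 (nat_lit 12558621711) (nat_lit 57) (nat_lit 5) (nat_lit 62) (nat_lit 5) (nat_lit 63) (nat_lit 5) (nat_lit 388) (nat_lit 355) (nat_lit 118)) (XT.lf (nat_lit 0) (nat_lit 47581345564) (nat_lit 420) (nat_lit 4576951876) (nat_lit 504) (nat_lit 8762873701) (nat_lit 57) (nat_lit 5) (nat_lit 62) (nat_lit 5) (nat_lit 63) (nat_lit 5) (nat_lit 389) (nat_lit 355) (nat_lit 117)))))) (XT.nd (nat_lit 564) (nat_lit 672) (nat_lit 0) (XT.nd (nat_lit 282) (nat_lit 420) (nat_lit 0) (XT.nd (nat_lit 94) (nat_lit 84) (nat_lit 0) (XT.lf (nat_lit 0) (nat_lit 7275263001) (nat_lit 336) (nat_lit 50258688417) (nat_lit 420) (nat_lit 4652110168) (nat_lit 53) (nat_lit 5) (nat_lit 57) (nat_lit 5) (nat_lit 58) (nat_lit 5) (nat_lit 390) (nat_lit 355) (nat_lit 116)) (XT.nd (nat_lit 94) (nat_lit 84) (nat_lit 0) (XT.lf (nat_lit 0) (nat_lit 28763608181) (nat_lit 336) (nat_lit 34497457626) (nat_lit 420) (nat_lit 223372277)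 (nat_lit 53) (nat_lit 5) (nat_lit 57) (nat_lit 5) (nat_lit 58) (nat_lit 5) (nat_lit 391) (nat_lit 355) (nat_lit 115)) (XT.lf (nat_lit 0) (nat_lit 4254410664) (nat_lit 420) (nat_lit 13948880177) (nat_lit 84) (nat_lit 46618464717) (nat_lit 52) (nat_lit 5) (nat_lit 57) (nat_lit 5) (nat_lit 53) (nat_lit 5) (nat_lit 392) (nat_lit 355) (nat_lit 114)))) (XT.nd (nat_lit 94) (nat_lit 0) (nat_lit 0) (XT.lf (nat_lit 0) (nat_lit 7617385365) (nat_lit 420) (nat_lit 1323816556) (nat_lit 504) (nat_lit 57256940576) (nat_lit 47) (nat_lit 5) (nat_lit 52) (nat_lit 5) (nat_lit 53) (nat_lit 5) (nat_lit 393) (nat_lit 355) (nat_lit 113)) (XT.nd (nat_lit 94) (nat_lit 0) (nat_lit 0) (XT.lf (nat_lit 0) (nat_lit 14079160239) (nat_lit 504) (nat_lit 37626583736) (nat_lit 84) (nat_lit 15901974573) (nat_lit 47) (nat_lit 5) (nat_lit 53) (nat_lit 5) (nat_lit 48) (nat_lit 5) (nat_lit 394) (nat_lit 355) (nat_lit 112))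 (XT.lf (nat_lit 0) (nat_lit 19389241114) (nat_lit 504) (nat_lit 16037165732) (nat_lit 84) (nat_lit 33634189580) (nat_lit 47) (nat_lit 5) (nat_lit 53) (nat_lit 5) (nat_lit 48) (nat_lit 5) (nat_lit 395) (nat_lit 355) (nat_lit 111))))) (XT.nd (nat_lit 282) (nat_lit 336) (nat_lit 0) (XT.nd (nat_lit 94) (nat_lit 0) (nat_lit 0) (XT.lf (nat_lit 0) (nat_lit 6348664341) (nat_lit 336) (nat_lit 18577576868) (nat_lit 420) (nat_lit 45630343895) (nat_lit 43) (nat_lit 5) (nat_lit 47) (nat_lit 5) (nat_lit 48) (nat_lit 5) (nat_lit 396) (nat_lit 355) (nat_lit 110)) (XT.nd (nat_lit 94) (nat_lit 0) (nat_lit 0) (XT.lf (nat_lit 0) (nat_lit 29767671117) (nat_lit 336) (nat_lit 1033952145) (nat_lit 420) (nat_lit 41292160388) (nat_lit 43) (nat_lit 5) (nat_lit 47) (nat_lit 5) (nat_lit 48) (nat_lit 5) (nat_lit 397) (nat_lit 355) (nat_lit 109)) (XT.lf (nat_lit 0) (nat_lit 37027673926) (nat_lit 420) (nat_lit 19935903654)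 (nat_lit 84) (nat_lit 16709836196) (nat_lit 43) (nat_lit 5) (nat_lit 48) (nat_lit 5) (nat_lit 44) (nat_lit 5) (nat_lit 398) (nat_lit 355) (nat_lit 108)))) (XT.nd (nat_lit 188) (nat_lit 0) (nat_lit 0) (XT.nd (nat_lit 94) (nat_lit 0) (nat_lit 0) (XT.lf (nat_lit 0) (nat_lit 3201592347) (nat_lit 336) (nat_lit 40286852876) (nat_lit 420) (nat_lit 31812276932) (nat_lit 39) (nat_lit 5) (nat_lit 43) (nat_lit 5) (nat_lit 44) (nat_lit 5) (nat_lit 399) (nat_lit 355) (nat_lit 107)) (XT.lf (nat_lit 0) (nat_lit 27478249487) (nat_lit 336) (nat_lit 22878730306) (nat_lit 420) (nat_lit 26615068181) (nat_lit 39) (nat_lit 5) (nat_lit 43) (nat_lit 5) (nat_lit 44) (nat_lit 5) (nat_lit 400) (nat_lit 355) (nat_lit 106))) (XT.nd (nat_lit 94) (nat_lit 0) (nat_lit 0) (XT.lf (nat_lit 0) (nat_lit 52506773085) (nat_lit 336) (nat_lit 4931073621) (nat_lit 420) (nat_lit 21257359200) (nat_lit 39) (nat_lit 5) (nat_lit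 43) (nat_lit 5) (nat_lit 44) (nat_lit 5) (nat_lit 401) (nat_lit 355) (nat_lit 105)) (XT.lf (nat_lit 0) (nat_lit 64872290392) (nat_lit 420) (nat_lit 2295954088) (nat_lit 84) (nat_lit 13299383667) (nat_lit 39) (nat_lit 5) (nat_lit 44) (nat_lit 5) (nat_lit 40) (nat_lit 5) (nat_lit 402) (nat_lit 355) (nat_lit 104))))))))
noncomputable def xc218 : XT := (XT.nd (nat_lit 50290) (nat_lit 0) (nat_lit 3360) (XT.nd (nat_lit 1128) (nat_lit 252) (nat_lit 0) (XT.nd (nat_lit 564) (nat_lit 504) (nat_lit 0) (XT.nd (nat_lit 282) (nat_lit 336) (nat_lit 0) (XT.nd (nat_lit 94) (nat_lit 84) (nat_lit 0) (XT.lf (nat_lit 0) (nat_lit 22744319009) (nat_lit 252) (nat_lit 50068384320) (nat_lit 336) (nat_lit 9473754100) (nat_lit 36) (nat_lit 5) (nat_lit 39) (nat_lit 5) (nat_lit 40) (nat_lit 5) (nat_lit 403) (nat_lit 355) (nat_lit 103)) (XT.nd (nat_lit 94) (nat_lit 84) (nat_lit 0) (XT.lf (nat_lit 0) (nat_lit 48608834008)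 (nat_lit 252) (nat_lit 32413851909) (nat_lit 336) (nat_lit 3138261003) (nat_lit 36) (nat_lit 5) (nat_lit 39) (nat_lit 5) (nat_lit 40) (nat_lit 5) (nat_lit 404) (nat_lit 355) (nat_lit 102)) (XT.lf (nat_lit 0) (nat_lit 3324718788) (nat_lit 336) (nat_lit 10852734391) (nat_lit 84) (nat_lit 71915067787) (nat_lit 35) (nat_lit 5) (nat_lit 39) (nat_lit 5) (nat_lit 36) (nat_lit 5) (nat_lit 405) (nat_lit 355) (nat_lit 101)))) (XT.nd (nat_lit 94) (nat_lit 0) (nat_lit 0) (XT.lf (nat_lit 0) (nat_lit 10117653777) (nat_lit 420) (nat_lit 73246769987) (nat_lit 84) (nat_lit 4712518700) (nat_lit 31) (nat_lit 5) (nat_lit 36) (nat_lit 5) (nat_lit 32) (nat_lit 5) (nat_lit 406) (nat_lit 355) (nat_lit 100)) (XT.nd (nat_lit 94) (nat_lit 0) (nat_lit 0) (XT.lf (nat_lit 0) (nat_lit 17380095406) (nat_lit 420) (nat_lit 48726870668) (nat_lit 84) (nat_lit 24007890404) (nat_lit 31) (nat_lit 5) (nat_lit 36) (nat_lit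 5) (nat_lit 32) (nat_lit 5) (nat_lit 407) (nat_lit 355) (nat_lit 99)) (XT.lf (nat_lit 0) (nat_lit 24867172996) (nat_lit 420) (nat_lit 23447497018) (nat_lit 84) (nat_lit 43901293384) (nat_lit 31) (nat_lit 5) (nat_lit 36) (nat_lit 5) (nat_lit 32) (nat_lit 5) (nat_lit 408) (nat_lit 355) (nat_lit 98))))) (XT.nd (nat_lit 282) (nat_lit 252) (nat_lit 0) (XT.nd (nat_lit 94) (nat_lit 0) (nat_lit 0) (XT.lf (nat_lit 0) (nat_lit 2668681979) (nat_lit 252) (nat_lit 29943656964) (nat_lit 336) (nat_lit 61769062052) (nat_lit 28) (nat_lit 5) (nat_lit 31) (nat_lit 5) (nat_lit 32) (nat_lit 5) (nat_lit 409) (nat_lit 355) (nat_lit 97)) (XT.nd (nat_lit 94) (nat_lit 0) (nat_lit 0) (XT.lf (nat_lit 0) (nat_lit 30090920222) (nat_lit 252) (nat_lit 10750952343) (nat_lit 336) (nat_lit 55764524255) (nat_lit 28) (nat_lit 5) (nat_lit 31) (nat_lit 5) (nat_lit 32) (nat_lit 5) (nat_lit 410) (nat_lit 355) (nat_lit 96))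 (XT.lf (nat_lit 0) (nat_lit 49415703890) (nat_lit 336) (nat_lit 40627378343) (nat_lit 84) (nat_lit 8854522536) (nat_lit 28) (nat_lit 5) (nat_lit 32) (nat_lit 5) (nat_lit 29) (nat_lit 5) (nat_lit 411) (nat_lit 355) (nat_lit 95)))) (XT.nd (nat_lit 94) (nat_lit 252) (nat_lit 0) (XT.lf (nat_lit 0) (nat_lit 58364831584) (nat_lit 336) (nat_lit 14047300789) (nat_lit 84) (nat_lit 28844314895) (nat_lit 28) (nat_lit 5) (nat_lit 32) (nat_lit 5) (nat_lit 29) (nat_lit 5) (nat_lit 412) (nat_lit 355) (nat_lit 94)) (XT.nd (nat_lit 94) (nat_lit 0) (nat_lit 0) (XT.lf (nat_lit 0) (nat_lit 13630812755) (nat_lit 252) (nat_lit 54095352990) (nat_lit 336) (nat_lit 35958071639) (nat_lit 25) (nat_lit 5) (nat_lit 28) (nat_lit 5) (nat_lit 29) (nat_lit 5) (nat_lit 413) (nat_lit 355) (nat_lit 93)) (XT.lf (nat_lit 0) (nat_lit 42464172145) (nat_lit 252) (nat_lit 35059725729) (nat_lit 336) (nat_lit 28658860758) (nat_lit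 25) (nat_lit 5) (nat_lit 28) (nat_lit 5) (nat_lit 29) (nat_lit 5) (nat_lit 414) (nat_lit 355) (nat_lit 92)))))) (XT.nd (nat_lit 48598) (nat_lit 0) (nat_lit 5964) (XT.nd (nat_lit 282) (nat_lit 84) (nat_lit 0) (XT.nd (nat_lit 94) (nat_lit 168) (nat_lit 0) (XT.lf (nat_lit 0) (nat_lit 72190811775) (nat_lit 252) (nat_lit 15434132402) (nat_lit 336) (nat_lit 21133804422) (nat_lit 25) (nat_lit 5) (nat_lit 28) (nat_lit 5) (nat_lit 29) (nat_lit 5) (nat_lit 415) (nat_lit 355) (nat_lit 91)) (XT.nd (nat_lit 94) (nat_lit 168) (nat_lit 0) (XT.lf (nat_lit 0) (nat_lit 98086333707) (nat_lit 336) (nat_lit 8623782209) (nat_lit 84) (nat_lit 4703016435) (nat_lit 25) (nat_lit 5) (nat_lit 29) (nat_lit 5) (nat_lit 26) (nat_lit 5) (nat_lit 416) (nat_lit 355) (nat_lit 90)) (XT.lf (nat_lit 0) (nat_lit 20440074786) (nat_lit 168) (nat_lit 88792182265) (nat_lit 252) (nat_lit 4906379375) (nat_lit 23) (nat_lit 5)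 (nat_lit 25) (nat_lit 5) (nat_lit 26) (nat_lit 5) (nat_lit 417) (nat_lit 355) (nat_lit 89)))) (XT.nd (nat_lit 94) (nat_lit 0) (nat_lit 0) (XT.lf (nat_lit 0) (nat_lit 3789557728) (nat_lit 252) (nat_lit 66397017131) (nat_lit 84) (nat_lit 46758089963) (nat_lit 22) (nat_lit 5) (nat_lit 25) (nat_lit 5) (nat_lit 23) (nat_lit 5) (nat_lit 418) (nat_lit 355) (nat_lit 88)) (XT.nd (nat_lit 48128) (nat_lit 0) (nat_lit 5964) (XT.lf (nat_lit 0) (nat_lit 12652772507) (nat_lit 252) (nat_lit 38299826924) (nat_lit 84) (nat_lit 68883538267) (nat_lit 22) (nat_lit 5) (nat_lit 25) (nat_lit 5) (nat_lit 23) (nat_lit 5) (nat_lit 419) (nat_lit 355) (nat_lit 87)) (XT.lf (nat_lit 0) (nat_lit 9329491096) (nat_lit 1092) (nat_lit 3884672796) (nat_lit 1092) (nat_lit 3884672796) (nat_lit 93) (nat_lit 3) (nat_lit 106) (nat_lit 3) (nat_lit 106) (nat_lit 5) (nat_lit 356) (nat_lit 356) (nat_lit 149))))) (XT.nd (nat_lit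 282) (nat_lit 0) (nat_lit 84) (XT.nd (nat_lit 94) (nat_lit 0) (nat_lit 0) (XT.lf (nat_lit 84) (nat_lit 4239491674) (nat_lit 0) (nat_lit 14796325179) (nat_lit 1092) (nat_lit 15688951623) (nat_lit 94) (nat_lit 5) (nat_lit 93) (nat_lit 3) (nat_lit 106) (nat_lit 5) (nat_lit 357) (nat_lit 356) (nat_lit 148)) (XT.nd (nat_lit 94) (nat_lit 0) (nat_lit 84) (XT.lf (nat_lit 84) (nat_lit 16784337810) (nat_lit 0) (nat_lit 2719245948) (nat_lit 1092) (nat_lit 15762173186) (nat_lit 94) (nat_lit 5) (nat_lit 93) (nat_lit 3) (nat_lit 106) (nat_lit 5) (nat_lit 358) (nat_lit 356) (nat_lit 147)) (XT.lf (nat_lit 0) (nat_lit 20080614535) (nat_lit 1008) (nat_lit 6203002444) (nat_lit 1092) (nat_lit 9536971290) (nat_lit 94) (nat_lit 5) (nat_lit 106) (nat_lit 5) (nat_lit 107) (nat_lit 5) (nat_lit 359) (nat_lit 356) (nat_lit 146)))) (XT.nd (nat_lit 94) (nat_lit 0) (nat_lit 0) (XT.lf (nat_lit 84) (nat_lit 6559405911)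 (nat_lit 0) (nat_lit 14207280780) (nat_lit 1092) (nat_lit 15623116496) (nat_lit 95) (nat_lit 5) (nat_lit 94) (nat_lit 5) (nat_lit 107) (nat_lit 5) (nat_lit 360) (nat_lit 356) (nat_lit 145)) (XT.nd (nat_lit 94) (nat_lit 0) (nat_lit 84) (XT.lf (nat_lit 84) (nat_lit 19847974119) (nat_lit 0) (nat_lit 1689113694) (nat_lit 1092) (nat_lit 15437630357) (nat_lit 95) (nat_lit 5) (nat_lit 94) (nat_lit 5) (nat_lit 107) (nat_lit 5) (nat_lit 361) (nat_lit 356) (nat_lit 144)) (XT.lf (nat_lit 0) (nat_lit 22441018193) (nat_lit 1008) (nat_lit 4141565177) (nat_lit 1092) (nat_lit 10991792107) (nat_lit 95) (nat_lit 5) (nat_lit 107) (nat_lit 5) (nat_lit 108) (nat_lit 5) (nat_lit 362) (nat_lit 356) (nat_lit 143))))))) (XT.nd (nat_lit 1128) (nat_lit 2100) (nat_lit 0) (XT.nd (nat_lit 564) (nat_lit 672) (nat_lit 0) (XT.nd (nat_lit 282) (nat_lit 0) (nat_lit 84) (XT.nd (nat_lit 94) (nat_lit 0) (nat_lit 0) (XT.lf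 (nat_lit 84) (nat_lit 9417641088) (nat_lit 0) (nat_lit 14064449746) (nat_lit 1092) (nat_lit 14707157330) (nat_lit 96) (nat_lit 5) (nat_lit 95) (nat_lit 5) (nat_lit 108) (nat_lit 5) (nat_lit 363) (nat_lit 356) (nat_lit 142)) (XT.nd (nat_lit 94) (nat_lit 0) (nat_lit 84) (XT.lf (nat_lit 84) (nat_lit 23484009723) (nat_lit 0) (nat_lit 1113114896) (nat_lit 1092) (nat_lit 14224773436) (nat_lit 96) (nat_lit 5) (nat_lit 95) (nat_lit 5) (nat_lit 108) (nat_lit 5) (nat_lit 364) (nat_lit 356) (nat_lit 141)) (XT.lf (nat_lit 0) (nat_lit 25866654178) (nat_lit 1008) (nat_lit 1610146617) (nat_lit 1092) (nat_lit 11993649697) (nat_lit 96) (nat_lit 5) (nat_lit 108) (nat_lit 5) (nat_lit 109) (nat_lit 5) (nat_lit 365) (nat_lit 356) (nat_lit 140)))) (XT.nd (nat_lit 94) (nat_lit 0) (nat_lit 0) (XT.lf (nat_lit 84) (nat_lit 12788456746) (nat_lit 0) (nat_lit 14523885095) (nat_lit 1092) (nat_lit 12822533302) (nat_lit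 97) (nat_lit 5) (nat_lit 96) (nat_lit 5) (nat_lit 109) (nat_lit 5) (nat_lit 366) (nat_lit 356) (nat_lit 139)) (XT.nd (nat_lit 94) (nat_lit 0) (nat_lit 84) (XT.lf (nat_lit 84) (nat_lit 27666588222) (nat_lit 0) (nat_lit 1151653192) (nat_lit 1092) (nat_lit 12001186016) (nat_lit 97) (nat_lit 5) (nat_lit 96) (nat_lit 5) (nat_lit 109) (nat_lit 5) (nat_lit 367) (nat_lit 356) (nat_lit 138)) (XT.lf (nat_lit 84) (nat_lit 1382260323) (nat_lit 0) (nat_lit 29126253379) (nat_lit 1092) (nat_lit 11012426250) (nat_lit 98) (nat_lit 5) (nat_lit 97) (nat_lit 5) (nat_lit 110) (nat_lit 5) (nat_lit 368) (nat_lit 356) (nat_lit 137))))) (XT.nd (nat_lit 282) (nat_lit 840) (nat_lit 0) (XT.nd (nat_lit 94) (nat_lit 0) (nat_lit 0) (XT.lf (nat_lit 84) (nat_lit 16633782183) (nat_lit 0) (nat_lit 15765017388) (nat_lit 1092) (nat_lit 9840830999) (nat_lit 98) (nat_lit 5) (nat_lit 97) (nat_lit 5) (nat_lit 110) (nat_lit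 5) (nat_lit 369) (nat_lit 356) (nat_lit 136)) (XT.nd (nat_lit 94) (nat_lit 0) (nat_lit 84) (XT.lf (nat_lit 84) (nat_lit 32357152491) (nat_lit 0) (nat_lit 1989238910) (nat_lit 1092) (nat_lit 8634256331) (nat_lit 98) (nat_lit 5) (nat_lit 97) (nat_lit 5) (nat_lit 110) (nat_lit 5) (nat_lit 370) (nat_lit 356) (nat_lit 135)) (XT.lf (nat_lit 84) (nat_lit 4797847235) (nat_lit 0) (nat_lit 31724016180) (nat_lit 1092) (nat_lit 7217587206) (nat_lit 99) (nat_lit 5) (nat_lit 98) (nat_lit 5) (nat_lit 111) (nat_lit 5) (nat_lit 371) (nat_lit 356) (nat_lit 134)))) (XT.nd (nat_lit 94) (nat_lit 924) (nat_lit 0) (XT.lf (nat_lit 84) (nat_lit 20900740850) (nat_lit 0) (nat_lit 17993838345) (nat_lit 1092) (nat_lit 5623179914) (nat_lit 99) (nat_lit 5) (nat_lit 98) (nat_lit 5) (nat_lit 111) (nat_lit 5) (nat_lit 372) (nat_lit 356) (nat_lit 133)) (XT.nd (nat_lit 94) (nat_lit 924) (nat_lit 0) (XT.lf (nat_lit 84)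 (nat_lit 37501893595) (nat_lit 0) (nat_lit 3837769708) (nat_lit 1092) (nat_lit 3980575060) (nat_lit 99) (nat_lit 5) (nat_lit 98) (nat_lit 5) (nat_lit 111) (nat_lit 5) (nat_lit 373) (nat_lit 356) (nat_lit 132)) (XT.lf (nat_lit 0) (nat_lit 8534377199) (nat_lit 1008) (nat_lit 35516394276) (nat_lit 1092) (nat_lit 2090932221) (nat_lit 87) (nat_lit 5) (nat_lit 99) (nat_lit 5) (nat_lit 100) (nat_lit 5) (nat_lit 374) (nat_lit 356) (nat_lit 131)))))) (XT.nd (nat_lit 564) (nat_lit 924) (nat_lit 0) (XT.nd (nat_lit 282) (nat_lit 504) (nat_lit 0) (XT.nd (nat_lit 94) (nat_lit 672) (nat_lit 0) (XT.lf (nat_lit 0) (nat_lit 25518782541) (nat_lit 1008) (nat_lit 21446480378) (nat_lit 1092) (nat_lit 19678089) (nat_lit 87) (nat_lit 5) (nat_lit 99) (nat_lit 5) (nat_lit 100) (nat_lit 5) (nat_lit 375) (nat_lit 356) (nat_lit 130)) (XT.nd (nat_lit 94) (nat_lit 588) (nat_lit 0) (XT.lf (nat_lit 0) (nat_lit 2072050890)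 (nat_lit 1092) (nat_lit 4846540690) (nat_lit 84) (nat_lit 40935116417) (nat_lit 86) (nat_lit 5) (nat_lit 99) (nat_lit 5) (nat_lit 87) (nat_lit 5) (nat_lit 376) (nat_lit 356) (nat_lit 129)) (XT.lf (nat_lit 0) (nat_lit 4432767685) (nat_lit 672) (nat_lit 36286987738) (nat_lit 84) (nat_lit 8023309485) (nat_lit 79) (nat_lit 5) (nat_lit 87) (nat_lit 5) (nat_lit 80) (nat_lit 5) (nat_lit 377) (nat_lit 356) (nat_lit 128)))) (XT.nd (nat_lit 94) (nat_lit 504) (nat_lit 0) (XT.lf (nat_lit 0) (nat_lit 6987485317) (nat_lit 672) (nat_lit 19332821244) (nat_lit 84) (nat_lit 23335945306) (nat_lit 79) (nat_lit 5) (nat_lit 87) (nat_lit 5) (nat_lit 80) (nat_lit 5) (nat_lit 378) (nat_lit 356) (nat_lit 127)) (XT.nd (nat_lit 94) (nat_lit 504) (nat_lit 0) (XT.lf (nat_lit 0) (nat_lit 9620383055) (nat_lit 672) (nat_lit 1853986913) (nat_lit 84) (nat_lit 39123414355) (nat_lit 79) (nat_lit 5) (nat_lit 87) (nat_lit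 5) (nat_lit 80) (nat_lit 5) (nat_lit 379) (nat_lit 356) (nat_lit 126)) (XT.lf (nat_lit 0) (nat_lit 12537266062) (nat_lit 588) (nat_lit 35104943522) (nat_lit 84) (nat_lit 3920026415) (nat_lit 73) (nat_lit 5) (nat_lit 80) (nat_lit 5) (nat_lit 74) (nat_lit 5) (nat_lit 380) (nat_lit 356) (nat_lit 125))))) (XT.nd (nat_lit 282) (nat_lit 420) (nat_lit 0) (XT.nd (nat_lit 94) (nat_lit 504) (nat_lit 0) (XT.lf (nat_lit 0) (nat_lit 15680514257) (nat_lit 588) (nat_lit 17298925088) (nat_lit 84) (nat_lit 19572937028) (nat_lit 73) (nat_lit 5) (nat_lit 80) (nat_lit 5) (nat_lit 74) (nat_lit 5) (nat_lit 381) (nat_lit 356) (nat_lit 124)) (XT.nd (nat_lit 94) (nat_lit 0) (nat_lit 0) (XT.lf (nat_lit 0) (nat_lit 1079955332) (nat_lit 504) (nat_lit 17851026339) (nat_lit 588) (nat_lit 34641931039) (nat_lit 67) (nat_lit 5) (nat_lit 73) (nat_lit 5) (nat_lit 74) (nat_lit 5) (nat_lit 382) (nat_lit 356) (nat_lit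 123)) (XT.lf (nat_lit 0) (nat_lit 20394434834) (nat_lit 504) (nat_lit 2067428707) (nat_lit 588) (nat_lit 32157657586) (nat_lit 67) (nat_lit 5) (nat_lit 73) (nat_lit 5) (nat_lit 74) (nat_lit 5) (nat_lit 383) (nat_lit 356) (nat_lit 122)))) (XT.nd (nat_lit 188) (nat_lit 0) (nat_lit 0) (XT.nd (nat_lit 94) (nat_lit 420) (nat_lit 0) (XT.lf (nat_lit 0) (nat_lit 26242235260) (nat_lit 588) (nat_lit 15532711556) (nat_lit 84) (nat_lit 13919291044) (nat_lit 67) (nat_lit 5) (nat_lit 74) (nat_lit 5) (nat_lit 68) (nat_lit 5) (nat_lit 384) (nat_lit 356) (nat_lit 121)) (XT.lf (nat_lit 0) (nat_lit 3793559685) (nat_lit 420) (nat_lit 26404155598) (nat_lit 504) (nat_lit 26602764440) (nat_lit 62) (nat_lit 5) (nat_lit 67) (nat_lit 5) (nat_lit 68) (nat_lit 5) (nat_lit 385) (nat_lit 356) (nat_lit 120))) (XT.nd (nat_lit 94) (nat_lit 0) (nat_lit 0) (XT.lf (nat_lit 0) (nat_lit 24047385350) (nat_lit 420) (nat_lit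 10389716248) (nat_lit 504) (nat_lit 23498917803) (nat_lit 62) (nat_lit 5) (nat_lit 67) (nat_lit 5) (nat_lit 68) (nat_lit 5) (nat_lit 386) (nat_lit 356) (nat_lit 119)) (XT.lf (nat_lit 0) (nat_lit 38867813759) (nat_lit 504) (nat_lit 14239253270) (nat_lit 84) (nat_lit 5997840805) (nat_lit 62) (nat_lit 5) (nat_lit 68) (nat_lit 5) (nat_lit 63) (nat_lit 5) (nat_lit 387) (nat_lit 356) (nat_lit 118))))))))
noncomputable def xc219 : XT := (XT.nd (nat_lit 2256) (nat_lit 504) (nat_lit 0) (XT.nd (nat_lit 1128) (nat_lit 1260) (nat_lit 0) (XT.nd (nat_lit 564) (nat_lit 756) (nat_lit 0) (XT.nd (nat_lit 282) (nat_lit 420) (nat_lit 0) (XT.nd (nat_lit 94) (nat_lit 0) (nat_lit 0) (XT.lf (nat_lit 0) (nat_lit 6033738582) (nat_lit 420) (nat_lit 37567463893) (nat_lit 504) (nat_lit 16703708225) (nat_lit 57) (nat_lit 5) (nat_lit 62) (nat_lit 5) (nat_lit 63) (nat_lit 5) (nat_lit 388) (nat_lit 356) (nat_lit 117))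 (XT.nd (nat_lit 94) (nat_lit 0) (nat_lit 0) (XT.lf (nat_lit 0) (nat_lit 27236242447) (nat_lit 420) (nat_lit 21392934847) (nat_lit 504) (nat_lit 12908356810) (nat_lit 57) (nat_lit 5) (nat_lit 62) (nat_lit 5) (nat_lit 63) (nat_lit 5) (nat_lit 389) (nat_lit 356) (nat_lit 116)) (XT.lf (nat_lit 0) (nat_lit 49095233028) (nat_lit 420) (nat_lit 4717032136) (nat_lit 504) (nat_lit 8996130764) (nat_lit 57) (nat_lit 5) (nat_lit 62) (nat_lit 5) (nat_lit 63) (nat_lit 5) (nat_lit 390) (nat_lit 356) (nat_lit 115)))) (XT.nd (nat_lit 94) (nat_lit 84) (nat_lit 0) (XT.lf (nat_lit 0) (nat_lit 7540568735) (nat_lit 336) (nat_lit 51813293268) (nat_lit 420) (nat_lit 4758663241) (nat_lit 53) (nat_lit 5) (nat_lit 57) (nat_lit 5) (nat_lit 58) (nat_lit 5) (nat_lit 391) (nat_lit 356) (nat_lit 114)) (XT.nd (nat_lit 94) (nat_lit 84) (nat_lit 0) (XT.lf (nat_lit 0) (nat_lit 29693856738) (nat_lit 336) (nat_lit 35563566988)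 (nat_lit 420) (nat_lit 193766903) (nat_lit 53) (nat_lit 5) (nat_lit 57) (nat_lit 5) (nat_lit 58) (nat_lit 5) (nat_lit 392) (nat_lit 356) (nat_lit 113)) (XT.lf (nat_lit 0) (nat_lit 4421015065) (nat_lit 420) (nat_lit 14343003166) (nat_lit 84) (nat_lit 48065973854) (nat_lit 52) (nat_lit 5) (nat_lit 57) (nat_lit 5) (nat_lit 53) (nat_lit 5) (nat_lit 393) (nat_lit 356) (nat_lit 112))))) (XT.nd (nat_lit 282) (nat_lit 336) (nat_lit 0) (XT.nd (nat_lit 94) (nat_lit 0) (nat_lit 0) (XT.lf (nat_lit 0) (nat_lit 7891428933) (nat_lit 420) (nat_lit 1361000050) (nat_lit 504) (nat_lit 58996643601) (nat_lit 47) (nat_lit 5) (nat_lit 52) (nat_lit 5) (nat_lit 53) (nat_lit 5) (nat_lit 394) (nat_lit 356) (nat_lit 111)) (XT.nd (nat_lit 94) (nat_lit 0) (nat_lit 0) (XT.lf (nat_lit 0) (nat_lit 14548677293) (nat_lit 504) (nat_lit 38755104135) (nat_lit 84) (nat_lit 16398599367) (nat_lit 47) (nat_lit 5) (nat_lit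 53) (nat_lit 5) (nat_lit 48) (nat_lit 5) (nat_lit 395) (nat_lit 356) (nat_lit 110)) (XT.lf (nat_lit 0) (nat_lit 20022376537) (nat_lit 504) (nat_lit 16497553857) (nat_lit 84) (nat_lit 34680402883) (nat_lit 47) (nat_lit 5) (nat_lit 53) (nat_lit 5) (nat_lit 48) (nat_lit 5) (nat_lit 396) (nat_lit 356) (nat_lit 109)))) (XT.nd (nat_lit 94) (nat_lit 0) (nat_lit 0) (XT.lf (nat_lit 0) (nat_lit 6581864746) (nat_lit 336) (nat_lit 19148555656) (nat_lit 420) (nat_lit 47012300339) (nat_lit 43) (nat_lit 5) (nat_lit 47) (nat_lit 5) (nat_lit 48) (nat_lit 5) (nat_lit 397) (nat_lit 356) (nat_lit 108)) (XT.nd (nat_lit 94) (nat_lit 0) (nat_lit 0) (XT.lf (nat_lit 0) (nat_lit 30725766506) (nat_lit 336) (nat_lit 1061226683) (nat_lit 420) (nat_lit 42540612882) (nat_lit 43) (nat_lit 5) (nat_lit 47) (nat_lit 5) (nat_lit 48) (nat_lit 5) (nat_lit 398) (nat_lit 356) (nat_lit 107)) (XT.lf (nat_lit 0) (nat_lit 38205179737)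 (nat_lit 420) (nat_lit 20518674128) (nat_lit 84) (nat_lit 17232382061) (nat_lit 43) (nat_lit 5) (nat_lit 48) (nat_lit 5) (nat_lit 44) (nat_lit 5) (nat_lit 399) (nat_lit 356) (nat_lit 106)))))) (XT.nd (nat_lit 564) (nat_lit 672) (nat_lit 0) (XT.nd (nat_lit 282) (nat_lit 252) (nat_lit 0) (XT.nd (nat_lit 94) (nat_lit 0) (nat_lit 0) (XT.lf (nat_lit 0) (nat_lit 3335727449) (nat_lit 336) (nat_lit 41529962115) (nat_lit 420) (nat_lit 32768322255) (nat_lit 39) (nat_lit 5) (nat_lit 43) (nat_lit 5) (nat_lit 44) (nat_lit 5) (nat_lit 400) (nat_lit 356) (nat_lit 105)) (XT.nd (nat_lit 94) (nat_lit 0) (nat_lit 0) (XT.lf (nat_lit 0) (nat_lit 28363912020) (nat_lit 336) (nat_lit 23582361634) (nat_lit 420) (nat_lit 27410906136) (nat_lit 39) (nat_lit 5) (nat_lit 43) (nat_lit 5) (nat_lit 44) (nat_lit 5) (nat_lit 401) (nat_lit 356) (nat_lit 104)) (XT.lf (nat_lit 0) (nat_lit 54167302449) (nat_lit 336) (nat_lit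 5078496253) (nat_lit 420) (nat_lit 21887987036) (nat_lit 39) (nat_lit 5) (nat_lit 43) (nat_lit 5) (nat_lit 44) (nat_lit 5) (nat_lit 402) (nat_lit 356) (nat_lit 103)))) (XT.nd (nat_lit 94) (nat_lit 252) (nat_lit 0) (XT.lf (nat_lit 0) (nat_lit 66909939269) (nat_lit 420) (nat_lit 2334406086) (nat_lit 84) (nat_lit 13716835302) (nat_lit 39) (nat_lit 5) (nat_lit 44) (nat_lit 5) (nat_lit 40) (nat_lit 5) (nat_lit 403) (nat_lit 356) (nat_lit 102)) (XT.nd (nat_lit 94) (nat_lit 0) (nat_lit 0) (XT.lf (nat_lit 0) (nat_lit 23481784190) (nat_lit 252) (nat_lit 51614242099) (nat_lit 336) (nat_lit 9740385778) (nat_lit 36) (nat_lit 5) (nat_lit 39) (nat_lit 5) (nat_lit 40) (nat_lit 5) (nat_lit 404) (nat_lit 356) (nat_lit 101)) (XT.lf (nat_lit 0) (nat_lit 50147125216) (nat_lit 252) (nat_lit 33412607473) (nat_lit 336) (nat_lit 3209305874) (nat_lit 36) (nat_lit 5) (nat_lit 39) (nat_lit 5) (nat_lit 40) (nat_lit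 5) (nat_lit 405) (nat_lit 356) (nat_lit 100))))) (XT.nd (nat_lit 282) (nat_lit 252) (nat_lit 0) (XT.nd (nat_lit 94) (nat_lit 336) (nat_lit 0) (XT.lf (nat_lit 0) (nat_lit 3452724467) (nat_lit 336) (nat_lit 11158078227) (nat_lit 84) (nat_lit 74149707876) (nat_lit 35) (nat_lit 5) (nat_lit 39) (nat_lit 5) (nat_lit 36) (nat_lit 5) (nat_lit 406) (nat_lit 356) (nat_lit 99)) (XT.nd (nat_lit 94) (nat_lit 0) (nat_lit 0) (XT.lf (nat_lit 0) (nat_lit 10455858181) (nat_lit 420) (nat_lit 75485844410) (nat_lit 84) (nat_lit 4864761562) (nat_lit 31) (nat_lit 5) (nat_lit 36) (nat_lit 5) (nat_lit 32) (nat_lit 5) (nat_lit 407) (nat_lit 356) (nat_lit 98)) (XT.lf (nat_lit 0) (nat_lit 17942697119) (nat_lit 420) (nat_lit 50206777619) (nat_lit 84) (nat_lit 24758104728) (nat_lit 31) (nat_lit 5) (nat_lit 36) (nat_lit 5) (nat_lit 32) (nat_lit 5) (nat_lit 408) (nat_lit 356) (nat_lit 97)))) (XT.nd (nat_lit 94) (nat_lit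 252) (nat_lit 0) (XT.lf (nat_lit 0) (nat_lit 25661157934) (nat_lit 420) (nat_lit 24144664247) (nat_lit 84) (nat_lit 45268023704) (nat_lit 31) (nat_lit 5) (nat_lit 36) (nat_lit 5) (nat_lit 32) (nat_lit 5) (nat_lit 409) (nat_lit 356) (nat_lit 96)) (XT.nd (nat_lit 94) (nat_lit 0) (nat_lit 0) (XT.lf (nat_lit 0) (nat_lit 2780815561) (nat_lit 252) (nat_lit 30865205515) (nat_lit 336) (nat_lit 63660406355) (nat_lit 28) (nat_lit 5) (nat_lit 31) (nat_lit 5) (nat_lit 32) (nat_lit 5) (nat_lit 410) (nat_lit 356) (nat_lit 95)) (XT.lf (nat_lit 0) (nat_lit 31052259060) (nat_lit 252) (nat_lit 11077728650) (nat_lit 336) (nat_lit 57470434380) (nat_lit 28) (nat_lit 5) (nat_lit 31) (nat_lit 5) (nat_lit 32) (nat_lit 5) (nat_lit 411) (nat_lit 356) (nat_lit 94))))))) (XT.nd (nat_lit 49256) (nat_lit 0) (nat_lit 6048) (XT.nd (nat_lit 564) (nat_lit 252) (nat_lit 0) (XT.nd (nat_lit 282) (nat_lit 0) (nat_lit 0)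 (XT.nd (nat_lit 94) (nat_lit 252) (nat_lit 0) (XT.lf (nat_lit 0) (nat_lit 50969008371) (nat_lit 336) (nat_lit 41858477092) (nat_lit 84) (nat_lit 9135193326) (nat_lit 28) (nat_lit 5) (nat_lit 32) (nat_lit 5) (nat_lit 29) (nat_lit 5) (nat_lit 412) (nat_lit 356) (nat_lit 93)) (XT.nd (nat_lit 94) (nat_lit 252) (nat_lit 0) (XT.lf (nat_lit 0) (nat_lit 60194915040) (nat_lit 336) (nat_lit 14455269558) (nat_lit 84) (nat_lit 29744483412) (nat_lit 28) (nat_lit 5) (nat_lit 32) (nat_lit 5) (nat_lit 29) (nat_lit 5) (nat_lit 413) (nat_lit 356) (nat_lit 92)) (XT.lf (nat_lit 0) (nat_lit 14080587118) (nat_lit 252) (nat_lit 55765508839) (nat_lit 336) (nat_lit 37051637215) (nat_lit 25) (nat_lit 5) (nat_lit 28) (nat_lit 5) (nat_lit 29) (nat_lit 5) (nat_lit 414) (nat_lit 356) (nat_lit 91)))) (XT.nd (nat_lit 94) (nat_lit 0) (nat_lit 0) (XT.lf (nat_lit 0) (nat_lit 43806962225) (nat_lit 252) (nat_lit 36139981597)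 (nat_lit 336) (nat_lit 29526786271) (nat_lit 25) (nat_lit 5) (nat_lit 28) (nat_lit 5) (nat_lit 29) (nat_lit 5) (nat_lit 415) (nat_lit 356) (nat_lit 90)) (XT.nd (nat_lit 94) (nat_lit 0) (nat_lit 0) (XT.lf (nat_lit 0) (nat_lit 74454333869) (nat_lit 252) (nat_lit 15906193194) (nat_lit 336) (nat_lit 21769069555) (nat_lit 25) (nat_lit 5) (nat_lit 28) (nat_lit 5) (nat_lit 29) (nat_lit 5) (nat_lit 416) (nat_lit 356) (nat_lit 89)) (XT.lf (nat_lit 0) (nat_lit 101145703630) (nat_lit 336) (nat_lit 8865691083) (nat_lit 84) (nat_lit 4854889887) (nat_lit 25) (nat_lit 5) (nat_lit 29) (nat_lit 5) (nat_lit 26) (nat_lit 5) (nat_lit 417) (nat_lit 356) (nat_lit 88))))) (XT.nd (nat_lit 48410) (nat_lit 0) (nat_lit 5964) (XT.nd (nat_lit 94) (nat_lit 84) (nat_lit 0) (XT.lf (nat_lit 0) (nat_lit 21098888040) (nat_lit 168) (nat_lit 91537950180) (nat_lit 252) (nat_lit 5039453031) (nat_lit 23) (nat_lit 5) (nat_lit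 25) (nat_lit 5) (nat_lit 26) (nat_lit 5) (nat_lit 418) (nat_lit 356) (nat_lit 87)) (XT.nd (nat_lit 48222) (nat_lit 0) (nat_lit 5964) (XT.lf (nat_lit 0) (nat_lit 3925114339) (nat_lit 252) (nat_lit 68430470037) (nat_lit 84) (nat_lit 48213735807) (nat_lit 22) (nat_lit 5) (nat_lit 25) (nat_lit 5) (nat_lit 23) (nat_lit 5) (nat_lit 419) (nat_lit 356) (nat_lit 86)) (XT.lf (nat_lit 0) (nat_lit 9663817474) (nat_lit 1092) (nat_lit 3981717289) (nat_lit 1092) (nat_lit 3981717289) (nat_lit 93) (nat_lit 3) (nat_lit 106) (nat_lit 3) (nat_lit 106) (nat_lit 5) (nat_lit 357) (nat_lit 357) (nat_lit 147)))) (XT.nd (nat_lit 94) (nat_lit 0) (nat_lit 0) (XT.lf (nat_lit 84) (nat_lit 4417203233) (nat_lit 0) (nat_lit 15296694572) (nat_lit 1092) (nat_lit 16084126252) (nat_lit 94) (nat_lit 5) (nat_lit 93) (nat_lit 3) (nat_lit 106) (nat_lit 5) (nat_lit 358) (nat_lit 357) (nat_lit 146)) (XT.nd (nat_lit 94) (nat_lit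 0) (nat_lit 84) (XT.lf (nat_lit 84) (nat_lit 17349547837) (nat_lit 0) (nat_lit 2843972555) (nat_lit 1092) (nat_lit 16162359360) (nat_lit 94) (nat_lit 5) (nat_lit 93) (nat_lit 3) (nat_lit 106) (nat_lit 5) (nat_lit 359) (nat_lit 357) (nat_lit 145)) (XT.lf (nat_lit 0) (nat_lit 20785484553) (nat_lit 1008) (nat_lit 6348338893) (nat_lit 1092) (nat_lit 9794193144) (nat_lit 94) (nat_lit 5) (nat_lit 106) (nat_lit 5) (nat_lit 107) (nat_lit 5) (nat_lit 360) (nat_lit 357) (nat_lit 144)))))) (XT.nd (nat_lit 564) (nat_lit 0) (nat_lit 168) (XT.nd (nat_lit 282) (nat_lit 0) (nat_lit 84) (XT.nd (nat_lit 94) (nat_lit 0) (nat_lit 0) (XT.lf (nat_lit 84) (nat_lit 6809228728) (nat_lit 0) (nat_lit 14681580596) (nat_lit 1092) (nat_lit 16024144053) (nat_lit 95) (nat_lit 5) (nat_lit 94) (nat_lit 5) (nat_lit 107) (nat_lit 5) (nat_lit 361) (nat_lit 357) (nat_lit 143)) (XT.nd (nat_lit 94) (nat_lit 0) (nat_lit 84)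 (XT.lf (nat_lit 84) (nat_lit 20508344958) (nat_lit 0) (nat_lit 1774331807) (nat_lit 1092) (nat_lit 15835412171) (nat_lit 95) (nat_lit 5) (nat_lit 94) (nat_lit 5) (nat_lit 107) (nat_lit 5) (nat_lit 362) (nat_lit 357) (nat_lit 142)) (XT.lf (nat_lit 0) (nat_lit 23211969385) (nat_lit 1008) (nat_lit 4223149555) (nat_lit 1092) (nat_lit 11301312036) (nat_lit 95) (nat_lit 5) (nat_lit 107) (nat_lit 5) (nat_lit 108) (nat_lit 5) (nat_lit 363) (nat_lit 357) (nat_lit 141)))) (XT.nd (nat_lit 94) (nat_lit 0) (nat_lit 0) (XT.lf (nat_lit 84) (nat_lit 9755918255) (nat_lit 0) (nat_lit 14527593127) (nat_lit 1092) (nat_lit 15086921779) (nat_lit 96) (nat_lit 5) (nat_lit 95) (nat_lit 5) (nat_lit 108) (nat_lit 5) (nat_lit 364) (nat_lit 357) (nat_lit 140)) (XT.nd (nat_lit 94) (nat_lit 0) (nat_lit 84) (XT.lf (nat_lit 84) (nat_lit 24256951263) (nat_lit 0) (nat_lit 1173950690) (nat_lit 1092) (nat_lit 14591873878)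 (nat_lit 96) (nat_lit 5) (nat_lit 95) (nat_lit 5) (nat_lit 108) (nat_lit 5) (nat_lit 365) (nat_lit 357) (nat_lit 139)) (XT.lf (nat_lit 0) (nat_lit 26737390760) (nat_lit 1008) (nat_lit 1613698900) (nat_lit 1092) (nat_lit 12340429795) (nat_lit 96) (nat_lit 5) (nat_lit 108) (nat_lit 5) (nat_lit 109) (nat_lit 5) (nat_lit 366) (nat_lit 357) (nat_lit 138))))) (XT.nd (nat_lit 282) (nat_lit 0) (nat_lit 84) (XT.nd (nat_lit 94) (nat_lit 0) (nat_lit 0) (XT.lf (nat_lit 84) (nat_lit 13230791791) (nat_lit 0) (nat_lit 14995487428) (nat_lit 1092) (nat_lit 13150323560) (nat_lit 97) (nat_lit 5) (nat_lit 96) (nat_lit 5) (nat_lit 109) (nat_lit 5) (nat_lit 367) (nat_lit 357) (nat_lit 137)) (XT.nd (nat_lit 94) (nat_lit 0) (nat_lit 84) (XT.lf (nat_lit 84) (nat_lit 28568765440) (nat_lit 0) (nat_lit 1208074028) (nat_lit 1092) (nat_lit 12305610488) (nat_lit 97) (nat_lit 5) (nat_lit 96) (nat_lit 5) (nat_lit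 109) (nat_lit 5) (nat_lit 368) (nat_lit 357) (nat_lit 136)) (XT.lf (nat_lit 84) (nat_lit 1471731812) (nat_lit 0) (nat_lit 30046080108) (nat_lit 1092) (nat_lit 11287960843) (nat_lit 98) (nat_lit 5) (nat_lit 97) (nat_lit 5) (nat_lit 110) (nat_lit 5) (nat_lit 369) (nat_lit 357) (nat_lit 135)))) (XT.nd (nat_lit 188) (nat_lit 0) (nat_lit 84) (XT.nd (nat_lit 94) (nat_lit 0) (nat_lit 0) (XT.lf (nat_lit 84) (nat_lit 17194649042) (nat_lit 0) (nat_lit 16270137267) (nat_lit 1092) (nat_lit 10082026128) (nat_lit 98) (nat_lit 5) (nat_lit 97) (nat_lit 5) (nat_lit 110) (nat_lit 5) (nat_lit 370) (nat_lit 357) (nat_lit 134)) (XT.lf (nat_lit 84) (nat_lit 33404084171) (nat_lit 0) (nat_lit 2066816412) (nat_lit 1092) (nat_lit 8839968101) (nat_lit 98) (nat_lit 5) (nat_lit 97) (nat_lit 5) (nat_lit 110) (nat_lit 5) (nat_lit 371) (nat_lit 357) (nat_lit 133))) (XT.nd (nat_lit 94) (nat_lit 0) (nat_lit 0) (XT.lf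 (nat_lit 84) (nat_lit 4992309717) (nat_lit 0) (nat_lit 32720005868) (nat_lit 1092) (nat_lit 7380935083) (nat_lit 99) (nat_lit 5) (nat_lit 98) (nat_lit 5) (nat_lit 111) (nat_lit 5) (nat_lit 372) (nat_lit 357) (nat_lit 132)) (XT.lf (nat_lit 84) (nat_lit 21593018053) (nat_lit 0) (nat_lit 18563815313) (nat_lit 1092) (nat_lit 5738917185) (nat_lit 99) (nat_lit 5) (nat_lit 98) (nat_lit 5) (nat_lit 111) (nat_lit 5) (nat_lit 373) (nat_lit 357) (nat_lit 131))))))))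
noncomputable def xc220 : XT := (XT.nd (nat_lit 2256) (nat_lit 2100) (nat_lit 0) (XT.nd (nat_lit 1128) (nat_lit 1680) (nat_lit 0) (XT.nd (nat_lit 564) (nat_lit 1008) (nat_lit 0) (XT.nd (nat_lit 282) (nat_lit 588) (nat_lit 0) (XT.nd (nat_lit 94) (nat_lit 1008) (nat_lit 0) (XT.lf (nat_lit 84) (nat_lit 38707472894) (nat_lit 0) (nat_lit 3968542683) (nat_lit 1092) (nat_lit 4047152997) (nat_lit 99) (nat_lit 5) (nat_lit 98) (nat_lit 5) (nat_lit 111) (nat_lit 5) (nat_lit 374) (nat_lit 357) (nat_lit 130)) (XT.nd (nat_lit 94) (nat_lit 84) (nat_lit 0) (XT.lf (nat_lit 0) (nat_lit 8843620797) (nat_lit 1008) (nat_lit 36626228555) (nat_lit 1092) (nat_lit 2100299814) (nat_lit 87) (nat_lit 5) (nat_lit 99) (nat_lit 5) (nat_lit 100) (nat_lit 5) (nat_lit 375) (nat_lit 357) (nat_lit 129)) (XT.lf (nat_lit 0) (nat_lit 32821024) (nat_lit 1092) (nat_lit 22086718337) (nat_lit 84) (nat_lit 26320035725) (nat_lit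 86) (nat_lit 5) (nat_lit 99) (nat_lit 5) (nat_lit 87) (nat_lit 5) (nat_lit 376) (nat_lit 357) (nat_lit 128)))) (XT.nd (nat_lit 94) (nat_lit 588) (nat_lit 0) (XT.lf (nat_lit 0) (nat_lit 2187400253) (nat_lit 1092) (nat_lit 4953437396) (nat_lit 84) (nat_lit 42194487252) (nat_lit 86) (nat_lit 5) (nat_lit 99) (nat_lit 5) (nat_lit 87) (nat_lit 5) (nat_lit 377) (nat_lit 357) (nat_lit 127)) (XT.nd (nat_lit 94) (nat_lit 0) (nat_lit 0) (XT.lf (nat_lit 0) (nat_lit 4620117564) (nat_lit 672) (nat_lit 37367101065) (nat_lit 84) (nat_lit 8265077802) (nat_lit 79) (nat_lit 5) (nat_lit 87) (nat_lit 5) (nat_lit 80) (nat_lit 5) (nat_lit 378) (nat_lit 357) (nat_lit 126)) (XT.lf (nat_lit 0) (nat_lit 7252530029) (nat_lit 672) (nat_lit 19888701949) (nat_lit 84) (nat_lit 24052614435) (nat_lit 79) (nat_lit 5) (nat_lit 87) (nat_lit 5) (nat_lit 80) (nat_lit 5) (nat_lit 379) (nat_lit 357) (nat_lit 125))))) (XT.nd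 (nat_lit 282) (nat_lit 504) (nat_lit 0) (XT.nd (nat_lit 94) (nat_lit 504) (nat_lit 0) (XT.lf (nat_lit 0) (nat_lit 9965591329) (nat_lit 672) (nat_lit 1869329805) (nat_lit 84) (nat_lit 40329697838) (nat_lit 79) (nat_lit 5) (nat_lit 87) (nat_lit 5) (nat_lit 80) (nat_lit 5) (nat_lit 380) (nat_lit 357) (nat_lit 124)) (XT.nd (nat_lit 94) (nat_lit 0) (nat_lit 0) (XT.lf (nat_lit 0) (nat_lit 12971856545) (nat_lit 588) (nat_lit 36149791736) (nat_lit 84) (nat_lit 4037359873) (nat_lit 73) (nat_lit 5) (nat_lit 80) (nat_lit 5) (nat_lit 74) (nat_lit 5) (nat_lit 381) (nat_lit 357) (nat_lit 123)) (XT.lf (nat_lit 0) (nat_lit 16211164259) (nat_lit 588) (nat_lit 17793091829) (nat_lit 84) (nat_lit 20175636620) (nat_lit 73) (nat_lit 5) (nat_lit 80) (nat_lit 5) (nat_lit 74) (nat_lit 5) (nat_lit 382) (nat_lit 357) (nat_lit 122)))) (XT.nd (nat_lit 94) (nat_lit 0) (nat_lit 0) (XT.lf (nat_lit 0) (nat_lit 1155107661)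 (nat_lit 504) (nat_lit 18406362263) (nat_lit 588) (nat_lit 35670631260) (nat_lit 67) (nat_lit 5) (nat_lit 73) (nat_lit 5) (nat_lit 74) (nat_lit 5) (nat_lit 383) (nat_lit 357) (nat_lit 121)) (XT.nd (nat_lit 94) (nat_lit 0) (nat_lit 0) (XT.lf (nat_lit 0) (nat_lit 21067082987) (nat_lit 504) (nat_lit 2133414349) (nat_lit 588) (nat_lit 33110704387) (nat_lit 67) (nat_lit 5) (nat_lit 73) (nat_lit 5) (nat_lit 74) (nat_lit 5) (nat_lit 384) (nat_lit 357) (nat_lit 120)) (XT.lf (nat_lit 0) (nat_lit 27096769987) (nat_lit 588) (nat_lit 15973523351) (nat_lit 84) (nat_lit 14348987743) (nat_lit 67) (nat_lit 5) (nat_lit 74) (nat_lit 5) (nat_lit 68) (nat_lit 5) (nat_lit 385) (nat_lit 357) (nat_lit 119)))))) (XT.nd (nat_lit 564) (nat_lit 840) (nat_lit 0) (XT.nd (nat_lit 282) (nat_lit 420) (nat_lit 0) (XT.nd (nat_lit 94) (nat_lit 0) (nat_lit 0) (XT.lf (nat_lit 0) (nat_lit 3951450225) (nat_lit 420) (nat_lit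 27222585800) (nat_lit 504) (nat_lit 27385812470) (nat_lit 62) (nat_lit 5) (nat_lit 67) (nat_lit 5) (nat_lit 68) (nat_lit 5) (nat_lit 386) (nat_lit 357) (nat_lit 118)) (XT.nd (nat_lit 94) (nat_lit 0) (nat_lit 0) (XT.lf (nat_lit 0) (nat_lit 24831933045) (nat_lit 420) (nat_lit 10711701796) (nat_lit 504) (nat_lit 24186998544) (nat_lit 62) (nat_lit 5) (nat_lit 67) (nat_lit 5) (nat_lit 68) (nat_lit 5) (nat_lit 387) (nat_lit 357) (nat_lit 117)) (XT.lf (nat_lit 0) (nat_lit 40110527859) (nat_lit 504) (nat_lit 14641406865) (nat_lit 84) (nat_lit 6183864780) (nat_lit 62) (nat_lit 5) (nat_lit 68) (nat_lit 5) (nat_lit 63) (nat_lit 5) (nat_lit 388) (nat_lit 357) (nat_lit 116)))) (XT.nd (nat_lit 94) (nat_lit 0) (nat_lit 0) (XT.lf (nat_lit 0) (nat_lit 6259650229) (nat_lit 420) (nat_lit 38730250025) (nat_lit 504) (nat_lit 17183131159) (nat_lit 57) (nat_lit 5) (nat_lit 62) (nat_lit 5) (nat_lit 63) (nat_lit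 5) (nat_lit 389) (nat_lit 357) (nat_lit 115)) (XT.nd (nat_lit 94) (nat_lit 0) (nat_lit 0) (XT.lf (nat_lit 0) (nat_lit 28118263103) (nat_lit 420) (nat_lit 22054364859) (nat_lit 504) (nat_lit 13271278217) (nat_lit 57) (nat_lit 5) (nat_lit 62) (nat_lit 5) (nat_lit 63) (nat_lit 5) (nat_lit 390) (nat_lit 357) (nat_lit 114)) (XT.lf (nat_lit 0) (nat_lit 50653748918) (nat_lit 420) (nat_lit 4861561812) (nat_lit 504) (nat_lit 9238892821) (nat_lit 57) (nat_lit 5) (nat_lit 62) (nat_lit 5) (nat_lit 63) (nat_lit 5) (nat_lit 391) (nat_lit 357) (nat_lit 113))))) (XT.nd (nat_lit 282) (nat_lit 420) (nat_lit 0) (XT.nd (nat_lit 94) (nat_lit 84) (nat_lit 0) (XT.lf (nat_lit 0) (nat_lit 7811743149) (nat_lit 336) (nat_lit 53416293114) (nat_lit 420) (nat_lit 4870750264) (nat_lit 53) (nat_lit 5) (nat_lit 57) (nat_lit 5) (nat_lit 58) (nat_lit 5) (nat_lit 392) (nat_lit 357) (nat_lit 112)) (XT.nd (nat_lit 94)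 (nat_lit 84) (nat_lit 0) (XT.lf (nat_lit 0) (nat_lit 30650658036) (nat_lit 336) (nat_lit 36662921906) (nat_lit 420) (nat_lit 165407491) (nat_lit 53) (nat_lit 5) (nat_lit 57) (nat_lit 5) (nat_lit 58) (nat_lit 5) (nat_lit 393) (nat_lit 357) (nat_lit 111)) (XT.lf (nat_lit 0) (nat_lit 4590727816) (nat_lit 420) (nat_lit 14751612086) (nat_lit 84) (nat_lit 49558217366) (nat_lit 52) (nat_lit 5) (nat_lit 57) (nat_lit 5) (nat_lit 53) (nat_lit 5) (nat_lit 394) (nat_lit 357) (nat_lit 110)))) (XT.nd (nat_lit 94) (nat_lit 0) (nat_lit 0) (XT.lf (nat_lit 0) (nat_lit 8171722695) (nat_lit 420) (nat_lit 1399564560) (nat_lit 504) (nat_lit 60792366057) (nat_lit 47) (nat_lit 5) (nat_lit 52) (nat_lit 5) (nat_lit 53) (nat_lit 5) (nat_lit 395) (nat_lit 357) (nat_lit 109)) (XT.nd (nat_lit 94) (nat_lit 0) (nat_lit 0) (XT.lf (nat_lit 0) (nat_lit 15030790992) (nat_lit 504) (nat_lit 39920853767) (nat_lit 84) (nat_lit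 16910402529) (nat_lit 47) (nat_lit 5) (nat_lit 53) (nat_lit 5) (nat_lit 48) (nat_lit 5) (nat_lit 396) (nat_lit 357) (nat_lit 108)) (XT.lf (nat_lit 0) (nat_lit 20673239661) (nat_lit 504) (nat_lit 16974391609) (nat_lit 84) (nat_lit 35758838323) (nat_lit 47) (nat_lit 5) (nat_lit 53) (nat_lit 5) (nat_lit 48) (nat_lit 5) (nat_lit 397) (nat_lit 357) (nat_lit 107))))))) (XT.nd (nat_lit 1128) (nat_lit 756) (nat_lit 0) (XT.nd (nat_lit 564) (nat_lit 672) (nat_lit 0) (XT.nd (nat_lit 282) (nat_lit 336) (nat_lit 0) (XT.nd (nat_lit 94) (nat_lit 0) (nat_lit 0) (XT.lf (nat_lit 0) (nat_lit 6820138814) (nat_lit 336) (nat_lit 19737526567) (nat_lit 420) (nat_lit 48439027452) (nat_lit 43) (nat_lit 5) (nat_lit 47) (nat_lit 5) (nat_lit 48) (nat_lit 5) (nat_lit 398) (nat_lit 357) (nat_lit 106)) (XT.nd (nat_lit 94) (nat_lit 0) (nat_lit 0) (XT.lf (nat_lit 0) (nat_lit 31711472116) (nat_lit 336) (nat_lit 1089629741)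 (nat_lit 420) (nat_lit 43829639391) (nat_lit 43) (nat_lit 5) (nat_lit 47) (nat_lit 5) (nat_lit 48) (nat_lit 5) (nat_lit 399) (nat_lit 357) (nat_lit 105)) (XT.lf (nat_lit 0) (nat_lit 39417432131) (nat_lit 420) (nat_lit 21121597963) (nat_lit 84) (nat_lit 17770857880) (nat_lit 43) (nat_lit 5) (nat_lit 48) (nat_lit 5) (nat_lit 44) (nat_lit 5) (nat_lit 400) (nat_lit 357) (nat_lit 104)))) (XT.nd (nat_lit 94) (nat_lit 0) (nat_lit 0) (XT.lf (nat_lit 0) (nat_lit 3471954398) (nat_lit 336) (nat_lit 42811950290) (nat_lit 420) (nat_lit 33755789946) (nat_lit 39) (nat_lit 5) (nat_lit 43) (nat_lit 5) (nat_lit 44) (nat_lit 5) (nat_lit 401) (nat_lit 357) (nat_lit 103)) (XT.nd (nat_lit 94) (nat_lit 0) (nat_lit 0) (XT.lf (nat_lit 0) (nat_lit 29275025880) (nat_lit 336) (nat_lit 24308137782) (nat_lit 420) (nat_lit 28233146361) (nat_lit 39) (nat_lit 5) (nat_lit 43) (nat_lit 5) (nat_lit 44) (nat_lit 5) (nat_lit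 402) (nat_lit 357) (nat_lit 102)) (XT.lf (nat_lit 0) (nat_lit 55877364273) (nat_lit 336) (nat_lit 5230811245) (nat_lit 420) (nat_lit 22539843572) (nat_lit 39) (nat_lit 5) (nat_lit 43) (nat_lit 5) (nat_lit 44) (nat_lit 5) (nat_lit 403) (nat_lit 357) (nat_lit 101))))) (XT.nd (nat_lit 282) (nat_lit 420) (nat_lit 0) (XT.nd (nat_lit 94) (nat_lit 252) (nat_lit 0) (XT.lf (nat_lit 0) (nat_lit 69009179231) (nat_lit 420) (nat_lit 2375988310) (nat_lit 84) (nat_lit 14146921665) (nat_lit 39) (nat_lit 5) (nat_lit 44) (nat_lit 5) (nat_lit 40) (nat_lit 5) (nat_lit 404) (nat_lit 357) (nat_lit 100)) (XT.nd (nat_lit 94) (nat_lit 0) (nat_lit 0) (XT.lf (nat_lit 0) (nat_lit 24240192200) (nat_lit 252) (nat_lit 53208392387) (nat_lit 336) (nat_lit 10016885535) (nat_lit 36) (nat_lit 5) (nat_lit 39) (nat_lit 5) (nat_lit 40) (nat_lit 5) (nat_lit 405) (nat_lit 357) (nat_lit 99)) (XT.lf (nat_lit 0) (nat_lit 51731242548)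 (nat_lit 252) (nat_lit 34442684223) (nat_lit 336) (nat_lit 3284107448) (nat_lit 36) (nat_lit 5) (nat_lit 39) (nat_lit 5) (nat_lit 40) (nat_lit 5) (nat_lit 406) (nat_lit 357) (nat_lit 98)))) (XT.nd (nat_lit 94) (nat_lit 336) (nat_lit 0) (XT.lf (nat_lit 0) (nat_lit 3583221120) (nat_lit 336) (nat_lit 11474729290) (nat_lit 84) (nat_lit 76453309479) (nat_lit 35) (nat_lit 5) (nat_lit 39) (nat_lit 5) (nat_lit 36) (nat_lit 5) (nat_lit 407) (nat_lit 357) (nat_lit 97)) (XT.nd (nat_lit 94) (nat_lit 0) (nat_lit 0) (XT.lf (nat_lit 0) (nat_lit 10803092360) (nat_lit 420) (nat_lit 77796200408) (nat_lit 84) (nat_lit 5021359395) (nat_lit 31) (nat_lit 5) (nat_lit 36) (nat_lit 5) (nat_lit 32) (nat_lit 5) (nat_lit 408) (nat_lit 357) (nat_lit 96)) (XT.lf (nat_lit 0) (nat_lit 18521328659) (nat_lit 420) (nat_lit 51734375719) (nat_lit 84) (nat_lit 25531222100) (nat_lit 31) (nat_lit 5) (nat_lit 36) (nat_lit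 5) (nat_lit 32) (nat_lit 5) (nat_lit 409) (nat_lit 357) (nat_lit 95)))))) (XT.nd (nat_lit 564) (nat_lit 252) (nat_lit 0) (XT.nd (nat_lit 282) (nat_lit 252) (nat_lit 0) (XT.nd (nat_lit 94) (nat_lit 252) (nat_lit 0) (XT.lf (nat_lit 0) (nat_lit 26478388001) (nat_lit 420) (nat_lit 24865203149) (nat_lit 84) (nat_lit 46676779698) (nat_lit 31) (nat_lit 5) (nat_lit 36) (nat_lit 5) (nat_lit 32) (nat_lit 5) (nat_lit 410) (nat_lit 357) (nat_lit 94)) (XT.nd (nat_lit 94) (nat_lit 0) (nat_lit 0) (XT.lf (nat_lit 0) (nat_lit 2894683608) (nat_lit 252) (nat_lit 31815719209) (nat_lit 336) (nat_lit 65611774077) (nat_lit 28) (nat_lit 5) (nat_lit 31) (nat_lit 5) (nat_lit 32) (nat_lit 5) (nat_lit 411) (nat_lit 357) (nat_lit 93)) (XT.lf (nat_lit 0) (nat_lit 32041710095) (nat_lit 252) (nat_lit 11415020220) (nat_lit 336) (nat_lit 59230577618) (nat_lit 28) (nat_lit 5) (nat_lit 31) (nat_lit 5) (nat_lit 32) (nat_lit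 5) (nat_lit 412) (nat_lit 357) (nat_lit 92)))) (XT.nd (nat_lit 94) (nat_lit 252) (nat_lit 0) (XT.lf (nat_lit 0) (nat_lit 52569196687) (nat_lit 336) (nat_lit 43129419120) (nat_lit 84) (nat_lit 9424198824) (nat_lit 28) (nat_lit 5) (nat_lit 32) (nat_lit 5) (nat_lit 29) (nat_lit 5) (nat_lit 413) (nat_lit 357) (nat_lit 91)) (XT.nd (nat_lit 94) (nat_lit 252) (nat_lit 0) (XT.lf (nat_lit 0) (nat_lit 62080500623) (nat_lit 336) (nat_lit 14877514087) (nat_lit 84) (nat_lit 30672202072) (nat_lit 28) (nat_lit 5) (nat_lit 32) (nat_lit 5) (nat_lit 29) (nat_lit 5) (nat_lit 414) (nat_lit 357) (nat_lit 90)) (XT.lf (nat_lit 0) (nat_lit 14542692248) (nat_lit 252) (nat_lit 57487842300) (nat_lit 336) (nat_lit 38180355165) (nat_lit 25) (nat_lit 5) (nat_lit 28) (nat_lit 5) (nat_lit 29) (nat_lit 5) (nat_lit 415) (nat_lit 357) (nat_lit 89))))) (XT.nd (nat_lit 282) (nat_lit 252) (nat_lit 0) (XT.nd (nat_lit 94)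 (nat_lit 0) (nat_lit 0) (XT.lf (nat_lit 0) (nat_lit 45189815037) (nat_lit 252) (nat_lit 37254116068) (nat_lit 336) (nat_lit 30422831675) (nat_lit 25) (nat_lit 5) (nat_lit 28) (nat_lit 5) (nat_lit 29) (nat_lit 5) (nat_lit 416) (nat_lit 357) (nat_lit 88)) (XT.nd (nat_lit 94) (nat_lit 0) (nat_lit 0) (XT.lf (nat_lit 0) (nat_lit 76786508406) (nat_lit 252) (nat_lit 16393266794) (nat_lit 336) (nat_lit 22425205600) (nat_lit 25) (nat_lit 5) (nat_lit 28) (nat_lit 5) (nat_lit 29) (nat_lit 5) (nat_lit 417) (nat_lit 357) (nat_lit 87)) (XT.lf (nat_lit 0) (nat_lit 104298806768) (nat_lit 336) (nat_lit 9116605298) (nat_lit 84) (nat_lit 5011111291) (nat_lit 25) (nat_lit 5) (nat_lit 29) (nat_lit 5) (nat_lit 26) (nat_lit 5) (nat_lit 418) (nat_lit 357) (nat_lit 86)))) (XT.nd (nat_lit 48316) (nat_lit 0) (nat_lit 5964) (XT.nd (nat_lit 94) (nat_lit 84) (nat_lit 0) (XT.lf (nat_lit 0) (nat_lit 21776633587)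 (nat_lit 168) (nat_lit 94369239068) (nat_lit 252) (nat_lit 5177778801) (nat_lit 23) (nat_lit 5) (nat_lit 25) (nat_lit 5) (nat_lit 26) (nat_lit 5) (nat_lit 419) (nat_lit 357) (nat_lit 85)) (XT.lf (nat_lit 0) (nat_lit 4063802277) (nat_lit 252) (nat_lit 70528432166) (nat_lit 84) (nat_lit 49714142690) (nat_lit 22) (nat_lit 5) (nat_lit 25) (nat_lit 5) (nat_lit 23) (nat_lit 5) (nat_lit 420) (nat_lit 357) (nat_lit 84))) (XT.nd (nat_lit 94) (nat_lit 0) (nat_lit 0) (XT.lf (nat_lit 0) (nat_lit 10005835899) (nat_lit 1092) (nat_lit 4083155020) (nat_lit 1092) (nat_lit 4083155020) (nat_lit 93) (nat_lit 3) (nat_lit 106) (nat_lit 3) (nat_lit 106) (nat_lit 5) (nat_lit 358) (nat_lit 358) (nat_lit 145)) (XT.lf (nat_lit 84) (nat_lit 4597682173) (nat_lit 0) (nat_lit 15810106442) (nat_lit 1092) (nat_lit 16496952211) (nat_lit 94) (nat_lit 5) (nat_lit 93) (nat_lit 3) (nat_lit 106) (nat_lit 5) (nat_lit 359)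 (nat_lit 358) (nat_lit 144))))))))
noncomputable def xc221 : XT := (XT.nd (nat_lit 2256) (nat_lit 3192) (nat_lit 0) (XT.nd (nat_lit 1128) (nat_lit 1680) (nat_lit 0) (XT.nd (nat_lit 564) (nat_lit 0) (nat_lit 168) (XT.nd (nat_lit 282) (nat_lit 0) (nat_lit 84) (XT.nd (nat_lit 94) (nat_lit 0) (nat_lit 84) (XT.lf (nat_lit 84) (nat_lit 17929620135) (nat_lit 0) (nat_lit 2970170949) (nat_lit 1092) (nat_lit 16580189828) (nat_lit 94) (nat_lit 5) (nat_lit 93) (nat_lit 3) (nat_lit 106) (nat_lit 5) (nat_lit 360) (nat_lit 358) (nat_lit 143)) (XT.nd (nat_lit 94) (nat_lit 0) (nat_lit 0) (XT.lf (nat_lit 0) (nat_lit 21507326568) (nat_lit 1008) (nat_lit 6500962092) (nat_lit 1092) (nat_lit 10061664809) (nat_lit 94) (nat_lit 5) (nat_lit 106) (nat_lit 5) (nat_lit 107) (nat_lit 5) (nat_lit 361) (nat_lit 358) (nat_lit 142)) (XT.lf (nat_lit 84) (nat_lit 7064042889) (nat_lit 0) (nat_lit 15168577284) (nat_lit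 1092) (nat_lit 16442536817) (nat_lit 95) (nat_lit 5) (nat_lit 94) (nat_lit 5) (nat_lit 107) (nat_lit 5) (nat_lit 362) (nat_lit 358) (nat_lit 141)))) (XT.nd (nat_lit 94) (nat_lit 0) (nat_lit 84) (XT.lf (nat_lit 84) (nat_lit 21186516911) (nat_lit 0) (nat_lit 1860245588) (nat_lit 1092) (nat_lit 16250310238) (nat_lit 95) (nat_lit 5) (nat_lit 94) (nat_lit 5) (nat_lit 107) (nat_lit 5) (nat_lit 363) (nat_lit 358) (nat_lit 140)) (XT.nd (nat_lit 94) (nat_lit 0) (nat_lit 0) (XT.lf (nat_lit 0) (nat_lit 24002361124) (nat_lit 1008) (nat_lit 4310035338) (nat_lit 1092) (nat_lit 11622276629) (nat_lit 95) (nat_lit 5) (nat_lit 107) (nat_lit 5) (nat_lit 108) (nat_lit 5) (nat_lit 364) (nat_lit 358) (nat_lit 139)) (XT.lf (nat_lit 84) (nat_lit 10101937791) (nat_lit 0) (nat_lit 15003486081) (nat_lit 1092) (nat_lit 15482969860) (nat_lit 96) (nat_lit 5) (nat_lit 95) (nat_lit 5) (nat_lit 108) (nat_lit 5) (nat_lit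 365) (nat_lit 358) (nat_lit 138))))) (XT.nd (nat_lit 282) (nat_lit 0) (nat_lit 84) (XT.nd (nat_lit 94) (nat_lit 0) (nat_lit 84) (XT.lf (nat_lit 84) (nat_lit 25051192281) (nat_lit 0) (nat_lit 1235112868) (nat_lit 1092) (nat_lit 14974729734) (nat_lit 96) (nat_lit 5) (nat_lit 95) (nat_lit 5) (nat_lit 108) (nat_lit 5) (nat_lit 366) (nat_lit 358) (nat_lit 137)) (XT.nd (nat_lit 94) (nat_lit 0) (nat_lit 0) (XT.lf (nat_lit 0) (nat_lit 27631040869) (nat_lit 1008) (nat_lit 1620107420) (nat_lit 1092) (nat_lit 12699442234) (nat_lit 96) (nat_lit 5) (nat_lit 108) (nat_lit 5) (nat_lit 109) (nat_lit 5) (nat_lit 367) (nat_lit 358) (nat_lit 136)) (XT.lf (nat_lit 84) (nat_lit 13684120908) (nat_lit 0) (nat_lit 15480444131) (nat_lit 1092) (nat_lit 13492404256) (nat_lit 97) (nat_lit 5) (nat_lit 96) (nat_lit 5) (nat_lit 109) (nat_lit 5) (nat_lit 368) (nat_lit 358) (nat_lit 135)))) (XT.nd (nat_lit 94) (nat_lit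 0) (nat_lit 84) (XT.lf (nat_lit 84) (nat_lit 29496273571) (nat_lit 0) (nat_lit 1265016654) (nat_lit 1092) (nat_lit 12623476912) (nat_lit 97) (nat_lit 5) (nat_lit 96) (nat_lit 5) (nat_lit 109) (nat_lit 5) (nat_lit 369) (nat_lit 358) (nat_lit 134)) (XT.nd (nat_lit 94) (nat_lit 0) (nat_lit 0) (XT.lf (nat_lit 84) (nat_lit 1561215452) (nat_lit 0) (nat_lit 30993419687) (nat_lit 1092) (nat_lit 11575937454) (nat_lit 98) (nat_lit 5) (nat_lit 97) (nat_lit 5) (nat_lit 110) (nat_lit 5) (nat_lit 370) (nat_lit 358) (nat_lit 133)) (XT.lf (nat_lit 84) (nat_lit 17770224339) (nat_lit 0) (nat_lit 16789944205) (nat_lit 1092) (nat_lit 10334481474) (nat_lit 98) (nat_lit 5) (nat_lit 97) (nat_lit 5) (nat_lit 110) (nat_lit 5) (nat_lit 371) (nat_lit 358) (nat_lit 132)))))) (XT.nd (nat_lit 564) (nat_lit 1092) (nat_lit 0) (XT.nd (nat_lit 282) (nat_lit 924) (nat_lit 0) (XT.nd (nat_lit 94) (nat_lit 0) (nat_lit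 84) (XT.lf (nat_lit 84) (nat_lit 34480872834) (nat_lit 0) (nat_lit 2145856375) (nat_lit 1092) (nat_lit 9055726352) (nat_lit 98) (nat_lit 5) (nat_lit 97) (nat_lit 5) (nat_lit 110) (nat_lit 5) (nat_lit 372) (nat_lit 358) (nat_lit 131)) (XT.nd (nat_lit 94) (nat_lit 0) (nat_lit 0) (XT.lf (nat_lit 84) (nat_lit 5190091916) (nat_lit 0) (nat_lit 33746128164) (nat_lit 1092) (nat_lit 7552924181) (nat_lit 99) (nat_lit 5) (nat_lit 98) (nat_lit 5) (nat_lit 111) (nat_lit 5) (nat_lit 373) (nat_lit 358) (nat_lit 130)) (XT.lf (nat_lit 84) (nat_lit 22304128672) (nat_lit 0) (nat_lit 19150740837) (nat_lit 1092) (nat_lit 5861712183) (nat_lit 99) (nat_lit 5) (nat_lit 98) (nat_lit 5) (nat_lit 111) (nat_lit 5) (nat_lit 374) (nat_lit 358) (nat_lit 129)))) (XT.nd (nat_lit 94) (nat_lit 1008) (nat_lit 0) (XT.lf (nat_lit 84) (nat_lit 39947876968) (nat_lit 0) (nat_lit 4102670560) (nat_lit 1092) (nat_lit 4119160390)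 (nat_lit 99) (nat_lit 5) (nat_lit 98) (nat_lit 5) (nat_lit 111) (nat_lit 5) (nat_lit 375) (nat_lit 358) (nat_lit 128)) (XT.nd (nat_lit 94) (nat_lit 84) (nat_lit 0) (XT.lf (nat_lit 0) (nat_lit 9159804597) (nat_lit 1008) (nat_lit 37769944914) (nat_lit 1092) (nat_lit 2113242277) (nat_lit 87) (nat_lit 5) (nat_lit 99) (nat_lit 5) (nat_lit 100) (nat_lit 5) (nat_lit 376) (nat_lit 358) (nat_lit 127)) (XT.lf (nat_lit 0) (nat_lit 83417317) (nat_lit 1092) (nat_lit 22729363874) (nat_lit 84) (nat_lit 27126628245) (nat_lit 86) (nat_lit 5) (nat_lit 99) (nat_lit 5) (nat_lit 87) (nat_lit 5) (nat_lit 377) (nat_lit 358) (nat_lit 126))))) (XT.nd (nat_lit 282) (nat_lit 504) (nat_lit 0) (XT.nd (nat_lit 94) (nat_lit 588) (nat_lit 0) (XT.lf (nat_lit 0) (nat_lit 2303297771) (nat_lit 1092) (nat_lit 5066215361) (nat_lit 84) (nat_lit 43493468260) (nat_lit 86) (nat_lit 5) (nat_lit 99) (nat_lit 5) (nat_lit 87)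 (nat_lit 5) (nat_lit 378) (nat_lit 358) (nat_lit 125)) (XT.nd (nat_lit 94) (nat_lit 0) (nat_lit 0) (XT.lf (nat_lit 0) (nat_lit 4810317608) (nat_lit 672) (nat_lit 38483350495) (nat_lit 84) (nat_lit 8514752851) (nat_lit 79) (nat_lit 5) (nat_lit 87) (nat_lit 5) (nat_lit 80) (nat_lit 5) (nat_lit 379) (nat_lit 358) (nat_lit 124)) (XT.lf (nat_lit 0) (nat_lit 7522922378) (nat_lit 672) (nat_lit 20464387788) (nat_lit 84) (nat_lit 24791899835) (nat_lit 79) (nat_lit 5) (nat_lit 87) (nat_lit 5) (nat_lit 80) (nat_lit 5) (nat_lit 380) (nat_lit 358) (nat_lit 123)))) (XT.nd (nat_lit 94) (nat_lit 504) (nat_lit 0) (XT.lf (nat_lit 0) (nat_lit 10318718566) (nat_lit 672) (nat_lit 1887643800) (nat_lit 84) (nat_lit 41573763623) (nat_lit 79) (nat_lit 5) (nat_lit 87) (nat_lit 5) (nat_lit 80) (nat_lit 5) (nat_lit 381) (nat_lit 358) (nat_lit 122)) (XT.nd (nat_lit 94) (nat_lit 0) (nat_lit 0) (XT.lf (nat_lit 0)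 (nat_lit 13417198511) (nat_lit 588) (nat_lit 37229601198) (nat_lit 84) (nat_lit 4158578693) (nat_lit 73) (nat_lit 5) (nat_lit 80) (nat_lit 5) (nat_lit 74) (nat_lit 5) (nat_lit 382) (nat_lit 358) (nat_lit 121)) (XT.lf (nat_lit 0) (nat_lit 16755625397) (nat_lit 588) (nat_lit 18305071389) (nat_lit 84) (nat_lit 20797260467) (nat_lit 73) (nat_lit 5) (nat_lit 80) (nat_lit 5) (nat_lit 74) (nat_lit 5) (nat_lit 383) (nat_lit 358) (nat_lit 120))))))) (XT.nd (nat_lit 1128) (nat_lit 1428) (nat_lit 0) (XT.nd (nat_lit 564) (nat_lit 840) (nat_lit 0) (XT.nd (nat_lit 282) (nat_lit 420) (nat_lit 0) (XT.nd (nat_lit 94) (nat_lit 0) (nat_lit 0) (XT.lf (nat_lit 0) (nat_lit 1230121307) (nat_lit 504) (nat_lit 18978797855) (nat_lit 588) (nat_lit 36733898440) (nat_lit 67) (nat_lit 5) (nat_lit 73) (nat_lit 5) (nat_lit 74) (nat_lit 5) (nat_lit 384) (nat_lit 358) (nat_lit 119)) (XT.nd (nat_lit 94) (nat_lit 0)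 (nat_lit 0) (XT.lf (nat_lit 0) (nat_lit 21758189046) (nat_lit 504) (nat_lit 2201333280) (nat_lit 588) (nat_lit 34095892393) (nat_lit 67) (nat_lit 5) (nat_lit 73) (nat_lit 5) (nat_lit 74) (nat_lit 5) (nat_lit 385) (nat_lit 358) (nat_lit 118)) (XT.lf (nat_lit 0) (nat_lit 27975365283) (nat_lit 588) (nat_lit 16430411175) (nat_lit 84) (nat_lit 14792111735) (nat_lit 67) (nat_lit 5) (nat_lit 74) (nat_lit 5) (nat_lit 68) (nat_lit 5) (nat_lit 386) (nat_lit 358) (nat_lit 117)))) (XT.nd (nat_lit 94) (nat_lit 0) (nat_lit 0) (XT.lf (nat_lit 0) (nat_lit 4111848915) (nat_lit 420) (nat_lit 28066393180) (nat_lit 504) (nat_lit 28195601259) (nat_lit 62) (nat_lit 5) (nat_lit 67) (nat_lit 5) (nat_lit 68) (nat_lit 5) (nat_lit 387) (nat_lit 358) (nat_lit 116)) (XT.nd (nat_lit 94) (nat_lit 0) (nat_lit 0) (XT.lf (nat_lit 0) (nat_lit 25638487017) (nat_lit 420) (nat_lit 11043674561) (nat_lit 504) (nat_lit 24898801903)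 (nat_lit 62) (nat_lit 5) (nat_lit 67) (nat_lit 5) (nat_lit 68) (nat_lit 5) (nat_lit 388) (nat_lit 358) (nat_lit 115)) (XT.lf (nat_lit 0) (nat_lit 41389526434) (nat_lit 504) (nat_lit 15058352851) (nat_lit 84) (nat_lit 6375650114) (nat_lit 62) (nat_lit 5) (nat_lit 68) (nat_lit 5) (nat_lit 63) (nat_lit 5) (nat_lit 389) (nat_lit 358) (nat_lit 114))))) (XT.nd (nat_lit 282) (nat_lit 420) (nat_lit 0) (XT.nd (nat_lit 94) (nat_lit 0) (nat_lit 0) (XT.lf (nat_lit 0) (nat_lit 6490263053) (nat_lit 420) (nat_lit 39929189456) (nat_lit 504) (nat_lit 17679690228) (nat_lit 57) (nat_lit 5) (nat_lit 62) (nat_lit 5) (nat_lit 63) (nat_lit 5) (nat_lit 390) (nat_lit 358) (nat_lit 113)) (XT.nd (nat_lit 94) (nat_lit 0) (nat_lit 0) (XT.lf (nat_lit 0) (nat_lit 29025393533) (nat_lit 420) (nat_lit 22736402914) (nat_lit 504) (nat_lit 13647655837) (nat_lit 57) (nat_lit 5) (nat_lit 62) (nat_lit 5) (nat_lit 63) (nat_lit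 5) (nat_lit 391) (nat_lit 358) (nat_lit 112)) (XT.lf (nat_lit 0) (nat_lit 52258413072) (nat_lit 420) (nat_lit 5010672503) (nat_lit 504) (nat_lit 9491319833) (nat_lit 57) (nat_lit 5) (nat_lit 62) (nat_lit 5) (nat_lit 63) (nat_lit 5) (nat_lit 392) (nat_lit 358) (nat_lit 111)))) (XT.nd (nat_lit 94) (nat_lit 84) (nat_lit 0) (XT.lf (nat_lit 0) (nat_lit 8089107710) (nat_lit 336) (nat_lit 55069176223) (nat_lit 420) (nat_lit 4988410656) (nat_lit 53) (nat_lit 5) (nat_lit 57) (nat_lit 5) (nat_lit 58) (nat_lit 5) (nat_lit 393) (nat_lit 358) (nat_lit 110)) (XT.nd (nat_lit 94) (nat_lit 84) (nat_lit 0) (XT.lf (nat_lit 0) (nat_lit 31634970553) (nat_lit 336) (nat_lit 37796541372) (nat_lit 420) (nat_lit 138204506) (nat_lit 53) (nat_lit 5) (nat_lit 57) (nat_lit 5) (nat_lit 58) (nat_lit 5) (nat_lit 394) (nat_lit 358) (nat_lit 109)) (XT.lf (nat_lit 0) (nat_lit 4763767078) (nat_lit 420) (nat_lit 15175021656)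 (nat_lit 84) (nat_lit 51096590217) (nat_lit 52) (nat_lit 5) (nat_lit 57) (nat_lit 5) (nat_lit 53) (nat_lit 5) (nat_lit 395) (nat_lit 358) (nat_lit 108)))))) (XT.nd (nat_lit 564) (nat_lit 672) (nat_lit 0) (XT.nd (nat_lit 282) (nat_lit 336) (nat_lit 0) (XT.nd (nat_lit 94) (nat_lit 0) (nat_lit 0) (XT.lf (nat_lit 0) (nat_lit 8458593394) (nat_lit 420) (nat_lit 1439539373) (nat_lit 504) (nat_lit 62645720832) (nat_lit 47) (nat_lit 5) (nat_lit 52) (nat_lit 5) (nat_lit 53) (nat_lit 5) (nat_lit 396) (nat_lit 358) (nat_lit 107)) (XT.nd (nat_lit 94) (nat_lit 0) (nat_lit 0) (XT.lf (nat_lit 0) (nat_lit 15526007832) (nat_lit 504) (nat_lit 41124853758) (nat_lit 84) (nat_lit 17437867443) (nat_lit 47) (nat_lit 5) (nat_lit 53) (nat_lit 5) (nat_lit 48) (nat_lit 5) (nat_lit 397) (nat_lit 358) (nat_lit 106)) (XT.lf (nat_lit 0) (nat_lit 21342492552) (nat_lit 504) (nat_lit 17468059945) (nat_lit 84) (nat_lit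 36870507253) (nat_lit 47) (nat_lit 5) (nat_lit 53) (nat_lit 5) (nat_lit 48) (nat_lit 5) (nat_lit 398) (nat_lit 358) (nat_lit 105)))) (XT.nd (nat_lit 94) (nat_lit 0) (nat_lit 0) (XT.lf (nat_lit 0) (nat_lit 7063771505) (nat_lit 336) (nat_lit 20345030075) (nat_lit 420) (nat_lit 49911798806) (nat_lit 43) (nat_lit 5) (nat_lit 47) (nat_lit 5) (nat_lit 48) (nat_lit 5) (nat_lit 399) (nat_lit 358) (nat_lit 104)) (XT.nd (nat_lit 94) (nat_lit 0) (nat_lit 0) (XT.lf (nat_lit 0) (nat_lit 32725767702) (nat_lit 336) (nat_lit 1119179537) (nat_lit 420) (nat_lit 45160386828) (nat_lit 43) (nat_lit 5) (nat_lit 47) (nat_lit 5) (nat_lit 48) (nat_lit 5) (nat_lit 400) (nat_lit 358) (nat_lit 103)) (XT.lf (nat_lit 0) (nat_lit 40665612270) (nat_lit 420) (nat_lit 21745176269) (nat_lit 84) (nat_lit 18325773414) (nat_lit 43) (nat_lit 5) (nat_lit 48) (nat_lit 5) (nat_lit 44) (nat_lit 5) (nat_lit 401) (nat_lit 358)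 (nat_lit 102))))) (XT.nd (nat_lit 282) (nat_lit 336) (nat_lit 0) (XT.nd (nat_lit 94) (nat_lit 0) (nat_lit 0) (XT.lf (nat_lit 0) (nat_lit 3610460433) (nat_lit 336) (nat_lit 44134002357) (nat_lit 420) (nat_lit 34775548371) (nat_lit 39) (nat_lit 5) (nat_lit 43) (nat_lit 5) (nat_lit 44) (nat_lit 5) (nat_lit 402) (nat_lit 358) (nat_lit 101)) (XT.nd (nat_lit 94) (nat_lit 0) (nat_lit 0) (XT.lf (nat_lit 0) (nat_lit 30212498771) (nat_lit 336) (nat_lit 25056725561) (nat_lit 420) (nat_lit 29082504778) (nat_lit 39) (nat_lit 5) (nat_lit 43) (nat_lit 5) (nat_lit 44) (nat_lit 5) (nat_lit 403) (nat_lit 358) (nat_lit 100)) (XT.lf (nat_lit 0) (nat_lit 57638609209) (nat_lit 336) (nat_lit 5388151172) (nat_lit 420) (nat_lit 23213487433) (nat_lit 39) (nat_lit 5) (nat_lit 43) (nat_lit 5) (nat_lit 44) (nat_lit 5) (nat_lit 404) (nat_lit 358) (nat_lit 99)))) (XT.nd (nat_lit 188) (nat_lit 84) (nat_lit 0) (XT.nd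 (nat_lit 94) (nat_lit 252) (nat_lit 0) (XT.lf (nat_lit 0) (nat_lit 71172012952) (nat_lit 420) (nat_lit 2420682995) (nat_lit 84) (nat_lit 14590052575) (nat_lit 39) (nat_lit 5) (nat_lit 44) (nat_lit 5) (nat_lit 40) (nat_lit 5) (nat_lit 405) (nat_lit 358) (nat_lit 98)) (XT.lf (nat_lit 0) (nat_lit 25020305908) (nat_lit 252) (nat_lit 54852310280) (nat_lit 336) (nat_lit 10303464362) (nat_lit 36) (nat_lit 5) (nat_lit 39) (nat_lit 5) (nat_lit 40) (nat_lit 5) (nat_lit 406) (nat_lit 358) (nat_lit 97))) (XT.nd (nat_lit 94) (nat_lit 84) (nat_lit 0) (XT.lf (nat_lit 0) (nat_lit 53362716838) (nat_lit 252) (nat_lit 35505031808) (nat_lit 336) (nat_lit 3362690119) (nat_lit 36) (nat_lit 5) (nat_lit 39) (nat_lit 5) (nat_lit 40) (nat_lit 5) (nat_lit 407) (nat_lit 358) (nat_lit 96)) (XT.lf (nat_lit 0) (nat_lit 3716373462) (nat_lit 336) (nat_lit 11802929026) (nat_lit 84) (nat_lit 78828028903) (nat_lit 35)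 (nat_lit 5) (nat_lit 39) (nat_lit 5) (nat_lit 36) (nat_lit 5) (nat_lit 408) (nat_lit 358) (nat_lit 95))))))))
noncomputable def xc222 : XT := (XT.nd (nat_lit 50478) (nat_lit 0) (nat_lit 2520) (XT.nd (nat_lit 49350) (nat_lit 0) (nat_lit 5880) (XT.nd (nat_lit 564) (nat_lit 420) (nat_lit 0) (XT.nd (nat_lit 282) (nat_lit 252) (nat_lit 0) (XT.nd (nat_lit 94) (nat_lit 0) (nat_lit 0) (XT.lf (nat_lit 0) (nat_lit 11159722394) (nat_lit 420) (nat_lit 80179936931) (nat_lit 84) (nat_lit 5182468796) (nat_lit 31) (nat_lit 5) (nat_lit 36) (nat_lit 5) (nat_lit 32) (nat_lit 5) (nat_lit 409) (nat_lit 358) (nat_lit 94)) (XT.nd (nat_lit 94) (nat_lit 0) (nat_lit 0) (XT.lf (nat_lit 0) (nat_lit 19116570517) (nat_lit 420) (nat_lit 53311035944) (nat_lit 84) (nat_lit 26327973457) (nat_lit 31) (nat_lit 5) (nat_lit 36) (nat_lit 5) (nat_lit 32) (nat_lit 5) (nat_lit 410) (nat_lit 358) (nat_lit 93)) (XT.lf (nat_lit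 0) (nat_lit 27319664847) (nat_lit 420) (nat_lit 25609734027) (nat_lit 84) (nat_lit 48128884478) (nat_lit 31) (nat_lit 5) (nat_lit 36) (nat_lit 5) (nat_lit 32) (nat_lit 5) (nat_lit 411) (nat_lit 358) (nat_lit 92)))) (XT.nd (nat_lit 94) (nat_lit 0) (nat_lit 0) (XT.lf (nat_lit 0) (nat_lit 3010443052) (nat_lit 252) (nat_lit 32796072441) (nat_lit 336) (nat_lit 67624943508) (nat_lit 28) (nat_lit 5) (nat_lit 31) (nat_lit 5) (nat_lit 32) (nat_lit 5) (nat_lit 412) (nat_lit 358) (nat_lit 91)) (XT.nd (nat_lit 94) (nat_lit 0) (nat_lit 0) (XT.lf (nat_lit 0) (nat_lit 33060244866) (nat_lit 252) (nat_lit 11763130209) (nat_lit 336) (nat_lit 61046555238) (nat_lit 28) (nat_lit 5) (nat_lit 31) (nat_lit 5) (nat_lit 32) (nat_lit 5) (nat_lit 413) (nat_lit 358) (nat_lit 90)) (XT.lf (nat_lit 0) (nat_lit 54217797377) (nat_lit 336) (nat_lit 44441340105) (nat_lit 84) (nat_lit 9721819089) (nat_lit 28) (nat_lit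 5) (nat_lit 32) (nat_lit 5) (nat_lit 29) (nat_lit 5) (nat_lit 414) (nat_lit 358) (nat_lit 89))))) (XT.nd (nat_lit 282) (nat_lit 168) (nat_lit 0) (XT.nd (nat_lit 94) (nat_lit 252) (nat_lit 0) (XT.lf (nat_lit 0) (nat_lit 64023381780) (nat_lit 336) (nat_lit 15314380450) (nat_lit 84) (nat_lit 31628345964) (nat_lit 28) (nat_lit 5) (nat_lit 32) (nat_lit 5) (nat_lit 29) (nat_lit 5) (nat_lit 415) (nat_lit 358) (nat_lit 88)) (XT.nd (nat_lit 94) (nat_lit 0) (nat_lit 0) (XT.lf (nat_lit 0) (nat_lit 15017605895) (nat_lit 252) (nat_lit 59263947023) (nat_lit 336) (nat_lit 39345241064) (nat_lit 25) (nat_lit 5) (nat_lit 28) (nat_lit 5) (nat_lit 29) (nat_lit 5) (nat_lit 416) (nat_lit 358) (nat_lit 87)) (XT.lf (nat_lit 0) (nat_lit 46614065149) (nat_lit 252) (nat_lit 38403156237) (nat_lit 336) (nat_lit 31347796769) (nat_lit 25) (nat_lit 5) (nat_lit 28) (nat_lit 5) (nat_lit 29) (nat_lit 5) (nat_lit 417)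 (nat_lit 358) (nat_lit 86)))) (XT.nd (nat_lit 94) (nat_lit 168) (nat_lit 0) (XT.lf (nat_lit 0) (nat_lit 79189553451) (nat_lit 252) (nat_lit 16895796155) (nat_lit 336) (nat_lit 23102789798) (nat_lit 25) (nat_lit 5) (nat_lit 28) (nat_lit 5) (nat_lit 29) (nat_lit 5) (nat_lit 418) (nat_lit 358) (nat_lit 85)) (XT.nd (nat_lit 94) (nat_lit 168) (nat_lit 0) (XT.lf (nat_lit 0) (nat_lit 107548614435) (nat_lit 336) (nat_lit 9376714807) (nat_lit 84) (nat_lit 5171836764) (nat_lit 25) (nat_lit 5) (nat_lit 29) (nat_lit 5) (nat_lit 26) (nat_lit 5) (nat_lit 419) (nat_lit 358) (nat_lit 84)) (XT.lf (nat_lit 0) (nat_lit 22473986638) (nat_lit 168) (nat_lit 97288676259) (nat_lit 252) (nat_lit 5321452755) (nat_lit 23) (nat_lit 5) (nat_lit 25) (nat_lit 5) (nat_lit 26) (nat_lit 5) (nat_lit 420) (nat_lit 358) (nat_lit 83)))))) (XT.nd (nat_lit 564) (nat_lit 0) (nat_lit 168) (XT.nd (nat_lit 282) (nat_lit 0) (nat_lit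 84) (XT.nd (nat_lit 94) (nat_lit 0) (nat_lit 0) (XT.lf (nat_lit 0) (nat_lit 10355943097) (nat_lit 1092) (nat_lit 4189040152) (nat_lit 1092) (nat_lit 4189040152) (nat_lit 93) (nat_lit 3) (nat_lit 106) (nat_lit 3) (nat_lit 106) (nat_lit 5) (nat_lit 359) (nat_lit 359) (nat_lit 143)) (XT.nd (nat_lit 94) (nat_lit 0) (nat_lit 0) (XT.lf (nat_lit 84) (nat_lit 4781176678) (nat_lit 0) (nat_lit 16337111347) (nat_lit 1092) (nat_lit 16927656787) (nat_lit 94) (nat_lit 5) (nat_lit 93) (nat_lit 3) (nat_lit 106) (nat_lit 5) (nat_lit 360) (nat_lit 359) (nat_lit 142)) (XT.lf (nat_lit 84) (nat_lit 18525172944) (nat_lit 0) (nat_lit 3098028602) (nat_lit 1092) (nat_lit 17015901278) (nat_lit 94) (nat_lit 5) (nat_lit 93) (nat_lit 3) (nat_lit 106) (nat_lit 5) (nat_lit 361) (nat_lit 359) (nat_lit 141)))) (XT.nd (nat_lit 94) (nat_lit 0) (nat_lit 0) (XT.lf (nat_lit 0) (nat_lit 22246955701) (nat_lit 1008) (nat_lit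 6660933190) (nat_lit 1092) (nat_lit 10339569223) (nat_lit 94) (nat_lit 5) (nat_lit 106) (nat_lit 5) (nat_lit 107) (nat_lit 5) (nat_lit 362) (nat_lit 359) (nat_lit 140)) (XT.nd (nat_lit 94) (nat_lit 0) (nat_lit 0) (XT.lf (nat_lit 84) (nat_lit 7324166201) (nat_lit 0) (nat_lit 15668783292) (nat_lit 1092) (nat_lit 16878540900) (nat_lit 95) (nat_lit 5) (nat_lit 94) (nat_lit 5) (nat_lit 107) (nat_lit 5) (nat_lit 363) (nat_lit 359) (nat_lit 139)) (XT.lf (nat_lit 84) (nat_lit 21883199985) (nat_lit 0) (nat_lit 1946991875) (nat_lit 1092) (nat_lit 16682571738) (nat_lit 95) (nat_lit 5) (nat_lit 94) (nat_lit 5) (nat_lit 107) (nat_lit 5) (nat_lit 364) (nat_lit 359) (nat_lit 138))))) (XT.nd (nat_lit 282) (nat_lit 0) (nat_lit 84) (XT.nd (nat_lit 94) (nat_lit 0) (nat_lit 0) (XT.lf (nat_lit 0) (nat_lit 24813060176) (nat_lit 1008) (nat_lit 4402222663) (nat_lit 1092) (nat_lit 11954931121) (nat_lit 95)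 (nat_lit 5) (nat_lit 107) (nat_lit 5) (nat_lit 108) (nat_lit 5) (nat_lit 365) (nat_lit 359) (nat_lit 137)) (XT.nd (nat_lit 94) (nat_lit 0) (nat_lit 0) (XT.lf (nat_lit 84) (nat_lit 10456102255) (nat_lit 0) (nat_lit 15492619084) (nat_lit 1092) (nat_lit 15895539177) (nat_lit 96) (nat_lit 5) (nat_lit 95) (nat_lit 5) (nat_lit 108) (nat_lit 5) (nat_lit 366) (nat_lit 359) (nat_lit 136)) (XT.lf (nat_lit 84) (nat_lit 25867550718) (nat_lit 0) (nat_lit 1296703922) (nat_lit 1092) (nat_lit 15373570266) (nat_lit 96) (nat_lit 5) (nat_lit 95) (nat_lit 5) (nat_lit 108) (nat_lit 5) (nat_lit 367) (nat_lit 359) (nat_lit 135)))) (XT.nd (nat_lit 94) (nat_lit 0) (nat_lit 0) (XT.lf (nat_lit 0) (nat_lit 28548556451) (nat_lit 1008) (nat_lit 1629298064) (nat_lit 1092) (nat_lit 13070978425) (nat_lit 96) (nat_lit 5) (nat_lit 108) (nat_lit 5) (nat_lit 109) (nat_lit 5) (nat_lit 368) (nat_lit 359) (nat_lit 134))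 (XT.nd (nat_lit 94) (nat_lit 0) (nat_lit 0) (XT.lf (nat_lit 84) (nat_lit 14148945923) (nat_lit 0) (nat_lit 15979244137) (nat_lit 1092) (nat_lit 13848973830) (nat_lit 97) (nat_lit 5) (nat_lit 96) (nat_lit 5) (nat_lit 109) (nat_lit 5) (nat_lit 369) (nat_lit 359) (nat_lit 133)) (XT.lf (nat_lit 84) (nat_lit 30450054044) (nat_lit 0) (nat_lit 1322569937) (nat_lit 1092) (nat_lit 12954964776) (nat_lit 97) (nat_lit 5) (nat_lit 96) (nat_lit 5) (nat_lit 109) (nat_lit 5) (nat_lit 370) (nat_lit 359) (nat_lit 132))))))) (XT.nd (nat_lit 1128) (nat_lit 2184) (nat_lit 0) (XT.nd (nat_lit 564) (nat_lit 1512) (nat_lit 0) (XT.nd (nat_lit 282) (nat_lit 0) (nat_lit 84) (XT.nd (nat_lit 94) (nat_lit 0) (nat_lit 0) (XT.lf (nat_lit 84) (nat_lit 1650875184) (nat_lit 0) (nat_lit 31969184352) (nat_lit 1092) (nat_lit 11876510754) (nat_lit 98) (nat_lit 5) (nat_lit 97) (nat_lit 5) (nat_lit 110) (nat_lit 5) (nat_lit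 371) (nat_lit 359) (nat_lit 131)) (XT.nd (nat_lit 94) (nat_lit 0) (nat_lit 0) (XT.lf (nat_lit 84) (nat_lit 18361122683) (nat_lit 0) (nat_lit 17324951053) (nat_lit 1092) (nat_lit 10598322019) (nat_lit 98) (nat_lit 5) (nat_lit 97) (nat_lit 5) (nat_lit 110) (nat_lit 5) (nat_lit 372) (nat_lit 359) (nat_lit 130)) (XT.lf (nat_lit 84) (nat_lit 35588597923) (nat_lit 0) (nat_lit 2226459958) (nat_lit 1092) (nat_lit 9281625177) (nat_lit 98) (nat_lit 5) (nat_lit 97) (nat_lit 5) (nat_lit 110) (nat_lit 5) (nat_lit 373) (nat_lit 359) (nat_lit 129)))) (XT.nd (nat_lit 94) (nat_lit 0) (nat_lit 0) (XT.lf (nat_lit 84) (nat_lit 5391457180) (nat_lit 0) (nat_lit 34803361192) (nat_lit 1092) (nat_lit 7733610480) (nat_lit 99) (nat_lit 5) (nat_lit 98) (nat_lit 5) (nat_lit 111) (nat_lit 5) (nat_lit 374) (nat_lit 359) (nat_lit 128)) (XT.nd (nat_lit 94) (nat_lit 0) (nat_lit 0) (XT.lf (nat_lit 84) (nat_lit 23034812155)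 (nat_lit 0) (nat_lit 19755183013) (nat_lit 1092) (nat_lit 5991578170) (nat_lit 99) (nat_lit 5) (nat_lit 98) (nat_lit 5) (nat_lit 111) (nat_lit 5) (nat_lit 375) (nat_lit 359) (nat_lit 127)) (XT.lf (nat_lit 84) (nat_lit 41224336318) (nat_lit 0) (nat_lit 4240298749) (nat_lit 1092) (nat_lit 4196566204) (nat_lit 99) (nat_lit 5) (nat_lit 98) (nat_lit 5) (nat_lit 111) (nat_lit 5) (nat_lit 376) (nat_lit 359) (nat_lit 126))))) (XT.nd (nat_lit 282) (nat_lit 588) (nat_lit 0) (XT.nd (nat_lit 94) (nat_lit 84) (nat_lit 0) (XT.lf (nat_lit 0) (nat_lit 9483300494) (nat_lit 1008) (nat_lit 38948624664) (nat_lit 1092) (nat_lit 2129675888) (nat_lit 87) (nat_lit 5) (nat_lit 99) (nat_lit 5) (nat_lit 100) (nat_lit 5) (nat_lit 377) (nat_lit 359) (nat_lit 125)) (XT.nd (nat_lit 94) (nat_lit 0) (nat_lit 0) (XT.lf (nat_lit 0) (nat_lit 132645456) (nat_lit 1092) (nat_lit 23394421687) (nat_lit 84) (nat_lit 27958777681)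 (nat_lit 86) (nat_lit 5) (nat_lit 99) (nat_lit 5) (nat_lit 87) (nat_lit 5) (nat_lit 378) (nat_lit 359) (nat_lit 124)) (XT.lf (nat_lit 0) (nat_lit 2419939771) (nat_lit 1092) (nat_lit 5184904829) (nat_lit 84) (nat_lit 44833253613) (nat_lit 86) (nat_lit 5) (nat_lit 99) (nat_lit 5) (nat_lit 87) (nat_lit 5) (nat_lit 379) (nat_lit 359) (nat_lit 123)))) (XT.nd (nat_lit 94) (nat_lit 0) (nat_lit 0) (XT.lf (nat_lit 0) (nat_lit 5003631360) (nat_lit 672) (nat_lit 39636699132) (nat_lit 84) (nat_lit 8772555342) (nat_lit 79) (nat_lit 5) (nat_lit 87) (nat_lit 5) (nat_lit 80) (nat_lit 5) (nat_lit 380) (nat_lit 359) (nat_lit 122)) (XT.nd (nat_lit 94) (nat_lit 0) (nat_lit 0) (XT.lf (nat_lit 0) (nat_lit 7798998061) (nat_lit 672) (nat_lit 21060340329) (nat_lit 84) (nat_lit 25554478945) (nat_lit 79) (nat_lit 5) (nat_lit 87) (nat_lit 5) (nat_lit 80) (nat_lit 5) (nat_lit 381) (nat_lit 359) (nat_lit 121))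 (XT.lf (nat_lit 0) (nat_lit 10680175068) (nat_lit 672) (nat_lit 1908873192) (nat_lit 84) (nat_lit 42856760010) (nat_lit 79) (nat_lit 5) (nat_lit 87) (nat_lit 5) (nat_lit 80) (nat_lit 5) (nat_lit 382) (nat_lit 359) (nat_lit 120)))))) (XT.nd (nat_lit 564) (nat_lit 756) (nat_lit 0) (XT.nd (nat_lit 282) (nat_lit 420) (nat_lit 0) (XT.nd (nat_lit 94) (nat_lit 504) (nat_lit 0) (XT.lf (nat_lit 0) (nat_lit 13873786413) (nat_lit 588) (nat_lit 38345303427) (nat_lit 84) (nat_lit 4283788630) (nat_lit 73) (nat_lit 5) (nat_lit 80) (nat_lit 5) (nat_lit 74) (nat_lit 5) (nat_lit 383) (nat_lit 359) (nat_lit 119)) (XT.nd (nat_lit 94) (nat_lit 504) (nat_lit 0) (XT.lf (nat_lit 0) (nat_lit 17314482130) (nat_lit 588) (nat_lit 18835268264) (nat_lit 84) (nat_lit 21438380970) (nat_lit 73) (nat_lit 5) (nat_lit 80) (nat_lit 5) (nat_lit 74) (nat_lit 5) (nat_lit 384) (nat_lit 359) (nat_lit 118)) (XT.lf (nat_lit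 0) (nat_lit 1305138178) (nat_lit 504) (nat_lit 19568870061) (nat_lit 588) (nat_lit 37832645576) (nat_lit 67) (nat_lit 5) (nat_lit 73) (nat_lit 5) (nat_lit 74) (nat_lit 5) (nat_lit 385) (nat_lit 359) (nat_lit 117)))) (XT.nd (nat_lit 94) (nat_lit 420) (nat_lit 0) (XT.lf (nat_lit 0) (nat_lit 22468467020) (nat_lit 504) (nat_lit 2271252083) (nat_lit 588) (nat_lit 35114064169) (nat_lit 67) (nat_lit 5) (nat_lit 73) (nat_lit 5) (nat_lit 74) (nat_lit 5) (nat_lit 386) (nat_lit 359) (nat_lit 116)) (XT.nd (nat_lit 94) (nat_lit 420) (nat_lit 0) (XT.lf (nat_lit 0) (nat_lit 28878910961) (nat_lit 588) (nat_lit 16903730588) (nat_lit 84) (nat_lit 15249072947) (nat_lit 67) (nat_lit 5) (nat_lit 74) (nat_lit 5) (nat_lit 68) (nat_lit 5) (nat_lit 387) (nat_lit 359) (nat_lit 115)) (XT.lf (nat_lit 0) (nat_lit 4274974862) (nat_lit 420) (nat_lit 28936364084) (nat_lit 504) (nat_lit 29032813690) (nat_lit 62) (nat_lit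 5) (nat_lit 67) (nat_lit 5) (nat_lit 68) (nat_lit 5) (nat_lit 388) (nat_lit 359) (nat_lit 114))))) (XT.nd (nat_lit 282) (nat_lit 336) (nat_lit 0) (XT.nd (nat_lit 94) (nat_lit 420) (nat_lit 0) (XT.lf (nat_lit 0) (nat_lit 26467866565) (nat_lit 420) (nat_lit 11385943813) (nat_lit 504) (nat_lit 25634921592) (nat_lit 62) (nat_lit 5) (nat_lit 67) (nat_lit 5) (nat_lit 68) (nat_lit 5) (nat_lit 389) (nat_lit 359) (nat_lit 113)) (XT.nd (nat_lit 94) (nat_lit 420) (nat_lit 0) (XT.lf (nat_lit 0) (nat_lit 42706066963) (nat_lit 504) (nat_lit 15490412041) (nat_lit 84) (nat_lit 6573375728) (nat_lit 62) (nat_lit 5) (nat_lit 68) (nat_lit 5) (nat_lit 63) (nat_lit 5) (nat_lit 390) (nat_lit 359) (nat_lit 112)) (XT.lf (nat_lit 0) (nat_lit 6725859145) (nat_lit 420) (nat_lit 41165396603) (nat_lit 504) (nat_lit 18193781960) (nat_lit 57) (nat_lit 5) (nat_lit 62) (nat_lit 5) (nat_lit 63) (nat_lit 5) (nat_lit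 391) (nat_lit 359) (nat_lit 111)))) (XT.nd (nat_lit 188) (nat_lit 336) (nat_lit 0) (XT.nd (nat_lit 94) (nat_lit 0) (nat_lit 0) (XT.lf (nat_lit 0) (nat_lit 29958544397) (nat_lit 420) (nat_lit 23439681719) (nat_lit 504) (nat_lit 14037776170) (nat_lit 57) (nat_lit 5) (nat_lit 62) (nat_lit 5) (nat_lit 63) (nat_lit 5) (nat_lit 392) (nat_lit 359) (nat_lit 110)) (XT.lf (nat_lit 0) (nat_lit 53910784367) (nat_lit 420) (nat_lit 5164500261) (nat_lit 504) (nat_lit 9753584697) (nat_lit 57) (nat_lit 5) (nat_lit 62) (nat_lit 5) (nat_lit 63) (nat_lit 5) (nat_lit 393) (nat_lit 359) (nat_lit 109))) (XT.nd (nat_lit 94) (nat_lit 0) (nat_lit 0) (XT.lf (nat_lit 0) (nat_lit 8372985585) (nat_lit 336) (nat_lit 56773477705) (nat_lit 420) (nat_lit 5111692882) (nat_lit 53) (nat_lit 5) (nat_lit 57) (nat_lit 5) (nat_lit 58) (nat_lit 5) (nat_lit 394) (nat_lit 359) (nat_lit 108)) (XT.lf (nat_lit 0) (nat_lit 32647774461)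 (nat_lit 336) (nat_lit 38965476656) (nat_lit 420) (nat_lit 112073226) (nat_lit 53) (nat_lit 5) (nat_lit 57) (nat_lit 5) (nat_lit 58) (nat_lit 5) (nat_lit 395) (nat_lit 359) (nat_lit 107))))))))
noncomputable def xc223 : XT := (XT.nd (nat_lit 2256) (nat_lit 0) (nat_lit 0) (XT.nd (nat_lit 1128) (nat_lit 924) (nat_lit 0) (XT.nd (nat_lit 564) (nat_lit 588) (nat_lit 0) (XT.nd (nat_lit 282) (nat_lit 336) (nat_lit 0) (XT.nd (nat_lit 94) (nat_lit 420) (nat_lit 0) (XT.lf (nat_lit 0) (nat_lit 4940350563) (nat_lit 420) (nat_lit 15613564310) (nat_lit 84) (nat_lit 52682530128) (nat_lit 52) (nat_lit 5) (nat_lit 57) (nat_lit 5) (nat_lit 53) (nat_lit 5) (nat_lit 396) (nat_lit 359) (nat_lit 106)) (XT.nd (nat_lit 94) (nat_lit 0) (nat_lit 0) (XT.lf (nat_lit 0) (nat_lit 8752370020) (nat_lit 420) (nat_lit 1480955485) (nat_lit 504) (nat_lit 64558378142) (nat_lit 47) (nat_lit 5) (nat_lit 52) (nat_lit 5)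 (nat_lit 53) (nat_lit 5) (nat_lit 397) (nat_lit 359) (nat_lit 105)) (XT.lf (nat_lit 0) (nat_lit 16034843136) (nat_lit 504) (nat_lit 42368164763) (nat_lit 84) (nat_lit 17981491714) (nat_lit 47) (nat_lit 5) (nat_lit 53) (nat_lit 5) (nat_lit 48) (nat_lit 5) (nat_lit 398) (nat_lit 359) (nat_lit 104)))) (XT.nd (nat_lit 94) (nat_lit 336) (nat_lit 0) (XT.lf (nat_lit 0) (nat_lit 22030811142) (nat_lit 504) (nat_lit 17978959269) (nat_lit 84) (nat_lit 38016451640) (nat_lit 47) (nat_lit 5) (nat_lit 53) (nat_lit 5) (nat_lit 48) (nat_lit 5) (nat_lit 399) (nat_lit 359) (nat_lit 103)) (XT.nd (nat_lit 94) (nat_lit 0) (nat_lit 0) (XT.lf (nat_lit 0) (nat_lit 7313049052) (nat_lit 336) (nat_lit 20971624430) (nat_lit 420) (nat_lit 51431934225) (nat_lit 43) (nat_lit 5) (nat_lit 47) (nat_lit 5) (nat_lit 48) (nat_lit 5) (nat_lit 400) (nat_lit 359) (nat_lit 102)) (XT.lf (nat_lit 0) (nat_lit 33769656055) (nat_lit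 336) (nat_lit 1149895852) (nat_lit 420) (nat_lit 46534044229) (nat_lit 43) (nat_lit 5) (nat_lit 47) (nat_lit 5) (nat_lit 48) (nat_lit 5) (nat_lit 401) (nat_lit 359) (nat_lit 101))))) (XT.nd (nat_lit 282) (nat_lit 252) (nat_lit 0) (XT.nd (nat_lit 94) (nat_lit 336) (nat_lit 0) (XT.lf (nat_lit 0) (nat_lit 41950931767) (nat_lit 420) (nat_lit 22389933011) (nat_lit 84) (nat_lit 18897653280) (nat_lit 43) (nat_lit 5) (nat_lit 48) (nat_lit 5) (nat_lit 44) (nat_lit 5) (nat_lit 402) (nat_lit 359) (nat_lit 100)) (XT.nd (nat_lit 94) (nat_lit 0) (nat_lit 0) (XT.lf (nat_lit 0) (nat_lit 3751431349) (nat_lit 336) (nat_lit 45497341209) (nat_lit 420) (nat_lit 35828499081) (nat_lit 39) (nat_lit 5) (nat_lit 43) (nat_lit 5) (nat_lit 44) (nat_lit 5) (nat_lit 403) (nat_lit 359) (nat_lit 99)) (XT.lf (nat_lit 0) (nat_lit 31177259504) (nat_lit 336) (nat_lit 25828813616) (nat_lit 420) (nat_lit 29959725579) (nat_lit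 39) (nat_lit 5) (nat_lit 43) (nat_lit 5) (nat_lit 44) (nat_lit 5) (nat_lit 404) (nat_lit 359) (nat_lit 98)))) (XT.nd (nat_lit 94) (nat_lit 252) (nat_lit 0) (XT.lf (nat_lit 0) (nat_lit 59452732255) (nat_lit 336) (nat_lit 5550653851) (nat_lit 420) (nat_lit 23909500454) (nat_lit 39) (nat_lit 5) (nat_lit 43) (nat_lit 5) (nat_lit 44) (nat_lit 5) (nat_lit 405) (nat_lit 359) (nat_lit 97)) (XT.nd (nat_lit 94) (nat_lit 252) (nat_lit 0) (XT.lf (nat_lit 0) (nat_lit 73400499662) (nat_lit 420) (nat_lit 2468478621) (nat_lit 84) (nat_lit 15046649479) (nat_lit 39) (nat_lit 5) (nat_lit 44) (nat_lit 5) (nat_lit 40) (nat_lit 5) (nat_lit 406) (nat_lit 359) (nat_lit 96)) (XT.lf (nat_lit 0) (nat_lit 25822905101) (nat_lit 252) (nat_lit 56547517907) (nat_lit 336) (nat_lit 10600345414) (nat_lit 36) (nat_lit 5) (nat_lit 39) (nat_lit 5) (nat_lit 40) (nat_lit 5) (nat_lit 407) (nat_lit 359) (nat_lit 95)))))) (XT.nd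 (nat_lit 564) (nat_lit 252) (nat_lit 0) (XT.nd (nat_lit 282) (nat_lit 252) (nat_lit 0) (XT.nd (nat_lit 94) (nat_lit 420) (nat_lit 0) (XT.lf (nat_lit 0) (nat_lit 55043119848) (nat_lit 252) (nat_lit 36600630575) (nat_lit 336) (nat_lit 3445084488) (nat_lit 36) (nat_lit 5) (nat_lit 39) (nat_lit 5) (nat_lit 40) (nat_lit 5) (nat_lit 408) (nat_lit 359) (nat_lit 94)) (XT.nd (nat_lit 94) (nat_lit 336) (nat_lit 0) (XT.lf (nat_lit 0) (nat_lit 3852346136) (nat_lit 336) (nat_lit 12142932826) (nat_lit 84) (nat_lit 81276088205) (nat_lit 35) (nat_lit 5) (nat_lit 39) (nat_lit 5) (nat_lit 36) (nat_lit 5) (nat_lit 409) (nat_lit 359) (nat_lit 93)) (XT.lf (nat_lit 0) (nat_lit 11526120607) (nat_lit 420) (nat_lit 82639224556) (nat_lit 84) (nat_lit 5348249938) (nat_lit 31) (nat_lit 5) (nat_lit 36) (nat_lit 5) (nat_lit 32) (nat_lit 5) (nat_lit 410) (nat_lit 359) (nat_lit 92)))) (XT.nd (nat_lit 94) (nat_lit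 252) (nat_lit 0) (XT.lf (nat_lit 0) (nat_lit 19729016229) (nat_lit 420) (nat_lit 54938178137) (nat_lit 84) (nat_lit 27149111157) (nat_lit 31) (nat_lit 5) (nat_lit 36) (nat_lit 5) (nat_lit 32) (nat_lit 5) (nat_lit 411) (nat_lit 359) (nat_lit 91)) (XT.nd (nat_lit 94) (nat_lit 252) (nat_lit 0) (XT.lf (nat_lit 0) (nat_lit 28185810176) (nat_lit 420) (nat_lit 26378902589) (nat_lit 84) (nat_lit 49625700967) (nat_lit 31) (nat_lit 5) (nat_lit 36) (nat_lit 5) (nat_lit 32) (nat_lit 5) (nat_lit 412) (nat_lit 359) (nat_lit 90)) (XT.lf (nat_lit 0) (nat_lit 3128249578) (nat_lit 252) (nat_lit 33807168109) (nat_lit 336) (nat_lit 69701752948) (nat_lit 28) (nat_lit 5) (nat_lit 31) (nat_lit 5) (nat_lit 32) (nat_lit 5) (nat_lit 413) (nat_lit 359) (nat_lit 89))))) (XT.nd (nat_lit 282) (nat_lit 252) (nat_lit 0) (XT.nd (nat_lit 94) (nat_lit 0) (nat_lit 0) (XT.lf (nat_lit 0) (nat_lit 34108859102) (nat_lit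 252) (nat_lit 12122372523) (nat_lit 336) (nat_lit 62920022884) (nat_lit 28) (nat_lit 5) (nat_lit 31) (nat_lit 5) (nat_lit 32) (nat_lit 5) (nat_lit 414) (nat_lit 359) (nat_lit 88)) (XT.nd (nat_lit 94) (nat_lit 0) (nat_lit 0) (XT.lf (nat_lit 0) (nat_lit 55916381916) (nat_lit 336) (nat_lit 45795416825) (nat_lit 84) (nat_lit 10028341579) (nat_lit 28) (nat_lit 5) (nat_lit 32) (nat_lit 5) (nat_lit 29) (nat_lit 5) (nat_lit 415) (nat_lit 359) (nat_lit 87)) (XT.lf (nat_lit 0) (nat_lit 66025403241) (nat_lit 336) (nat_lit 15766231168) (nat_lit 84) (nat_lit 32613816054) (nat_lit 28) (nat_lit 5) (nat_lit 32) (nat_lit 5) (nat_lit 29) (nat_lit 5) (nat_lit 416) (nat_lit 359) (nat_lit 86)))) (XT.nd (nat_lit 94) (nat_lit 0) (nat_lit 0) (XT.lf (nat_lit 0) (nat_lit 15505814962) (nat_lit 252) (nat_lit 61095467471) (nat_lit 336) (nat_lit 40547346361) (nat_lit 25) (nat_lit 5) (nat_lit 28) (nat_lit 5) (nat_lit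 29) (nat_lit 5) (nat_lit 417) (nat_lit 359) (nat_lit 85)) (XT.nd (nat_lit 94) (nat_lit 0) (nat_lit 0) (XT.lf (nat_lit 0) (nat_lit 48081083016) (nat_lit 252) (nat_lit 39588162413) (nat_lit 336) (nat_lit 32302510404) (nat_lit 25) (nat_lit 5) (nat_lit 28) (nat_lit 5) (nat_lit 29) (nat_lit 5) (nat_lit 418) (nat_lit 359) (nat_lit 84)) (XT.lf (nat_lit 0) (nat_lit 81665750507) (nat_lit 252) (nat_lit 17414239291) (nat_lit 336) (nat_lit 23802421417) (nat_lit 25) (nat_lit 5) (nat_lit 28) (nat_lit 5) (nat_lit 29) (nat_lit 5) (nat_lit 419) (nat_lit 359) (nat_lit 83))))))) (XT.nd (nat_lit 49444) (nat_lit 0) (nat_lit 4536) (XT.nd (nat_lit 48880) (nat_lit 0) (nat_lit 5796) (XT.nd (nat_lit 48598) (nat_lit 0) (nat_lit 5712) (XT.nd (nat_lit 48410) (nat_lit 0) (nat_lit 5712) (XT.lf (nat_lit 0) (nat_lit 110898186171) (nat_lit 336) (nat_lit 9646220735) (nat_lit 84) (nat_lit 5337225999) (nat_lit 25) (nat_lit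 5) (nat_lit 29) (nat_lit 5) (nat_lit 26) (nat_lit 5) (nat_lit 420) (nat_lit 359) (nat_lit 82)) (XT.nd (nat_lit 94) (nat_lit 0) (nat_lit 0) (XT.lf (nat_lit 0) (nat_lit 10714538716) (nat_lit 1092) (nat_lit 4299433386) (nat_lit 1092) (nat_lit 4299433386) (nat_lit 93) (nat_lit 3) (nat_lit 106) (nat_lit 3) (nat_lit 106) (nat_lit 5) (nat_lit 360) (nat_lit 360) (nat_lit 141)) (XT.lf (nat_lit 84) (nat_lit 4967933005) (nat_lit 0) (nat_lit 16878268252) (nat_lit 1092) (nat_lit 17376493260) (nat_lit 94) (nat_lit 5) (nat_lit 93) (nat_lit 3) (nat_lit 106) (nat_lit 5) (nat_lit 361) (nat_lit 360) (nat_lit 140)))) (XT.nd (nat_lit 94) (nat_lit 0) (nat_lit 84) (XT.lf (nat_lit 84) (nat_lit 19136834343) (nat_lit 0) (nat_lit 3227730391) (nat_lit 1092) (nat_lit 17469756111) (nat_lit 94) (nat_lit 5) (nat_lit 93) (nat_lit 3) (nat_lit 106) (nat_lit 5) (nat_lit 362) (nat_lit 360) (nat_lit 139)) (XT.nd (nat_lit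 94) (nat_lit 0) (nat_lit 0) (XT.lf (nat_lit 0) (nat_lit 23005195227) (nat_lit 1008) (nat_lit 6828324987) (nat_lit 1092) (nat_lit 10628102978) (nat_lit 94) (nat_lit 5) (nat_lit 106) (nat_lit 5) (nat_lit 107) (nat_lit 5) (nat_lit 363) (nat_lit 360) (nat_lit 138)) (XT.lf (nat_lit 84) (nat_lit 7589916662) (nat_lit 0) (nat_lit 16182719912) (nat_lit 1092) (nat_lit 17332427349) (nat_lit 95) (nat_lit 5) (nat_lit 94) (nat_lit 5) (nat_lit 107) (nat_lit 5) (nat_lit 364) (nat_lit 360) (nat_lit 137))))) (XT.nd (nat_lit 282) (nat_lit 0) (nat_lit 84) (XT.nd (nat_lit 94) (nat_lit 0) (nat_lit 84) (XT.lf (nat_lit 84) (nat_lit 22599116827) (nat_lit 0) (nat_lit 2034704916) (nat_lit 1092) (nat_lit 17132468301) (nat_lit 95) (nat_lit 5) (nat_lit 94) (nat_lit 5) (nat_lit 107) (nat_lit 5) (nat_lit 365) (nat_lit 360) (nat_lit 136)) (XT.nd (nat_lit 94) (nat_lit 0) (nat_lit 0) (XT.lf (nat_lit 0) (nat_lit 25644944535)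 (nat_lit 1008) (nat_lit 4499721395) (nat_lit 1092) (nat_lit 12299534834) (nat_lit 95) (nat_lit 5) (nat_lit 107) (nat_lit 5) (nat_lit 108) (nat_lit 5) (nat_lit 366) (nat_lit 360) (nat_lit 135)) (XT.lf (nat_lit 84) (nat_lit 10818817057) (nat_lit 0) (nat_lit 15995492171) (nat_lit 1092) (nat_lit 16324890523) (nat_lit 96) (nat_lit 5) (nat_lit 95) (nat_lit 5) (nat_lit 108) (nat_lit 5) (nat_lit 367) (nat_lit 360) (nat_lit 134)))) (XT.nd (nat_lit 94) (nat_lit 0) (nat_lit 84) (XT.lf (nat_lit 84) (nat_lit 26706860535) (nat_lit 0) (nat_lit 1358824048) (nat_lit 1092) (nat_lit 15788647191) (nat_lit 96) (nat_lit 5) (nat_lit 95) (nat_lit 5) (nat_lit 108) (nat_lit 5) (nat_lit 368) (nat_lit 360) (nat_lit 133)) (XT.nd (nat_lit 94) (nat_lit 0) (nat_lit 0) (XT.lf (nat_lit 0) (nat_lit 29490904646) (nat_lit 1008) (nat_lit 1641204053) (nat_lit 1092) (nat_lit 13455344015) (nat_lit 96) (nat_lit 5) (nat_lit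 108) (nat_lit 5) (nat_lit 109) (nat_lit 5) (nat_lit 369) (nat_lit 360) (nat_lit 132)) (XT.lf (nat_lit 84) (nat_lit 14625774684) (nat_lit 0) (nat_lit 16492387094) (nat_lit 1092) (nat_lit 14220251358) (nat_lit 97) (nat_lit 5) (nat_lit 96) (nat_lit 5) (nat_lit 109) (nat_lit 5) (nat_lit 370) (nat_lit 360) (nat_lit 131)))))) (XT.nd (nat_lit 564) (nat_lit 1428) (nat_lit 0) (XT.nd (nat_lit 282) (nat_lit 0) (nat_lit 84) (XT.nd (nat_lit 94) (nat_lit 0) (nat_lit 84) (XT.lf (nat_lit 84) (nat_lit 31431068219) (nat_lit 0) (nat_lit 1380821195) (nat_lit 1092) (nat_lit 13300273184) (nat_lit 97) (nat_lit 5) (nat_lit 96) (nat_lit 5) (nat_lit 109) (nat_lit 5) (nat_lit 371) (nat_lit 360) (nat_lit 130)) (XT.nd (nat_lit 94) (nat_lit 0) (nat_lit 0) (XT.lf (nat_lit 84) (nat_lit 1740870345) (nat_lit 0) (nat_lit 32974311102) (nat_lit 1092) (nat_lit 12189853896) (nat_lit 98) (nat_lit 5) (nat_lit 97) (nat_lit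 5) (nat_lit 110) (nat_lit 5) (nat_lit 372) (nat_lit 360) (nat_lit 129)) (XT.lf (nat_lit 84) (nat_lit 18967968341) (nat_lit 0) (nat_lit 17875683154) (nat_lit 1092) (nat_lit 10873689893) (nat_lit 98) (nat_lit 5) (nat_lit 97) (nat_lit 5) (nat_lit 110) (nat_lit 5) (nat_lit 373) (nat_lit 360) (nat_lit 128)))) (XT.nd (nat_lit 94) (nat_lit 0) (nat_lit 84) (XT.lf (nat_lit 84) (nat_lit 36728363231) (nat_lit 0) (nat_lit 2308728149) (nat_lit 1092) (nat_lit 9517774463) (nat_lit 98) (nat_lit 5) (nat_lit 97) (nat_lit 5) (nat_lit 110) (nat_lit 5) (nat_lit 374) (nat_lit 360) (nat_lit 127)) (XT.nd (nat_lit 94) (nat_lit 0) (nat_lit 0) (XT.lf (nat_lit 84) (nat_lit 5596667516) (nat_lit 0) (nat_lit 35892710791) (nat_lit 1092) (nat_lit 7923064247) (nat_lit 99) (nat_lit 5) (nat_lit 98) (nat_lit 5) (nat_lit 111) (nat_lit 5) (nat_lit 375) (nat_lit 360) (nat_lit 126)) (XT.lf (nat_lit 84) (nat_lit 23785821655)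 (nat_lit 0) (nat_lit 20377725016) (nat_lit 1092) (nat_lit 6128540995) (nat_lit 99) (nat_lit 5) (nat_lit 98) (nat_lit 5) (nat_lit 111) (nat_lit 5) (nat_lit 376) (nat_lit 360) (nat_lit 125))))) (XT.nd (nat_lit 282) (nat_lit 588) (nat_lit 0) (XT.nd (nat_lit 94) (nat_lit 1008) (nat_lit 0) (XT.lf (nat_lit 84) (nat_lit 42538110650) (nat_lit 0) (nat_lit 4381574713) (nat_lit 1092) (nat_lit 4279350253) (nat_lit 99) (nat_lit 5) (nat_lit 98) (nat_lit 5) (nat_lit 111) (nat_lit 5) (nat_lit 377) (nat_lit 360) (nat_lit 124)) (XT.nd (nat_lit 94) (nat_lit 84) (nat_lit 0) (XT.lf (nat_lit 0) (nat_lit 9814482626) (nat_lit 1008) (nat_lit 40163380799) (nat_lit 1092) (nat_lit 2149525849) (nat_lit 87) (nat_lit 5) (nat_lit 99) (nat_lit 5) (nat_lit 100) (nat_lit 5) (nat_lit 378) (nat_lit 360) (nat_lit 123)) (XT.lf (nat_lit 0) (nat_lit 180636969) (nat_lit 1092) (nat_lit 24082439051) (nat_lit 84) (nat_lit 28817243569)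 (nat_lit 86) (nat_lit 5) (nat_lit 99) (nat_lit 5) (nat_lit 87) (nat_lit 5) (nat_lit 379) (nat_lit 360) (nat_lit 122)))) (XT.nd (nat_lit 188) (nat_lit 0) (nat_lit 0) (XT.nd (nat_lit 94) (nat_lit 588) (nat_lit 0) (XT.lf (nat_lit 0) (nat_lit 2537518044) (nat_lit 1092) (nat_lit 5309545988) (nat_lit 84) (nat_lit 46215076503) (nat_lit 86) (nat_lit 5) (nat_lit 99) (nat_lit 5) (nat_lit 87) (nat_lit 5) (nat_lit 380) (nat_lit 360) (nat_lit 121)) (XT.lf (nat_lit 0) (nat_lit 5200320158) (nat_lit 672) (nat_lit 40828149239) (nat_lit 84) (nat_lit 9038714273) (nat_lit 79) (nat_lit 5) (nat_lit 87) (nat_lit 5) (nat_lit 80) (nat_lit 5) (nat_lit 381) (nat_lit 360) (nat_lit 120))) (XT.nd (nat_lit 94) (nat_lit 0) (nat_lit 0) (XT.lf (nat_lit 0) (nat_lit 8081093117) (nat_lit 672) (nat_lit 21677044472) (nat_lit 84) (nat_lit 26341051609) (nat_lit 79) (nat_lit 5) (nat_lit 87) (nat_lit 5) (nat_lit 80) (nat_lit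 5) (nat_lit 382) (nat_lit 360) (nat_lit 119)) (XT.lf (nat_lit 0) (nat_lit 11050374090) (nat_lit 672) (nat_lit 1932969301) (nat_lit 84) (nat_lit 44179872254) (nat_lit 79) (nat_lit 5) (nat_lit 87) (nat_lit 5) (nat_lit 80) (nat_lit 5) (nat_lit 383) (nat_lit 360) (nat_lit 118))))))))
noncomputable def xc224 : XT := (XT.nd (nat_lit 2256) (nat_lit 1176) (nat_lit 0) (XT.nd (nat_lit 1128) (nat_lit 1176) (nat_lit 0) (XT.nd (nat_lit 564) (nat_lit 756) (nat_lit 0) (XT.nd (nat_lit 282) (nat_lit 420) (nat_lit 0) (XT.nd (nat_lit 94) (nat_lit 504) (nat_lit 0) (XT.lf (nat_lit 0) (nat_lit 14342120491) (nat_lit 588) (nat_lit 39497867835) (nat_lit 84) (nat_lit 4413099588) (nat_lit 73) (nat_lit 5) (nat_lit 80) (nat_lit 5) (nat_lit 74) (nat_lit 5) (nat_lit 384) (nat_lit 360) (nat_lit 117)) (XT.nd (nat_lit 94) (nat_lit 504) (nat_lit 0) (XT.lf (nat_lit 0) (nat_lit 17888327777) (nat_lit 588) (nat_lit 19384108236)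 (nat_lit 84) (nat_lit 22099589122) (nat_lit 73) (nat_lit 5) (nat_lit 80) (nat_lit 5) (nat_lit 74) (nat_lit 5) (nat_lit 385) (nat_lit 360) (nat_lit 116)) (XT.lf (nat_lit 0) (nat_lit 1380295922) (nat_lit 504) (nat_lit 20177132067) (nat_lit 588) (nat_lit 38967823362) (nat_lit 67) (nat_lit 5) (nat_lit 73) (nat_lit 5) (nat_lit 74) (nat_lit 5) (nat_lit 386) (nat_lit 360) (nat_lit 115)))) (XT.nd (nat_lit 94) (nat_lit 420) (nat_lit 0) (XT.lf (nat_lit 0) (nat_lit 23198644649) (nat_lit 504) (nat_lit 2343239009) (nat_lit 588) (nat_lit 36166097514) (nat_lit 67) (nat_lit 5) (nat_lit 73) (nat_lit 5) (nat_lit 74) (nat_lit 5) (nat_lit 387) (nat_lit 360) (nat_lit 114)) (XT.nd (nat_lit 94) (nat_lit 420) (nat_lit 0) (XT.lf (nat_lit 0) (nat_lit 29808315889) (nat_lit 588) (nat_lit 17393856626) (nat_lit 84) (nat_lit 15720294386) (nat_lit 67) (nat_lit 5) (nat_lit 74) (nat_lit 5) (nat_lit 68) (nat_lit 5)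 (nat_lit 388) (nat_lit 360) (nat_lit 113)) (XT.lf (nat_lit 0) (nat_lit 4441045591) (nat_lit 420) (nat_lit 29833309256) (nat_lit 504) (nat_lit 29898162466) (nat_lit 62) (nat_lit 5) (nat_lit 67) (nat_lit 5) (nat_lit 68) (nat_lit 5) (nat_lit 389) (nat_lit 360) (nat_lit 112))))) (XT.nd (nat_lit 282) (nat_lit 336) (nat_lit 0) (XT.nd (nat_lit 94) (nat_lit 420) (nat_lit 0) (XT.lf (nat_lit 0) (nat_lit 27320908264) (nat_lit 420) (nat_lit 11738828426) (nat_lit 504) (nat_lit 26395978121) (nat_lit 62) (nat_lit 5) (nat_lit 67) (nat_lit 5) (nat_lit 68) (nat_lit 5) (nat_lit 390) (nat_lit 360) (nat_lit 111)) (XT.nd (nat_lit 94) (nat_lit 420) (nat_lit 0) (XT.lf (nat_lit 0) (nat_lit 44061438046) (nat_lit 504) (nat_lit 15937923354) (nat_lit 84) (nat_lit 6777226070) (nat_lit 62) (nat_lit 5) (nat_lit 68) (nat_lit 5) (nat_lit 63) (nat_lit 5) (nat_lit 391) (nat_lit 360) (nat_lit 110)) (XT.lf (nat_lit 0)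 (nat_lit 6966721268) (nat_lit 420) (nat_lit 42440020808) (nat_lit 504) (nat_lit 18725823150) (nat_lit 57) (nat_lit 5) (nat_lit 62) (nat_lit 5) (nat_lit 63) (nat_lit 5) (nat_lit 392) (nat_lit 360) (nat_lit 109)))) (XT.nd (nat_lit 94) (nat_lit 336) (nat_lit 0) (XT.lf (nat_lit 0) (nat_lit 30918646751) (nat_lit 420) (nat_lit 24164853957) (nat_lit 504) (nat_lit 14441942332) (nat_lit 57) (nat_lit 5) (nat_lit 62) (nat_lit 5) (nat_lit 63) (nat_lit 5) (nat_lit 393) (nat_lit 360) (nat_lit 108)) (XT.nd (nat_lit 94) (nat_lit 336) (nat_lit 0) (XT.lf (nat_lit 0) (nat_lit 55612462404) (nat_lit 420) (nat_lit 5323185709) (nat_lit 504) (nat_lit 10025873176) (nat_lit 57) (nat_lit 5) (nat_lit 62) (nat_lit 5) (nat_lit 63) (nat_lit 5) (nat_lit 394) (nat_lit 360) (nat_lit 107)) (XT.lf (nat_lit 0) (nat_lit 8663702184) (nat_lit 336) (nat_lit 58530780928) (nat_lit 420) (nat_lit 5240654275) (nat_lit 53) (nat_lit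 5) (nat_lit 57) (nat_lit 5) (nat_lit 58) (nat_lit 5) (nat_lit 395) (nat_lit 360) (nat_lit 106)))))) (XT.nd (nat_lit 564) (nat_lit 336) (nat_lit 0) (XT.nd (nat_lit 282) (nat_lit 336) (nat_lit 0) (XT.nd (nat_lit 94) (nat_lit 504) (nat_lit 0) (XT.lf (nat_lit 0) (nat_lit 33690072779) (nat_lit 336) (nat_lit 40170812265) (nat_lit 420) (nat_lit 86933445) (nat_lit 53) (nat_lit 5) (nat_lit 57) (nat_lit 5) (nat_lit 58) (nat_lit 5) (nat_lit 396) (nat_lit 360) (nat_lit 105)) (XT.nd (nat_lit 94) (nat_lit 420) (nat_lit 0) (XT.lf (nat_lit 0) (nat_lit 5120695942) (nat_lit 420) (nat_lit 16067590271) (nat_lit 84) (nat_lit 54317518934) (nat_lit 52) (nat_lit 5) (nat_lit 57) (nat_lit 5) (nat_lit 53) (nat_lit 5) (nat_lit 397) (nat_lit 360) (nat_lit 104)) (XT.lf (nat_lit 0) (nat_lit 9053384355) (nat_lit 420) (nat_lit 1523845607) (nat_lit 504) (nat_lit 66532066874) (nat_lit 47) (nat_lit 5) (nat_lit 52) (nat_lit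 5) (nat_lit 53) (nat_lit 5) (nat_lit 398) (nat_lit 360) (nat_lit 103)))) (XT.nd (nat_lit 94) (nat_lit 336) (nat_lit 0) (XT.lf (nat_lit 0) (nat_lit 16557821741) (nat_lit 504) (nat_lit 43651887731) (nat_lit 84) (nat_lit 18541787658) (nat_lit 47) (nat_lit 5) (nat_lit 53) (nat_lit 5) (nat_lit 48) (nat_lit 5) (nat_lit 399) (nat_lit 360) (nat_lit 102)) (XT.nd (nat_lit 94) (nat_lit 336) (nat_lit 0) (XT.lf (nat_lit 0) (nat_lit 22738886043) (nat_lit 504) (nat_lit 18507509586) (nat_lit 84) (nat_lit 39197745056) (nat_lit 47) (nat_lit 5) (nat_lit 53) (nat_lit 5) (nat_lit 48) (nat_lit 5) (nat_lit 400) (nat_lit 360) (nat_lit 101)) (XT.lf (nat_lit 0) (nat_lit 7568259445) (nat_lit 336) (nat_lit 21617886155) (nat_lit 420) (nat_lit 53000800819) (nat_lit 43) (nat_lit 5) (nat_lit 47) (nat_lit 5) (nat_lit 48) (nat_lit 5) (nat_lit 401) (nat_lit 360) (nat_lit 100))))) (XT.nd (nat_lit 282) (nat_lit 0) (nat_lit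 0) (XT.nd (nat_lit 94) (nat_lit 336) (nat_lit 0) (XT.lf (nat_lit 0) (nat_lit 34844164153) (nat_lit 336) (nat_lit 1181800012) (nat_lit 420) (nat_lit 47951843667) (nat_lit 43) (nat_lit 5) (nat_lit 47) (nat_lit 5) (nat_lit 48) (nat_lit 5) (nat_lit 402) (nat_lit 360) (nat_lit 99)) (XT.nd (nat_lit 94) (nat_lit 336) (nat_lit 0) (XT.lf (nat_lit 0) (nat_lit 43274634004) (nat_lit 420) (nat_lit 23056415292) (nat_lit 84) (nat_lit 19487037473) (nat_lit 43) (nat_lit 5) (nat_lit 48) (nat_lit 5) (nat_lit 44) (nat_lit 5) (nat_lit 403) (nat_lit 360) (nat_lit 98)) (XT.lf (nat_lit 0) (nat_lit 3895051881) (nat_lit 336) (nat_lit 46903228780) (nat_lit 420) (nat_lit 36915577463) (nat_lit 39) (nat_lit 5) (nat_lit 43) (nat_lit 5) (nat_lit 44) (nat_lit 5) (nat_lit 404) (nat_lit 360) (nat_lit 97)))) (XT.nd (nat_lit 94) (nat_lit 0) (nat_lit 0) (XT.lf (nat_lit 0) (nat_lit 32170259069) (nat_lit 336) (nat_lit 26625113039)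 (nat_lit 420) (nat_lit 30865581738) (nat_lit 39) (nat_lit 5) (nat_lit 43) (nat_lit 5) (nat_lit 44) (nat_lit 5) (nat_lit 405) (nat_lit 360) (nat_lit 96)) (XT.nd (nat_lit 94) (nat_lit 0) (nat_lit 0) (XT.lf (nat_lit 0) (nat_lit 61321474540) (nat_lit 336) (nat_lit 5718462434) (nat_lit 420) (nat_lit 24628488048) (nat_lit 39) (nat_lit 5) (nat_lit 43) (nat_lit 5) (nat_lit 44) (nat_lit 5) (nat_lit 406) (nat_lit 360) (nat_lit 95)) (XT.lf (nat_lit 0) (nat_lit 75696757222) (nat_lit 420) (nat_lit 2519369712) (nat_lit 84) (nat_lit 15517145879) (nat_lit 39) (nat_lit 5) (nat_lit 44) (nat_lit 5) (nat_lit 40) (nat_lit 5) (nat_lit 407) (nat_lit 360) (nat_lit 94))))))) (XT.nd (nat_lit 1128) (nat_lit 0) (nat_lit 0) (XT.nd (nat_lit 564) (nat_lit 504) (nat_lit 0) (XT.nd (nat_lit 282) (nat_lit 336) (nat_lit 0) (XT.nd (nat_lit 94) (nat_lit 84) (nat_lit 0) (XT.lf (nat_lit 0) (nat_lit 26648787407) (nat_lit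 252) (nat_lit 58295585803) (nat_lit 336) (nat_lit 10907764052) (nat_lit 36) (nat_lit 5) (nat_lit 39) (nat_lit 5) (nat_lit 40) (nat_lit 5) (nat_lit 408) (nat_lit 360) (nat_lit 93)) (XT.nd (nat_lit 94) (nat_lit 84) (nat_lit 0) (XT.lf (nat_lit 0) (nat_lit 56774065921) (nat_lit 252) (nat_lit 37730492452) (nat_lit 336) (nat_lit 3531327239) (nat_lit 36) (nat_lit 5) (nat_lit 39) (nat_lit 5) (nat_lit 40) (nat_lit 5) (nat_lit 409) (nat_lit 360) (nat_lit 92)) (XT.lf (nat_lit 0) (nat_lit 3991304011) (nat_lit 336) (nat_lit 12495010074) (nat_lit 84) (nat_lit 83799777294) (nat_lit 35) (nat_lit 5) (nat_lit 39) (nat_lit 5) (nat_lit 36) (nat_lit 5) (nat_lit 410) (nat_lit 360) (nat_lit 91)))) (XT.nd (nat_lit 94) (nat_lit 0) (nat_lit 0) (XT.lf (nat_lit 0) (nat_lit 11902666064) (nat_lit 420) (nat_lit 85176307325) (nat_lit 84) (nat_lit 5518866756) (nat_lit 31) (nat_lit 5) (nat_lit 36) (nat_lit 5) (nat_lit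 32) (nat_lit 5) (nat_lit 411) (nat_lit 360) (nat_lit 90)) (XT.nd (nat_lit 94) (nat_lit 0) (nat_lit 0) (XT.lf (nat_lit 0) (nat_lit 20359273073) (nat_lit 420) (nat_lit 56617272141) (nat_lit 84) (nat_lit 27995409713) (nat_lit 31) (nat_lit 5) (nat_lit 36) (nat_lit 5) (nat_lit 32) (nat_lit 5) (nat_lit 412) (nat_lit 360) (nat_lit 89)) (XT.lf (nat_lit 0) (nat_lit 29077666645) (nat_lit 420) (nat_lit 27173380366) (nat_lit 84) (nat_lit 51168633206) (nat_lit 31) (nat_lit 5) (nat_lit 36) (nat_lit 5) (nat_lit 32) (nat_lit 5) (nat_lit 413) (nat_lit 360) (nat_lit 88))))) (XT.nd (nat_lit 282) (nat_lit 252) (nat_lit 0) (XT.nd (nat_lit 94) (nat_lit 0) (nat_lit 0) (XT.lf (nat_lit 0) (nat_lit 3248257949) (nat_lit 252) (nat_lit 34849938408) (nat_lit 336) (nat_lit 71844102278) (nat_lit 28) (nat_lit 5) (nat_lit 31) (nat_lit 5) (nat_lit 32) (nat_lit 5) (nat_lit 414) (nat_lit 360) (nat_lit 87)) (XT.nd (nat_lit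 94) (nat_lit 0) (nat_lit 0) (XT.lf (nat_lit 0) (nat_lit 35188573825) (nat_lit 252) (nat_lit 12493072073) (nat_lit 336) (nat_lit 64852691983) (nat_lit 28) (nat_lit 5) (nat_lit 31) (nat_lit 5) (nat_lit 32) (nat_lit 5) (nat_lit 415) (nat_lit 360) (nat_lit 86)) (XT.lf (nat_lit 0) (nat_lit 57666566308) (nat_lit 336) (nat_lit 47192868077) (nat_lit 84) (nat_lit 10344061454) (nat_lit 28) (nat_lit 5) (nat_lit 32) (nat_lit 5) (nat_lit 29) (nat_lit 5) (nat_lit 416) (nat_lit 360) (nat_lit 85)))) (XT.nd (nat_lit 94) (nat_lit 252) (nat_lit 0) (XT.lf (nat_lit 0) (nat_lit 68088462858) (nat_lit 336) (nat_lit 16233445372) (nat_lit 84) (nat_lit 33629540071) (nat_lit 28) (nat_lit 5) (nat_lit 32) (nat_lit 5) (nat_lit 29) (nat_lit 5) (nat_lit 417) (nat_lit 360) (nat_lit 84)) (XT.nd (nat_lit 94) (nat_lit 0) (nat_lit 0) (XT.lf (nat_lit 0) (nat_lit 16007816125) (nat_lit 252) (nat_lit 62984100418) (nat_lit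 336) (nat_lit 41787759234) (nat_lit 25) (nat_lit 5) (nat_lit 28) (nat_lit 5) (nat_lit 29) (nat_lit 5) (nat_lit 418) (nat_lit 360) (nat_lit 83)) (XT.lf (nat_lit 0) (nat_lit 49592276414) (nat_lit 252) (nat_lit 40810229061) (nat_lit 336) (nat_lit 33287831131) (nat_lit 25) (nat_lit 5) (nat_lit 28) (nat_lit 5) (nat_lit 29) (nat_lit 5) (nat_lit 419) (nat_lit 360) (nat_lit 82)))))) (XT.nd (nat_lit 48974) (nat_lit 0) (nat_lit 5796) (XT.nd (nat_lit 48692) (nat_lit 0) (nat_lit 5712) (XT.nd (nat_lit 48504) (nat_lit 0) (nat_lit 5712) (XT.lf (nat_lit 0) (nat_lit 84217446799) (nat_lit 252) (nat_lit 17949069665) (nat_lit 336) (nat_lit 24524722189) (nat_lit 25) (nat_lit 5) (nat_lit 28) (nat_lit 5) (nat_lit 29) (nat_lit 5) (nat_lit 420) (nat_lit 360) (nat_lit 81)) (XT.nd (nat_lit 94) (nat_lit 0) (nat_lit 0) (XT.lf (nat_lit 0) (nat_lit 11082025975) (nat_lit 1092) (nat_lit 4414401874) (nat_lit 1092)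 (nat_lit 4414401874) (nat_lit 93) (nat_lit 3) (nat_lit 106) (nat_lit 3) (nat_lit 106) (nat_lit 5) (nat_lit 361) (nat_lit 361) (nat_lit 139)) (XT.lf (nat_lit 84) (nat_lit 5158195997) (nat_lit 0) (nat_lit 17434145298) (nat_lit 1092) (nat_lit 17843740588) (nat_lit 94) (nat_lit 5) (nat_lit 93) (nat_lit 3) (nat_lit 106) (nat_lit 5) (nat_lit 362) (nat_lit 361) (nat_lit 138)))) (XT.nd (nat_lit 94) (nat_lit 0) (nat_lit 84) (XT.lf (nat_lit 84) (nat_lit 19765243102) (nat_lit 0) (nat_lit 3359459024) (nat_lit 1092) (nat_lit 17942042156) (nat_lit 94) (nat_lit 5) (nat_lit 93) (nat_lit 3) (nat_lit 106) (nat_lit 5) (nat_lit 363) (nat_lit 361) (nat_lit 137)) (XT.nd (nat_lit 94) (nat_lit 0) (nat_lit 0) (XT.lf (nat_lit 0) (nat_lit 23782877837) (nat_lit 1008) (nat_lit 7003221719) (nat_lit 1092) (nat_lit 10927476274) (nat_lit 94) (nat_lit 5) (nat_lit 106) (nat_lit 5) (nat_lit 107) (nat_lit 5) (nat_lit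 364) (nat_lit 361) (nat_lit 136)) (XT.lf (nat_lit 84) (nat_lit 7861613043) (nat_lit 0) (nat_lit 16710917977) (nat_lit 1092) (nat_lit 17804491897) (nat_lit 95) (nat_lit 5) (nat_lit 94) (nat_lit 5) (nat_lit 107) (nat_lit 5) (nat_lit 365) (nat_lit 361) (nat_lit 135))))) (XT.nd (nat_lit 282) (nat_lit 0) (nat_lit 84) (XT.nd (nat_lit 94) (nat_lit 0) (nat_lit 84) (XT.lf (nat_lit 84) (nat_lit 23335003672) (nat_lit 0) (nat_lit 2123516702) (nat_lit 1092) (nat_lit 17600295770) (nat_lit 95) (nat_lit 5) (nat_lit 94) (nat_lit 5) (nat_lit 107) (nat_lit 5) (nat_lit 366) (nat_lit 361) (nat_lit 134)) (XT.nd (nat_lit 94) (nat_lit 0) (nat_lit 0) (XT.lf (nat_lit 0) (nat_lit 26498904695) (nat_lit 1008) (nat_lit 4602550858) (nat_lit 1092) (nat_lit 12656361237) (nat_lit 95) (nat_lit 5) (nat_lit 107) (nat_lit 5) (nat_lit 108) (nat_lit 5) (nat_lit 367) (nat_lit 361) (nat_lit 133)) (XT.lf (nat_lit 84) (nat_lit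 11190491118) (nat_lit 0) (nat_lit 16512615575) (nat_lit 1092) (nat_lit 16771307665) (nat_lit 96) (nat_lit 5) (nat_lit 95) (nat_lit 5) (nat_lit 108) (nat_lit 5) (nat_lit 368) (nat_lit 361) (nat_lit 132)))) (XT.nd (nat_lit 94) (nat_lit 0) (nat_lit 84) (XT.lf (nat_lit 84) (nat_lit 27569972757) (nat_lit 0) (nat_lit 1421571402) (nat_lit 1092) (nat_lit 16220234474) (nat_lit 96) (nat_lit 5) (nat_lit 95) (nat_lit 5) (nat_lit 108) (nat_lit 5) (nat_lit 369) (nat_lit 361) (nat_lit 131)) (XT.nd (nat_lit 94) (nat_lit 0) (nat_lit 0) (XT.lf (nat_lit 0) (nat_lit 30459069115) (nat_lit 1008) (nat_lit 1655765606) (nat_lit 1092) (nat_lit 13852859015) (nat_lit 96) (nat_lit 5) (nat_lit 108) (nat_lit 5) (nat_lit 109) (nat_lit 5) (nat_lit 370) (nat_lit 361) (nat_lit 130)) (XT.lf (nat_lit 84) (nat_lit 15115121808) (nat_lit 0) (nat_lit 17020383964) (nat_lit 1092) (nat_lit 14606476338) (nat_lit 97) (nat_lit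 5) (nat_lit 96) (nat_lit 5) (nat_lit 109) (nat_lit 5) (nat_lit 371) (nat_lit 361) (nat_lit 129))))))))
noncomputable def xc225 : XT := (XT.nd (nat_lit 2256) (nat_lit 2688) (nat_lit 0) (XT.nd (nat_lit 1128) (nat_lit 1848) (nat_lit 0) (XT.nd (nat_lit 564) (nat_lit 1428) (nat_lit 0) (XT.nd (nat_lit 282) (nat_lit 0) (nat_lit 84) (XT.nd (nat_lit 94) (nat_lit 0) (nat_lit 84) (XT.lf (nat_lit 84) (nat_lit 32440298558) (nat_lit 0) (nat_lit 1439856400) (nat_lit 1092) (nat_lit 13659620632) (nat_lit 97) (nat_lit 5) (nat_lit 96) (nat_lit 5) (nat_lit 109) (nat_lit 5) (nat_lit 372) (nat_lit 361) (nat_lit 128)) (XT.nd (nat_lit 94) (nat_lit 0) (nat_lit 0) (XT.lf (nat_lit 84) (nat_lit 1831356099) (nat_lit 0) (nat_lit 34009762679) (nat_lit 1092) (nat_lit 12516158272) (nat_lit 98) (nat_lit 5) (nat_lit 97) (nat_lit 5) (nat_lit 110) (nat_lit 5) (nat_lit 373) (nat_lit 361) (nat_lit 127)) (XT.lf (nat_lit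 84) (nat_lit 19591396089) (nat_lit 0) (nat_lit 18442678927) (nat_lit 1092) (nat_lit 11160744120) (nat_lit 98) (nat_lit 5) (nat_lit 97) (nat_lit 5) (nat_lit 110) (nat_lit 5) (nat_lit 374) (nat_lit 361) (nat_lit 126)))) (XT.nd (nat_lit 94) (nat_lit 0) (nat_lit 84) (XT.lf (nat_lit 84) (nat_lit 37901298194) (nat_lit 0) (nat_lit 2392761956) (nat_lit 1092) (nat_lit 9764299614) (nat_lit 98) (nat_lit 5) (nat_lit 97) (nat_lit 5) (nat_lit 110) (nat_lit 5) (nat_lit 375) (nat_lit 361) (nat_lit 125)) (XT.nd (nat_lit 94) (nat_lit 0) (nat_lit 0) (XT.lf (nat_lit 84) (nat_lit 5805984116) (nat_lit 0) (nat_lit 37015211528) (nat_lit 1092) (nat_lit 8121369735) (nat_lit 99) (nat_lit 5) (nat_lit 98) (nat_lit 5) (nat_lit 111) (nat_lit 5) (nat_lit 376) (nat_lit 361) (nat_lit 124)) (XT.lf (nat_lit 84) (nat_lit 24557925004) (nat_lit 0) (nat_lit 21018965726) (nat_lit 1092) (nat_lit 6272638759) (nat_lit 99) (nat_lit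 5) (nat_lit 98) (nat_lit 5) (nat_lit 111) (nat_lit 5) (nat_lit 377) (nat_lit 361) (nat_lit 123))))) (XT.nd (nat_lit 282) (nat_lit 588) (nat_lit 0) (XT.nd (nat_lit 94) (nat_lit 1008) (nat_lit 0) (XT.lf (nat_lit 84) (nat_lit 43890490313) (nat_lit 0) (nat_lit 4526648180) (nat_lit 1092) (nat_lit 4367502830) (nat_lit 99) (nat_lit 5) (nat_lit 98) (nat_lit 5) (nat_lit 111) (nat_lit 5) (nat_lit 378) (nat_lit 361) (nat_lit 122)) (XT.nd (nat_lit 94) (nat_lit 84) (nat_lit 0) (XT.lf (nat_lit 0) (nat_lit 10153727995) (nat_lit 1008) (nat_lit 41415359094) (nat_lit 1092) (nat_lit 2172725887) (nat_lit 87) (nat_lit 5) (nat_lit 99) (nat_lit 5) (nat_lit 100) (nat_lit 5) (nat_lit 379) (nat_lit 361) (nat_lit 121)) (XT.lf (nat_lit 0) (nat_lit 227517161) (nat_lit 1092) (nat_lit 24793988949) (nat_lit 84) (nat_lit 29702810930) (nat_lit 86) (nat_lit 5) (nat_lit 99) (nat_lit 5) (nat_lit 87) (nat_lit 5) (nat_lit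 380) (nat_lit 361) (nat_lit 120)))) (XT.nd (nat_lit 94) (nat_lit 588) (nat_lit 0) (XT.lf (nat_lit 0) (nat_lit 2656220333) (nat_lit 1092) (nat_lit 5440188749) (nat_lit 84) (nat_lit 47640210228) (nat_lit 86) (nat_lit 5) (nat_lit 99) (nat_lit 5) (nat_lit 87) (nat_lit 5) (nat_lit 381) (nat_lit 361) (nat_lit 119)) (XT.nd (nat_lit 94) (nat_lit 0) (nat_lit 0) (XT.lf (nat_lit 0) (nat_lit 5400643678) (nat_lit 672) (nat_lit 42058742905) (nat_lit 84) (nat_lit 9313467098) (nat_lit 79) (nat_lit 5) (nat_lit 87) (nat_lit 5) (nat_lit 80) (nat_lit 5) (nat_lit 382) (nat_lit 361) (nat_lit 118)) (XT.lf (nat_lit 0) (nat_lit 8369544535) (nat_lit 672) (nat_lit 22315008641) (nat_lit 84) (nat_lit 27152340682) (nat_lit 79) (nat_lit 5) (nat_lit 87) (nat_lit 5) (nat_lit 80) (nat_lit 5) (nat_lit 383) (nat_lit 361) (nat_lit 117)))))) (XT.nd (nat_lit 564) (nat_lit 840) (nat_lit 0) (XT.nd (nat_lit 282) (nat_lit 504)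 (nat_lit 0) (XT.nd (nat_lit 94) (nat_lit 504) (nat_lit 0) (XT.lf (nat_lit 0) (nat_lit 11429732517) (nat_lit 672) (nat_lit 1959890176) (nat_lit 84) (nat_lit 45544323631) (nat_lit 79) (nat_lit 5) (nat_lit 87) (nat_lit 5) (nat_lit 80) (nat_lit 5) (nat_lit 384) (nat_lit 361) (nat_lit 116)) (XT.nd (nat_lit 94) (nat_lit 0) (nat_lit 0) (XT.lf (nat_lit 0) (nat_lit 14822707507) (nat_lit 588) (nat_lit 40688302374) (nat_lit 84) (nat_lit 4546625696) (nat_lit 73) (nat_lit 5) (nat_lit 80) (nat_lit 5) (nat_lit 74) (nat_lit 5) (nat_lit 385) (nat_lit 361) (nat_lit 115)) (XT.lf (nat_lit 0) (nat_lit 18477765338) (nat_lit 588) (nat_lit 19952038516) (nat_lit 84) (nat_lit 22781495028) (nat_lit 73) (nat_lit 5) (nat_lit 80) (nat_lit 5) (nat_lit 74) (nat_lit 5) (nat_lit 386) (nat_lit 361) (nat_lit 114)))) (XT.nd (nat_lit 94) (nat_lit 0) (nat_lit 0) (XT.lf (nat_lit 0) (nat_lit 1455728308) (nat_lit 504) (nat_lit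 20804153822) (nat_lit 588) (nat_lit 40140420799) (nat_lit 67) (nat_lit 5) (nat_lit 73) (nat_lit 5) (nat_lit 74) (nat_lit 5) (nat_lit 387) (nat_lit 361) (nat_lit 113)) (XT.nd (nat_lit 94) (nat_lit 0) (nat_lit 0) (XT.lf (nat_lit 0) (nat_lit 23949464332) (nat_lit 504) (nat_lit 2417364056) (nat_lit 588) (nat_lit 37252906006) (nat_lit 67) (nat_lit 5) (nat_lit 73) (nat_lit 5) (nat_lit 74) (nat_lit 5) (nat_lit 388) (nat_lit 361) (nat_lit 112)) (XT.lf (nat_lit 0) (nat_lit 30764509092) (nat_lit 588) (nat_lit 17901183911) (nat_lit 84) (nat_lit 16206212528) (nat_lit 67) (nat_lit 5) (nat_lit 74) (nat_lit 5) (nat_lit 68) (nat_lit 5) (nat_lit 389) (nat_lit 361) (nat_lit 111))))) (XT.nd (nat_lit 282) (nat_lit 420) (nat_lit 0) (XT.nd (nat_lit 94) (nat_lit 0) (nat_lit 0) (XT.lf (nat_lit 0) (nat_lit 4610277495) (nat_lit 420) (nat_lit 30758064593) (nat_lit 504) (nat_lit 30792390526) (nat_lit 62) (nat_lit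 5) (nat_lit 67) (nat_lit 5) (nat_lit 68) (nat_lit 5) (nat_lit 390) (nat_lit 361) (nat_lit 110)) (XT.nd (nat_lit 94) (nat_lit 0) (nat_lit 0) (XT.lf (nat_lit 0) (nat_lit 28198466984) (nat_lit 420) (nat_lit 12102657179) (nat_lit 504) (nat_lit 27182619130) (nat_lit 62) (nat_lit 5) (nat_lit 67) (nat_lit 5) (nat_lit 68) (nat_lit 5) (nat_lit 391) (nat_lit 361) (nat_lit 109)) (XT.lf (nat_lit 0) (nat_lit 45456960840) (nat_lit 504) (nat_lit 16401243888) (nat_lit 84) (nat_lit 6987391288) (nat_lit 62) (nat_lit 5) (nat_lit 68) (nat_lit 5) (nat_lit 63) (nat_lit 5) (nat_lit 392) (nat_lit 361) (nat_lit 108)))) (XT.nd (nat_lit 94) (nat_lit 0) (nat_lit 0) (XT.lf (nat_lit 0) (nat_lit 7213133350) (nat_lit 420) (nat_lit 43754247394) (nat_lit 504) (nat_lit 19276251020) (nat_lit 57) (nat_lit 5) (nat_lit 62) (nat_lit 5) (nat_lit 63) (nat_lit 5) (nat_lit 393) (nat_lit 361) (nat_lit 107)) (XT.nd (nat_lit 94)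 (nat_lit 0) (nat_lit 0) (XT.lf (nat_lit 0) (nat_lit 31906653143) (nat_lit 420) (nat_lit 24912592888) (nat_lit 504) (nat_lit 14860474118) (nat_lit 57) (nat_lit 5) (nat_lit 62) (nat_lit 5) (nat_lit 63) (nat_lit 5) (nat_lit 394) (nat_lit 361) (nat_lit 106)) (XT.lf (nat_lit 0) (nat_lit 57365089227) (nat_lit 420) (nat_lit 5486874164) (nat_lit 504) (nat_lit 10308383852) (nat_lit 57) (nat_lit 5) (nat_lit 62) (nat_lit 5) (nat_lit 63) (nat_lit 5) (nat_lit 395) (nat_lit 361) (nat_lit 105))))))) (XT.nd (nat_lit 1128) (nat_lit 1176) (nat_lit 0) (XT.nd (nat_lit 564) (nat_lit 672) (nat_lit 0) (XT.nd (nat_lit 282) (nat_lit 420) (nat_lit 0) (XT.nd (nat_lit 94) (nat_lit 84) (nat_lit 0) (XT.lf (nat_lit 0) (nat_lit 8961585691) (nat_lit 336) (nat_lit 60342718971) (nat_lit 420) (nat_lit 5375360872) (nat_lit 53) (nat_lit 5) (nat_lit 57) (nat_lit 5) (nat_lit 58) (nat_lit 5) (nat_lit 396) (nat_lit 361) (nat_lit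 104)) (XT.nd (nat_lit 94) (nat_lit 84) (nat_lit 0) (XT.lf (nat_lit 0) (nat_lit 34762892522) (nat_lit 336) (nat_lit 41413666935) (nat_lit 420) (nat_lit 62709191) (nat_lit 53) (nat_lit 5) (nat_lit 57) (nat_lit 5) (nat_lit 58) (nat_lit 5) (nat_lit 397) (nat_lit 361) (nat_lit 103)) (XT.lf (nat_lit 0) (nat_lit 5305021250) (nat_lit 420) (nat_lit 16537467665) (nat_lit 84) (nat_lit 56003083977) (nat_lit 52) (nat_lit 5) (nat_lit 57) (nat_lit 5) (nat_lit 53) (nat_lit 5) (nat_lit 398) (nat_lit 361) (nat_lit 102)))) (XT.nd (nat_lit 94) (nat_lit 0) (nat_lit 0) (XT.lf (nat_lit 0) (nat_lit 9361971493) (nat_lit 420) (nat_lit 1568244173) (nat_lit 504) (nat_lit 68568575995) (nat_lit 47) (nat_lit 5) (nat_lit 52) (nat_lit 5) (nat_lit 53) (nat_lit 5) (nat_lit 399) (nat_lit 361) (nat_lit 101)) (XT.nd (nat_lit 94) (nat_lit 0) (nat_lit 0) (XT.lf (nat_lit 0) (nat_lit 17095478673) (nat_lit 504) (nat_lit 44977164708)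 (nat_lit 84) (nat_lit 19119282799) (nat_lit 47) (nat_lit 5) (nat_lit 53) (nat_lit 5) (nat_lit 48) (nat_lit 5) (nat_lit 400) (nat_lit 361) (nat_lit 100)) (XT.lf (nat_lit 0) (nat_lit 23467423380) (nat_lit 504) (nat_lit 19054150683) (nat_lit 84) (nat_lit 40415493701) (nat_lit 47) (nat_lit 5) (nat_lit 53) (nat_lit 5) (nat_lit 48) (nat_lit 5) (nat_lit 401) (nat_lit 361) (nat_lit 99))))) (XT.nd (nat_lit 282) (nat_lit 336) (nat_lit 0) (XT.nd (nat_lit 94) (nat_lit 0) (nat_lit 0) (XT.lf (nat_lit 0) (nat_lit 7829692908) (nat_lit 336) (nat_lit 22284410546) (nat_lit 420) (nat_lit 54619814071) (nat_lit 43) (nat_lit 5) (nat_lit 47) (nat_lit 5) (nat_lit 48) (nat_lit 5) (nat_lit 402) (nat_lit 361) (nat_lit 98)) (XT.nd (nat_lit 94) (nat_lit 0) (nat_lit 0) (XT.lf (nat_lit 0) (nat_lit 35950344319) (nat_lit 336) (nat_lit 1214914881) (nat_lit 420) (nat_lit 49415061224) (nat_lit 43) (nat_lit 5) (nat_lit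 47) (nat_lit 5) (nat_lit 48) (nat_lit 5) (nat_lit 403) (nat_lit 361) (nat_lit 97)) (XT.lf (nat_lit 0) (nat_lit 44637995451) (nat_lit 420) (nat_lit 23745193653) (nat_lit 84) (nat_lit 20094481892) (nat_lit 43) (nat_lit 5) (nat_lit 48) (nat_lit 5) (nat_lit 44) (nat_lit 5) (nat_lit 404) (nat_lit 361) (nat_lit 96)))) (XT.nd (nat_lit 94) (nat_lit 0) (nat_lit 0) (XT.lf (nat_lit 0) (nat_lit 4041506075) (nat_lit 336) (nat_lit 48352967185) (nat_lit 420) (nat_lit 38037753444) (nat_lit 39) (nat_lit 5) (nat_lit 43) (nat_lit 5) (nat_lit 44) (nat_lit 5) (nat_lit 405) (nat_lit 361) (nat_lit 95)) (XT.nd (nat_lit 94) (nat_lit 0) (nat_lit 0) (XT.lf (nat_lit 0) (nat_lit 33192471713) (nat_lit 336) (nat_lit 27446357996) (nat_lit 420) (nat_lit 31800875567) (nat_lit 39) (nat_lit 5) (nat_lit 43) (nat_lit 5) (nat_lit 44) (nat_lit 5) (nat_lit 406) (nat_lit 361) (nat_lit 94)) (XT.lf (nat_lit 0) (nat_lit 63246625131)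 (nat_lit 336) (nat_lit 5891725509) (nat_lit 420) (nat_lit 25371079611) (nat_lit 39) (nat_lit 5) (nat_lit 43) (nat_lit 5) (nat_lit 44) (nat_lit 5) (nat_lit 407) (nat_lit 361) (nat_lit 93)))))) (XT.nd (nat_lit 564) (nat_lit 504) (nat_lit 0) (XT.nd (nat_lit 282) (nat_lit 420) (nat_lit 0) (XT.nd (nat_lit 94) (nat_lit 252) (nat_lit 0) (XT.lf (nat_lit 0) (nat_lit 78062964255) (nat_lit 420) (nat_lit 2573356639) (nat_lit 84) (nat_lit 16001987762) (nat_lit 39) (nat_lit 5) (nat_lit 44) (nat_lit 5) (nat_lit 40) (nat_lit 5) (nat_lit 408) (nat_lit 361) (nat_lit 92)) (XT.nd (nat_lit 94) (nat_lit 0) (nat_lit 0) (XT.lf (nat_lit 0) (nat_lit 27498769223) (nat_lit 252) (nat_lit 60098134345) (nat_lit 336) (nat_lit 11225967911) (nat_lit 36) (nat_lit 5) (nat_lit 39) (nat_lit 5) (nat_lit 40) (nat_lit 5) (nat_lit 409) (nat_lit 361) (nat_lit 91)) (XT.lf (nat_lit 0) (nat_lit 58557213668) (nat_lit 252) (nat_lit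 38895661852) (nat_lit 336) (nat_lit 3621461015) (nat_lit 36) (nat_lit 5) (nat_lit 39) (nat_lit 5) (nat_lit 40) (nat_lit 5) (nat_lit 410) (nat_lit 361) (nat_lit 90)))) (XT.nd (nat_lit 94) (nat_lit 336) (nat_lit 0) (XT.lf (nat_lit 0) (nat_lit 4133412480) (nat_lit 336) (nat_lit 12859444227) (nat_lit 84) (nat_lit 86401456097) (nat_lit 35) (nat_lit 5) (nat_lit 39) (nat_lit 5) (nat_lit 36) (nat_lit 5) (nat_lit 411) (nat_lit 361) (nat_lit 89)) (XT.nd (nat_lit 94) (nat_lit 0) (nat_lit 0) (XT.lf (nat_lit 0) (nat_lit 12289745065) (nat_lit 420) (nat_lit 87793504649) (nat_lit 84) (nat_lit 5694487135) (nat_lit 31) (nat_lit 5) (nat_lit 36) (nat_lit 5) (nat_lit 32) (nat_lit 5) (nat_lit 412) (nat_lit 361) (nat_lit 88)) (XT.lf (nat_lit 0) (nat_lit 21007962773) (nat_lit 420) (nat_lit 58349839000) (nat_lit 84) (nat_lit 28867666550) (nat_lit 31) (nat_lit 5) (nat_lit 36) (nat_lit 5) (nat_lit 32) (nat_lit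 5) (nat_lit 413) (nat_lit 361) (nat_lit 87))))) (XT.nd (nat_lit 282) (nat_lit 252) (nat_lit 0) (XT.nd (nat_lit 94) (nat_lit 252) (nat_lit 0) (XT.lf (nat_lit 0) (nat_lit 29996098787) (nat_lit 420) (nat_lit 27993865170) (nat_lit 84) (nat_lit 52759127699) (nat_lit 31) (nat_lit 5) (nat_lit 36) (nat_lit 5) (nat_lit 32) (nat_lit 5) (nat_lit 414) (nat_lit 361) (nat_lit 86)) (XT.nd (nat_lit 94) (nat_lit 0) (nat_lit 0) (XT.lf (nat_lit 0) (nat_lit 3370622316) (nat_lit 252) (nat_lit 35925345666) (nat_lit 336) (nat_lit 74053954599) (nat_lit 28) (nat_lit 5) (nat_lit 31) (nat_lit 5) (nat_lit 32) (nat_lit 5) (nat_lit 415) (nat_lit 361) (nat_lit 85)) (XT.lf (nat_lit 0) (nat_lit 36300436462) (nat_lit 252) (nat_lit 12875565035) (nat_lit 336) (nat_lit 66846331205) (nat_lit 28) (nat_lit 5) (nat_lit 31) (nat_lit 5) (nat_lit 32) (nat_lit 5) (nat_lit 416) (nat_lit 361) (nat_lit 84)))) (XT.nd (nat_lit 188)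 (nat_lit 252) (nat_lit 0) (XT.nd (nat_lit 94) (nat_lit 0) (nat_lit 0) (XT.lf (nat_lit 0) (nat_lit 59470012712) (nat_lit 336) (nat_lit 48634955657) (nat_lit 84) (nat_lit 10669281888) (nat_lit 28) (nat_lit 5) (nat_lit 32) (nat_lit 5) (nat_lit 29) (nat_lit 5) (nat_lit 417) (nat_lit 361) (nat_lit 83)) (XT.lf (nat_lit 0) (nat_lit 70214513498) (nat_lit 336) (nat_lit 16716419007) (nat_lit 84) (nat_lit 34676473396) (nat_lit 28) (nat_lit 5) (nat_lit 32) (nat_lit 5) (nat_lit 29) (nat_lit 5) (nat_lit 418) (nat_lit 361) (nat_lit 82))) (XT.nd (nat_lit 94) (nat_lit 0) (nat_lit 0) (XT.lf (nat_lit 0) (nat_lit 16524116450) (nat_lit 252) (nat_lit 64931596486) (nat_lit 336) (nat_lit 43067605478) (nat_lit 25) (nat_lit 5) (nat_lit 28) (nat_lit 5) (nat_lit 29) (nat_lit 5) (nat_lit 419) (nat_lit 361) (nat_lit 81)) (XT.lf (nat_lit 0) (nat_lit 51149091906) (nat_lit 252) (nat_lit 42070485789) (nat_lit 336)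 (nat_lit 34304647891) (nat_lit 25) (nat_lit 5) (nat_lit 28) (nat_lit 5) (nat_lit 29) (nat_lit 5) (nat_lit 420) (nat_lit 361) (nat_lit 80))))))))
noncomputable def xc226 : XT := (XT.nd (nat_lit 2256) (nat_lit 3612) (nat_lit 0) (XT.nd (nat_lit 1128) (nat_lit 1176) (nat_lit 0) (XT.nd (nat_lit 564) (nat_lit 0) (nat_lit 168) (XT.nd (nat_lit 282) (nat_lit 0) (nat_lit 84) (XT.nd (nat_lit 94) (nat_lit 0) (nat_lit 0) (XT.lf (nat_lit 0) (nat_lit 11458812293) (nat_lit 1092) (nat_lit 4534019152) (nat_lit 1092) (nat_lit 4534019152) (nat_lit 93) (nat_lit 3) (nat_lit 106) (nat_lit 3) (nat_lit 106) (nat_lit 5) (nat_lit 362) (nat_lit 362) (nat_lit 137)) (XT.nd (nat_lit 94) (nat_lit 0) (nat_lit 0) (XT.lf (nat_lit 84) (nat_lit 5352209573) (nat_lit 0) (nat_lit 18005320574) (nat_lit 1092) (nat_lit 18329703147) (nat_lit 94) (nat_lit 5) (nat_lit 93) (nat_lit 3) (nat_lit 106) (nat_lit 5) (nat_lit 363) (nat_lit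 362) (nat_lit 136)) (XT.lf (nat_lit 84) (nat_lit 20411049538) (nat_lit 0) (nat_lit 3493395437) (nat_lit 1092) (nat_lit 18433072427) (nat_lit 94) (nat_lit 5) (nat_lit 93) (nat_lit 3) (nat_lit 106) (nat_lit 5) (nat_lit 364) (nat_lit 362) (nat_lit 135)))) (XT.nd (nat_lit 94) (nat_lit 0) (nat_lit 0) (XT.lf (nat_lit 0) (nat_lit 24580846885) (nat_lit 1008) (nat_lit 7185718872) (nat_lit 1092) (nat_lit 11237912891) (nat_lit 94) (nat_lit 5) (nat_lit 106) (nat_lit 5) (nat_lit 107) (nat_lit 5) (nat_lit 365) (nat_lit 362) (nat_lit 134)) (XT.nd (nat_lit 94) (nat_lit 0) (nat_lit 0) (XT.lf (nat_lit 84) (nat_lit 8139575446) (nat_lit 0) (nat_lit 17253918542) (nat_lit 1092) (nat_lit 18295054765) (nat_lit 95) (nat_lit 5) (nat_lit 94) (nat_lit 5) (nat_lit 107) (nat_lit 5) (nat_lit 366) (nat_lit 362) (nat_lit 133)) (XT.lf (nat_lit 84) (nat_lit 24091611287) (nat_lit 0) (nat_lit 2213557269) (nat_lit 1092)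 (nat_lit 18086374016) (nat_lit 95) (nat_lit 5) (nat_lit 94) (nat_lit 5) (nat_lit 107) (nat_lit 5) (nat_lit 367) (nat_lit 362) (nat_lit 132))))) (XT.nd (nat_lit 282) (nat_lit 0) (nat_lit 84) (XT.nd (nat_lit 94) (nat_lit 0) (nat_lit 0) (XT.lf (nat_lit 0) (nat_lit 27375844912) (nat_lit 1008) (nat_lit 4710739581) (nat_lit 1092) (nat_lit 13025698017) (nat_lit 95) (nat_lit 5) (nat_lit 107) (nat_lit 5) (nat_lit 108) (nat_lit 5) (nat_lit 368) (nat_lit 362) (nat_lit 131)) (XT.nd (nat_lit 94) (nat_lit 0) (nat_lit 0) (XT.lf (nat_lit 84) (nat_lit 11571537512) (nat_lit 0) (nat_lit 17044510352) (nat_lit 1092) (nat_lit 17235097174) (nat_lit 96) (nat_lit 5) (nat_lit 95) (nat_lit 5) (nat_lit 108) (nat_lit 5) (nat_lit 369) (nat_lit 362) (nat_lit 130)) (XT.lf (nat_lit 84) (nat_lit 28457756529) (nat_lit 0) (nat_lit 1485042341) (nat_lit 1092) (nat_lit 16668628156) (nat_lit 96) (nat_lit 5) (nat_lit 95)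 (nat_lit 5) (nat_lit 108) (nat_lit 5) (nat_lit 370) (nat_lit 362) (nat_lit 129)))) (XT.nd (nat_lit 94) (nat_lit 0) (nat_lit 0) (XT.lf (nat_lit 0) (nat_lit 31454051343) (nat_lit 1008) (nat_lit 1672929612) (nat_lit 1092) (nat_lit 14263857961) (nat_lit 96) (nat_lit 5) (nat_lit 108) (nat_lit 5) (nat_lit 109) (nat_lit 5) (nat_lit 371) (nat_lit 362) (nat_lit 128)) (XT.nd (nat_lit 94) (nat_lit 0) (nat_lit 0) (XT.lf (nat_lit 84) (nat_lit 15617509424) (nat_lit 0) (nat_lit 17563757621) (nat_lit 1092) (nat_lit 15007908510) (nat_lit 97) (nat_lit 5) (nat_lit 96) (nat_lit 5) (nat_lit 109) (nat_lit 5) (nat_lit 372) (nat_lit 362) (nat_lit 127)) (XT.lf (nat_lit 84) (nat_lit 33478749792) (nat_lit 0) (nat_lit 1499760381) (nat_lit 1092) (nat_lit 14033244823) (nat_lit 97) (nat_lit 5) (nat_lit 96) (nat_lit 5) (nat_lit 109) (nat_lit 5) (nat_lit 373) (nat_lit 362) (nat_lit 126)))))) (XT.nd (nat_lit 564) (nat_lit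 1512) (nat_lit 0) (XT.nd (nat_lit 282) (nat_lit 0) (nat_lit 84) (XT.nd (nat_lit 94) (nat_lit 0) (nat_lit 0) (XT.lf (nat_lit 84) (nat_lit 1922483841) (nat_lit 0) (nat_lit 35076528556) (nat_lit 1092) (nat_lit 12855633321) (nat_lit 98) (nat_lit 5) (nat_lit 97) (nat_lit 5) (nat_lit 110) (nat_lit 5) (nat_lit 374) (nat_lit 362) (nat_lit 125)) (XT.nd (nat_lit 94) (nat_lit 0) (nat_lit 0) (XT.lf (nat_lit 84) (nat_lit 20232052068) (nat_lit 0) (nat_lit 19026490465) (nat_lit 1092) (nat_lit 11459660401) (nat_lit 98) (nat_lit 5) (nat_lit 97) (nat_lit 5) (nat_lit 110) (nat_lit 5) (nat_lit 375) (nat_lit 362) (nat_lit 124)) (XT.lf (nat_lit 84) (nat_lit 39108559194) (nat_lit 0) (nat_lit 2478662593) (nat_lit 1092) (nat_lit 10021341314) (nat_lit 98) (nat_lit 5) (nat_lit 97) (nat_lit 5) (nat_lit 110) (nat_lit 5) (nat_lit 376) (nat_lit 362) (nat_lit 123)))) (XT.nd (nat_lit 94) (nat_lit 0) (nat_lit 0) (XT.lf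 (nat_lit 84) (nat_lit 6019667856) (nat_lit 0) (nat_lit 38171927735) (nat_lit 1092) (nat_lit 8328624916) (nat_lit 99) (nat_lit 5) (nat_lit 98) (nat_lit 5) (nat_lit 111) (nat_lit 5) (nat_lit 377) (nat_lit 362) (nat_lit 122)) (XT.nd (nat_lit 94) (nat_lit 0) (nat_lit 0) (XT.lf (nat_lit 84) (nat_lit 25351905677) (nat_lit 0) (nat_lit 21679520347) (nat_lit 1092) (nat_lit 6423921520) (nat_lit 99) (nat_lit 5) (nat_lit 98) (nat_lit 5) (nat_lit 111) (nat_lit 5) (nat_lit 378) (nat_lit 362) (nat_lit 121)) (XT.lf (nat_lit 84) (nat_lit 45282797741) (nat_lit 0) (nat_lit 4675671347) (nat_lit 1092) (nat_lit 4461024379) (nat_lit 99) (nat_lit 5) (nat_lit 98) (nat_lit 5) (nat_lit 111) (nat_lit 5) (nat_lit 379) (nat_lit 362) (nat_lit 120))))) (XT.nd (nat_lit 282) (nat_lit 588) (nat_lit 0) (XT.nd (nat_lit 94) (nat_lit 84) (nat_lit 0) (XT.lf (nat_lit 0) (nat_lit 10501417074) (nat_lit 1008) (nat_lit 42705739219)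 (nat_lit 1092) (nat_lit 2199217871) (nat_lit 87) (nat_lit 5) (nat_lit 99) (nat_lit 5) (nat_lit 100) (nat_lit 5) (nat_lit 380) (nat_lit 362) (nat_lit 119)) (XT.nd (nat_lit 94) (nat_lit 0) (nat_lit 0) (XT.lf (nat_lit 0) (nat_lit 273405528) (nat_lit 1092) (nat_lit 25529670342) (nat_lit 84) (nat_lit 30616290944) (nat_lit 86) (nat_lit 5) (nat_lit 99) (nat_lit 5) (nat_lit 87) (nat_lit 5) (nat_lit 381) (nat_lit 362) (nat_lit 118)) (XT.lf (nat_lit 0) (nat_lit 2776230801) (nat_lit 1092) (nat_lit 5576892540) (nat_lit 84) (nat_lit 49109969329) (nat_lit 86) (nat_lit 5) (nat_lit 99) (nat_lit 5) (nat_lit 87) (nat_lit 5) (nat_lit 382) (nat_lit 362) (nat_lit 117)))) (XT.nd (nat_lit 94) (nat_lit 0) (nat_lit 0) (XT.lf (nat_lit 0) (nat_lit 5604860462) (nat_lit 672) (nat_lit 43329562762) (nat_lit 84) (nat_lit 9597059916) (nat_lit 79) (nat_lit 5) (nat_lit 87) (nat_lit 5) (nat_lit 80) (nat_lit 5) (nat_lit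 383) (nat_lit 362) (nat_lit 116)) (XT.nd (nat_lit 94) (nat_lit 0) (nat_lit 0) (XT.lf (nat_lit 0) (nat_lit 8664690842) (nat_lit 672) (nat_lit 22974765012) (nat_lit 84) (nat_lit 27989092668) (nat_lit 79) (nat_lit 5) (nat_lit 87) (nat_lit 5) (nat_lit 80) (nat_lit 5) (nat_lit 384) (nat_lit 362) (nat_lit 115)) (XT.lf (nat_lit 0) (nat_lit 11818671515) (nat_lit 672) (nat_lit 1989600315) (nat_lit 84) (nat_lit 46951376543) (nat_lit 79) (nat_lit 5) (nat_lit 87) (nat_lit 5) (nat_lit 80) (nat_lit 5) (nat_lit 385) (nat_lit 362) (nat_lit 114))))))) (XT.nd (nat_lit 1128) (nat_lit 1428) (nat_lit 0) (XT.nd (nat_lit 564) (nat_lit 756) (nat_lit 0) (XT.nd (nat_lit 282) (nat_lit 420) (nat_lit 0) (XT.nd (nat_lit 94) (nat_lit 504) (nat_lit 0) (XT.lf (nat_lit 0) (nat_lit 15316061488) (nat_lit 588) (nat_lit 41917654224) (nat_lit 84) (nat_lit 4684485392) (nat_lit 73) (nat_lit 5) (nat_lit 80) (nat_lit 5) (nat_lit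 74) (nat_lit 5) (nat_lit 386) (nat_lit 362) (nat_lit 113)) (XT.nd (nat_lit 94) (nat_lit 504) (nat_lit 0) (XT.lf (nat_lit 0) (nat_lit 19083408312) (nat_lit 588) (nat_lit 20539527924) (nat_lit 84) (nat_lit 23484728454) (nat_lit 73) (nat_lit 5) (nat_lit 80) (nat_lit 5) (nat_lit 74) (nat_lit 5) (nat_lit 387) (nat_lit 362) (nat_lit 112)) (XT.lf (nat_lit 0) (nat_lit 1531565583) (nat_lit 504) (nat_lit 21450522588) (nat_lit 588) (nat_lit 41351465861) (nat_lit 67) (nat_lit 5) (nat_lit 73) (nat_lit 5) (nat_lit 74) (nat_lit 5) (nat_lit 388) (nat_lit 362) (nat_lit 111)))) (XT.nd (nat_lit 94) (nat_lit 420) (nat_lit 0) (XT.lf (nat_lit 0) (nat_lit 24721684048) (nat_lit 504) (nat_lit 2493699041) (nat_lit 588) (nat_lit 38375439610) (nat_lit 67) (nat_lit 5) (nat_lit 73) (nat_lit 5) (nat_lit 74) (nat_lit 5) (nat_lit 389) (nat_lit 362) (nat_lit 110)) (XT.nd (nat_lit 94) (nat_lit 420) (nat_lit 0) (XT.lf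 (nat_lit 0) (nat_lit 31748440850) (nat_lit 588) (nat_lit 18426126783) (nat_lit 84) (nat_lit 16707277706) (nat_lit 67) (nat_lit 5) (nat_lit 74) (nat_lit 5) (nat_lit 68) (nat_lit 5) (nat_lit 390) (nat_lit 362) (nat_lit 109)) (XT.lf (nat_lit 0) (nat_lit 4782886266) (nat_lit 420) (nat_lit 31711491920) (nat_lit 504) (nat_lit 31716271496) (nat_lit 62) (nat_lit 5) (nat_lit 67) (nat_lit 5) (nat_lit 68) (nat_lit 5) (nat_lit 391) (nat_lit 362) (nat_lit 108))))) (XT.nd (nat_lit 282) (nat_lit 336) (nat_lit 0) (XT.nd (nat_lit 94) (nat_lit 420) (nat_lit 0) (XT.lf (nat_lit 0) (nat_lit 29101416908) (nat_lit 420) (nat_lit 12477769062) (nat_lit 504) (nat_lit 27995519764) (nat_lit 62) (nat_lit 5) (nat_lit 67) (nat_lit 5) (nat_lit 68) (nat_lit 5) (nat_lit 392) (nat_lit 362) (nat_lit 107)) (XT.nd (nat_lit 94) (nat_lit 420) (nat_lit 0) (XT.lf (nat_lit 0) (nat_lit 46893990503) (nat_lit 504) (nat_lit 16880749036)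 (nat_lit 84) (nat_lit 7204067411) (nat_lit 62) (nat_lit 5) (nat_lit 68) (nat_lit 5) (nat_lit 63) (nat_lit 5) (nat_lit 393) (nat_lit 362) (nat_lit 106)) (XT.lf (nat_lit 0) (nat_lit 7465380972) (nat_lit 420) (nat_lit 45109298761) (nat_lit 504) (nat_lit 19845523409) (nat_lit 57) (nat_lit 5) (nat_lit 62) (nat_lit 5) (nat_lit 63) (nat_lit 5) (nat_lit 394) (nat_lit 362) (nat_lit 105)))) (XT.nd (nat_lit 94) (nat_lit 336) (nat_lit 0) (XT.lf (nat_lit 0) (nat_lit 32923538720) (nat_lit 420) (nat_lit 25683592965) (nat_lit 504) (nat_lit 15293708086) (nat_lit 57) (nat_lit 5) (nat_lit 62) (nat_lit 5) (nat_lit 63) (nat_lit 5) (nat_lit 395) (nat_lit 362) (nat_lit 104)) (XT.nd (nat_lit 94) (nat_lit 336) (nat_lit 0) (XT.lf (nat_lit 0) (nat_lit 59170351056) (nat_lit 420) (nat_lit 5655715758) (nat_lit 504) (nat_lit 10601328106) (nat_lit 57) (nat_lit 5) (nat_lit 62) (nat_lit 5) (nat_lit 63) (nat_lit 5)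 (nat_lit 396) (nat_lit 362) (nat_lit 103)) (XT.lf (nat_lit 0) (nat_lit 9266967579) (nat_lit 336) (nat_lit 62210976130) (nat_lit 420) (nat_lit 5515887271) (nat_lit 53) (nat_lit 5) (nat_lit 57) (nat_lit 5) (nat_lit 58) (nat_lit 5) (nat_lit 397) (nat_lit 362) (nat_lit 102)))))) (XT.nd (nat_lit 564) (nat_lit 588) (nat_lit 0) (XT.nd (nat_lit 282) (nat_lit 336) (nat_lit 0) (XT.nd (nat_lit 94) (nat_lit 504) (nat_lit 0) (XT.lf (nat_lit 0) (nat_lit 35867285868) (nat_lit 336) (nat_lit 42695194656) (nat_lit 420) (nat_lit 39328454) (nat_lit 53) (nat_lit 5) (nat_lit 57) (nat_lit 5) (nat_lit 58) (nat_lit 5) (nat_lit 398) (nat_lit 362) (nat_lit 101)) (XT.nd (nat_lit 94) (nat_lit 420) (nat_lit 0) (XT.lf (nat_lit 0) (nat_lit 5493545274) (nat_lit 420) (nat_lit 17023582653) (nat_lit 84) (nat_lit 57740799543) (nat_lit 52) (nat_lit 5) (nat_lit 57) (nat_lit 5) (nat_lit 53) (nat_lit 5) (nat_lit 399) (nat_lit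 362) (nat_lit 100)) (XT.lf (nat_lit 0) (nat_lit 9678470360) (nat_lit 420) (nat_lit 1614187352) (nat_lit 504) (nat_lit 70669756032) (nat_lit 47) (nat_lit 5) (nat_lit 52) (nat_lit 5) (nat_lit 53) (nat_lit 5) (nat_lit 400) (nat_lit 362) (nat_lit 99)))) (XT.nd (nat_lit 94) (nat_lit 336) (nat_lit 0) (XT.lf (nat_lit 0) (nat_lit 17648359820) (nat_lit 504) (nat_lit 46345179705) (nat_lit 84) (nat_lit 19714520380) (nat_lit 47) (nat_lit 5) (nat_lit 53) (nat_lit 5) (nat_lit 48) (nat_lit 5) (nat_lit 401) (nat_lit 362) (nat_lit 98)) (XT.nd (nat_lit 94) (nat_lit 336) (nat_lit 0) (XT.lf (nat_lit 0) (nat_lit 24217145618) (nat_lit 504) (nat_lit 19619342343) (nat_lit 84) (nat_lit 41670837453) (nat_lit 47) (nat_lit 5) (nat_lit 53) (nat_lit 5) (nat_lit 48) (nat_lit 5) (nat_lit 402) (nat_lit 362) (nat_lit 97)) (XT.lf (nat_lit 0) (nat_lit 8097642367) (nat_lit 336) (nat_lit 22971812209) (nat_lit 420) (nat_lit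 56290438980) (nat_lit 43) (nat_lit 5) (nat_lit 47) (nat_lit 5) (nat_lit 48) (nat_lit 5) (nat_lit 403) (nat_lit 362) (nat_lit 96))))) (XT.nd (nat_lit 282) (nat_lit 252) (nat_lit 0) (XT.nd (nat_lit 94) (nat_lit 336) (nat_lit 0) (XT.lf (nat_lit 0) (nat_lit 37089275389) (nat_lit 336) (nat_lit 1249264863) (nat_lit 420) (nat_lit 50925018008) (nat_lit 43) (nat_lit 5) (nat_lit 47) (nat_lit 5) (nat_lit 48) (nat_lit 5) (nat_lit 404) (nat_lit 362) (nat_lit 95)) (XT.nd (nat_lit 94) (nat_lit 336) (nat_lit 0) (XT.lf (nat_lit 0) (nat_lit 46042327021) (nat_lit 420) (nat_lit 24456862420) (nat_lit 84) (nat_lit 20720558884) (nat_lit 43) (nat_lit 5) (nat_lit 48) (nat_lit 5) (nat_lit 44) (nat_lit 5) (nat_lit 405) (nat_lit 362) (nat_lit 94)) (XT.lf (nat_lit 0) (nat_lit 4190977644) (nat_lit 336) (nat_lit 49847899908) (nat_lit 420) (nat_lit 39196032235) (nat_lit 39) (nat_lit 5) (nat_lit 43) (nat_lit 5) (nat_lit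 44) (nat_lit 5) (nat_lit 406) (nat_lit 362) (nat_lit 93)))) (XT.nd (nat_lit 188) (nat_lit 252) (nat_lit 0) (XT.nd (nat_lit 94) (nat_lit 0) (nat_lit 0) (XT.lf (nat_lit 0) (nat_lit 34244896028) (nat_lit 336) (nat_lit 28293306384) (nat_lit 420) (nat_lit 32766439309) (nat_lit 39) (nat_lit 5) (nat_lit 43) (nat_lit 5) (nat_lit 44) (nat_lit 5) (nat_lit 407) (nat_lit 362) (nat_lit 92)) (XT.lf (nat_lit 0) (nat_lit 65230022879) (nat_lit 336) (nat_lit 6070597215) (nat_lit 420) (nat_lit 26137928957) (nat_lit 39) (nat_lit 5) (nat_lit 43) (nat_lit 5) (nat_lit 44) (nat_lit 5) (nat_lit 408) (nat_lit 362) (nat_lit 91))) (XT.nd (nat_lit 94) (nat_lit 252) (nat_lit 0) (XT.lf (nat_lit 0) (nat_lit 80501362316) (nat_lit 420) (nat_lit 2630445446) (nat_lit 84) (nat_lit 16501634049) (nat_lit 39) (nat_lit 5) (nat_lit 44) (nat_lit 5) (nat_lit 40) (nat_lit 5) (nat_lit 409) (nat_lit 362) (nat_lit 90)) (XT.lf (nat_lit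 0) (nat_lit 28373686650) (nat_lit 252) (nat_lit 61956835224) (nat_lit 336) (nat_lit 11555216981) (nat_lit 36) (nat_lit 5) (nat_lit 39) (nat_lit 5) (nat_lit 40) (nat_lit 5) (nat_lit 410) (nat_lit 362) (nat_lit 89))))))))
noncomputable def xc227 : XT := (XT.nd (nat_lit 50854) (nat_lit 0) (nat_lit 1848) (XT.nd (nat_lit 49726) (nat_lit 0) (nat_lit 5712) (XT.nd (nat_lit 564) (nat_lit 252) (nat_lit 0) (XT.nd (nat_lit 282) (nat_lit 252) (nat_lit 0) (XT.nd (nat_lit 94) (nat_lit 420) (nat_lit 0) (XT.lf (nat_lit 0) (nat_lit 60394267680) (nat_lit 252) (nat_lit 40097216617) (nat_lit 336) (nat_lit 3715534323) (nat_lit 36) (nat_lit 5) (nat_lit 39) (nat_lit 5) (nat_lit 40) (nat_lit 5) (nat_lit 411) (nat_lit 362) (nat_lit 88)) (XT.nd (nat_lit 94) (nat_lit 336) (nat_lit 0) (XT.lf (nat_lit 0) (nat_lit 4278837748) (nat_lit 336) (nat_lit 13236532905) (nat_lit 84) (nat_lit 89083556786) (nat_lit 35) (nat_lit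 5) (nat_lit 39) (nat_lit 5) (nat_lit 36) (nat_lit 5) (nat_lit 412) (nat_lit 362) (nat_lit 87)) (XT.lf (nat_lit 0) (nat_lit 12687751638) (nat_lit 420) (nat_lit 90493213305) (nat_lit 84) (nat_lit 5875283099) (nat_lit 31) (nat_lit 5) (nat_lit 36) (nat_lit 5) (nat_lit 32) (nat_lit 5) (nat_lit 413) (nat_lit 362) (nat_lit 86)))) (XT.nd (nat_lit 94) (nat_lit 252) (nat_lit 0) (XT.lf (nat_lit 0) (nat_lit 21675722204) (nat_lit 420) (nat_lit 60137452207) (nat_lit 84) (nat_lit 29766702781) (nat_lit 31) (nat_lit 5) (nat_lit 36) (nat_lit 5) (nat_lit 32) (nat_lit 5) (nat_lit 414) (nat_lit 362) (nat_lit 85)) (XT.nd (nat_lit 94) (nat_lit 252) (nat_lit 0) (XT.lf (nat_lit 0) (nat_lit 30941993936) (nat_lit 420) (nat_lit 28841081584) (nat_lit 84) (nat_lit 54398674788) (nat_lit 31) (nat_lit 5) (nat_lit 36) (nat_lit 5) (nat_lit 32) (nat_lit 5) (nat_lit 415) (nat_lit 362) (nat_lit 84)) (XT.lf (nat_lit 0)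 (nat_lit 3495496525) (nat_lit 252) (nat_lit 37034383203) (nat_lit 336) (nat_lit 76333337929) (nat_lit 28) (nat_lit 5) (nat_lit 31) (nat_lit 5) (nat_lit 32) (nat_lit 5) (nat_lit 416) (nat_lit 362) (nat_lit 83))))) (XT.nd (nat_lit 282) (nat_lit 252) (nat_lit 0) (XT.nd (nat_lit 94) (nat_lit 0) (nat_lit 0) (XT.lf (nat_lit 0) (nat_lit 37445521978) (nat_lit 252) (nat_lit 13270199133) (nat_lit 336) (nat_lit 68902767994) (nat_lit 28) (nat_lit 5) (nat_lit 31) (nat_lit 5) (nat_lit 32) (nat_lit 5) (nat_lit 417) (nat_lit 362) (nat_lit 82)) (XT.nd (nat_lit 94) (nat_lit 0) (nat_lit 0) (XT.lf (nat_lit 0) (nat_lit 61328431109) (nat_lit 336) (nat_lit 50122985381) (nat_lit 84) (nat_lit 11004314382) (nat_lit 28) (nat_lit 5) (nat_lit 32) (nat_lit 5) (nat_lit 29) (nat_lit 5) (nat_lit 418) (nat_lit 362) (nat_lit 81)) (XT.lf (nat_lit 0) (nat_lit 72405564971) (nat_lit 336) (nat_lit 17215565046) (nat_lit 84)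 (nat_lit 35755599994) (nat_lit 28) (nat_lit 5) (nat_lit 32) (nat_lit 5) (nat_lit 29) (nat_lit 5) (nat_lit 419) (nat_lit 362) (nat_lit 80)))) (XT.nd (nat_lit 48692) (nat_lit 0) (nat_lit 5712) (XT.lf (nat_lit 0) (nat_lit 17055234015) (nat_lit 252) (nat_lit 66939761746) (nat_lit 336) (nat_lit 44388049448) (nat_lit 25) (nat_lit 5) (nat_lit 28) (nat_lit 5) (nat_lit 29) (nat_lit 5) (nat_lit 420) (nat_lit 362) (nat_lit 79)) (XT.nd (nat_lit 94) (nat_lit 0) (nat_lit 0) (XT.lf (nat_lit 0) (nat_lit 11845309917) (nat_lit 1092) (nat_lit 4658365080) (nat_lit 1092) (nat_lit 4658365080) (nat_lit 93) (nat_lit 3) (nat_lit 106) (nat_lit 3) (nat_lit 106) (nat_lit 5) (nat_lit 363) (nat_lit 363) (nat_lit 135)) (XT.lf (nat_lit 84) (nat_lit 5550217206) (nat_lit 0) (nat_lit 18592382876) (nat_lit 1092) (nat_lit 18834710525) (nat_lit 94) (nat_lit 5) (nat_lit 93) (nat_lit 3) (nat_lit 106) (nat_lit 5) (nat_lit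 364) (nat_lit 363) (nat_lit 134)))))) (XT.nd (nat_lit 564) (nat_lit 0) (nat_lit 168) (XT.nd (nat_lit 282) (nat_lit 0) (nat_lit 84) (XT.nd (nat_lit 94) (nat_lit 0) (nat_lit 84) (XT.lf (nat_lit 84) (nat_lit 21074916357) (nat_lit 0) (nat_lit 3629719177) (nat_lit 1092) (nat_lit 18943184947) (nat_lit 94) (nat_lit 5) (nat_lit 93) (nat_lit 3) (nat_lit 106) (nat_lit 5) (nat_lit 365) (nat_lit 363) (nat_lit 133)) (XT.nd (nat_lit 94) (nat_lit 0) (nat_lit 0) (XT.lf (nat_lit 0) (nat_lit 25399957619) (nat_lit 1008) (nat_lit 7375923015) (nat_lit 1092) (nat_lit 11559650199) (nat_lit 94) (nat_lit 5) (nat_lit 106) (nat_lit 5) (nat_lit 107) (nat_lit 5) (nat_lit 366) (nat_lit 363) (nat_lit 132)) (XT.lf (nat_lit 84) (nat_lit 8424125856) (nat_lit 0) (nat_lit 17812273576) (nat_lit 1092) (nat_lit 18804460510) (nat_lit 95) (nat_lit 5) (nat_lit 94) (nat_lit 5) (nat_lit 107) (nat_lit 5) (nat_lit 367) (nat_lit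 363) (nat_lit 131)))) (XT.nd (nat_lit 94) (nat_lit 0) (nat_lit 84) (XT.lf (nat_lit 84) (nat_lit 24869705913) (nat_lit 0) (nat_lit 2304955003) (nat_lit 1092) (nat_lit 18591046806) (nat_lit 95) (nat_lit 5) (nat_lit 94) (nat_lit 5) (nat_lit 107) (nat_lit 5) (nat_lit 368) (nat_lit 363) (nat_lit 130)) (XT.nd (nat_lit 94) (nat_lit 0) (nat_lit 0) (XT.lf (nat_lit 0) (nat_lit 28276684444) (nat_lit 1008) (nat_lit 4824325078) (nat_lit 1092) (nat_lit 13407847184) (nat_lit 95) (nat_lit 5) (nat_lit 107) (nat_lit 5) (nat_lit 108) (nat_lit 5) (nat_lit 369) (nat_lit 363) (nat_lit 129)) (XT.lf (nat_lit 84) (nat_lit 11962374104) (nat_lit 0) (nat_lit 17591709015) (nat_lit 1092) (nat_lit 17716588303) (nat_lit 96) (nat_lit 5) (nat_lit 95) (nat_lit 5) (nat_lit 108) (nat_lit 5) (nat_lit 370) (nat_lit 363) (nat_lit 128))))) (XT.nd (nat_lit 282) (nat_lit 0) (nat_lit 84) (XT.nd (nat_lit 94) (nat_lit 0) (nat_lit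 84) (XT.lf (nat_lit 84) (nat_lit 29371100162) (nat_lit 0) (nat_lit 1549331652) (nat_lit 1092) (nat_lit 17134146237) (nat_lit 96) (nat_lit 5) (nat_lit 95) (nat_lit 5) (nat_lit 108) (nat_lit 5) (nat_lit 371) (nat_lit 363) (nat_lit 127)) (XT.nd (nat_lit 94) (nat_lit 0) (nat_lit 0) (XT.lf (nat_lit 0) (nat_lit 32476871946) (nat_lit 1008) (nat_lit 1692649338) (nat_lit 1092) (nat_lit 14688690088) (nat_lit 96) (nat_lit 5) (nat_lit 108) (nat_lit 5) (nat_lit 109) (nat_lit 5) (nat_lit 372) (nat_lit 363) (nat_lit 126)) (XT.lf (nat_lit 84) (nat_lit 16133467909) (nat_lit 0) (nat_lit 18123043450) (nat_lit 1092) (nat_lit 15424827730) (nat_lit 97) (nat_lit 5) (nat_lit 96) (nat_lit 5) (nat_lit 109) (nat_lit 5) (nat_lit 373) (nat_lit 363) (nat_lit 125)))) (XT.nd (nat_lit 94) (nat_lit 0) (nat_lit 84) (XT.lf (nat_lit 84) (nat_lit 34547450097) (nat_lit 0) (nat_lit 1560617009) (nat_lit 1092) (nat_lit 14421402528)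 (nat_lit 97) (nat_lit 5) (nat_lit 96) (nat_lit 5) (nat_lit 109) (nat_lit 5) (nat_lit 374) (nat_lit 363) (nat_lit 124)) (XT.nd (nat_lit 94) (nat_lit 0) (nat_lit 0) (XT.lf (nat_lit 84) (nat_lit 2014401596) (nat_lit 0) (nat_lit 36175625957) (nat_lit 1092) (nat_lit 13208506366) (nat_lit 98) (nat_lit 5) (nat_lit 97) (nat_lit 5) (nat_lit 110) (nat_lit 5) (nat_lit 375) (nat_lit 363) (nat_lit 123)) (XT.lf (nat_lit 84) (nat_lit 20890594621) (nat_lit 0) (nat_lit 19627684139) (nat_lit 1092) (nat_lit 11770630932) (nat_lit 98) (nat_lit 5) (nat_lit 97) (nat_lit 5) (nat_lit 110) (nat_lit 5) (nat_lit 376) (nat_lit 363) (nat_lit 122))))))) (XT.nd (nat_lit 1128) (nat_lit 2184) (nat_lit 0) (XT.nd (nat_lit 564) (nat_lit 1092) (nat_lit 0) (XT.nd (nat_lit 282) (nat_lit 924) (nat_lit 0) (XT.nd (nat_lit 94) (nat_lit 0) (nat_lit 84) (XT.lf (nat_lit 84) (nat_lit 40351330871) (nat_lit 0) (nat_lit 2566531656)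 (nat_lit 1092) (nat_lit 10289055328) (nat_lit 98) (nat_lit 5) (nat_lit 97) (nat_lit 5) (nat_lit 110) (nat_lit 5) (nat_lit 377) (nat_lit 363) (nat_lit 121)) (XT.nd (nat_lit 94) (nat_lit 0) (nat_lit 0) (XT.lf (nat_lit 84) (nat_lit 6237979788) (nat_lit 0) (nat_lit 39363954569) (nat_lit 1092) (nat_lit 8544941250) (nat_lit 99) (nat_lit 5) (nat_lit 98) (nat_lit 5) (nat_lit 111) (nat_lit 5) (nat_lit 378) (nat_lit 363) (nat_lit 120)) (XT.lf (nat_lit 84) (nat_lit 26168563762) (nat_lit 0) (nat_lit 22360021049) (nat_lit 1092) (nat_lit 6582451022) (nat_lit 99) (nat_lit 5) (nat_lit 98) (nat_lit 5) (nat_lit 111) (nat_lit 5) (nat_lit 379) (nat_lit 363) (nat_lit 119)))) (XT.nd (nat_lit 94) (nat_lit 1008) (nat_lit 0) (XT.lf (nat_lit 84) (nat_lit 46716388922) (nat_lit 0) (nat_lit 4828799090) (nat_lit 1092) (nat_lit 4559925189) (nat_lit 99) (nat_lit 5) (nat_lit 98) (nat_lit 5) (nat_lit 111) (nat_lit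 5) (nat_lit 380) (nat_lit 363) (nat_lit 118)) (XT.nd (nat_lit 94) (nat_lit 84) (nat_lit 0) (XT.lf (nat_lit 0) (nat_lit 10857934398) (nat_lit 1008) (nat_lit 44035735885) (nat_lit 1092) (nat_lit 2228951463) (nat_lit 87) (nat_lit 5) (nat_lit 99) (nat_lit 5) (nat_lit 100) (nat_lit 5) (nat_lit 381) (nat_lit 363) (nat_lit 117)) (XT.lf (nat_lit 0) (nat_lit 318416150) (nat_lit 1092) (nat_lit 26290108493) (nat_lit 84) (nat_lit 31558521651) (nat_lit 86) (nat_lit 5) (nat_lit 99) (nat_lit 5) (nat_lit 87) (nat_lit 5) (nat_lit 382) (nat_lit 363) (nat_lit 116))))) (XT.nd (nat_lit 282) (nat_lit 504) (nat_lit 0) (XT.nd (nat_lit 94) (nat_lit 588) (nat_lit 0) (XT.lf (nat_lit 0) (nat_lit 2897730475) (nat_lit 1092) (nat_lit 5719726131) (nat_lit 84) (nat_lit 50625710763) (nat_lit 86) (nat_lit 5) (nat_lit 99) (nat_lit 5) (nat_lit 87) (nat_lit 5) (nat_lit 383) (nat_lit 363) (nat_lit 115)) (XT.nd (nat_lit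 94) (nat_lit 0) (nat_lit 0) (XT.lf (nat_lit 0) (nat_lit 5813228427) (nat_lit 672) (nat_lit 44641732751) (nat_lit 84) (nat_lit 9889747653) (nat_lit 79) (nat_lit 5) (nat_lit 87) (nat_lit 5) (nat_lit 80) (nat_lit 5) (nat_lit 384) (nat_lit 363) (nat_lit 114)) (XT.lf (nat_lit 0) (nat_lit 8966872680) (nat_lit 672) (nat_lit 23656869771) (nat_lit 84) (nat_lit 28852078381) (nat_lit 79) (nat_lit 5) (nat_lit 87) (nat_lit 5) (nat_lit 80) (nat_lit 5) (nat_lit 385) (nat_lit 363) (nat_lit 113)))) (XT.nd (nat_lit 94) (nat_lit 504) (nat_lit 0) (XT.lf (nat_lit 0) (nat_lit 12217617181) (nat_lit 672) (nat_lit 2022070402) (nat_lit 84) (nat_lit 48402333659) (nat_lit 79) (nat_lit 5) (nat_lit 87) (nat_lit 5) (nat_lit 80) (nat_lit 5) (nat_lit 386) (nat_lit 363) (nat_lit 112)) (XT.nd (nat_lit 94) (nat_lit 0) (nat_lit 0) (XT.lf (nat_lit 0) (nat_lit 15822704446) (nat_lit 588) (nat_lit 43187010538) (nat_lit 84)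 (nat_lit 4826801510) (nat_lit 73) (nat_lit 5) (nat_lit 80) (nat_lit 5) (nat_lit 74) (nat_lit 5) (nat_lit 387) (nat_lit 363) (nat_lit 111)) (XT.lf (nat_lit 0) (nat_lit 19705881507) (nat_lit 588) (nat_lit 21147067095) (nat_lit 84) (nat_lit 24209939392) (nat_lit 73) (nat_lit 5) (nat_lit 80) (nat_lit 5) (nat_lit 74) (nat_lit 5) (nat_lit 388) (nat_lit 363) (nat_lit 110)))))) (XT.nd (nat_lit 564) (nat_lit 1260) (nat_lit 0) (XT.nd (nat_lit 282) (nat_lit 420) (nat_lit 0) (XT.nd (nat_lit 94) (nat_lit 0) (nat_lit 0) (XT.lf (nat_lit 0) (nat_lit 1607934827) (nat_lit 504) (nat_lit 22116843492) (nat_lit 588) (nat_lit 42602026208) (nat_lit 67) (nat_lit 5) (nat_lit 73) (nat_lit 5) (nat_lit 74) (nat_lit 5) (nat_lit 389) (nat_lit 363) (nat_lit 109)) (XT.nd (nat_lit 94) (nat_lit 0) (nat_lit 0) (XT.lf (nat_lit 0) (nat_lit 25516078281) (nat_lit 504) (nat_lit 2572317683) (nat_lit 588) (nat_lit 39534685324)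 (nat_lit 67) (nat_lit 5) (nat_lit 73) (nat_lit 5) (nat_lit 74) (nat_lit 5) (nat_lit 390) (nat_lit 363) (nat_lit 108)) (XT.lf (nat_lit 0) (nat_lit 32761083800) (nat_lit 588) (nat_lit 18969119470) (nat_lit 84) (nat_lit 17223954530) (nat_lit 67) (nat_lit 5) (nat_lit 74) (nat_lit 5) (nat_lit 68) (nat_lit 5) (nat_lit 391) (nat_lit 363) (nat_lit 107)))) (XT.nd (nat_lit 94) (nat_lit 0) (nat_lit 0) (XT.lf (nat_lit 0) (nat_lit 4959087310) (nat_lit 420) (nat_lit 32694479800) (nat_lit 504) (nat_lit 32670610192) (nat_lit 62) (nat_lit 5) (nat_lit 67) (nat_lit 5) (nat_lit 68) (nat_lit 5) (nat_lit 392) (nat_lit 363) (nat_lit 106)) (XT.nd (nat_lit 94) (nat_lit 0) (nat_lit 0) (XT.lf (nat_lit 0) (nat_lit 30030652558) (nat_lit 420) (nat_lit 12864513589) (nat_lit 504) (nat_lit 28835383087) (nat_lit 62) (nat_lit 5) (nat_lit 67) (nat_lit 5) (nat_lit 68) (nat_lit 5) (nat_lit 393) (nat_lit 363) (nat_lit 105))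 (XT.lf (nat_lit 0) (nat_lit 48373917660) (nat_lit 504) (nat_lit 17376832618) (nat_lit 84) (nat_lit 7427456525) (nat_lit 62) (nat_lit 5) (nat_lit 68) (nat_lit 5) (nat_lit 63) (nat_lit 5) (nat_lit 394) (nat_lit 363) (nat_lit 104))))) (XT.nd (nat_lit 282) (nat_lit 840) (nat_lit 0) (XT.nd (nat_lit 94) (nat_lit 0) (nat_lit 0) (XT.lf (nat_lit 0) (nat_lit 7723751845) (nat_lit 420) (nat_lit 46506435517) (nat_lit 504) (nat_lit 20434118990) (nat_lit 57) (nat_lit 5) (nat_lit 62) (nat_lit 5) (nat_lit 63) (nat_lit 5) (nat_lit 395) (nat_lit 363) (nat_lit 103)) (XT.nd (nat_lit 94) (nat_lit 0) (nat_lit 0) (XT.lf (nat_lit 0) (nat_lit 33970302332) (nat_lit 420) (nat_lit 26478570471) (nat_lit 504) (nat_lit 15741997668) (nat_lit 57) (nat_lit 5) (nat_lit 62) (nat_lit 5) (nat_lit 63) (nat_lit 5) (nat_lit 396) (nat_lit 363) (nat_lit 102)) (XT.lf (nat_lit 0) (nat_lit 61029980059) (nat_lit 420) (nat_lit 5829865569)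 (nat_lit 504) (nat_lit 10904930123) (nat_lit 57) (nat_lit 5) (nat_lit 62) (nat_lit 5) (nat_lit 63) (nat_lit 5) (nat_lit 397) (nat_lit 363) (nat_lit 101)))) (XT.nd (nat_lit 188) (nat_lit 504) (nat_lit 0) (XT.nd (nat_lit 94) (nat_lit 0) (nat_lit 0) (XT.lf (nat_lit 0) (nat_lit 9580183125) (nat_lit 336) (nat_lit 64137289470) (nat_lit 420) (nat_lit 5662316516) (nat_lit 53) (nat_lit 5) (nat_lit 57) (nat_lit 5) (nat_lit 58) (nat_lit 5) (nat_lit 398) (nat_lit 363) (nat_lit 100)) (XT.lf (nat_lit 0) (nat_lit 37004331333) (nat_lit 336) (nat_lit 44016585729) (nat_lit 420) (nat_lit 16722941) (nat_lit 53) (nat_lit 5) (nat_lit 57) (nat_lit 5) (nat_lit 58) (nat_lit 5) (nat_lit 399) (nat_lit 363) (nat_lit 99))) (XT.nd (nat_lit 94) (nat_lit 420) (nat_lit 0) (XT.lf (nat_lit 0) (nat_lit 5686487932) (nat_lit 420) (nat_lit 17526339600) (nat_lit 84) (nat_lit 59532288337) (nat_lit 52) (nat_lit 5) (nat_lit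 57) (nat_lit 5) (nat_lit 53) (nat_lit 5) (nat_lit 400) (nat_lit 363) (nat_lit 98)) (XT.lf (nat_lit 0) (nat_lit 10003224215) (nat_lit 420) (nat_lit 1661713058) (nat_lit 504) (nat_lit 72837520618) (nat_lit 47) (nat_lit 5) (nat_lit 52) (nat_lit 5) (nat_lit 53) (nat_lit 5) (nat_lit 401) (nat_lit 363) (nat_lit 97))))))))
noncomputable def xc228 : XT := (XT.nd (nat_lit 50948) (nat_lit 0) (nat_lit 3276) (XT.nd (nat_lit 1128) (nat_lit 588) (nat_lit 0) (XT.nd (nat_lit 564) (nat_lit 336) (nat_lit 0) (XT.nd (nat_lit 282) (nat_lit 336) (nat_lit 0) (XT.nd (nat_lit 94) (nat_lit 336) (nat_lit 0) (XT.lf (nat_lit 0) (nat_lit 18217022615) (nat_lit 504) (nat_lit 47757159605) (nat_lit 84) (nat_lit 20328059888) (nat_lit 47) (nat_lit 5) (nat_lit 53) (nat_lit 5) (nat_lit 48) (nat_lit 5) (nat_lit 402) (nat_lit 363) (nat_lit 96)) (XT.nd (nat_lit 94) (nat_lit 336) (nat_lit 0) (XT.lf (nat_lit 0) (nat_lit 24988792399)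 (nat_lit 504) (nat_lit 20203564583) (nat_lit 84) (nat_lit 42964950947) (nat_lit 47) (nat_lit 5) (nat_lit 53) (nat_lit 5) (nat_lit 48) (nat_lit 5) (nat_lit 403) (nat_lit 363) (nat_lit 95)) (XT.lf (nat_lit 0) (nat_lit 8372403904) (nat_lit 336) (nat_lit 23680725604) (nat_lit 420) (nat_lit 58014191265) (nat_lit 43) (nat_lit 5) (nat_lit 47) (nat_lit 5) (nat_lit 48) (nat_lit 5) (nat_lit 404) (nat_lit 363) (nat_lit 94)))) (XT.nd (nat_lit 94) (nat_lit 336) (nat_lit 0) (XT.lf (nat_lit 0) (nat_lit 38262063899) (nat_lit 336) (nat_lit 1284875891) (nat_lit 420) (nat_lit 52483081226) (nat_lit 43) (nat_lit 5) (nat_lit 47) (nat_lit 5) (nat_lit 48) (nat_lit 5) (nat_lit 405) (nat_lit 363) (nat_lit 93)) (XT.nd (nat_lit 94) (nat_lit 336) (nat_lit 0) (XT.lf (nat_lit 0) (nat_lit 47488975437) (nat_lit 420) (nat_lit 25192040083) (nat_lit 84) (nat_lit 21365857798) (nat_lit 43) (nat_lit 5) (nat_lit 48) (nat_lit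 5) (nat_lit 44) (nat_lit 5) (nat_lit 406) (nat_lit 363) (nat_lit 92)) (XT.lf (nat_lit 0) (nat_lit 4343650320) (nat_lit 336) (nat_lit 51389413020) (nat_lit 420) (nat_lit 40391455112) (nat_lit 39) (nat_lit 5) (nat_lit 43) (nat_lit 5) (nat_lit 44) (nat_lit 5) (nat_lit 407) (nat_lit 363) (nat_lit 91))))) (XT.nd (nat_lit 282) (nat_lit 336) (nat_lit 0) (XT.nd (nat_lit 94) (nat_lit 0) (nat_lit 0) (XT.lf (nat_lit 0) (nat_lit 35328556058) (nat_lit 336) (nat_lit 29166740507) (nat_lit 420) (nat_lit 33763135763) (nat_lit 39) (nat_lit 5) (nat_lit 43) (nat_lit 5) (nat_lit 44) (nat_lit 5) (nat_lit 408) (nat_lit 363) (nat_lit 90)) (XT.nd (nat_lit 94) (nat_lit 0) (nat_lit 0) (XT.lf (nat_lit 0) (nat_lit 67273558296) (nat_lit 336) (nat_lit 6255237354) (nat_lit 420) (nat_lit 26929714779) (nat_lit 39) (nat_lit 5) (nat_lit 43) (nat_lit 5) (nat_lit 44) (nat_lit 5) (nat_lit 409) (nat_lit 363) (nat_lit 89))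 (XT.lf (nat_lit 0) (nat_lit 83014258120) (nat_lit 420) (nat_lit 2690647693) (nat_lit 84) (nat_lit 17016557046) (nat_lit 39) (nat_lit 5) (nat_lit 44) (nat_lit 5) (nat_lit 40) (nat_lit 5) (nat_lit 410) (nat_lit 363) (nat_lit 88)))) (XT.nd (nat_lit 94) (nat_lit 84) (nat_lit 0) (XT.lf (nat_lit 0) (nat_lit 29274396434) (nat_lit 252) (nat_lit 63873412971) (nat_lit 336) (nat_lit 11895783719) (nat_lit 36) (nat_lit 5) (nat_lit 39) (nat_lit 5) (nat_lit 40) (nat_lit 5) (nat_lit 411) (nat_lit 363) (nat_lit 87)) (XT.nd (nat_lit 94) (nat_lit 84) (nat_lit 0) (XT.lf (nat_lit 0) (nat_lit 62286980276) (nat_lit 252) (nat_lit 41336268989) (nat_lit 336) (nat_lit 3813601446) (nat_lit 36) (nat_lit 5) (nat_lit 39) (nat_lit 5) (nat_lit 40) (nat_lit 5) (nat_lit 412) (nat_lit 363) (nat_lit 86)) (XT.lf (nat_lit 0) (nat_lit 4427747114) (nat_lit 336) (nat_lit 13626588019) (nat_lit 84) (nat_lit 91848586072) (nat_lit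 35) (nat_lit 5) (nat_lit 39) (nat_lit 5) (nat_lit 36) (nat_lit 5) (nat_lit 413) (nat_lit 363) (nat_lit 85)))))) (XT.nd (nat_lit 564) (nat_lit 0) (nat_lit 0) (XT.nd (nat_lit 282) (nat_lit 252) (nat_lit 0) (XT.nd (nat_lit 94) (nat_lit 0) (nat_lit 0) (XT.lf (nat_lit 0) (nat_lit 13097088026) (nat_lit 420) (nat_lit 93277909511) (nat_lit 84) (nat_lit 6061431005) (nat_lit 31) (nat_lit 5) (nat_lit 36) (nat_lit 5) (nat_lit 32) (nat_lit 5) (nat_lit 414) (nat_lit 363) (nat_lit 84)) (XT.nd (nat_lit 94) (nat_lit 0) (nat_lit 0) (XT.lf (nat_lit 0) (nat_lit 22363204109) (nat_lit 420) (nat_lit 61981739020) (nat_lit 84) (nat_lit 30693364001) (nat_lit 31) (nat_lit 5) (nat_lit 36) (nat_lit 5) (nat_lit 32) (nat_lit 5) (nat_lit 415) (nat_lit 363) (nat_lit 83)) (XT.lf (nat_lit 0) (nat_lit 31916263175) (nat_lit 420) (nat_lit 29715781490) (nat_lit 84) (nat_lit 56088810072) (nat_lit 31) (nat_lit 5) (nat_lit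 36) (nat_lit 5) (nat_lit 32) (nat_lit 5) (nat_lit 416) (nat_lit 363) (nat_lit 82)))) (XT.nd (nat_lit 94) (nat_lit 0) (nat_lit 0) (XT.lf (nat_lit 0) (nat_lit 3623034400) (nat_lit 252) (nat_lit 38178076223) (nat_lit 336) (nat_lit 78684346983) (nat_lit 28) (nat_lit 5) (nat_lit 31) (nat_lit 5) (nat_lit 32) (nat_lit 5) (nat_lit 417) (nat_lit 363) (nat_lit 81)) (XT.nd (nat_lit 94) (nat_lit 0) (nat_lit 0) (XT.lf (nat_lit 0) (nat_lit 38624934015) (nat_lit 252) (nat_lit 13677333930) (nat_lit 336) (nat_lit 71023890153) (nat_lit 28) (nat_lit 5) (nat_lit 31) (nat_lit 5) (nat_lit 32) (nat_lit 5) (nat_lit 418) (nat_lit 363) (nat_lit 80)) (XT.lf (nat_lit 0) (nat_lit 63243581004) (nat_lit 336) (nat_lit 51658308161) (nat_lit 84) (nat_lit 11349479090) (nat_lit 28) (nat_lit 5) (nat_lit 32) (nat_lit 5) (nat_lit 29) (nat_lit 5) (nat_lit 419) (nat_lit 363) (nat_lit 79))))) (XT.nd (nat_lit 48974) (nat_lit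 0) (nat_lit 5460) (XT.nd (nat_lit 48786) (nat_lit 0) (nat_lit 5460) (XT.lf (nat_lit 0) (nat_lit 74663686011) (nat_lit 336) (nat_lit 17731313744) (nat_lit 84) (nat_lit 36867933353) (nat_lit 28) (nat_lit 5) (nat_lit 32) (nat_lit 5) (nat_lit 29) (nat_lit 5) (nat_lit 420) (nat_lit 363) (nat_lit 78)) (XT.nd (nat_lit 94) (nat_lit 0) (nat_lit 0) (XT.lf (nat_lit 0) (nat_lit 12241936528) (nat_lit 1092) (nat_lit 4787525798) (nat_lit 1092) (nat_lit 4787525798) (nat_lit 93) (nat_lit 3) (nat_lit 106) (nat_lit 3) (nat_lit 106) (nat_lit 5) (nat_lit 364) (nat_lit 364) (nat_lit 133)) (XT.lf (nat_lit 84) (nat_lit 5752462381) (nat_lit 0) (nat_lit 19195932469) (nat_lit 1092) (nat_lit 19359117370) (nat_lit 94) (nat_lit 5) (nat_lit 93) (nat_lit 3) (nat_lit 106) (nat_lit 5) (nat_lit 365) (nat_lit 364) (nat_lit 132)))) (XT.nd (nat_lit 94) (nat_lit 0) (nat_lit 84) (XT.lf (nat_lit 84) (nat_lit 21757519503)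 (nat_lit 0) (nat_lit 3768608778) (nat_lit 1092) (nat_lit 19472742613) (nat_lit 94) (nat_lit 5) (nat_lit 93) (nat_lit 3) (nat_lit 106) (nat_lit 5) (nat_lit 366) (nat_lit 364) (nat_lit 131)) (XT.nd (nat_lit 94) (nat_lit 0) (nat_lit 0) (XT.lf (nat_lit 0) (nat_lit 26241078389) (nat_lit 1008) (nat_lit 7573951665) (nat_lit 1092) (nat_lit 11892939176) (nat_lit 94) (nat_lit 5) (nat_lit 106) (nat_lit 5) (nat_lit 107) (nat_lit 5) (nat_lit 367) (nat_lit 364) (nat_lit 130)) (XT.lf (nat_lit 84) (nat_lit 8715588671) (nat_lit 0) (nat_lit 18386546645) (nat_lit 1092) (nat_lit 19333077928) (nat_lit 95) (nat_lit 5) (nat_lit 94) (nat_lit 5) (nat_lit 107) (nat_lit 5) (nat_lit 368) (nat_lit 364) (nat_lit 129))))))) (XT.nd (nat_lit 1128) (nat_lit 2268) (nat_lit 0) (XT.nd (nat_lit 564) (nat_lit 0) (nat_lit 168) (XT.nd (nat_lit 282) (nat_lit 0) (nat_lit 84) (XT.nd (nat_lit 94) (nat_lit 0) (nat_lit 84) (XT.lf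 (nat_lit 84) (nat_lit 25670070204) (nat_lit 0) (nat_lit 2397836919) (nat_lit 1092) (nat_lit 19114681714) (nat_lit 95) (nat_lit 5) (nat_lit 94) (nat_lit 5) (nat_lit 107) (nat_lit 5) (nat_lit 369) (nat_lit 364) (nat_lit 128)) (XT.nd (nat_lit 94) (nat_lit 0) (nat_lit 0) (XT.lf (nat_lit 0) (nat_lit 29202358798) (nat_lit 1008) (nat_lit 4943353642) (nat_lit 1092) (nat_lit 13803125192) (nat_lit 95) (nat_lit 5) (nat_lit 107) (nat_lit 5) (nat_lit 108) (nat_lit 5) (nat_lit 370) (nat_lit 364) (nat_lit 127)) (XT.lf (nat_lit 84) (nat_lit 12363424171) (nat_lit 0) (nat_lit 18154756163) (nat_lit 1092) (nat_lit 18216132907) (nat_lit 96) (nat_lit 5) (nat_lit 95) (nat_lit 5) (nat_lit 108) (nat_lit 5) (nat_lit 371) (nat_lit 364) (nat_lit 126)))) (XT.nd (nat_lit 94) (nat_lit 0) (nat_lit 84) (XT.lf (nat_lit 84) (nat_lit 30310912192) (nat_lit 0) (nat_lit 1614532775) (nat_lit 1092) (nat_lit 17617128598) (nat_lit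 96) (nat_lit 5) (nat_lit 95) (nat_lit 5) (nat_lit 108) (nat_lit 5) (nat_lit 372) (nat_lit 364) (nat_lit 125)) (XT.nd (nat_lit 94) (nat_lit 0) (nat_lit 0) (XT.lf (nat_lit 0) (nat_lit 33528571969) (nat_lit 1008) (nat_lit 1714884147) (nat_lit 1092) (nat_lit 15127719532) (nat_lit 96) (nat_lit 5) (nat_lit 108) (nat_lit 5) (nat_lit 109) (nat_lit 5) (nat_lit 373) (nat_lit 364) (nat_lit 124)) (XT.lf (nat_lit 84) (nat_lit 16663536609) (nat_lit 0) (nat_lit 18698789957) (nat_lit 1092) (nat_lit 15857533873) (nat_lit 97) (nat_lit 5) (nat_lit 96) (nat_lit 5) (nat_lit 109) (nat_lit 5) (nat_lit 374) (nat_lit 364) (nat_lit 123))))) (XT.nd (nat_lit 282) (nat_lit 0) (nat_lit 84) (XT.nd (nat_lit 94) (nat_lit 0) (nat_lit 84) (XT.lf (nat_lit 84) (nat_lit 35647452277) (nat_lit 0) (nat_lit 1622509386) (nat_lit 1092) (nat_lit 14824369482) (nat_lit 97) (nat_lit 5) (nat_lit 96) (nat_lit 5) (nat_lit 109) (nat_lit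 5) (nat_lit 375) (nat_lit 364) (nat_lit 122)) (XT.nd (nat_lit 94) (nat_lit 0) (nat_lit 0) (XT.lf (nat_lit 84) (nat_lit 2107254387) (nat_lit 0) (nat_lit 37308100885) (nat_lit 1092) (nat_lit 13575022497) (nat_lit 98) (nat_lit 5) (nat_lit 97) (nat_lit 5) (nat_lit 110) (nat_lit 5) (nat_lit 376) (nat_lit 364) (nat_lit 121)) (XT.lf (nat_lit 84) (nat_lit 21567695141) (nat_lit 0) (nat_lit 20246841205) (nat_lit 1092) (nat_lit 12093864268) (nat_lit 98) (nat_lit 5) (nat_lit 97) (nat_lit 5) (nat_lit 110) (nat_lit 5) (nat_lit 377) (nat_lit 364) (nat_lit 120)))) (XT.nd (nat_lit 94) (nat_lit 0) (nat_lit 84) (XT.lf (nat_lit 84) (nat_lit 41630827451) (nat_lit 0) (nat_lit 2656471304) (nat_lit 1092) (nat_lit 10567612335) (nat_lit 98) (nat_lit 5) (nat_lit 97) (nat_lit 5) (nat_lit 110) (nat_lit 5) (nat_lit 378) (nat_lit 364) (nat_lit 119)) (XT.nd (nat_lit 94) (nat_lit 0) (nat_lit 0) (XT.lf (nat_lit 84)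 (nat_lit 6461181612) (nat_lit 0) (nat_lit 40592419092) (nat_lit 1092) (nat_lit 8770443483) (nat_lit 99) (nat_lit 5) (nat_lit 98) (nat_lit 5) (nat_lit 111) (nat_lit 5) (nat_lit 379) (nat_lit 364) (nat_lit 118)) (XT.lf (nat_lit 84) (nat_lit 27008716931) (nat_lit 0) (nat_lit 23061117619) (nat_lit 1092) (nat_lit 6748300462) (nat_lit 99) (nat_lit 5) (nat_lit 98) (nat_lit 5) (nat_lit 111) (nat_lit 5) (nat_lit 380) (nat_lit 364) (nat_lit 117)))))) (XT.nd (nat_lit 564) (nat_lit 1008) (nat_lit 0) (XT.nd (nat_lit 282) (nat_lit 588) (nat_lit 0) (XT.nd (nat_lit 94) (nat_lit 1008) (nat_lit 0) (XT.lf (nat_lit 84) (nat_lit 48192654876) (nat_lit 0) (nat_lit 4986189163) (nat_lit 1092) (nat_lit 4664225118) (nat_lit 99) (nat_lit 5) (nat_lit 98) (nat_lit 5) (nat_lit 111) (nat_lit 5) (nat_lit 381) (nat_lit 364) (nat_lit 116)) (XT.nd (nat_lit 94) (nat_lit 84) (nat_lit 0) (XT.lf (nat_lit 0) (nat_lit 11223669152)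 (nat_lit 1008) (nat_lit 45406600023) (nat_lit 1092) (nat_lit 2261883792) (nat_lit 87) (nat_lit 5) (nat_lit 99) (nat_lit 5) (nat_lit 100) (nat_lit 5) (nat_lit 382) (nat_lit 364) (nat_lit 115)) (XT.lf (nat_lit 0) (nat_lit 362658068) (nat_lit 1092) (nat_lit 27075955321) (nat_lit 84) (nat_lit 32530368687) (nat_lit 86) (nat_lit 5) (nat_lit 99) (nat_lit 5) (nat_lit 87) (nat_lit 5) (nat_lit 383) (nat_lit 364) (nat_lit 114)))) (XT.nd (nat_lit 94) (nat_lit 588) (nat_lit 0) (XT.lf (nat_lit 0) (nat_lit 3020897673) (nat_lit 1092) (nat_lit 5868767481) (nat_lit 84) (nat_lit 52188835115) (nat_lit 86) (nat_lit 5) (nat_lit 99) (nat_lit 5) (nat_lit 87) (nat_lit 5) (nat_lit 384) (nat_lit 364) (nat_lit 113)) (XT.nd (nat_lit 94) (nat_lit 0) (nat_lit 0) (XT.lf (nat_lit 0) (nat_lit 6026005357) (nat_lit 672) (nat_lit 45996418944) (nat_lit 84) (nat_lit 10191794273) (nat_lit 79) (nat_lit 5) (nat_lit 87) (nat_lit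 5) (nat_lit 80) (nat_lit 5) (nat_lit 385) (nat_lit 364) (nat_lit 112)) (XT.lf (nat_lit 0) (nat_lit 9276433366) (nat_lit 672) (nat_lit 24361903421) (nat_lit 84) (nat_lit 29742093629) (nat_lit 79) (nat_lit 5) (nat_lit 87) (nat_lit 5) (nat_lit 80) (nat_lit 5) (nat_lit 386) (nat_lit 364) (nat_lit 111))))) (XT.nd (nat_lit 282) (nat_lit 504) (nat_lit 0) (XT.nd (nat_lit 94) (nat_lit 504) (nat_lit 0) (XT.lf (nat_lit 0) (nat_lit 12627001173) (nat_lit 672) (nat_lit 2057277074) (nat_lit 84) (nat_lit 49898539094) (nat_lit 79) (nat_lit 5) (nat_lit 87) (nat_lit 5) (nat_lit 80) (nat_lit 5) (nat_lit 387) (nat_lit 364) (nat_lit 110)) (XT.nd (nat_lit 94) (nat_lit 0) (nat_lit 0) (XT.lf (nat_lit 0) (nat_lit 16343167098) (nat_lit 588) (nat_lit 44497499238) (nat_lit 84) (nat_lit 4973701374) (nat_lit 73) (nat_lit 5) (nat_lit 80) (nat_lit 5) (nat_lit 74) (nat_lit 5) (nat_lit 388) (nat_lit 364) (nat_lit 109))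 (XT.lf (nat_lit 0) (nat_lit 20345821850) (nat_lit 588) (nat_lit 21775168729) (nat_lit 84) (nat_lit 24957798645) (nat_lit 73) (nat_lit 5) (nat_lit 80) (nat_lit 5) (nat_lit 74) (nat_lit 5) (nat_lit 389) (nat_lit 364) (nat_lit 108)))) (XT.nd (nat_lit 94) (nat_lit 0) (nat_lit 0) (XT.lf (nat_lit 0) (nat_lit 1684960271) (nat_lit 504) (nat_lit 22803740103) (nat_lit 588) (nat_lit 43893209958) (nat_lit 67) (nat_lit 5) (nat_lit 73) (nat_lit 5) (nat_lit 74) (nat_lit 5) (nat_lit 390) (nat_lit 364) (nat_lit 107)) (XT.nd (nat_lit 94) (nat_lit 0) (nat_lit 0) (XT.lf (nat_lit 0) (nat_lit 26333438943) (nat_lit 504) (nat_lit 2653295673) (nat_lit 588) (nat_lit 40731667879) (nat_lit 67) (nat_lit 5) (nat_lit 73) (nat_lit 5) (nat_lit 74) (nat_lit 5) (nat_lit 391) (nat_lit 364) (nat_lit 106)) (XT.lf (nat_lit 0) (nat_lit 33803434056) (nat_lit 588) (nat_lit 19530616286) (nat_lit 84) (nat_lit 17756722303) (nat_lit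 67) (nat_lit 5) (nat_lit 74) (nat_lit 5) (nat_lit 68) (nat_lit 5) (nat_lit 392) (nat_lit 364) (nat_lit 105))))))))
noncomputable def xc229 : XT := (XT.nd (nat_lit 2256) (nat_lit 252) (nat_lit 0) (XT.nd (nat_lit 1128) (nat_lit 1344) (nat_lit 0) (XT.nd (nat_lit 564) (nat_lit 840) (nat_lit 0) (XT.nd (nat_lit 282) (nat_lit 420) (nat_lit 0) (XT.nd (nat_lit 94) (nat_lit 0) (nat_lit 0) (XT.lf (nat_lit 0) (nat_lit 5139096151) (nat_lit 420) (nat_lit 33707944353) (nat_lit 504) (nat_lit 33656243153) (nat_lit 62) (nat_lit 5) (nat_lit 67) (nat_lit 5) (nat_lit 68) (nat_lit 5) (nat_lit 393) (nat_lit 364) (nat_lit 104)) (XT.nd (nat_lit 94) (nat_lit 0) (nat_lit 0) (XT.lf (nat_lit 0) (nat_lit 30987089824) (nat_lit 420) (nat_lit 13263251123) (nat_lit 504) (nat_lit 29702940531) (nat_lit 62) (nat_lit 5) (nat_lit 67) (nat_lit 5) (nat_lit 68) (nat_lit 5) (nat_lit 394) (nat_lit 364) (nat_lit 103)) (XT.lf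 (nat_lit 0) (nat_lit 49898169892) (nat_lit 504) (nat_lit 17889907058) (nat_lit 84) (nat_lit 7657766969) (nat_lit 62) (nat_lit 5) (nat_lit 68) (nat_lit 5) (nat_lit 63) (nat_lit 5) (nat_lit 395) (nat_lit 364) (nat_lit 102)))) (XT.nd (nat_lit 94) (nat_lit 0) (nat_lit 0) (XT.lf (nat_lit 0) (nat_lit 7988536272) (nat_lit 420) (nat_lit 47946957640) (nat_lit 504) (nat_lit 21042537524) (nat_lit 57) (nat_lit 5) (nat_lit 62) (nat_lit 5) (nat_lit 63) (nat_lit 5) (nat_lit 396) (nat_lit 364) (nat_lit 101)) (XT.nd (nat_lit 94) (nat_lit 0) (nat_lit 0) (XT.lf (nat_lit 0) (nat_lit 35047967660) (nat_lit 420) (nat_lit 27298264180) (nat_lit 504) (nat_lit 16205713316) (nat_lit 57) (nat_lit 5) (nat_lit 62) (nat_lit 5) (nat_lit 63) (nat_lit 5) (nat_lit 397) (nat_lit 364) (nat_lit 100)) (XT.lf (nat_lit 0) (nat_lit 62945756148) (nat_lit 420) (nat_lit 6009483763) (nat_lit 504) (nat_lit 11219426914) (nat_lit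 57) (nat_lit 5) (nat_lit 62) (nat_lit 5) (nat_lit 63) (nat_lit 5) (nat_lit 398) (nat_lit 364) (nat_lit 99))))) (XT.nd (nat_lit 282) (nat_lit 420) (nat_lit 0) (XT.nd (nat_lit 94) (nat_lit 84) (nat_lit 0) (XT.lf (nat_lit 0) (nat_lit 9901571910) (nat_lit 336) (nat_lit 66123450428) (nat_lit 420) (nat_lit 5814739991) (nat_lit 53) (nat_lit 5) (nat_lit 57) (nat_lit 5) (nat_lit 58) (nat_lit 5) (nat_lit 399) (nat_lit 364) (nat_lit 98)) (XT.nd (nat_lit 94) (nat_lit 0) (nat_lit 0) (XT.lf (nat_lit 0) (nat_lit 5067957) (nat_lit 420) (nat_lit 45373947007) (nat_lit 84) (nat_lit 38170014106) (nat_lit 52) (nat_lit 5) (nat_lit 57) (nat_lit 5) (nat_lit 53) (nat_lit 5) (nat_lit 400) (nat_lit 364) (nat_lit 97)) (XT.lf (nat_lit 0) (nat_lit 5884070644) (nat_lit 420) (nat_lit 18046161273) (nat_lit 84) (nat_lit 61379223015) (nat_lit 52) (nat_lit 5) (nat_lit 57) (nat_lit 5) (nat_lit 53) (nat_lit 5) (nat_lit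 401) (nat_lit 364) (nat_lit 96)))) (XT.nd (nat_lit 94) (nat_lit 0) (nat_lit 0) (XT.lf (nat_lit 0) (nat_lit 10336581157) (nat_lit 420) (nat_lit 1710860977) (nat_lit 504) (nat_lit 75073848108) (nat_lit 47) (nat_lit 5) (nat_lit 52) (nat_lit 5) (nat_lit 53) (nat_lit 5) (nat_lit 402) (nat_lit 364) (nat_lit 95)) (XT.nd (nat_lit 94) (nat_lit 0) (nat_lit 0) (XT.lf (nat_lit 0) (nat_lit 18802036705) (nat_lit 504) (nat_lit 49214375129) (nat_lit 84) (nat_lit 20960477595) (nat_lit 47) (nat_lit 5) (nat_lit 53) (nat_lit 5) (nat_lit 48) (nat_lit 5) (nat_lit 403) (nat_lit 364) (nat_lit 94)) (XT.lf (nat_lit 0) (nat_lit 25783121383) (nat_lit 504) (nat_lit 20807317933) (nat_lit 84) (nat_lit 44299044689) (nat_lit 47) (nat_lit 5) (nat_lit 53) (nat_lit 5) (nat_lit 48) (nat_lit 5) (nat_lit 404) (nat_lit 364) (nat_lit 93)))))) (XT.nd (nat_lit 564) (nat_lit 672) (nat_lit 0) (XT.nd (nat_lit 282) (nat_lit 336)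 (nat_lit 0) (XT.nd (nat_lit 94) (nat_lit 0) (nat_lit 0) (XT.lf (nat_lit 0) (nat_lit 8654277206) (nat_lit 336) (nat_lit 24411805613) (nat_lit 420) (nat_lit 59792638624) (nat_lit 43) (nat_lit 5) (nat_lit 47) (nat_lit 5) (nat_lit 48) (nat_lit 5) (nat_lit 405) (nat_lit 364) (nat_lit 92)) (XT.nd (nat_lit 94) (nat_lit 0) (nat_lit 0) (XT.lf (nat_lit 0) (nat_lit 39469845281) (nat_lit 336) (nat_lit 1321775439) (nat_lit 420) (nat_lit 54090665308) (nat_lit 43) (nat_lit 5) (nat_lit 47) (nat_lit 5) (nat_lit 48) (nat_lit 5) (nat_lit 406) (nat_lit 364) (nat_lit 91)) (XT.lf (nat_lit 0) (nat_lit 48979324634) (nat_lit 420) (nat_lit 25951369699) (nat_lit 84) (nat_lit 22030985559) (nat_lit 43) (nat_lit 5) (nat_lit 48) (nat_lit 5) (nat_lit 44) (nat_lit 5) (nat_lit 407) (nat_lit 364) (nat_lit 90)))) (XT.nd (nat_lit 94) (nat_lit 0) (nat_lit 0) (XT.lf (nat_lit 0) (nat_lit 4499708187) (nat_lit 336) (nat_lit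 52978936448) (nat_lit 420) (nat_lit 41625100245) (nat_lit 39) (nat_lit 5) (nat_lit 43) (nat_lit 5) (nat_lit 44) (nat_lit 5) (nat_lit 408) (nat_lit 364) (nat_lit 89)) (XT.nd (nat_lit 94) (nat_lit 0) (nat_lit 0) (XT.lf (nat_lit 0) (nat_lit 36444502409) (nat_lit 336) (nat_lit 30067467779) (nat_lit 420) (nat_lit 34791858951) (nat_lit 39) (nat_lit 5) (nat_lit 43) (nat_lit 5) (nat_lit 44) (nat_lit 5) (nat_lit 409) (nat_lit 364) (nat_lit 88)) (XT.lf (nat_lit 0) (nat_lit 69379175473) (nat_lit 336) (nat_lit 6445811513) (nat_lit 420) (nat_lit 27747141155) (nat_lit 39) (nat_lit 5) (nat_lit 43) (nat_lit 5) (nat_lit 44) (nat_lit 5) (nat_lit 410) (nat_lit 364) (nat_lit 87))))) (XT.nd (nat_lit 282) (nat_lit 420) (nat_lit 0) (XT.nd (nat_lit 94) (nat_lit 252) (nat_lit 0) (XT.lf (nat_lit 0) (nat_lit 85604025811) (nat_lit 420) (nat_lit 2753980307) (nat_lit 84) (nat_lit 17547242906) (nat_lit 39) (nat_lit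 5) (nat_lit 44) (nat_lit 5) (nat_lit 40) (nat_lit 5) (nat_lit 411) (nat_lit 364) (nat_lit 86)) (XT.nd (nat_lit 94) (nat_lit 0) (nat_lit 0) (XT.lf (nat_lit 0) (nat_lit 30201776922) (nat_lit 252) (nat_lit 65849646540) (nat_lit 336) (nat_lit 12247953169) (nat_lit 36) (nat_lit 5) (nat_lit 39) (nat_lit 5) (nat_lit 40) (nat_lit 5) (nat_lit 412) (nat_lit 364) (nat_lit 85)) (XT.lf (nat_lit 0) (nat_lit 64237153288) (nat_lit 252) (nat_lit 42613966623) (nat_lit 336) (nat_lit 3915722367) (nat_lit 36) (nat_lit 5) (nat_lit 39) (nat_lit 5) (nat_lit 40) (nat_lit 5) (nat_lit 413) (nat_lit 364) (nat_lit 84)))) (XT.nd (nat_lit 94) (nat_lit 336) (nat_lit 0) (XT.lf (nat_lit 0) (nat_lit 4580309243) (nat_lit 336) (nat_lit 14029935906) (nat_lit 84) (nat_lit 94699127566) (nat_lit 35) (nat_lit 5) (nat_lit 39) (nat_lit 5) (nat_lit 36) (nat_lit 5) (nat_lit 414) (nat_lit 364) (nat_lit 83)) (XT.nd (nat_lit 94)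 (nat_lit 0) (nat_lit 0) (XT.lf (nat_lit 0) (nat_lit 13518165181) (nat_lit 420) (nat_lit 96150151083) (nat_lit 84) (nat_lit 6253111732) (nat_lit 31) (nat_lit 5) (nat_lit 36) (nat_lit 5) (nat_lit 32) (nat_lit 5) (nat_lit 415) (nat_lit 364) (nat_lit 82)) (XT.lf (nat_lit 0) (nat_lit 23071077818) (nat_lit 420) (nat_lit 63884381830) (nat_lit 84) (nat_lit 31648521104) (nat_lit 31) (nat_lit 5) (nat_lit 36) (nat_lit 5) (nat_lit 32) (nat_lit 5) (nat_lit 416) (nat_lit 364) (nat_lit 81))))))) (XT.nd (nat_lit 49914) (nat_lit 0) (nat_lit 4872) (XT.nd (nat_lit 49350) (nat_lit 0) (nat_lit 5460) (XT.nd (nat_lit 282) (nat_lit 0) (nat_lit 0) (XT.nd (nat_lit 94) (nat_lit 252) (nat_lit 0) (XT.lf (nat_lit 0) (nat_lit 32919842290) (nat_lit 420) (nat_lit 30618744625) (nat_lit 84) (nat_lit 57831115870) (nat_lit 31) (nat_lit 5) (nat_lit 36) (nat_lit 5) (nat_lit 32) (nat_lit 5) (nat_lit 417) (nat_lit 364) (nat_lit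 80)) (XT.nd (nat_lit 94) (nat_lit 0) (nat_lit 0) (XT.lf (nat_lit 0) (nat_lit 3753390034) (nat_lit 252) (nat_lit 39357482738) (nat_lit 336) (nat_lit 81109145010) (nat_lit 28) (nat_lit 5) (nat_lit 31) (nat_lit 5) (nat_lit 32) (nat_lit 5) (nat_lit 418) (nat_lit 364) (nat_lit 79)) (XT.lf (nat_lit 0) (nat_lit 39839806066) (nat_lit 252) (nat_lit 14097341129) (nat_lit 336) (nat_lit 73211647499) (nat_lit 28) (nat_lit 5) (nat_lit 31) (nat_lit 5) (nat_lit 32) (nat_lit 5) (nat_lit 419) (nat_lit 364) (nat_lit 78)))) (XT.nd (nat_lit 48880) (nat_lit 0) (nat_lit 5460) (XT.lf (nat_lit 0) (nat_lit 65217273166) (nat_lit 336) (nat_lit 53242321128) (nat_lit 84) (nat_lit 11705105144) (nat_lit 28) (nat_lit 5) (nat_lit 32) (nat_lit 5) (nat_lit 29) (nat_lit 5) (nat_lit 420) (nat_lit 364) (nat_lit 77)) (XT.nd (nat_lit 94) (nat_lit 0) (nat_lit 0) (XT.lf (nat_lit 0) (nat_lit 12649115849) (nat_lit 1092) (nat_lit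 4921593699) (nat_lit 1092) (nat_lit 4921593699) (nat_lit 93) (nat_lit 3) (nat_lit 106) (nat_lit 3) (nat_lit 106) (nat_lit 5) (nat_lit 365) (nat_lit 365) (nat_lit 131)) (XT.lf (nat_lit 84) (nat_lit 5959189043) (nat_lit 0) (nat_lit 19816581843) (nat_lit 1092) (nat_lit 19903303290) (nat_lit 94) (nat_lit 5) (nat_lit 93) (nat_lit 3) (nat_lit 106) (nat_lit 5) (nat_lit 366) (nat_lit 365) (nat_lit 130))))) (XT.nd (nat_lit 282) (nat_lit 0) (nat_lit 84) (XT.nd (nat_lit 94) (nat_lit 0) (nat_lit 84) (XT.lf (nat_lit 84) (nat_lit 22459548998) (nat_lit 0) (nat_lit 3910242117) (nat_lit 1092) (nat_lit 20022133115) (nat_lit 94) (nat_lit 5) (nat_lit 93) (nat_lit 3) (nat_lit 106) (nat_lit 5) (nat_lit 367) (nat_lit 365) (nat_lit 129)) (XT.nd (nat_lit 94) (nat_lit 0) (nat_lit 0) (XT.lf (nat_lit 0) (nat_lit 27105091852) (nat_lit 1008) (nat_lit 7779933171) (nat_lit 1092) (nat_lit 12238044470) (nat_lit 94)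 (nat_lit 5) (nat_lit 106) (nat_lit 5) (nat_lit 107) (nat_lit 5) (nat_lit 368) (nat_lit 365) (nat_lit 128)) (XT.lf (nat_lit 84) (nat_lit 9014291229) (nat_lit 0) (nat_lit 18977313598) (nat_lit 1092) (nat_lit 19881300004) (nat_lit 95) (nat_lit 5) (nat_lit 94) (nat_lit 5) (nat_lit 107) (nat_lit 5) (nat_lit 369) (nat_lit 365) (nat_lit 127)))) (XT.nd (nat_lit 94) (nat_lit 0) (nat_lit 84) (XT.lf (nat_lit 84) (nat_lit 26493504174) (nat_lit 0) (nat_lit 2492328938) (nat_lit 1092) (nat_lit 19657670077) (nat_lit 95) (nat_lit 5) (nat_lit 94) (nat_lit 5) (nat_lit 107) (nat_lit 5) (nat_lit 370) (nat_lit 365) (nat_lit 126)) (XT.nd (nat_lit 94) (nat_lit 0) (nat_lit 0) (XT.lf (nat_lit 0) (nat_lit 30153820949) (nat_lit 1008) (nat_lit 5067880169) (nat_lit 1092) (nat_lit 14211863087) (nat_lit 95) (nat_lit 5) (nat_lit 107) (nat_lit 5) (nat_lit 108) (nat_lit 5) (nat_lit 371) (nat_lit 365) (nat_lit 125))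 (XT.lf (nat_lit 84) (nat_lit 12775117018) (nat_lit 0) (nat_lit 18734209125) (nat_lit 1092) (nat_lit 18734105411) (nat_lit 96) (nat_lit 5) (nat_lit 95) (nat_lit 5) (nat_lit 108) (nat_lit 5) (nat_lit 372) (nat_lit 365) (nat_lit 124)))))) (XT.nd (nat_lit 564) (nat_lit 756) (nat_lit 0) (XT.nd (nat_lit 282) (nat_lit 0) (nat_lit 84) (XT.nd (nat_lit 94) (nat_lit 0) (nat_lit 84) (XT.lf (nat_lit 84) (nat_lit 31278122436) (nat_lit 0) (nat_lit 1680738015) (nat_lit 1092) (nat_lit 18117936969) (nat_lit 96) (nat_lit 5) (nat_lit 95) (nat_lit 5) (nat_lit 108) (nat_lit 5) (nat_lit 373) (nat_lit 365) (nat_lit 123)) (XT.nd (nat_lit 94) (nat_lit 0) (nat_lit 0) (XT.lf (nat_lit 0) (nat_lit 34610214183) (nat_lit 1008) (nat_lit 1739599244) (nat_lit 1092) (nat_lit 15581325547) (nat_lit 96) (nat_lit 5) (nat_lit 108) (nat_lit 5) (nat_lit 109) (nat_lit 5) (nat_lit 374) (nat_lit 365) (nat_lit 122)) (XT.lf (nat_lit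 84) (nat_lit 17208264562) (nat_lit 0) (nat_lit 19291559380) (nat_lit 1092) (nat_lit 16306346789) (nat_lit 97) (nat_lit 5) (nat_lit 96) (nat_lit 5) (nat_lit 109) (nat_lit 5) (nat_lit 375) (nat_lit 365) (nat_lit 121)))) (XT.nd (nat_lit 94) (nat_lit 0) (nat_lit 84) (XT.lf (nat_lit 84) (nat_lit 36779834955) (nat_lit 0) (nat_lit 1685520013) (nat_lit 1092) (nat_lit 15242440325) (nat_lit 97) (nat_lit 5) (nat_lit 96) (nat_lit 5) (nat_lit 109) (nat_lit 5) (nat_lit 376) (nat_lit 365) (nat_lit 120)) (XT.nd (nat_lit 94) (nat_lit 0) (nat_lit 0) (XT.lf (nat_lit 84) (nat_lit 2201184596) (nat_lit 0) (nat_lit 38475029179) (nat_lit 1092) (nat_lit 13955444486) (nat_lit 98) (nat_lit 5) (nat_lit 97) (nat_lit 5) (nat_lit 110) (nat_lit 5) (nat_lit 377) (nat_lit 365) (nat_lit 119)) (XT.lf (nat_lit 84) (nat_lit 22264038912) (nat_lit 0) (nat_lit 20884558429) (nat_lit 1092) (nat_lit 12429585206) (nat_lit 98)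 (nat_lit 5) (nat_lit 97) (nat_lit 5) (nat_lit 110) (nat_lit 5) (nat_lit 378) (nat_lit 365) (nat_lit 118))))) (XT.nd (nat_lit 282) (nat_lit 924) (nat_lit 0) (XT.nd (nat_lit 94) (nat_lit 0) (nat_lit 84) (XT.lf (nat_lit 84) (nat_lit 42948294082) (nat_lit 0) (nat_lit 2748584423) (nat_lit 1092) (nat_lit 10857197789) (nat_lit 98) (nat_lit 5) (nat_lit 97) (nat_lit 5) (nat_lit 110) (nat_lit 5) (nat_lit 379) (nat_lit 365) (nat_lit 117)) (XT.nd (nat_lit 94) (nat_lit 0) (nat_lit 0) (XT.lf (nat_lit 84) (nat_lit 6689536140) (nat_lit 0) (nat_lit 41858481385) (nat_lit 1092) (nat_lit 9005269479) (nat_lit 99) (nat_lit 5) (nat_lit 98) (nat_lit 5) (nat_lit 111) (nat_lit 5) (nat_lit 380) (nat_lit 365) (nat_lit 116)) (XT.lf (nat_lit 84) (nat_lit 27873201411) (nat_lit 0) (nat_lit 23783478125) (nat_lit 1092) (nat_lit 6921554272) (nat_lit 99) (nat_lit 5) (nat_lit 98) (nat_lit 5) (nat_lit 111) (nat_lit 5)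 (nat_lit 381) (nat_lit 365) (nat_lit 115)))) (XT.nd (nat_lit 188) (nat_lit 84) (nat_lit 0) (XT.nd (nat_lit 94) (nat_lit 924) (nat_lit 0) (XT.lf (nat_lit 84) (nat_lit 49713023158) (nat_lit 0) (nat_lit 5148002404) (nat_lit 1092) (nat_lit 4773953339) (nat_lit 99) (nat_lit 5) (nat_lit 98) (nat_lit 5) (nat_lit 111) (nat_lit 5) (nat_lit 382) (nat_lit 365) (nat_lit 114)) (XT.lf (nat_lit 0) (nat_lit 11599015743) (nat_lit 1008) (nat_lit 46819619993) (nat_lit 1092) (nat_lit 2297979148) (nat_lit 87) (nat_lit 5) (nat_lit 99) (nat_lit 5) (nat_lit 100) (nat_lit 5) (nat_lit 383) (nat_lit 365) (nat_lit 113))) (XT.nd (nat_lit 94) (nat_lit 0) (nat_lit 0) (XT.lf (nat_lit 0) (nat_lit 406235632) (nat_lit 1092) (nat_lit 27887889800) (nat_lit 84) (nat_lit 33532726041) (nat_lit 86) (nat_lit 5) (nat_lit 99) (nat_lit 5) (nat_lit 87) (nat_lit 5) (nat_lit 384) (nat_lit 365) (nat_lit 112)) (XT.lf (nat_lit 0) (nat_lit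 3145908414) (nat_lit 1092) (nat_lit 6024103603) (nat_lit 84) (nat_lit 53800787863) (nat_lit 86) (nat_lit 5) (nat_lit 99) (nat_lit 5) (nat_lit 87) (nat_lit 5) (nat_lit 385) (nat_lit 365) (nat_lit 111))))))))
noncomputable def xc230 : XT := (XT.nd (nat_lit 2256) (nat_lit 672) (nat_lit 0) (XT.nd (nat_lit 1128) (nat_lit 1512) (nat_lit 0) (XT.nd (nat_lit 564) (nat_lit 840) (nat_lit 0) (XT.nd (nat_lit 282) (nat_lit 1008) (nat_lit 0) (XT.nd (nat_lit 94) (nat_lit 0) (nat_lit 0) (XT.lf (nat_lit 0) (nat_lit 6243449382) (nat_lit 672) (nat_lit 47394830421) (nat_lit 84) (nat_lit 10503472987) (nat_lit 79) (nat_lit 5) (nat_lit 87) (nat_lit 5) (nat_lit 80) (nat_lit 5) (nat_lit 386) (nat_lit 365) (nat_lit 110)) (XT.nd (nat_lit 94) (nat_lit 0) (nat_lit 0) (XT.lf (nat_lit 0) (nat_lit 9593719443) (nat_lit 672) (nat_lit 25090471107) (nat_lit 84) (nat_lit 30659959920) (nat_lit 79) (nat_lit 5) (nat_lit 87)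 (nat_lit 5) (nat_lit 80) (nat_lit 5) (nat_lit 387) (nat_lit 365) (nat_lit 109)) (XT.lf (nat_lit 0) (nat_lit 13047261335) (nat_lit 672) (nat_lit 2095202693) (nat_lit 84) (nat_lit 51441379634) (nat_lit 79) (nat_lit 5) (nat_lit 87) (nat_lit 5) (nat_lit 80) (nat_lit 5) (nat_lit 388) (nat_lit 365) (nat_lit 108)))) (XT.nd (nat_lit 94) (nat_lit 504) (nat_lit 0) (XT.lf (nat_lit 0) (nat_lit 16877989581) (nat_lit 588) (nat_lit 45850289856) (nat_lit 84) (nat_lit 5125316894) (nat_lit 73) (nat_lit 5) (nat_lit 80) (nat_lit 5) (nat_lit 74) (nat_lit 5) (nat_lit 389) (nat_lit 365) (nat_lit 107)) (XT.nd (nat_lit 94) (nat_lit 504) (nat_lit 0) (XT.lf (nat_lit 0) (nat_lit 21003879188) (nat_lit 588) (nat_lit 22424367865) (nat_lit 84) (nat_lit 25728998432) (nat_lit 73) (nat_lit 5) (nat_lit 80) (nat_lit 5) (nat_lit 74) (nat_lit 5) (nat_lit 390) (nat_lit 365) (nat_lit 106)) (XT.lf (nat_lit 0) (nat_lit 1762763617)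 (nat_lit 504) (nat_lit 23511855020) (nat_lit 588) (nat_lit 45226166499) (nat_lit 67) (nat_lit 5) (nat_lit 73) (nat_lit 5) (nat_lit 74) (nat_lit 5) (nat_lit 391) (nat_lit 365) (nat_lit 105))))) (XT.nd (nat_lit 282) (nat_lit 420) (nat_lit 0) (XT.nd (nat_lit 94) (nat_lit 420) (nat_lit 0) (XT.lf (nat_lit 0) (nat_lit 27174576305) (nat_lit 504) (nat_lit 2736710762) (nat_lit 588) (nat_lit 41967450488) (nat_lit 67) (nat_lit 5) (nat_lit 73) (nat_lit 5) (nat_lit 74) (nat_lit 5) (nat_lit 392) (nat_lit 365) (nat_lit 104)) (XT.nd (nat_lit 94) (nat_lit 420) (nat_lit 0) (XT.lf (nat_lit 0) (nat_lit 34876512327) (nat_lit 588) (nat_lit 20111091861) (nat_lit 84) (nat_lit 18306075464) (nat_lit 67) (nat_lit 5) (nat_lit 74) (nat_lit 5) (nat_lit 68) (nat_lit 5) (nat_lit 393) (nat_lit 365) (nat_lit 103)) (XT.lf (nat_lit 0) (nat_lit 5323128826) (nat_lit 420) (nat_lit 34752830117) (nat_lit 504) (nat_lit 34674039229)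 (nat_lit 62) (nat_lit 5) (nat_lit 67) (nat_lit 5) (nat_lit 68) (nat_lit 5) (nat_lit 394) (nat_lit 365) (nat_lit 102)))) (XT.nd (nat_lit 94) (nat_lit 420) (nat_lit 0) (XT.lf (nat_lit 0) (nat_lit 31971667004) (nat_lit 420) (nat_lit 13674353217) (nat_lit 504) (nat_lit 30598952384) (nat_lit 62) (nat_lit 5) (nat_lit 67) (nat_lit 5) (nat_lit 68) (nat_lit 5) (nat_lit 395) (nat_lit 365) (nat_lit 101)) (XT.nd (nat_lit 94) (nat_lit 420) (nat_lit 0) (XT.lf (nat_lit 0) (nat_lit 51468213243) (nat_lit 504) (nat_lit 18420403573) (nat_lit 84) (nat_lit 7895213525) (nat_lit 62) (nat_lit 5) (nat_lit 68) (nat_lit 5) (nat_lit 63) (nat_lit 5) (nat_lit 396) (nat_lit 365) (nat_lit 100)) (XT.lf (nat_lit 0) (nat_lit 8260027604) (nat_lit 420) (nat_lit 49432205688) (nat_lit 504) (nat_lit 21671300144) (nat_lit 57) (nat_lit 5) (nat_lit 62) (nat_lit 5) (nat_lit 63) (nat_lit 5) (nat_lit 397) (nat_lit 365) (nat_lit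 99)))))) (XT.nd (nat_lit 564) (nat_lit 672) (nat_lit 0) (XT.nd (nat_lit 282) (nat_lit 504) (nat_lit 0) (XT.nd (nat_lit 94) (nat_lit 336) (nat_lit 0) (XT.lf (nat_lit 0) (nat_lit 36157584344) (nat_lit 420) (nat_lit 28143436035) (nat_lit 504) (nat_lit 16685242666) (nat_lit 57) (nat_lit 5) (nat_lit 62) (nat_lit 5) (nat_lit 63) (nat_lit 5) (nat_lit 398) (nat_lit 365) (nat_lit 98)) (XT.nd (nat_lit 94) (nat_lit 336) (nat_lit 0) (XT.lf (nat_lit 0) (nat_lit 64919508815) (nat_lit 420) (nat_lit 6194735727) (nat_lit 504) (nat_lit 11545068370) (nat_lit 57) (nat_lit 5) (nat_lit 62) (nat_lit 5) (nat_lit 63) (nat_lit 5) (nat_lit 399) (nat_lit 365) (nat_lit 97)) (XT.lf (nat_lit 0) (nat_lit 10231478309) (nat_lit 336) (nat_lit 68171306467) (nat_lit 420) (nat_lit 5973257341) (nat_lit 53) (nat_lit 5) (nat_lit 57) (nat_lit 5) (nat_lit 58) (nat_lit 5) (nat_lit 400) (nat_lit 365) (nat_lit 96)))) (XT.nd (nat_lit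 94) (nat_lit 420) (nat_lit 0) (XT.lf (nat_lit 0) (nat_lit 25886155) (nat_lit 420) (nat_lit 46757750950) (nat_lit 84) (nat_lit 39354675173) (nat_lit 52) (nat_lit 5) (nat_lit 57) (nat_lit 5) (nat_lit 53) (nat_lit 5) (nat_lit 401) (nat_lit 365) (nat_lit 95)) (XT.nd (nat_lit 94) (nat_lit 420) (nat_lit 0) (XT.lf (nat_lit 0) (nat_lit 6086516691) (nat_lit 420) (nat_lit 18583489058) (nat_lit 84) (nat_lit 63283327744) (nat_lit 52) (nat_lit 5) (nat_lit 57) (nat_lit 5) (nat_lit 53) (nat_lit 5) (nat_lit 402) (nat_lit 365) (nat_lit 94)) (XT.lf (nat_lit 0) (nat_lit 10678894612) (nat_lit 420) (nat_lit 1761672575) (nat_lit 504) (nat_lit 77380783267) (nat_lit 47) (nat_lit 5) (nat_lit 52) (nat_lit 5) (nat_lit 53) (nat_lit 5) (nat_lit 403) (nat_lit 365) (nat_lit 93))))) (XT.nd (nat_lit 282) (nat_lit 336) (nat_lit 0) (XT.nd (nat_lit 94) (nat_lit 336) (nat_lit 0) (XT.lf (nat_lit 0) (nat_lit 19403984635)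 (nat_lit 504) (nat_lit 50718141852) (nat_lit 84) (nat_lit 21612367106) (nat_lit 47) (nat_lit 5) (nat_lit 53) (nat_lit 5) (nat_lit 48) (nat_lit 5) (nat_lit 404) (nat_lit 365) (nat_lit 92)) (XT.nd (nat_lit 94) (nat_lit 336) (nat_lit 0) (XT.lf (nat_lit 0) (nat_lit 26600909098) (nat_lit 504) (nat_lit 21431123736) (nat_lit 84) (nat_lit 45674366195) (nat_lit 47) (nat_lit 5) (nat_lit 53) (nat_lit 5) (nat_lit 48) (nat_lit 5) (nat_lit 405) (nat_lit 365) (nat_lit 91)) (XT.lf (nat_lit 0) (nat_lit 8943566008) (nat_lit 336) (nat_lit 25165728129) (nat_lit 420) (nat_lit 61627402045) (nat_lit 43) (nat_lit 5) (nat_lit 47) (nat_lit 5) (nat_lit 48) (nat_lit 5) (nat_lit 406) (nat_lit 365) (nat_lit 90)))) (XT.nd (nat_lit 94) (nat_lit 336) (nat_lit 0) (XT.lf (nat_lit 0) (nat_lit 40713785082) (nat_lit 336) (nat_lit 1359992516) (nat_lit 420) (nat_lit 55749233084) (nat_lit 43) (nat_lit 5) (nat_lit 47) (nat_lit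 5) (nat_lit 48) (nat_lit 5) (nat_lit 407) (nat_lit 365) (nat_lit 89)) (XT.nd (nat_lit 94) (nat_lit 336) (nat_lit 0) (XT.lf (nat_lit 0) (nat_lit 50514797175) (nat_lit 420) (nat_lit 26735519337) (nat_lit 84) (nat_lit 22716567250) (nat_lit 43) (nat_lit 5) (nat_lit 48) (nat_lit 5) (nat_lit 44) (nat_lit 5) (nat_lit 408) (nat_lit 365) (nat_lit 88)) (XT.lf (nat_lit 0) (nat_lit 4659336011) (nat_lit 336) (nat_lit 54617945279) (nat_lit 420) (nat_lit 42898083570) (nat_lit 39) (nat_lit 5) (nat_lit 43) (nat_lit 5) (nat_lit 44) (nat_lit 5) (nat_lit 409) (nat_lit 365) (nat_lit 87))))))) (XT.nd (nat_lit 50196) (nat_lit 0) (nat_lit 5292) (XT.nd (nat_lit 564) (nat_lit 336) (nat_lit 0) (XT.nd (nat_lit 282) (nat_lit 336) (nat_lit 0) (XT.nd (nat_lit 94) (nat_lit 0) (nat_lit 0) (XT.lf (nat_lit 0) (nat_lit 37593813380) (nat_lit 336) (nat_lit 30996321454) (nat_lit 420) (nat_lit 35853534820) (nat_lit 39) (nat_lit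 5) (nat_lit 43) (nat_lit 5) (nat_lit 44) (nat_lit 5) (nat_lit 410) (nat_lit 365) (nat_lit 86)) (XT.nd (nat_lit 94) (nat_lit 0) (nat_lit 0) (XT.lf (nat_lit 0) (nat_lit 71548874041) (nat_lit 336) (nat_lit 6642491198) (nat_lit 420) (nat_lit 28590938071) (nat_lit 39) (nat_lit 5) (nat_lit 43) (nat_lit 5) (nat_lit 44) (nat_lit 5) (nat_lit 411) (nat_lit 365) (nat_lit 85)) (XT.lf (nat_lit 0) (nat_lit 88273109302) (nat_lit 420) (nat_lit 2820465454) (nat_lit 84) (nat_lit 18094192109) (nat_lit 39) (nat_lit 5) (nat_lit 44) (nat_lit 5) (nat_lit 40) (nat_lit 5) (nat_lit 412) (nat_lit 365) (nat_lit 84)))) (XT.nd (nat_lit 94) (nat_lit 84) (nat_lit 0) (XT.lf (nat_lit 0) (nat_lit 31156729022) (nat_lit 252) (nat_lit 67887370931) (nat_lit 336) (nat_lit 12612023109) (nat_lit 36) (nat_lit 5) (nat_lit 39) (nat_lit 5) (nat_lit 40) (nat_lit 5) (nat_lit 413) (nat_lit 365) (nat_lit 83)) (XT.nd (nat_lit 94) (nat_lit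 84) (nat_lit 0) (XT.lf (nat_lit 0) (nat_lit 66246639876) (nat_lit 252) (nat_lit 43931493621) (nat_lit 336) (nat_lit 4021962711) (nat_lit 36) (nat_lit 5) (nat_lit 39) (nat_lit 5) (nat_lit 40) (nat_lit 5) (nat_lit 414) (nat_lit 365) (nat_lit 82)) (XT.lf (nat_lit 0) (nat_lit 4736694436) (nat_lit 336) (nat_lit 14446917503) (nat_lit 84) (nat_lit 97637844213) (nat_lit 35) (nat_lit 5) (nat_lit 39) (nat_lit 5) (nat_lit 36) (nat_lit 5) (nat_lit 415) (nat_lit 365) (nat_lit 81))))) (XT.nd (nat_lit 49350) (nat_lit 0) (nat_lit 5208) (XT.nd (nat_lit 94) (nat_lit 0) (nat_lit 0) (XT.lf (nat_lit 0) (nat_lit 13951403259) (nat_lit 420) (nat_lit 99112579676) (nat_lit 84) (nat_lit 6450510882) (nat_lit 31) (nat_lit 5) (nat_lit 36) (nat_lit 5) (nat_lit 32) (nat_lit 5) (nat_lit 416) (nat_lit 365) (nat_lit 80)) (XT.nd (nat_lit 94) (nat_lit 0) (nat_lit 0) (XT.lf (nat_lit 0) (nat_lit 23800029976) (nat_lit 420)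 (nat_lit 65847119596) (nat_lit 84) (nat_lit 32633071122) (nat_lit 31) (nat_lit 5) (nat_lit 36) (nat_lit 5) (nat_lit 32) (nat_lit 5) (nat_lit 417) (nat_lit 365) (nat_lit 79)) (XT.lf (nat_lit 0) (nat_lit 33953692751) (nat_lit 420) (nat_lit 31550779180) (nat_lit 84) (nat_lit 59627222716) (nat_lit 31) (nat_lit 5) (nat_lit 36) (nat_lit 5) (nat_lit 32) (nat_lit 5) (nat_lit 418) (nat_lit 365) (nat_lit 78)))) (XT.nd (nat_lit 94) (nat_lit 0) (nat_lit 0) (XT.lf (nat_lit 0) (nat_lit 13067278237) (nat_lit 1092) (nat_lit 5060667408) (nat_lit 1092) (nat_lit 5060667408) (nat_lit 93) (nat_lit 3) (nat_lit 106) (nat_lit 3) (nat_lit 106) (nat_lit 5) (nat_lit 366) (nat_lit 366) (nat_lit 129)) (XT.nd (nat_lit 94) (nat_lit 0) (nat_lit 0) (XT.lf (nat_lit 84) (nat_lit 6170642032) (nat_lit 0) (nat_lit 20454956468) (nat_lit 1092) (nat_lit 20467672793) (nat_lit 94) (nat_lit 5) (nat_lit 93) (nat_lit 3) (nat_lit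 106) (nat_lit 5) (nat_lit 367) (nat_lit 366) (nat_lit 128)) (XT.lf (nat_lit 84) (nat_lit 23181709787) (nat_lit 0) (nat_lit 4054796760) (nat_lit 1092) (nat_lit 20591768903) (nat_lit 94) (nat_lit 5) (nat_lit 93) (nat_lit 3) (nat_lit 106) (nat_lit 5) (nat_lit 368) (nat_lit 366) (nat_lit 127)))))) (XT.nd (nat_lit 564) (nat_lit 0) (nat_lit 168) (XT.nd (nat_lit 282) (nat_lit 0) (nat_lit 84) (XT.nd (nat_lit 94) (nat_lit 0) (nat_lit 0) (XT.lf (nat_lit 0) (nat_lit 27992896160) (nat_lit 1008) (nat_lit 7994006630) (nat_lit 1092) (nat_lit 12595244463) (nat_lit 94) (nat_lit 5) (nat_lit 106) (nat_lit 5) (nat_lit 107) (nat_lit 5) (nat_lit 369) (nat_lit 366) (nat_lit 126)) (XT.nd (nat_lit 94) (nat_lit 0) (nat_lit 0) (XT.lf (nat_lit 84) (nat_lit 9320564319) (nat_lit 0) (nat_lit 19585163253) (nat_lit 1092) (nat_lit 20449543902) (nat_lit 95) (nat_lit 5) (nat_lit 94) (nat_lit 5) (nat_lit 107) (nat_lit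 5) (nat_lit 370) (nat_lit 366) (nat_lit 125)) (XT.lf (nat_lit 84) (nat_lit 27340826142) (nat_lit 0) (nat_lit 2588556154) (nat_lit 1092) (nat_lit 20220427004) (nat_lit 95) (nat_lit 5) (nat_lit 94) (nat_lit 5) (nat_lit 107) (nat_lit 5) (nat_lit 371) (nat_lit 366) (nat_lit 124)))) (XT.nd (nat_lit 94) (nat_lit 0) (nat_lit 0) (XT.lf (nat_lit 0) (nat_lit 31132042571) (nat_lit 1008) (nat_lit 5197968002) (nat_lit 1092) (nat_lit 14634406676) (nat_lit 95) (nat_lit 5) (nat_lit 107) (nat_lit 5) (nat_lit 108) (nat_lit 5) (nat_lit 372) (nat_lit 366) (nat_lit 123)) (XT.nd (nat_lit 94) (nat_lit 0) (nat_lit 0) (XT.lf (nat_lit 84) (nat_lit 13197888580) (nat_lit 0) (nat_lit 19330638594) (nat_lit 1092) (nat_lit 19270902819) (nat_lit 96) (nat_lit 5) (nat_lit 95) (nat_lit 5) (nat_lit 108) (nat_lit 5) (nat_lit 373) (nat_lit 366) (nat_lit 122)) (XT.lf (nat_lit 84) (nat_lit 32273683062) (nat_lit 0) (nat_lit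 1748038746) (nat_lit 1092) (nat_lit 18636954936) (nat_lit 96) (nat_lit 5) (nat_lit 95) (nat_lit 5) (nat_lit 108) (nat_lit 5) (nat_lit 374) (nat_lit 366) (nat_lit 121))))) (XT.nd (nat_lit 282) (nat_lit 0) (nat_lit 84) (XT.nd (nat_lit 94) (nat_lit 0) (nat_lit 0) (XT.lf (nat_lit 0) (nat_lit 35722884381) (nat_lit 1008) (nat_lit 1766765432) (nat_lit 1092) (nat_lit 16049902750) (nat_lit 96) (nat_lit 5) (nat_lit 108) (nat_lit 5) (nat_lit 109) (nat_lit 5) (nat_lit 375) (nat_lit 366) (nat_lit 120)) (XT.nd (nat_lit 94) (nat_lit 0) (nat_lit 0) (XT.lf (nat_lit 84) (nat_lit 17768211217) (nat_lit 0) (nat_lit 19901928309) (nat_lit 1092) (nat_lit 16771606283) (nat_lit 97) (nat_lit 5) (nat_lit 96) (nat_lit 5) (nat_lit 109) (nat_lit 5) (nat_lit 376) (nat_lit 366) (nat_lit 119)) (XT.lf (nat_lit 84) (nat_lit 37945703780) (nat_lit 0) (nat_lit 1749730967) (nat_lit 1092) (nat_lit 15675928568) (nat_lit 97)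 (nat_lit 5) (nat_lit 96) (nat_lit 5) (nat_lit 109) (nat_lit 5) (nat_lit 377) (nat_lit 366) (nat_lit 118)))) (XT.nd (nat_lit 188) (nat_lit 0) (nat_lit 0) (XT.nd (nat_lit 94) (nat_lit 0) (nat_lit 0) (XT.lf (nat_lit 84) (nat_lit 2296332299) (nat_lit 0) (nat_lit 39677517592) (nat_lit 1092) (nat_lit 14350052737) (nat_lit 98) (nat_lit 5) (nat_lit 97) (nat_lit 5) (nat_lit 110) (nat_lit 5) (nat_lit 378) (nat_lit 366) (nat_lit 117)) (XT.lf (nat_lit 84) (nat_lit 22980325942) (nat_lit 0) (nat_lit 21541448712) (nat_lit 1092) (nat_lit 12778034716) (nat_lit 98) (nat_lit 5) (nat_lit 97) (nat_lit 5) (nat_lit 110) (nat_lit 5) (nat_lit 379) (nat_lit 366) (nat_lit 116))) (XT.nd (nat_lit 94) (nat_lit 0) (nat_lit 84) (XT.lf (nat_lit 84) (nat_lit 44305008195) (nat_lit 0) (nat_lit 2842974799) (nat_lit 1092) (nat_lit 11158011822) (nat_lit 98) (nat_lit 5) (nat_lit 97) (nat_lit 5) (nat_lit 110) (nat_lit 5)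 (nat_lit 380) (nat_lit 366) (nat_lit 115)) (XT.lf (nat_lit 84) (nat_lit 6923307740) (nat_lit 0) (nat_lit 43163335685) (nat_lit 1092) (nat_lit 9249570075) (nat_lit 99) (nat_lit 5) (nat_lit 98) (nat_lit 5) (nat_lit 111) (nat_lit 5) (nat_lit 381) (nat_lit 366) (nat_lit 114))))))))
noncomputable def xc231 : XT := (XT.nd (nat_lit 2256) (nat_lit 1344) (nat_lit 0) (XT.nd (nat_lit 1128) (nat_lit 1680) (nat_lit 0) (XT.nd (nat_lit 564) (nat_lit 1008) (nat_lit 0) (XT.nd (nat_lit 282) (nat_lit 672) (nat_lit 0) (XT.nd (nat_lit 94) (nat_lit 924) (nat_lit 0) (XT.lf (nat_lit 84) (nat_lit 28762872964) (nat_lit 0) (nat_lit 24527789591) (nat_lit 1092) (nat_lit 7102307947) (nat_lit 99) (nat_lit 5) (nat_lit 98) (nat_lit 5) (nat_lit 111) (nat_lit 5) (nat_lit 382) (nat_lit 366) (nat_lit 113)) (XT.nd (nat_lit 94) (nat_lit 924) (nat_lit 0) (XT.lf (nat_lit 84) (nat_lit 51278959377) (nat_lit 0) (nat_lit 5314402937)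 (nat_lit 1092) (nat_lit 4889148115) (nat_lit 99) (nat_lit 5) (nat_lit 98) (nat_lit 5) (nat_lit 111) (nat_lit 5) (nat_lit 383) (nat_lit 366) (nat_lit 112)) (XT.lf (nat_lit 0) (nat_lit 11984374369) (nat_lit 1008) (nat_lit 48276122820) (nat_lit 1092) (nat_lit 2337208703) (nat_lit 87) (nat_lit 5) (nat_lit 99) (nat_lit 5) (nat_lit 100) (nat_lit 5) (nat_lit 384) (nat_lit 366) (nat_lit 111)))) (XT.nd (nat_lit 94) (nat_lit 588) (nat_lit 0) (XT.lf (nat_lit 0) (nat_lit 449248832) (nat_lit 1092) (nat_lit 28726618390) (nat_lit 84) (nat_lit 34566516843) (nat_lit 86) (nat_lit 5) (nat_lit 99) (nat_lit 5) (nat_lit 87) (nat_lit 5) (nat_lit 385) (nat_lit 366) (nat_lit 110)) (XT.nd (nat_lit 94) (nat_lit 588) (nat_lit 0) (XT.lf (nat_lit 0) (nat_lit 3272936809) (nat_lit 1092) (nat_lit 6185830452) (nat_lit 84) (nat_lit 55463060682) (nat_lit 86) (nat_lit 5) (nat_lit 99) (nat_lit 5) (nat_lit 87) (nat_lit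 5) (nat_lit 386) (nat_lit 366) (nat_lit 109)) (XT.lf (nat_lit 0) (nat_lit 6465819439) (nat_lit 672) (nat_lit 48838220193) (nat_lit 84) (nat_lit 10825066478) (nat_lit 79) (nat_lit 5) (nat_lit 87) (nat_lit 5) (nat_lit 80) (nat_lit 5) (nat_lit 387) (nat_lit 366) (nat_lit 108))))) (XT.nd (nat_lit 282) (nat_lit 504) (nat_lit 0) (XT.nd (nat_lit 94) (nat_lit 504) (nat_lit 0) (XT.lf (nat_lit 0) (nat_lit 9919081221) (nat_lit 672) (nat_lit 25843202995) (nat_lit 84) (nat_lit 31606525203) (nat_lit 79) (nat_lit 5) (nat_lit 87) (nat_lit 5) (nat_lit 80) (nat_lit 5) (nat_lit 388) (nat_lit 366) (nat_lit 107)) (XT.nd (nat_lit 94) (nat_lit 504) (nat_lit 0) (XT.lf (nat_lit 0) (nat_lit 13478842319) (nat_lit 672) (nat_lit 2135835143) (nat_lit 84) (nat_lit 53032285997) (nat_lit 79) (nat_lit 5) (nat_lit 87) (nat_lit 5) (nat_lit 80) (nat_lit 5) (nat_lit 389) (nat_lit 366) (nat_lit 106)) (XT.lf (nat_lit 0)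 (nat_lit 17427722157) (nat_lit 588) (nat_lit 47246594434) (nat_lit 84) (nat_lit 5281784674) (nat_lit 73) (nat_lit 5) (nat_lit 80) (nat_lit 5) (nat_lit 74) (nat_lit 5) (nat_lit 390) (nat_lit 366) (nat_lit 105)))) (XT.nd (nat_lit 94) (nat_lit 504) (nat_lit 0) (XT.lf (nat_lit 0) (nat_lit 21680717094) (nat_lit 588) (nat_lit 23095222194) (nat_lit 84) (nat_lit 26524253015) (nat_lit 73) (nat_lit 5) (nat_lit 80) (nat_lit 5) (nat_lit 74) (nat_lit 5) (nat_lit 391) (nat_lit 366) (nat_lit 104)) (XT.nd (nat_lit 94) (nat_lit 0) (nat_lit 0) (XT.lf (nat_lit 0) (nat_lit 1841464337) (nat_lit 504) (nat_lit 24241850482) (nat_lit 588) (nat_lit 46602087364) (nat_lit 67) (nat_lit 5) (nat_lit 73) (nat_lit 5) (nat_lit 74) (nat_lit 5) (nat_lit 392) (nat_lit 366) (nat_lit 103)) (XT.lf (nat_lit 0) (nat_lit 28040319933) (nat_lit 504) (nat_lit 2822642837) (nat_lit 588) (nat_lit 43243135637) (nat_lit 67) (nat_lit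 5) (nat_lit 73) (nat_lit 5) (nat_lit 74) (nat_lit 5) (nat_lit 393) (nat_lit 366) (nat_lit 102)))))) (XT.nd (nat_lit 564) (nat_lit 840) (nat_lit 0) (XT.nd (nat_lit 282) (nat_lit 420) (nat_lit 0) (XT.nd (nat_lit 94) (nat_lit 420) (nat_lit 0) (XT.lf (nat_lit 0) (nat_lit 35981365054) (nat_lit 588) (nat_lit 20711041404) (nat_lit 84) (nat_lit 18872524037) (nat_lit 67) (nat_lit 5) (nat_lit 74) (nat_lit 5) (nat_lit 68) (nat_lit 5) (nat_lit 394) (nat_lit 366) (nat_lit 101)) (XT.nd (nat_lit 94) (nat_lit 0) (nat_lit 0) (XT.lf (nat_lit 0) (nat_lit 5511402265) (nat_lit 420) (nat_lit 35830110924) (nat_lit 504) (nat_lit 35724900204) (nat_lit 62) (nat_lit 5) (nat_lit 67) (nat_lit 5) (nat_lit 68) (nat_lit 5) (nat_lit 395) (nat_lit 366) (nat_lit 100)) (XT.lf (nat_lit 0) (nat_lit 32985345854) (nat_lit 420) (nat_lit 14098202952) (nat_lit 504) (nat_lit 31524208326) (nat_lit 62) (nat_lit 5) (nat_lit 67)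 (nat_lit 5) (nat_lit 68) (nat_lit 5) (nat_lit 396) (nat_lit 366) (nat_lit 99)))) (XT.nd (nat_lit 94) (nat_lit 420) (nat_lit 0) (XT.lf (nat_lit 0) (nat_lit 53085553756) (nat_lit 504) (nat_lit 18968772409) (nat_lit 84) (nat_lit 8140017620) (nat_lit 62) (nat_lit 5) (nat_lit 68) (nat_lit 5) (nat_lit 63) (nat_lit 5) (nat_lit 397) (nat_lit 366) (nat_lit 98)) (XT.nd (nat_lit 94) (nat_lit 0) (nat_lit 0) (XT.lf (nat_lit 0) (nat_lit 8538522686) (nat_lit 420) (nat_lit 50963562033) (nat_lit 504) (nat_lit 22320949671) (nat_lit 57) (nat_lit 5) (nat_lit 62) (nat_lit 5) (nat_lit 63) (nat_lit 5) (nat_lit 398) (nat_lit 366) (nat_lit 97)) (XT.lf (nat_lit 0) (nat_lit 37300229135) (nat_lit 420) (nat_lit 29014871852) (nat_lit 504) (nat_lit 17180990739) (nat_lit 57) (nat_lit 5) (nat_lit 62) (nat_lit 5) (nat_lit 63) (nat_lit 5) (nat_lit 399) (nat_lit 366) (nat_lit 96))))) (XT.nd (nat_lit 282) (nat_lit 420)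 (nat_lit 0) (XT.nd (nat_lit 94) (nat_lit 420) (nat_lit 0) (XT.lf (nat_lit 0) (nat_lit 66953118997) (nat_lit 420) (nat_lit 6385792225) (nat_lit 504) (nat_lit 11882117332) (nat_lit 57) (nat_lit 5) (nat_lit 62) (nat_lit 5) (nat_lit 63) (nat_lit 5) (nat_lit 400) (nat_lit 366) (nat_lit 95)) (XT.nd (nat_lit 94) (nat_lit 84) (nat_lit 0) (XT.lf (nat_lit 0) (nat_lit 10570251984) (nat_lit 336) (nat_lit 70282762784) (nat_lit 420) (nat_lit 6137976401) (nat_lit 53) (nat_lit 5) (nat_lit 57) (nat_lit 5) (nat_lit 58) (nat_lit 5) (nat_lit 401) (nat_lit 366) (nat_lit 94)) (XT.lf (nat_lit 0) (nat_lit 46125926) (nat_lit 420) (nat_lit 48185802613) (nat_lit 84) (nat_lit 40575978363) (nat_lit 52) (nat_lit 5) (nat_lit 57) (nat_lit 5) (nat_lit 53) (nat_lit 5) (nat_lit 402) (nat_lit 366) (nat_lit 93)))) (XT.nd (nat_lit 94) (nat_lit 420) (nat_lit 0) (XT.lf (nat_lit 0) (nat_lit 6294051569) (nat_lit 420) (nat_lit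 19138783215) (nat_lit 84) (nat_lit 65246379828) (nat_lit 52) (nat_lit 5) (nat_lit 57) (nat_lit 5) (nat_lit 53) (nat_lit 5) (nat_lit 403) (nat_lit 366) (nat_lit 92)) (XT.nd (nat_lit 94) (nat_lit 0) (nat_lit 0) (XT.lf (nat_lit 0) (nat_lit 11030523828) (nat_lit 420) (nat_lit 1814191128) (nat_lit 504) (nat_lit 79760439026) (nat_lit 47) (nat_lit 5) (nat_lit 52) (nat_lit 5) (nat_lit 53) (nat_lit 5) (nat_lit 404) (nat_lit 366) (nat_lit 91)) (XT.lf (nat_lit 0) (nat_lit 20023462525) (nat_lit 504) (nat_lit 52269821269) (nat_lit 84) (nat_lit 22284339935) (nat_lit 47) (nat_lit 5) (nat_lit 53) (nat_lit 5) (nat_lit 48) (nat_lit 5) (nat_lit 405) (nat_lit 366) (nat_lit 90))))))) (XT.nd (nat_lit 50384) (nat_lit 0) (nat_lit 5208) (XT.nd (nat_lit 564) (nat_lit 672) (nat_lit 0) (XT.nd (nat_lit 282) (nat_lit 336) (nat_lit 0) (XT.nd (nat_lit 94) (nat_lit 336) (nat_lit 0) (XT.lf (nat_lit 0) (nat_lit 27442951797)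 (nat_lit 504) (nat_lit 22075524478) (nat_lit 84) (nat_lit 47092201177) (nat_lit 47) (nat_lit 5) (nat_lit 53) (nat_lit 5) (nat_lit 48) (nat_lit 5) (nat_lit 406) (nat_lit 366) (nat_lit 89)) (XT.nd (nat_lit 94) (nat_lit 0) (nat_lit 0) (XT.lf (nat_lit 0) (nat_lit 9240578530) (nat_lit 336) (nat_lit 25943190666) (nat_lit 420) (nat_lit 63520157184) (nat_lit 43) (nat_lit 5) (nat_lit 47) (nat_lit 5) (nat_lit 48) (nat_lit 5) (nat_lit 407) (nat_lit 366) (nat_lit 88)) (XT.lf (nat_lit 0) (nat_lit 41995080193) (nat_lit 336) (nat_lit 1399557682) (nat_lit 420) (nat_lit 57460297017) (nat_lit 43) (nat_lit 5) (nat_lit 47) (nat_lit 5) (nat_lit 48) (nat_lit 5) (nat_lit 408) (nat_lit 366) (nat_lit 87)))) (XT.nd (nat_lit 94) (nat_lit 336) (nat_lit 0) (XT.lf (nat_lit 0) (nat_lit 52096855703) (nat_lit 420) (nat_lit 27545182554) (nat_lit 84) (nat_lit 23423246720) (nat_lit 43) (nat_lit 5) (nat_lit 48) (nat_lit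 5) (nat_lit 44) (nat_lit 5) (nat_lit 409) (nat_lit 366) (nat_lit 86)) (XT.nd (nat_lit 94) (nat_lit 0) (nat_lit 0) (XT.lf (nat_lit 0) (nat_lit 4822719556) (nat_lit 336) (nat_lit 56307961111) (nat_lit 420) (nat_lit 44211559701) (nat_lit 39) (nat_lit 5) (nat_lit 43) (nat_lit 5) (nat_lit 44) (nat_lit 5) (nat_lit 410) (nat_lit 366) (nat_lit 85)) (XT.lf (nat_lit 0) (nat_lit 38777596113) (nat_lit 336) (nat_lit 31954161375) (nat_lit 420) (nat_lit 36949121985) (nat_lit 39) (nat_lit 5) (nat_lit 43) (nat_lit 5) (nat_lit 44) (nat_lit 5) (nat_lit 411) (nat_lit 366) (nat_lit 84))))) (XT.nd (nat_lit 282) (nat_lit 420) (nat_lit 0) (XT.nd (nat_lit 94) (nat_lit 252) (nat_lit 0) (XT.lf (nat_lit 0) (nat_lit 73784711172) (nat_lit 336) (nat_lit 6845453969) (nat_lit 420) (nat_lit 29461861986) (nat_lit 39) (nat_lit 5) (nat_lit 43) (nat_lit 5) (nat_lit 44) (nat_lit 5) (nat_lit 412) (nat_lit 366) (nat_lit 83))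 (XT.nd (nat_lit 94) (nat_lit 252) (nat_lit 0) (XT.lf (nat_lit 0) (nat_lit 91024024660) (nat_lit 420) (nat_lit 2890130424) (nat_lit 84) (nat_lit 18657919951) (nat_lit 39) (nat_lit 5) (nat_lit 44) (nat_lit 5) (nat_lit 40) (nat_lit 5) (nat_lit 413) (nat_lit 366) (nat_lit 82)) (XT.lf (nat_lit 0) (nat_lit 32140177181) (nat_lit 252) (nat_lit 69988478881) (nat_lit 336) (nat_lit 12988304215) (nat_lit 36) (nat_lit 5) (nat_lit 39) (nat_lit 5) (nat_lit 40) (nat_lit 5) (nat_lit 414) (nat_lit 366) (nat_lit 81)))) (XT.nd (nat_lit 94) (nat_lit 420) (nat_lit 0) (XT.lf (nat_lit 0) (nat_lit 68317346390) (nat_lit 252) (nat_lit 45290071622) (nat_lit 336) (nat_lit 4132393691) (nat_lit 36) (nat_lit 5) (nat_lit 39) (nat_lit 5) (nat_lit 40) (nat_lit 5) (nat_lit 415) (nat_lit 366) (nat_lit 80)) (XT.nd (nat_lit 94) (nat_lit 336) (nat_lit 0) (XT.lf (nat_lit 0) (nat_lit 4897074894) (nat_lit 336) (nat_lit 14877888526)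 (nat_lit 84) (nat_lit 100667480792) (nat_lit 35) (nat_lit 5) (nat_lit 39) (nat_lit 5) (nat_lit 36) (nat_lit 5) (nat_lit 416) (nat_lit 366) (nat_lit 79)) (XT.lf (nat_lit 0) (nat_lit 14397232111) (nat_lit 420) (nat_lit 102167923118) (nat_lit 84) (nat_lit 6653818973) (nat_lit 31) (nat_lit 5) (nat_lit 36) (nat_lit 5) (nat_lit 32) (nat_lit 5) (nat_lit 417) (nat_lit 366) (nat_lit 78)))))) (XT.nd (nat_lit 564) (nat_lit 0) (nat_lit 168) (XT.nd (nat_lit 282) (nat_lit 0) (nat_lit 84) (XT.nd (nat_lit 94) (nat_lit 0) (nat_lit 0) (XT.lf (nat_lit 0) (nat_lit 13496861278) (nat_lit 1092) (nat_lit 5204851775) (nat_lit 1092) (nat_lit 5204851775) (nat_lit 93) (nat_lit 3) (nat_lit 106) (nat_lit 3) (nat_lit 106) (nat_lit 5) (nat_lit 367) (nat_lit 367) (nat_lit 127)) (XT.nd (nat_lit 94) (nat_lit 0) (nat_lit 0) (XT.lf (nat_lit 84) (nat_lit 6387067503) (nat_lit 0) (nat_lit 21111695557) (nat_lit 1092) (nat_lit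 21052655287) (nat_lit 94) (nat_lit 5) (nat_lit 93) (nat_lit 3) (nat_lit 106) (nat_lit 5) (nat_lit 368) (nat_lit 367) (nat_lit 126)) (XT.lf (nat_lit 84) (nat_lit 23924722585) (nat_lit 0) (nat_lit 4202450298) (nat_lit 1092) (nat_lit 21182087200) (nat_lit 94) (nat_lit 5) (nat_lit 93) (nat_lit 3) (nat_lit 106) (nat_lit 5) (nat_lit 369) (nat_lit 367) (nat_lit 125)))) (XT.nd (nat_lit 94) (nat_lit 0) (nat_lit 0) (XT.lf (nat_lit 0) (nat_lit 28905406143) (nat_lit 1008) (nat_lit 8216321809) (nat_lit 1092) (nat_lit 12964831380) (nat_lit 94) (nat_lit 5) (nat_lit 106) (nat_lit 5) (nat_lit 107) (nat_lit 5) (nat_lit 370) (nat_lit 367) (nat_lit 124)) (XT.nd (nat_lit 94) (nat_lit 0) (nat_lit 0) (XT.lf (nat_lit 84) (nat_lit 9634742684) (nat_lit 0) (nat_lit 20210698094) (nat_lit 1092) (nat_lit 21038251009) (nat_lit 95) (nat_lit 5) (nat_lit 94) (nat_lit 5) (nat_lit 107) (nat_lit 5) (nat_lit 371) (nat_lit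 367) (nat_lit 123)) (XT.lf (nat_lit 84) (nat_lit 28212873684) (nat_lit 0) (nat_lit 2686643083) (nat_lit 1092) (nat_lit 20803391420) (nat_lit 95) (nat_lit 5) (nat_lit 94) (nat_lit 5) (nat_lit 107) (nat_lit 5) (nat_lit 372) (nat_lit 367) (nat_lit 122))))) (XT.nd (nat_lit 282) (nat_lit 0) (nat_lit 84) (XT.nd (nat_lit 94) (nat_lit 0) (nat_lit 0) (XT.lf (nat_lit 0) (nat_lit 32138015258) (nat_lit 1008) (nat_lit 5333688789) (nat_lit 1092) (nat_lit 15071116719) (nat_lit 95) (nat_lit 5) (nat_lit 107) (nat_lit 5) (nat_lit 108) (nat_lit 5) (nat_lit 373) (nat_lit 367) (nat_lit 121)) (XT.nd (nat_lit 94) (nat_lit 0) (nat_lit 0) (XT.lf (nat_lit 84) (nat_lit 13632182032) (nat_lit 0) (nat_lit 19944629275) (nat_lit 1092) (nat_lit 19826944765) (nat_lit 96) (nat_lit 5) (nat_lit 95) (nat_lit 5) (nat_lit 108) (nat_lit 5) (nat_lit 374) (nat_lit 367) (nat_lit 120)) (XT.lf (nat_lit 84) (nat_lit 33298569667)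 (nat_lit 0) (nat_lit 1816525605) (nat_lit 1092) (nat_lit 19174587986) (nat_lit 96) (nat_lit 5) (nat_lit 95) (nat_lit 5) (nat_lit 108) (nat_lit 5) (nat_lit 375) (nat_lit 367) (nat_lit 119)))) (XT.nd (nat_lit 188) (nat_lit 0) (nat_lit 0) (XT.nd (nat_lit 94) (nat_lit 0) (nat_lit 0) (XT.lf (nat_lit 0) (nat_lit 36867692684) (nat_lit 1008) (nat_lit 1796358895) (nat_lit 1092) (nat_lit 16533861382) (nat_lit 96) (nat_lit 5) (nat_lit 108) (nat_lit 5) (nat_lit 109) (nat_lit 5) (nat_lit 376) (nat_lit 367) (nat_lit 118)) (XT.lf (nat_lit 84) (nat_lit 18343947143) (nat_lit 0) (nat_lit 20530488313) (nat_lit 1092) (nat_lit 17253672144) (nat_lit 97) (nat_lit 5) (nat_lit 96) (nat_lit 5) (nat_lit 109) (nat_lit 5) (nat_lit 377) (nat_lit 367) (nat_lit 117))) (XT.nd (nat_lit 94) (nat_lit 0) (nat_lit 84) (XT.lf (nat_lit 84) (nat_lit 39146192642) (nat_lit 0) (nat_lit 1815224059) (nat_lit 1092) (nat_lit 16125166607)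 (nat_lit 97) (nat_lit 5) (nat_lit 96) (nat_lit 5) (nat_lit 109) (nat_lit 5) (nat_lit 378) (nat_lit 367) (nat_lit 116)) (XT.lf (nat_lit 84) (nat_lit 2392835597) (nat_lit 0) (nat_lit 40916704897) (nat_lit 1092) (nat_lit 14759145273) (nat_lit 98) (nat_lit 5) (nat_lit 97) (nat_lit 5) (nat_lit 110) (nat_lit 5) (nat_lit 379) (nat_lit 367) (nat_lit 115))))))))
noncomputable def xc232 : XT := (XT.nd (nat_lit 2256) (nat_lit 1344) (nat_lit 0) (XT.nd (nat_lit 1128) (nat_lit 1764) (nat_lit 0) (XT.nd (nat_lit 564) (nat_lit 1176) (nat_lit 0) (XT.nd (nat_lit 282) (nat_lit 840) (nat_lit 0) (XT.nd (nat_lit 94) (nat_lit 0) (nat_lit 0) (XT.lf (nat_lit 84) (nat_lit 23717271814) (nat_lit 0) (nat_lit 22218141729) (nat_lit 1092) (nat_lit 13139469894) (nat_lit 98) (nat_lit 5) (nat_lit 97) (nat_lit 5) (nat_lit 110) (nat_lit 5) (nat_lit 380) (nat_lit 367) (nat_lit 114)) (XT.nd (nat_lit 94) (nat_lit 0) (nat_lit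 84) (XT.lf (nat_lit 84) (nat_lit 45702280877) (nat_lit 0) (nat_lit 2939747277) (nat_lit 1092) (nat_lit 11470269162) (nat_lit 98) (nat_lit 5) (nat_lit 97) (nat_lit 5) (nat_lit 110) (nat_lit 5) (nat_lit 381) (nat_lit 367) (nat_lit 113)) (XT.lf (nat_lit 84) (nat_lit 7162762782) (nat_lit 0) (nat_lit 44508211549) (nat_lit 1092) (nat_lit 9503508970) (nat_lit 99) (nat_lit 5) (nat_lit 98) (nat_lit 5) (nat_lit 111) (nat_lit 5) (nat_lit 382) (nat_lit 367) (nat_lit 112)))) (XT.nd (nat_lit 94) (nat_lit 924) (nat_lit 0) (XT.lf (nat_lit 84) (nat_lit 29678607866) (nat_lit 0) (nat_lit 25294758690) (nat_lit 1092) (nat_lit 7290667876) (nat_lit 99) (nat_lit 5) (nat_lit 98) (nat_lit 5) (nat_lit 111) (nat_lit 5) (nat_lit 383) (nat_lit 367) (nat_lit 111)) (XT.nd (nat_lit 94) (nat_lit 924) (nat_lit 0) (XT.lf (nat_lit 84) (nat_lit 52891968747) (nat_lit 0) (nat_lit 5485558372) (nat_lit 1092) (nat_lit 5009856598)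 (nat_lit 99) (nat_lit 5) (nat_lit 98) (nat_lit 5) (nat_lit 111) (nat_lit 5) (nat_lit 384) (nat_lit 367) (nat_lit 110)) (XT.lf (nat_lit 0) (nat_lit 12380151577) (nat_lit 1008) (nat_lit 49777475472) (nat_lit 1092) (nat_lit 2379550250) (nat_lit 87) (nat_lit 5) (nat_lit 99) (nat_lit 5) (nat_lit 100) (nat_lit 5) (nat_lit 385) (nat_lit 367) (nat_lit 109))))) (XT.nd (nat_lit 282) (nat_lit 504) (nat_lit 0) (XT.nd (nat_lit 94) (nat_lit 588) (nat_lit 0) (XT.lf (nat_lit 0) (nat_lit 491793620) (nat_lit 1092) (nat_lit 29592875506) (nat_lit 84) (nat_lit 35632694185) (nat_lit 86) (nat_lit 5) (nat_lit 99) (nat_lit 5) (nat_lit 87) (nat_lit 5) (nat_lit 386) (nat_lit 367) (nat_lit 108)) (XT.nd (nat_lit 94) (nat_lit 588) (nat_lit 0) (XT.lf (nat_lit 0) (nat_lit 3402155438) (nat_lit 1092) (nat_lit 6354052832) (nat_lit 84) (nat_lit 57177192788) (nat_lit 86) (nat_lit 5) (nat_lit 99) (nat_lit 5) (nat_lit 87)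 (nat_lit 5) (nat_lit 387) (nat_lit 367) (nat_lit 107)) (XT.lf (nat_lit 0) (nat_lit 6693375725) (nat_lit 672) (nat_lit 50327886187) (nat_lit 84) (nat_lit 11156867133) (nat_lit 79) (nat_lit 5) (nat_lit 87) (nat_lit 5) (nat_lit 80) (nat_lit 5) (nat_lit 388) (nat_lit 367) (nat_lit 106)))) (XT.nd (nat_lit 94) (nat_lit 504) (nat_lit 0) (XT.lf (nat_lit 0) (nat_lit 10252873304) (nat_lit 672) (nat_lit 26620754671) (nat_lit 84) (nat_lit 32582664627) (nat_lit 79) (nat_lit 5) (nat_lit 87) (nat_lit 5) (nat_lit 80) (nat_lit 5) (nat_lit 389) (nat_lit 367) (nat_lit 105)) (XT.nd (nat_lit 94) (nat_lit 504) (nat_lit 0) (XT.lf (nat_lit 0) (nat_lit 13922196194) (nat_lit 672) (nat_lit 2179167646) (nat_lit 84) (nat_lit 54672734140) (nat_lit 79) (nat_lit 5) (nat_lit 87) (nat_lit 5) (nat_lit 80) (nat_lit 5) (nat_lit 390) (nat_lit 367) (nat_lit 104)) (XT.lf (nat_lit 0) (nat_lit 17992925919) (nat_lit 588) (nat_lit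 48687668469) (nat_lit 84) (nat_lit 5443246122) (nat_lit 73) (nat_lit 5) (nat_lit 80) (nat_lit 5) (nat_lit 74) (nat_lit 5) (nat_lit 391) (nat_lit 367) (nat_lit 103)))))) (XT.nd (nat_lit 564) (nat_lit 840) (nat_lit 0) (XT.nd (nat_lit 282) (nat_lit 420) (nat_lit 0) (XT.nd (nat_lit 94) (nat_lit 504) (nat_lit 0) (XT.lf (nat_lit 0) (nat_lit 22377013675) (nat_lit 588) (nat_lit 23788312402) (nat_lit 84) (nat_lit 27344299352) (nat_lit 73) (nat_lit 5) (nat_lit 80) (nat_lit 5) (nat_lit 74) (nat_lit 5) (nat_lit 392) (nat_lit 367) (nat_lit 102)) (XT.nd (nat_lit 94) (nat_lit 0) (nat_lit 0) (XT.lf (nat_lit 0) (nat_lit 1921179958) (nat_lit 504) (nat_lit 24994408993) (nat_lit 588) (nat_lit 48022207149) (nat_lit 67) (nat_lit 5) (nat_lit 73) (nat_lit 5) (nat_lit 74) (nat_lit 5) (nat_lit 393) (nat_lit 367) (nat_lit 101)) (XT.lf (nat_lit 0) (nat_lit 28931519634) (nat_lit 504) (nat_lit 2911174005) (nat_lit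 588) (nat_lit 44559865932) (nat_lit 67) (nat_lit 5) (nat_lit 73) (nat_lit 5) (nat_lit 74) (nat_lit 5) (nat_lit 394) (nat_lit 367) (nat_lit 100)))) (XT.nd (nat_lit 94) (nat_lit 420) (nat_lit 0) (XT.lf (nat_lit 0) (nat_lit 37119065559) (nat_lit 588) (nat_lit 21330980991) (nat_lit 84) (nat_lit 19456594103) (nat_lit 67) (nat_lit 5) (nat_lit 74) (nat_lit 5) (nat_lit 68) (nat_lit 5) (nat_lit 395) (nat_lit 367) (nat_lit 99)) (XT.nd (nat_lit 94) (nat_lit 0) (nat_lit 0) (XT.lf (nat_lit 0) (nat_lit 5704134662) (nat_lit 420) (nat_lit 36940790808) (nat_lit 504) (nat_lit 36809761458) (nat_lit 62) (nat_lit 5) (nat_lit 67) (nat_lit 5) (nat_lit 68) (nat_lit 5) (nat_lit 396) (nat_lit 367) (nat_lit 98)) (XT.lf (nat_lit 0) (nat_lit 34029112649) (nat_lit 420) (nat_lit 14535195299) (nat_lit 504) (nat_lit 32479527986) (nat_lit 62) (nat_lit 5) (nat_lit 67) (nat_lit 5) (nat_lit 68) (nat_lit 5) (nat_lit 397)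 (nat_lit 367) (nat_lit 97))))) (XT.nd (nat_lit 282) (nat_lit 420) (nat_lit 0) (XT.nd (nat_lit 94) (nat_lit 420) (nat_lit 0) (XT.lf (nat_lit 0) (nat_lit 54751739040) (nat_lit 504) (nat_lit 19535483086) (nat_lit 84) (nat_lit 8392407534) (nat_lit 62) (nat_lit 5) (nat_lit 68) (nat_lit 5) (nat_lit 63) (nat_lit 5) (nat_lit 398) (nat_lit 367) (nat_lit 96)) (XT.nd (nat_lit 94) (nat_lit 0) (nat_lit 0) (XT.lf (nat_lit 0) (nat_lit 8824322298) (nat_lit 420) (nat_lit 52542452145) (nat_lit 504) (nat_lit 22992050953) (nat_lit 57) (nat_lit 5) (nat_lit 62) (nat_lit 5) (nat_lit 63) (nat_lit 5) (nat_lit 399) (nat_lit 367) (nat_lit 95)) (XT.lf (nat_lit 0) (nat_lit 38477007052) (nat_lit 420) (nat_lit 29913382045) (nat_lit 504) (nat_lit 17693380155) (nat_lit 57) (nat_lit 5) (nat_lit 62) (nat_lit 5) (nat_lit 63) (nat_lit 5) (nat_lit 400) (nat_lit 367) (nat_lit 94)))) (XT.nd (nat_lit 94) (nat_lit 420) (nat_lit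 0) (XT.lf (nat_lit 0) (nat_lit 69048520985) (nat_lit 420) (nat_lit 6582829539) (nat_lit 504) (nat_lit 12230849684) (nat_lit 57) (nat_lit 5) (nat_lit 62) (nat_lit 5) (nat_lit 63) (nat_lit 5) (nat_lit 401) (nat_lit 367) (nat_lit 93)) (XT.nd (nat_lit 94) (nat_lit 84) (nat_lit 0) (XT.lf (nat_lit 0) (nat_lit 10918248366) (nat_lit 336) (nat_lit 72459784074) (nat_lit 420) (nat_lit 6309013155) (nat_lit 53) (nat_lit 5) (nat_lit 57) (nat_lit 5) (nat_lit 58) (nat_lit 5) (nat_lit 402) (nat_lit 367) (nat_lit 92)) (XT.lf (nat_lit 0) (nat_lit 65841825) (nat_lit 420) (nat_lit 49659393722) (nat_lit 84) (nat_lit 41835064462) (nat_lit 52) (nat_lit 5) (nat_lit 57) (nat_lit 5) (nat_lit 53) (nat_lit 5) (nat_lit 403) (nat_lit 367) (nat_lit 91))))))) (XT.nd (nat_lit 1128) (nat_lit 0) (nat_lit 0) (XT.nd (nat_lit 564) (nat_lit 588) (nat_lit 0) (XT.nd (nat_lit 282) (nat_lit 336) (nat_lit 0) (XT.nd (nat_lit 94)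 (nat_lit 420) (nat_lit 0) (XT.lf (nat_lit 0) (nat_lit 6506903342) (nat_lit 420) (nat_lit 19712523156) (nat_lit 84) (nat_lit 67270211365) (nat_lit 52) (nat_lit 5) (nat_lit 57) (nat_lit 5) (nat_lit 53) (nat_lit 5) (nat_lit 404) (nat_lit 367) (nat_lit 90)) (XT.nd (nat_lit 94) (nat_lit 0) (nat_lit 0) (XT.lf (nat_lit 0) (nat_lit 11391834354) (nat_lit 420) (nat_lit 1868461746) (nat_lit 504) (nat_lit 82214998313) (nat_lit 47) (nat_lit 5) (nat_lit 52) (nat_lit 5) (nat_lit 53) (nat_lit 5) (nat_lit 405) (nat_lit 367) (nat_lit 89)) (XT.lf (nat_lit 0) (nat_lit 20661080762) (nat_lit 504) (nat_lit 53870821913) (nat_lit 84) (nat_lit 22977026083) (nat_lit 47) (nat_lit 5) (nat_lit 53) (nat_lit 5) (nat_lit 48) (nat_lit 5) (nat_lit 406) (nat_lit 367) (nat_lit 88)))) (XT.nd (nat_lit 94) (nat_lit 336) (nat_lit 0) (XT.lf (nat_lit 0) (nat_lit 28310066328) (nat_lit 504) (nat_lit 22741084151) (nat_lit 84)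 (nat_lit 48553874748) (nat_lit 47) (nat_lit 5) (nat_lit 53) (nat_lit 5) (nat_lit 48) (nat_lit 5) (nat_lit 407) (nat_lit 367) (nat_lit 87)) (XT.nd (nat_lit 94) (nat_lit 0) (nat_lit 0) (XT.lf (nat_lit 0) (nat_lit 9545627904) (nat_lit 336) (nat_lit 26744912988) (nat_lit 420) (nat_lit 65472635798) (nat_lit 43) (nat_lit 5) (nat_lit 47) (nat_lit 5) (nat_lit 48) (nat_lit 5) (nat_lit 408) (nat_lit 367) (nat_lit 86)) (XT.lf (nat_lit 0) (nat_lit 43314960113) (nat_lit 336) (nat_lit 1440503050) (nat_lit 420) (nat_lit 59225420483) (nat_lit 43) (nat_lit 5) (nat_lit 47) (nat_lit 5) (nat_lit 48) (nat_lit 5) (nat_lit 409) (nat_lit 367) (nat_lit 85))))) (XT.nd (nat_lit 282) (nat_lit 252) (nat_lit 0) (XT.nd (nat_lit 94) (nat_lit 336) (nat_lit 0) (XT.lf (nat_lit 0) (nat_lit 53727004427) (nat_lit 420) (nat_lit 28381078900) (nat_lit 84) (nat_lit 24151687194) (nat_lit 43) (nat_lit 5) (nat_lit 48) (nat_lit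 5) (nat_lit 44) (nat_lit 5) (nat_lit 410) (nat_lit 367) (nat_lit 84)) (XT.nd (nat_lit 94) (nat_lit 0) (nat_lit 0) (XT.lf (nat_lit 0) (nat_lit 4990045897) (nat_lit 336) (nat_lit 58050553449) (nat_lit 420) (nat_lit 45566722887) (nat_lit 39) (nat_lit 5) (nat_lit 43) (nat_lit 5) (nat_lit 44) (nat_lit 5) (nat_lit 411) (nat_lit 367) (nat_lit 83)) (XT.lf (nat_lit 0) (nat_lit 39996987757) (nat_lit 336) (nat_lit 32941874755) (nat_lit 420) (nat_lit 38079612502) (nat_lit 39) (nat_lit 5) (nat_lit 43) (nat_lit 5) (nat_lit 44) (nat_lit 5) (nat_lit 412) (nat_lit 367) (nat_lit 82)))) (XT.nd (nat_lit 94) (nat_lit 252) (nat_lit 0) (XT.lf (nat_lit 0) (nat_lit 76088803624) (nat_lit 336) (nat_lit 7054883583) (nat_lit 420) (nat_lit 30360696425) (nat_lit 39) (nat_lit 5) (nat_lit 43) (nat_lit 5) (nat_lit 44) (nat_lit 5) (nat_lit 413) (nat_lit 367) (nat_lit 81)) (XT.nd (nat_lit 94) (nat_lit 252) (nat_lit 0)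 (XT.lf (nat_lit 0) (nat_lit 93859362557) (nat_lit 420) (nat_lit 2963007523) (nat_lit 84) (nat_lit 19238957040) (nat_lit 39) (nat_lit 5) (nat_lit 44) (nat_lit 5) (nat_lit 40) (nat_lit 5) (nat_lit 414) (nat_lit 367) (nat_lit 80)) (XT.lf (nat_lit 0) (nat_lit 33153070373) (nat_lit 252) (nat_lit 72154922597) (nat_lit 336) (nat_lit 13377120245) (nat_lit 36) (nat_lit 5) (nat_lit 39) (nat_lit 5) (nat_lit 40) (nat_lit 5) (nat_lit 415) (nat_lit 367) (nat_lit 79)))))) (XT.nd (nat_lit 50008) (nat_lit 0) (nat_lit 4872) (XT.nd (nat_lit 49726) (nat_lit 0) (nat_lit 4788) (XT.nd (nat_lit 49538) (nat_lit 0) (nat_lit 4788) (XT.lf (nat_lit 0) (nat_lit 70451234274) (nat_lit 252) (nat_lit 46690960904) (nat_lit 336) (nat_lit 4247092075) (nat_lit 36) (nat_lit 5) (nat_lit 39) (nat_lit 5) (nat_lit 40) (nat_lit 5) (nat_lit 416) (nat_lit 367) (nat_lit 78)) (XT.nd (nat_lit 94) (nat_lit 0) (nat_lit 0) (XT.lf (nat_lit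 0) (nat_lit 13938310369) (nat_lit 1092) (nat_lit 5354257882) (nat_lit 1092) (nat_lit 5354257882) (nat_lit 93) (nat_lit 3) (nat_lit 106) (nat_lit 3) (nat_lit 106) (nat_lit 5) (nat_lit 368) (nat_lit 368) (nat_lit 125)) (XT.lf (nat_lit 84) (nat_lit 6608713341) (nat_lit 0) (nat_lit 21787452823) (nat_lit 1092) (nat_lit 21658705118) (nat_lit 94) (nat_lit 5) (nat_lit 93) (nat_lit 3) (nat_lit 106) (nat_lit 5) (nat_lit 369) (nat_lit 368) (nat_lit 124)))) (XT.nd (nat_lit 94) (nat_lit 0) (nat_lit 84) (XT.lf (nat_lit 84) (nat_lit 24689324723) (nat_lit 0) (nat_lit 4353380673) (nat_lit 1092) (nat_lit 21793550057) (nat_lit 94) (nat_lit 5) (nat_lit 93) (nat_lit 3) (nat_lit 106) (nat_lit 5) (nat_lit 370) (nat_lit 368) (nat_lit 123)) (XT.nd (nat_lit 94) (nat_lit 0) (nat_lit 0) (XT.lf (nat_lit 0) (nat_lit 29843554489) (nat_lit 1008) (nat_lit 8447039110) (nat_lit 1092) (nat_lit 13347111399) (nat_lit 94)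 (nat_lit 5) (nat_lit 106) (nat_lit 5) (nat_lit 107) (nat_lit 5) (nat_lit 371) (nat_lit 368) (nat_lit 122)) (XT.lf (nat_lit 84) (nat_lit 9957165519) (nat_lit 0) (nat_lit 20854534961) (nat_lit 1092) (nat_lit 21647887013) (nat_lit 95) (nat_lit 5) (nat_lit 94) (nat_lit 5) (nat_lit 107) (nat_lit 5) (nat_lit 372) (nat_lit 368) (nat_lit 121))))) (XT.nd (nat_lit 282) (nat_lit 0) (nat_lit 84) (XT.nd (nat_lit 94) (nat_lit 0) (nat_lit 84) (XT.lf (nat_lit 84) (nat_lit 29110504593) (nat_lit 0) (nat_lit 2786713912) (nat_lit 1092) (nat_lit 21407026159) (nat_lit 95) (nat_lit 5) (nat_lit 94) (nat_lit 5) (nat_lit 107) (nat_lit 5) (nat_lit 373) (nat_lit 368) (nat_lit 120)) (XT.nd (nat_lit 94) (nat_lit 0) (nat_lit 0) (XT.lf (nat_lit 0) (nat_lit 33172751743) (nat_lit 1008) (nat_lit 5475122366) (nat_lit 1092) (nat_lit 15522369139) (nat_lit 95) (nat_lit 5) (nat_lit 107) (nat_lit 5) (nat_lit 108) (nat_lit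 5) (nat_lit 374) (nat_lit 368) (nat_lit 119)) (XT.lf (nat_lit 84) (nat_lit 14078448375) (nat_lit 0) (nat_lit 20576780539) (nat_lit 1092) (nat_lit 20402673600) (nat_lit 96) (nat_lit 5) (nat_lit 95) (nat_lit 5) (nat_lit 108) (nat_lit 5) (nat_lit 375) (nat_lit 368) (nat_lit 118)))) (XT.nd (nat_lit 94) (nat_lit 0) (nat_lit 84) (XT.lf (nat_lit 84) (nat_lit 34353782359) (nat_lit 0) (nat_lit 1886288681) (nat_lit 1092) (nat_lit 19731263597) (nat_lit 96) (nat_lit 5) (nat_lit 95) (nat_lit 5) (nat_lit 108) (nat_lit 5) (nat_lit 376) (nat_lit 368) (nat_lit 117)) (XT.nd (nat_lit 94) (nat_lit 0) (nat_lit 0) (XT.lf (nat_lit 0) (nat_lit 38045774845) (nat_lit 1008) (nat_lit 1828360989) (nat_lit 1092) (nat_lit 17033627594) (nat_lit 96) (nat_lit 5) (nat_lit 108) (nat_lit 5) (nat_lit 109) (nat_lit 5) (nat_lit 377) (nat_lit 368) (nat_lit 116)) (XT.lf (nat_lit 84) (nat_lit 18936054747) (nat_lit 0) (nat_lit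 21177846575) (nat_lit 1092) (nat_lit 17752924199) (nat_lit 97) (nat_lit 5) (nat_lit 96) (nat_lit 5) (nat_lit 109) (nat_lit 5) (nat_lit 378) (nat_lit 368) (nat_lit 115))))))))
noncomputable def xc233 : XT := (XT.nd (nat_lit 2256) (nat_lit 1764) (nat_lit 0) (XT.nd (nat_lit 1128) (nat_lit 1848) (nat_lit 0) (XT.nd (nat_lit 564) (nat_lit 1428) (nat_lit 0) (XT.nd (nat_lit 282) (nat_lit 0) (nat_lit 84) (XT.nd (nat_lit 94) (nat_lit 0) (nat_lit 84) (XT.lf (nat_lit 84) (nat_lit 40382464907) (nat_lit 0) (nat_lit 1882080995) (nat_lit 1092) (nat_lit 16590505762) (nat_lit 97) (nat_lit 5) (nat_lit 96) (nat_lit 5) (nat_lit 109) (nat_lit 5) (nat_lit 379) (nat_lit 368) (nat_lit 114)) (XT.nd (nat_lit 94) (nat_lit 0) (nat_lit 0) (XT.lf (nat_lit 84) (nat_lit 2490830928) (nat_lit 0) (nat_lit 42193763008) (nat_lit 1092) (nat_lit 15183037750) (nat_lit 98) (nat_lit 5) (nat_lit 97) (nat_lit 5) (nat_lit 110)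 (nat_lit 5) (nat_lit 380) (nat_lit 368) (nat_lit 113)) (XT.lf (nat_lit 84) (nat_lit 24475608528) (nat_lit 0) (nat_lit 22915284588) (nat_lit 1092) (nat_lit 13514163950) (nat_lit 98) (nat_lit 5) (nat_lit 97) (nat_lit 5) (nat_lit 110) (nat_lit 5) (nat_lit 381) (nat_lit 368) (nat_lit 112)))) (XT.nd (nat_lit 94) (nat_lit 0) (nat_lit 84) (XT.lf (nat_lit 84) (nat_lit 47141458265) (nat_lit 0) (nat_lit 3039007925) (nat_lit 1092) (nat_lit 11794199095) (nat_lit 98) (nat_lit 5) (nat_lit 97) (nat_lit 5) (nat_lit 110) (nat_lit 5) (nat_lit 382) (nat_lit 368) (nat_lit 111)) (XT.nd (nat_lit 94) (nat_lit 0) (nat_lit 0) (XT.lf (nat_lit 84) (nat_lit 7408170058) (nat_lit 0) (nat_lit 45894375051) (nat_lit 1092) (nat_lit 9767262639) (nat_lit 99) (nat_lit 5) (nat_lit 98) (nat_lit 5) (nat_lit 111) (nat_lit 5) (nat_lit 383) (nat_lit 368) (nat_lit 110)) (XT.lf (nat_lit 84) (nat_lit 30621303905) (nat_lit 0) (nat_lit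 26085112450) (nat_lit 1092) (nat_lit 7486751220) (nat_lit 99) (nat_lit 5) (nat_lit 98) (nat_lit 5) (nat_lit 111) (nat_lit 5) (nat_lit 384) (nat_lit 368) (nat_lit 109))))) (XT.nd (nat_lit 282) (nat_lit 588) (nat_lit 0) (XT.nd (nat_lit 94) (nat_lit 1008) (nat_lit 0) (XT.lf (nat_lit 84) (nat_lit 54553597659) (nat_lit 0) (nat_lit 5661640013) (nat_lit 1092) (nat_lit 5136134645) (nat_lit 99) (nat_lit 5) (nat_lit 98) (nat_lit 5) (nat_lit 111) (nat_lit 5) (nat_lit 385) (nat_lit 368) (nat_lit 108)) (XT.nd (nat_lit 94) (nat_lit 84) (nat_lit 0) (XT.lf (nat_lit 0) (nat_lit 12786760822) (nat_lit 1008) (nat_lit 51325086169) (nat_lit 1092) (nat_lit 2424987967) (nat_lit 87) (nat_lit 5) (nat_lit 99) (nat_lit 5) (nat_lit 100) (nat_lit 5) (nat_lit 386) (nat_lit 368) (nat_lit 107)) (XT.lf (nat_lit 0) (nat_lit 533962198) (nat_lit 1092) (nat_lit 30487424032) (nat_lit 84) (nat_lit 36732241968) (nat_lit 86)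 (nat_lit 5) (nat_lit 99) (nat_lit 5) (nat_lit 87) (nat_lit 5) (nat_lit 387) (nat_lit 368) (nat_lit 106)))) (XT.nd (nat_lit 94) (nat_lit 588) (nat_lit 0) (XT.lf (nat_lit 0) (nat_lit 3533735716) (nat_lit 1092) (nat_lit 6528884323) (nat_lit 84) (nat_lit 58944772345) (nat_lit 86) (nat_lit 5) (nat_lit 99) (nat_lit 5) (nat_lit 87) (nat_lit 5) (nat_lit 388) (nat_lit 368) (nat_lit 105)) (XT.nd (nat_lit 94) (nat_lit 0) (nat_lit 0) (XT.lf (nat_lit 0) (nat_lit 6926380135) (nat_lit 672) (nat_lit 51865172272) (nat_lit 84) (nat_lit 11499177291) (nat_lit 79) (nat_lit 5) (nat_lit 87) (nat_lit 5) (nat_lit 80) (nat_lit 5) (nat_lit 389) (nat_lit 368) (nat_lit 104)) (XT.lf (nat_lit 0) (nat_lit 10595455114) (nat_lit 672) (nat_lit 27423807585) (nat_lit 84) (nat_lit 33589281331) (nat_lit 79) (nat_lit 5) (nat_lit 87) (nat_lit 5) (nat_lit 80) (nat_lit 5) (nat_lit 390) (nat_lit 368) (nat_lit 103)))))) (XT.nd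 (nat_lit 564) (nat_lit 840) (nat_lit 0) (XT.nd (nat_lit 282) (nat_lit 504) (nat_lit 0) (XT.nd (nat_lit 94) (nat_lit 504) (nat_lit 0) (XT.lf (nat_lit 0) (nat_lit 14377783052) (nat_lit 672) (nat_lit 2225198583) (nat_lit 84) (nat_lit 56364246610) (nat_lit 79) (nat_lit 5) (nat_lit 87) (nat_lit 5) (nat_lit 80) (nat_lit 5) (nat_lit 391) (nat_lit 368) (nat_lit 102)) (XT.nd (nat_lit 94) (nat_lit 0) (nat_lit 0) (XT.lf (nat_lit 0) (nat_lit 18574173500) (nat_lit 588) (nat_lit 50174811914) (nat_lit 84) (nat_lit 5609847560) (nat_lit 73) (nat_lit 5) (nat_lit 80) (nat_lit 5) (nat_lit 74) (nat_lit 5) (nat_lit 392) (nat_lit 368) (nat_lit 101)) (XT.lf (nat_lit 0) (nat_lit 23093462377) (nat_lit 588) (nat_lit 24504242543) (nat_lit 84) (nat_lit 28189897761) (nat_lit 73) (nat_lit 5) (nat_lit 80) (nat_lit 5) (nat_lit 74) (nat_lit 5) (nat_lit 393) (nat_lit 368) (nat_lit 100)))) (XT.nd (nat_lit 94) (nat_lit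 0) (nat_lit 0) (XT.lf (nat_lit 0) (nat_lit 2002026336) (nat_lit 504) (nat_lit 25770233964) (nat_lit 588) (nat_lit 49487804485) (nat_lit 67) (nat_lit 5) (nat_lit 73) (nat_lit 5) (nat_lit 74) (nat_lit 5) (nat_lit 394) (nat_lit 368) (nat_lit 99)) (XT.nd (nat_lit 94) (nat_lit 0) (nat_lit 0) (XT.lf (nat_lit 0) (nat_lit 29849046403) (nat_lit 504) (nat_lit 3002388674) (nat_lit 588) (nat_lit 45918824991) (nat_lit 67) (nat_lit 5) (nat_lit 73) (nat_lit 5) (nat_lit 74) (nat_lit 5) (nat_lit 395) (nat_lit 368) (nat_lit 98)) (XT.lf (nat_lit 0) (nat_lit 38290715205) (nat_lit 588) (nat_lit 21971447886) (nat_lit 84) (nat_lit 20058828281) (nat_lit 67) (nat_lit 5) (nat_lit 74) (nat_lit 5) (nat_lit 68) (nat_lit 5) (nat_lit 396) (nat_lit 368) (nat_lit 97))))) (XT.nd (nat_lit 282) (nat_lit 420) (nat_lit 0) (XT.nd (nat_lit 94) (nat_lit 0) (nat_lit 0) (XT.lf (nat_lit 0) (nat_lit 5901545837) (nat_lit 420)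 (nat_lit 38085904941) (nat_lit 504) (nat_lit 37929592679) (nat_lit 62) (nat_lit 5) (nat_lit 67) (nat_lit 5) (nat_lit 68) (nat_lit 5) (nat_lit 397) (nat_lit 368) (nat_lit 96)) (XT.nd (nat_lit 94) (nat_lit 0) (nat_lit 0) (XT.lf (nat_lit 0) (nat_lit 35103979254) (nat_lit 420) (nat_lit 14985737486) (nat_lit 504) (nat_lit 33465761555) (nat_lit 62) (nat_lit 5) (nat_lit 67) (nat_lit 5) (nat_lit 68) (nat_lit 5) (nat_lit 398) (nat_lit 368) (nat_lit 95)) (XT.lf (nat_lit 0) (nat_lit 56468359856) (nat_lit 504) (nat_lit 20121024690) (nat_lit 84) (nat_lit 8652618610) (nat_lit 62) (nat_lit 5) (nat_lit 68) (nat_lit 5) (nat_lit 63) (nat_lit 5) (nat_lit 399) (nat_lit 368) (nat_lit 94)))) (XT.nd (nat_lit 94) (nat_lit 0) (nat_lit 0) (XT.lf (nat_lit 0) (nat_lit 9117731588) (nat_lit 420) (nat_lit 54170345917) (nat_lit 504) (nat_lit 23685191248) (nat_lit 57) (nat_lit 5) (nat_lit 62) (nat_lit 5) (nat_lit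 63) (nat_lit 5) (nat_lit 400) (nat_lit 368) (nat_lit 93)) (XT.nd (nat_lit 94) (nat_lit 0) (nat_lit 0) (XT.lf (nat_lit 0) (nat_lit 39689052562) (nat_lit 420) (nat_lit 30839802373) (nat_lit 504) (nat_lit 18222851384) (nat_lit 57) (nat_lit 5) (nat_lit 62) (nat_lit 5) (nat_lit 63) (nat_lit 5) (nat_lit 401) (nat_lit 368) (nat_lit 92)) (XT.lf (nat_lit 0) (nat_lit 71207704371) (nat_lit 420) (nat_lit 6786029636) (nat_lit 504) (nat_lit 12591554468) (nat_lit 57) (nat_lit 5) (nat_lit 62) (nat_lit 5) (nat_lit 63) (nat_lit 5) (nat_lit 402) (nat_lit 368) (nat_lit 91))))))) (XT.nd (nat_lit 1128) (nat_lit 252) (nat_lit 0) (XT.nd (nat_lit 564) (nat_lit 672) (nat_lit 0) (XT.nd (nat_lit 282) (nat_lit 420) (nat_lit 0) (XT.nd (nat_lit 94) (nat_lit 84) (nat_lit 0) (XT.lf (nat_lit 0) (nat_lit 11275829131) (nat_lit 336) (nat_lit 74704396345) (nat_lit 420) (nat_lit 6486491697) (nat_lit 53) (nat_lit 5) (nat_lit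 57) (nat_lit 5) (nat_lit 58) (nat_lit 5) (nat_lit 403) (nat_lit 368) (nat_lit 90)) (XT.nd (nat_lit 94) (nat_lit 0) (nat_lit 0) (XT.lf (nat_lit 0) (nat_lit 85085807) (nat_lit 420) (nat_lit 51179860787) (nat_lit 84) (nat_lit 43133109330) (nat_lit 52) (nat_lit 5) (nat_lit 57) (nat_lit 5) (nat_lit 53) (nat_lit 5) (nat_lit 404) (nat_lit 368) (nat_lit 89)) (XT.lf (nat_lit 0) (nat_lit 6725302976) (nat_lit 420) (nat_lit 20305207746) (nat_lit 84) (nat_lit 69356710972) (nat_lit 52) (nat_lit 5) (nat_lit 57) (nat_lit 5) (nat_lit 53) (nat_lit 5) (nat_lit 405) (nat_lit 368) (nat_lit 88)))) (XT.nd (nat_lit 94) (nat_lit 0) (nat_lit 0) (XT.lf (nat_lit 0) (nat_lit 11763198527) (nat_lit 420) (nat_lit 1924531399) (nat_lit 504) (nat_lit 84746715957) (nat_lit 47) (nat_lit 5) (nat_lit 52) (nat_lit 5) (nat_lit 53) (nat_lit 5) (nat_lit 406) (nat_lit 368) (nat_lit 87)) (XT.nd (nat_lit 94) (nat_lit 0) (nat_lit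 0) (XT.lf (nat_lit 0) (nat_lit 21317464688) (nat_lit 504) (nat_lit 55522600529) (nat_lit 84) (nat_lit 23691074642) (nat_lit 47) (nat_lit 5) (nat_lit 53) (nat_lit 5) (nat_lit 48) (nat_lit 5) (nat_lit 407) (nat_lit 368) (nat_lit 86)) (XT.lf (nat_lit 0) (nat_lit 29203091014) (nat_lit 504) (nat_lit 23428388639) (nat_lit 84) (nat_lit 50060752674) (nat_lit 47) (nat_lit 5) (nat_lit 53) (nat_lit 5) (nat_lit 48) (nat_lit 5) (nat_lit 408) (nat_lit 368) (nat_lit 85))))) (XT.nd (nat_lit 282) (nat_lit 336) (nat_lit 0) (XT.nd (nat_lit 94) (nat_lit 0) (nat_lit 0) (XT.lf (nat_lit 0) (nat_lit 9859032605) (nat_lit 336) (nat_lit 27571637764) (nat_lit 420) (nat_lit 67486627235) (nat_lit 43) (nat_lit 5) (nat_lit 47) (nat_lit 5) (nat_lit 48) (nat_lit 5) (nat_lit 409) (nat_lit 368) (nat_lit 84)) (XT.nd (nat_lit 94) (nat_lit 0) (nat_lit 0) (XT.lf (nat_lit 0) (nat_lit 44674688219) (nat_lit 336) (nat_lit 1482862305)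 (nat_lit 420) (nat_lit 61046219117) (nat_lit 43) (nat_lit 5) (nat_lit 47) (nat_lit 5) (nat_lit 48) (nat_lit 5) (nat_lit 410) (nat_lit 368) (nat_lit 83)) (XT.lf (nat_lit 0) (nat_lit 55406790625) (nat_lit 420) (nat_lit 29243954460) (nat_lit 84) (nat_lit 24902571916) (nat_lit 43) (nat_lit 5) (nat_lit 48) (nat_lit 5) (nat_lit 44) (nat_lit 5) (nat_lit 411) (nat_lit 368) (nat_lit 82)))) (XT.nd (nat_lit 94) (nat_lit 0) (nat_lit 0) (XT.lf (nat_lit 0) (nat_lit 5161503726) (nat_lit 336) (nat_lit 59847341147) (nat_lit 420) (nat_lit 46964808014) (nat_lit 39) (nat_lit 5) (nat_lit 43) (nat_lit 5) (nat_lit 44) (nat_lit 5) (nat_lit 412) (nat_lit 368) (nat_lit 81)) (XT.nd (nat_lit 94) (nat_lit 0) (nat_lit 0) (XT.lf (nat_lit 0) (nat_lit 41253156652) (nat_lit 336) (nat_lit 33960376986) (nat_lit 420) (nat_lit 39246032689) (nat_lit 39) (nat_lit 5) (nat_lit 43) (nat_lit 5) (nat_lit 44) (nat_lit 5) (nat_lit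 413) (nat_lit 368) (nat_lit 80)) (XT.lf (nat_lit 0) (nat_lit 78463329839) (nat_lit 336) (nat_lit 7270970147) (nat_lit 420) (nat_lit 31288252601) (nat_lit 39) (nat_lit 5) (nat_lit 43) (nat_lit 5) (nat_lit 44) (nat_lit 5) (nat_lit 414) (nat_lit 368) (nat_lit 79)))))) (XT.nd (nat_lit 50102) (nat_lit 0) (nat_lit 4872) (XT.nd (nat_lit 49820) (nat_lit 0) (nat_lit 4788) (XT.nd (nat_lit 94) (nat_lit 252) (nat_lit 0) (XT.lf (nat_lit 0) (nat_lit 96781790784) (nat_lit 420) (nat_lit 3039133986) (nat_lit 84) (nat_lit 19837849813) (nat_lit 39) (nat_lit 5) (nat_lit 44) (nat_lit 5) (nat_lit 40) (nat_lit 5) (nat_lit 415) (nat_lit 368) (nat_lit 78)) (XT.nd (nat_lit 49632) (nat_lit 0) (nat_lit 4788) (XT.lf (nat_lit 0) (nat_lit 34196383106) (nat_lit 252) (nat_lit 74388715559) (nat_lit 336) (nat_lit 13778808237) (nat_lit 36) (nat_lit 5) (nat_lit 39) (nat_lit 5) (nat_lit 40) (nat_lit 5) (nat_lit 416) (nat_lit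 368) (nat_lit 77)) (XT.lf (nat_lit 0) (nat_lit 14392079304) (nat_lit 1092) (nat_lit 5509003060) (nat_lit 1092) (nat_lit 5509003060) (nat_lit 93) (nat_lit 3) (nat_lit 106) (nat_lit 3) (nat_lit 106) (nat_lit 5) (nat_lit 369) (nat_lit 369) (nat_lit 123)))) (XT.nd (nat_lit 94) (nat_lit 0) (nat_lit 0) (XT.lf (nat_lit 84) (nat_lit 6835829563) (nat_lit 0) (nat_lit 22482897241) (nat_lit 1092) (nat_lit 22286301654) (nat_lit 94) (nat_lit 5) (nat_lit 93) (nat_lit 3) (nat_lit 106) (nat_lit 5) (nat_lit 370) (nat_lit 369) (nat_lit 122)) (XT.nd (nat_lit 94) (nat_lit 0) (nat_lit 84) (XT.lf (nat_lit 84) (nat_lit 25476271004) (nat_lit 0) (nat_lit 4507766494) (nat_lit 1092) (nat_lit 22426644462) (nat_lit 94) (nat_lit 5) (nat_lit 93) (nat_lit 3) (nat_lit 106) (nat_lit 5) (nat_lit 371) (nat_lit 369) (nat_lit 121)) (XT.lf (nat_lit 0) (nat_lit 30808292918) (nat_lit 1008) (nat_lit 8686329538) (nat_lit 1092)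 (nat_lit 13742404803) (nat_lit 94) (nat_lit 5) (nat_lit 106) (nat_lit 5) (nat_lit 107) (nat_lit 5) (nat_lit 372) (nat_lit 369) (nat_lit 120))))) (XT.nd (nat_lit 282) (nat_lit 0) (nat_lit 84) (XT.nd (nat_lit 94) (nat_lit 0) (nat_lit 0) (XT.lf (nat_lit 84) (nat_lit 10288176956) (nat_lit 0) (nat_lit 21517305753) (nat_lit 1092) (nat_lit 22278942029) (nat_lit 95) (nat_lit 5) (nat_lit 94) (nat_lit 5) (nat_lit 107) (nat_lit 5) (nat_lit 373) (nat_lit 369) (nat_lit 119)) (XT.nd (nat_lit 94) (nat_lit 0) (nat_lit 84) (XT.lf (nat_lit 84) (nat_lit 30034597845) (nat_lit 0) (nat_lit 2888892740) (nat_lit 1092) (nat_lit 22031818091) (nat_lit 95) (nat_lit 5) (nat_lit 94) (nat_lit 5) (nat_lit 107) (nat_lit 5) (nat_lit 374) (nat_lit 369) (nat_lit 118)) (XT.lf (nat_lit 0) (nat_lit 34237287126) (nat_lit 1008) (nat_lit 5622356660) (nat_lit 1092) (nat_lit 15988555261) (nat_lit 95) (nat_lit 5) (nat_lit 107)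 (nat_lit 5) (nat_lit 108) (nat_lit 5) (nat_lit 375) (nat_lit 369) (nat_lit 117)))) (XT.nd (nat_lit 188) (nat_lit 0) (nat_lit 84) (XT.nd (nat_lit 94) (nat_lit 0) (nat_lit 0) (XT.lf (nat_lit 84) (nat_lit 14537147037) (nat_lit 0) (nat_lit 21227707082) (nat_lit 1092) (nat_lit 20998554525) (nat_lit 96) (nat_lit 5) (nat_lit 95) (nat_lit 5) (nat_lit 108) (nat_lit 5) (nat_lit 376) (nat_lit 369) (nat_lit 116)) (XT.lf (nat_lit 84) (nat_lit 35440346860) (nat_lit 0) (nat_lit 1957417700) (nat_lit 1092) (nat_lit 20307431355) (nat_lit 96) (nat_lit 5) (nat_lit 95) (nat_lit 5) (nat_lit 108) (nat_lit 5) (nat_lit 377) (nat_lit 369) (nat_lit 115))) (XT.nd (nat_lit 94) (nat_lit 0) (nat_lit 0) (XT.lf (nat_lit 0) (nat_lit 39258293562) (nat_lit 1008) (nat_lit 1862758052) (nat_lit 1092) (nat_lit 17549643746) (nat_lit 96) (nat_lit 5) (nat_lit 108) (nat_lit 5) (nat_lit 109) (nat_lit 5) (nat_lit 378) (nat_lit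 369) (nat_lit 114)) (XT.lf (nat_lit 84) (nat_lit 19545128985) (nat_lit 0) (nat_lit 21844626541) (nat_lit 1092) (nat_lit 18269762414) (nat_lit 97) (nat_lit 5) (nat_lit 96) (nat_lit 5) (nat_lit 109) (nat_lit 5) (nat_lit 379) (nat_lit 369) (nat_lit 113))))))))
noncomputable def xc234 : XT := (XT.nd (nat_lit 2256) (nat_lit 1512) (nat_lit 0) (XT.nd (nat_lit 1128) (nat_lit 1848) (nat_lit 0) (XT.nd (nat_lit 564) (nat_lit 1428) (nat_lit 0) (XT.nd (nat_lit 282) (nat_lit 0) (nat_lit 84) (XT.nd (nat_lit 94) (nat_lit 0) (nat_lit 84) (XT.lf (nat_lit 84) (nat_lit 41655714666) (nat_lit 0) (nat_lit 1950383529) (nat_lit 1092) (nat_lit 17072316354) (nat_lit 97) (nat_lit 5) (nat_lit 96) (nat_lit 5) (nat_lit 109) (nat_lit 5) (nat_lit 380) (nat_lit 369) (nat_lit 112)) (XT.nd (nat_lit 94) (nat_lit 0) (nat_lit 0) (XT.lf (nat_lit 84) (nat_lit 2590453368) (nat_lit 0) (nat_lit 43509898143) (nat_lit 1092) (nat_lit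 15622063509) (nat_lit 98) (nat_lit 5) (nat_lit 97) (nat_lit 5) (nat_lit 110) (nat_lit 5) (nat_lit 381) (nat_lit 369) (nat_lit 111)) (XT.lf (nat_lit 84) (nat_lit 25256085351) (nat_lit 0) (nat_lit 23633542486) (nat_lit 1092) (nat_lit 13902406222) (nat_lit 98) (nat_lit 5) (nat_lit 97) (nat_lit 5) (nat_lit 110) (nat_lit 5) (nat_lit 382) (nat_lit 369) (nat_lit 110)))) (XT.nd (nat_lit 94) (nat_lit 0) (nat_lit 84) (XT.lf (nat_lit 84) (nat_lit 48623922966) (nat_lit 0) (nat_lit 3140864189) (nat_lit 1092) (nat_lit 12130045446) (nat_lit 98) (nat_lit 5) (nat_lit 97) (nat_lit 5) (nat_lit 110) (nat_lit 5) (nat_lit 383) (nat_lit 369) (nat_lit 109)) (XT.nd (nat_lit 94) (nat_lit 0) (nat_lit 0) (XT.lf (nat_lit 84) (nat_lit 7659801210) (nat_lit 0) (nat_lit 47323130010) (nat_lit 1092) (nat_lit 10041020274) (nat_lit 99) (nat_lit 5) (nat_lit 98) (nat_lit 5) (nat_lit 111) (nat_lit 5) (nat_lit 384) (nat_lit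 369) (nat_lit 108)) (XT.lf (nat_lit 84) (nat_lit 31591881377) (nat_lit 0) (nat_lit 26899598978) (nat_lit 1092) (nat_lit 7690685796) (nat_lit 99) (nat_lit 5) (nat_lit 98) (nat_lit 5) (nat_lit 111) (nat_lit 5) (nat_lit 385) (nat_lit 369) (nat_lit 107))))) (XT.nd (nat_lit 282) (nat_lit 588) (nat_lit 0) (XT.nd (nat_lit 94) (nat_lit 1008) (nat_lit 0) (XT.lf (nat_lit 84) (nat_lit 56265435279) (nat_lit 0) (nat_lit 5842823058) (nat_lit 1092) (nat_lit 5268046660) (nat_lit 99) (nat_lit 5) (nat_lit 98) (nat_lit 5) (nat_lit 111) (nat_lit 5) (nat_lit 386) (nat_lit 369) (nat_lit 106)) (XT.nd (nat_lit 94) (nat_lit 84) (nat_lit 0) (XT.lf (nat_lit 0) (nat_lit 13204623017) (nat_lit 1008) (nat_lit 52920405723) (nat_lit 1092) (nat_lit 2473512189) (nat_lit 87) (nat_lit 5) (nat_lit 99) (nat_lit 5) (nat_lit 100) (nat_lit 5) (nat_lit 387) (nat_lit 369) (nat_lit 105)) (XT.lf (nat_lit 0) (nat_lit 575843309)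 (nat_lit 1092) (nat_lit 31411055858) (nat_lit 84) (nat_lit 37866175785) (nat_lit 86) (nat_lit 5) (nat_lit 99) (nat_lit 5) (nat_lit 87) (nat_lit 5) (nat_lit 388) (nat_lit 369) (nat_lit 104)))) (XT.nd (nat_lit 94) (nat_lit 588) (nat_lit 0) (XT.lf (nat_lit 0) (nat_lit 3667848237) (nat_lit 1092) (nat_lit 6710447226) (nat_lit 84) (nat_lit 60767437897) (nat_lit 86) (nat_lit 5) (nat_lit 99) (nat_lit 5) (nat_lit 87) (nat_lit 5) (nat_lit 389) (nat_lit 369) (nat_lit 103)) (XT.nd (nat_lit 94) (nat_lit 0) (nat_lit 0) (XT.lf (nat_lit 0) (nat_lit 7165096695) (nat_lit 672) (nat_lit 53451469352) (nat_lit 84) (nat_lit 11852309498) (nat_lit 79) (nat_lit 5) (nat_lit 87) (nat_lit 5) (nat_lit 80) (nat_lit 5) (nat_lit 390) (nat_lit 369) (nat_lit 102)) (XT.lf (nat_lit 0) (nat_lit 10947191406) (nat_lit 672) (nat_lit 28253069518) (nat_lit 84) (nat_lit 34627307259) (nat_lit 79) (nat_lit 5) (nat_lit 87) (nat_lit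 5) (nat_lit 80) (nat_lit 5) (nat_lit 391) (nat_lit 369) (nat_lit 101)))))) (XT.nd (nat_lit 564) (nat_lit 840) (nat_lit 0) (XT.nd (nat_lit 282) (nat_lit 504) (nat_lit 0) (XT.nd (nat_lit 94) (nat_lit 504) (nat_lit 0) (XT.lf (nat_lit 0) (nat_lit 14846071614) (nat_lit 672) (nat_lit 2273931338) (nat_lit 84) (nat_lit 58108393936) (nat_lit 79) (nat_lit 5) (nat_lit 87) (nat_lit 5) (nat_lit 80) (nat_lit 5) (nat_lit 392) (nat_lit 369) (nat_lit 100)) (XT.nd (nat_lit 94) (nat_lit 0) (nat_lit 0) (XT.lf (nat_lit 0) (nat_lit 19172049773) (nat_lit 588) (nat_lit 51709370226) (nat_lit 84) (nat_lit 5781740350) (nat_lit 73) (nat_lit 5) (nat_lit 80) (nat_lit 5) (nat_lit 74) (nat_lit 5) (nat_lit 393) (nat_lit 369) (nat_lit 99)) (XT.lf (nat_lit 0) (nat_lit 23830772799) (nat_lit 588) (nat_lit 25243640446) (nat_lit 84) (nat_lit 29061832619) (nat_lit 73) (nat_lit 5) (nat_lit 80) (nat_lit 5) (nat_lit 74) (nat_lit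 5) (nat_lit 394) (nat_lit 369) (nat_lit 98)))) (XT.nd (nat_lit 94) (nat_lit 0) (nat_lit 0) (XT.lf (nat_lit 0) (nat_lit 2084117920) (nat_lit 504) (nat_lit 26570050379) (nat_lit 588) (nat_lit 51000203062) (nat_lit 67) (nat_lit 5) (nat_lit 73) (nat_lit 5) (nat_lit 74) (nat_lit 5) (nat_lit 395) (nat_lit 369) (nat_lit 97)) (XT.nd (nat_lit 94) (nat_lit 0) (nat_lit 0) (XT.lf (nat_lit 0) (nat_lit 30793793386) (nat_lit 504) (nat_lit 3096373647) (nat_lit 588) (nat_lit 47321238380) (nat_lit 67) (nat_lit 5) (nat_lit 73) (nat_lit 5) (nat_lit 74) (nat_lit 5) (nat_lit 396) (nat_lit 369) (nat_lit 96)) (XT.lf (nat_lit 0) (nat_lit 39497444575) (nat_lit 588) (nat_lit 22633000890) (nat_lit 84) (nat_lit 20679786225) (nat_lit 67) (nat_lit 5) (nat_lit 74) (nat_lit 5) (nat_lit 68) (nat_lit 5) (nat_lit 397) (nat_lit 369) (nat_lit 95))))) (XT.nd (nat_lit 282) (nat_lit 420) (nat_lit 0) (XT.nd (nat_lit 94) (nat_lit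 0) (nat_lit 0) (XT.lf (nat_lit 0) (nat_lit 6103857592) (nat_lit 420) (nat_lit 39266520596) (nat_lit 504) (nat_lit 39085398608) (nat_lit 62) (nat_lit 5) (nat_lit 67) (nat_lit 5) (nat_lit 68) (nat_lit 5) (nat_lit 398) (nat_lit 369) (nat_lit 94)) (XT.nd (nat_lit 94) (nat_lit 0) (nat_lit 0) (XT.lf (nat_lit 0) (nat_lit 36210984215) (nat_lit 420) (nat_lit 15450249375) (nat_lit 504) (nat_lit 34483790421) (nat_lit 62) (nat_lit 5) (nat_lit 67) (nat_lit 5) (nat_lit 68) (nat_lit 5) (nat_lit 399) (nat_lit 369) (nat_lit 93)) (XT.lf (nat_lit 0) (nat_lit 58237051744) (nat_lit 504) (nat_lit 20725906175) (nat_lit 84) (nat_lit 8920893480) (nat_lit 62) (nat_lit 5) (nat_lit 68) (nat_lit 5) (nat_lit 63) (nat_lit 5) (nat_lit 400) (nat_lit 369) (nat_lit 92)))) (XT.nd (nat_lit 94) (nat_lit 0) (nat_lit 0) (XT.lf (nat_lit 0) (nat_lit 9419060503) (nat_lit 420) (nat_lit 55848759022) (nat_lit 504) (nat_lit 24400980620)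 (nat_lit 57) (nat_lit 5) (nat_lit 62) (nat_lit 5) (nat_lit 63) (nat_lit 5) (nat_lit 401) (nat_lit 369) (nat_lit 91)) (XT.nd (nat_lit 94) (nat_lit 0) (nat_lit 0) (XT.lf (nat_lit 0) (nat_lit 40937530782) (nat_lit 420) (nat_lit 31794994716) (nat_lit 504) (nat_lit 18769863020) (nat_lit 57) (nat_lit 5) (nat_lit 62) (nat_lit 5) (nat_lit 63) (nat_lit 5) (nat_lit 402) (nat_lit 369) (nat_lit 90)) (XT.lf (nat_lit 0) (nat_lit 73432716039) (nat_lit 420) (nat_lit 6995580326) (nat_lit 504) (nat_lit 12964534017) (nat_lit 57) (nat_lit 5) (nat_lit 62) (nat_lit 5) (nat_lit 63) (nat_lit 5) (nat_lit 403) (nat_lit 369) (nat_lit 89))))))) (XT.nd (nat_lit 50854) (nat_lit 0) (nat_lit 4536) (XT.nd (nat_lit 564) (nat_lit 672) (nat_lit 0) (XT.nd (nat_lit 282) (nat_lit 420) (nat_lit 0) (XT.nd (nat_lit 94) (nat_lit 84) (nat_lit 0) (XT.lf (nat_lit 0) (nat_lit 11643362683) (nat_lit 336) (nat_lit 77018688797) (nat_lit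 420) (nat_lit 6670544218) (nat_lit 53) (nat_lit 5) (nat_lit 57) (nat_lit 5) (nat_lit 58) (nat_lit 5) (nat_lit 404) (nat_lit 369) (nat_lit 88)) (XT.nd (nat_lit 94) (nat_lit 0) (nat_lit 0) (XT.lf (nat_lit 0) (nat_lit 103907395) (nat_lit 420) (nat_lit 52748586202) (nat_lit 84) (nat_lit 44471325005) (nat_lit 52) (nat_lit 5) (nat_lit 57) (nat_lit 5) (nat_lit 53) (nat_lit 5) (nat_lit 405) (nat_lit 369) (nat_lit 87)) (XT.lf (nat_lit 0) (nat_lit 6949484680) (nat_lit 420) (nat_lit 20917355637) (nat_lit 84) (nat_lit 71507825546) (nat_lit 52) (nat_lit 5) (nat_lit 57) (nat_lit 5) (nat_lit 53) (nat_lit 5) (nat_lit 406) (nat_lit 369) (nat_lit 86)))) (XT.nd (nat_lit 94) (nat_lit 0) (nat_lit 0) (XT.lf (nat_lit 0) (nat_lit 12144995947) (nat_lit 420) (nat_lit 1982448947) (nat_lit 504) (nat_lit 87357920666) (nat_lit 47) (nat_lit 5) (nat_lit 52) (nat_lit 5) (nat_lit 53) (nat_lit 5) (nat_lit 407) (nat_lit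 369) (nat_lit 85)) (XT.nd (nat_lit 94) (nat_lit 0) (nat_lit 0) (XT.lf (nat_lit 0) (nat_lit 21993255298) (nat_lit 504) (nat_lit 57226663298) (nat_lit 84) (nat_lit 24427154415) (nat_lit 47) (nat_lit 5) (nat_lit 53) (nat_lit 5) (nat_lit 48) (nat_lit 5) (nat_lit 408) (nat_lit 369) (nat_lit 84)) (XT.lf (nat_lit 0) (nat_lit 30122886550) (nat_lit 504) (nat_lit 24138046138) (nat_lit 84) (nat_lit 51614242660) (nat_lit 47) (nat_lit 5) (nat_lit 53) (nat_lit 5) (nat_lit 48) (nat_lit 5) (nat_lit 409) (nat_lit 369) (nat_lit 83))))) (XT.nd (nat_lit 282) (nat_lit 336) (nat_lit 0) (XT.nd (nat_lit 94) (nat_lit 0) (nat_lit 0) (XT.lf (nat_lit 0) (nat_lit 10181116876) (nat_lit 336) (nat_lit 28424131241) (nat_lit 420) (nat_lit 69563979991) (nat_lit 43) (nat_lit 5) (nat_lit 47) (nat_lit 5) (nat_lit 48) (nat_lit 5) (nat_lit 410) (nat_lit 369) (nat_lit 82)) (XT.nd (nat_lit 94) (nat_lit 0) (nat_lit 0) (XT.lf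 (nat_lit 0) (nat_lit 46075563069) (nat_lit 336) (nat_lit 1526670712) (nat_lit 420) (nat_lit 62924362203) (nat_lit 43) (nat_lit 5) (nat_lit 47) (nat_lit 5) (nat_lit 48) (nat_lit 5) (nat_lit 411) (nat_lit 369) (nat_lit 81)) (XT.lf (nat_lit 0) (nat_lit 57137806200) (nat_lit 420) (nat_lit 30134582422) (nat_lit 84) (nat_lit 25676604796) (nat_lit 43) (nat_lit 5) (nat_lit 48) (nat_lit 5) (nat_lit 44) (nat_lit 5) (nat_lit 412) (nat_lit 369) (nat_lit 80)))) (XT.nd (nat_lit 94) (nat_lit 0) (nat_lit 0) (XT.lf (nat_lit 0) (nat_lit 5337283644) (nat_lit 336) (nat_lit 61699993896) (nat_lit 420) (nat_lit 48407091649) (nat_lit 39) (nat_lit 5) (nat_lit 43) (nat_lit 5) (nat_lit 44) (nat_lit 5) (nat_lit 413) (nat_lit 369) (nat_lit 79)) (XT.nd (nat_lit 94) (nat_lit 0) (nat_lit 0) (XT.lf (nat_lit 0) (nat_lit 42547303541) (nat_lit 336) (nat_lit 35010612469) (nat_lit 420) (nat_lit 40449443976) (nat_lit 39)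 (nat_lit 5) (nat_lit 43) (nat_lit 5) (nat_lit 44) (nat_lit 5) (nat_lit 414) (nat_lit 369) (nat_lit 78)) (XT.lf (nat_lit 0) (nat_lit 80910532087) (nat_lit 336) (nat_lit 7493910276) (nat_lit 420) (nat_lit 32245370075) (nat_lit 39) (nat_lit 5) (nat_lit 43) (nat_lit 5) (nat_lit 44) (nat_lit 5) (nat_lit 415) (nat_lit 369) (nat_lit 77)))))) (XT.nd (nat_lit 564) (nat_lit 0) (nat_lit 168) (XT.nd (nat_lit 282) (nat_lit 0) (nat_lit 84) (XT.nd (nat_lit 94) (nat_lit 0) (nat_lit 0) (XT.lf (nat_lit 0) (nat_lit 14858630855) (nat_lit 1092) (nat_lit 5669210914) (nat_lit 1092) (nat_lit 5669210914) (nat_lit 93) (nat_lit 3) (nat_lit 106) (nat_lit 3) (nat_lit 106) (nat_lit 5) (nat_lit 370) (nat_lit 370) (nat_lit 121)) (XT.nd (nat_lit 94) (nat_lit 0) (nat_lit 0) (XT.lf (nat_lit 84) (nat_lit 7068668712) (nat_lit 0) (nat_lit 23198713825) (nat_lit 1092) (nat_lit 22935949413) (nat_lit 94) (nat_lit 5) (nat_lit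 93) (nat_lit 3) (nat_lit 106) (nat_lit 5) (nat_lit 371) (nat_lit 370) (nat_lit 120)) (XT.lf (nat_lit 84) (nat_lit 26286334564) (nat_lit 0) (nat_lit 4665787342) (nat_lit 1092) (nat_lit 23081882475) (nat_lit 94) (nat_lit 5) (nat_lit 93) (nat_lit 3) (nat_lit 106) (nat_lit 5) (nat_lit 372) (nat_lit 370) (nat_lit 119)))) (XT.nd (nat_lit 94) (nat_lit 0) (nat_lit 0) (XT.lf (nat_lit 0) (nat_lit 31800593360) (nat_lit 1008) (nat_lit 8934374697) (nat_lit 1092) (nat_lit 14151046138) (nat_lit 94) (nat_lit 5) (nat_lit 106) (nat_lit 5) (nat_lit 107) (nat_lit 5) (nat_lit 373) (nat_lit 370) (nat_lit 118)) (XT.nd (nat_lit 94) (nat_lit 0) (nat_lit 0) (XT.lf (nat_lit 84) (nat_lit 10628126552) (nat_lit 0) (nat_lit 22199658134) (nat_lit 1092) (nat_lit 22931930765) (nat_lit 95) (nat_lit 5) (nat_lit 94) (nat_lit 5) (nat_lit 107) (nat_lit 5) (nat_lit 374) (nat_lit 370) (nat_lit 117)) (XT.lf (nat_lit 84) (nat_lit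 30986054579) (nat_lit 0) (nat_lit 2993303801) (nat_lit 1092) (nat_lit 22678278296) (nat_lit 95) (nat_lit 5) (nat_lit 94) (nat_lit 5) (nat_lit 107) (nat_lit 5) (nat_lit 375) (nat_lit 370) (nat_lit 116))))) (XT.nd (nat_lit 282) (nat_lit 0) (nat_lit 84) (XT.nd (nat_lit 94) (nat_lit 0) (nat_lit 0) (XT.lf (nat_lit 0) (nat_lit 35332680097) (nat_lit 1008) (nat_lit 5775487605) (nat_lit 1092) (nat_lit 16470082061) (nat_lit 95) (nat_lit 5) (nat_lit 107) (nat_lit 5) (nat_lit 108) (nat_lit 5) (nat_lit 376) (nat_lit 370) (nat_lit 115)) (XT.nd (nat_lit 94) (nat_lit 0) (nat_lit 0) (XT.lf (nat_lit 84) (nat_lit 15008746459) (nat_lit 0) (nat_lit 21898039590) (nat_lit 1092) (nat_lit 21615075755) (nat_lit 96) (nat_lit 5) (nat_lit 95) (nat_lit 5) (nat_lit 108) (nat_lit 5) (nat_lit 377) (nat_lit 370) (nat_lit 114)) (XT.lf (nat_lit 84) (nat_lit 36559315619) (nat_lit 0) (nat_lit 2030002197) (nat_lit 1092)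 (nat_lit 20903563124) (nat_lit 96) (nat_lit 5) (nat_lit 95) (nat_lit 5) (nat_lit 108) (nat_lit 5) (nat_lit 378) (nat_lit 370) (nat_lit 113)))) (XT.nd (nat_lit 188) (nat_lit 0) (nat_lit 0) (XT.nd (nat_lit 94) (nat_lit 0) (nat_lit 0) (XT.lf (nat_lit 0) (nat_lit 40506439808) (nat_lit 1008) (nat_lit 1899541233) (nat_lit 1092) (nat_lit 18082368738) (nat_lit 96) (nat_lit 5) (nat_lit 108) (nat_lit 5) (nat_lit 109) (nat_lit 5) (nat_lit 379) (nat_lit 370) (nat_lit 112)) (XT.lf (nat_lit 84) (nat_lit 20171778077) (nat_lit 0) (nat_lit 22531468570) (nat_lit 1092) (nat_lit 18804607021) (nat_lit 97) (nat_lit 5) (nat_lit 96) (nat_lit 5) (nat_lit 109) (nat_lit 5) (nat_lit 380) (nat_lit 370) (nat_lit 111))) (XT.nd (nat_lit 94) (nat_lit 0) (nat_lit 84) (XT.lf (nat_lit 84) (nat_lit 42967168003) (nat_lit 0) (nat_lit 2020213611) (nat_lit 1092) (nat_lit 17570987814) (nat_lit 97) (nat_lit 5) (nat_lit 96)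 (nat_lit 5) (nat_lit 109) (nat_lit 5) (nat_lit 381) (nat_lit 370) (nat_lit 110)) (XT.lf (nat_lit 84) (nat_lit 2691836917) (nat_lit 0) (nat_lit 44866352004) (nat_lit 1092) (nat_lit 16076573657) (nat_lit 98) (nat_lit 5) (nat_lit 97) (nat_lit 5) (nat_lit 110) (nat_lit 5) (nat_lit 382) (nat_lit 370) (nat_lit 109))))))))
noncomputable def xc235 : XT := (XT.nd (nat_lit 2256) (nat_lit 1092) (nat_lit 0) (XT.nd (nat_lit 1128) (nat_lit 1764) (nat_lit 0) (XT.nd (nat_lit 564) (nat_lit 1176) (nat_lit 0) (XT.nd (nat_lit 282) (nat_lit 840) (nat_lit 0) (XT.nd (nat_lit 94) (nat_lit 0) (nat_lit 0) (XT.lf (nat_lit 84) (nat_lit 26059469676) (nat_lit 0) (nat_lit 24373599391) (nat_lit 1092) (nat_lit 14304502230) (nat_lit 98) (nat_lit 5) (nat_lit 97) (nat_lit 5) (nat_lit 110) (nat_lit 5) (nat_lit 383) (nat_lit 370) (nat_lit 108)) (XT.nd (nat_lit 94) (nat_lit 0) (nat_lit 84) (XT.lf (nat_lit 84) (nat_lit 50151095498)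 (nat_lit 0) (nat_lit 3245425051) (nat_lit 1092) (nat_lit 12478066588) (nat_lit 98) (nat_lit 5) (nat_lit 97) (nat_lit 5) (nat_lit 110) (nat_lit 5) (nat_lit 384) (nat_lit 370) (nat_lit 107)) (XT.lf (nat_lit 84) (nat_lit 7917931140) (nat_lit 0) (nat_lit 48795819244) (nat_lit 1092) (nat_lit 10324983743) (nat_lit 99) (nat_lit 5) (nat_lit 98) (nat_lit 5) (nat_lit 111) (nat_lit 5) (nat_lit 385) (nat_lit 370) (nat_lit 106)))) (XT.nd (nat_lit 94) (nat_lit 924) (nat_lit 0) (XT.lf (nat_lit 84) (nat_lit 32591284106) (nat_lit 0) (nat_lit 27738988199) (nat_lit 1092) (nat_lit 7902609995) (nat_lit 99) (nat_lit 5) (nat_lit 98) (nat_lit 5) (nat_lit 111) (nat_lit 5) (nat_lit 386) (nat_lit 370) (nat_lit 105)) (XT.nd (nat_lit 94) (nat_lit 924) (nat_lit 0) (XT.lf (nat_lit 84) (nat_lit 58029115185) (nat_lit 0) (nat_lit 6029286802) (nat_lit 1092) (nat_lit 5405665457) (nat_lit 99) (nat_lit 5) (nat_lit 98)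 (nat_lit 5) (nat_lit 111) (nat_lit 5) (nat_lit 387) (nat_lit 370) (nat_lit 104)) (XT.lf (nat_lit 0) (nat_lit 13634167081) (nat_lit 1008) (nat_lit 54564928930) (nat_lit 1092) (nat_lit 2525119210) (nat_lit 87) (nat_lit 5) (nat_lit 99) (nat_lit 5) (nat_lit 100) (nat_lit 5) (nat_lit 388) (nat_lit 370) (nat_lit 103))))) (XT.nd (nat_lit 282) (nat_lit 504) (nat_lit 0) (XT.nd (nat_lit 94) (nat_lit 588) (nat_lit 0) (XT.lf (nat_lit 0) (nat_lit 617522496) (nat_lit 1092) (nat_lit 32364592469) (nat_lit 84) (nat_lit 39035543830) (nat_lit 86) (nat_lit 5) (nat_lit 99) (nat_lit 5) (nat_lit 87) (nat_lit 5) (nat_lit 389) (nat_lit 370) (nat_lit 102)) (XT.nd (nat_lit 94) (nat_lit 588) (nat_lit 0) (XT.lf (nat_lit 0) (nat_lit 3804663118) (nat_lit 1092) (nat_lit 6898872525) (nat_lit 84) (nat_lit 62646879874) (nat_lit 86) (nat_lit 5) (nat_lit 99) (nat_lit 5) (nat_lit 87) (nat_lit 5) (nat_lit 390) (nat_lit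 370) (nat_lit 101)) (XT.lf (nat_lit 0) (nat_lit 7409791980) (nat_lit 672) (nat_lit 55088216501) (nat_lit 84) (nat_lit 12216586774) (nat_lit 79) (nat_lit 5) (nat_lit 87) (nat_lit 5) (nat_lit 80) (nat_lit 5) (nat_lit 391) (nat_lit 370) (nat_lit 100)))) (XT.nd (nat_lit 94) (nat_lit 504) (nat_lit 0) (XT.lf (nat_lit 0) (nat_lit 11308452775) (nat_lit 672) (nat_lit 29109275099) (nat_lit 84) (nat_lit 35697704008) (nat_lit 79) (nat_lit 5) (nat_lit 87) (nat_lit 5) (nat_lit 80) (nat_lit 5) (nat_lit 392) (nat_lit 370) (nat_lit 99)) (XT.nd (nat_lit 94) (nat_lit 504) (nat_lit 0) (XT.lf (nat_lit 0) (nat_lit 15327539830) (nat_lit 672) (nat_lit 2325374156) (nat_lit 84) (nat_lit 59906796072) (nat_lit 79) (nat_lit 5) (nat_lit 87) (nat_lit 5) (nat_lit 80) (nat_lit 5) (nat_lit 393) (nat_lit 370) (nat_lit 98)) (XT.lf (nat_lit 0) (nat_lit 19787152558) (nat_lit 588) (nat_lit 53292735470) (nat_lit 84) (nat_lit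 5959081020) (nat_lit 73) (nat_lit 5) (nat_lit 80) (nat_lit 5) (nat_lit 74) (nat_lit 5) (nat_lit 394) (nat_lit 370) (nat_lit 97)))))) (XT.nd (nat_lit 564) (nat_lit 840) (nat_lit 0) (XT.nd (nat_lit 282) (nat_lit 420) (nat_lit 0) (XT.nd (nat_lit 94) (nat_lit 504) (nat_lit 0) (XT.lf (nat_lit 0) (nat_lit 24589671510) (nat_lit 588) (nat_lit 26007158157) (nat_lit 84) (nat_lit 29960913076) (nat_lit 73) (nat_lit 5) (nat_lit 80) (nat_lit 5) (nat_lit 74) (nat_lit 5) (nat_lit 395) (nat_lit 370) (nat_lit 96)) (XT.nd (nat_lit 94) (nat_lit 0) (nat_lit 0) (XT.lf (nat_lit 0) (nat_lit 2167568005) (nat_lit 504) (nat_lit 27394605474) (nat_lit 588) (nat_lit 52560772708) (nat_lit 67) (nat_lit 5) (nat_lit 73) (nat_lit 5) (nat_lit 74) (nat_lit 5) (nat_lit 396) (nat_lit 370) (nat_lit 95)) (XT.lf (nat_lit 0) (nat_lit 31766676859) (nat_lit 504) (nat_lit 3193218197) (nat_lit 588) (nat_lit 48768374608) (nat_lit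 67) (nat_lit 5) (nat_lit 73) (nat_lit 5) (nat_lit 74) (nat_lit 5) (nat_lit 397) (nat_lit 370) (nat_lit 94)))) (XT.nd (nat_lit 94) (nat_lit 420) (nat_lit 0) (XT.lf (nat_lit 0) (nat_lit 40740414672) (nat_lit 588) (nat_lit 23316220721) (nat_lit 84) (nat_lit 21320045145) (nat_lit 67) (nat_lit 5) (nat_lit 74) (nat_lit 5) (nat_lit 68) (nat_lit 5) (nat_lit 398) (nat_lit 370) (nat_lit 93)) (XT.nd (nat_lit 94) (nat_lit 0) (nat_lit 0) (XT.lf (nat_lit 0) (nat_lit 6311294058) (nat_lit 420) (nat_lit 40483738143) (nat_lit 504) (nat_lit 40278219833) (nat_lit 62) (nat_lit 5) (nat_lit 67) (nat_lit 5) (nat_lit 68) (nat_lit 5) (nat_lit 399) (nat_lit 370) (nat_lit 92)) (XT.lf (nat_lit 0) (nat_lit 37351193863) (nat_lit 420) (nat_lit 15929163855) (nat_lit 504) (nat_lit 35534527855) (nat_lit 62) (nat_lit 5) (nat_lit 67) (nat_lit 5) (nat_lit 68) (nat_lit 5) (nat_lit 400) (nat_lit 370) (nat_lit 91))))) (XT.nd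 (nat_lit 282) (nat_lit 420) (nat_lit 0) (XT.nd (nat_lit 94) (nat_lit 420) (nat_lit 0) (XT.lf (nat_lit 0) (nat_lit 60059496679) (nat_lit 504) (nat_lit 21350656705) (nat_lit 84) (nat_lit 9197482282) (nat_lit 62) (nat_lit 5) (nat_lit 68) (nat_lit 5) (nat_lit 63) (nat_lit 5) (nat_lit 401) (nat_lit 370) (nat_lit 90)) (XT.nd (nat_lit 94) (nat_lit 0) (nat_lit 0) (XT.lf (nat_lit 0) (nat_lit 9728624211) (nat_lit 420) (nat_lit 57579254323) (nat_lit 504) (nat_lit 25140052380) (nat_lit 57) (nat_lit 5) (nat_lit 62) (nat_lit 5) (nat_lit 63) (nat_lit 5) (nat_lit 402) (nat_lit 370) (nat_lit 89)) (XT.lf (nat_lit 0) (nat_lit 42223638691) (nat_lit 420) (nat_lit 32779847866) (nat_lit 504) (nat_lit 19334892072) (nat_lit 57) (nat_lit 5) (nat_lit 62) (nat_lit 5) (nat_lit 63) (nat_lit 5) (nat_lit 403) (nat_lit 370) (nat_lit 88)))) (XT.nd (nat_lit 94) (nat_lit 420) (nat_lit 0) (XT.lf (nat_lit 0) (nat_lit 75725662200)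 (nat_lit 420) (nat_lit 7211675435) (nat_lit 504) (nat_lit 13350104114) (nat_lit 57) (nat_lit 5) (nat_lit 62) (nat_lit 5) (nat_lit 63) (nat_lit 5) (nat_lit 404) (nat_lit 370) (nat_lit 87)) (XT.nd (nat_lit 94) (nat_lit 84) (nat_lit 0) (XT.lf (nat_lit 0) (nat_lit 12021224620) (nat_lit 336) (nat_lit 79404815760) (nat_lit 420) (nat_lit 6861311008) (nat_lit 53) (nat_lit 5) (nat_lit 57) (nat_lit 5) (nat_lit 58) (nat_lit 5) (nat_lit 405) (nat_lit 370) (nat_lit 86)) (XT.lf (nat_lit 0) (nat_lit 122353851) (nat_lit 420) (nat_lit 54366999406) (nat_lit 84) (nat_lit 45850960847) (nat_lit 52) (nat_lit 5) (nat_lit 57) (nat_lit 5) (nat_lit 53) (nat_lit 5) (nat_lit 406) (nat_lit 370) (nat_lit 85))))))) (XT.nd (nat_lit 50854) (nat_lit 0) (nat_lit 4536) (XT.nd (nat_lit 564) (nat_lit 336) (nat_lit 0) (XT.nd (nat_lit 282) (nat_lit 336) (nat_lit 0) (XT.nd (nat_lit 94) (nat_lit 420) (nat_lit 0) (XT.lf (nat_lit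 0) (nat_lit 7179686238) (nat_lit 420) (nat_lit 21549505623) (nat_lit 84) (nat_lit 73725562092) (nat_lit 52) (nat_lit 5) (nat_lit 57) (nat_lit 5) (nat_lit 53) (nat_lit 5) (nat_lit 407) (nat_lit 370) (nat_lit 84)) (XT.nd (nat_lit 94) (nat_lit 0) (nat_lit 0) (XT.lf (nat_lit 0) (nat_lit 12537613958) (nat_lit 420) (nat_lit 2042265176) (nat_lit 504) (nat_lit 90051017081) (nat_lit 47) (nat_lit 5) (nat_lit 52) (nat_lit 5) (nat_lit 53) (nat_lit 5) (nat_lit 408) (nat_lit 370) (nat_lit 83)) (XT.lf (nat_lit 0) (nat_lit 22689109950) (nat_lit 504) (nat_lit 58984567117) (nat_lit 84) (nat_lit 25185954546) (nat_lit 47) (nat_lit 5) (nat_lit 53) (nat_lit 5) (nat_lit 48) (nat_lit 5) (nat_lit 409) (nat_lit 370) (nat_lit 82)))) (XT.nd (nat_lit 94) (nat_lit 336) (nat_lit 0) (XT.lf (nat_lit 0) (nat_lit 31070336904) (nat_lit 504) (nat_lit 24870687602) (nat_lit 84) (nat_lit 53215795670) (nat_lit 47) (nat_lit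 5) (nat_lit 53) (nat_lit 5) (nat_lit 48) (nat_lit 5) (nat_lit 410) (nat_lit 370) (nat_lit 81)) (XT.nd (nat_lit 94) (nat_lit 0) (nat_lit 0) (XT.lf (nat_lit 0) (nat_lit 10512211146) (nat_lit 336) (nat_lit 29303183942) (nat_lit 420) (nat_lit 71706603325) (nat_lit 43) (nat_lit 5) (nat_lit 47) (nat_lit 5) (nat_lit 48) (nat_lit 5) (nat_lit 411) (nat_lit 370) (nat_lit 80)) (XT.lf (nat_lit 0) (nat_lit 47518919730) (nat_lit 336) (nat_lit 1571965141) (nat_lit 420) (nat_lit 64861574128) (nat_lit 43) (nat_lit 5) (nat_lit 47) (nat_lit 5) (nat_lit 48) (nat_lit 5) (nat_lit 412) (nat_lit 370) (nat_lit 79))))) (XT.nd (nat_lit 282) (nat_lit 0) (nat_lit 0) (XT.nd (nat_lit 94) (nat_lit 336) (nat_lit 0) (XT.lf (nat_lit 0) (nat_lit 58921689252) (nat_lit 420) (nat_lit 31053763685) (nat_lit 84) (nat_lit 26474511083) (nat_lit 43) (nat_lit 5) (nat_lit 48) (nat_lit 5) (nat_lit 44) (nat_lit 5) (nat_lit 413) (nat_lit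 370) (nat_lit 78)) (XT.nd (nat_lit 94) (nat_lit 0) (nat_lit 0) (XT.lf (nat_lit 0) (nat_lit 5517578460) (nat_lit 336) (nat_lit 63610233761) (nat_lit 420) (nat_lit 49894893133) (nat_lit 39) (nat_lit 5) (nat_lit 43) (nat_lit 5) (nat_lit 44) (nat_lit 5) (nat_lit 414) (nat_lit 370) (nat_lit 77)) (XT.lf (nat_lit 0) (nat_lit 43880662796) (nat_lit 336) (nat_lit 36093555475) (nat_lit 420) (nat_lit 41690943804) (nat_lit 39) (nat_lit 5) (nat_lit 43) (nat_lit 5) (nat_lit 44) (nat_lit 5) (nat_lit 415) (nat_lit 370) (nat_lit 76)))) (XT.nd (nat_lit 49820) (nat_lit 0) (nat_lit 4536) (XT.lf (nat_lit 0) (nat_lit 83432718664) (nat_lit 336) (nat_lit 7723907255) (nat_lit 420) (nat_lit 33232917444) (nat_lit 39) (nat_lit 5) (nat_lit 43) (nat_lit 5) (nat_lit 44) (nat_lit 5) (nat_lit 416) (nat_lit 370) (nat_lit 75)) (XT.nd (nat_lit 94) (nat_lit 0) (nat_lit 0) (XT.lf (nat_lit 0) (nat_lit 15338437350) (nat_lit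 1092) (nat_lit 5835011364) (nat_lit 1092) (nat_lit 5835011364) (nat_lit 93) (nat_lit 3) (nat_lit 106) (nat_lit 3) (nat_lit 106) (nat_lit 5) (nat_lit 371) (nat_lit 371) (nat_lit 119)) (XT.lf (nat_lit 84) (nat_lit 7307486248) (nat_lit 0) (nat_lit 23935604397) (nat_lit 1092) (nat_lit 23608178234) (nat_lit 94) (nat_lit 5) (nat_lit 93) (nat_lit 3) (nat_lit 106) (nat_lit 5) (nat_lit 372) (nat_lit 371) (nat_lit 118)))))) (XT.nd (nat_lit 564) (nat_lit 0) (nat_lit 168) (XT.nd (nat_lit 282) (nat_lit 0) (nat_lit 84) (XT.nd (nat_lit 94) (nat_lit 0) (nat_lit 84) (XT.lf (nat_lit 84) (nat_lit 27120307740) (nat_lit 0) (nat_lit 4827624076) (nat_lit 1092) (nat_lit 23759801422) (nat_lit 94) (nat_lit 5) (nat_lit 93) (nat_lit 3) (nat_lit 106) (nat_lit 5) (nat_lit 373) (nat_lit 371) (nat_lit 117)) (XT.nd (nat_lit 94) (nat_lit 0) (nat_lit 0) (XT.lf (nat_lit 0) (nat_lit 32821449127) (nat_lit 1008) (nat_lit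 9191366809) (nat_lit 1092) (nat_lit 14573384399) (nat_lit 94) (nat_lit 5) (nat_lit 106) (nat_lit 5) (nat_lit 107) (nat_lit 5) (nat_lit 374) (nat_lit 371) (nat_lit 116)) (XT.lf (nat_lit 84) (nat_lit 10977369766) (nat_lit 0) (nat_lit 22902256253) (nat_lit 1092) (nat_lit 23607392728) (nat_lit 95) (nat_lit 5) (nat_lit 94) (nat_lit 5) (nat_lit 107) (nat_lit 5) (nat_lit 375) (nat_lit 371) (nat_lit 115)))) (XT.nd (nat_lit 94) (nat_lit 0) (nat_lit 84) (XT.lf (nat_lit 84) (nat_lit 31965799081) (nat_lit 0) (nat_lit 3100071695) (nat_lit 1092) (nat_lit 23346942274) (nat_lit 95) (nat_lit 5) (nat_lit 94) (nat_lit 5) (nat_lit 107) (nat_lit 5) (nat_lit 376) (nat_lit 371) (nat_lit 114)) (XT.nd (nat_lit 94) (nat_lit 0) (nat_lit 0) (XT.lf (nat_lit 0) (nat_lit 36460014177) (nat_lit 1008) (nat_lit 5934619077) (nat_lit 1092) (nat_lit 16967372451) (nat_lit 95) (nat_lit 5) (nat_lit 107) (nat_lit 5) (nat_lit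 108) (nat_lit 5) (nat_lit 377) (nat_lit 371) (nat_lit 113)) (XT.lf (nat_lit 84) (nat_lit 15493724686) (nat_lit 0) (nat_lit 22588425421) (nat_lit 1092) (nat_lit 22252748725) (nat_lit 96) (nat_lit 5) (nat_lit 95) (nat_lit 5) (nat_lit 108) (nat_lit 5) (nat_lit 378) (nat_lit 371) (nat_lit 112))))) (XT.nd (nat_lit 282) (nat_lit 0) (nat_lit 84) (XT.nd (nat_lit 94) (nat_lit 0) (nat_lit 84) (XT.lf (nat_lit 84) (nat_lit 37711768939) (nat_lit 0) (nat_lit 2104131686) (nat_lit 1092) (nat_lit 21520153233) (nat_lit 96) (nat_lit 5) (nat_lit 95) (nat_lit 5) (nat_lit 108) (nat_lit 5) (nat_lit 379) (nat_lit 371) (nat_lit 111)) (XT.nd (nat_lit 94) (nat_lit 0) (nat_lit 0) (XT.lf (nat_lit 0) (nat_lit 41791434163) (nat_lit 1008) (nat_lit 1938706327) (nat_lit 1092) (nat_lit 18632278349) (nat_lit 96) (nat_lit 5) (nat_lit 108) (nat_lit 5) (nat_lit 109) (nat_lit 5) (nat_lit 380) (nat_lit 371) (nat_lit 110))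 (XT.lf (nat_lit 84) (nat_lit 20816624228) (nat_lit 0) (nat_lit 23239030607) (nat_lit 1092) (nat_lit 19357898678) (nat_lit 97) (nat_lit 5) (nat_lit 96) (nat_lit 5) (nat_lit 109) (nat_lit 5) (nat_lit 381) (nat_lit 371) (nat_lit 109)))) (XT.nd (nat_lit 188) (nat_lit 0) (nat_lit 84) (XT.nd (nat_lit 94) (nat_lit 0) (nat_lit 84) (XT.lf (nat_lit 84) (nat_lit 44318084285) (nat_lit 0) (nat_lit 2091653532) (nat_lit 1092) (nat_lit 18086928823) (nat_lit 97) (nat_lit 5) (nat_lit 96) (nat_lit 5) (nat_lit 109) (nat_lit 5) (nat_lit 382) (nat_lit 371) (nat_lit 108)) (XT.lf (nat_lit 84) (nat_lit 2795114782) (nat_lit 0) (nat_lit 46264402988) (nat_lit 1092) (nat_lit 16546937174) (nat_lit 98) (nat_lit 5) (nat_lit 97) (nat_lit 5) (nat_lit 110) (nat_lit 5) (nat_lit 383) (nat_lit 371) (nat_lit 107))) (XT.nd (nat_lit 94) (nat_lit 0) (nat_lit 0) (XT.lf (nat_lit 84) (nat_lit 26886547882) (nat_lit 0) (nat_lit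 25136158734) (nat_lit 1092) (nat_lit 14720773742) (nat_lit 98) (nat_lit 5) (nat_lit 97) (nat_lit 5) (nat_lit 110) (nat_lit 5) (nat_lit 384) (nat_lit 371) (nat_lit 106)) (XT.lf (nat_lit 84) (nat_lit 51724435760) (nat_lit 0) (nat_lit 3352801183) (nat_lit 1092) (nat_lit 12838535481) (nat_lit 98) (nat_lit 5) (nat_lit 97) (nat_lit 5) (nat_lit 110) (nat_lit 5) (nat_lit 385) (nat_lit 371) (nat_lit 105))))))))
noncomputable def xc236 : XT := (XT.nd (nat_lit 2256) (nat_lit 672) (nat_lit 0) (XT.nd (nat_lit 1128) (nat_lit 1680) (nat_lit 0) (XT.nd (nat_lit 564) (nat_lit 1596) (nat_lit 0) (XT.nd (nat_lit 282) (nat_lit 1008) (nat_lit 0) (XT.nd (nat_lit 94) (nat_lit 0) (nat_lit 0) (XT.lf (nat_lit 84) (nat_lit 8182838418) (nat_lit 0) (nat_lit 50313825870) (nat_lit 1092) (nat_lit 10619367590) (nat_lit 99) (nat_lit 5) (nat_lit 98) (nat_lit 5) (nat_lit 111) (nat_lit 5) (nat_lit 386) (nat_lit 371) (nat_lit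 104)) (XT.nd (nat_lit 94) (nat_lit 0) (nat_lit 0) (XT.lf (nat_lit 84) (nat_lit 33620480463) (nat_lit 0) (nat_lit 28604072614) (nat_lit 1092) (nat_lit 8122672719) (nat_lit 99) (nat_lit 5) (nat_lit 98) (nat_lit 5) (nat_lit 111) (nat_lit 5) (nat_lit 387) (nat_lit 371) (nat_lit 103)) (XT.lf (nat_lit 84) (nat_lit 59846317028) (nat_lit 0) (nat_lit 6221214848) (nat_lit 1092) (nat_lit 5549072138) (nat_lit 99) (nat_lit 5) (nat_lit 98) (nat_lit 5) (nat_lit 111) (nat_lit 5) (nat_lit 388) (nat_lit 371) (nat_lit 102)))) (XT.nd (nat_lit 94) (nat_lit 84) (nat_lit 0) (XT.lf (nat_lit 0) (nat_lit 14075830485) (nat_lit 1008) (nat_lit 56260195985) (nat_lit 1092) (nat_lit 2579811099) (nat_lit 87) (nat_lit 5) (nat_lit 99) (nat_lit 5) (nat_lit 100) (nat_lit 5) (nat_lit 389) (nat_lit 371) (nat_lit 101)) (XT.nd (nat_lit 94) (nat_lit 0) (nat_lit 0) (XT.lf (nat_lit 0) (nat_lit 659082362) (nat_lit 1092) (nat_lit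 33348885558) (nat_lit 84) (nat_lit 40241427844) (nat_lit 86) (nat_lit 5) (nat_lit 99) (nat_lit 5) (nat_lit 87) (nat_lit 5) (nat_lit 390) (nat_lit 371) (nat_lit 100)) (XT.lf (nat_lit 0) (nat_lit 3944350321) (nat_lit 1092) (nat_lit 7094299864) (nat_lit 84) (nat_lit 64584842127) (nat_lit 86) (nat_lit 5) (nat_lit 99) (nat_lit 5) (nat_lit 87) (nat_lit 5) (nat_lit 391) (nat_lit 371) (nat_lit 99))))) (XT.nd (nat_lit 282) (nat_lit 1008) (nat_lit 0) (XT.nd (nat_lit 94) (nat_lit 0) (nat_lit 0) (XT.lf (nat_lit 0) (nat_lit 7660735527) (nat_lit 672) (nat_lit 56776902159) (nat_lit 84) (nat_lit 12592342888) (nat_lit 79) (nat_lit 5) (nat_lit 87) (nat_lit 5) (nat_lit 80) (nat_lit 5) (nat_lit 392) (nat_lit 371) (nat_lit 98)) (XT.nd (nat_lit 94) (nat_lit 0) (nat_lit 0) (XT.lf (nat_lit 0) (nat_lit 11679616165) (nat_lit 672) (nat_lit 29993186339) (nat_lit 84) (nat_lit 36801463699) (nat_lit 79) (nat_lit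 5) (nat_lit 87) (nat_lit 5) (nat_lit 80) (nat_lit 5) (nat_lit 393) (nat_lit 371) (nat_lit 97)) (XT.lf (nat_lit 0) (nat_lit 15822675479) (nat_lit 672) (nat_lit 2379540009) (nat_lit 84) (nat_lit 61761123886) (nat_lit 79) (nat_lit 5) (nat_lit 87) (nat_lit 5) (nat_lit 80) (nat_lit 5) (nat_lit 394) (nat_lit 371) (nat_lit 96)))) (XT.nd (nat_lit 94) (nat_lit 504) (nat_lit 0) (XT.lf (nat_lit 0) (nat_lit 20420093332) (nat_lit 588) (nat_lit 54926347473) (nat_lit 84) (nat_lit 6142031393) (nat_lit 73) (nat_lit 5) (nat_lit 80) (nat_lit 5) (nat_lit 74) (nat_lit 5) (nat_lit 395) (nat_lit 371) (nat_lit 95)) (XT.nd (nat_lit 94) (nat_lit 504) (nat_lit 0) (XT.lf (nat_lit 0) (nat_lit 25370902873) (nat_lit 588) (nat_lit 26795472400) (nat_lit 84) (nat_lit 30887973798) (nat_lit 73) (nat_lit 5) (nat_lit 80) (nat_lit 5) (nat_lit 74) (nat_lit 5) (nat_lit 396) (nat_lit 371) (nat_lit 94)) (XT.lf (nat_lit 0) (nat_lit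 2252488974) (nat_lit 504) (nat_lit 28244669445) (nat_lit 588) (nat_lit 54170930510) (nat_lit 67) (nat_lit 5) (nat_lit 73) (nat_lit 5) (nat_lit 74) (nat_lit 5) (nat_lit 397) (nat_lit 371) (nat_lit 93)))))) (XT.nd (nat_lit 564) (nat_lit 840) (nat_lit 0) (XT.nd (nat_lit 282) (nat_lit 420) (nat_lit 0) (XT.nd (nat_lit 94) (nat_lit 420) (nat_lit 0) (XT.lf (nat_lit 0) (nat_lit 32768637208) (nat_lit 504) (nat_lit 3293014169) (nat_lit 588) (nat_lit 50261546159) (nat_lit 67) (nat_lit 5) (nat_lit 73) (nat_lit 5) (nat_lit 74) (nat_lit 5) (nat_lit 398) (nat_lit 371) (nat_lit 92)) (XT.nd (nat_lit 94) (nat_lit 420) (nat_lit 0) (XT.lf (nat_lit 0) (nat_lit 42020818134) (nat_lit 588) (nat_lit 24021710420) (nat_lit 84) (nat_lit 21980200332) (nat_lit 67) (nat_lit 5) (nat_lit 74) (nat_lit 5) (nat_lit 68) (nat_lit 5) (nat_lit 399) (nat_lit 371) (nat_lit 91)) (XT.lf (nat_lit 0) (nat_lit 6524082038) (nat_lit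 420) (nat_lit 41738692076) (nat_lit 504) (nat_lit 41509133620) (nat_lit 62) (nat_lit 5) (nat_lit 67) (nat_lit 5) (nat_lit 68) (nat_lit 5) (nat_lit 400) (nat_lit 371) (nat_lit 90)))) (XT.nd (nat_lit 94) (nat_lit 420) (nat_lit 0) (XT.lf (nat_lit 0) (nat_lit 38525703437) (nat_lit 420) (nat_lit 16422927246) (nat_lit 504) (nat_lit 36618919724) (nat_lit 62) (nat_lit 5) (nat_lit 67) (nat_lit 5) (nat_lit 68) (nat_lit 5) (nat_lit 401) (nat_lit 371) (nat_lit 89)) (XT.nd (nat_lit 94) (nat_lit 420) (nat_lit 0) (XT.lf (nat_lit 0) (nat_lit 61937424761) (nat_lit 504) (nat_lit 21995826016) (nat_lit 84) (nat_lit 9482642903) (nat_lit 62) (nat_lit 5) (nat_lit 68) (nat_lit 5) (nat_lit 63) (nat_lit 5) (nat_lit 402) (nat_lit 371) (nat_lit 88)) (XT.lf (nat_lit 0) (nat_lit 10046743526) (nat_lit 420) (nat_lit 59363443326) (nat_lit 504) (nat_lit 25903063546) (nat_lit 57) (nat_lit 5) (nat_lit 62) (nat_lit 5)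 (nat_lit 63) (nat_lit 5) (nat_lit 403) (nat_lit 371) (nat_lit 87))))) (XT.nd (nat_lit 282) (nat_lit 504) (nat_lit 0) (XT.nd (nat_lit 94) (nat_lit 336) (nat_lit 0) (XT.lf (nat_lit 0) (nat_lit 43548606373) (nat_lit 420) (nat_lit 33795278357) (nat_lit 504) (nat_lit 19918434291) (nat_lit 57) (nat_lit 5) (nat_lit 62) (nat_lit 5) (nat_lit 63) (nat_lit 5) (nat_lit 404) (nat_lit 371) (nat_lit 86)) (XT.nd (nat_lit 94) (nat_lit 336) (nat_lit 0) (XT.lf (nat_lit 0) (nat_lit 78088710476) (nat_lit 420) (nat_lit 7434514974) (nat_lit 504) (nat_lit 13748594165) (nat_lit 57) (nat_lit 5) (nat_lit 62) (nat_lit 5) (nat_lit 63) (nat_lit 5) (nat_lit 405) (nat_lit 371) (nat_lit 85)) (XT.lf (nat_lit 0) (nat_lit 12409798212) (nat_lit 336) (nat_lit 81864998686) (nat_lit 420) (nat_lit 7058940466) (nat_lit 53) (nat_lit 5) (nat_lit 57) (nat_lit 5) (nat_lit 58) (nat_lit 5) (nat_lit 406) (nat_lit 371) (nat_lit 84))))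 (XT.nd (nat_lit 94) (nat_lit 420) (nat_lit 0) (XT.lf (nat_lit 0) (nat_lit 140470325) (nat_lit 420) (nat_lit 56036578097) (nat_lit 84) (nat_lit 47273304701) (nat_lit 52) (nat_lit 5) (nat_lit 57) (nat_lit 5) (nat_lit 53) (nat_lit 5) (nat_lit 407) (nat_lit 371) (nat_lit 83)) (XT.nd (nat_lit 94) (nat_lit 420) (nat_lit 0) (XT.lf (nat_lit 0) (nat_lit 7416149339) (nat_lit 420) (nat_lit 22202217027) (nat_lit 84) (nat_lit 76011989597) (nat_lit 52) (nat_lit 5) (nat_lit 57) (nat_lit 5) (nat_lit 53) (nat_lit 5) (nat_lit 408) (nat_lit 371) (nat_lit 82)) (XT.lf (nat_lit 0) (nat_lit 12941448126) (nat_lit 420) (nat_lit 2104032829) (nat_lit 504) (nat_lit 92828487909) (nat_lit 47) (nat_lit 5) (nat_lit 52) (nat_lit 5) (nat_lit 53) (nat_lit 5) (nat_lit 409) (nat_lit 371) (nat_lit 81))))))) (XT.nd (nat_lit 50948) (nat_lit 0) (nat_lit 4620) (XT.nd (nat_lit 564) (nat_lit 0) (nat_lit 0) (XT.nd (nat_lit 282)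 (nat_lit 336) (nat_lit 0) (XT.nd (nat_lit 94) (nat_lit 336) (nat_lit 0) (XT.lf (nat_lit 0) (nat_lit 23405703078) (nat_lit 504) (nat_lit 60797920932) (nat_lit 84) (nat_lit 25968185178) (nat_lit 47) (nat_lit 5) (nat_lit 53) (nat_lit 5) (nat_lit 48) (nat_lit 5) (nat_lit 410) (nat_lit 371) (nat_lit 80)) (XT.nd (nat_lit 94) (nat_lit 336) (nat_lit 0) (XT.lf (nat_lit 0) (nat_lit 32046350247) (nat_lit 504) (nat_lit 25626967215) (nat_lit 84) (nat_lit 54866907296) (nat_lit 47) (nat_lit 5) (nat_lit 53) (nat_lit 5) (nat_lit 48) (nat_lit 5) (nat_lit 411) (nat_lit 371) (nat_lit 79)) (XT.lf (nat_lit 0) (nat_lit 10852652451) (nat_lit 336) (nat_lit 30209611389) (nat_lit 420) (nat_lit 73916468937) (nat_lit 43) (nat_lit 5) (nat_lit 47) (nat_lit 5) (nat_lit 48) (nat_lit 5) (nat_lit 412) (nat_lit 371) (nat_lit 78)))) (XT.nd (nat_lit 94) (nat_lit 336) (nat_lit 0) (XT.lf (nat_lit 0) (nat_lit 49006131130)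 (nat_lit 336) (nat_lit 1618784076) (nat_lit 420) (nat_lit 66859635893) (nat_lit 43) (nat_lit 5) (nat_lit 47) (nat_lit 5) (nat_lit 48) (nat_lit 5) (nat_lit 413) (nat_lit 371) (nat_lit 77)) (XT.nd (nat_lit 94) (nat_lit 336) (nat_lit 0) (XT.lf (nat_lit 0) (nat_lit 60760125704) (nat_lit 420) (nat_lit 32002327498) (nat_lit 84) (nat_lit 27297038057) (nat_lit 43) (nat_lit 5) (nat_lit 48) (nat_lit 5) (nat_lit 44) (nat_lit 5) (nat_lit 414) (nat_lit 371) (nat_lit 76)) (XT.lf (nat_lit 0) (nat_lit 5702583475) (nat_lit 336) (nat_lit 65579836768) (nat_lit 420) (nat_lit 51429575717) (nat_lit 39) (nat_lit 5) (nat_lit 43) (nat_lit 5) (nat_lit 44) (nat_lit 5) (nat_lit 415) (nat_lit 371) (nat_lit 75))))) (XT.nd (nat_lit 50102) (nat_lit 0) (nat_lit 4536) (XT.nd (nat_lit 49914) (nat_lit 0) (nat_lit 4536) (XT.lf (nat_lit 0) (nat_lit 45254503675) (nat_lit 336) (nat_lit 37210211039) (nat_lit 420) (nat_lit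 42971666550) (nat_lit 39) (nat_lit 5) (nat_lit 43) (nat_lit 5) (nat_lit 44) (nat_lit 5) (nat_lit 416) (nat_lit 371) (nat_lit 74)) (XT.nd (nat_lit 94) (nat_lit 0) (nat_lit 0) (XT.lf (nat_lit 0) (nat_lit 15831981252) (nat_lit 1092) (nat_lit 6006540693) (nat_lit 1092) (nat_lit 6006540693) (nat_lit 93) (nat_lit 3) (nat_lit 106) (nat_lit 3) (nat_lit 106) (nat_lit 5) (nat_lit 372) (nat_lit 372) (nat_lit 117)) (XT.lf (nat_lit 84) (nat_lit 7552540926) (nat_lit 0) (nat_lit 24694288372) (nat_lit 1092) (nat_lit 24303543486) (nat_lit 94) (nat_lit 5) (nat_lit 93) (nat_lit 3) (nat_lit 106) (nat_lit 5) (nat_lit 373) (nat_lit 372) (nat_lit 116)))) (XT.nd (nat_lit 94) (nat_lit 0) (nat_lit 84) (XT.lf (nat_lit 84) (nat_lit 27979002949) (nat_lit 0) (nat_lit 4993459121) (nat_lit 1092) (nat_lit 24460964119) (nat_lit 94) (nat_lit 5) (nat_lit 93) (nat_lit 3) (nat_lit 106) (nat_lit 5) (nat_lit 374) (nat_lit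 372) (nat_lit 115)) (XT.nd (nat_lit 94) (nat_lit 0) (nat_lit 0) (XT.lf (nat_lit 0) (nat_lit 33871876099) (nat_lit 1008) (nat_lit 9457508740) (nat_lit 1092) (nat_lit 15009783240) (nat_lit 94) (nat_lit 5) (nat_lit 106) (nat_lit 5) (nat_lit 107) (nat_lit 5) (nat_lit 375) (nat_lit 372) (nat_lit 114)) (XT.lf (nat_lit 84) (nat_lit 11336268432) (nat_lit 0) (nat_lit 23625781460) (nat_lit 1092) (nat_lit 24305892466) (nat_lit 95) (nat_lit 5) (nat_lit 94) (nat_lit 5) (nat_lit 107) (nat_lit 5) (nat_lit 376) (nat_lit 372) (nat_lit 113)))))) (XT.nd (nat_lit 564) (nat_lit 0) (nat_lit 168) (XT.nd (nat_lit 282) (nat_lit 0) (nat_lit 84) (XT.nd (nat_lit 94) (nat_lit 0) (nat_lit 84) (XT.lf (nat_lit 84) (nat_lit 32974779786) (nat_lit 0) (nat_lit 3209321603) (nat_lit 1092) (nat_lit 24038370194) (nat_lit 95) (nat_lit 5) (nat_lit 94) (nat_lit 5) (nat_lit 107) (nat_lit 5) (nat_lit 377) (nat_lit 372) (nat_lit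 112)) (XT.nd (nat_lit 94) (nat_lit 0) (nat_lit 0) (XT.lf (nat_lit 0) (nat_lit 37620398954) (nat_lit 1008) (nat_lit 6099862849) (nat_lit 1092) (nat_lit 17480865567) (nat_lit 95) (nat_lit 5) (nat_lit 107) (nat_lit 5) (nat_lit 108) (nat_lit 5) (nat_lit 378) (nat_lit 372) (nat_lit 111)) (XT.lf (nat_lit 84) (nat_lit 15992569953) (nat_lit 0) (nat_lit 23299529287) (nat_lit 1092) (nat_lit 22912108332) (nat_lit 96) (nat_lit 5) (nat_lit 95) (nat_lit 5) (nat_lit 108) (nat_lit 5) (nat_lit 379) (nat_lit 372) (nat_lit 110)))) (XT.nd (nat_lit 94) (nat_lit 0) (nat_lit 84) (XT.lf (nat_lit 84) (nat_lit 38898816125) (nat_lit 0) (nat_lit 2179895828) (nat_lit 1092) (nat_lit 22157718718) (nat_lit 96) (nat_lit 5) (nat_lit 95) (nat_lit 5) (nat_lit 108) (nat_lit 5) (nat_lit 380) (nat_lit 372) (nat_lit 109)) (XT.nd (nat_lit 94) (nat_lit 0) (nat_lit 0) (XT.lf (nat_lit 0) (nat_lit 43114528166) (nat_lit 1008)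 (nat_lit 1980253629) (nat_lit 1092) (nat_lit 19199865611) (nat_lit 96) (nat_lit 5) (nat_lit 108) (nat_lit 5) (nat_lit 109) (nat_lit 5) (nat_lit 381) (nat_lit 372) (nat_lit 108)) (XT.lf (nat_lit 84) (nat_lit 21480304345) (nat_lit 0) (nat_lit 23967988857) (nat_lit 1092) (nat_lit 19930098665) (nat_lit 97) (nat_lit 5) (nat_lit 96) (nat_lit 5) (nat_lit 109) (nat_lit 5) (nat_lit 382) (nat_lit 372) (nat_lit 107))))) (XT.nd (nat_lit 282) (nat_lit 0) (nat_lit 84) (XT.nd (nat_lit 94) (nat_lit 0) (nat_lit 84) (XT.lf (nat_lit 84) (nat_lit 45709757474) (nat_lit 0) (nat_lit 2164786063) (nat_lit 1092) (nat_lit 18620567484) (nat_lit 97) (nat_lit 5) (nat_lit 96) (nat_lit 5) (nat_lit 109) (nat_lit 5) (nat_lit 383) (nat_lit 372) (nat_lit 106)) (XT.nd (nat_lit 94) (nat_lit 0) (nat_lit 0) (XT.lf (nat_lit 84) (nat_lit 2900419641) (nat_lit 0) (nat_lit 47705367436) (nat_lit 1092) (nat_lit 17033541055) (nat_lit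 98) (nat_lit 5) (nat_lit 97) (nat_lit 5) (nat_lit 110) (nat_lit 5) (nat_lit 384) (nat_lit 372) (nat_lit 105)) (XT.lf (nat_lit 84) (nat_lit 27738126211) (nat_lit 0) (nat_lit 25921944112) (nat_lit 1092) (nat_lit 15151558882) (nat_lit 98) (nat_lit 5) (nat_lit 97) (nat_lit 5) (nat_lit 110) (nat_lit 5) (nat_lit 385) (nat_lit 372) (nat_lit 104)))) (XT.nd (nat_lit 188) (nat_lit 0) (nat_lit 84) (XT.nd (nat_lit 94) (nat_lit 0) (nat_lit 84) (XT.lf (nat_lit 84) (nat_lit 53345444524) (nat_lit 0) (nat_lit 3463105097) (nat_lit 1092) (nat_lit 13211739736) (nat_lit 98) (nat_lit 5) (nat_lit 97) (nat_lit 5) (nat_lit 110) (nat_lit 5) (nat_lit 386) (nat_lit 372) (nat_lit 103)) (XT.lf (nat_lit 84) (nat_lit 8454805681) (nat_lit 0) (nat_lit 51878574628) (nat_lit 1092) (nat_lit 10924399036) (nat_lit 99) (nat_lit 5) (nat_lit 98) (nat_lit 5) (nat_lit 111) (nat_lit 5) (nat_lit 387) (nat_lit 372) (nat_lit 102)))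 (XT.nd (nat_lit 94) (nat_lit 0) (nat_lit 0) (XT.lf (nat_lit 84) (nat_lit 34680464409) (nat_lit 0) (nat_lit 29495668075) (nat_lit 1092) (nat_lit 8351033335) (nat_lit 99) (nat_lit 5) (nat_lit 98) (nat_lit 5) (nat_lit 111) (nat_lit 5) (nat_lit 388) (nat_lit 372) (nat_lit 101)) (XT.lf (nat_lit 84) (nat_lit 61718768231) (nat_lit 0) (nat_lit 6418795312) (nat_lit 1092) (nat_lit 5698355994) (nat_lit 99) (nat_lit 5) (nat_lit 98) (nat_lit 5) (nat_lit 111) (nat_lit 5) (nat_lit 389) (nat_lit 372) (nat_lit 100))))))))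
noncomputable def xc237 : XT := (XT.nd (nat_lit 2256) (nat_lit 336) (nat_lit 0) (XT.nd (nat_lit 1128) (nat_lit 1596) (nat_lit 0) (XT.nd (nat_lit 564) (nat_lit 1428) (nat_lit 0) (XT.nd (nat_lit 282) (nat_lit 588) (nat_lit 0) (XT.nd (nat_lit 94) (nat_lit 84) (nat_lit 0) (XT.lf (nat_lit 0) (nat_lit 14530059803) (nat_lit 1008) (nat_lit 58007793947) (nat_lit 1092) (nat_lit 2637595523) (nat_lit 87) (nat_lit 5) (nat_lit 99) (nat_lit 5) (nat_lit 100) (nat_lit 5) (nat_lit 390) (nat_lit 372) (nat_lit 99)) (XT.nd (nat_lit 94) (nat_lit 0) (nat_lit 0) (XT.lf (nat_lit 0) (nat_lit 700602807) (nat_lit 1092) (nat_lit 34364817684) (nat_lit 84) (nat_lit 41484944092) (nat_lit 86) (nat_lit 5) (nat_lit 99) (nat_lit 5) (nat_lit 87) (nat_lit 5) (nat_lit 391) (nat_lit 372) (nat_lit 98)) (XT.lf (nat_lit 0) (nat_lit 4087079974) (nat_lit 1092) (nat_lit 7296877548) (nat_lit 84) (nat_lit 66583123528) (nat_lit 86)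 (nat_lit 5) (nat_lit 99) (nat_lit 5) (nat_lit 87) (nat_lit 5) (nat_lit 392) (nat_lit 372) (nat_lit 97)))) (XT.nd (nat_lit 94) (nat_lit 0) (nat_lit 0) (XT.lf (nat_lit 0) (nat_lit 7918200243) (nat_lit 672) (nat_lit 58519065380) (nat_lit 84) (nat_lit 12979922653) (nat_lit 79) (nat_lit 5) (nat_lit 87) (nat_lit 5) (nat_lit 80) (nat_lit 5) (nat_lit 393) (nat_lit 372) (nat_lit 96)) (XT.nd (nat_lit 94) (nat_lit 0) (nat_lit 0) (XT.lf (nat_lit 0) (nat_lit 12061065367) (nat_lit 672) (nat_lit 30905593209) (nat_lit 84) (nat_lit 37939609884) (nat_lit 79) (nat_lit 5) (nat_lit 87) (nat_lit 5) (nat_lit 80) (nat_lit 5) (nat_lit 394) (nat_lit 372) (nat_lit 95)) (XT.lf (nat_lit 0) (nat_lit 16331976770) (nat_lit 672) (nat_lit 2436446481) (nat_lit 84) (nat_lit 63673100696) (nat_lit 79) (nat_lit 5) (nat_lit 87) (nat_lit 5) (nat_lit 80) (nat_lit 5) (nat_lit 395) (nat_lit 372) (nat_lit 94))))) (XT.nd (nat_lit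 282) (nat_lit 420) (nat_lit 0) (XT.nd (nat_lit 94) (nat_lit 504) (nat_lit 0) (XT.lf (nat_lit 0) (nat_lit 21071497938) (nat_lit 588) (nat_lit 56611695031) (nat_lit 84) (nat_lit 6330758727) (nat_lit 73) (nat_lit 5) (nat_lit 80) (nat_lit 5) (nat_lit 74) (nat_lit 5) (nat_lit 396) (nat_lit 372) (nat_lit 93)) (XT.nd (nat_lit 94) (nat_lit 504) (nat_lit 0) (XT.lf (nat_lit 0) (nat_lit 26175229876) (nat_lit 588) (nat_lit 27609285087) (nat_lit 84) (nat_lit 31843875729) (nat_lit 73) (nat_lit 5) (nat_lit 80) (nat_lit 5) (nat_lit 74) (nat_lit 5) (nat_lit 397) (nat_lit 372) (nat_lit 92)) (XT.lf (nat_lit 0) (nat_lit 2338992530) (nat_lit 504) (nat_lit 29121036164) (nat_lit 588) (nat_lit 55832142003) (nat_lit 67) (nat_lit 5) (nat_lit 73) (nat_lit 5) (nat_lit 74) (nat_lit 5) (nat_lit 398) (nat_lit 372) (nat_lit 91)))) (XT.nd (nat_lit 94) (nat_lit 420) (nat_lit 0) (XT.lf (nat_lit 0) (nat_lit 33800639935)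 (nat_lit 504) (nat_lit 3395856064) (nat_lit 588) (nat_lit 51802110585) (nat_lit 67) (nat_lit 5) (nat_lit 73) (nat_lit 5) (nat_lit 74) (nat_lit 5) (nat_lit 399) (nat_lit 372) (nat_lit 90)) (XT.nd (nat_lit 94) (nat_lit 420) (nat_lit 0) (XT.lf (nat_lit 0) (nat_lit 43339880475) (nat_lit 588) (nat_lit 24750095786) (nat_lit 84) (nat_lit 22660865714) (nat_lit 67) (nat_lit 5) (nat_lit 74) (nat_lit 5) (nat_lit 68) (nat_lit 5) (nat_lit 400) (nat_lit 372) (nat_lit 89)) (XT.lf (nat_lit 0) (nat_lit 6742451340) (nat_lit 420) (nat_lit 43032552066) (nat_lit 504) (nat_lit 42779254789) (nat_lit 62) (nat_lit 5) (nat_lit 67) (nat_lit 5) (nat_lit 68) (nat_lit 5) (nat_lit 401) (nat_lit 372) (nat_lit 88)))))) (XT.nd (nat_lit 564) (nat_lit 840) (nat_lit 0) (XT.nd (nat_lit 282) (nat_lit 336) (nat_lit 0) (XT.nd (nat_lit 94) (nat_lit 420) (nat_lit 0) (XT.lf (nat_lit 0) (nat_lit 39735638225) (nat_lit 420) (nat_lit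 16931999713) (nat_lit 504) (nat_lit 37737945252) (nat_lit 62) (nat_lit 5) (nat_lit 67) (nat_lit 5) (nat_lit 68) (nat_lit 5) (nat_lit 402) (nat_lit 372) (nat_lit 87)) (XT.nd (nat_lit 94) (nat_lit 420) (nat_lit 0) (XT.lf (nat_lit 0) (nat_lit 63872615950) (nat_lit 504) (nat_lit 22661984807) (nat_lit 84) (nat_lit 9776641212) (nat_lit 62) (nat_lit 5) (nat_lit 68) (nat_lit 5) (nat_lit 63) (nat_lit 5) (nat_lit 403) (nat_lit 372) (nat_lit 86)) (XT.lf (nat_lit 0) (nat_lit 10373745322) (nat_lit 420) (nat_lit 61202987670) (nat_lit 504) (nat_lit 26690695339) (nat_lit 57) (nat_lit 5) (nat_lit 62) (nat_lit 5) (nat_lit 63) (nat_lit 5) (nat_lit 404) (nat_lit 372) (nat_lit 85)))) (XT.nd (nat_lit 94) (nat_lit 336) (nat_lit 0) (XT.lf (nat_lit 0) (nat_lit 44913698279) (nat_lit 420) (nat_lit 34842231308) (nat_lit 504) (nat_lit 20521004516) (nat_lit 57) (nat_lit 5) (nat_lit 62) (nat_lit 5) (nat_lit 63)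 (nat_lit 5) (nat_lit 405) (nat_lit 372) (nat_lit 84)) (XT.nd (nat_lit 94) (nat_lit 336) (nat_lit 0) (XT.lf (nat_lit 0) (nat_lit 80524092032) (nat_lit 420) (nat_lit 7664305329) (nat_lit 504) (nat_lit 14160347395) (nat_lit 57) (nat_lit 5) (nat_lit 62) (nat_lit 5) (nat_lit 63) (nat_lit 5) (nat_lit 406) (nat_lit 372) (nat_lit 83)) (XT.lf (nat_lit 0) (nat_lit 12809474876) (nat_lit 336) (nat_lit 84401528215) (nat_lit 420) (nat_lit 7263589128) (nat_lit 53) (nat_lit 5) (nat_lit 57) (nat_lit 5) (nat_lit 58) (nat_lit 5) (nat_lit 407) (nat_lit 372) (nat_lit 82))))) (XT.nd (nat_lit 282) (nat_lit 336) (nat_lit 0) (XT.nd (nat_lit 94) (nat_lit 420) (nat_lit 0) (XT.lf (nat_lit 0) (nat_lit 158300004) (nat_lit 420) (nat_lit 57758849486) (nat_lit 84) (nat_lit 48739684110) (nat_lit 52) (nat_lit 5) (nat_lit 57) (nat_lit 5) (nat_lit 53) (nat_lit 5) (nat_lit 408) (nat_lit 372) (nat_lit 81)) (XT.nd (nat_lit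 94) (nat_lit 420) (nat_lit 0) (XT.lf (nat_lit 0) (nat_lit 7659119899) (nat_lit 420) (nat_lit 22876070108) (nat_lit 84) (nat_lit 78369240968) (nat_lit 52) (nat_lit 5) (nat_lit 57) (nat_lit 5) (nat_lit 53) (nat_lit 5) (nat_lit 409) (nat_lit 372) (nat_lit 80)) (XT.lf (nat_lit 0) (nat_lit 13356902719) (nat_lit 420) (nat_lit 2167806648) (nat_lit 504) (nat_lit 95692896134) (nat_lit 47) (nat_lit 5) (nat_lit 52) (nat_lit 5) (nat_lit 53) (nat_lit 5) (nat_lit 410) (nat_lit 372) (nat_lit 79)))) (XT.nd (nat_lit 94) (nat_lit 336) (nat_lit 0) (XT.lf (nat_lit 0) (nat_lit 24143726914) (nat_lit 504) (nat_lit 62668387127) (nat_lit 84) (nat_lit 26774578123) (nat_lit 47) (nat_lit 5) (nat_lit 53) (nat_lit 5) (nat_lit 48) (nat_lit 5) (nat_lit 411) (nat_lit 372) (nat_lit 78)) (XT.nd (nat_lit 94) (nat_lit 336) (nat_lit 0) (XT.lf (nat_lit 0) (nat_lit 33051859889) (nat_lit 504) (nat_lit 26407562895) (nat_lit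 84) (nat_lit 56569119157) (nat_lit 47) (nat_lit 5) (nat_lit 53) (nat_lit 5) (nat_lit 48) (nat_lit 5) (nat_lit 412) (nat_lit 372) (nat_lit 77)) (XT.lf (nat_lit 0) (nat_lit 11202784860) (nat_lit 336) (nat_lit 31144254848) (nat_lit 420) (nat_lit 76195612711) (nat_lit 43) (nat_lit 5) (nat_lit 47) (nat_lit 5) (nat_lit 48) (nat_lit 5) (nat_lit 413) (nat_lit 372) (nat_lit 76))))))) (XT.nd (nat_lit 51042) (nat_lit 0) (nat_lit 3360) (XT.nd (nat_lit 50478) (nat_lit 0) (nat_lit 4620) (XT.nd (nat_lit 50196) (nat_lit 0) (nat_lit 4536) (XT.nd (nat_lit 94) (nat_lit 336) (nat_lit 0) (XT.lf (nat_lit 0) (nat_lit 50538609443) (nat_lit 336) (nat_lit 1667167649) (nat_lit 420) (nat_lit 68920386678) (nat_lit 43) (nat_lit 5) (nat_lit 47) (nat_lit 5) (nat_lit 48) (nat_lit 5) (nat_lit 414) (nat_lit 372) (nat_lit 75)) (XT.nd (nat_lit 94) (nat_lit 336) (nat_lit 0) (XT.lf (nat_lit 0) (nat_lit 62654850956) (nat_lit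 420) (nat_lit 32981132126) (nat_lit 84) (nat_lit 28144955735) (nat_lit 43) (nat_lit 5) (nat_lit 48) (nat_lit 5) (nat_lit 44) (nat_lit 5) (nat_lit 415) (nat_lit 372) (nat_lit 74)) (XT.lf (nat_lit 0) (nat_lit 5892496765) (nat_lit 336) (nat_lit 67610634545) (nat_lit 420) (nat_lit 53012547742) (nat_lit 39) (nat_lit 5) (nat_lit 43) (nat_lit 5) (nat_lit 44) (nat_lit 5) (nat_lit 416) (nat_lit 372) (nat_lit 73)))) (XT.nd (nat_lit 94) (nat_lit 0) (nat_lit 0) (XT.lf (nat_lit 0) (nat_lit 16339755744) (nat_lit 1092) (nat_lit 6183941604) (nat_lit 1092) (nat_lit 6183941604) (nat_lit 93) (nat_lit 3) (nat_lit 106) (nat_lit 3) (nat_lit 106) (nat_lit 5) (nat_lit 373) (nat_lit 373) (nat_lit 115)) (XT.nd (nat_lit 94) (nat_lit 0) (nat_lit 0) (XT.lf (nat_lit 84) (nat_lit 7804095174) (nat_lit 0) (nat_lit 25475503551) (nat_lit 1092) (nat_lit 25022626324) (nat_lit 94) (nat_lit 5) (nat_lit 93) (nat_lit 3) (nat_lit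 106) (nat_lit 5) (nat_lit 374) (nat_lit 373) (nat_lit 114)) (XT.lf (nat_lit 84) (nat_lit 28863253572) (nat_lit 0) (nat_lit 5163476761) (nat_lit 1092) (nat_lit 25185959137) (nat_lit 94) (nat_lit 5) (nat_lit 93) (nat_lit 3) (nat_lit 106) (nat_lit 5) (nat_lit 375) (nat_lit 373) (nat_lit 113))))) (XT.nd (nat_lit 282) (nat_lit 0) (nat_lit 84) (XT.nd (nat_lit 94) (nat_lit 0) (nat_lit 0) (XT.lf (nat_lit 0) (nat_lit 34952913909) (nat_lit 1008) (nat_lit 9733014061) (nat_lit 1092) (nat_lit 15460621196) (nat_lit 94) (nat_lit 5) (nat_lit 106) (nat_lit 5) (nat_lit 107) (nat_lit 5) (nat_lit 376) (nat_lit 373) (nat_lit 112)) (XT.nd (nat_lit 94) (nat_lit 0) (nat_lit 0) (XT.lf (nat_lit 84) (nat_lit 11705191235) (nat_lit 0) (nat_lit 24370933046) (nat_lit 1092) (nat_lit 25028019855) (nat_lit 95) (nat_lit 5) (nat_lit 94) (nat_lit 5) (nat_lit 107) (nat_lit 5) (nat_lit 377) (nat_lit 373) (nat_lit 111))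 (XT.lf (nat_lit 84) (nat_lit 34013970299) (nat_lit 0) (nat_lit 3321179497) (nat_lit 1092) (nat_lit 24753147180) (nat_lit 95) (nat_lit 5) (nat_lit 94) (nat_lit 5) (nat_lit 107) (nat_lit 5) (nat_lit 378) (nat_lit 373) (nat_lit 110)))) (XT.nd (nat_lit 94) (nat_lit 0) (nat_lit 0) (XT.lf (nat_lit 0) (nat_lit 38814971343) (nat_lit 1008) (nat_lit 6271338552) (nat_lit 1092) (nat_lit 18011017095) (nat_lit 95) (nat_lit 5) (nat_lit 107) (nat_lit 5) (nat_lit 108) (nat_lit 5) (nat_lit 379) (nat_lit 373) (nat_lit 109)) (XT.nd (nat_lit 94) (nat_lit 0) (nat_lit 0) (XT.lf (nat_lit 84) (nat_lit 16505781279) (nat_lit 0) (nat_lit 24032033957) (nat_lit 1092) (nat_lit 23593713209) (nat_lit 96) (nat_lit 5) (nat_lit 95) (nat_lit 5) (nat_lit 108) (nat_lit 5) (nat_lit 380) (nat_lit 373) (nat_lit 108)) (XT.lf (nat_lit 84) (nat_lit 40121596648) (nat_lit 0) (nat_lit 2257384590) (nat_lit 1092) (nat_lit 22816799578)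 (nat_lit 96) (nat_lit 5) (nat_lit 95) (nat_lit 5) (nat_lit 108) (nat_lit 5) (nat_lit 381) (nat_lit 373) (nat_lit 107)))))) (XT.nd (nat_lit 564) (nat_lit 1428) (nat_lit 0) (XT.nd (nat_lit 282) (nat_lit 0) (nat_lit 84) (XT.nd (nat_lit 94) (nat_lit 0) (nat_lit 0) (XT.lf (nat_lit 0) (nat_lit 44477005684) (nat_lit 1008) (nat_lit 2024187798) (nat_lit 1092) (nat_lit 19785641186) (nat_lit 96) (nat_lit 5) (nat_lit 108) (nat_lit 5) (nat_lit 109) (nat_lit 5) (nat_lit 382) (nat_lit 373) (nat_lit 106)) (XT.nd (nat_lit 94) (nat_lit 0) (nat_lit 0) (XT.lf (nat_lit 84) (nat_lit 22163470770) (nat_lit 0) (nat_lit 24719038482) (nat_lit 1092) (nat_lit 20521689112) (nat_lit 97) (nat_lit 5) (nat_lit 96) (nat_lit 5) (nat_lit 109) (nat_lit 5) (nat_lit 383) (nat_lit 373) (nat_lit 105)) (XT.lf (nat_lit 84) (nat_lit 47143517463) (nat_lit 0) (nat_lit 2239694596) (nat_lit 1092) (nat_lit 19172351525) (nat_lit 97)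 (nat_lit 5) (nat_lit 96) (nat_lit 5) (nat_lit 109) (nat_lit 5) (nat_lit 384) (nat_lit 373) (nat_lit 104)))) (XT.nd (nat_lit 94) (nat_lit 0) (nat_lit 0) (XT.lf (nat_lit 84) (nat_lit 3007883906) (nat_lit 0) (nat_lit 49190600904) (nat_lit 1092) (nat_lit 17536790482) (nat_lit 98) (nat_lit 5) (nat_lit 97) (nat_lit 5) (nat_lit 110) (nat_lit 5) (nat_lit 385) (nat_lit 373) (nat_lit 103)) (XT.nd (nat_lit 94) (nat_lit 0) (nat_lit 0) (XT.lf (nat_lit 84) (nat_lit 28615031651) (nat_lit 0) (nat_lit 26731700012) (nat_lit 1092) (nat_lit 15597212255) (nat_lit 98) (nat_lit 5) (nat_lit 97) (nat_lit 5) (nat_lit 110) (nat_lit 5) (nat_lit 386) (nat_lit 373) (nat_lit 102)) (XT.lf (nat_lit 84) (nat_lit 55015664970) (nat_lit 0) (nat_lit 3576451299) (nat_lit 1092) (nat_lit 13597981696) (nat_lit 98) (nat_lit 5) (nat_lit 97) (nat_lit 5) (nat_lit 110) (nat_lit 5) (nat_lit 387) (nat_lit 373) (nat_lit 101))))) (XT.nd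 (nat_lit 282) (nat_lit 1596) (nat_lit 0) (XT.nd (nat_lit 94) (nat_lit 0) (nat_lit 0) (XT.lf (nat_lit 84) (nat_lit 8734120032) (nat_lit 0) (nat_lit 53491533244) (nat_lit 1092) (nat_lit 11240318026) (nat_lit 99) (nat_lit 5) (nat_lit 98) (nat_lit 5) (nat_lit 111) (nat_lit 5) (nat_lit 388) (nat_lit 373) (nat_lit 100)) (XT.nd (nat_lit 94) (nat_lit 0) (nat_lit 0) (XT.lf (nat_lit 84) (nat_lit 35772256551) (nat_lit 0) (nat_lit 30414614584) (nat_lit 1092) (nat_lit 8587861653) (nat_lit 99) (nat_lit 5) (nat_lit 98) (nat_lit 5) (nat_lit 111) (nat_lit 5) (nat_lit 389) (nat_lit 373) (nat_lit 99)) (XT.lf (nat_lit 84) (nat_lit 63648245725) (nat_lit 0) (nat_lit 6622221030) (nat_lit 1092) (nat_lit 5853614423) (nat_lit 99) (nat_lit 5) (nat_lit 98) (nat_lit 5) (nat_lit 111) (nat_lit 5) (nat_lit 390) (nat_lit 373) (nat_lit 98)))) (XT.nd (nat_lit 188) (nat_lit 588) (nat_lit 0) (XT.nd (nat_lit 94) (nat_lit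 84) (nat_lit 0) (XT.lf (nat_lit 0) (nat_lit 14997311251) (nat_lit 1008) (nat_lit 59809358246) (nat_lit 1092) (nat_lit 2698485599) (nat_lit 87) (nat_lit 5) (nat_lit 99) (nat_lit 5) (nat_lit 100) (nat_lit 5) (nat_lit 391) (nat_lit 373) (nat_lit 97)) (XT.lf (nat_lit 0) (nat_lit 742161254) (nat_lit 1092) (nat_lit 35413302967) (nat_lit 84) (nat_lit 42767244377) (nat_lit 86) (nat_lit 5) (nat_lit 99) (nat_lit 5) (nat_lit 87) (nat_lit 5) (nat_lit 392) (nat_lit 373) (nat_lit 96))) (XT.nd (nat_lit 94) (nat_lit 588) (nat_lit 0) (XT.lf (nat_lit 0) (nat_lit 4233022673) (nat_lit 1092) (nat_lit 7506762550) (nat_lit 84) (nat_lit 68643579618) (nat_lit 86) (nat_lit 5) (nat_lit 99) (nat_lit 5) (nat_lit 87) (nat_lit 5) (nat_lit 393) (nat_lit 373) (nat_lit 95)) (XT.lf (nat_lit 0) (nat_lit 8182462802) (nat_lit 672) (nat_lit 60316297138) (nat_lit 84) (nat_lit 13379682225) (nat_lit 79) (nat_lit 5) (nat_lit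 87) (nat_lit 5) (nat_lit 80) (nat_lit 5) (nat_lit 394) (nat_lit 373) (nat_lit 94))))))))
noncomputable def xc238 : XT := (XT.nd (nat_lit 52264) (nat_lit 0) (nat_lit 2016) (XT.nd (nat_lit 1128) (nat_lit 1176) (nat_lit 0) (XT.nd (nat_lit 564) (nat_lit 840) (nat_lit 0) (XT.nd (nat_lit 282) (nat_lit 504) (nat_lit 0) (XT.nd (nat_lit 94) (nat_lit 504) (nat_lit 0) (XT.lf (nat_lit 0) (nat_lit 12453191518) (nat_lit 672) (nat_lit 31847314252) (nat_lit 84) (nat_lit 39113198479) (nat_lit 79) (nat_lit 5) (nat_lit 87) (nat_lit 5) (nat_lit 80) (nat_lit 5) (nat_lit 395) (nat_lit 373) (nat_lit 93)) (XT.nd (nat_lit 94) (nat_lit 504) (nat_lit 0) (XT.lf (nat_lit 0) (nat_lit 16855952943) (nat_lit 672) (nat_lit 2496115656) (nat_lit 84) (nat_lit 65644503858) (nat_lit 79) (nat_lit 5) (nat_lit 87) (nat_lit 5) (nat_lit 80) (nat_lit 5) (nat_lit 396) (nat_lit 373) (nat_lit 92)) (XT.lf (nat_lit 0) (nat_lit 21742007307)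 (nat_lit 588) (nat_lit 58350317171) (nat_lit 84) (nat_lit 6525435860) (nat_lit 73) (nat_lit 5) (nat_lit 80) (nat_lit 5) (nat_lit 74) (nat_lit 5) (nat_lit 397) (nat_lit 373) (nat_lit 91)))) (XT.nd (nat_lit 94) (nat_lit 504) (nat_lit 0) (XT.lf (nat_lit 0) (nat_lit 27003434973) (nat_lit 588) (nat_lit 28449323841) (nat_lit 84) (nat_lit 32829506888) (nat_lit 73) (nat_lit 5) (nat_lit 80) (nat_lit 5) (nat_lit 74) (nat_lit 5) (nat_lit 398) (nat_lit 373) (nat_lit 90)) (XT.nd (nat_lit 94) (nat_lit 0) (nat_lit 0) (XT.lf (nat_lit 0) (nat_lit 2427189925) (nat_lit 504) (nat_lit 30024523935) (nat_lit 588) (nat_lit 57545922396) (nat_lit 67) (nat_lit 5) (nat_lit 73) (nat_lit 5) (nat_lit 74) (nat_lit 5) (nat_lit 399) (nat_lit 373) (nat_lit 89)) (XT.lf (nat_lit 0) (nat_lit 34863676675) (nat_lit 504) (nat_lit 3501841132) (nat_lit 588) (nat_lit 53391471640) (nat_lit 67) (nat_lit 5) (nat_lit 73) (nat_lit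 5) (nat_lit 74) (nat_lit 5) (nat_lit 400) (nat_lit 373) (nat_lit 88))))) (XT.nd (nat_lit 282) (nat_lit 420) (nat_lit 0) (XT.nd (nat_lit 94) (nat_lit 420) (nat_lit 0) (XT.lf (nat_lit 0) (nat_lit 44698861342) (nat_lit 588) (nat_lit 25502025844) (nat_lit 84) (nat_lit 23362674419) (nat_lit 67) (nat_lit 5) (nat_lit 74) (nat_lit 5) (nat_lit 68) (nat_lit 5) (nat_lit 401) (nat_lit 373) (nat_lit 87)) (XT.nd (nat_lit 94) (nat_lit 0) (nat_lit 0) (XT.lf (nat_lit 0) (nat_lit 6966635112) (nat_lit 420) (nat_lit 44366524052) (nat_lit 504) (nat_lit 44089736631) (nat_lit 62) (nat_lit 5) (nat_lit 67) (nat_lit 5) (nat_lit 68) (nat_lit 5) (nat_lit 402) (nat_lit 373) (nat_lit 86)) (XT.lf (nat_lit 0) (nat_lit 40982154727) (nat_lit 420) (nat_lit 17456855693) (nat_lit 504) (nat_lit 38892617815) (nat_lit 62) (nat_lit 5) (nat_lit 67) (nat_lit 5) (nat_lit 68) (nat_lit 5) (nat_lit 403) (nat_lit 373) (nat_lit 85))))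 (XT.nd (nat_lit 94) (nat_lit 420) (nat_lit 0) (XT.lf (nat_lit 0) (nat_lit 65866901830) (nat_lit 504) (nat_lit 23349725159) (nat_lit 84) (nat_lit 10079751314) (nat_lit 62) (nat_lit 5) (nat_lit 68) (nat_lit 5) (nat_lit 63) (nat_lit 5) (nat_lit 404) (nat_lit 373) (nat_lit 84)) (XT.nd (nat_lit 94) (nat_lit 0) (nat_lit 0) (XT.lf (nat_lit 0) (nat_lit 10709962958) (nat_lit 420) (nat_lit 63099600678) (nat_lit 504) (nat_lit 27503653706) (nat_lit 57) (nat_lit 5) (nat_lit 62) (nat_lit 5) (nat_lit 63) (nat_lit 5) (nat_lit 405) (nat_lit 373) (nat_lit 83)) (XT.lf (nat_lit 0) (nat_lit 46320214518) (nat_lit 420) (nat_lit 35921681303) (nat_lit 504) (nat_lit 21143137044) (nat_lit 57) (nat_lit 5) (nat_lit 62) (nat_lit 5) (nat_lit 63) (nat_lit 5) (nat_lit 406) (nat_lit 373) (nat_lit 82)))))) (XT.nd (nat_lit 564) (nat_lit 336) (nat_lit 0) (XT.nd (nat_lit 282) (nat_lit 420) (nat_lit 0) (XT.nd (nat_lit 94)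 (nat_lit 420) (nat_lit 0) (XT.lf (nat_lit 0) (nat_lit 83034103765) (nat_lit 420) (nat_lit 7901259439) (nat_lit 504) (nat_lit 14585721062) (nat_lit 57) (nat_lit 5) (nat_lit 62) (nat_lit 5) (nat_lit 63) (nat_lit 5) (nat_lit 407) (nat_lit 373) (nat_lit 81)) (XT.nd (nat_lit 94) (nat_lit 84) (nat_lit 0) (XT.lf (nat_lit 0) (nat_lit 13220654645) (nat_lit 336) (nat_lit 87016766297) (nat_lit 420) (nat_lit 7475421716) (nat_lit 53) (nat_lit 5) (nat_lit 57) (nat_lit 5) (nat_lit 58) (nat_lit 5) (nat_lit 408) (nat_lit 373) (nat_lit 80)) (XT.lf (nat_lit 0) (nat_lit 175884250) (nat_lit 420) (nat_lit 59535391622) (nat_lit 84) (nat_lit 50251467561) (nat_lit 52) (nat_lit 5) (nat_lit 57) (nat_lit 5) (nat_lit 53) (nat_lit 5) (nat_lit 409) (nat_lit 373) (nat_lit 79)))) (XT.nd (nat_lit 94) (nat_lit 420) (nat_lit 0) (XT.lf (nat_lit 0) (nat_lit 7908848392) (nat_lit 420) (nat_lit 23571666499) (nat_lit 84) (nat_lit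 80799515026) (nat_lit 52) (nat_lit 5) (nat_lit 57) (nat_lit 5) (nat_lit 53) (nat_lit 5) (nat_lit 410) (nat_lit 373) (nat_lit 78)) (XT.nd (nat_lit 94) (nat_lit 0) (nat_lit 0) (XT.lf (nat_lit 0) (nat_lit 13784391186) (nat_lit 420) (nat_lit 2233643413) (nat_lit 504) (nat_lit 98646887308) (nat_lit 47) (nat_lit 5) (nat_lit 52) (nat_lit 5) (nat_lit 53) (nat_lit 5) (nat_lit 411) (nat_lit 373) (nat_lit 77)) (XT.lf (nat_lit 0) (nat_lit 24903892229) (nat_lit 504) (nat_lit 64597682974) (nat_lit 84) (nat_lit 27605887556) (nat_lit 47) (nat_lit 5) (nat_lit 53) (nat_lit 5) (nat_lit 48) (nat_lit 5) (nat_lit 412) (nat_lit 373) (nat_lit 76))))) (XT.nd (nat_lit 282) (nat_lit 0) (nat_lit 0) (XT.nd (nat_lit 94) (nat_lit 336) (nat_lit 0) (XT.lf (nat_lit 0) (nat_lit 34087825238) (nat_lit 504) (nat_lit 27213176826) (nat_lit 84) (nat_lit 58324020349) (nat_lit 47) (nat_lit 5) (nat_lit 53) (nat_lit 5) (nat_lit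 48) (nat_lit 5) (nat_lit 413) (nat_lit 373) (nat_lit 75)) (XT.nd (nat_lit 94) (nat_lit 0) (nat_lit 0) (XT.lf (nat_lit 0) (nat_lit 11562959889) (nat_lit 336) (nat_lit 32107982099) (nat_lit 420) (nat_lit 78546136523) (nat_lit 43) (nat_lit 5) (nat_lit 47) (nat_lit 5) (nat_lit 48) (nat_lit 5) (nat_lit 414) (nat_lit 373) (nat_lit 74)) (XT.lf (nat_lit 0) (nat_lit 52117807497) (nat_lit 336) (nat_lit 1717157655) (nat_lit 420) (nat_lit 71045725472) (nat_lit 43) (nat_lit 5) (nat_lit 47) (nat_lit 5) (nat_lit 48) (nat_lit 5) (nat_lit 415) (nat_lit 373) (nat_lit 73)))) (XT.nd (nat_lit 50102) (nat_lit 0) (nat_lit 4200) (XT.lf (nat_lit 0) (nat_lit 64607651585) (nat_lit 420) (nat_lit 33991065556) (nat_lit 84) (nat_lit 29019057605) (nat_lit 43) (nat_lit 5) (nat_lit 48) (nat_lit 5) (nat_lit 44) (nat_lit 5) (nat_lit 416) (nat_lit 373) (nat_lit 72)) (XT.nd (nat_lit 94) (nat_lit 0) (nat_lit 0) (XT.lf (nat_lit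 0) (nat_lit 16862265308) (nat_lit 1092) (nat_lit 6367363292) (nat_lit 1092) (nat_lit 6367363292) (nat_lit 93) (nat_lit 3) (nat_lit 106) (nat_lit 3) (nat_lit 106) (nat_lit 5) (nat_lit 374) (nat_lit 374) (nat_lit 113)) (XT.lf (nat_lit 84) (nat_lit 8062415462) (nat_lit 0) (nat_lit 26280006923) (nat_lit 1092) (nat_lit 25766033978) (nat_lit 94) (nat_lit 5) (nat_lit 93) (nat_lit 3) (nat_lit 106) (nat_lit 5) (nat_lit 375) (nat_lit 374) (nat_lit 112))))))) (XT.nd (nat_lit 1128) (nat_lit 2184) (nat_lit 0) (XT.nd (nat_lit 564) (nat_lit 0) (nat_lit 168) (XT.nd (nat_lit 282) (nat_lit 0) (nat_lit 84) (XT.nd (nat_lit 94) (nat_lit 0) (nat_lit 84) (XT.lf (nat_lit 84) (nat_lit 29773914857) (nat_lit 0) (nat_lit 5337863416) (nat_lit 1092) (nat_lit 25935401113) (nat_lit 94) (nat_lit 5) (nat_lit 93) (nat_lit 3) (nat_lit 106) (nat_lit 5) (nat_lit 376) (nat_lit 374) (nat_lit 111)) (XT.nd (nat_lit 94) (nat_lit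 0) (nat_lit 0) (XT.lf (nat_lit 0) (nat_lit 36065627136) (nat_lit 1008) (nat_lit 10018107113) (nat_lit 1092) (nat_lit 15926291934) (nat_lit 94) (nat_lit 5) (nat_lit 106) (nat_lit 5) (nat_lit 107) (nat_lit 5) (nat_lit 377) (nat_lit 374) (nat_lit 110)) (XT.lf (nat_lit 84) (nat_lit 12084514179) (nat_lit 0) (nat_lit 25138428988) (nat_lit 1092) (nat_lit 25774390420) (nat_lit 95) (nat_lit 5) (nat_lit 94) (nat_lit 5) (nat_lit 107) (nat_lit 5) (nat_lit 378) (nat_lit 374) (nat_lit 109)))) (XT.nd (nat_lit 94) (nat_lit 0) (nat_lit 84) (XT.lf (nat_lit 84) (nat_lit 35084370416) (nat_lit 0) (nat_lit 3435772354) (nat_lit 1092) (nat_lit 25491883636) (nat_lit 95) (nat_lit 5) (nat_lit 94) (nat_lit 5) (nat_lit 107) (nat_lit 5) (nat_lit 379) (nat_lit 374) (nat_lit 108)) (XT.nd (nat_lit 94) (nat_lit 0) (nat_lit 0) (XT.lf (nat_lit 0) (nat_lit 40044896849) (nat_lit 1008) (nat_lit 6449173668) (nat_lit 1092)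 (nat_lit 18558299607) (nat_lit 95) (nat_lit 5) (nat_lit 107) (nat_lit 5) (nat_lit 108) (nat_lit 5) (nat_lit 380) (nat_lit 374) (nat_lit 107)) (XT.lf (nat_lit 84) (nat_lit 17033869057) (nat_lit 0) (nat_lit 24786640969) (nat_lit 1092) (nat_lit 24298146039) (nat_lit 96) (nat_lit 5) (nat_lit 95) (nat_lit 5) (nat_lit 108) (nat_lit 5) (nat_lit 381) (nat_lit 374) (nat_lit 106))))) (XT.nd (nat_lit 282) (nat_lit 0) (nat_lit 84) (XT.nd (nat_lit 94) (nat_lit 0) (nat_lit 84) (XT.lf (nat_lit 84) (nat_lit 41381281332) (nat_lit 0) (nat_lit 2336688399) (nat_lit 1092) (nat_lit 23497959085) (nat_lit 96) (nat_lit 5) (nat_lit 95) (nat_lit 5) (nat_lit 108) (nat_lit 5) (nat_lit 382) (nat_lit 374) (nat_lit 105)) (XT.nd (nat_lit 94) (nat_lit 0) (nat_lit 0) (XT.lf (nat_lit 0) (nat_lit 45880184297) (nat_lit 1008) (nat_lit 2070517740) (nat_lit 1092) (nat_lit 20390133782) (nat_lit 96) (nat_lit 5) (nat_lit 108)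 (nat_lit 5) (nat_lit 109) (nat_lit 5) (nat_lit 383) (nat_lit 374) (nat_lit 104)) (XT.lf (nat_lit 84) (nat_lit 22866792008) (nat_lit 0) (nat_lit 25492894306) (nat_lit 1092) (nat_lit 21133173258) (nat_lit 97) (nat_lit 5) (nat_lit 96) (nat_lit 5) (nat_lit 109) (nat_lit 5) (nat_lit 384) (nat_lit 374) (nat_lit 103)))) (XT.nd (nat_lit 94) (nat_lit 0) (nat_lit 84) (XT.lf (nat_lit 84) (nat_lit 48620731436) (nat_lit 0) (nat_lit 2316463277) (nat_lit 1092) (nat_lit 19742748529) (nat_lit 97) (nat_lit 5) (nat_lit 96) (nat_lit 5) (nat_lit 109) (nat_lit 5) (nat_lit 385) (nat_lit 374) (nat_lit 102)) (XT.nd (nat_lit 94) (nat_lit 0) (nat_lit 0) (XT.lf (nat_lit 84) (nat_lit 3117639972) (nat_lit 0) (nat_lit 50721499477) (nat_lit 1092) (nat_lit 18057109016) (nat_lit 98) (nat_lit 5) (nat_lit 97) (nat_lit 5) (nat_lit 110) (nat_lit 5) (nat_lit 386) (nat_lit 374) (nat_lit 101)) (XT.lf (nat_lit 84) (nat_lit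 29518112826) (nat_lit 0) (nat_lit 27566192552) (nat_lit 1092) (nat_lit 16058105106) (nat_lit 98) (nat_lit 5) (nat_lit 97) (nat_lit 5) (nat_lit 110) (nat_lit 5) (nat_lit 387) (nat_lit 374) (nat_lit 100)))))) (XT.nd (nat_lit 564) (nat_lit 1596) (nat_lit 0) (XT.nd (nat_lit 282) (nat_lit 924) (nat_lit 0) (XT.nd (nat_lit 94) (nat_lit 0) (nat_lit 84) (XT.lf (nat_lit 84) (nat_lit 56736684235) (nat_lit 0) (nat_lit 3692956440) (nat_lit 1092) (nat_lit 13997578558) (nat_lit 98) (nat_lit 5) (nat_lit 97) (nat_lit 5) (nat_lit 110) (nat_lit 5) (nat_lit 388) (nat_lit 374) (nat_lit 99)) (XT.nd (nat_lit 94) (nat_lit 0) (nat_lit 0) (XT.lf (nat_lit 84) (nat_lit 9021073432) (nat_lit 0) (nat_lit 55154213838) (nat_lit 1092) (nat_lit 11567377278) (nat_lit 99) (nat_lit 5) (nat_lit 98) (nat_lit 5) (nat_lit 111) (nat_lit 5) (nat_lit 389) (nat_lit 374) (nat_lit 98)) (XT.lf (nat_lit 84) (nat_lit 36896905212) (nat_lit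 0) (nat_lit 31361777106) (nat_lit 1092) (nat_lit 8833337928) (nat_lit 99) (nat_lit 5) (nat_lit 98) (nat_lit 5) (nat_lit 111) (nat_lit 5) (nat_lit 390) (nat_lit 374) (nat_lit 97)))) (XT.nd (nat_lit 94) (nat_lit 1008) (nat_lit 0) (XT.lf (nat_lit 84) (nat_lit 65636577723) (nat_lit 0) (nat_lit 6831689775) (nat_lit 1092) (nat_lit 6014952866) (nat_lit 99) (nat_lit 5) (nat_lit 98) (nat_lit 5) (nat_lit 111) (nat_lit 5) (nat_lit 391) (nat_lit 374) (nat_lit 96)) (XT.nd (nat_lit 94) (nat_lit 84) (nat_lit 0) (XT.lf (nat_lit 0) (nat_lit 15478051240) (nat_lit 1008) (nat_lit 61666574230) (nat_lit 1092) (nat_lit 2762499752) (nat_lit 87) (nat_lit 5) (nat_lit 99) (nat_lit 5) (nat_lit 100) (nat_lit 5) (nat_lit 392) (nat_lit 374) (nat_lit 95)) (XT.lf (nat_lit 0) (nat_lit 783832870) (nat_lit 1092) (nat_lit 36495287811) (nat_lit 84) (nat_lit 44089517081) (nat_lit 86) (nat_lit 5) (nat_lit 99) (nat_lit 5)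 (nat_lit 87) (nat_lit 5) (nat_lit 393) (nat_lit 374) (nat_lit 94))))) (XT.nd (nat_lit 282) (nat_lit 1008) (nat_lit 0) (XT.nd (nat_lit 94) (nat_lit 588) (nat_lit 0) (XT.lf (nat_lit 0) (nat_lit 4382349787) (nat_lit 1092) (nat_lit 7724120543) (nat_lit 84) (nat_lit 70768124309) (nat_lit 86) (nat_lit 5) (nat_lit 99) (nat_lit 5) (nat_lit 87) (nat_lit 5) (nat_lit 394) (nat_lit 374) (nat_lit 93)) (XT.nd (nat_lit 94) (nat_lit 0) (nat_lit 0) (XT.lf (nat_lit 0) (nat_lit 8453804042) (nat_lit 672) (nat_lit 62170241684) (nat_lit 84) (nat_lit 13791989414) (nat_lit 79) (nat_lit 5) (nat_lit 87) (nat_lit 5) (nat_lit 80) (nat_lit 5) (nat_lit 395) (nat_lit 374) (nat_lit 92)) (XT.lf (nat_lit 0) (nat_lit 12856393601) (nat_lit 672) (nat_lit 32819197225) (nat_lit 84) (nat_lit 40323318728) (nat_lit 79) (nat_lit 5) (nat_lit 87) (nat_lit 5) (nat_lit 80) (nat_lit 5) (nat_lit 396) (nat_lit 374) (nat_lit 91))))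 (XT.nd (nat_lit 188) (nat_lit 504) (nat_lit 0) (XT.nd (nat_lit 94) (nat_lit 504) (nat_lit 0) (XT.lf (nat_lit 0) (nat_lit 17395124871) (nat_lit 672) (nat_lit 2558574030) (nat_lit 84) (nat_lit 67677166403) (nat_lit 79) (nat_lit 5) (nat_lit 87) (nat_lit 5) (nat_lit 80) (nat_lit 5) (nat_lit 397) (nat_lit 374) (nat_lit 90)) (XT.lf (nat_lit 0) (nat_lit 22432278176) (nat_lit 588) (nat_lit 60143804468) (nat_lit 84) (nat_lit 6726241356) (nat_lit 73) (nat_lit 5) (nat_lit 80) (nat_lit 5) (nat_lit 74) (nat_lit 5) (nat_lit 398) (nat_lit 374) (nat_lit 89))) (XT.nd (nat_lit 94) (nat_lit 504) (nat_lit 0) (XT.lf (nat_lit 0) (nat_lit 27856320936) (nat_lit 588) (nat_lit 29316342564) (nat_lit 84) (nat_lit 33845783177) (nat_lit 73) (nat_lit 5) (nat_lit 80) (nat_lit 5) (nat_lit 74) (nat_lit 5) (nat_lit 399) (nat_lit 374) (nat_lit 88)) (XT.lf (nat_lit 0) (nat_lit 2517192174) (nat_lit 504) (nat_lit 30955976253)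 (nat_lit 588) (nat_lit 59313837869) (nat_lit 67) (nat_lit 5) (nat_lit 73) (nat_lit 5) (nat_lit 74) (nat_lit 5) (nat_lit 400) (nat_lit 374) (nat_lit 87))))))))
noncomputable def xc239 : XT := (XT.nd (nat_lit 52452) (nat_lit 0) (nat_lit 1176) (XT.nd (nat_lit 1128) (nat_lit 336) (nat_lit 0) (XT.nd (nat_lit 564) (nat_lit 840) (nat_lit 0) (XT.nd (nat_lit 282) (nat_lit 420) (nat_lit 0) (XT.nd (nat_lit 94) (nat_lit 420) (nat_lit 0) (XT.lf (nat_lit 0) (nat_lit 35958766231) (nat_lit 504) (nat_lit 3611069474) (nat_lit 588) (nat_lit 55031080470) (nat_lit 67) (nat_lit 5) (nat_lit 73) (nat_lit 5) (nat_lit 74) (nat_lit 5) (nat_lit 401) (nat_lit 374) (nat_lit 86)) (XT.nd (nat_lit 94) (nat_lit 420) (nat_lit 0) (XT.lf (nat_lit 0) (nat_lit 46099055807) (nat_lit 588) (nat_lit 26278173337) (nat_lit 84) (nat_lit 24086279361) (nat_lit 67) (nat_lit 5) (nat_lit 74) (nat_lit 5) (nat_lit 68) (nat_lit 5) (nat_lit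 402) (nat_lit 374) (nat_lit 85)) (XT.lf (nat_lit 0) (nat_lit 7196870167) (nat_lit 420) (nat_lit 45741851370) (nat_lit 504) (nat_lit 45441771871) (nat_lit 62) (nat_lit 5) (nat_lit 67) (nat_lit 5) (nat_lit 68) (nat_lit 5) (nat_lit 403) (nat_lit 374) (nat_lit 84)))) (XT.nd (nat_lit 94) (nat_lit 420) (nat_lit 0) (XT.lf (nat_lit 0) (nat_lit 42266441841) (nat_lit 420) (nat_lit 17997984341) (nat_lit 504) (nat_lit 40083985771) (nat_lit 62) (nat_lit 5) (nat_lit 67) (nat_lit 5) (nat_lit 68) (nat_lit 5) (nat_lit 404) (nat_lit 374) (nat_lit 83)) (XT.nd (nat_lit 94) (nat_lit 420) (nat_lit 0) (XT.lf (nat_lit 0) (nat_lit 67922167421) (nat_lit 504) (nat_lit 24059660976) (nat_lit 84) (nat_lit 10392255802) (nat_lit 62) (nat_lit 5) (nat_lit 68) (nat_lit 5) (nat_lit 63) (nat_lit 5) (nat_lit 405) (nat_lit 374) (nat_lit 82)) (XT.lf (nat_lit 0) (nat_lit 11055736691) (nat_lit 420) (nat_lit 65055048944) (nat_lit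 504) (nat_lit 28342669868) (nat_lit 57) (nat_lit 5) (nat_lit 62) (nat_lit 5) (nat_lit 63) (nat_lit 5) (nat_lit 406) (nat_lit 374) (nat_lit 81))))) (XT.nd (nat_lit 282) (nat_lit 504) (nat_lit 0) (XT.nd (nat_lit 94) (nat_lit 336) (nat_lit 0) (XT.lf (nat_lit 0) (nat_lit 47769492168) (nat_lit 420) (nat_lit 37034633292) (nat_lit 504) (nat_lit 21785386026) (nat_lit 57) (nat_lit 5) (nat_lit 62) (nat_lit 5) (nat_lit 63) (nat_lit 5) (nat_lit 407) (nat_lit 374) (nat_lit 80)) (XT.nd (nat_lit 94) (nat_lit 336) (nat_lit 0) (XT.lf (nat_lit 0) (nat_lit 85621110545) (nat_lit 420) (nat_lit 8145596996) (nat_lit 504) (nat_lit 15025086692) (nat_lit 57) (nat_lit 5) (nat_lit 62) (nat_lit 5) (nat_lit 63) (nat_lit 5) (nat_lit 408) (nat_lit 374) (nat_lit 79)) (XT.lf (nat_lit 0) (nat_lit 13643746646) (nat_lit 336) (nat_lit 89713148388) (nat_lit 420) (nat_lit 7694611186) (nat_lit 53) (nat_lit 5) (nat_lit 57)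 (nat_lit 5) (nat_lit 58) (nat_lit 5) (nat_lit 409) (nat_lit 374) (nat_lit 78)))) (XT.nd (nat_lit 94) (nat_lit 420) (nat_lit 0) (XT.lf (nat_lit 0) (nat_lit 193262730) (nat_lit 420) (nat_lit 61367834753) (nat_lit 84) (nat_lit 51810065760) (nat_lit 52) (nat_lit 5) (nat_lit 57) (nat_lit 5) (nat_lit 53) (nat_lit 5) (nat_lit 410) (nat_lit 374) (nat_lit 77)) (XT.nd (nat_lit 94) (nat_lit 420) (nat_lit 0) (XT.lf (nat_lit 0) (nat_lit 8165590169) (nat_lit 420) (nat_lit 24289629665) (nat_lit 84) (nat_lit 83305078560) (nat_lit 52) (nat_lit 5) (nat_lit 57) (nat_lit 5) (nat_lit 53) (nat_lit 5) (nat_lit 411) (nat_lit 374) (nat_lit 76)) (XT.lf (nat_lit 0) (nat_lit 14224336640) (nat_lit 420) (nat_lit 2301601983) (nat_lit 504) (nat_lit 101693191931) (nat_lit 47) (nat_lit 5) (nat_lit 52) (nat_lit 5) (nat_lit 53) (nat_lit 5) (nat_lit 412) (nat_lit 374) (nat_lit 75)))))) (XT.nd (nat_lit 50760) (nat_lit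 0) (nat_lit 4284) (XT.nd (nat_lit 50478) (nat_lit 0) (nat_lit 4200) (XT.nd (nat_lit 94) (nat_lit 336) (nat_lit 0) (XT.lf (nat_lit 0) (nat_lit 25686929079) (nat_lit 504) (nat_lit 66587582127) (nat_lit 84) (nat_lit 28462890729) (nat_lit 47) (nat_lit 5) (nat_lit 53) (nat_lit 5) (nat_lit 48) (nat_lit 5) (nat_lit 413) (nat_lit 374) (nat_lit 74)) (XT.nd (nat_lit 94) (nat_lit 336) (nat_lit 0) (XT.lf (nat_lit 0) (nat_lit 35155232777) (nat_lit 504) (nat_lit 28044536016) (nat_lit 84) (nat_lit 60133248935) (nat_lit 47) (nat_lit 5) (nat_lit 53) (nat_lit 5) (nat_lit 48) (nat_lit 5) (nat_lit 414) (nat_lit 374) (nat_lit 73)) (XT.lf (nat_lit 0) (nat_lit 11933536923) (nat_lit 336) (nat_lit 33101688233) (nat_lit 420) (nat_lit 80970210118) (nat_lit 43) (nat_lit 5) (nat_lit 47) (nat_lit 5) (nat_lit 48) (nat_lit 5) (nat_lit 415) (nat_lit 374) (nat_lit 72)))) (XT.nd (nat_lit 94) (nat_lit 0) (nat_lit 0)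 (XT.lf (nat_lit 0) (nat_lit 17400026316) (nat_lit 1092) (nat_lit 6556961521) (nat_lit 1092) (nat_lit 6556961521) (nat_lit 93) (nat_lit 3) (nat_lit 106) (nat_lit 3) (nat_lit 106) (nat_lit 5) (nat_lit 375) (nat_lit 375) (nat_lit 111)) (XT.nd (nat_lit 94) (nat_lit 0) (nat_lit 0) (XT.lf (nat_lit 84) (nat_lit 8327772674) (nat_lit 0) (nat_lit 27108575475) (nat_lit 1092) (nat_lit 26534400083) (nat_lit 94) (nat_lit 5) (nat_lit 93) (nat_lit 3) (nat_lit 106) (nat_lit 5) (nat_lit 376) (nat_lit 375) (nat_lit 110)) (XT.lf (nat_lit 84) (nat_lit 30711864833) (nat_lit 0) (nat_lit 5516807927) (nat_lit 1092) (nat_lit 26709931091) (nat_lit 94) (nat_lit 5) (nat_lit 93) (nat_lit 3) (nat_lit 106) (nat_lit 5) (nat_lit 377) (nat_lit 375) (nat_lit 109))))) (XT.nd (nat_lit 282) (nat_lit 0) (nat_lit 84) (XT.nd (nat_lit 94) (nat_lit 0) (nat_lit 0) (XT.lf (nat_lit 0) (nat_lit 37211106513) (nat_lit 1008) (nat_lit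 10313023096) (nat_lit 1092) (nat_lit 16407204521) (nat_lit 94) (nat_lit 5) (nat_lit 106) (nat_lit 5) (nat_lit 107) (nat_lit 5) (nat_lit 378) (nat_lit 375) (nat_lit 108)) (XT.nd (nat_lit 94) (nat_lit 0) (nat_lit 0) (XT.lf (nat_lit 84) (nat_lit 12474621062) (nat_lit 0) (nat_lit 25929006701) (nat_lit 1092) (nat_lit 26545645693) (nat_lit 95) (nat_lit 5) (nat_lit 94) (nat_lit 5) (nat_lit 107) (nat_lit 5) (nat_lit 379) (nat_lit 375) (nat_lit 107)) (XT.lf (nat_lit 84) (nat_lit 36187007182) (nat_lit 0) (nat_lit 3553228352) (nat_lit 1092) (nat_lit 26255215608) (nat_lit 95) (nat_lit 5) (nat_lit 94) (nat_lit 5) (nat_lit 107) (nat_lit 5) (nat_lit 380) (nat_lit 375) (nat_lit 106)))) (XT.nd (nat_lit 94) (nat_lit 0) (nat_lit 0) (XT.lf (nat_lit 0) (nat_lit 41311370845) (nat_lit 1008) (nat_lit 6633503520) (nat_lit 1092) (nat_lit 19123202922) (nat_lit 95) (nat_lit 5) (nat_lit 107) (nat_lit 5) (nat_lit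 108) (nat_lit 5) (nat_lit 381) (nat_lit 375) (nat_lit 105)) (XT.nd (nat_lit 94) (nat_lit 0) (nat_lit 0) (XT.lf (nat_lit 84) (nat_lit 17577355649) (nat_lit 0) (nat_lit 25564071346) (nat_lit 1092) (nat_lit 25026013901) (nat_lit 96) (nat_lit 5) (nat_lit 95) (nat_lit 5) (nat_lit 108) (nat_lit 5) (nat_lit 382) (nat_lit 375) (nat_lit 104)) (XT.lf (nat_lit 84) (nat_lit 42679073557) (nat_lit 0) (nat_lit 2417898297) (nat_lit 1092) (nat_lit 24201784114) (nat_lit 96) (nat_lit 5) (nat_lit 95) (nat_lit 5) (nat_lit 108) (nat_lit 5) (nat_lit 383) (nat_lit 375) (nat_lit 103))))))) (XT.nd (nat_lit 1128) (nat_lit 2436) (nat_lit 0) (XT.nd (nat_lit 564) (nat_lit 840) (nat_lit 0) (XT.nd (nat_lit 282) (nat_lit 0) (nat_lit 84) (XT.nd (nat_lit 94) (nat_lit 0) (nat_lit 0) (XT.lf (nat_lit 0) (nat_lit 47325416699) (nat_lit 1008) (nat_lit 2119256487) (nat_lit 1092) (nat_lit 21013890577) (nat_lit 96) (nat_lit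 5) (nat_lit 108) (nat_lit 5) (nat_lit 109) (nat_lit 5) (nat_lit 384) (nat_lit 375) (nat_lit 102)) (XT.nd (nat_lit 94) (nat_lit 0) (nat_lit 0) (XT.lf (nat_lit 84) (nat_lit 23590953473) (nat_lit 0) (nat_lit 26290291535) (nat_lit 1092) (nat_lit 21765075738) (nat_lit 97) (nat_lit 5) (nat_lit 96) (nat_lit 5) (nat_lit 109) (nat_lit 5) (nat_lit 385) (nat_lit 375) (nat_lit 101)) (XT.lf (nat_lit 84) (nat_lit 50142805258) (nat_lit 0) (nat_lit 2395177136) (nat_lit 1092) (nat_lit 20332246196) (nat_lit 97) (nat_lit 5) (nat_lit 96) (nat_lit 5) (nat_lit 109) (nat_lit 5) (nat_lit 386) (nat_lit 375) (nat_lit 100)))) (XT.nd (nat_lit 94) (nat_lit 0) (nat_lit 0) (XT.lf (nat_lit 84) (nat_lit 3229820462) (nat_lit 0) (nat_lit 52299501110) (nat_lit 1092) (nat_lit 18594938824) (nat_lit 98) (nat_lit 5) (nat_lit 97) (nat_lit 5) (nat_lit 110) (nat_lit 5) (nat_lit 387) (nat_lit 375) (nat_lit 99)) (XT.nd (nat_lit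 94) (nat_lit 0) (nat_lit 0) (XT.lf (nat_lit 84) (nat_lit 30448240911) (nat_lit 0) (nat_lit 28426210234) (nat_lit 1092) (nat_lit 16534625500) (nat_lit 98) (nat_lit 5) (nat_lit 97) (nat_lit 5) (nat_lit 110) (nat_lit 5) (nat_lit 388) (nat_lit 375) (nat_lit 98)) (XT.lf (nat_lit 84) (nat_lit 58510135012) (nat_lit 0) (nat_lit 3812739460) (nat_lit 1092) (nat_lit 14410862500) (nat_lit 98) (nat_lit 5) (nat_lit 97) (nat_lit 5) (nat_lit 110) (nat_lit 5) (nat_lit 389) (nat_lit 375) (nat_lit 97))))) (XT.nd (nat_lit 282) (nat_lit 1008) (nat_lit 0) (XT.nd (nat_lit 94) (nat_lit 0) (nat_lit 0) (XT.lf (nat_lit 84) (nat_lit 9315963089) (nat_lit 0) (nat_lit 56868174361) (nat_lit 1092) (nat_lit 11905842370) (nat_lit 99) (nat_lit 5) (nat_lit 98) (nat_lit 5) (nat_lit 111) (nat_lit 5) (nat_lit 390) (nat_lit 375) (nat_lit 96)) (XT.nd (nat_lit 94) (nat_lit 0) (nat_lit 0) (XT.lf (nat_lit 84) (nat_lit 38055487529)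 (nat_lit 0) (nat_lit 32338046409) (nat_lit 1092) (nat_lit 9087652874) (nat_lit 99) (nat_lit 5) (nat_lit 98) (nat_lit 5) (nat_lit 111) (nat_lit 5) (nat_lit 391) (nat_lit 375) (nat_lit 95)) (XT.lf (nat_lit 84) (nat_lit 67685645537) (nat_lit 0) (nat_lit 7047404469) (nat_lit 1092) (nat_lit 6182484756) (nat_lit 99) (nat_lit 5) (nat_lit 98) (nat_lit 5) (nat_lit 111) (nat_lit 5) (nat_lit 392) (nat_lit 375) (nat_lit 94)))) (XT.nd (nat_lit 94) (nat_lit 84) (nat_lit 0) (XT.lf (nat_lit 0) (nat_lit 15972756925) (nat_lit 1008) (nat_lit 63581178758) (nat_lit 1092) (nat_lit 2829661590) (nat_lit 87) (nat_lit 5) (nat_lit 99) (nat_lit 5) (nat_lit 100) (nat_lit 5) (nat_lit 393) (nat_lit 375) (nat_lit 93)) (XT.nd (nat_lit 94) (nat_lit 0) (nat_lit 0) (XT.lf (nat_lit 0) (nat_lit 825690768) (nat_lit 1092) (nat_lit 37611751678) (nat_lit 84) (nat_lit 45452988253) (nat_lit 86) (nat_lit 5) (nat_lit 99) (nat_lit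 5) (nat_lit 87) (nat_lit 5) (nat_lit 394) (nat_lit 375) (nat_lit 92)) (XT.lf (nat_lit 0) (nat_lit 4535233746) (nat_lit 1092) (nat_lit 7949125938) (nat_lit 84) (nat_lit 72958731646) (nat_lit 86) (nat_lit 5) (nat_lit 99) (nat_lit 5) (nat_lit 87) (nat_lit 5) (nat_lit 395) (nat_lit 375) (nat_lit 91)))))) (XT.nd (nat_lit 564) (nat_lit 840) (nat_lit 0) (XT.nd (nat_lit 282) (nat_lit 1008) (nat_lit 0) (XT.nd (nat_lit 94) (nat_lit 0) (nat_lit 0) (XT.lf (nat_lit 0) (nat_lit 8732509353) (nat_lit 672) (nat_lit 64082597964) (nat_lit 84) (nat_lit 14217224012) (nat_lit 79) (nat_lit 5) (nat_lit 87) (nat_lit 5) (nat_lit 80) (nat_lit 5) (nat_lit 396) (nat_lit 375) (nat_lit 90)) (XT.nd (nat_lit 94) (nat_lit 0) (nat_lit 0) (XT.lf (nat_lit 0) (nat_lit 13271078938) (nat_lit 672) (nat_lit 33822119777) (nat_lit 84) (nat_lit 41571094204) (nat_lit 79) (nat_lit 5) (nat_lit 87) (nat_lit 5) (nat_lit 80) (nat_lit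 5) (nat_lit 397) (nat_lit 375) (nat_lit 89)) (XT.lf (nat_lit 0) (nat_lit 17950025668) (nat_lit 672) (nat_lit 2623852423) (nat_lit 84) (nat_lit 69772978731) (nat_lit 79) (nat_lit 5) (nat_lit 87) (nat_lit 5) (nat_lit 80) (nat_lit 5) (nat_lit 398) (nat_lit 375) (nat_lit 88)))) (XT.nd (nat_lit 94) (nat_lit 504) (nat_lit 0) (XT.lf (nat_lit 0) (nat_lit 23142983823) (nat_lit 588) (nat_lit 61993800413) (nat_lit 84) (nat_lit 6933359664) (nat_lit 73) (nat_lit 5) (nat_lit 80) (nat_lit 5) (nat_lit 74) (nat_lit 5) (nat_lit 399) (nat_lit 375) (nat_lit 87)) (XT.nd (nat_lit 94) (nat_lit 504) (nat_lit 0) (XT.lf (nat_lit 0) (nat_lit 28734711719) (nat_lit 588) (nat_lit 30211122032) (nat_lit 84) (nat_lit 34893649231) (nat_lit 73) (nat_lit 5) (nat_lit 80) (nat_lit 5) (nat_lit 74) (nat_lit 5) (nat_lit 400) (nat_lit 375) (nat_lit 86)) (XT.lf (nat_lit 0) (nat_lit 2609110271) (nat_lit 504) (nat_lit 31916262600)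 (nat_lit 588) (nat_lit 61137506910) (nat_lit 67) (nat_lit 5) (nat_lit 73) (nat_lit 5) (nat_lit 74) (nat_lit 5) (nat_lit 401) (nat_lit 375) (nat_lit 85))))) (XT.nd (nat_lit 282) (nat_lit 420) (nat_lit 0) (XT.nd (nat_lit 94) (nat_lit 420) (nat_lit 0) (XT.lf (nat_lit 0) (nat_lit 37086955627) (nat_lit 504) (nat_lit 3723644134) (nat_lit 588) (nat_lit 56722436852) (nat_lit 67) (nat_lit 5) (nat_lit 73) (nat_lit 5) (nat_lit 74) (nat_lit 5) (nat_lit 402) (nat_lit 375) (nat_lit 84)) (XT.nd (nat_lit 94) (nat_lit 420) (nat_lit 0) (XT.lf (nat_lit 0) (nat_lit 47541795679) (nat_lit 588) (nat_lit 27079235245) (nat_lit 84) (nat_lit 24832353844) (nat_lit 67) (nat_lit 5) (nat_lit 74) (nat_lit 5) (nat_lit 68) (nat_lit 5) (nat_lit 403) (nat_lit 375) (nat_lit 83)) (XT.lf (nat_lit 0) (nat_lit 7433397310) (nat_lit 420) (nat_lit 47159815903) (nat_lit 504) (nat_lit 46836593669) (nat_lit 62) (nat_lit 5) (nat_lit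 67) (nat_lit 5) (nat_lit 68) (nat_lit 5) (nat_lit 404) (nat_lit 375) (nat_lit 82)))) (XT.nd (nat_lit 188) (nat_lit 420) (nat_lit 0) (XT.nd (nat_lit 94) (nat_lit 0) (nat_lit 0) (XT.lf (nat_lit 0) (nat_lit 43589722069) (nat_lit 420) (nat_lit 18555889985) (nat_lit 504) (nat_lit 41313133336) (nat_lit 62) (nat_lit 5) (nat_lit 67) (nat_lit 5) (nat_lit 68) (nat_lit 5) (nat_lit 405) (nat_lit 375) (nat_lit 81)) (XT.lf (nat_lit 0) (nat_lit 70040353036) (nat_lit 504) (nat_lit 24792428459) (nat_lit 84) (nat_lit 10714446022) (nat_lit 62) (nat_lit 5) (nat_lit 68) (nat_lit 5) (nat_lit 63) (nat_lit 5) (nat_lit 406) (nat_lit 375) (nat_lit 80))) (XT.nd (nat_lit 94) (nat_lit 0) (nat_lit 0) (XT.lf (nat_lit 0) (nat_lit 11411414091) (nat_lit 420) (nat_lit 67071153976) (nat_lit 504) (nat_lit 29208500912) (nat_lit 57) (nat_lit 5) (nat_lit 62) (nat_lit 5) (nat_lit 63) (nat_lit 5) (nat_lit 407) (nat_lit 375)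 (nat_lit 79)) (XT.lf (nat_lit 0) (nat_lit 49262906622) (nat_lit 420) (nat_lit 38182123525) (nat_lit 504) (nat_lit 22448325891) (nat_lit 57) (nat_lit 5) (nat_lit 62) (nat_lit 5) (nat_lit 63) (nat_lit 5) (nat_lit 408) (nat_lit 375) (nat_lit 78))))))))
noncomputable def xc240 : XT := (XT.nd (nat_lit 52546) (nat_lit 0) (nat_lit 0) (XT.nd (nat_lit 51418) (nat_lit 0) (nat_lit 3948) (XT.nd (nat_lit 564) (nat_lit 0) (nat_lit 0) (XT.nd (nat_lit 282) (nat_lit 420) (nat_lit 0) (XT.nd (nat_lit 94) (nat_lit 420) (nat_lit 0) (XT.lf (nat_lit 0) (nat_lit 88287547511) (nat_lit 420) (nat_lit 8397544645) (nat_lit 504) (nat_lit 15478830333) (nat_lit 57) (nat_lit 5) (nat_lit 62) (nat_lit 5) (nat_lit 63) (nat_lit 5) (nat_lit 409) (nat_lit 375) (nat_lit 77)) (XT.nd (nat_lit 94) (nat_lit 84) (nat_lit 0) (XT.lf (nat_lit 0) (nat_lit 14079169578) (nat_lit 336) (nat_lit 92493185710) (nat_lit 420) (nat_lit 7921338805)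 (nat_lit 53) (nat_lit 5) (nat_lit 57) (nat_lit 5) (nat_lit 58) (nat_lit 5) (nat_lit 410) (nat_lit 375) (nat_lit 76)) (XT.lf (nat_lit 0) (nat_lit 210473541) (nat_lit 420) (nat_lit 63257862756) (nat_lit 84) (nat_lit 53416932957) (nat_lit 52) (nat_lit 5) (nat_lit 57) (nat_lit 5) (nat_lit 53) (nat_lit 5) (nat_lit 411) (nat_lit 375) (nat_lit 75)))) (XT.nd (nat_lit 94) (nat_lit 420) (nat_lit 0) (XT.lf (nat_lit 0) (nat_lit 8429605780) (nat_lit 420) (nat_lit 25030605396) (nat_lit 84) (nat_lit 85888268448) (nat_lit 52) (nat_lit 5) (nat_lit 57) (nat_lit 5) (nat_lit 53) (nat_lit 5) (nat_lit 412) (nat_lit 375) (nat_lit 74)) (XT.nd (nat_lit 94) (nat_lit 0) (nat_lit 0) (XT.lf (nat_lit 0) (nat_lit 14677172346) (nat_lit 420) (nat_lit 2371743345) (nat_lit 504) (nat_lit 104834627903) (nat_lit 47) (nat_lit 5) (nat_lit 52) (nat_lit 5) (nat_lit 53) (nat_lit 5) (nat_lit 413) (nat_lit 375) (nat_lit 73))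 (XT.lf (nat_lit 0) (nat_lit 26493587563) (nat_lit 504) (nat_lit 68639916192) (nat_lit 84) (nat_lit 29346388698) (nat_lit 47) (nat_lit 5) (nat_lit 53) (nat_lit 5) (nat_lit 48) (nat_lit 5) (nat_lit 414) (nat_lit 375) (nat_lit 72))))) (XT.nd (nat_lit 50572) (nat_lit 0) (nat_lit 3864) (XT.nd (nat_lit 50384) (nat_lit 0) (nat_lit 3864) (XT.lf (nat_lit 0) (nat_lit 36255097062) (nat_lit 504) (nat_lit 28902392888) (nat_lit 84) (nat_lit 61998493480) (nat_lit 47) (nat_lit 5) (nat_lit 53) (nat_lit 5) (nat_lit 48) (nat_lit 5) (nat_lit 415) (nat_lit 375) (nat_lit 71)) (XT.nd (nat_lit 94) (nat_lit 0) (nat_lit 0) (XT.lf (nat_lit 0) (nat_lit 17953567616) (nat_lit 1092) (nat_lit 6752898712) (nat_lit 1092) (nat_lit 6752898712) (nat_lit 93) (nat_lit 3) (nat_lit 106) (nat_lit 3) (nat_lit 106) (nat_lit 5) (nat_lit 376) (nat_lit 376) (nat_lit 109)) (XT.lf (nat_lit 84) (nat_lit 8600442468) (nat_lit 0) (nat_lit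 27962007022) (nat_lit 1092) (nat_lit 27328385054) (nat_lit 94) (nat_lit 5) (nat_lit 93) (nat_lit 3) (nat_lit 106) (nat_lit 5) (nat_lit 377) (nat_lit 376) (nat_lit 108)))) (XT.nd (nat_lit 94) (nat_lit 0) (nat_lit 84) (XT.lf (nat_lit 84) (nat_lit 31678005234) (nat_lit 0) (nat_lit 5700501822) (nat_lit 1092) (nat_lit 27510216907) (nat_lit 94) (nat_lit 5) (nat_lit 93) (nat_lit 3) (nat_lit 106) (nat_lit 5) (nat_lit 378) (nat_lit 376) (nat_lit 107)) (XT.nd (nat_lit 94) (nat_lit 0) (nat_lit 0) (XT.lf (nat_lit 0) (nat_lit 38390470140) (nat_lit 1008) (nat_lit 10618008174) (nat_lit 1092) (nat_lit 16903783710) (nat_lit 94) (nat_lit 5) (nat_lit 106) (nat_lit 5) (nat_lit 107) (nat_lit 5) (nat_lit 379) (nat_lit 376) (nat_lit 106)) (XT.lf (nat_lit 84) (nat_lit 12875903939) (nat_lit 0) (nat_lit 26743423808) (nat_lit 1092) (nat_lit 27342453609) (nat_lit 95) (nat_lit 5) (nat_lit 94) (nat_lit 5) (nat_lit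 107) (nat_lit 5) (nat_lit 380) (nat_lit 376) (nat_lit 105)))))) (XT.nd (nat_lit 564) (nat_lit 0) (nat_lit 168) (XT.nd (nat_lit 282) (nat_lit 0) (nat_lit 84) (XT.nd (nat_lit 94) (nat_lit 0) (nat_lit 84) (XT.lf (nat_lit 84) (nat_lit 37322935952) (nat_lit 0) (nat_lit 3673677073) (nat_lit 1092) (nat_lit 27043805176) (nat_lit 95) (nat_lit 5) (nat_lit 94) (nat_lit 5) (nat_lit 107) (nat_lit 5) (nat_lit 381) (nat_lit 376) (nat_lit 104)) (XT.nd (nat_lit 94) (nat_lit 0) (nat_lit 0) (XT.lf (nat_lit 0) (nat_lit 42615619874) (nat_lit 1008) (nat_lit 6824471288) (nat_lit 1092) (nat_lit 19706234485) (nat_lit 95) (nat_lit 5) (nat_lit 107) (nat_lit 5) (nat_lit 108) (nat_lit 5) (nat_lit 382) (nat_lit 376) (nat_lit 103)) (XT.lf (nat_lit 84) (nat_lit 18136775986) (nat_lit 0) (nat_lit 26365066343) (nat_lit 1092) (nat_lit 25777948652) (nat_lit 96) (nat_lit 5) (nat_lit 95) (nat_lit 5) (nat_lit 108) (nat_lit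 5) (nat_lit 383) (nat_lit 376) (nat_lit 102)))) (XT.nd (nat_lit 94) (nat_lit 0) (nat_lit 84) (XT.lf (nat_lit 84) (nat_lit 44016210494) (nat_lit 0) (nat_lit 2501106089) (nat_lit 1092) (nat_lit 24928885512) (nat_lit 96) (nat_lit 5) (nat_lit 95) (nat_lit 5) (nat_lit 108) (nat_lit 5) (nat_lit 384) (nat_lit 376) (nat_lit 101)) (XT.nd (nat_lit 94) (nat_lit 0) (nat_lit 0) (XT.lf (nat_lit 0) (nat_lit 48814092135) (nat_lit 1008) (nat_lit 2170421105) (nat_lit 1092) (nat_lit 21657477668) (nat_lit 96) (nat_lit 5) (nat_lit 108) (nat_lit 5) (nat_lit 109) (nat_lit 5) (nat_lit 385) (nat_lit 376) (nat_lit 100)) (XT.lf (nat_lit 84) (nat_lit 24336658237) (nat_lit 0) (nat_lit 27111986496) (nat_lit 1092) (nat_lit 22417942904) (nat_lit 97) (nat_lit 5) (nat_lit 96) (nat_lit 5) (nat_lit 109) (nat_lit 5) (nat_lit 386) (nat_lit 376) (nat_lit 99))))) (XT.nd (nat_lit 282) (nat_lit 0) (nat_lit 84) (XT.nd (nat_lit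 94) (nat_lit 0) (nat_lit 84) (XT.lf (nat_lit 84) (nat_lit 51711184894) (nat_lit 0) (nat_lit 2475922218) (nat_lit 1092) (nat_lit 20941352635) (nat_lit 97) (nat_lit 5) (nat_lit 96) (nat_lit 5) (nat_lit 109) (nat_lit 5) (nat_lit 387) (nat_lit 376) (nat_lit 98)) (XT.nd (nat_lit 94) (nat_lit 0) (nat_lit 0) (XT.lf (nat_lit 84) (nat_lit 3344558463) (nat_lit 0) (nat_lit 53926087015) (nat_lit 1092) (nat_lit 19150740935) (nat_lit 98) (nat_lit 5) (nat_lit 97) (nat_lit 5) (nat_lit 110) (nat_lit 5) (nat_lit 388) (nat_lit 376) (nat_lit 97)) (XT.lf (nat_lit 84) (nat_lit 31406310546) (nat_lit 0) (nat_lit 29312564720) (nat_lit 1092) (nat_lit 17027178529) (nat_lit 98) (nat_lit 5) (nat_lit 97) (nat_lit 5) (nat_lit 110) (nat_lit 5) (nat_lit 389) (nat_lit 376) (nat_lit 96)))) (XT.nd (nat_lit 94) (nat_lit 0) (nat_lit 84) (XT.lf (nat_lit 84) (nat_lit 60337697177) (nat_lit 0) (nat_lit 3935921744) (nat_lit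 1092) (nat_lit 14838180845) (nat_lit 98) (nat_lit 5) (nat_lit 97) (nat_lit 5) (nat_lit 110) (nat_lit 5) (nat_lit 390) (nat_lit 376) (nat_lit 95)) (XT.nd (nat_lit 94) (nat_lit 0) (nat_lit 0) (XT.lf (nat_lit 84) (nat_lit 9619091849) (nat_lit 0) (nat_lit 58635020077) (nat_lit 1092) (nat_lit 12255991835) (nat_lit 99) (nat_lit 5) (nat_lit 98) (nat_lit 5) (nat_lit 111) (nat_lit 5) (nat_lit 391) (nat_lit 376) (nat_lit 94)) (XT.lf (nat_lit 84) (nat_lit 39249110556) (nat_lit 0) (nat_lit 33344339922) (nat_lit 1092) (nat_lit 9351007699) (nat_lit 99) (nat_lit 5) (nat_lit 98) (nat_lit 5) (nat_lit 111) (nat_lit 5) (nat_lit 392) (nat_lit 376) (nat_lit 93))))))) (XT.nd (nat_lit 1128) (nat_lit 1680) (nat_lit 0) (XT.nd (nat_lit 564) (nat_lit 1008) (nat_lit 0) (XT.nd (nat_lit 282) (nat_lit 588) (nat_lit 0) (XT.nd (nat_lit 94) (nat_lit 1008) (nat_lit 0) (XT.lf (nat_lit 84) (nat_lit 69797385431) (nat_lit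 0) (nat_lit 7269573401) (nat_lit 1092) (nat_lit 6356331489) (nat_lit 99) (nat_lit 5) (nat_lit 98) (nat_lit 5) (nat_lit 111) (nat_lit 5) (nat_lit 393) (nat_lit 376) (nat_lit 92)) (XT.nd (nat_lit 94) (nat_lit 84) (nat_lit 0) (XT.lf (nat_lit 0) (nat_lit 16481916758) (nat_lit 1008) (nat_lit 65554961843) (nat_lit 1092) (nat_lit 2899999789) (nat_lit 87) (nat_lit 5) (nat_lit 99) (nat_lit 5) (nat_lit 100) (nat_lit 5) (nat_lit 394) (nat_lit 376) (nat_lit 91)) (XT.lf (nat_lit 0) (nat_lit 867806208) (nat_lit 1092) (nat_lit 38763707889) (nat_lit 84) (nat_lit 46858922725) (nat_lit 86) (nat_lit 5) (nat_lit 99) (nat_lit 5) (nat_lit 87) (nat_lit 5) (nat_lit 395) (nat_lit 376) (nat_lit 90)))) (XT.nd (nat_lit 94) (nat_lit 588) (nat_lit 0) (XT.lf (nat_lit 0) (nat_lit 4691848325) (nat_lit 1092) (nat_lit 8181961944) (nat_lit 84) (nat_lit 75217437618) (nat_lit 86) (nat_lit 5) (nat_lit 99) (nat_lit 5) (nat_lit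 87) (nat_lit 5) (nat_lit 396) (nat_lit 376) (nat_lit 89)) (XT.nd (nat_lit 94) (nat_lit 0) (nat_lit 0) (XT.lf (nat_lit 0) (nat_lit 9018869069) (nat_lit 672) (nat_lit 66055121099) (nat_lit 84) (nat_lit 14655778126) (nat_lit 79) (nat_lit 5) (nat_lit 87) (nat_lit 5) (nat_lit 80) (nat_lit 5) (nat_lit 397) (nat_lit 376) (nat_lit 88)) (XT.lf (nat_lit 0) (nat_lit 13697663690) (nat_lit 672) (nat_lit 34856990163) (nat_lit 84) (nat_lit 42857683837) (nat_lit 79) (nat_lit 5) (nat_lit 87) (nat_lit 5) (nat_lit 80) (nat_lit 5) (nat_lit 398) (nat_lit 376) (nat_lit 87))))) (XT.nd (nat_lit 282) (nat_lit 504) (nat_lit 0) (XT.nd (nat_lit 94) (nat_lit 504) (nat_lit 0) (XT.lf (nat_lit 0) (nat_lit 18521201299) (nat_lit 672) (nat_lit 2691985905) (nat_lit 84) (nat_lit 71933890357) (nat_lit 79) (nat_lit 5) (nat_lit 87) (nat_lit 5) (nat_lit 80) (nat_lit 5) (nat_lit 399) (nat_lit 376) (nat_lit 86)) (XT.nd (nat_lit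 94) (nat_lit 0) (nat_lit 0) (XT.lf (nat_lit 0) (nat_lit 23874814802) (nat_lit 588) (nat_lit 63902002841) (nat_lit 84) (nat_lit 7146981278) (nat_lit 73) (nat_lit 5) (nat_lit 80) (nat_lit 5) (nat_lit 74) (nat_lit 5) (nat_lit 400) (nat_lit 376) (nat_lit 85)) (XT.lf (nat_lit 0) (nat_lit 29639453330) (nat_lit 588) (nat_lit 31134470515) (nat_lit 84) (nat_lit 35974079287) (nat_lit 73) (nat_lit 5) (nat_lit 80) (nat_lit 5) (nat_lit 74) (nat_lit 5) (nat_lit 401) (nat_lit 376) (nat_lit 84)))) (XT.nd (nat_lit 94) (nat_lit 0) (nat_lit 0) (XT.lf (nat_lit 0) (nat_lit 2703055389) (nat_lit 504) (nat_lit 32906279259) (nat_lit 588) (nat_lit 63018601717) (nat_lit 67) (nat_lit 5) (nat_lit 73) (nat_lit 5) (nat_lit 74) (nat_lit 5) (nat_lit 402) (nat_lit 376) (nat_lit 83)) (XT.nd (nat_lit 94) (nat_lit 0) (nat_lit 0) (XT.lf (nat_lit 0) (nat_lit 38249321182) (nat_lit 504) (nat_lit 3839671203) (nat_lit 588)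 (nat_lit 58467090486) (nat_lit 67) (nat_lit 5) (nat_lit 73) (nat_lit 5) (nat_lit 74) (nat_lit 5) (nat_lit 403) (nat_lit 376) (nat_lit 82)) (XT.lf (nat_lit 0) (nat_lit 49028450839) (nat_lit 588) (nat_lit 27905933341) (nat_lit 84) (nat_lit 25601592185) (nat_lit 67) (nat_lit 5) (nat_lit 74) (nat_lit 5) (nat_lit 68) (nat_lit 5) (nat_lit 404) (nat_lit 376) (nat_lit 81)))))) (XT.nd (nat_lit 564) (nat_lit 840) (nat_lit 0) (XT.nd (nat_lit 282) (nat_lit 420) (nat_lit 0) (XT.nd (nat_lit 94) (nat_lit 0) (nat_lit 0) (XT.lf (nat_lit 0) (nat_lit 7676461657) (nat_lit 420) (nat_lit 48621739283) (nat_lit 504) (nat_lit 48275476672) (nat_lit 62) (nat_lit 5) (nat_lit 67) (nat_lit 5) (nat_lit 68) (nat_lit 5) (nat_lit 405) (nat_lit 376) (nat_lit 80)) (XT.nd (nat_lit 94) (nat_lit 0) (nat_lit 0) (XT.lf (nat_lit 0) (nat_lit 44953252756) (nat_lit 420) (nat_lit 19131092591) (nat_lit 504) (nat_lit 42581181497)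 (nat_lit 62) (nat_lit 5) (nat_lit 67) (nat_lit 5) (nat_lit 68) (nat_lit 5) (nat_lit 406) (nat_lit 376) (nat_lit 79)) (XT.lf (nat_lit 0) (nat_lit 72223456178) (nat_lit 504) (nat_lit 25548686604) (nat_lit 84) (nat_lit 11046622345) (nat_lit 62) (nat_lit 5) (nat_lit 68) (nat_lit 5) (nat_lit 63) (nat_lit 5) (nat_lit 407) (nat_lit 376) (nat_lit 78)))) (XT.nd (nat_lit 94) (nat_lit 0) (nat_lit 0) (XT.lf (nat_lit 0) (nat_lit 11777350467) (nat_lit 420) (nat_lit 69149793891) (nat_lit 504) (nat_lit 30101930393) (nat_lit 57) (nat_lit 5) (nat_lit 62) (nat_lit 5) (nat_lit 63) (nat_lit 5) (nat_lit 408) (nat_lit 376) (nat_lit 77)) (XT.nd (nat_lit 94) (nat_lit 0) (nat_lit 0) (XT.lf (nat_lit 0) (nat_lit 50801872962) (nat_lit 420) (nat_lit 39365220510) (nat_lit 504) (nat_lit 23132551785) (nat_lit 57) (nat_lit 5) (nat_lit 62) (nat_lit 5) (nat_lit 63) (nat_lit 5) (nat_lit 409) (nat_lit 376) (nat_lit 76))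 (XT.lf (nat_lit 0) (nat_lit 91035922429) (nat_lit 420) (nat_lit 8657336187) (nat_lit 504) (nat_lit 15947352824) (nat_lit 57) (nat_lit 5) (nat_lit 62) (nat_lit 5) (nat_lit 63) (nat_lit 5) (nat_lit 410) (nat_lit 376) (nat_lit 75))))) (XT.nd (nat_lit 282) (nat_lit 420) (nat_lit 0) (XT.nd (nat_lit 94) (nat_lit 84) (nat_lit 0) (XT.lf (nat_lit 0) (nat_lit 14527352192) (nat_lit 336) (nat_lit 95359467584) (nat_lit 420) (nat_lit 8155794230) (nat_lit 53) (nat_lit 5) (nat_lit 57) (nat_lit 5) (nat_lit 58) (nat_lit 5) (nat_lit 411) (nat_lit 376) (nat_lit 74)) (XT.nd (nat_lit 94) (nat_lit 0) (nat_lit 0) (XT.lf (nat_lit 0) (nat_lit 227553328) (nat_lit 420) (nat_lit 65207214612) (nat_lit 84) (nat_lit 55073568307) (nat_lit 52) (nat_lit 5) (nat_lit 57) (nat_lit 5) (nat_lit 53) (nat_lit 5) (nat_lit 412) (nat_lit 376) (nat_lit 73)) (XT.lf (nat_lit 0) (nat_lit 8701161296) (nat_lit 420) (nat_lit 25795262321)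 (nat_lit 84) (nat_lit 88551493838) (nat_lit 52) (nat_lit 5) (nat_lit 57) (nat_lit 5) (nat_lit 53) (nat_lit 5) (nat_lit 413) (nat_lit 376) (nat_lit 72)))) (XT.nd (nat_lit 50572) (nat_lit 0) (nat_lit 3864) (XT.lf (nat_lit 0) (nat_lit 15143342211) (nat_lit 420) (nat_lit 2444130658) (nat_lit 504) (nat_lit 108074103077) (nat_lit 47) (nat_lit 5) (nat_lit 52) (nat_lit 5) (nat_lit 53) (nat_lit 5) (nat_lit 414) (nat_lit 376) (nat_lit 71)) (XT.nd (nat_lit 94) (nat_lit 0) (nat_lit 0) (XT.lf (nat_lit 0) (nat_lit 18523431132) (nat_lit 1092) (nat_lit 6955344042) (nat_lit 1092) (nat_lit 6955344042) (nat_lit 93) (nat_lit 3) (nat_lit 106) (nat_lit 3) (nat_lit 106) (nat_lit 5) (nat_lit 377) (nat_lit 377) (nat_lit 107)) (XT.lf (nat_lit 84) (nat_lit 8880705642) (nat_lit 0) (nat_lit 28841121044) (nat_lit 1092) (nat_lit 28148676485) (nat_lit 94) (nat_lit 5) (nat_lit 93) (nat_lit 3) (nat_lit 106) (nat_lit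 5) (nat_lit 378) (nat_lit 377) (nat_lit 106))))))))
noncomputable def xc241 : XT := (XT.nd (nat_lit 2256) (nat_lit 1680) (nat_lit 0) (XT.nd (nat_lit 1128) (nat_lit 1680) (nat_lit 0) (XT.nd (nat_lit 564) (nat_lit 0) (nat_lit 168) (XT.nd (nat_lit 282) (nat_lit 0) (nat_lit 84) (XT.nd (nat_lit 94) (nat_lit 0) (nat_lit 84) (XT.lf (nat_lit 84) (nat_lit 32673262444) (nat_lit 0) (nat_lit 5889139593) (nat_lit 1092) (nat_lit 28336953606) (nat_lit 94) (nat_lit 5) (nat_lit 93) (nat_lit 3) (nat_lit 106) (nat_lit 5) (nat_lit 379) (nat_lit 377) (nat_lit 105)) (XT.nd (nat_lit 94) (nat_lit 0) (nat_lit 0) (XT.lf (nat_lit 0) (nat_lit 39604864717) (nat_lit 1008) (nat_lit 10933319600) (nat_lit 1092) (nat_lit 17416470250) (nat_lit 94) (nat_lit 5) (nat_lit 106) (nat_lit 5) (nat_lit 107) (nat_lit 5) (nat_lit 380) (nat_lit 377) (nat_lit 104)) (XT.lf (nat_lit 84) (nat_lit 13288763603) (nat_lit 0) (nat_lit 27582458930)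 (nat_lit 1092) (nat_lit 28165508938) (nat_lit 95) (nat_lit 5) (nat_lit 94) (nat_lit 5) (nat_lit 107) (nat_lit 5) (nat_lit 381) (nat_lit 377) (nat_lit 103)))) (XT.nd (nat_lit 94) (nat_lit 0) (nat_lit 84) (XT.lf (nat_lit 84) (nat_lit 38493241477) (nat_lit 0) (nat_lit 3797249698) (nat_lit 1092) (nat_lit 27858340894) (nat_lit 95) (nat_lit 5) (nat_lit 94) (nat_lit 5) (nat_lit 107) (nat_lit 5) (nat_lit 382) (nat_lit 377) (nat_lit 102)) (XT.nd (nat_lit 94) (nat_lit 0) (nat_lit 0) (XT.lf (nat_lit 0) (nat_lit 43958902960) (nat_lit 1008) (nat_lit 7022228036) (nat_lit 1092) (nat_lit 20307919770) (nat_lit 95) (nat_lit 5) (nat_lit 107) (nat_lit 5) (nat_lit 108) (nat_lit 5) (nat_lit 383) (nat_lit 377) (nat_lit 101)) (XT.lf (nat_lit 84) (nat_lit 18712678172) (nat_lit 0) (nat_lit 27190388196) (nat_lit 1092) (nat_lit 26554607340) (nat_lit 96) (nat_lit 5) (nat_lit 95) (nat_lit 5) (nat_lit 108) (nat_lit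 5) (nat_lit 384) (nat_lit 377) (nat_lit 100))))) (XT.nd (nat_lit 282) (nat_lit 0) (nat_lit 84) (XT.nd (nat_lit 94) (nat_lit 0) (nat_lit 84) (XT.lf (nat_lit 84) (nat_lit 45393964358) (nat_lit 0) (nat_lit 2586404486) (nat_lit 1092) (nat_lit 25679898500) (nat_lit 96) (nat_lit 5) (nat_lit 95) (nat_lit 5) (nat_lit 108) (nat_lit 5) (nat_lit 385) (nat_lit 377) (nat_lit 99)) (XT.nd (nat_lit 94) (nat_lit 0) (nat_lit 0) (XT.lf (nat_lit 0) (nat_lit 50347637843) (nat_lit 1008) (nat_lit 2224032601) (nat_lit 1092) (nat_lit 22321480544) (nat_lit 96) (nat_lit 5) (nat_lit 108) (nat_lit 5) (nat_lit 109) (nat_lit 5) (nat_lit 386) (nat_lit 377) (nat_lit 98)) (XT.lf (nat_lit 84) (nat_lit 25104627788) (nat_lit 0) (nat_lit 27958757390) (nat_lit 1092) (nat_lit 23092343176) (nat_lit 97) (nat_lit 5) (nat_lit 96) (nat_lit 5) (nat_lit 109) (nat_lit 5) (nat_lit 387) (nat_lit 377) (nat_lit 97)))) (XT.nd (nat_lit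 94) (nat_lit 0) (nat_lit 84) (XT.lf (nat_lit 84) (nat_lit 53327357858) (nat_lit 0) (nat_lit 2558785713) (nat_lit 1092) (nat_lit 21570596683) (nat_lit 97) (nat_lit 5) (nat_lit 96) (nat_lit 5) (nat_lit 109) (nat_lit 5) (nat_lit 388) (nat_lit 377) (nat_lit 96)) (XT.nd (nat_lit 94) (nat_lit 0) (nat_lit 0) (XT.lf (nat_lit 84) (nat_lit 3461987755) (nat_lit 0) (nat_lit 55602783073) (nat_lit 1092) (nat_lit 19724995512) (nat_lit 98) (nat_lit 5) (nat_lit 97) (nat_lit 5) (nat_lit 110) (nat_lit 5) (nat_lit 389) (nat_lit 377) (nat_lit 95)) (XT.lf (nat_lit 84) (nat_lit 32393240780) (nat_lit 0) (nat_lit 30226091628) (nat_lit 1092) (nat_lit 17536186541) (nat_lit 98) (nat_lit 5) (nat_lit 97) (nat_lit 5) (nat_lit 110) (nat_lit 5) (nat_lit 390) (nat_lit 377) (nat_lit 94)))))) (XT.nd (nat_lit 564) (nat_lit 1092) (nat_lit 0) (XT.nd (nat_lit 282) (nat_lit 924) (nat_lit 0) (XT.nd (nat_lit 94) (nat_lit 0)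 (nat_lit 84) (XT.lf (nat_lit 84) (nat_lit 62221099453) (nat_lit 0) (nat_lit 4062627269) (nat_lit 1092) (nat_lit 15279896244) (nat_lit 98) (nat_lit 5) (nat_lit 97) (nat_lit 5) (nat_lit 110) (nat_lit 5) (nat_lit 391) (nat_lit 377) (nat_lit 93)) (XT.nd (nat_lit 94) (nat_lit 0) (nat_lit 0) (XT.lf (nat_lit 84) (nat_lit 9930768579) (nat_lit 0) (nat_lit 60456405093) (nat_lit 1092) (nat_lit 12618117287) (nat_lit 99) (nat_lit 5) (nat_lit 98) (nat_lit 5) (nat_lit 111) (nat_lit 5) (nat_lit 392) (nat_lit 377) (nat_lit 92)) (XT.lf (nat_lit 84) (nat_lit 40478912404) (nat_lit 0) (nat_lit 34381602620) (nat_lit 1092) (nat_lit 9623614161) (nat_lit 99) (nat_lit 5) (nat_lit 98) (nat_lit 5) (nat_lit 111) (nat_lit 5) (nat_lit 393) (nat_lit 377) (nat_lit 91)))) (XT.nd (nat_lit 94) (nat_lit 1008) (nat_lit 0) (XT.lf (nat_lit 84) (nat_lit 71973790529) (nat_lit 0) (nat_lit 7498410449) (nat_lit 1092) (nat_lit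 6536622405) (nat_lit 99) (nat_lit 5) (nat_lit 98) (nat_lit 5) (nat_lit 111) (nat_lit 5) (nat_lit 394) (nat_lit 377) (nat_lit 90)) (XT.nd (nat_lit 94) (nat_lit 84) (nat_lit 0) (XT.lf (nat_lit 0) (nat_lit 17006031042) (nat_lit 1008) (nat_lit 67589768336) (nat_lit 1092) (nat_lit 2973547998) (nat_lit 87) (nat_lit 5) (nat_lit 99) (nat_lit 5) (nat_lit 100) (nat_lit 5) (nat_lit 395) (nat_lit 377) (nat_lit 89)) (XT.lf (nat_lit 0) (nat_lit 910248775) (nat_lit 1092) (nat_lit 39952204465) (nat_lit 84) (nat_lit 48308625267) (nat_lit 86) (nat_lit 5) (nat_lit 99) (nat_lit 5) (nat_lit 87) (nat_lit 5) (nat_lit 396) (nat_lit 377) (nat_lit 88))))) (XT.nd (nat_lit 282) (nat_lit 504) (nat_lit 0) (XT.nd (nat_lit 94) (nat_lit 588) (nat_lit 0) (XT.lf (nat_lit 0) (nat_lit 4852368926) (nat_lit 1092) (nat_lit 8422820642) (nat_lit 84) (nat_lit 77546342043) (nat_lit 86) (nat_lit 5) (nat_lit 99) (nat_lit 5) (nat_lit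 87) (nat_lit 5) (nat_lit 397) (nat_lit 377) (nat_lit 87)) (XT.nd (nat_lit 94) (nat_lit 0) (nat_lit 0) (XT.lf (nat_lit 0) (nat_lit 9313178845) (nat_lit 672) (nat_lit 68089623910) (nat_lit 84) (nat_lit 15108056532) (nat_lit 79) (nat_lit 5) (nat_lit 87) (nat_lit 5) (nat_lit 80) (nat_lit 5) (nat_lit 398) (nat_lit 377) (nat_lit 86)) (XT.lf (nat_lit 0) (nat_lit 14136573355) (nat_lit 672) (nat_lit 35924747990) (nat_lit 84) (nat_lit 44184282981) (nat_lit 79) (nat_lit 5) (nat_lit 87) (nat_lit 5) (nat_lit 80) (nat_lit 5) (nat_lit 399) (nat_lit 377) (nat_lit 85)))) (XT.nd (nat_lit 94) (nat_lit 504) (nat_lit 0) (XT.lf (nat_lit 0) (nat_lit 19109211197) (nat_lit 672) (nat_lit 2763013735) (nat_lit 84) (nat_lit 74161911710) (nat_lit 79) (nat_lit 5) (nat_lit 87) (nat_lit 5) (nat_lit 80) (nat_lit 5) (nat_lit 400) (nat_lit 377) (nat_lit 84)) (XT.nd (nat_lit 94) (nat_lit 0) (nat_lit 0) (XT.lf (nat_lit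 0) (nat_lit 24628479695) (nat_lit 588) (nat_lit 65870165414) (nat_lit 84) (nat_lit 7367302905) (nat_lit 73) (nat_lit 5) (nat_lit 80) (nat_lit 5) (nat_lit 74) (nat_lit 5) (nat_lit 401) (nat_lit 377) (nat_lit 83)) (XT.lf (nat_lit 0) (nat_lit 30571414729) (nat_lit 588) (nat_lit 32087224441) (nat_lit 84) (nat_lit 37088078080) (nat_lit 73) (nat_lit 5) (nat_lit 80) (nat_lit 5) (nat_lit 74) (nat_lit 5) (nat_lit 402) (nat_lit 377) (nat_lit 82))))))) (XT.nd (nat_lit 51888) (nat_lit 0) (nat_lit 3360) (XT.nd (nat_lit 564) (nat_lit 756) (nat_lit 0) (XT.nd (nat_lit 282) (nat_lit 420) (nat_lit 0) (XT.nd (nat_lit 94) (nat_lit 0) (nat_lit 0) (XT.lf (nat_lit 0) (nat_lit 2799139079) (nat_lit 504) (nat_lit 33926950154) (nat_lit 588) (nat_lit 64958849652) (nat_lit 67) (nat_lit 5) (nat_lit 73) (nat_lit 5) (nat_lit 74) (nat_lit 5) (nat_lit 403) (nat_lit 377) (nat_lit 81)) (XT.nd (nat_lit 94) (nat_lit 0)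 (nat_lit 0) (XT.lf (nat_lit 0) (nat_lit 39446969609) (nat_lit 504) (nat_lit 3959259922) (nat_lit 588) (nat_lit 60266642339) (nat_lit 67) (nat_lit 5) (nat_lit 73) (nat_lit 5) (nat_lit 74) (nat_lit 5) (nat_lit 404) (nat_lit 377) (nat_lit 80)) (XT.lf (nat_lit 0) (nat_lit 50560430620) (nat_lit 588) (nat_lit 28759014768) (nat_lit 84) (nat_lit 26394710359) (nat_lit 67) (nat_lit 5) (nat_lit 74) (nat_lit 5) (nat_lit 68) (nat_lit 5) (nat_lit 405) (nat_lit 377) (nat_lit 79)))) (XT.nd (nat_lit 94) (nat_lit 0) (nat_lit 0) (XT.lf (nat_lit 0) (nat_lit 7926312961) (nat_lit 420) (nat_lit 50128984119) (nat_lit 504) (nat_lit 49759738106) (nat_lit 62) (nat_lit 5) (nat_lit 67) (nat_lit 5) (nat_lit 68) (nat_lit 5) (nat_lit 406) (nat_lit 377) (nat_lit 78)) (XT.nd (nat_lit 94) (nat_lit 0) (nat_lit 0) (XT.lf (nat_lit 0) (nat_lit 46358327347) (nat_lit 420) (nat_lit 19724128253) (nat_lit 504) (nat_lit 43889288964)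 (nat_lit 62) (nat_lit 5) (nat_lit 67) (nat_lit 5) (nat_lit 68) (nat_lit 5) (nat_lit 407) (nat_lit 377) (nat_lit 77)) (XT.lf (nat_lit 0) (nat_lit 74473533492) (nat_lit 504) (nat_lit 26329117725) (nat_lit 84) (nat_lit 11389094446) (nat_lit 62) (nat_lit 5) (nat_lit 68) (nat_lit 5) (nat_lit 63) (nat_lit 5) (nat_lit 408) (nat_lit 377) (nat_lit 76))))) (XT.nd (nat_lit 282) (nat_lit 336) (nat_lit 0) (XT.nd (nat_lit 94) (nat_lit 0) (nat_lit 0) (XT.lf (nat_lit 0) (nat_lit 12153909277) (nat_lit 420) (nat_lit 71292905160) (nat_lit 504) (nat_lit 31023768986) (nat_lit 57) (nat_lit 5) (nat_lit 62) (nat_lit 5) (nat_lit 63) (nat_lit 5) (nat_lit 409) (nat_lit 377) (nat_lit 75)) (XT.nd (nat_lit 94) (nat_lit 0) (nat_lit 0) (XT.lf (nat_lit 0) (nat_lit 52387847363) (nat_lit 420) (nat_lit 40585026011) (nat_lit 504) (nat_lit 23838680047) (nat_lit 57) (nat_lit 5) (nat_lit 62) (nat_lit 5) (nat_lit 63) (nat_lit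 5) (nat_lit 410) (nat_lit 377) (nat_lit 74)) (XT.lf (nat_lit 0) (nat_lit 93868818119) (nat_lit 420) (nat_lit 8925212799) (nat_lit 504) (nat_lit 16431070089) (nat_lit 57) (nat_lit 5) (nat_lit 62) (nat_lit 5) (nat_lit 63) (nat_lit 5) (nat_lit 411) (nat_lit 377) (nat_lit 73)))) (XT.nd (nat_lit 50854) (nat_lit 0) (nat_lit 3360) (XT.lf (nat_lit 0) (nat_lit 14988733776) (nat_lit 336) (nat_lit 98314663835) (nat_lit 420) (nat_lit 8398175605) (nat_lit 53) (nat_lit 5) (nat_lit 57) (nat_lit 5) (nat_lit 58) (nat_lit 5) (nat_lit 412) (nat_lit 377) (nat_lit 72)) (XT.nd (nat_lit 94) (nat_lit 0) (nat_lit 0) (XT.lf (nat_lit 0) (nat_lit 19110172461) (nat_lit 1092) (nat_lit 7164473552) (nat_lit 1092) (nat_lit 7164473552) (nat_lit 93) (nat_lit 3) (nat_lit 106) (nat_lit 3) (nat_lit 106) (nat_lit 5) (nat_lit 378) (nat_lit 378) (nat_lit 105)) (XT.lf (nat_lit 84) (nat_lit 9168848494) (nat_lit 0) (nat_lit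 29746759535) (nat_lit 1092) (nat_lit 28995989604) (nat_lit 94) (nat_lit 5) (nat_lit 93) (nat_lit 3) (nat_lit 106) (nat_lit 5) (nat_lit 379) (nat_lit 378) (nat_lit 104)))))) (XT.nd (nat_lit 564) (nat_lit 0) (nat_lit 168) (XT.nd (nat_lit 282) (nat_lit 0) (nat_lit 84) (XT.nd (nat_lit 94) (nat_lit 0) (nat_lit 84) (XT.lf (nat_lit 84) (nat_lit 33698588455) (nat_lit 0) (nat_lit 6082918963) (nat_lit 1092) (nat_lit 29190863908) (nat_lit 94) (nat_lit 5) (nat_lit 93) (nat_lit 3) (nat_lit 106) (nat_lit 5) (nat_lit 380) (nat_lit 378) (nat_lit 103)) (XT.nd (nat_lit 94) (nat_lit 0) (nat_lit 0) (XT.lf (nat_lit 0) (nat_lit 40855466787) (nat_lit 1008) (nat_lit 11259225851) (nat_lit 1092) (nat_lit 17945721212) (nat_lit 94) (nat_lit 5) (nat_lit 106) (nat_lit 5) (nat_lit 107) (nat_lit 5) (nat_lit 381) (nat_lit 378) (nat_lit 102)) (XT.lf (nat_lit 84) (nat_lit 13713610047) (nat_lit 0) (nat_lit 28446912476)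 (nat_lit 1092) (nat_lit 29015533757) (nat_lit 95) (nat_lit 5) (nat_lit 94) (nat_lit 5) (nat_lit 107) (nat_lit 5) (nat_lit 382) (nat_lit 378) (nat_lit 101)))) (XT.nd (nat_lit 94) (nat_lit 0) (nat_lit 84) (XT.lf (nat_lit 84) (nat_lit 39699039017) (nat_lit 0) (nat_lit 3924079200) (nat_lit 1092) (nat_lit 28699538251) (nat_lit 95) (nat_lit 5) (nat_lit 94) (nat_lit 5) (nat_lit 107) (nat_lit 5) (nat_lit 383) (nat_lit 378) (nat_lit 100)) (XT.nd (nat_lit 94) (nat_lit 0) (nat_lit 0) (XT.lf (nat_lit 0) (nat_lit 45342512944) (nat_lit 1008) (nat_lit 7226932751) (nat_lit 1092) (nat_lit 20928802704) (nat_lit 95) (nat_lit 5) (nat_lit 107) (nat_lit 5) (nat_lit 108) (nat_lit 5) (nat_lit 384) (nat_lit 378) (nat_lit 99)) (XT.lf (nat_lit 84) (nat_lit 19305624095) (nat_lit 0) (nat_lit 28040820888) (nat_lit 1092) (nat_lit 27356672657) (nat_lit 96) (nat_lit 5) (nat_lit 95) (nat_lit 5) (nat_lit 108) (nat_lit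 5) (nat_lit 385) (nat_lit 378) (nat_lit 98))))) (XT.nd (nat_lit 282) (nat_lit 0) (nat_lit 84) (XT.nd (nat_lit 94) (nat_lit 0) (nat_lit 84) (XT.lf (nat_lit 84) (nat_lit 46813643693) (nat_lit 0) (nat_lit 2673887252) (nat_lit 1092) (nat_lit 26455483102) (nat_lit 96) (nat_lit 5) (nat_lit 95) (nat_lit 5) (nat_lit 108) (nat_lit 5) (nat_lit 386) (nat_lit 378) (nat_lit 97)) (XT.nd (nat_lit 94) (nat_lit 0) (nat_lit 0) (XT.lf (nat_lit 0) (nat_lit 51927520540) (nat_lit 1008) (nat_lit 2280115844) (nat_lit 1092) (nat_lit 23006504575) (nat_lit 96) (nat_lit 5) (nat_lit 108) (nat_lit 5) (nat_lit 109) (nat_lit 5) (nat_lit 387) (nat_lit 378) (nat_lit 96)) (XT.lf (nat_lit 84) (nat_lit 25895602803) (nat_lit 0) (nat_lit 28831405063) (nat_lit 1092) (nat_lit 23788867421) (nat_lit 97) (nat_lit 5) (nat_lit 96) (nat_lit 5) (nat_lit 109) (nat_lit 5) (nat_lit 388) (nat_lit 378) (nat_lit 95)))) (XT.nd (nat_lit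 188) (nat_lit 0) (nat_lit 84) (XT.nd (nat_lit 94) (nat_lit 0) (nat_lit 84) (XT.lf (nat_lit 84) (nat_lit 54992854695) (nat_lit 0) (nat_lit 2643856075) (nat_lit 1092) (nat_lit 22220528252) (nat_lit 97) (nat_lit 5) (nat_lit 96) (nat_lit 5) (nat_lit 109) (nat_lit 5) (nat_lit 389) (nat_lit 378) (nat_lit 94)) (XT.lf (nat_lit 84) (nat_lit 3582243038) (nat_lit 0) (nat_lit 57331161300) (nat_lit 1092) (nat_lit 20318202165) (nat_lit 98) (nat_lit 5) (nat_lit 97) (nat_lit 5) (nat_lit 110) (nat_lit 5) (nat_lit 390) (nat_lit 378) (nat_lit 93))) (XT.nd (nat_lit 94) (nat_lit 0) (nat_lit 0) (XT.lf (nat_lit 84) (nat_lit 33409976019) (nat_lit 0) (nat_lit 31167651343) (nat_lit 1092) (nat_lit 18062089403) (nat_lit 98) (nat_lit 5) (nat_lit 97) (nat_lit 5) (nat_lit 110) (nat_lit 5) (nat_lit 391) (nat_lit 378) (nat_lit 92)) (XT.lf (nat_lit 84) (nat_lit 64162121117) (nat_lit 0) (nat_lit 4192982753) (nat_lit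 1092) (nat_lit 15736386878) (nat_lit 98) (nat_lit 5) (nat_lit 97) (nat_lit 5) (nat_lit 110) (nat_lit 5) (nat_lit 392) (nat_lit 378) (nat_lit 91))))))))
noncomputable def xc242 : XT := (XT.nd (nat_lit 53392) (nat_lit 0) (nat_lit 0) (XT.nd (nat_lit 1128) (nat_lit 420) (nat_lit 0) (XT.nd (nat_lit 564) (nat_lit 1596) (nat_lit 0) (XT.nd (nat_lit 282) (nat_lit 1008) (nat_lit 0) (XT.nd (nat_lit 94) (nat_lit 0) (nat_lit 0) (XT.lf (nat_lit 84) (nat_lit 10251308554) (nat_lit 0) (nat_lit 62334033923) (nat_lit 1092) (nat_lit 12992523562) (nat_lit 99) (nat_lit 5) (nat_lit 98) (nat_lit 5) (nat_lit 111) (nat_lit 5) (nat_lit 393) (nat_lit 378) (nat_lit 90)) (XT.nd (nat_lit 94) (nat_lit 0) (nat_lit 0) (XT.lf (nat_lit 84) (nat_lit 41746063392) (nat_lit 0) (nat_lit 35450807929) (nat_lit 1092) (nat_lit 9905694639) (nat_lit 99) (nat_lit 5) (nat_lit 98) (nat_lit 5) (nat_lit 111) (nat_lit 5) (nat_lit 394)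 (nat_lit 378) (nat_lit 89)) (XT.lf (nat_lit 84) (nat_lit 74216912762) (nat_lit 0) (nat_lit 7734135302) (nat_lit 1092) (nat_lit 6723494788) (nat_lit 99) (nat_lit 5) (nat_lit 98) (nat_lit 5) (nat_lit 111) (nat_lit 5) (nat_lit 395) (nat_lit 378) (nat_lit 88)))) (XT.nd (nat_lit 94) (nat_lit 84) (nat_lit 0) (XT.lf (nat_lit 0) (nat_lit 17545612500) (nat_lit 1008) (nat_lit 69687499669) (nat_lit 1092) (nat_lit 3050344745) (nat_lit 87) (nat_lit 5) (nat_lit 99) (nat_lit 5) (nat_lit 100) (nat_lit 5) (nat_lit 396) (nat_lit 378) (nat_lit 87)) (XT.nd (nat_lit 94) (nat_lit 0) (nat_lit 0) (XT.lf (nat_lit 0) (nat_lit 953086568) (nat_lit 1092) (nat_lit 41178325013) (nat_lit 84) (nat_lit 49803441786) (nat_lit 86) (nat_lit 5) (nat_lit 99) (nat_lit 5) (nat_lit 87) (nat_lit 5) (nat_lit 397) (nat_lit 378) (nat_lit 86)) (XT.lf (nat_lit 0) (nat_lit 5016972848) (nat_lit 1092) (nat_lit 8671903067) (nat_lit 84)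 (nat_lit 79947610494) (nat_lit 86) (nat_lit 5) (nat_lit 99) (nat_lit 5) (nat_lit 87) (nat_lit 5) (nat_lit 398) (nat_lit 378) (nat_lit 85))))) (XT.nd (nat_lit 282) (nat_lit 1008) (nat_lit 0) (XT.nd (nat_lit 94) (nat_lit 0) (nat_lit 0) (XT.lf (nat_lit 0) (nat_lit 9615740048) (nat_lit 672) (nat_lit 70187978519) (nat_lit 84) (nat_lit 15574477037) (nat_lit 79) (nat_lit 5) (nat_lit 87) (nat_lit 5) (nat_lit 80) (nat_lit 5) (nat_lit 399) (nat_lit 378) (nat_lit 84)) (XT.nd (nat_lit 94) (nat_lit 0) (nat_lit 0) (XT.lf (nat_lit 0) (nat_lit 14588243266) (nat_lit 672) (nat_lit 37026365001) (nat_lit 84) (nat_lit 45552124515) (nat_lit 79) (nat_lit 5) (nat_lit 87) (nat_lit 5) (nat_lit 80) (nat_lit 5) (nat_lit 400) (nat_lit 378) (nat_lit 83)) (XT.lf (nat_lit 0) (nat_lit 19714628886) (nat_lit 672) (nat_lit 2836979308) (nat_lit 84) (nat_lit 76459115998) (nat_lit 79) (nat_lit 5) (nat_lit 87) (nat_lit 5)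 (nat_lit 80) (nat_lit 5) (nat_lit 401) (nat_lit 378) (nat_lit 82)))) (XT.nd (nat_lit 94) (nat_lit 504) (nat_lit 0) (XT.lf (nat_lit 0) (nat_lit 25404705868) (nat_lit 588) (nat_lit 67900099164) (nat_lit 84) (nat_lit 7594527642) (nat_lit 73) (nat_lit 5) (nat_lit 80) (nat_lit 5) (nat_lit 74) (nat_lit 5) (nat_lit 402) (nat_lit 378) (nat_lit 81)) (XT.nd (nat_lit 94) (nat_lit 504) (nat_lit 0) (XT.lf (nat_lit 0) (nat_lit 31531488724) (nat_lit 588) (nat_lit 33070249079) (nat_lit 84) (nat_lit 38236681776) (nat_lit 73) (nat_lit 5) (nat_lit 80) (nat_lit 5) (nat_lit 74) (nat_lit 5) (nat_lit 403) (nat_lit 378) (nat_lit 80)) (XT.lf (nat_lit 0) (nat_lit 2897473466) (nat_lit 504) (nat_lit 34979227715) (nat_lit 588) (nat_lit 66960034756) (nat_lit 67) (nat_lit 5) (nat_lit 73) (nat_lit 5) (nat_lit 74) (nat_lit 5) (nat_lit 404) (nat_lit 378) (nat_lit 79)))))) (XT.nd (nat_lit 51700) (nat_lit 0) (nat_lit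 2604) (XT.nd (nat_lit 282) (nat_lit 0) (nat_lit 0) (XT.nd (nat_lit 94) (nat_lit 420) (nat_lit 0) (XT.lf (nat_lit 0) (nat_lit 40681039125) (nat_lit 504) (nat_lit 4082522786) (nat_lit 588) (nat_lit 62122746045) (nat_lit 67) (nat_lit 5) (nat_lit 73) (nat_lit 5) (nat_lit 74) (nat_lit 5) (nat_lit 405) (nat_lit 378) (nat_lit 78)) (XT.nd (nat_lit 94) (nat_lit 420) (nat_lit 0) (XT.lf (nat_lit 0) (nat_lit 52139185200) (nat_lit 588) (nat_lit 29639252648) (nat_lit 84) (nat_lit 27212446659) (nat_lit 67) (nat_lit 5) (nat_lit 74) (nat_lit 5) (nat_lit 68) (nat_lit 5) (nat_lit 406) (nat_lit 378) (nat_lit 77)) (XT.lf (nat_lit 0) (nat_lit 8183205923) (nat_lit 420) (nat_lit 51682955267) (nat_lit 504) (nat_lit 51290738911) (nat_lit 62) (nat_lit 5) (nat_lit 67) (nat_lit 5) (nat_lit 68) (nat_lit 5) (nat_lit 407) (nat_lit 378) (nat_lit 76)))) (XT.nd (nat_lit 94) (nat_lit 0) (nat_lit 0) (XT.lf (nat_lit 0)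 (nat_lit 47806276679) (nat_lit 420) (nat_lit 20335549692) (nat_lit 504) (nat_lit 45238653162) (nat_lit 62) (nat_lit 5) (nat_lit 67) (nat_lit 5) (nat_lit 68) (nat_lit 5) (nat_lit 408) (nat_lit 378) (nat_lit 75)) (XT.nd (nat_lit 51230) (nat_lit 0) (nat_lit 2604) (XT.lf (nat_lit 0) (nat_lit 76792702759) (nat_lit 504) (nat_lit 27134428004) (nat_lit 84) (nat_lit 11742181594) (nat_lit 62) (nat_lit 5) (nat_lit 68) (nat_lit 5) (nat_lit 63) (nat_lit 5) (nat_lit 409) (nat_lit 378) (nat_lit 74)) (XT.lf (nat_lit 0) (nat_lit 19714361489) (nat_lit 1092) (nat_lit 7380470263) (nat_lit 1092) (nat_lit 7380470263) (nat_lit 93) (nat_lit 3) (nat_lit 106) (nat_lit 3) (nat_lit 106) (nat_lit 5) (nat_lit 379) (nat_lit 379) (nat_lit 103))))) (XT.nd (nat_lit 282) (nat_lit 0) (nat_lit 84) (XT.nd (nat_lit 94) (nat_lit 0) (nat_lit 0) (XT.lf (nat_lit 84) (nat_lit 9465163182) (nat_lit 0) (nat_lit 30679787879) (nat_lit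 1092) (nat_lit 29871067745) (nat_lit 94) (nat_lit 5) (nat_lit 93) (nat_lit 3) (nat_lit 106) (nat_lit 5) (nat_lit 380) (nat_lit 379) (nat_lit 102)) (XT.nd (nat_lit 94) (nat_lit 0) (nat_lit 84) (XT.lf (nat_lit 84) (nat_lit 34754961850) (nat_lit 0) (nat_lit 6282041147) (nat_lit 1092) (nat_lit 30072698695) (nat_lit 94) (nat_lit 5) (nat_lit 93) (nat_lit 3) (nat_lit 106) (nat_lit 5) (nat_lit 381) (nat_lit 379) (nat_lit 101)) (XT.lf (nat_lit 0) (nat_lit 42143484001) (nat_lit 1008) (nat_lit 11596006788) (nat_lit 1092) (nat_lit 18492010342) (nat_lit 94) (nat_lit 5) (nat_lit 106) (nat_lit 5) (nat_lit 107) (nat_lit 5) (nat_lit 382) (nat_lit 379) (nat_lit 100)))) (XT.nd (nat_lit 94) (nat_lit 0) (nat_lit 0) (XT.lf (nat_lit 84) (nat_lit 14150862952) (nat_lit 0) (nat_lit 29337607462) (nat_lit 1092) (nat_lit 29893277950) (nat_lit 95) (nat_lit 5) (nat_lit 94) (nat_lit 5) (nat_lit 107) (nat_lit 5) (nat_lit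 383) (nat_lit 379) (nat_lit 99)) (XT.nd (nat_lit 94) (nat_lit 0) (nat_lit 84) (XT.lf (nat_lit 84) (nat_lit 40941475467) (nat_lit 0) (nat_lit 4054300534) (nat_lit 1092) (nat_lit 29568140180) (nat_lit 95) (nat_lit 5) (nat_lit 94) (nat_lit 5) (nat_lit 107) (nat_lit 5) (nat_lit 384) (nat_lit 379) (nat_lit 98)) (XT.lf (nat_lit 0) (nat_lit 46767777843) (nat_lit 1008) (nat_lit 7438752397) (nat_lit 1092) (nat_lit 21569446108) (nat_lit 95) (nat_lit 5) (nat_lit 107) (nat_lit 5) (nat_lit 108) (nat_lit 5) (nat_lit 385) (nat_lit 379) (nat_lit 97))))))) (XT.nd (nat_lit 1128) (nat_lit 2100) (nat_lit 0) (XT.nd (nat_lit 564) (nat_lit 672) (nat_lit 0) (XT.nd (nat_lit 282) (nat_lit 0) (nat_lit 84) (XT.nd (nat_lit 94) (nat_lit 0) (nat_lit 0) (XT.lf (nat_lit 84) (nat_lit 19916190042) (nat_lit 0) (nat_lit 28917170939) (nat_lit 1092) (nat_lit 28184853418) (nat_lit 96) (nat_lit 5) (nat_lit 95) (nat_lit 5)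 (nat_lit 108) (nat_lit 5) (nat_lit 386) (nat_lit 379) (nat_lit 96)) (XT.nd (nat_lit 94) (nat_lit 0) (nat_lit 84) (XT.lf (nat_lit 84) (nat_lit 48276594678) (nat_lit 0) (nat_lit 2763649342) (nat_lit 1092) (nat_lit 27256324619) (nat_lit 96) (nat_lit 5) (nat_lit 95) (nat_lit 5) (nat_lit 108) (nat_lit 5) (nat_lit 387) (nat_lit 379) (nat_lit 95)) (XT.lf (nat_lit 0) (nat_lit 53555247924) (nat_lit 1008) (nat_lit 2338699492) (nat_lit 1092) (nat_lit 23713175531) (nat_lit 96) (nat_lit 5) (nat_lit 108) (nat_lit 5) (nat_lit 109) (nat_lit 5) (nat_lit 388) (nat_lit 379) (nat_lit 94)))) (XT.nd (nat_lit 94) (nat_lit 0) (nat_lit 0) (XT.lf (nat_lit 84) (nat_lit 26710343932) (nat_lit 0) (nat_lit 29730753794) (nat_lit 1092) (nat_lit 24508129364) (nat_lit 97) (nat_lit 5) (nat_lit 96) (nat_lit 5) (nat_lit 109) (nat_lit 5) (nat_lit 389) (nat_lit 379) (nat_lit 93)) (XT.nd (nat_lit 94) (nat_lit 0) (nat_lit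 84) (XT.lf (nat_lit 84) (nat_lit 56709250496) (nat_lit 0) (nat_lit 2731223155) (nat_lit 1092) (nat_lit 22891718704) (nat_lit 97) (nat_lit 5) (nat_lit 96) (nat_lit 5) (nat_lit 109) (nat_lit 5) (nat_lit 390) (nat_lit 379) (nat_lit 92)) (XT.lf (nat_lit 84) (nat_lit 3705460153) (nat_lit 0) (nat_lit 59112841339) (nat_lit 1092) (nat_lit 20930880282) (nat_lit 98) (nat_lit 5) (nat_lit 97) (nat_lit 5) (nat_lit 110) (nat_lit 5) (nat_lit 391) (nat_lit 379) (nat_lit 91))))) (XT.nd (nat_lit 282) (nat_lit 840) (nat_lit 0) (XT.nd (nat_lit 94) (nat_lit 0) (nat_lit 0) (XT.lf (nat_lit 84) (nat_lit 34457487003) (nat_lit 0) (nat_lit 32138129853) (nat_lit 1092) (nat_lit 18605344776) (nat_lit 98) (nat_lit 5) (nat_lit 97) (nat_lit 5) (nat_lit 110) (nat_lit 5) (nat_lit 392) (nat_lit 379) (nat_lit 90)) (XT.nd (nat_lit 94) (nat_lit 0) (nat_lit 84) (XT.lf (nat_lit 84) (nat_lit 66162593745) (nat_lit 0) (nat_lit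 4327117806) (nat_lit 1092) (nat_lit 16208046686) (nat_lit 98) (nat_lit 5) (nat_lit 97) (nat_lit 5) (nat_lit 110) (nat_lit 5) (nat_lit 393) (nat_lit 379) (nat_lit 89)) (XT.lf (nat_lit 84) (nat_lit 10581033847) (nat_lit 0) (nat_lit 64269663104) (nat_lit 1092) (nat_lit 13379528881) (nat_lit 99) (nat_lit 5) (nat_lit 98) (nat_lit 5) (nat_lit 111) (nat_lit 5) (nat_lit 394) (nat_lit 379) (nat_lit 88)))) (XT.nd (nat_lit 94) (nat_lit 924) (nat_lit 0) (XT.lf (nat_lit 84) (nat_lit 43051767232) (nat_lit 0) (nat_lit 36552958658) (nat_lit 1092) (nat_lit 10197482218) (nat_lit 99) (nat_lit 5) (nat_lit 98) (nat_lit 5) (nat_lit 111) (nat_lit 5) (nat_lit 395) (nat_lit 379) (nat_lit 87)) (XT.nd (nat_lit 94) (nat_lit 924) (nat_lit 0) (XT.lf (nat_lit 84) (nat_lit 76528864871) (nat_lit 0) (nat_lit 7976973694) (nat_lit 1092) (nat_lit 6917093878) (nat_lit 99) (nat_lit 5) (nat_lit 98) (nat_lit 5) (nat_lit 111)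 (nat_lit 5) (nat_lit 396) (nat_lit 379) (nat_lit 86)) (XT.lf (nat_lit 0) (nat_lit 18101186836) (nat_lit 1008) (nat_lit 71850115644) (nat_lit 1092) (nat_lit 3130433367) (nat_lit 87) (nat_lit 5) (nat_lit 99) (nat_lit 5) (nat_lit 100) (nat_lit 5) (nat_lit 397) (nat_lit 379) (nat_lit 85)))))) (XT.nd (nat_lit 564) (nat_lit 924) (nat_lit 0) (XT.nd (nat_lit 282) (nat_lit 504) (nat_lit 0) (XT.nd (nat_lit 94) (nat_lit 588) (nat_lit 0) (XT.lf (nat_lit 0) (nat_lit 996386359) (nat_lit 1092) (nat_lit 42443189640) (nat_lit 84) (nat_lit 51344760554) (nat_lit 86) (nat_lit 5) (nat_lit 99) (nat_lit 5) (nat_lit 87) (nat_lit 5) (nat_lit 398) (nat_lit 379) (nat_lit 84)) (XT.nd (nat_lit 94) (nat_lit 588) (nat_lit 0) (XT.lf (nat_lit 0) (nat_lit 5185839558) (nat_lit 1092) (nat_lit 8929419309) (nat_lit 84) (nat_lit 82423476306) (nat_lit 86) (nat_lit 5) (nat_lit 99) (nat_lit 5) (nat_lit 87) (nat_lit 5) (nat_lit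 399) (nat_lit 379) (nat_lit 83)) (XT.lf (nat_lit 0) (nat_lit 9926860131) (nat_lit 672) (nat_lit 72352118000) (nat_lit 84) (nat_lit 16055470850) (nat_lit 79) (nat_lit 5) (nat_lit 87) (nat_lit 5) (nat_lit 80) (nat_lit 5) (nat_lit 400) (nat_lit 379) (nat_lit 82)))) (XT.nd (nat_lit 94) (nat_lit 504) (nat_lit 0) (XT.lf (nat_lit 0) (nat_lit 15053119100) (nat_lit 672) (nat_lit 38162845892) (nat_lit 84) (nat_lit 46962479972) (nat_lit 79) (nat_lit 5) (nat_lit 87) (nat_lit 5) (nat_lit 80) (nat_lit 5) (nat_lit 401) (nat_lit 379) (nat_lit 81)) (XT.nd (nat_lit 94) (nat_lit 504) (nat_lit 0) (XT.lf (nat_lit 0) (nat_lit 20338042606) (nat_lit 672) (nat_lit 2913930104) (nat_lit 84) (nat_lit 78827641123) (nat_lit 79) (nat_lit 5) (nat_lit 87) (nat_lit 5) (nat_lit 80) (nat_lit 5) (nat_lit 402) (nat_lit 379) (nat_lit 80)) (XT.lf (nat_lit 0) (nat_lit 26204240245) (nat_lit 588) (nat_lit 69993674092) (nat_lit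 84) (nat_lit 7828865153) (nat_lit 73) (nat_lit 5) (nat_lit 80) (nat_lit 5) (nat_lit 74) (nat_lit 5) (nat_lit 403) (nat_lit 379) (nat_lit 79))))) (XT.nd (nat_lit 282) (nat_lit 420) (nat_lit 0) (XT.nd (nat_lit 94) (nat_lit 504) (nat_lit 0) (XT.lf (nat_lit 0) (nat_lit 32520592901) (nat_lit 588) (nat_lit 34084439268) (nat_lit 84) (nat_lit 39420958925) (nat_lit 73) (nat_lit 5) (nat_lit 80) (nat_lit 5) (nat_lit 74) (nat_lit 5) (nat_lit 404) (nat_lit 379) (nat_lit 78)) (XT.nd (nat_lit 94) (nat_lit 0) (nat_lit 0) (XT.lf (nat_lit 0) (nat_lit 2998171438) (nat_lit 504) (nat_lit 36064093771) (nat_lit 588) (nat_lit 69023999319) (nat_lit 67) (nat_lit 5) (nat_lit 73) (nat_lit 5) (nat_lit 74) (nat_lit 5) (nat_lit 405) (nat_lit 379) (nat_lit 77)) (XT.lf (nat_lit 0) (nat_lit 41952700605) (nat_lit 504) (nat_lit 4209575654) (nat_lit 588) (nat_lit 64037109354) (nat_lit 67) (nat_lit 5) (nat_lit 73) (nat_lit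 5) (nat_lit 74) (nat_lit 5) (nat_lit 406) (nat_lit 379) (nat_lit 76)))) (XT.nd (nat_lit 188) (nat_lit 0) (nat_lit 0) (XT.nd (nat_lit 94) (nat_lit 420) (nat_lit 0) (XT.lf (nat_lit 0) (nat_lit 53766207043) (nat_lit 588) (nat_lit 30547446722) (nat_lit 84) (nat_lit 28055562383) (nat_lit 67) (nat_lit 5) (nat_lit 74) (nat_lit 5) (nat_lit 68) (nat_lit 5) (nat_lit 407) (nat_lit 379) (nat_lit 75)) (XT.lf (nat_lit 0) (nat_lit 8447400519) (nat_lit 420) (nat_lit 53285101141) (nat_lit 504) (nat_lit 52869884931) (nat_lit 62) (nat_lit 5) (nat_lit 67) (nat_lit 5) (nat_lit 68) (nat_lit 5) (nat_lit 408) (nat_lit 379) (nat_lit 74))) (XT.nd (nat_lit 51324) (nat_lit 0) (nat_lit 2604) (XT.lf (nat_lit 0) (nat_lit 49298470298) (nat_lit 420) (nat_lit 20965926768) (nat_lit 504) (nat_lit 46630511268) (nat_lit 62) (nat_lit 5) (nat_lit 67) (nat_lit 5) (nat_lit 68) (nat_lit 5) (nat_lit 409) (nat_lit 379) (nat_lit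 73)) (XT.lf (nat_lit 0) (nat_lit 20336583002) (nat_lit 1092) (nat_lit 7603524303) (nat_lit 1092) (nat_lit 7603524303) (nat_lit 93) (nat_lit 3) (nat_lit 106) (nat_lit 3) (nat_lit 106) (nat_lit 5) (nat_lit 380) (nat_lit 380) (nat_lit 101))))))))
noncomputable def xc243 : XT := (XT.nd (nat_lit 2256) (nat_lit 924) (nat_lit 0) (XT.nd (nat_lit 1128) (nat_lit 1680) (nat_lit 0) (XT.nd (nat_lit 564) (nat_lit 0) (nat_lit 168) (XT.nd (nat_lit 282) (nat_lit 0) (nat_lit 84) (XT.nd (nat_lit 94) (nat_lit 0) (nat_lit 0) (XT.lf (nat_lit 84) (nat_lit 9769948082) (nat_lit 0) (nat_lit 31641095733) (nat_lit 1092) (nat_lit 30774682878) (nat_lit 94) (nat_lit 5) (nat_lit 93) (nat_lit 3) (nat_lit 106) (nat_lit 5) (nat_lit 381) (nat_lit 380) (nat_lit 100)) (XT.nd (nat_lit 94) (nat_lit 0) (nat_lit 84) (XT.lf (nat_lit 84) (nat_lit 35843388792) (nat_lit 0) (nat_lit 6486711123) (nat_lit 1092) (nat_lit 30983237547)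 (nat_lit 94) (nat_lit 5) (nat_lit 93) (nat_lit 3) (nat_lit 106) (nat_lit 5) (nat_lit 382) (nat_lit 380) (nat_lit 99)) (XT.lf (nat_lit 0) (nat_lit 43470156401) (nat_lit 1008) (nat_lit 11943953821) (nat_lit 1092) (nat_lit 19055828424) (nat_lit 94) (nat_lit 5) (nat_lit 106) (nat_lit 5) (nat_lit 107) (nat_lit 5) (nat_lit 383) (nat_lit 380) (nat_lit 98)))) (XT.nd (nat_lit 94) (nat_lit 0) (nat_lit 0) (XT.lf (nat_lit 84) (nat_lit 14600952158) (nat_lit 0) (nat_lit 30255390343) (nat_lit 1092) (nat_lit 30799519754) (nat_lit 95) (nat_lit 5) (nat_lit 94) (nat_lit 5) (nat_lit 107) (nat_lit 5) (nat_lit 384) (nat_lit 380) (nat_lit 97)) (XT.nd (nat_lit 94) (nat_lit 0) (nat_lit 84) (XT.lf (nat_lit 84) (nat_lit 42221730512) (nat_lit 0) (nat_lit 4188050824) (nat_lit 1092) (nat_lit 30464917596) (nat_lit 95) (nat_lit 5) (nat_lit 94) (nat_lit 5) (nat_lit 107) (nat_lit 5) (nat_lit 385) (nat_lit 380) (nat_lit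 96)) (XT.lf (nat_lit 0) (nat_lit 48236062229) (nat_lit 1008) (nat_lit 7657861984) (nat_lit 1092) (nat_lit 22230432165) (nat_lit 95) (nat_lit 5) (nat_lit 107) (nat_lit 5) (nat_lit 108) (nat_lit 5) (nat_lit 386) (nat_lit 380) (nat_lit 95))))) (XT.nd (nat_lit 282) (nat_lit 0) (nat_lit 84) (XT.nd (nat_lit 94) (nat_lit 0) (nat_lit 0) (XT.lf (nat_lit 84) (nat_lit 20544967327) (nat_lit 0) (nat_lit 29820268209) (nat_lit 1092) (nat_lit 29039885077) (nat_lit 96) (nat_lit 5) (nat_lit 95) (nat_lit 5) (nat_lit 108) (nat_lit 5) (nat_lit 387) (nat_lit 380) (nat_lit 94)) (XT.nd (nat_lit 94) (nat_lit 0) (nat_lit 84) (XT.lf (nat_lit 84) (nat_lit 49784202473) (nat_lit 0) (nat_lit 2855787041) (nat_lit 1092) (nat_lit 28083134118) (nat_lit 96) (nat_lit 5) (nat_lit 95) (nat_lit 5) (nat_lit 108) (nat_lit 5) (nat_lit 388) (nat_lit 380) (nat_lit 93)) (XT.lf (nat_lit 0) (nat_lit 55232370212) (nat_lit 1008) (nat_lit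 2399815933) (nat_lit 1092) (nat_lit 24442140109) (nat_lit 96) (nat_lit 5) (nat_lit 108) (nat_lit 5) (nat_lit 109) (nat_lit 5) (nat_lit 389) (nat_lit 380) (nat_lit 92)))) (XT.nd (nat_lit 94) (nat_lit 0) (nat_lit 0) (XT.lf (nat_lit 84) (nat_lit 27549632592) (nat_lit 0) (nat_lit 30657652110) (nat_lit 1092) (nat_lit 25250766027) (nat_lit 97) (nat_lit 5) (nat_lit 96) (nat_lit 5) (nat_lit 109) (nat_lit 5) (nat_lit 390) (nat_lit 380) (nat_lit 91)) (XT.nd (nat_lit 94) (nat_lit 0) (nat_lit 84) (XT.lf (nat_lit 84) (nat_lit 58478166454) (nat_lit 0) (nat_lit 2820978316) (nat_lit 1092) (nat_lit 23584761259) (nat_lit 97) (nat_lit 5) (nat_lit 96) (nat_lit 5) (nat_lit 109) (nat_lit 5) (nat_lit 391) (nat_lit 380) (nat_lit 90)) (XT.lf (nat_lit 84) (nat_lit 3831776291) (nat_lit 0) (nat_lit 60949492008) (nat_lit 1092) (nat_lit 21563569386) (nat_lit 98) (nat_lit 5) (nat_lit 97) (nat_lit 5) (nat_lit 110)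 (nat_lit 5) (nat_lit 392) (nat_lit 380) (nat_lit 89)))))) (XT.nd (nat_lit 564) (nat_lit 1176) (nat_lit 0) (XT.nd (nat_lit 282) (nat_lit 840) (nat_lit 0) (XT.nd (nat_lit 94) (nat_lit 0) (nat_lit 0) (XT.lf (nat_lit 84) (nat_lit 35536771790) (nat_lit 0) (nat_lit 33138439606) (nat_lit 1092) (nat_lit 19166428423) (nat_lit 98) (nat_lit 5) (nat_lit 97) (nat_lit 5) (nat_lit 110) (nat_lit 5) (nat_lit 393) (nat_lit 380) (nat_lit 88)) (XT.nd (nat_lit 94) (nat_lit 0) (nat_lit 84) (XT.lf (nat_lit 84) (nat_lit 68224403007) (nat_lit 0) (nat_lit 4465165081) (nat_lit 1092) (nat_lit 16695285618) (nat_lit 98) (nat_lit 5) (nat_lit 97) (nat_lit 5) (nat_lit 110) (nat_lit 5) (nat_lit 394) (nat_lit 380) (nat_lit 87)) (XT.lf (nat_lit 84) (nat_lit 10920273709) (nat_lit 0) (nat_lit 66265102857) (nat_lit 1092) (nat_lit 13779465029) (nat_lit 99) (nat_lit 5) (nat_lit 98) (nat_lit 5) (nat_lit 111) (nat_lit 5) (nat_lit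 395) (nat_lit 380) (nat_lit 86)))) (XT.nd (nat_lit 94) (nat_lit 924) (nat_lit 0) (XT.lf (nat_lit 84) (nat_lit 44397262233) (nat_lit 0) (nat_lit 37689087959) (nat_lit 1092) (nat_lit 10499220804) (nat_lit 99) (nat_lit 5) (nat_lit 98) (nat_lit 5) (nat_lit 111) (nat_lit 5) (nat_lit 396) (nat_lit 380) (nat_lit 85)) (XT.nd (nat_lit 94) (nat_lit 924) (nat_lit 0) (XT.lf (nat_lit 84) (nat_lit 78911822452) (nat_lit 0) (nat_lit 8227157630) (nat_lit 1092) (nat_lit 7117572903) (nat_lit 99) (nat_lit 5) (nat_lit 98) (nat_lit 5) (nat_lit 111) (nat_lit 5) (nat_lit 397) (nat_lit 380) (nat_lit 84)) (XT.lf (nat_lit 0) (nat_lit 18673293314) (nat_lit 1008) (nat_lit 74079636275) (nat_lit 1092) (nat_lit 3213861941) (nat_lit 87) (nat_lit 5) (nat_lit 99) (nat_lit 5) (nat_lit 100) (nat_lit 5) (nat_lit 398) (nat_lit 380) (nat_lit 83))))) (XT.nd (nat_lit 282) (nat_lit 504) (nat_lit 0) (XT.nd (nat_lit 94) (nat_lit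 588) (nat_lit 0) (XT.lf (nat_lit 0) (nat_lit 1040213765) (nat_lit 1092) (nat_lit 43747955916) (nat_lit 84) (nat_lit 52934013492) (nat_lit 86) (nat_lit 5) (nat_lit 99) (nat_lit 5) (nat_lit 87) (nat_lit 5) (nat_lit 399) (nat_lit 380) (nat_lit 82)) (XT.nd (nat_lit 94) (nat_lit 588) (nat_lit 0) (XT.lf (nat_lit 0) (nat_lit 5359150951) (nat_lit 1092) (nat_lit 9195588628) (nat_lit 84) (nat_lit 84976242637) (nat_lit 86) (nat_lit 5) (nat_lit 99) (nat_lit 5) (nat_lit 87) (nat_lit 5) (nat_lit 400) (nat_lit 380) (nat_lit 81)) (XT.lf (nat_lit 0) (nat_lit 10246853020) (nat_lit 672) (nat_lit 74584038096) (nat_lit 84) (nat_lit 16551482976) (nat_lit 79) (nat_lit 5) (nat_lit 87) (nat_lit 5) (nat_lit 80) (nat_lit 5) (nat_lit 401) (nat_lit 380) (nat_lit 80)))) (XT.nd (nat_lit 94) (nat_lit 504) (nat_lit 0) (XT.lf (nat_lit 0) (nat_lit 15531657378) (nat_lit 672) (nat_lit 39335229166) (nat_lit 84) (nat_lit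 48416660720) (nat_lit 79) (nat_lit 5) (nat_lit 87) (nat_lit 5) (nat_lit 80) (nat_lit 5) (nat_lit 402) (nat_lit 380) (nat_lit 79)) (XT.nd (nat_lit 94) (nat_lit 504) (nat_lit 0) (XT.lf (nat_lit 0) (nat_lit 20980055958) (nat_lit 672) (nat_lit 2993917662) (nat_lit 84) (nat_lit 81269691663) (nat_lit 79) (nat_lit 5) (nat_lit 87) (nat_lit 5) (nat_lit 80) (nat_lit 5) (nat_lit 403) (nat_lit 380) (nat_lit 78)) (XT.lf (nat_lit 0) (nat_lit 27027850089) (nat_lit 588) (nat_lit 72152820828) (nat_lit 84) (nat_lit 8070531857) (nat_lit 73) (nat_lit 5) (nat_lit 80) (nat_lit 5) (nat_lit 74) (nat_lit 5) (nat_lit 404) (nat_lit 380) (nat_lit 77))))))) (XT.nd (nat_lit 52452) (nat_lit 0) (nat_lit 2016) (XT.nd (nat_lit 51888) (nat_lit 0) (nat_lit 2604) (XT.nd (nat_lit 282) (nat_lit 420) (nat_lit 0) (XT.nd (nat_lit 94) (nat_lit 504) (nat_lit 0) (XT.lf (nat_lit 0) (nat_lit 33539670559) (nat_lit 588) (nat_lit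 35130720163) (nat_lit 84) (nat_lit 40642011449) (nat_lit 73) (nat_lit 5) (nat_lit 80) (nat_lit 5) (nat_lit 74) (nat_lit 5) (nat_lit 405) (nat_lit 380) (nat_lit 76)) (XT.nd (nat_lit 94) (nat_lit 0) (nat_lit 0) (XT.lf (nat_lit 0) (nat_lit 3101346825) (nat_lit 504) (nat_lit 37182560466) (nat_lit 588) (nat_lit 71152645510) (nat_lit 67) (nat_lit 5) (nat_lit 73) (nat_lit 5) (nat_lit 74) (nat_lit 5) (nat_lit 406) (nat_lit 380) (nat_lit 75)) (XT.lf (nat_lit 0) (nat_lit 43263158739) (nat_lit 504) (nat_lit 4340537862) (nat_lit 588) (nat_lit 66011495644) (nat_lit 67) (nat_lit 5) (nat_lit 73) (nat_lit 5) (nat_lit 74) (nat_lit 5) (nat_lit 407) (nat_lit 380) (nat_lit 74)))) (XT.nd (nat_lit 94) (nat_lit 420) (nat_lit 0) (XT.lf (nat_lit 0) (nat_lit 55443032362) (nat_lit 588) (nat_lit 31484424017) (nat_lit 84) (nat_lit 28924842541) (nat_lit 67) (nat_lit 5) (nat_lit 74) (nat_lit 5) (nat_lit 68) (nat_lit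 5) (nat_lit 408) (nat_lit 380) (nat_lit 73)) (XT.nd (nat_lit 51418) (nat_lit 0) (nat_lit 2604) (XT.lf (nat_lit 0) (nat_lit 8719162313) (nat_lit 420) (nat_lit 54936915063) (nat_lit 504) (nat_lit 54498628142) (nat_lit 62) (nat_lit 5) (nat_lit 67) (nat_lit 5) (nat_lit 68) (nat_lit 5) (nat_lit 409) (nat_lit 380) (nat_lit 72)) (XT.lf (nat_lit 0) (nat_lit 20977437313) (nat_lit 1092) (nat_lit 7833833039) (nat_lit 1092) (nat_lit 7833833039) (nat_lit 93) (nat_lit 3) (nat_lit 106) (nat_lit 3) (nat_lit 106) (nat_lit 5) (nat_lit 381) (nat_lit 381) (nat_lit 99))))) (XT.nd (nat_lit 282) (nat_lit 0) (nat_lit 84) (XT.nd (nat_lit 94) (nat_lit 0) (nat_lit 0) (XT.lf (nat_lit 84) (nat_lit 10083508156) (nat_lit 0) (nat_lit 32631597927) (nat_lit 1092) (nat_lit 31707636158) (nat_lit 94) (nat_lit 5) (nat_lit 93) (nat_lit 3) (nat_lit 106) (nat_lit 5) (nat_lit 382) (nat_lit 381) (nat_lit 98)) (XT.nd (nat_lit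 94) (nat_lit 0) (nat_lit 84) (XT.lf (nat_lit 84) (nat_lit 36964904051) (nat_lit 0) (nat_lit 6697137894) (nat_lit 1092) (nat_lit 31923289308) (nat_lit 94) (nat_lit 5) (nat_lit 93) (nat_lit 3) (nat_lit 106) (nat_lit 5) (nat_lit 383) (nat_lit 381) (nat_lit 97)) (XT.lf (nat_lit 0) (nat_lit 44836757720) (nat_lit 1008) (nat_lit 12303370106) (nat_lit 1092) (nat_lit 19637683672) (nat_lit 94) (nat_lit 5) (nat_lit 106) (nat_lit 5) (nat_lit 107) (nat_lit 5) (nat_lit 384) (nat_lit 381) (nat_lit 96)))) (XT.nd (nat_lit 94) (nat_lit 0) (nat_lit 0) (XT.lf (nat_lit 84) (nat_lit 15064318150) (nat_lit 0) (nat_lit 31201131861) (nat_lit 1092) (nat_lit 31735066332) (nat_lit 95) (nat_lit 5) (nat_lit 94) (nat_lit 5) (nat_lit 107) (nat_lit 5) (nat_lit 385) (nat_lit 381) (nat_lit 95)) (XT.nd (nat_lit 94) (nat_lit 0) (nat_lit 84) (XT.lf (nat_lit 84) (nat_lit 43541017810) (nat_lit 0) (nat_lit 4325469553) (nat_lit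 1092) (nat_lit 31390669969) (nat_lit 95) (nat_lit 5) (nat_lit 94) (nat_lit 5) (nat_lit 107) (nat_lit 5) (nat_lit 386) (nat_lit 381) (nat_lit 94)) (XT.lf (nat_lit 0) (nat_lit 49748768634) (nat_lit 1008) (nat_lit 7884444644) (nat_lit 1092) (nat_lit 22912362906) (nat_lit 95) (nat_lit 5) (nat_lit 107) (nat_lit 5) (nat_lit 108) (nat_lit 5) (nat_lit 387) (nat_lit 381) (nat_lit 93)))))) (XT.nd (nat_lit 564) (nat_lit 756) (nat_lit 0) (XT.nd (nat_lit 282) (nat_lit 0) (nat_lit 84) (XT.nd (nat_lit 94) (nat_lit 0) (nat_lit 0) (XT.lf (nat_lit 84) (nat_lit 21192562924) (nat_lit 0) (nat_lit 30750966717) (nat_lit 1092) (nat_lit 29922530279) (nat_lit 96) (nat_lit 5) (nat_lit 95) (nat_lit 5) (nat_lit 108) (nat_lit 5) (nat_lit 388) (nat_lit 381) (nat_lit 92)) (XT.nd (nat_lit 94) (nat_lit 0) (nat_lit 84) (XT.lf (nat_lit 84) (nat_lit 51337892585) (nat_lit 0) (nat_lit 2950398101) (nat_lit 1092) (nat_lit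 28936648972) (nat_lit 96) (nat_lit 5) (nat_lit 95) (nat_lit 5) (nat_lit 108) (nat_lit 5) (nat_lit 389) (nat_lit 381) (nat_lit 91)) (XT.lf (nat_lit 0) (nat_lit 56960481706) (nat_lit 1008) (nat_lit 2463501233) (nat_lit 1092) (nat_lit 25194066501) (nat_lit 96) (nat_lit 5) (nat_lit 108) (nat_lit 5) (nat_lit 109) (nat_lit 5) (nat_lit 390) (nat_lit 381) (nat_lit 90)))) (XT.nd (nat_lit 94) (nat_lit 0) (nat_lit 0) (XT.lf (nat_lit 84) (nat_lit 28414271778) (nat_lit 0) (nat_lit 31612973606) (nat_lit 1092) (nat_lit 26017438197) (nat_lit 97) (nat_lit 5) (nat_lit 96) (nat_lit 5) (nat_lit 109) (nat_lit 5) (nat_lit 391) (nat_lit 381) (nat_lit 89)) (XT.nd (nat_lit 94) (nat_lit 0) (nat_lit 84) (XT.lf (nat_lit 84) (nat_lit 60301271453) (nat_lit 0) (nat_lit 2913214561) (nat_lit 1092) (nat_lit 24300271422) (nat_lit 97) (nat_lit 5) (nat_lit 96) (nat_lit 5) (nat_lit 109) (nat_lit 5) (nat_lit 392) (nat_lit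 381) (nat_lit 88)) (XT.lf (nat_lit 84) (nat_lit 3961330212) (nat_lit 0) (nat_lit 62842832883) (nat_lit 1092) (nat_lit 22216829521) (nat_lit 98) (nat_lit 5) (nat_lit 97) (nat_lit 5) (nat_lit 110) (nat_lit 5) (nat_lit 393) (nat_lit 381) (nat_lit 87))))) (XT.nd (nat_lit 282) (nat_lit 924) (nat_lit 0) (XT.nd (nat_lit 94) (nat_lit 0) (nat_lit 0) (XT.lf (nat_lit 84) (nat_lit 36648856774) (nat_lit 0) (nat_lit 34169520393) (nat_lit 1092) (nat_lit 19745834536) (nat_lit 98) (nat_lit 5) (nat_lit 97) (nat_lit 5) (nat_lit 110) (nat_lit 5) (nat_lit 394) (nat_lit 381) (nat_lit 86)) (XT.nd (nat_lit 94) (nat_lit 0) (nat_lit 84) (XT.lf (nat_lit 84) (nat_lit 70349490498) (nat_lit 0) (nat_lit 4607260426) (nat_lit 1092) (nat_lit 17198529901) (nat_lit 98) (nat_lit 5) (nat_lit 97) (nat_lit 5) (nat_lit 110) (nat_lit 5) (nat_lit 395) (nat_lit 381) (nat_lit 85)) (XT.lf (nat_lit 84) (nat_lit 11269364964) (nat_lit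 0) (nat_lit 68322218798) (nat_lit 1092) (nat_lit 14192677559) (nat_lit 99) (nat_lit 5) (nat_lit 98) (nat_lit 5) (nat_lit 111) (nat_lit 5) (nat_lit 396) (nat_lit 381) (nat_lit 84)))) (XT.nd (nat_lit 188) (nat_lit 1008) (nat_lit 0) (XT.nd (nat_lit 94) (nat_lit 0) (nat_lit 0) (XT.lf (nat_lit 84) (nat_lit 45783822532) (nat_lit 0) (nat_lit 38860260308) (nat_lit 1092) (nat_lit 10811165237) (nat_lit 99) (nat_lit 5) (nat_lit 98) (nat_lit 5) (nat_lit 111) (nat_lit 5) (nat_lit 397) (nat_lit 381) (nat_lit 83)) (XT.lf (nat_lit 84) (nat_lit 81368026068) (nat_lit 0) (nat_lit 8484925630) (nat_lit 1092) (nat_lit 7325093112) (nat_lit 99) (nat_lit 5) (nat_lit 98) (nat_lit 5) (nat_lit 111) (nat_lit 5) (nat_lit 398) (nat_lit 381) (nat_lit 82))) (XT.nd (nat_lit 94) (nat_lit 84) (nat_lit 0) (XT.lf (nat_lit 0) (nat_lit 19262485339) (nat_lit 1008) (nat_lit 76378143687) (nat_lit 1092) (nat_lit 3300683233)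 (nat_lit 87) (nat_lit 5) (nat_lit 99) (nat_lit 5) (nat_lit 100) (nat_lit 5) (nat_lit 399) (nat_lit 381) (nat_lit 81)) (XT.lf (nat_lit 0) (nat_lit 1084633396) (nat_lit 1092) (nat_lit 45093819873) (nat_lit 84) (nat_lit 54572677479) (nat_lit 86) (nat_lit 5) (nat_lit 99) (nat_lit 5) (nat_lit 87) (nat_lit 5) (nat_lit 400) (nat_lit 381) (nat_lit 80))))))))
noncomputable def xc244 : XT := (XT.nd (nat_lit 53674) (nat_lit 0) (nat_lit 0) (XT.nd (nat_lit 52546) (nat_lit 0) (nat_lit 2268) (XT.nd (nat_lit 564) (nat_lit 504) (nat_lit 0) (XT.nd (nat_lit 282) (nat_lit 504) (nat_lit 0) (XT.nd (nat_lit 94) (nat_lit 588) (nat_lit 0) (XT.lf (nat_lit 0) (nat_lit 5537091618) (nat_lit 1092) (nat_lit 9470639580) (nat_lit 84) (nat_lit 87608284595) (nat_lit 86) (nat_lit 5) (nat_lit 99) (nat_lit 5) (nat_lit 87) (nat_lit 5) (nat_lit 401) (nat_lit 381) (nat_lit 79)) (XT.nd (nat_lit 94) (nat_lit 0) (nat_lit 0)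 (XT.lf (nat_lit 0) (nat_lit 10576039495) (nat_lit 672) (nat_lit 76885799001) (nat_lit 84) (nat_lit 17062972613) (nat_lit 79) (nat_lit 5) (nat_lit 87) (nat_lit 5) (nat_lit 80) (nat_lit 5) (nat_lit 402) (nat_lit 381) (nat_lit 78)) (XT.lf (nat_lit 0) (nat_lit 16024325984) (nat_lit 672) (nat_lit 40544588025) (nat_lit 84) (nat_lit 49916019167) (nat_lit 79) (nat_lit 5) (nat_lit 87) (nat_lit 5) (nat_lit 80) (nat_lit 5) (nat_lit 403) (nat_lit 381) (nat_lit 77)))) (XT.nd (nat_lit 94) (nat_lit 504) (nat_lit 0) (XT.lf (nat_lit 0) (nat_lit 21641288544) (nat_lit 672) (nat_lit 3076997543) (nat_lit 84) (nat_lit 83787540916) (nat_lit 79) (nat_lit 5) (nat_lit 87) (nat_lit 5) (nat_lit 80) (nat_lit 5) (nat_lit 404) (nat_lit 381) (nat_lit 76)) (XT.nd (nat_lit 94) (nat_lit 0) (nat_lit 0) (XT.lf (nat_lit 0) (nat_lit 27876323799) (nat_lit 588) (nat_lit 74379532355) (nat_lit 84) (nat_lit 8319751127) (nat_lit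 73) (nat_lit 5) (nat_lit 80) (nat_lit 5) (nat_lit 74) (nat_lit 5) (nat_lit 405) (nat_lit 381) (nat_lit 75)) (XT.lf (nat_lit 0) (nat_lit 34589691672) (nat_lit 588) (nat_lit 36210048028) (nat_lit 84) (nat_lit 41900975668) (nat_lit 73) (nat_lit 5) (nat_lit 80) (nat_lit 5) (nat_lit 74) (nat_lit 5) (nat_lit 406) (nat_lit 381) (nat_lit 74))))) (XT.nd (nat_lit 51700) (nat_lit 0) (nat_lit 2184) (XT.nd (nat_lit 94) (nat_lit 0) (nat_lit 0) (XT.lf (nat_lit 0) (nat_lit 3207114585) (nat_lit 504) (nat_lit 38335671210) (nat_lit 588) (nat_lit 73347937075) (nat_lit 67) (nat_lit 5) (nat_lit 73) (nat_lit 5) (nat_lit 74) (nat_lit 5) (nat_lit 407) (nat_lit 381) (nat_lit 73)) (XT.nd (nat_lit 94) (nat_lit 0) (nat_lit 0) (XT.lf (nat_lit 0) (nat_lit 44613653235) (nat_lit 504) (nat_lit 4475532334) (nat_lit 588) (nat_lit 68047725485) (nat_lit 67) (nat_lit 5) (nat_lit 73) (nat_lit 5) (nat_lit 74) (nat_lit 5)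 (nat_lit 408) (nat_lit 381) (nat_lit 72)) (XT.lf (nat_lit 0) (nat_lit 57171242631) (nat_lit 588) (nat_lit 32451039543) (nat_lit 84) (nat_lit 29821096581) (nat_lit 67) (nat_lit 5) (nat_lit 74) (nat_lit 5) (nat_lit 68) (nat_lit 5) (nat_lit 409) (nat_lit 381) (nat_lit 71)))) (XT.nd (nat_lit 94) (nat_lit 0) (nat_lit 0) (XT.lf (nat_lit 0) (nat_lit 21637540899) (nat_lit 1092) (nat_lit 8071601228) (nat_lit 1092) (nat_lit 8071601228) (nat_lit 93) (nat_lit 3) (nat_lit 106) (nat_lit 3) (nat_lit 106) (nat_lit 5) (nat_lit 382) (nat_lit 382) (nat_lit 97)) (XT.nd (nat_lit 94) (nat_lit 0) (nat_lit 0) (XT.lf (nat_lit 84) (nat_lit 10406155305) (nat_lit 0) (nat_lit 33652235392) (nat_lit 1092) (nat_lit 32670758520) (nat_lit 94) (nat_lit 5) (nat_lit 93) (nat_lit 3) (nat_lit 106) (nat_lit 5) (nat_lit 383) (nat_lit 382) (nat_lit 96)) (XT.lf (nat_lit 84) (nat_lit 38120572038) (nat_lit 0) (nat_lit 6913534746)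 (nat_lit 1092) (nat_lit 32893692694) (nat_lit 94) (nat_lit 5) (nat_lit 93) (nat_lit 3) (nat_lit 106) (nat_lit 5) (nat_lit 384) (nat_lit 382) (nat_lit 95)))))) (XT.nd (nat_lit 564) (nat_lit 0) (nat_lit 168) (XT.nd (nat_lit 282) (nat_lit 0) (nat_lit 84) (XT.nd (nat_lit 94) (nat_lit 0) (nat_lit 0) (XT.lf (nat_lit 0) (nat_lit 46244596710) (nat_lit 1008) (nat_lit 12674570739) (nat_lit 1092) (nat_lit 20238102140) (nat_lit 94) (nat_lit 5) (nat_lit 106) (nat_lit 5) (nat_lit 107) (nat_lit 5) (nat_lit 385) (nat_lit 382) (nat_lit 94)) (XT.nd (nat_lit 94) (nat_lit 0) (nat_lit 0) (XT.lf (nat_lit 84) (nat_lit 15541412548) (nat_lit 0) (nat_lit 32175727912) (nat_lit 1092) (nat_lit 32700754384) (nat_lit 95) (nat_lit 5) (nat_lit 94) (nat_lit 5) (nat_lit 107) (nat_lit 5) (nat_lit 386) (nat_lit 382) (nat_lit 93)) (XT.lf (nat_lit 84) (nat_lit 44900586195) (nat_lit 0) (nat_lit 4466698743) (nat_lit 1092)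 (nat_lit 32346225933) (nat_lit 95) (nat_lit 5) (nat_lit 94) (nat_lit 5) (nat_lit 107) (nat_lit 5) (nat_lit 387) (nat_lit 382) (nat_lit 92)))) (XT.nd (nat_lit 94) (nat_lit 0) (nat_lit 0) (XT.lf (nat_lit 0) (nat_lit 51307338989) (nat_lit 1008) (nat_lit 8118691723) (nat_lit 1092) (nat_lit 23615860718) (nat_lit 95) (nat_lit 5) (nat_lit 107) (nat_lit 5) (nat_lit 108) (nat_lit 5) (nat_lit 388) (nat_lit 382) (nat_lit 91)) (XT.nd (nat_lit 94) (nat_lit 0) (nat_lit 0) (XT.lf (nat_lit 84) (nat_lit 21859600110) (nat_lit 0) (nat_lit 31710145484) (nat_lit 1092) (nat_lit 30833579441) (nat_lit 96) (nat_lit 5) (nat_lit 95) (nat_lit 5) (nat_lit 108) (nat_lit 5) (nat_lit 389) (nat_lit 382) (nat_lit 90)) (XT.lf (nat_lit 84) (nat_lit 52939132274) (nat_lit 0) (nat_lit 3047581876) (nat_lit 1092) (nat_lit 29817633416) (nat_lit 96) (nat_lit 5) (nat_lit 95) (nat_lit 5) (nat_lit 108) (nat_lit 5) (nat_lit 390)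 (nat_lit 382) (nat_lit 89))))) (XT.nd (nat_lit 282) (nat_lit 0) (nat_lit 84) (XT.nd (nat_lit 94) (nat_lit 0) (nat_lit 0) (XT.lf (nat_lit 0) (nat_lit 58741222397) (nat_lit 1008) (nat_lit 2529795089) (nat_lit 1092) (nat_lit 25969644968) (nat_lit 96) (nat_lit 5) (nat_lit 108) (nat_lit 5) (nat_lit 109) (nat_lit 5) (nat_lit 391) (nat_lit 382) (nat_lit 88)) (XT.nd (nat_lit 94) (nat_lit 0) (nat_lit 0) (XT.lf (nat_lit 84) (nat_lit 29305086888) (nat_lit 0) (nat_lit 32597617802) (nat_lit 1092) (nat_lit 26808830928) (nat_lit 97) (nat_lit 5) (nat_lit 96) (nat_lit 5) (nat_lit 109) (nat_lit 5) (nat_lit 392) (nat_lit 382) (nat_lit 87)) (XT.lf (nat_lit 84) (nat_lit 62180283695) (nat_lit 0) (nat_lit 3008026651) (nat_lit 1092) (nat_lit 25038887447) (nat_lit 97) (nat_lit 5) (nat_lit 96) (nat_lit 5) (nat_lit 109) (nat_lit 5) (nat_lit 393) (nat_lit 382) (nat_lit 86)))) (XT.nd (nat_lit 94) (nat_lit 0) (nat_lit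 0) (XT.lf (nat_lit 84) (nat_lit 4094262447) (nat_lit 0) (nat_lit 64794635930) (nat_lit 1092) (nat_lit 22891241666) (nat_lit 98) (nat_lit 5) (nat_lit 97) (nat_lit 5) (nat_lit 110) (nat_lit 5) (nat_lit 394) (nat_lit 382) (nat_lit 85)) (XT.nd (nat_lit 94) (nat_lit 0) (nat_lit 0) (XT.lf (nat_lit 84) (nat_lit 37794797715) (nat_lit 0) (nat_lit 35232340246) (nat_lit 1092) (nat_lit 20344076095) (nat_lit 98) (nat_lit 5) (nat_lit 97) (nat_lit 5) (nat_lit 110) (nat_lit 5) (nat_lit 395) (nat_lit 382) (nat_lit 84)) (XT.lf (nat_lit 84) (nat_lit 72539855625) (nat_lit 0) (nat_lit 4753543036) (nat_lit 1092) (nat_lit 17718222337) (nat_lit 98) (nat_lit 5) (nat_lit 97) (nat_lit 5) (nat_lit 110) (nat_lit 5) (nat_lit 396) (nat_lit 382) (nat_lit 83))))))) (XT.nd (nat_lit 1128) (nat_lit 0) (nat_lit 0) (XT.nd (nat_lit 564) (nat_lit 1596) (nat_lit 0) (XT.nd (nat_lit 282) (nat_lit 1008) (nat_lit 0) (XT.nd (nat_lit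 94) (nat_lit 0) (nat_lit 0) (XT.lf (nat_lit 84) (nat_lit 11628652398) (nat_lit 0) (nat_lit 70442933694) (nat_lit 1092) (nat_lit 14619526013) (nat_lit 99) (nat_lit 5) (nat_lit 98) (nat_lit 5) (nat_lit 111) (nat_lit 5) (nat_lit 397) (nat_lit 382) (nat_lit 82)) (XT.nd (nat_lit 94) (nat_lit 0) (nat_lit 0) (XT.lf (nat_lit 84) (nat_lit 47212759362) (nat_lit 0) (nat_lit 40067572522) (nat_lit 1092) (nat_lit 11133581436) (nat_lit 99) (nat_lit 5) (nat_lit 98) (nat_lit 5) (nat_lit 111) (nat_lit 5) (nat_lit 398) (nat_lit 382) (nat_lit 81)) (XT.lf (nat_lit 84) (nat_lit 83899783403) (nat_lit 0) (nat_lit 8750522965) (nat_lit 1092) (nat_lit 7539823837) (nat_lit 99) (nat_lit 5) (nat_lit 98) (nat_lit 5) (nat_lit 111) (nat_lit 5) (nat_lit 399) (nat_lit 382) (nat_lit 80)))) (XT.nd (nat_lit 94) (nat_lit 84) (nat_lit 0) (XT.lf (nat_lit 0) (nat_lit 19869331050) (nat_lit 1008) (nat_lit 78747784074) (nat_lit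 1092) (nat_lit 3390954649) (nat_lit 87) (nat_lit 5) (nat_lit 99) (nat_lit 5) (nat_lit 100) (nat_lit 5) (nat_lit 400) (nat_lit 382) (nat_lit 79)) (XT.nd (nat_lit 94) (nat_lit 0) (nat_lit 0) (XT.lf (nat_lit 0) (nat_lit 1129709008) (nat_lit 1092) (nat_lit 46482017043) (nat_lit 84) (nat_lit 56262275716) (nat_lit 86) (nat_lit 5) (nat_lit 99) (nat_lit 5) (nat_lit 87) (nat_lit 5) (nat_lit 401) (nat_lit 382) (nat_lit 78)) (XT.lf (nat_lit 0) (nat_lit 5719849098) (nat_lit 1092) (nat_lit 9754810157) (nat_lit 84) (nat_lit 90322051442) (nat_lit 86) (nat_lit 5) (nat_lit 99) (nat_lit 5) (nat_lit 87) (nat_lit 5) (nat_lit 402) (nat_lit 382) (nat_lit 77))))) (XT.nd (nat_lit 282) (nat_lit 1008) (nat_lit 0) (XT.nd (nat_lit 94) (nat_lit 0) (nat_lit 0) (XT.lf (nat_lit 0) (nat_lit 10914747570) (nat_lit 672) (nat_lit 79259527203) (nat_lit 84) (nat_lit 17590413576) (nat_lit 79) (nat_lit 5) (nat_lit 87) (nat_lit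 5) (nat_lit 80) (nat_lit 5) (nat_lit 403) (nat_lit 382) (nat_lit 76)) (XT.nd (nat_lit 94) (nat_lit 0) (nat_lit 0) (XT.lf (nat_lit 0) (nat_lit 16531604678) (nat_lit 672) (nat_lit 41792031295) (nat_lit 84) (nat_lit 51461950011) (nat_lit 79) (nat_lit 5) (nat_lit 87) (nat_lit 5) (nat_lit 80) (nat_lit 5) (nat_lit 404) (nat_lit 382) (nat_lit 75)) (XT.lf (nat_lit 0) (nat_lit 22322376625) (nat_lit 672) (nat_lit 3163229317) (nat_lit 84) (nat_lit 86383533006) (nat_lit 79) (nat_lit 5) (nat_lit 87) (nat_lit 5) (nat_lit 80) (nat_lit 5) (nat_lit 405) (nat_lit 382) (nat_lit 74)))) (XT.nd (nat_lit 94) (nat_lit 504) (nat_lit 0) (XT.lf (nat_lit 0) (nat_lit 28750471724) (nat_lit 588) (nat_lit 76675865792) (nat_lit 84) (nat_lit 8576753484) (nat_lit 73) (nat_lit 5) (nat_lit 80) (nat_lit 5) (nat_lit 74) (nat_lit 5) (nat_lit 406) (nat_lit 382) (nat_lit 73)) (XT.nd (nat_lit 94) (nat_lit 504) (nat_lit 0) (XT.lf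 (nat_lit 0) (nat_lit 35671653868) (nat_lit 588) (nat_lit 37323411053) (nat_lit 84) (nat_lit 43199023345) (nat_lit 73) (nat_lit 5) (nat_lit 80) (nat_lit 5) (nat_lit 74) (nat_lit 5) (nat_lit 407) (nat_lit 382) (nat_lit 72)) (XT.lf (nat_lit 0) (nat_lit 3315590982) (nat_lit 504) (nat_lit 39524501652) (nat_lit 588) (nat_lit 75611901084) (nat_lit 67) (nat_lit 5) (nat_lit 73) (nat_lit 5) (nat_lit 74) (nat_lit 5) (nat_lit 408) (nat_lit 382) (nat_lit 71)))))) (XT.nd (nat_lit 52076) (nat_lit 0) (nat_lit 2268) (XT.nd (nat_lit 51794) (nat_lit 0) (nat_lit 2184) (XT.nd (nat_lit 51606) (nat_lit 0) (nat_lit 2184) (XT.lf (nat_lit 0) (nat_lit 46005460039) (nat_lit 504) (nat_lit 4614685702) (nat_lit 588) (nat_lit 70147678263) (nat_lit 67) (nat_lit 5) (nat_lit 73) (nat_lit 5) (nat_lit 74) (nat_lit 5) (nat_lit 409) (nat_lit 382) (nat_lit 70)) (XT.nd (nat_lit 94) (nat_lit 0) (nat_lit 0) (XT.lf (nat_lit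 0) (nat_lit 22317527046) (nat_lit 1092) (nat_lit 8317041166) (nat_lit 1092) (nat_lit 8317041166) (nat_lit 93) (nat_lit 3) (nat_lit 106) (nat_lit 3) (nat_lit 106) (nat_lit 5) (nat_lit 383) (nat_lit 383) (nat_lit 95)) (XT.lf (nat_lit 84) (nat_lit 10738208740) (nat_lit 0) (nat_lit 34703976103) (nat_lit 1092) (nat_lit 33664911315) (nat_lit 94) (nat_lit 5) (nat_lit 93) (nat_lit 3) (nat_lit 106) (nat_lit 5) (nat_lit 384) (nat_lit 383) (nat_lit 94)))) (XT.nd (nat_lit 94) (nat_lit 0) (nat_lit 84) (XT.lf (nat_lit 84) (nat_lit 39311487871) (nat_lit 0) (nat_lit 7136119515) (nat_lit 1092) (nat_lit 33895316935) (nat_lit 94) (nat_lit 5) (nat_lit 93) (nat_lit 3) (nat_lit 106) (nat_lit 5) (nat_lit 385) (nat_lit 383) (nat_lit 93)) (XT.nd (nat_lit 94) (nat_lit 0) (nat_lit 0) (XT.lf (nat_lit 0) (nat_lit 47695018490) (nat_lit 1008) (nat_lit 13057882983) (nat_lit 1092) (nat_lit 20857628149) (nat_lit 94)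 (nat_lit 5) (nat_lit 106) (nat_lit 5) (nat_lit 107) (nat_lit 5) (nat_lit 386) (nat_lit 383) (nat_lit 92)) (XT.lf (nat_lit 84) (nat_lit 16032698600) (nat_lit 0) (nat_lit 33180100438) (nat_lit 1092) (nat_lit 33697450802) (nat_lit 95) (nat_lit 5) (nat_lit 94) (nat_lit 5) (nat_lit 107) (nat_lit 5) (nat_lit 387) (nat_lit 383) (nat_lit 91))))) (XT.nd (nat_lit 282) (nat_lit 0) (nat_lit 84) (XT.nd (nat_lit 94) (nat_lit 0) (nat_lit 84) (XT.lf (nat_lit 84) (nat_lit 46301720918) (nat_lit 0) (nat_lit 4611883146) (nat_lit 1092) (nat_lit 33332443933) (nat_lit 95) (nat_lit 5) (nat_lit 94) (nat_lit 5) (nat_lit 107) (nat_lit 5) (nat_lit 388) (nat_lit 383) (nat_lit 90)) (XT.nd (nat_lit 94) (nat_lit 0) (nat_lit 0) (XT.lf (nat_lit 0) (nat_lit 52913256082) (nat_lit 1008) (nat_lit 8360802891) (nat_lit 1092) (nat_lit 24341568875) (nat_lit 95) (nat_lit 5) (nat_lit 107) (nat_lit 5) (nat_lit 108) (nat_lit 5)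 (nat_lit 389) (nat_lit 383) (nat_lit 89)) (XT.lf (nat_lit 84) (nat_lit 22546719119) (nat_lit 0) (nat_lit 32698709397) (nat_lit 1092) (nat_lit 31773851370) (nat_lit 96) (nat_lit 5) (nat_lit 95) (nat_lit 5) (nat_lit 108) (nat_lit 5) (nat_lit 390) (nat_lit 383) (nat_lit 88)))) (XT.nd (nat_lit 188) (nat_lit 0) (nat_lit 84) (XT.nd (nat_lit 94) (nat_lit 0) (nat_lit 84) (XT.lf (nat_lit 84) (nat_lit 54589431996) (nat_lit 0) (nat_lit 3147439459) (nat_lit 1092) (nat_lit 30726879146) (nat_lit 96) (nat_lit 5) (nat_lit 95) (nat_lit 5) (nat_lit 108) (nat_lit 5) (nat_lit 391) (nat_lit 383) (nat_lit 87)) (XT.lf (nat_lit 0) (nat_lit 60576279602) (nat_lit 1008) (nat_lit 2598740795) (nat_lit 1092) (nat_lit 26769588445) (nat_lit 96) (nat_lit 5) (nat_lit 108) (nat_lit 5) (nat_lit 109) (nat_lit 5) (nat_lit 392) (nat_lit 383) (nat_lit 86))) (XT.nd (nat_lit 94) (nat_lit 0) (nat_lit 0) (XT.lf (nat_lit 84)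 (nat_lit 30222926567) (nat_lit 0) (nat_lit 33612511014) (nat_lit 1092) (nat_lit 27625654068) (nat_lit 97) (nat_lit 5) (nat_lit 96) (nat_lit 5) (nat_lit 109) (nat_lit 5) (nat_lit 393) (nat_lit 383) (nat_lit 85)) (XT.lf (nat_lit 84) (nat_lit 64116972379) (nat_lit 0) (nat_lit 3105511229) (nat_lit 1092) (nat_lit 25801270825) (nat_lit 97) (nat_lit 5) (nat_lit 96) (nat_lit 5) (nat_lit 109) (nat_lit 5) (nat_lit 394) (nat_lit 383) (nat_lit 84))))))))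
noncomputable def xc245 : XT := (XT.nd (nat_lit 53862) (nat_lit 0) (nat_lit 0) (XT.nd (nat_lit 1128) (nat_lit 1008) (nat_lit 0) (XT.nd (nat_lit 564) (nat_lit 1512) (nat_lit 0) (XT.nd (nat_lit 282) (nat_lit 0) (nat_lit 84) (XT.nd (nat_lit 94) (nat_lit 0) (nat_lit 0) (XT.lf (nat_lit 84) (nat_lit 4230715504) (nat_lit 0) (nat_lit 66806727180) (nat_lit 1092) (nat_lit 23587408167) (nat_lit 98) (nat_lit 5) (nat_lit 97) (nat_lit 5) (nat_lit 110) (nat_lit 5) (nat_lit 395) (nat_lit 383) (nat_lit 83)) (XT.nd (nat_lit 94) (nat_lit 0) (nat_lit 0) (XT.lf (nat_lit 84) (nat_lit 38975680791) (nat_lit 0) (nat_lit 36327896369) (nat_lit 1092) (nat_lit 20961685237) (nat_lit 98) (nat_lit 5) (nat_lit 97) (nat_lit 5) (nat_lit 110) (nat_lit 5) (nat_lit 396) (nat_lit 383) (nat_lit 82)) (XT.lf (nat_lit 84) (nat_lit 74797557538) (nat_lit 0) (nat_lit 4904155611) (nat_lit 1092) (nat_lit 18254822616) (nat_lit 98)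 (nat_lit 5) (nat_lit 97) (nat_lit 5) (nat_lit 110) (nat_lit 5) (nat_lit 397) (nat_lit 383) (nat_lit 81)))) (XT.nd (nat_lit 94) (nat_lit 0) (nat_lit 0) (XT.lf (nat_lit 84) (nat_lit 11998489149) (nat_lit 0) (nat_lit 72629229279) (nat_lit 1092) (nat_lit 15060384158) (nat_lit 99) (nat_lit 5) (nat_lit 98) (nat_lit 5) (nat_lit 111) (nat_lit 5) (nat_lit 398) (nat_lit 383) (nat_lit 80)) (XT.nd (nat_lit 94) (nat_lit 0) (nat_lit 0) (XT.lf (nat_lit 84) (nat_lit 48685422338) (nat_lit 0) (nat_lit 41312154798) (nat_lit 1092) (nat_lit 11466746552) (nat_lit 99) (nat_lit 5) (nat_lit 98) (nat_lit 5) (nat_lit 111) (nat_lit 5) (nat_lit 399) (nat_lit 383) (nat_lit 79)) (XT.lf (nat_lit 84) (nat_lit 86509471486) (nat_lit 0) (nat_lit 9024201910) (nat_lit 1092) (nat_lit 7761942558) (nat_lit 99) (nat_lit 5) (nat_lit 98) (nat_lit 5) (nat_lit 111) (nat_lit 5) (nat_lit 400) (nat_lit 383) (nat_lit 78))))) (XT.nd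 (nat_lit 282) (nat_lit 588) (nat_lit 0) (XT.nd (nat_lit 94) (nat_lit 84) (nat_lit 0) (XT.lf (nat_lit 0) (nat_lit 20494413917) (nat_lit 1008) (nat_lit 81190769711) (nat_lit 1092) (nat_lit 3484738208) (nat_lit 87) (nat_lit 5) (nat_lit 99) (nat_lit 5) (nat_lit 100) (nat_lit 5) (nat_lit 401) (nat_lit 383) (nat_lit 77)) (XT.nd (nat_lit 94) (nat_lit 0) (nat_lit 0) (XT.lf (nat_lit 0) (nat_lit 1175503643) (nat_lit 1092) (nat_lit 47913823538) (nat_lit 84) (nat_lit 58004379128) (nat_lit 86) (nat_lit 5) (nat_lit 99) (nat_lit 5) (nat_lit 87) (nat_lit 5) (nat_lit 402) (nat_lit 383) (nat_lit 76)) (XT.lf (nat_lit 0) (nat_lit 5907614135) (nat_lit 1092) (nat_lit 10048347940) (nat_lit 84) (nat_lit 93120068854) (nat_lit 86) (nat_lit 5) (nat_lit 99) (nat_lit 5) (nat_lit 87) (nat_lit 5) (nat_lit 403) (nat_lit 383) (nat_lit 75)))) (XT.nd (nat_lit 94) (nat_lit 0) (nat_lit 0) (XT.lf (nat_lit 0) (nat_lit 11263312881)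 (nat_lit 672) (nat_lit 81707417397) (nat_lit 84) (nat_lit 18134294718) (nat_lit 79) (nat_lit 5) (nat_lit 87) (nat_lit 5) (nat_lit 80) (nat_lit 5) (nat_lit 404) (nat_lit 383) (nat_lit 74)) (XT.nd (nat_lit 94) (nat_lit 0) (nat_lit 0) (XT.lf (nat_lit 0) (nat_lit 17053985623) (nat_lit 672) (nat_lit 43078704392) (nat_lit 84) (nat_lit 53055891529) (nat_lit 79) (nat_lit 5) (nat_lit 87) (nat_lit 5) (nat_lit 80) (nat_lit 5) (nat_lit 405) (nat_lit 383) (nat_lit 73)) (XT.lf (nat_lit 0) (nat_lit 23023973791) (nat_lit 672) (nat_lit 3252676552) (nat_lit 84) (nat_lit 89060085059) (nat_lit 79) (nat_lit 5) (nat_lit 87) (nat_lit 5) (nat_lit 80) (nat_lit 5) (nat_lit 406) (nat_lit 383) (nat_lit 72)))))) (XT.nd (nat_lit 52170) (nat_lit 0) (nat_lit 2268) (XT.nd (nat_lit 51888) (nat_lit 0) (nat_lit 2184) (XT.nd (nat_lit 94) (nat_lit 504) (nat_lit 0) (XT.lf (nat_lit 0) (nat_lit 29651126991) (nat_lit 588)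 (nat_lit 79043944242) (nat_lit 84) (nat_lit 8841776810) (nat_lit 73) (nat_lit 5) (nat_lit 80) (nat_lit 5) (nat_lit 74) (nat_lit 5) (nat_lit 407) (nat_lit 383) (nat_lit 71)) (XT.nd (nat_lit 94) (nat_lit 504) (nat_lit 0) (XT.lf (nat_lit 0) (nat_lit 36786583424) (nat_lit 588) (nat_lit 38471830210) (nat_lit 84) (nat_lit 44537362777) (nat_lit 73) (nat_lit 5) (nat_lit 80) (nat_lit 5) (nat_lit 74) (nat_lit 5) (nat_lit 408) (nat_lit 383) (nat_lit 70)) (XT.lf (nat_lit 0) (nat_lit 3426893753) (nat_lit 504) (nat_lit 40750160686) (nat_lit 588) (nat_lit 77946629753) (nat_lit 67) (nat_lit 5) (nat_lit 73) (nat_lit 5) (nat_lit 74) (nat_lit 5) (nat_lit 409) (nat_lit 383) (nat_lit 69)))) (XT.nd (nat_lit 94) (nat_lit 0) (nat_lit 0) (XT.lf (nat_lit 0) (nat_lit 23018046506) (nat_lit 1092) (nat_lit 8570372852) (nat_lit 1092) (nat_lit 8570372852) (nat_lit 93) (nat_lit 3) (nat_lit 106) (nat_lit 3) (nat_lit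 106) (nat_lit 5) (nat_lit 384) (nat_lit 384) (nat_lit 93)) (XT.nd (nat_lit 94) (nat_lit 0) (nat_lit 0) (XT.lf (nat_lit 84) (nat_lit 11079995344) (nat_lit 0) (nat_lit 35787816037) (nat_lit 1092) (nat_lit 34690986968) (nat_lit 94) (nat_lit 5) (nat_lit 93) (nat_lit 3) (nat_lit 106) (nat_lit 5) (nat_lit 385) (nat_lit 384) (nat_lit 92)) (XT.lf (nat_lit 84) (nat_lit 40538778460) (nat_lit 0) (nat_lit 7365114851) (nat_lit 1092) (nat_lit 34929062451) (nat_lit 94) (nat_lit 5) (nat_lit 93) (nat_lit 3) (nat_lit 106) (nat_lit 5) (nat_lit 386) (nat_lit 384) (nat_lit 91))))) (XT.nd (nat_lit 282) (nat_lit 0) (nat_lit 84) (XT.nd (nat_lit 94) (nat_lit 0) (nat_lit 0) (XT.lf (nat_lit 0) (nat_lit 49189405925) (nat_lit 1008) (nat_lit 13453646499) (nat_lit 1092) (nat_lit 21496824739) (nat_lit 94) (nat_lit 5) (nat_lit 106) (nat_lit 5) (nat_lit 107) (nat_lit 5) (nat_lit 387) (nat_lit 384) (nat_lit 90)) (XT.nd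 (nat_lit 94) (nat_lit 0) (nat_lit 0) (XT.lf (nat_lit 84) (nat_lit 16538651684) (nat_lit 0) (nat_lit 34215198335) (nat_lit 1092) (nat_lit 34726053344) (nat_lit 95) (nat_lit 5) (nat_lit 94) (nat_lit 5) (nat_lit 107) (nat_lit 5) (nat_lit 388) (nat_lit 384) (nat_lit 89)) (XT.lf (nat_lit 84) (nat_lit 47745744904) (nat_lit 0) (nat_lit 4761170421) (nat_lit 1092) (nat_lit 34350212904) (nat_lit 95) (nat_lit 5) (nat_lit 94) (nat_lit 5) (nat_lit 107) (nat_lit 5) (nat_lit 389) (nat_lit 384) (nat_lit 88)))) (XT.nd (nat_lit 94) (nat_lit 0) (nat_lit 0) (XT.lf (nat_lit 0) (nat_lit 54568045053) (nat_lit 1008) (nat_lit 8610986249) (nat_lit 1092) (nat_lit 25090152092) (nat_lit 95) (nat_lit 5) (nat_lit 107) (nat_lit 5) (nat_lit 108) (nat_lit 5) (nat_lit 390) (nat_lit 384) (nat_lit 87)) (XT.nd (nat_lit 94) (nat_lit 0) (nat_lit 0) (XT.lf (nat_lit 84) (nat_lit 23254577810) (nat_lit 0) (nat_lit 33717590091)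 (nat_lit 1092) (nat_lit 32744193908) (nat_lit 96) (nat_lit 5) (nat_lit 95) (nat_lit 5) (nat_lit 108) (nat_lit 5) (nat_lit 391) (nat_lit 384) (nat_lit 86)) (XT.lf (nat_lit 84) (nat_lit 56290346869) (nat_lit 0) (nat_lit 3250073809) (nat_lit 1092) (nat_lit 31665205946) (nat_lit 96) (nat_lit 5) (nat_lit 95) (nat_lit 5) (nat_lit 108) (nat_lit 5) (nat_lit 392) (nat_lit 384) (nat_lit 85))))))) (XT.nd (nat_lit 1128) (nat_lit 1596) (nat_lit 0) (XT.nd (nat_lit 564) (nat_lit 840) (nat_lit 0) (XT.nd (nat_lit 282) (nat_lit 0) (nat_lit 84) (XT.nd (nat_lit 94) (nat_lit 0) (nat_lit 0) (XT.lf (nat_lit 0) (nat_lit 62467389638) (nat_lit 1008) (nat_lit 2670385213) (nat_lit 1092) (nat_lit 27594633171) (nat_lit 96) (nat_lit 5) (nat_lit 108) (nat_lit 5) (nat_lit 109) (nat_lit 5) (nat_lit 393) (nat_lit 384) (nat_lit 84)) (XT.nd (nat_lit 94) (nat_lit 0) (nat_lit 0) (XT.lf (nat_lit 84) (nat_lit 31168663566)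 (nat_lit 0) (nat_lit 34658607247) (nat_lit 1092) (nat_lit 28468642813) (nat_lit 97) (nat_lit 5) (nat_lit 96) (nat_lit 5) (nat_lit 109) (nat_lit 5) (nat_lit 394) (nat_lit 384) (nat_lit 83)) (XT.lf (nat_lit 84) (nat_lit 66113159410) (nat_lit 0) (nat_lit 3205766938) (nat_lit 1092) (nat_lit 26588106796) (nat_lit 97) (nat_lit 5) (nat_lit 96) (nat_lit 5) (nat_lit 109) (nat_lit 5) (nat_lit 395) (nat_lit 384) (nat_lit 82)))) (XT.nd (nat_lit 94) (nat_lit 0) (nat_lit 0) (XT.lf (nat_lit 84) (nat_lit 4370834074) (nat_lit 0) (nat_lit 68880988464) (nat_lit 1092) (nat_lit 24305953206) (nat_lit 98) (nat_lit 5) (nat_lit 97) (nat_lit 5) (nat_lit 110) (nat_lit 5) (nat_lit 396) (nat_lit 384) (nat_lit 81)) (XT.nd (nat_lit 94) (nat_lit 0) (nat_lit 0) (XT.lf (nat_lit 84) (nat_lit 40192623684) (nat_lit 0) (nat_lit 37457216095) (nat_lit 1092) (nat_lit 21599213664) (nat_lit 98) (nat_lit 5) (nat_lit 97) (nat_lit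 5) (nat_lit 110) (nat_lit 5) (nat_lit 397) (nat_lit 384) (nat_lit 80)) (XT.lf (nat_lit 84) (nat_lit 77124717116) (nat_lit 0) (nat_lit 5059244511) (nat_lit 1092) (nat_lit 18808807650) (nat_lit 98) (nat_lit 5) (nat_lit 97) (nat_lit 5) (nat_lit 110) (nat_lit 5) (nat_lit 398) (nat_lit 384) (nat_lit 79))))) (XT.nd (nat_lit 282) (nat_lit 1008) (nat_lit 0) (XT.nd (nat_lit 94) (nat_lit 0) (nat_lit 0) (XT.lf (nat_lit 84) (nat_lit 12379237110) (nat_lit 0) (nat_lit 74883148119) (nat_lit 1092) (nat_lit 15515640249) (nat_lit 99) (nat_lit 5) (nat_lit 98) (nat_lit 5) (nat_lit 111) (nat_lit 5) (nat_lit 399) (nat_lit 384) (nat_lit 78)) (XT.nd (nat_lit 94) (nat_lit 0) (nat_lit 0) (XT.lf (nat_lit 84) (nat_lit 50203200787) (nat_lit 0) (nat_lit 42595171784) (nat_lit 1092) (nat_lit 11810949141) (nat_lit 99) (nat_lit 5) (nat_lit 98) (nat_lit 5) (nat_lit 111) (nat_lit 5) (nat_lit 400) (nat_lit 384) (nat_lit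 77)) (XT.lf (nat_lit 84) (nat_lit 89199538968) (nat_lit 0) (nat_lit 9306221992) (nat_lit 1092) (nat_lit 7991634985) (nat_lit 99) (nat_lit 5) (nat_lit 98) (nat_lit 5) (nat_lit 111) (nat_lit 5) (nat_lit 401) (nat_lit 384) (nat_lit 76)))) (XT.nd (nat_lit 94) (nat_lit 84) (nat_lit 0) (XT.lf (nat_lit 0) (nat_lit 21138333354) (nat_lit 1008) (nat_lit 83709381029) (nat_lit 1092) (nat_lit 3582100510) (nat_lit 87) (nat_lit 5) (nat_lit 99) (nat_lit 5) (nat_lit 100) (nat_lit 5) (nat_lit 402) (nat_lit 384) (nat_lit 75)) (XT.nd (nat_lit 94) (nat_lit 0) (nat_lit 0) (XT.lf (nat_lit 0) (nat_lit 1222079770) (nat_lit 1092) (nat_lit 49390557178) (nat_lit 84) (nat_lit 59800607817) (nat_lit 86) (nat_lit 5) (nat_lit 99) (nat_lit 5) (nat_lit 87) (nat_lit 5) (nat_lit 403) (nat_lit 384) (nat_lit 74)) (XT.lf (nat_lit 0) (nat_lit 6100580933) (nat_lit 1092) (nat_lit 10351510267) (nat_lit 84) (nat_lit 96004941265)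 (nat_lit 86) (nat_lit 5) (nat_lit 99) (nat_lit 5) (nat_lit 87) (nat_lit 5) (nat_lit 404) (nat_lit 384) (nat_lit 73)))))) (XT.nd (nat_lit 52170) (nat_lit 0) (nat_lit 2184) (XT.nd (nat_lit 282) (nat_lit 1008) (nat_lit 0) (XT.nd (nat_lit 94) (nat_lit 0) (nat_lit 0) (XT.lf (nat_lit 0) (nat_lit 11622079071) (nat_lit 672) (nat_lit 84231734462) (nat_lit 84) (nat_lit 18695120384) (nat_lit 79) (nat_lit 5) (nat_lit 87) (nat_lit 5) (nat_lit 80) (nat_lit 5) (nat_lit 405) (nat_lit 384) (nat_lit 72)) (XT.nd (nat_lit 94) (nat_lit 0) (nat_lit 0) (XT.lf (nat_lit 0) (nat_lit 17591973911) (nat_lit 672) (nat_lit 44405790324) (nat_lit 84) (nat_lit 54699326912) (nat_lit 79) (nat_lit 5) (nat_lit 87) (nat_lit 5) (nat_lit 80) (nat_lit 5) (nat_lit 406) (nat_lit 384) (nat_lit 71)) (XT.lf (nat_lit 0) (nat_lit 23746751639) (nat_lit 672) (nat_lit 3345406806) (nat_lit 84) (nat_lit 91819689447) (nat_lit 79) (nat_lit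 5) (nat_lit 87) (nat_lit 5) (nat_lit 80) (nat_lit 5) (nat_lit 407) (nat_lit 384) (nat_lit 70)))) (XT.nd (nat_lit 94) (nat_lit 504) (nat_lit 0) (XT.lf (nat_lit 0) (nat_lit 30579146347) (nat_lit 588) (nat_lit 81485958711) (nat_lit 84) (nat_lit 9115066564) (nat_lit 73) (nat_lit 5) (nat_lit 80) (nat_lit 5) (nat_lit 74) (nat_lit 5) (nat_lit 408) (nat_lit 384) (nat_lit 69)) (XT.nd (nat_lit 94) (nat_lit 504) (nat_lit 0) (XT.lf (nat_lit 0) (nat_lit 37935536297) (nat_lit 588) (nat_lit 39656360145) (nat_lit 84) (nat_lit 45917239910) (nat_lit 73) (nat_lit 5) (nat_lit 80) (nat_lit 5) (nat_lit 74) (nat_lit 5) (nat_lit 409) (nat_lit 384) (nat_lit 68)) (XT.lf (nat_lit 0) (nat_lit 3541142289) (nat_lit 504) (nat_lit 42013791488) (nat_lit 588) (nat_lit 80354282328) (nat_lit 67) (nat_lit 5) (nat_lit 73) (nat_lit 5) (nat_lit 74) (nat_lit 5) (nat_lit 410) (nat_lit 384) (nat_lit 67))))) (XT.nd (nat_lit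 282) (nat_lit 0) (nat_lit 84) (XT.nd (nat_lit 94) (nat_lit 0) (nat_lit 0) (XT.lf (nat_lit 0) (nat_lit 23739768168) (nat_lit 1092) (nat_lit 8831824161) (nat_lit 1092) (nat_lit 8831824161) (nat_lit 93) (nat_lit 3) (nat_lit 106) (nat_lit 3) (nat_lit 106) (nat_lit 5) (nat_lit 385) (nat_lit 385) (nat_lit 91)) (XT.nd (nat_lit 94) (nat_lit 0) (nat_lit 0) (XT.lf (nat_lit 84) (nat_lit 11431850044) (nat_lit 0) (nat_lit 36904780168) (nat_lit 1092) (nat_lit 35749909689) (nat_lit 94) (nat_lit 5) (nat_lit 93) (nat_lit 3) (nat_lit 106) (nat_lit 5) (nat_lit 386) (nat_lit 385) (nat_lit 90)) (XT.lf (nat_lit 84) (nat_lit 41803603623) (nat_lit 0) (nat_lit 7600748478) (nat_lit 1092) (nat_lit 35995861568) (nat_lit 94) (nat_lit 5) (nat_lit 93) (nat_lit 3) (nat_lit 106) (nat_lit 5) (nat_lit 387) (nat_lit 385) (nat_lit 89)))) (XT.nd (nat_lit 188) (nat_lit 0) (nat_lit 0) (XT.nd (nat_lit 94) (nat_lit 0) (nat_lit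 0) (XT.lf (nat_lit 0) (nat_lit 50729181031) (nat_lit 1008) (nat_lit 13862213596) (nat_lit 1092) (nat_lit 22156274139) (nat_lit 94) (nat_lit 5) (nat_lit 106) (nat_lit 5) (nat_lit 107) (nat_lit 5) (nat_lit 388) (nat_lit 385) (nat_lit 88)) (XT.lf (nat_lit 84) (nat_lit 17059759817) (nat_lit 0) (nat_lit 35281998385) (nat_lit 1092) (nat_lit 35787491365) (nat_lit 95) (nat_lit 5) (nat_lit 94) (nat_lit 5) (nat_lit 107) (nat_lit 5) (nat_lit 389) (nat_lit 385) (nat_lit 87))) (XT.nd (nat_lit 94) (nat_lit 0) (nat_lit 84) (XT.lf (nat_lit 84) (nat_lit 49234020057) (nat_lit 0) (nat_lit 4914711323) (nat_lit 1092) (nat_lit 35400452983) (nat_lit 95) (nat_lit 5) (nat_lit 94) (nat_lit 5) (nat_lit 107) (nat_lit 5) (nat_lit 390) (nat_lit 385) (nat_lit 86)) (XT.lf (nat_lit 0) (nat_lit 56273274923) (nat_lit 1008) (nat_lit 8869458469) (nat_lit 1092) (nat_lit 25862297100) (nat_lit 95) (nat_lit 5) (nat_lit 107)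 (nat_lit 5) (nat_lit 108) (nat_lit 5) (nat_lit 391) (nat_lit 385) (nat_lit 85))))))))
noncomputable def xc246 : XT := (XT.nd (nat_lit 53862) (nat_lit 0) (nat_lit 504) (XT.nd (nat_lit 1128) (nat_lit 1680) (nat_lit 0) (XT.nd (nat_lit 564) (nat_lit 672) (nat_lit 0) (XT.nd (nat_lit 282) (nat_lit 0) (nat_lit 84) (XT.nd (nat_lit 94) (nat_lit 0) (nat_lit 0) (XT.lf (nat_lit 84) (nat_lit 23983852342) (nat_lit 0) (nat_lit 34767746855) (nat_lit 1092) (nat_lit 33745484624) (nat_lit 96) (nat_lit 5) (nat_lit 95) (nat_lit 5) (nat_lit 108) (nat_lit 5) (nat_lit 392) (nat_lit 385) (nat_lit 84)) (XT.nd (nat_lit 94) (nat_lit 0) (nat_lit 84) (XT.lf (nat_lit 84) (nat_lit 58043478194) (nat_lit 0) (nat_lit 3355589890) (nat_lit 1092) (nat_lit 32633462349) (nat_lit 96) (nat_lit 5) (nat_lit 95) (nat_lit 5) (nat_lit 108) (nat_lit 5) (nat_lit 393) (nat_lit 385) (nat_lit 83)) (XT.lf (nat_lit 0) (nat_lit 64416339540)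 (nat_lit 1008) (nat_lit 2744778750) (nat_lit 1092) (nat_lit 28445539337) (nat_lit 96) (nat_lit 5) (nat_lit 108) (nat_lit 5) (nat_lit 109) (nat_lit 5) (nat_lit 394) (nat_lit 385) (nat_lit 82)))) (XT.nd (nat_lit 94) (nat_lit 0) (nat_lit 0) (XT.lf (nat_lit 84) (nat_lit 32143195616) (nat_lit 0) (nat_lit 35736889117) (nat_lit 1092) (nat_lit 29338558302) (nat_lit 97) (nat_lit 5) (nat_lit 96) (nat_lit 5) (nat_lit 109) (nat_lit 5) (nat_lit 395) (nat_lit 385) (nat_lit 81)) (XT.nd (nat_lit 94) (nat_lit 0) (nat_lit 84) (XT.lf (nat_lit 84) (nat_lit 68170721163) (nat_lit 0) (nat_lit 3308894544) (nat_lit 1092) (nat_lit 27400104897) (nat_lit 97) (nat_lit 5) (nat_lit 96) (nat_lit 5) (nat_lit 109) (nat_lit 5) (nat_lit 396) (nat_lit 385) (nat_lit 80)) (XT.lf (nat_lit 84) (nat_lit 4514765224) (nat_lit 0) (nat_lit 71019359182) (nat_lit 1092) (nat_lit 25047523289) (nat_lit 98) (nat_lit 5) (nat_lit 97)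 (nat_lit 5) (nat_lit 110) (nat_lit 5) (nat_lit 397) (nat_lit 385) (nat_lit 79))))) (XT.nd (nat_lit 282) (nat_lit 840) (nat_lit 0) (XT.nd (nat_lit 94) (nat_lit 0) (nat_lit 0) (XT.lf (nat_lit 84) (nat_lit 41446776681) (nat_lit 0) (nat_lit 38621357859) (nat_lit 1092) (nat_lit 22257233063) (nat_lit 98) (nat_lit 5) (nat_lit 97) (nat_lit 5) (nat_lit 110) (nat_lit 5) (nat_lit 398) (nat_lit 385) (nat_lit 78)) (XT.nd (nat_lit 94) (nat_lit 0) (nat_lit 84) (XT.lf (nat_lit 84) (nat_lit 79523519004) (nat_lit 0) (nat_lit 5218959913) (nat_lit 1092) (nat_lit 19380671935) (nat_lit 98) (nat_lit 5) (nat_lit 97) (nat_lit 5) (nat_lit 110) (nat_lit 5) (nat_lit 399) (nat_lit 385) (nat_lit 77)) (XT.lf (nat_lit 84) (nat_lit 12771267327) (nat_lit 0) (nat_lit 77206795533) (nat_lit 1092) (nat_lit 15985697304) (nat_lit 99) (nat_lit 5) (nat_lit 98) (nat_lit 5) (nat_lit 111) (nat_lit 5) (nat_lit 400) (nat_lit 385)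 (nat_lit 76)))) (XT.nd (nat_lit 94) (nat_lit 924) (nat_lit 0) (XT.lf (nat_lit 84) (nat_lit 51767525101) (nat_lit 0) (nat_lit 43917823683) (nat_lit 1092) (nat_lit 12166489347) (nat_lit 99) (nat_lit 5) (nat_lit 98) (nat_lit 5) (nat_lit 111) (nat_lit 5) (nat_lit 401) (nat_lit 385) (nat_lit 75)) (XT.nd (nat_lit 94) (nat_lit 924) (nat_lit 0) (XT.lf (nat_lit 84) (nat_lit 91972508468) (nat_lit 0) (nat_lit 9596850250) (nat_lit 1092) (nat_lit 8229095148) (nat_lit 99) (nat_lit 5) (nat_lit 98) (nat_lit 5) (nat_lit 111) (nat_lit 5) (nat_lit 402) (nat_lit 385) (nat_lit 74)) (XT.lf (nat_lit 0) (nat_lit 21801705338) (nat_lit 1008) (nat_lit 86305968755) (nat_lit 1092) (nat_lit 3683112725) (nat_lit 87) (nat_lit 5) (nat_lit 99) (nat_lit 5) (nat_lit 100) (nat_lit 5) (nat_lit 403) (nat_lit 385) (nat_lit 73)))))) (XT.nd (nat_lit 564) (nat_lit 504) (nat_lit 0) (XT.nd (nat_lit 282) (nat_lit 504) (nat_lit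 0) (XT.nd (nat_lit 94) (nat_lit 588) (nat_lit 0) (XT.lf (nat_lit 0) (nat_lit 1269499413) (nat_lit 1092) (nat_lit 50913578651) (nat_lit 84) (nat_lit 61652632554) (nat_lit 86) (nat_lit 5) (nat_lit 99) (nat_lit 5) (nat_lit 87) (nat_lit 5) (nat_lit 404) (nat_lit 385) (nat_lit 72)) (XT.nd (nat_lit 94) (nat_lit 588) (nat_lit 0) (XT.lf (nat_lit 0) (nat_lit 6298947410) (nat_lit 1092) (nat_lit 10664564408) (nat_lit 84) (nat_lit 98979354284) (nat_lit 86) (nat_lit 5) (nat_lit 99) (nat_lit 5) (nat_lit 87) (nat_lit 5) (nat_lit 405) (nat_lit 385) (nat_lit 71)) (XT.lf (nat_lit 0) (nat_lit 11991398182) (nat_lit 672) (nat_lit 86834815512) (nat_lit 84) (nat_lit 19273410867) (nat_lit 79) (nat_lit 5) (nat_lit 87) (nat_lit 5) (nat_lit 80) (nat_lit 5) (nat_lit 406) (nat_lit 385) (nat_lit 70)))) (XT.nd (nat_lit 94) (nat_lit 504) (nat_lit 0) (XT.lf (nat_lit 0) (nat_lit 18146088109) (nat_lit 672) (nat_lit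 45774510737) (nat_lit 84) (nat_lit 56393785630) (nat_lit 79) (nat_lit 5) (nat_lit 87) (nat_lit 5) (nat_lit 80) (nat_lit 5) (nat_lit 407) (nat_lit 385) (nat_lit 69)) (XT.nd (nat_lit 94) (nat_lit 504) (nat_lit 0) (XT.lf (nat_lit 0) (nat_lit 24491400461) (nat_lit 672) (nat_lit 3441491636) (nat_lit 84) (nat_lit 94664916099) (nat_lit 79) (nat_lit 5) (nat_lit 87) (nat_lit 5) (nat_lit 80) (nat_lit 5) (nat_lit 408) (nat_lit 385) (nat_lit 68)) (XT.lf (nat_lit 0) (nat_lit 31535411026) (nat_lit 588) (nat_lit 84004170082) (nat_lit 84) (nat_lit 9396876001) (nat_lit 73) (nat_lit 5) (nat_lit 80) (nat_lit 5) (nat_lit 74) (nat_lit 5) (nat_lit 409) (nat_lit 385) (nat_lit 67))))) (XT.nd (nat_lit 51888) (nat_lit 0) (nat_lit 2184) (XT.nd (nat_lit 94) (nat_lit 504) (nat_lit 0) (XT.lf (nat_lit 0) (nat_lit 39119599166) (nat_lit 588) (nat_lit 40878090094) (nat_lit 84) (nat_lit 47339939501) (nat_lit 73) (nat_lit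 5) (nat_lit 80) (nat_lit 5) (nat_lit 74) (nat_lit 5) (nat_lit 410) (nat_lit 385) (nat_lit 66)) (XT.nd (nat_lit 51700) (nat_lit 0) (nat_lit 2184) (XT.lf (nat_lit 0) (nat_lit 3658457797) (nat_lit 504) (nat_lit 43316572584) (nat_lit 588) (nat_lit 82837087031) (nat_lit 67) (nat_lit 5) (nat_lit 73) (nat_lit 5) (nat_lit 74) (nat_lit 5) (nat_lit 411) (nat_lit 385) (nat_lit 65)) (XT.lf (nat_lit 0) (nat_lit 24483379739) (nat_lit 1092) (nat_lit 9101631025) (nat_lit 1092) (nat_lit 9101631025) (nat_lit 93) (nat_lit 3) (nat_lit 106) (nat_lit 3) (nat_lit 106) (nat_lit 5) (nat_lit 386) (nat_lit 386) (nat_lit 89)))) (XT.nd (nat_lit 94) (nat_lit 0) (nat_lit 0) (XT.lf (nat_lit 84) (nat_lit 11794116184) (nat_lit 0) (nat_lit 38055923472) (nat_lit 1092) (nat_lit 36842636212) (nat_lit 94) (nat_lit 5) (nat_lit 93) (nat_lit 3) (nat_lit 106) (nat_lit 5) (nat_lit 387) (nat_lit 386) (nat_lit 88)) (XT.nd (nat_lit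 94) (nat_lit 0) (nat_lit 84) (XT.lf (nat_lit 84) (nat_lit 43107157224) (nat_lit 0) (nat_lit 7843253464) (nat_lit 1092) (nat_lit 37096679273) (nat_lit 94) (nat_lit 5) (nat_lit 93) (nat_lit 3) (nat_lit 106) (nat_lit 5) (nat_lit 388) (nat_lit 386) (nat_lit 87)) (XT.lf (nat_lit 0) (nat_lit 52315806404) (nat_lit 1008) (nat_lit 14283949503) (nat_lit 1092) (nat_lit 22836578259) (nat_lit 94) (nat_lit 5) (nat_lit 106) (nat_lit 5) (nat_lit 107) (nat_lit 5) (nat_lit 389) (nat_lit 386) (nat_lit 86))))))) (XT.nd (nat_lit 1128) (nat_lit 1764) (nat_lit 0) (XT.nd (nat_lit 564) (nat_lit 0) (nat_lit 168) (XT.nd (nat_lit 282) (nat_lit 0) (nat_lit 84) (XT.nd (nat_lit 94) (nat_lit 0) (nat_lit 0) (XT.lf (nat_lit 84) (nat_lit 17596524167) (nat_lit 0) (nat_lit 36381506211) (nat_lit 1092) (nat_lit 36882726564) (nat_lit 95) (nat_lit 5) (nat_lit 94) (nat_lit 5) (nat_lit 107) (nat_lit 5) (nat_lit 390) (nat_lit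 386) (nat_lit 85)) (XT.nd (nat_lit 94) (nat_lit 0) (nat_lit 84) (XT.lf (nat_lit 84) (nat_lit 50767948584) (nat_lit 0) (nat_lit 5072659882) (nat_lit 1092) (nat_lit 36484116266) (nat_lit 95) (nat_lit 5) (nat_lit 94) (nat_lit 5) (nat_lit 107) (nat_lit 5) (nat_lit 391) (nat_lit 386) (nat_lit 84)) (XT.lf (nat_lit 0) (nat_lit 58030560156) (nat_lit 1008) (nat_lit 9136444922) (nat_lit 1092) (nat_lit 26658713245) (nat_lit 95) (nat_lit 5) (nat_lit 107) (nat_lit 5) (nat_lit 108) (nat_lit 5) (nat_lit 392) (nat_lit 386) (nat_lit 83)))) (XT.nd (nat_lit 94) (nat_lit 0) (nat_lit 0) (XT.lf (nat_lit 84) (nat_lit 24735237868) (nat_lit 0) (nat_lit 35850167564) (nat_lit 1092) (nat_lit 34778631523) (nat_lit 96) (nat_lit 5) (nat_lit 95) (nat_lit 5) (nat_lit 108) (nat_lit 5) (nat_lit 393) (nat_lit 386) (nat_lit 82)) (XT.nd (nat_lit 94) (nat_lit 0) (nat_lit 84) (XT.lf (nat_lit 84) (nat_lit 59850475003) (nat_lit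 0) (nat_lit 3464094803) (nat_lit 1092) (nat_lit 33632526331) (nat_lit 96) (nat_lit 5) (nat_lit 95) (nat_lit 5) (nat_lit 108) (nat_lit 5) (nat_lit 394) (nat_lit 386) (nat_lit 81)) (XT.lf (nat_lit 0) (nat_lit 66424968813) (nat_lit 1008) (nat_lit 2821975347) (nat_lit 1092) (nat_lit 29323091763) (nat_lit 96) (nat_lit 5) (nat_lit 108) (nat_lit 5) (nat_lit 109) (nat_lit 5) (nat_lit 395) (nat_lit 386) (nat_lit 80))))) (XT.nd (nat_lit 282) (nat_lit 0) (nat_lit 84) (XT.nd (nat_lit 94) (nat_lit 0) (nat_lit 0) (XT.lf (nat_lit 84) (nat_lit 33147446330) (nat_lit 0) (nat_lit 36848368791) (nat_lit 1092) (nat_lit 30236188226) (nat_lit 97) (nat_lit 5) (nat_lit 96) (nat_lit 5) (nat_lit 109) (nat_lit 5) (nat_lit 396) (nat_lit 386) (nat_lit 79)) (XT.nd (nat_lit 94) (nat_lit 0) (nat_lit 84) (XT.lf (nat_lit 84) (nat_lit 70291590289) (nat_lit 0) (nat_lit 3414997056) (nat_lit 1092) (nat_lit 28237999533) (nat_lit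 97) (nat_lit 5) (nat_lit 96) (nat_lit 5) (nat_lit 109) (nat_lit 5) (nat_lit 397) (nat_lit 386) (nat_lit 78)) (XT.lf (nat_lit 84) (nat_lit 4662658604) (nat_lit 0) (nat_lit 73223838139) (nat_lit 1092) (nat_lit 25812787758) (nat_lit 98) (nat_lit 5) (nat_lit 97) (nat_lit 5) (nat_lit 110) (nat_lit 5) (nat_lit 398) (nat_lit 386) (nat_lit 77)))) (XT.nd (nat_lit 94) (nat_lit 0) (nat_lit 0) (XT.lf (nat_lit 84) (nat_lit 42739323806) (nat_lit 0) (nat_lit 39821412215) (nat_lit 1092) (nat_lit 22936335559) (nat_lit 98) (nat_lit 5) (nat_lit 97) (nat_lit 5) (nat_lit 110) (nat_lit 5) (nat_lit 399) (nat_lit 386) (nat_lit 76)) (XT.nd (nat_lit 94) (nat_lit 0) (nat_lit 84) (XT.lf (nat_lit 84) (nat_lit 81996213708) (nat_lit 0) (nat_lit 5383455974) (nat_lit 1092) (nat_lit 19970927926) (nat_lit 98) (nat_lit 5) (nat_lit 97) (nat_lit 5) (nat_lit 110) (nat_lit 5) (nat_lit 400) (nat_lit 386) (nat_lit 75)) (XT.lf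 (nat_lit 84) (nat_lit 13174960405) (nat_lit 0) (nat_lit 79602341572) (nat_lit 1092) (nat_lit 16470973399) (nat_lit 99) (nat_lit 5) (nat_lit 98) (nat_lit 5) (nat_lit 111) (nat_lit 5) (nat_lit 401) (nat_lit 386) (nat_lit 74)))))) (XT.nd (nat_lit 564) (nat_lit 504) (nat_lit 0) (XT.nd (nat_lit 282) (nat_lit 672) (nat_lit 0) (XT.nd (nat_lit 94) (nat_lit 924) (nat_lit 0) (XT.lf (nat_lit 84) (nat_lit 53379868128) (nat_lit 0) (nat_lit 45281347387) (nat_lit 1092) (nat_lit 12533679109) (nat_lit 99) (nat_lit 5) (nat_lit 98) (nat_lit 5) (nat_lit 111) (nat_lit 5) (nat_lit 402) (nat_lit 386) (nat_lit 73)) (XT.nd (nat_lit 94) (nat_lit 924) (nat_lit 0) (XT.lf (nat_lit 84) (nat_lit 94830978974) (nat_lit 0) (nat_lit 9896361503) (nat_lit 1092) (nat_lit 8474525509) (nat_lit 99) (nat_lit 5) (nat_lit 98) (nat_lit 5) (nat_lit 111) (nat_lit 5) (nat_lit 403) (nat_lit 386) (nat_lit 72)) (XT.lf (nat_lit 0) (nat_lit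 22485163046) (nat_lit 1008) (nat_lit 88982956112) (nat_lit 1092) (nat_lit 3787850584) (nat_lit 87) (nat_lit 5) (nat_lit 99) (nat_lit 5) (nat_lit 100) (nat_lit 5) (nat_lit 404) (nat_lit 386) (nat_lit 71)))) (XT.nd (nat_lit 94) (nat_lit 588) (nat_lit 0) (XT.lf (nat_lit 0) (nat_lit 1317824280) (nat_lit 1092) (nat_lit 52484292725) (nat_lit 84) (nat_lit 63562176326) (nat_lit 86) (nat_lit 5) (nat_lit 99) (nat_lit 5) (nat_lit 87) (nat_lit 5) (nat_lit 405) (nat_lit 386) (nat_lit 70)) (XT.nd (nat_lit 94) (nat_lit 588) (nat_lit 0) (XT.lf (nat_lit 0) (nat_lit 6502915445) (nat_lit 1092) (nat_lit 10987787763) (nat_lit 84) (nat_lit 102046077179) (nat_lit 86) (nat_lit 5) (nat_lit 99) (nat_lit 5) (nat_lit 87) (nat_lit 5) (nat_lit 406) (nat_lit 386) (nat_lit 69)) (XT.lf (nat_lit 0) (nat_lit 12371631047) (nat_lit 672) (nat_lit 89519072011) (nat_lit 84) (nat_lit 19869702883) (nat_lit 79) (nat_lit 5)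 (nat_lit 87) (nat_lit 5) (nat_lit 80) (nat_lit 5) (nat_lit 407) (nat_lit 386) (nat_lit 68))))) (XT.nd (nat_lit 282) (nat_lit 0) (nat_lit 0) (XT.nd (nat_lit 94) (nat_lit 504) (nat_lit 0) (XT.lf (nat_lit 0) (nat_lit 18716860799) (nat_lit 672) (nat_lit 47186126990) (nat_lit 84) (nat_lit 58140844855) (nat_lit 79) (nat_lit 5) (nat_lit 87) (nat_lit 5) (nat_lit 80) (nat_lit 5) (nat_lit 408) (nat_lit 386) (nat_lit 67)) (XT.nd (nat_lit 94) (nat_lit 504) (nat_lit 0) (XT.lf (nat_lit 0) (nat_lit 25258629955) (nat_lit 672) (nat_lit 3541006606) (nat_lit 84) (nat_lit 97598414890) (nat_lit 79) (nat_lit 5) (nat_lit 87) (nat_lit 5) (nat_lit 80) (nat_lit 5) (nat_lit 409) (nat_lit 386) (nat_lit 66)) (XT.lf (nat_lit 0) (nat_lit 32520827626) (nat_lit 588) (nat_lit 86600911174) (nat_lit 84) (nat_lit 9687466406) (nat_lit 73) (nat_lit 5) (nat_lit 80) (nat_lit 5) (nat_lit 74) (nat_lit 5) (nat_lit 410) (nat_lit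 386) (nat_lit 65)))) (XT.nd (nat_lit 51888) (nat_lit 0) (nat_lit 1680) (XT.nd (nat_lit 51794) (nat_lit 0) (nat_lit 1680) (XT.lf (nat_lit 0) (nat_lit 40339890502) (nat_lit 588) (nat_lit 42138144853) (nat_lit 84) (nat_lit 48806786305) (nat_lit 73) (nat_lit 5) (nat_lit 80) (nat_lit 5) (nat_lit 74) (nat_lit 5) (nat_lit 411) (nat_lit 386) (nat_lit 64)) (XT.lf (nat_lit 0) (nat_lit 25249588443) (nat_lit 1092) (nat_lit 9380037625) (nat_lit 1092) (nat_lit 9380037625) (nat_lit 93) (nat_lit 3) (nat_lit 106) (nat_lit 3) (nat_lit 106) (nat_lit 5) (nat_lit 387) (nat_lit 387) (nat_lit 87))) (XT.nd (nat_lit 94) (nat_lit 0) (nat_lit 0) (XT.lf (nat_lit 84) (nat_lit 12167145900) (nat_lit 0) (nat_lit 39242331961) (nat_lit 1092) (nat_lit 37970156573) (nat_lit 94) (nat_lit 5) (nat_lit 93) (nat_lit 3) (nat_lit 106) (nat_lit 5) (nat_lit 388) (nat_lit 387) (nat_lit 86)) (XT.lf (nat_lit 84) (nat_lit 44450668346)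 (nat_lit 0) (nat_lit 8092868484) (nat_lit 1092) (nat_lit 38232514002) (nat_lit 94) (nat_lit 5) (nat_lit 93) (nat_lit 3) (nat_lit 106) (nat_lit 5) (nat_lit 389) (nat_lit 387) (nat_lit 85))))))))
noncomputable def xc247 : XT := (XT.nd (nat_lit 53956) (nat_lit 0) (nat_lit 0) (XT.nd (nat_lit 1128) (nat_lit 1764) (nat_lit 0) (XT.nd (nat_lit 564) (nat_lit 0) (nat_lit 168) (XT.nd (nat_lit 282) (nat_lit 0) (nat_lit 84) (XT.nd (nat_lit 94) (nat_lit 0) (nat_lit 0) (XT.lf (nat_lit 0) (nat_lit 53950786689) (nat_lit 1008) (nat_lit 14719232645) (nat_lit 1092) (nat_lit 23538359204) (nat_lit 94) (nat_lit 5) (nat_lit 106) (nat_lit 5) (nat_lit 107) (nat_lit 5) (nat_lit 390) (nat_lit 387) (nat_lit 84)) (XT.nd (nat_lit 94) (nat_lit 0) (nat_lit 0) (XT.lf (nat_lit 84) (nat_lit 18149459582) (nat_lit 0) (nat_lit 37514757257) (nat_lit 1092) (nat_lit 38012753785) (nat_lit 95) (nat_lit 5) (nat_lit 94) (nat_lit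 5) (nat_lit 107) (nat_lit 5) (nat_lit 391) (nat_lit 387) (nat_lit 83)) (XT.lf (nat_lit 84) (nat_lit 52348974356) (nat_lit 0) (nat_lit 5235173594) (nat_lit 1092) (nat_lit 37602187592) (nat_lit 95) (nat_lit 5) (nat_lit 94) (nat_lit 5) (nat_lit 107) (nat_lit 5) (nat_lit 392) (nat_lit 387) (nat_lit 82)))) (XT.nd (nat_lit 94) (nat_lit 0) (nat_lit 0) (XT.lf (nat_lit 0) (nat_lit 59841562252) (nat_lit 1008) (nat_lit 9412179839) (nat_lit 1092) (nat_lit 27480133111) (nat_lit 95) (nat_lit 5) (nat_lit 107) (nat_lit 5) (nat_lit 108) (nat_lit 5) (nat_lit 393) (nat_lit 387) (nat_lit 81)) (XT.nd (nat_lit 94) (nat_lit 0) (nat_lit 0) (XT.lf (nat_lit 84) (nat_lit 25509449238) (nat_lit 0) (nat_lit 36965869631) (nat_lit 1092) (nat_lit 35844573804) (nat_lit 96) (nat_lit 5) (nat_lit 95) (nat_lit 5) (nat_lit 108) (nat_lit 5) (nat_lit 394) (nat_lit 387) (nat_lit 80)) (XT.lf (nat_lit 84) (nat_lit 61713035650)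 (nat_lit 0) (nat_lit 3575697913) (nat_lit 1092) (nat_lit 34663306038) (nat_lit 96) (nat_lit 5) (nat_lit 95) (nat_lit 5) (nat_lit 108) (nat_lit 5) (nat_lit 395) (nat_lit 387) (nat_lit 79))))) (XT.nd (nat_lit 282) (nat_lit 0) (nat_lit 84) (XT.nd (nat_lit 94) (nat_lit 0) (nat_lit 0) (XT.lf (nat_lit 0) (nat_lit 68495171235) (nat_lit 1008) (nat_lit 2902032467) (nat_lit 1092) (nat_lit 30228100600) (nat_lit 96) (nat_lit 5) (nat_lit 108) (nat_lit 5) (nat_lit 109) (nat_lit 5) (nat_lit 396) (nat_lit 387) (nat_lit 78)) (XT.nd (nat_lit 94) (nat_lit 0) (nat_lit 0) (XT.lf (nat_lit 84) (nat_lit 34182366118) (nat_lit 0) (nat_lit 37994088962) (nat_lit 1092) (nat_lit 31162347486) (nat_lit 97) (nat_lit 5) (nat_lit 96) (nat_lit 5) (nat_lit 109) (nat_lit 5) (nat_lit 397) (nat_lit 387) (nat_lit 77)) (XT.lf (nat_lit 84) (nat_lit 72477757573) (nat_lit 0) (nat_lit 3524179849) (nat_lit 1092) (nat_lit 29102550578)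 (nat_lit 97) (nat_lit 5) (nat_lit 96) (nat_lit 5) (nat_lit 109) (nat_lit 5) (nat_lit 398) (nat_lit 387) (nat_lit 76)))) (XT.nd (nat_lit 94) (nat_lit 0) (nat_lit 0) (XT.lf (nat_lit 84) (nat_lit 4814666635) (nat_lit 0) (nat_lit 75496485426) (nat_lit 1092) (nat_lit 26602439339) (nat_lit 98) (nat_lit 5) (nat_lit 97) (nat_lit 5) (nat_lit 110) (nat_lit 5) (nat_lit 399) (nat_lit 387) (nat_lit 75)) (XT.nd (nat_lit 94) (nat_lit 0) (nat_lit 0) (XT.lf (nat_lit 84) (nat_lit 44071483984) (nat_lit 0) (nat_lit 41058502865) (nat_lit 1092) (nat_lit 23637134183) (nat_lit 98) (nat_lit 5) (nat_lit 97) (nat_lit 5) (nat_lit 110) (nat_lit 5) (nat_lit 400) (nat_lit 387) (nat_lit 74)) (XT.lf (nat_lit 84) (nat_lit 84545119747) (nat_lit 0) (nat_lit 5552890997) (nat_lit 1092) (nat_lit 20580106441) (nat_lit 98) (nat_lit 5) (nat_lit 97) (nat_lit 5) (nat_lit 110) (nat_lit 5) (nat_lit 401) (nat_lit 387) (nat_lit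 73)))))) (XT.nd (nat_lit 564) (nat_lit 1092) (nat_lit 0) (XT.nd (nat_lit 282) (nat_lit 1008) (nat_lit 0) (XT.nd (nat_lit 94) (nat_lit 0) (nat_lit 0) (XT.lf (nat_lit 84) (nat_lit 13590706922) (nat_lit 0) (nat_lit 82072023056) (nat_lit 1092) (nat_lit 16971901986) (nat_lit 99) (nat_lit 5) (nat_lit 98) (nat_lit 5) (nat_lit 111) (nat_lit 5) (nat_lit 402) (nat_lit 387) (nat_lit 72)) (XT.nd (nat_lit 94) (nat_lit 0) (nat_lit 0) (XT.lf (nat_lit 84) (nat_lit 55041746604) (nat_lit 0) (nat_lit 46687017648) (nat_lit 1092) (nat_lit 12912842377) (nat_lit 99) (nat_lit 5) (nat_lit 98) (nat_lit 5) (nat_lit 111) (nat_lit 5) (nat_lit 403) (nat_lit 387) (nat_lit 71)) (XT.lf (nat_lit 84) (nat_lit 97777628328) (nat_lit 0) (nat_lit 10205038614) (nat_lit 1092) (nat_lit 8728137077) (nat_lit 99) (nat_lit 5) (nat_lit 98) (nat_lit 5) (nat_lit 111) (nat_lit 5) (nat_lit 404) (nat_lit 387) (nat_lit 70)))) (XT.nd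 (nat_lit 94) (nat_lit 84) (nat_lit 0) (XT.lf (nat_lit 0) (nat_lit 23189357495) (nat_lit 1008) (nat_lit 91742841092) (nat_lit 1092) (nat_lit 3896394384) (nat_lit 87) (nat_lit 5) (nat_lit 99) (nat_lit 5) (nat_lit 100) (nat_lit 5) (nat_lit 405) (nat_lit 387) (nat_lit 69)) (XT.nd (nat_lit 94) (nat_lit 0) (nat_lit 0) (XT.lf (nat_lit 0) (nat_lit 1367115888) (nat_lit 1092) (nat_lit 54104149503) (nat_lit 84) (nat_lit 65531015928) (nat_lit 86) (nat_lit 5) (nat_lit 99) (nat_lit 5) (nat_lit 87) (nat_lit 5) (nat_lit 406) (nat_lit 387) (nat_lit 68)) (XT.lf (nat_lit 0) (nat_lit 6712691133) (nat_lit 1092) (nat_lit 11321468062) (nat_lit 84) (nat_lit 105207965451) (nat_lit 86) (nat_lit 5) (nat_lit 99) (nat_lit 5) (nat_lit 87) (nat_lit 5) (nat_lit 407) (nat_lit 387) (nat_lit 67))))) (XT.nd (nat_lit 282) (nat_lit 504) (nat_lit 0) (XT.nd (nat_lit 94) (nat_lit 0) (nat_lit 0) (XT.lf (nat_lit 0) (nat_lit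 12763147690) (nat_lit 672) (nat_lit 92286991973) (nat_lit 84) (nat_lit 20484550065) (nat_lit 79) (nat_lit 5) (nat_lit 87) (nat_lit 5) (nat_lit 80) (nat_lit 5) (nat_lit 408) (nat_lit 387) (nat_lit 66)) (XT.nd (nat_lit 94) (nat_lit 0) (nat_lit 0) (XT.lf (nat_lit 0) (nat_lit 19304839138) (nat_lit 672) (nat_lit 48641941281) (nat_lit 84) (nat_lit 59942130922) (nat_lit 79) (nat_lit 5) (nat_lit 87) (nat_lit 5) (nat_lit 80) (nat_lit 5) (nat_lit 409) (nat_lit 387) (nat_lit 65)) (XT.lf (nat_lit 0) (nat_lit 26049169943) (nat_lit 672) (nat_lit 3644031307) (nat_lit 84) (nat_lit 100622918106) (nat_lit 79) (nat_lit 5) (nat_lit 87) (nat_lit 5) (nat_lit 80) (nat_lit 5) (nat_lit 410) (nat_lit 387) (nat_lit 64)))) (XT.nd (nat_lit 94) (nat_lit 0) (nat_lit 0) (XT.lf (nat_lit 0) (nat_lit 33536329017) (nat_lit 588) (nat_lit 89278588854) (nat_lit 84) (nat_lit 9987107331) (nat_lit 73) (nat_lit 5) (nat_lit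 80) (nat_lit 5) (nat_lit 74) (nat_lit 5) (nat_lit 411) (nat_lit 387) (nat_lit 63)) (XT.nd (nat_lit 51794) (nat_lit 0) (nat_lit 1680) (XT.lf (nat_lit 0) (nat_lit 41597561670) (nat_lit 588) (nat_lit 43437685766) (nat_lit 84) (nat_lit 50319146309) (nat_lit 73) (nat_lit 5) (nat_lit 80) (nat_lit 5) (nat_lit 74) (nat_lit 5) (nat_lit 412) (nat_lit 387) (nat_lit 62)) (XT.lf (nat_lit 0) (nat_lit 26039121731) (nat_lit 1092) (nat_lit 9667296592) (nat_lit 1092) (nat_lit 9667296592) (nat_lit 93) (nat_lit 3) (nat_lit 106) (nat_lit 3) (nat_lit 106) (nat_lit 5) (nat_lit 388) (nat_lit 388) (nat_lit 85))))))) (XT.nd (nat_lit 1128) (nat_lit 1680) (nat_lit 0) (XT.nd (nat_lit 564) (nat_lit 0) (nat_lit 168) (XT.nd (nat_lit 282) (nat_lit 0) (nat_lit 84) (XT.nd (nat_lit 94) (nat_lit 0) (nat_lit 0) (XT.lf (nat_lit 84) (nat_lit 12551300504) (nat_lit 0) (nat_lit 40465123751) (nat_lit 1092) (nat_lit 39133494929)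 (nat_lit 94) (nat_lit 5) (nat_lit 93) (nat_lit 3) (nat_lit 106) (nat_lit 5) (nat_lit 389) (nat_lit 388) (nat_lit 84)) (XT.nd (nat_lit 94) (nat_lit 0) (nat_lit 84) (XT.lf (nat_lit 84) (nat_lit 45835402480) (nat_lit 0) (nat_lit 8349838095) (nat_lit 1092) (nat_lit 39404398466) (nat_lit 94) (nat_lit 5) (nat_lit 93) (nat_lit 3) (nat_lit 106) (nat_lit 5) (nat_lit 390) (nat_lit 388) (nat_lit 83)) (XT.lf (nat_lit 0) (nat_lit 55635670081) (nat_lit 1008) (nat_lit 15168454945) (nat_lit 1092) (nat_lit 24262259810) (nat_lit 94) (nat_lit 5) (nat_lit 106) (nat_lit 5) (nat_lit 107) (nat_lit 5) (nat_lit 391) (nat_lit 388) (nat_lit 82)))) (XT.nd (nat_lit 94) (nat_lit 0) (nat_lit 0) (XT.lf (nat_lit 84) (nat_lit 18719095124) (nat_lit 0) (nat_lit 38682817792) (nat_lit 1092) (nat_lit 39178601841) (nat_lit 95) (nat_lit 5) (nat_lit 94) (nat_lit 5) (nat_lit 107) (nat_lit 5) (nat_lit 392) (nat_lit 388) (nat_lit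 81)) (XT.nd (nat_lit 94) (nat_lit 0) (nat_lit 84) (XT.lf (nat_lit 84) (nat_lit 53978584312) (nat_lit 0) (nat_lit 5402413597) (nat_lit 1092) (nat_lit 38755685367) (nat_lit 95) (nat_lit 5) (nat_lit 94) (nat_lit 5) (nat_lit 107) (nat_lit 5) (nat_lit 393) (nat_lit 388) (nat_lit 80)) (XT.lf (nat_lit 0) (nat_lit 61707991392) (nat_lit 1008) (nat_lit 9696906474) (nat_lit 1092) (nat_lit 28327313166) (nat_lit 95) (nat_lit 5) (nat_lit 107) (nat_lit 5) (nat_lit 108) (nat_lit 5) (nat_lit 394) (nat_lit 388) (nat_lit 79))))) (XT.nd (nat_lit 282) (nat_lit 0) (nat_lit 84) (XT.nd (nat_lit 94) (nat_lit 0) (nat_lit 0) (XT.lf (nat_lit 84) (nat_lit 26307221721) (nat_lit 0) (nat_lit 38115900990) (nat_lit 1092) (nat_lit 36944282644) (nat_lit 96) (nat_lit 5) (nat_lit 95) (nat_lit 5) (nat_lit 108) (nat_lit 5) (nat_lit 395) (nat_lit 388) (nat_lit 78)) (XT.nd (nat_lit 94) (nat_lit 0) (nat_lit 84) (XT.lf (nat_lit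 84) (nat_lit 63632909451) (nat_lit 0) (nat_lit 3690510989) (nat_lit 1092) (nat_lit 35726740545) (nat_lit 96) (nat_lit 5) (nat_lit 95) (nat_lit 5) (nat_lit 108) (nat_lit 5) (nat_lit 396) (nat_lit 388) (nat_lit 77)) (XT.lf (nat_lit 0) (nat_lit 70628896702) (nat_lit 1008) (nat_lit 2985011102) (nat_lit 1092) (nat_lit 31161402053) (nat_lit 96) (nat_lit 5) (nat_lit 108) (nat_lit 5) (nat_lit 109) (nat_lit 5) (nat_lit 397) (nat_lit 388) (nat_lit 76)))) (XT.nd (nat_lit 94) (nat_lit 0) (nat_lit 0) (XT.lf (nat_lit 84) (nat_lit 35248933130) (nat_lit 0) (nat_lit 39175123841) (nat_lit 1092) (nat_lit 32117878860) (nat_lit 97) (nat_lit 5) (nat_lit 96) (nat_lit 5) (nat_lit 109) (nat_lit 5) (nat_lit 398) (nat_lit 388) (nat_lit 75)) (XT.nd (nat_lit 94) (nat_lit 0) (nat_lit 84) (XT.lf (nat_lit 84) (nat_lit 74731273840) (nat_lit 0) (nat_lit 3636550784) (nat_lit 1092) (nat_lit 29994544004) (nat_lit 97)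 (nat_lit 5) (nat_lit 96) (nat_lit 5) (nat_lit 109) (nat_lit 5) (nat_lit 399) (nat_lit 388) (nat_lit 74)) (XT.lf (nat_lit 84) (nat_lit 4970944714) (nat_lit 0) (nat_lit 77839424361) (nat_lit 1092) (nat_lit 27417194709) (nat_lit 98) (nat_lit 5) (nat_lit 97) (nat_lit 5) (nat_lit 110) (nat_lit 5) (nat_lit 400) (nat_lit 388) (nat_lit 73)))))) (XT.nd (nat_lit 564) (nat_lit 1176) (nat_lit 0) (XT.nd (nat_lit 282) (nat_lit 840) (nat_lit 0) (XT.nd (nat_lit 94) (nat_lit 0) (nat_lit 0) (XT.lf (nat_lit 84) (nat_lit 45444512222) (nat_lit 0) (nat_lit 42333787732) (nat_lit 1092) (nat_lit 24360263374) (nat_lit 98) (nat_lit 5) (nat_lit 97) (nat_lit 5) (nat_lit 110) (nat_lit 5) (nat_lit 401) (nat_lit 388) (nat_lit 72)) (XT.nd (nat_lit 94) (nat_lit 0) (nat_lit 84) (XT.lf (nat_lit 84) (nat_lit 87172625864) (nat_lit 0) (nat_lit 5727427589) (nat_lit 1092) (nat_lit 21208757084) (nat_lit 98) (nat_lit 5) (nat_lit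 97) (nat_lit 5) (nat_lit 110) (nat_lit 5) (nat_lit 402) (nat_lit 388) (nat_lit 71)) (XT.lf (nat_lit 84) (nat_lit 14018907842) (nat_lit 0) (nat_lit 84618145675) (nat_lit 1092) (nat_lit 17488932224) (nat_lit 99) (nat_lit 5) (nat_lit 98) (nat_lit 5) (nat_lit 111) (nat_lit 5) (nat_lit 403) (nat_lit 388) (nat_lit 70)))) (XT.nd (nat_lit 94) (nat_lit 924) (nat_lit 0) (XT.lf (nat_lit 84) (nat_lit 56754722617) (nat_lit 0) (nat_lit 48136148274) (nat_lit 1092) (nat_lit 13304315347) (nat_lit 99) (nat_lit 5) (nat_lit 98) (nat_lit 5) (nat_lit 111) (nat_lit 5) (nat_lit 404) (nat_lit 388) (nat_lit 69)) (XT.nd (nat_lit 94) (nat_lit 924) (nat_lit 0) (XT.lf (nat_lit 84) (nat_lit 100815215764) (nat_lit 0) (nat_lit 10523172774) (nat_lit 1092) (nat_lit 8990149536) (nat_lit 99) (nat_lit 5) (nat_lit 98) (nat_lit 5) (nat_lit 111) (nat_lit 5) (nat_lit 405) (nat_lit 388) (nat_lit 68)) (XT.lf (nat_lit 0) (nat_lit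 23914958204) (nat_lit 1008) (nat_lit 94588198792) (nat_lit 1092) (nat_lit 4008828993) (nat_lit 87) (nat_lit 5) (nat_lit 99) (nat_lit 5) (nat_lit 100) (nat_lit 5) (nat_lit 406) (nat_lit 388) (nat_lit 67))))) (XT.nd (nat_lit 282) (nat_lit 504) (nat_lit 0) (XT.nd (nat_lit 94) (nat_lit 588) (nat_lit 0) (XT.lf (nat_lit 0) (nat_lit 1417435675) (nat_lit 1092) (nat_lit 55774645720) (nat_lit 84) (nat_lit 67560983609) (nat_lit 86) (nat_lit 5) (nat_lit 99) (nat_lit 5) (nat_lit 87) (nat_lit 5) (nat_lit 407) (nat_lit 388) (nat_lit 66)) (XT.nd (nat_lit 94) (nat_lit 588) (nat_lit 0) (XT.lf (nat_lit 0) (nat_lit 6928485038) (nat_lit 1092) (nat_lit 11665903585) (nat_lit 84) (nat_lit 108467963484) (nat_lit 86) (nat_lit 5) (nat_lit 99) (nat_lit 5) (nat_lit 87) (nat_lit 5) (nat_lit 408) (nat_lit 388) (nat_lit 65)) (XT.lf (nat_lit 0) (nat_lit 13166327727) (nat_lit 672) (nat_lit 95141142220) (nat_lit 84)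 (nat_lit 21118523471) (nat_lit 79) (nat_lit 5) (nat_lit 87) (nat_lit 5) (nat_lit 80) (nat_lit 5) (nat_lit 409) (nat_lit 388) (nat_lit 64)))) (XT.nd (nat_lit 188) (nat_lit 504) (nat_lit 0) (XT.nd (nat_lit 94) (nat_lit 0) (nat_lit 0) (XT.lf (nat_lit 0) (nat_lit 19910585426) (nat_lit 672) (nat_lit 50143297810) (nat_lit 84) (nat_lit 61799320835) (nat_lit 79) (nat_lit 5) (nat_lit 87) (nat_lit 5) (nat_lit 80) (nat_lit 5) (nat_lit 410) (nat_lit 388) (nat_lit 63)) (XT.lf (nat_lit 0) (nat_lit 26863771101) (nat_lit 672) (nat_lit 3750649380) (nat_lit 84) (nat_lit 103741242975) (nat_lit 79) (nat_lit 5) (nat_lit 87) (nat_lit 5) (nat_lit 80) (nat_lit 5) (nat_lit 411) (nat_lit 388) (nat_lit 62))) (XT.nd (nat_lit 94) (nat_lit 0) (nat_lit 0) (XT.lf (nat_lit 0) (nat_lit 34582875258) (nat_lit 588) (nat_lit 92039686236) (nat_lit 84) (nat_lit 10296076842) (nat_lit 73) (nat_lit 5) (nat_lit 80) (nat_lit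 5) (nat_lit 74) (nat_lit 5) (nat_lit 412) (nat_lit 388) (nat_lit 61)) (XT.lf (nat_lit 0) (nat_lit 42893798052) (nat_lit 588) (nat_lit 44777911763) (nat_lit 84) (nat_lit 51878427995) (nat_lit 73) (nat_lit 5) (nat_lit 80) (nat_lit 5) (nat_lit 74) (nat_lit 5) (nat_lit 413) (nat_lit 388) (nat_lit 60))))))))
noncomputable def xc248 : XT := (XT.nd (nat_lit 2256) (nat_lit 504) (nat_lit 0) (XT.nd (nat_lit 1128) (nat_lit 1176) (nat_lit 0) (XT.nd (nat_lit 564) (nat_lit 0) (nat_lit 168) (XT.nd (nat_lit 282) (nat_lit 0) (nat_lit 84) (XT.nd (nat_lit 94) (nat_lit 0) (nat_lit 0) (XT.lf (nat_lit 0) (nat_lit 26852728009) (nat_lit 1092) (nat_lit 9963669212) (nat_lit 1092) (nat_lit 9963669212) (nat_lit 93) (nat_lit 3) (nat_lit 106) (nat_lit 3) (nat_lit 106) (nat_lit 5) (nat_lit 389) (nat_lit 389) (nat_lit 83)) (XT.nd (nat_lit 94) (nat_lit 0) (nat_lit 0) (XT.lf (nat_lit 84) (nat_lit 12946950874) (nat_lit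 0) (nat_lit 41725450140) (nat_lit 1092) (nat_lit 40333710410) (nat_lit 94) (nat_lit 5) (nat_lit 93) (nat_lit 3) (nat_lit 106) (nat_lit 5) (nat_lit 390) (nat_lit 389) (nat_lit 82)) (XT.lf (nat_lit 84) (nat_lit 47262662765) (nat_lit 0) (nat_lit 8614413001) (nat_lit 1092) (nat_lit 40613400520) (nat_lit 94) (nat_lit 5) (nat_lit 93) (nat_lit 3) (nat_lit 106) (nat_lit 5) (nat_lit 391) (nat_lit 389) (nat_lit 81)))) (XT.nd (nat_lit 94) (nat_lit 0) (nat_lit 0) (XT.lf (nat_lit 0) (nat_lit 57372049850) (nat_lit 1008) (nat_lit 15632022137) (nat_lit 1092) (nat_lit 25008944200) (nat_lit 94) (nat_lit 5) (nat_lit 106) (nat_lit 5) (nat_lit 107) (nat_lit 5) (nat_lit 392) (nat_lit 389) (nat_lit 80)) (XT.nd (nat_lit 94) (nat_lit 0) (nat_lit 0) (XT.lf (nat_lit 84) (nat_lit 19305974610) (nat_lit 0) (nat_lit 39886785941) (nat_lit 1092) (nat_lit 40381334385) (nat_lit 95) (nat_lit 5) (nat_lit 94) (nat_lit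 5) (nat_lit 107) (nat_lit 5) (nat_lit 393) (nat_lit 389) (nat_lit 79)) (XT.lf (nat_lit 84) (nat_lit 55658309889) (nat_lit 0) (nat_lit 5574544865) (nat_lit 1092) (nat_lit 39945662426) (nat_lit 95) (nat_lit 5) (nat_lit 94) (nat_lit 5) (nat_lit 107) (nat_lit 5) (nat_lit 394) (nat_lit 389) (nat_lit 78))))) (XT.nd (nat_lit 282) (nat_lit 0) (nat_lit 84) (XT.nd (nat_lit 94) (nat_lit 0) (nat_lit 0) (XT.lf (nat_lit 0) (nat_lit 63631608105) (nat_lit 1008) (nat_lit 9990877274) (nat_lit 1092) (nat_lit 29201034433) (nat_lit 95) (nat_lit 5) (nat_lit 107) (nat_lit 5) (nat_lit 108) (nat_lit 5) (nat_lit 395) (nat_lit 389) (nat_lit 77)) (XT.nd (nat_lit 94) (nat_lit 0) (nat_lit 0) (XT.lf (nat_lit 84) (nat_lit 27129311739) (nat_lit 0) (nat_lit 39301341099) (nat_lit 1092) (nat_lit 38078762020) (nat_lit 96) (nat_lit 5) (nat_lit 95) (nat_lit 5) (nat_lit 108) (nat_lit 5) (nat_lit 396) (nat_lit 389) (nat_lit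 76)) (XT.lf (nat_lit 84) (nat_lit 65611898359) (nat_lit 0) (nat_lit 3808648331) (nat_lit 1092) (nat_lit 36823800650) (nat_lit 96) (nat_lit 5) (nat_lit 95) (nat_lit 5) (nat_lit 108) (nat_lit 5) (nat_lit 397) (nat_lit 389) (nat_lit 75)))) (XT.nd (nat_lit 94) (nat_lit 0) (nat_lit 0) (XT.lf (nat_lit 0) (nat_lit 72828153120) (nat_lit 1008) (nat_lit 3070975770) (nat_lit 1092) (nat_lit 32123859134) (nat_lit 96) (nat_lit 5) (nat_lit 108) (nat_lit 5) (nat_lit 109) (nat_lit 5) (nat_lit 398) (nat_lit 389) (nat_lit 74)) (XT.nd (nat_lit 94) (nat_lit 0) (nat_lit 0) (XT.lf (nat_lit 84) (nat_lit 36348154210) (nat_lit 0) (nat_lit 40392580188) (nat_lit 1092) (nat_lit 33103653724) (nat_lit 97) (nat_lit 5) (nat_lit 96) (nat_lit 5) (nat_lit 109) (nat_lit 5) (nat_lit 399) (nat_lit 389) (nat_lit 73)) (XT.lf (nat_lit 84) (nat_lit 77054251916) (nat_lit 0) (nat_lit 3752220335) (nat_lit 1092) (nat_lit 30914792539)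 (nat_lit 97) (nat_lit 5) (nat_lit 96) (nat_lit 5) (nat_lit 109) (nat_lit 5) (nat_lit 400) (nat_lit 389) (nat_lit 72)))))) (XT.nd (nat_lit 564) (nat_lit 1512) (nat_lit 0) (XT.nd (nat_lit 282) (nat_lit 0) (nat_lit 84) (XT.nd (nat_lit 94) (nat_lit 0) (nat_lit 0) (XT.lf (nat_lit 84) (nat_lit 5131651405) (nat_lit 0) (nat_lit 80254843488) (nat_lit 1092) (nat_lit 28257795088) (nat_lit 98) (nat_lit 5) (nat_lit 97) (nat_lit 5) (nat_lit 110) (nat_lit 5) (nat_lit 401) (nat_lit 389) (nat_lit 71)) (XT.nd (nat_lit 94) (nat_lit 0) (nat_lit 0) (XT.lf (nat_lit 84) (nat_lit 46859700835) (nat_lit 0) (nat_lit 43648460051) (nat_lit 1092) (nat_lit 25106379495) (nat_lit 98) (nat_lit 5) (nat_lit 97) (nat_lit 5) (nat_lit 110) (nat_lit 5) (nat_lit 402) (nat_lit 389) (nat_lit 70)) (XT.lf (nat_lit 84) (nat_lit 89881193302) (nat_lit 0) (nat_lit 5907232839) (nat_lit 1092) (nat_lit 21857448686) (nat_lit 98) (nat_lit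 5) (nat_lit 97) (nat_lit 5) (nat_lit 110) (nat_lit 5) (nat_lit 403) (nat_lit 389) (nat_lit 69)))) (XT.nd (nat_lit 94) (nat_lit 0) (nat_lit 0) (XT.lf (nat_lit 84) (nat_lit 14459974943) (nat_lit 0) (nat_lit 87243086153) (nat_lit 1092) (nat_lit 18022529332) (nat_lit 99) (nat_lit 5) (nat_lit 98) (nat_lit 5) (nat_lit 111) (nat_lit 5) (nat_lit 404) (nat_lit 389) (nat_lit 68)) (XT.nd (nat_lit 94) (nat_lit 0) (nat_lit 0) (XT.lf (nat_lit 84) (nat_lit 58520405107) (nat_lit 0) (nat_lit 49630093374) (nat_lit 1092) (nat_lit 13708446707) (nat_lit 99) (nat_lit 5) (nat_lit 98) (nat_lit 5) (nat_lit 111) (nat_lit 5) (nat_lit 405) (nat_lit 389) (nat_lit 67)) (XT.lf (nat_lit 84) (nat_lit 103946584532) (nat_lit 0) (nat_lit 10851063780) (nat_lit 1092) (nat_lit 9260791392) (nat_lit 99) (nat_lit 5) (nat_lit 98) (nat_lit 5) (nat_lit 111) (nat_lit 5) (nat_lit 406) (nat_lit 389) (nat_lit 66))))) (XT.nd (nat_lit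 282) (nat_lit 588) (nat_lit 0) (XT.nd (nat_lit 94) (nat_lit 84) (nat_lit 0) (XT.lf (nat_lit 0) (nat_lit 24662653870) (nat_lit 1008) (nat_lit 97521683824) (nat_lit 1092) (nat_lit 4125243875) (nat_lit 87) (nat_lit 5) (nat_lit 99) (nat_lit 5) (nat_lit 100) (nat_lit 5) (nat_lit 407) (nat_lit 389) (nat_lit 65)) (XT.nd (nat_lit 94) (nat_lit 0) (nat_lit 0) (XT.lf (nat_lit 0) (nat_lit 1468845123) (nat_lit 1092) (nat_lit 57497326093) (nat_lit 84) (nat_lit 69653968770) (nat_lit 86) (nat_lit 5) (nat_lit 99) (nat_lit 5) (nat_lit 87) (nat_lit 5) (nat_lit 408) (nat_lit 389) (nat_lit 64)) (XT.lf (nat_lit 0) (nat_lit 7150512442) (nat_lit 1092) (nat_lit 12021403391) (nat_lit 84) (nat_lit 111829107276) (nat_lit 86) (nat_lit 5) (nat_lit 99) (nat_lit 5) (nat_lit 87) (nat_lit 5) (nat_lit 409) (nat_lit 389) (nat_lit 63)))) (XT.nd (nat_lit 94) (nat_lit 0) (nat_lit 0) (XT.lf (nat_lit 0) (nat_lit 13581560777)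 (nat_lit 672) (nat_lit 98084170732) (nat_lit 84) (nat_lit 21772212106) (nat_lit 79) (nat_lit 5) (nat_lit 87) (nat_lit 5) (nat_lit 80) (nat_lit 5) (nat_lit 410) (nat_lit 389) (nat_lit 62)) (XT.nd (nat_lit 94) (nat_lit 0) (nat_lit 0) (XT.lf (nat_lit 0) (nat_lit 20534677677) (nat_lit 672) (nat_lit 51691583983) (nat_lit 84) (nat_lit 63714143823) (nat_lit 79) (nat_lit 5) (nat_lit 87) (nat_lit 5) (nat_lit 80) (nat_lit 5) (nat_lit 411) (nat_lit 389) (nat_lit 61)) (XT.lf (nat_lit 0) (nat_lit 27703205720) (nat_lit 672) (nat_lit 3860948552) (nat_lit 84) (nat_lit 106956294293) (nat_lit 79) (nat_lit 5) (nat_lit 87) (nat_lit 5) (nat_lit 80) (nat_lit 5) (nat_lit 412) (nat_lit 389) (nat_lit 60))))))) (XT.nd (nat_lit 52922) (nat_lit 0) (nat_lit 504) (XT.nd (nat_lit 52358) (nat_lit 0) (nat_lit 1764) (XT.nd (nat_lit 52076) (nat_lit 0) (nat_lit 1680) (XT.nd (nat_lit 51888) (nat_lit 0) (nat_lit 1680)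 (XT.lf (nat_lit 0) (nat_lit 35661454546) (nat_lit 588) (nat_lit 94886764945) (nat_lit 84) (nat_lit 10614661772) (nat_lit 73) (nat_lit 5) (nat_lit 80) (nat_lit 5) (nat_lit 74) (nat_lit 5) (nat_lit 413) (nat_lit 389) (nat_lit 59)) (XT.nd (nat_lit 94) (nat_lit 0) (nat_lit 0) (XT.lf (nat_lit 0) (nat_lit 27691177384) (nat_lit 1092) (nat_lit 10269425652) (nat_lit 1092) (nat_lit 10269425652) (nat_lit 93) (nat_lit 3) (nat_lit 106) (nat_lit 3) (nat_lit 106) (nat_lit 5) (nat_lit 390) (nat_lit 390) (nat_lit 81)) (XT.lf (nat_lit 84) (nat_lit 13354477842) (nat_lit 0) (nat_lit 43024496733) (nat_lit 1092) (nat_lit 41571898015) (nat_lit 94) (nat_lit 5) (nat_lit 93) (nat_lit 3) (nat_lit 106) (nat_lit 5) (nat_lit 391) (nat_lit 390) (nat_lit 80)))) (XT.nd (nat_lit 94) (nat_lit 0) (nat_lit 84) (XT.lf (nat_lit 84) (nat_lit 48733791238) (nat_lit 0) (nat_lit 8886850336) (nat_lit 1092) (nat_lit 41860624066)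 (nat_lit 94) (nat_lit 5) (nat_lit 93) (nat_lit 3) (nat_lit 106) (nat_lit 5) (nat_lit 392) (nat_lit 390) (nat_lit 79)) (XT.nd (nat_lit 94) (nat_lit 0) (nat_lit 0) (XT.lf (nat_lit 0) (nat_lit 59161565922) (nat_lit 1008) (nat_lit 16110354093) (nat_lit 1092) (nat_lit 25779098361) (nat_lit 94) (nat_lit 5) (nat_lit 106) (nat_lit 5) (nat_lit 107) (nat_lit 5) (nat_lit 393) (nat_lit 390) (nat_lit 78)) (XT.lf (nat_lit 84) (nat_lit 19910657169) (nat_lit 0) (nat_lit 41127792742) (nat_lit 1092) (nat_lit 41622050816) (nat_lit 95) (nat_lit 5) (nat_lit 94) (nat_lit 5) (nat_lit 107) (nat_lit 5) (nat_lit 394) (nat_lit 390) (nat_lit 77))))) (XT.nd (nat_lit 282) (nat_lit 0) (nat_lit 84) (XT.nd (nat_lit 94) (nat_lit 0) (nat_lit 84) (XT.lf (nat_lit 84) (nat_lit 57389728500) (nat_lit 0) (nat_lit 5751736394) (nat_lit 1092) (nat_lit 41173206928) (nat_lit 95) (nat_lit 5) (nat_lit 94) (nat_lit 5) (nat_lit 107)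 (nat_lit 5) (nat_lit 395) (nat_lit 390) (nat_lit 76)) (XT.nd (nat_lit 94) (nat_lit 0) (nat_lit 0) (XT.lf (nat_lit 0) (nat_lit 65614224994) (nat_lit 1008) (nat_lit 10294354070) (nat_lit 1092) (nat_lit 30102103186) (nat_lit 95) (nat_lit 5) (nat_lit 107) (nat_lit 5) (nat_lit 108) (nat_lit 5) (nat_lit 396) (nat_lit 390) (nat_lit 75)) (XT.lf (nat_lit 84) (nat_lit 27976497624) (nat_lit 0) (nat_lit 40523301976) (nat_lit 1092) (nat_lit 39249049568) (nat_lit 96) (nat_lit 5) (nat_lit 95) (nat_lit 5) (nat_lit 108) (nat_lit 5) (nat_lit 397) (nat_lit 390) (nat_lit 74)))) (XT.nd (nat_lit 94) (nat_lit 0) (nat_lit 84) (XT.lf (nat_lit 84) (nat_lit 67651858693) (nat_lit 0) (nat_lit 3930226908) (nat_lit 1092) (nat_lit 37955489707) (nat_lit 96) (nat_lit 5) (nat_lit 95) (nat_lit 5) (nat_lit 108) (nat_lit 5) (nat_lit 398) (nat_lit 390) (nat_lit 73)) (XT.nd (nat_lit 94) (nat_lit 0) (nat_lit 0) (XT.lf (nat_lit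 0) (nat_lit 75095008349) (nat_lit 1008) (nat_lit 3159994536) (nat_lit 1092) (nat_lit 33116362443) (nat_lit 96) (nat_lit 5) (nat_lit 108) (nat_lit 5) (nat_lit 109) (nat_lit 5) (nat_lit 399) (nat_lit 390) (nat_lit 72)) (XT.lf (nat_lit 84) (nat_lit 37481065892) (nat_lit 0) (nat_lit 41647598356) (nat_lit 1092) (nat_lit 34120572780) (nat_lit 97) (nat_lit 5) (nat_lit 96) (nat_lit 5) (nat_lit 109) (nat_lit 5) (nat_lit 400) (nat_lit 390) (nat_lit 71)))))) (XT.nd (nat_lit 564) (nat_lit 1428) (nat_lit 0) (XT.nd (nat_lit 282) (nat_lit 0) (nat_lit 84) (XT.nd (nat_lit 94) (nat_lit 0) (nat_lit 84) (XT.lf (nat_lit 84) (nat_lit 79448868645) (nat_lit 0) (nat_lit 3871301709) (nat_lit 1092) (nat_lit 31864136356) (nat_lit 97) (nat_lit 5) (nat_lit 96) (nat_lit 5) (nat_lit 109) (nat_lit 5) (nat_lit 401) (nat_lit 390) (nat_lit 70)) (XT.nd (nat_lit 94) (nat_lit 0) (nat_lit 0) (XT.lf (nat_lit 84) (nat_lit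 5296948636) (nat_lit 0) (nat_lit 82744998631) (nat_lit 1092) (nat_lit 29125006868) (nat_lit 98) (nat_lit 5) (nat_lit 97) (nat_lit 5) (nat_lit 110) (nat_lit 5) (nat_lit 402) (nat_lit 390) (nat_lit 69)) (XT.lf (nat_lit 84) (nat_lit 48318380694) (nat_lit 0) (nat_lit 45003749504) (nat_lit 1092) (nat_lit 25876161384) (nat_lit 98) (nat_lit 5) (nat_lit 97) (nat_lit 5) (nat_lit 110) (nat_lit 5) (nat_lit 403) (nat_lit 390) (nat_lit 68)))) (XT.nd (nat_lit 94) (nat_lit 0) (nat_lit 84) (XT.lf (nat_lit 84) (nat_lit 92673358145) (nat_lit 0) (nat_lit 6092478484) (nat_lit 1092) (nat_lit 22526769774) (nat_lit 98) (nat_lit 5) (nat_lit 97) (nat_lit 5) (nat_lit 110) (nat_lit 5) (nat_lit 404) (nat_lit 390) (nat_lit 67)) (XT.nd (nat_lit 94) (nat_lit 0) (nat_lit 0) (XT.lf (nat_lit 84) (nat_lit 14914331246) (nat_lit 0) (nat_lit 89949294475) (nat_lit 1092) (nat_lit 18573174962) (nat_lit 99) (nat_lit 5) (nat_lit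 98) (nat_lit 5) (nat_lit 111) (nat_lit 5) (nat_lit 405) (nat_lit 390) (nat_lit 66)) (XT.lf (nat_lit 84) (nat_lit 60340451418) (nat_lit 0) (nat_lit 51170248626) (nat_lit 1092) (nat_lit 14125597906) (nat_lit 99) (nat_lit 5) (nat_lit 98) (nat_lit 5) (nat_lit 111) (nat_lit 5) (nat_lit 406) (nat_lit 390) (nat_lit 65))))) (XT.nd (nat_lit 282) (nat_lit 588) (nat_lit 0) (XT.nd (nat_lit 94) (nat_lit 1008) (nat_lit 0) (XT.lf (nat_lit 84) (nat_lit 107174664592) (nat_lit 0) (nat_lit 11189020334) (nat_lit 1092) (nat_lit 9540300125) (nat_lit 99) (nat_lit 5) (nat_lit 98) (nat_lit 5) (nat_lit 111) (nat_lit 5) (nat_lit 407) (nat_lit 390) (nat_lit 64)) (XT.nd (nat_lit 94) (nat_lit 84) (nat_lit 0) (XT.lf (nat_lit 0) (nat_lit 25433153047) (nat_lit 1008) (nat_lit 100546032801) (nat_lit 1092) (nat_lit 4245733108) (nat_lit 87) (nat_lit 5) (nat_lit 99) (nat_lit 5) (nat_lit 100) (nat_lit 5) (nat_lit 408) (nat_lit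 390) (nat_lit 63)) (XT.lf (nat_lit 0) (nat_lit 1521405867) (nat_lit 1092) (nat_lit 59273784711) (nat_lit 84) (nat_lit 71811919711) (nat_lit 86) (nat_lit 5) (nat_lit 99) (nat_lit 5) (nat_lit 87) (nat_lit 5) (nat_lit 409) (nat_lit 390) (nat_lit 62)))) (XT.nd (nat_lit 94) (nat_lit 588) (nat_lit 0) (XT.lf (nat_lit 0) (nat_lit 7378993598) (nat_lit 1092) (nat_lit 12388287564) (nat_lit 84) (nat_lit 115294527263) (nat_lit 86) (nat_lit 5) (nat_lit 99) (nat_lit 5) (nat_lit 87) (nat_lit 5) (nat_lit 410) (nat_lit 390) (nat_lit 61)) (XT.nd (nat_lit 94) (nat_lit 0) (nat_lit 0) (XT.lf (nat_lit 0) (nat_lit 14009246875) (nat_lit 672) (nat_lit 101118809066) (nat_lit 84) (nat_lit 22446223467) (nat_lit 79) (nat_lit 5) (nat_lit 87) (nat_lit 5) (nat_lit 80) (nat_lit 5) (nat_lit 411) (nat_lit 390) (nat_lit 60)) (XT.lf (nat_lit 0) (nat_lit 21177710216) (nat_lit 672) (nat_lit 53288231661) (nat_lit 84) (nat_lit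 65688382947) (nat_lit 79) (nat_lit 5) (nat_lit 87) (nat_lit 5) (nat_lit 80) (nat_lit 5) (nat_lit 412) (nat_lit 390) (nat_lit 59))))))))
noncomputable def xc249 : XT := (XT.nd (nat_lit 106126) (nat_lit 0) (nat_lit 0) (XT.nd (nat_lit 53016) (nat_lit 0) (nat_lit 0) (XT.nd (nat_lit 52452) (nat_lit 0) (nat_lit 1260) (XT.nd (nat_lit 52170) (nat_lit 0) (nat_lit 1176) (XT.nd (nat_lit 51982) (nat_lit 0) (nat_lit 1176) (XT.lf (nat_lit 0) (nat_lit 28568268463) (nat_lit 672) (nat_lit 3975020667) (nat_lit 84) (nat_lit 110271067122) (nat_lit 79) (nat_lit 5) (nat_lit 87) (nat_lit 5) (nat_lit 80) (nat_lit 5) (nat_lit 413) (nat_lit 390) (nat_lit 58)) (XT.nd (nat_lit 94) (nat_lit 0) (nat_lit 0) (XT.lf (nat_lit 0) (nat_lit 28555262422) (nat_lit 1092) (nat_lit 10584845185) (nat_lit 1092) (nat_lit 10584845185) (nat_lit 93) (nat_lit 3) (nat_lit 106) (nat_lit 3) (nat_lit 106) (nat_lit 5) (nat_lit 391) (nat_lit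 391) (nat_lit 79)) (XT.lf (nat_lit 84) (nat_lit 13774272599) (nat_lit 0) (nat_lit 44363484582) (nat_lit 1092) (nat_lit 42849189539) (nat_lit 94) (nat_lit 5) (nat_lit 93) (nat_lit 3) (nat_lit 106) (nat_lit 5) (nat_lit 392) (nat_lit 391) (nat_lit 78)))) (XT.nd (nat_lit 94) (nat_lit 0) (nat_lit 84) (XT.lf (nat_lit 84) (nat_lit 50250170136) (nat_lit 0) (nat_lit 9167413939) (nat_lit 1092) (nat_lit 43147209994) (nat_lit 94) (nat_lit 5) (nat_lit 93) (nat_lit 3) (nat_lit 106) (nat_lit 5) (nat_lit 393) (nat_lit 391) (nat_lit 77)) (XT.nd (nat_lit 94) (nat_lit 0) (nat_lit 0) (XT.lf (nat_lit 0) (nat_lit 61005906478) (nat_lit 1008) (nat_lit 16603885173) (nat_lit 1092) (nat_lit 26573430752) (nat_lit 94) (nat_lit 5) (nat_lit 106) (nat_lit 5) (nat_lit 107) (nat_lit 5) (nat_lit 394) (nat_lit 391) (nat_lit 76)) (XT.lf (nat_lit 84) (nat_lit 20533717808) (nat_lit 0) (nat_lit 42407003239) (nat_lit 1092)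 (nat_lit 42901887221) (nat_lit 95) (nat_lit 5) (nat_lit 94) (nat_lit 5) (nat_lit 107) (nat_lit 5) (nat_lit 395) (nat_lit 391) (nat_lit 75))))) (XT.nd (nat_lit 282) (nat_lit 0) (nat_lit 84) (XT.nd (nat_lit 94) (nat_lit 0) (nat_lit 84) (XT.lf (nat_lit 84) (nat_lit 59174465047) (nat_lit 0) (nat_lit 5934161387) (nat_lit 1092) (nat_lit 42439443296) (nat_lit 95) (nat_lit 5) (nat_lit 94) (nat_lit 5) (nat_lit 107) (nat_lit 5) (nat_lit 396) (nat_lit 391) (nat_lit 74)) (XT.nd (nat_lit 94) (nat_lit 0) (nat_lit 0) (XT.lf (nat_lit 0) (nat_lit 67657708495) (nat_lit 1008) (nat_lit 10607608276) (nat_lit 1092) (nat_lit 31031351670) (nat_lit 95) (nat_lit 5) (nat_lit 107) (nat_lit 5) (nat_lit 108) (nat_lit 5) (nat_lit 397) (nat_lit 391) (nat_lit 73)) (XT.lf (nat_lit 84) (nat_lit 28849580384) (nat_lit 0) (nat_lit 41782929263) (nat_lit 1092) (nat_lit 40456217473) (nat_lit 96) (nat_lit 5) (nat_lit 95) (nat_lit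 5) (nat_lit 108) (nat_lit 5) (nat_lit 398) (nat_lit 391) (nat_lit 72)))) (XT.nd (nat_lit 94) (nat_lit 0) (nat_lit 84) (XT.lf (nat_lit 84) (nat_lit 69754702911) (nat_lit 0) (nat_lit 4055366489) (nat_lit 1092) (nat_lit 39122844484) (nat_lit 96) (nat_lit 5) (nat_lit 95) (nat_lit 5) (nat_lit 108) (nat_lit 5) (nat_lit 399) (nat_lit 391) (nat_lit 71)) (XT.nd (nat_lit 94) (nat_lit 0) (nat_lit 0) (XT.lf (nat_lit 0) (nat_lit 77431592195) (nat_lit 1008) (nat_lit 3252139023) (nat_lit 1092) (nat_lit 34139830971) (nat_lit 96) (nat_lit 5) (nat_lit 108) (nat_lit 5) (nat_lit 109) (nat_lit 5) (nat_lit 400) (nat_lit 391) (nat_lit 70)) (XT.lf (nat_lit 84) (nat_lit 38648735403) (nat_lit 0) (nat_lit 42941353386) (nat_lit 1092) (nat_lit 35169566840) (nat_lit 97) (nat_lit 5) (nat_lit 96) (nat_lit 5) (nat_lit 109) (nat_lit 5) (nat_lit 401) (nat_lit 391) (nat_lit 69)))))) (XT.nd (nat_lit 564) (nat_lit 1428)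 (nat_lit 0) (XT.nd (nat_lit 282) (nat_lit 0) (nat_lit 84) (XT.nd (nat_lit 94) (nat_lit 0) (nat_lit 84) (XT.lf (nat_lit 84) (nat_lit 81917366956) (nat_lit 0) (nat_lit 3993910976) (nat_lit 1092) (nat_lit 32843443791) (nat_lit 97) (nat_lit 5) (nat_lit 96) (nat_lit 5) (nat_lit 109) (nat_lit 5) (nat_lit 402) (nat_lit 391) (nat_lit 68)) (XT.nd (nat_lit 94) (nat_lit 0) (nat_lit 0) (XT.lf (nat_lit 84) (nat_lit 5467001894) (nat_lit 0) (nat_lit 85312215016) (nat_lit 1092) (nat_lit 30019622260) (nat_lit 98) (nat_lit 5) (nat_lit 97) (nat_lit 5) (nat_lit 110) (nat_lit 5) (nat_lit 403) (nat_lit 391) (nat_lit 67)) (XT.lf (nat_lit 84) (nat_lit 49821922514) (nat_lit 0) (nat_lit 46400923379) (nat_lit 1092) (nat_lit 26670310921) (nat_lit 98) (nat_lit 5) (nat_lit 97) (nat_lit 5) (nat_lit 110) (nat_lit 5) (nat_lit 404) (nat_lit 391) (nat_lit 66)))) (XT.nd (nat_lit 94) (nat_lit 0) (nat_lit 84) (XT.lf (nat_lit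 84) (nat_lit 95551733720) (nat_lit 0) (nat_lit 6283341089) (nat_lit 1092) (nat_lit 23217329060) (nat_lit 98) (nat_lit 5) (nat_lit 97) (nat_lit 5) (nat_lit 110) (nat_lit 5) (nat_lit 405) (nat_lit 391) (nat_lit 65)) (XT.nd (nat_lit 94) (nat_lit 0) (nat_lit 0) (XT.lf (nat_lit 84) (nat_lit 15382411454) (nat_lit 0) (nat_lit 92739296180) (nat_lit 1092) (nat_lit 19141367587) (nat_lit 99) (nat_lit 5) (nat_lit 98) (nat_lit 5) (nat_lit 111) (nat_lit 5) (nat_lit 406) (nat_lit 391) (nat_lit 64)) (XT.lf (nat_lit 84) (nat_lit 62216568884) (nat_lit 0) (nat_lit 52758052596) (nat_lit 1092) (nat_lit 14556143430) (nat_lit 99) (nat_lit 5) (nat_lit 98) (nat_lit 5) (nat_lit 111) (nat_lit 5) (nat_lit 407) (nat_lit 391) (nat_lit 63))))) (XT.nd (nat_lit 282) (nat_lit 588) (nat_lit 0) (XT.nd (nat_lit 94) (nat_lit 1008) (nat_lit 0) (XT.lf (nat_lit 84) (nat_lit 110502475384) (nat_lit 0) (nat_lit 11537360336)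 (nat_lit 1092) (nat_lit 9828922357) (nat_lit 99) (nat_lit 5) (nat_lit 98) (nat_lit 5) (nat_lit 111) (nat_lit 5) (nat_lit 408) (nat_lit 391) (nat_lit 62)) (XT.nd (nat_lit 94) (nat_lit 84) (nat_lit 0) (XT.lf (nat_lit 0) (nat_lit 26227184862) (nat_lit 1008) (nat_lit 103664066894) (nat_lit 1092) (nat_lit 4370395428) (nat_lit 87) (nat_lit 5) (nat_lit 99) (nat_lit 5) (nat_lit 100) (nat_lit 5) (nat_lit 409) (nat_lit 391) (nat_lit 61)) (XT.lf (nat_lit 0) (nat_lit 1575179799) (nat_lit 1092) (nat_lit 61105666477) (nat_lit 84) (nat_lit 74036845441) (nat_lit 86) (nat_lit 5) (nat_lit 99) (nat_lit 5) (nat_lit 87) (nat_lit 5) (nat_lit 410) (nat_lit 391) (nat_lit 60)))) (XT.nd (nat_lit 94) (nat_lit 588) (nat_lit 0) (XT.lf (nat_lit 0) (nat_lit 7614153991) (nat_lit 1092) (nat_lit 12766887465) (nat_lit 84) (nat_lit 118867451225) (nat_lit 86) (nat_lit 5) (nat_lit 99) (nat_lit 5) (nat_lit 87) (nat_lit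 5) (nat_lit 411) (nat_lit 391) (nat_lit 59)) (XT.nd (nat_lit 94) (nat_lit 0) (nat_lit 0) (XT.lf (nat_lit 0) (nat_lit 14449796895) (nat_lit 672) (nat_lit 104247874857) (nat_lit 84) (nat_lit 23141184101) (nat_lit 79) (nat_lit 5) (nat_lit 87) (nat_lit 5) (nat_lit 80) (nat_lit 5) (nat_lit 412) (nat_lit 391) (nat_lit 58)) (XT.lf (nat_lit 0) (nat_lit 21840294273) (nat_lit 672) (nat_lit 54934718454) (nat_lit 84) (nat_lit 67723876753) (nat_lit 79) (nat_lit 5) (nat_lit 87) (nat_lit 5) (nat_lit 80) (nat_lit 5) (nat_lit 413) (nat_lit 391) (nat_lit 57))))))) (XT.nd (nat_lit 1128) (nat_lit 1176) (nat_lit 0) (XT.nd (nat_lit 564) (nat_lit 0) (nat_lit 168) (XT.nd (nat_lit 282) (nat_lit 0) (nat_lit 84) (XT.nd (nat_lit 94) (nat_lit 0) (nat_lit 0) (XT.lf (nat_lit 0) (nat_lit 29445798932) (nat_lit 1092) (nat_lit 10910216430) (nat_lit 1092) (nat_lit 10910216430) (nat_lit 93) (nat_lit 3) (nat_lit 106) (nat_lit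 3) (nat_lit 106) (nat_lit 5) (nat_lit 392) (nat_lit 392) (nat_lit 77)) (XT.nd (nat_lit 94) (nat_lit 0) (nat_lit 0) (XT.lf (nat_lit 84) (nat_lit 14206737096) (nat_lit 0) (nat_lit 45743671365) (nat_lit 1092) (nat_lit 44166754553) (nat_lit 94) (nat_lit 5) (nat_lit 93) (nat_lit 3) (nat_lit 106) (nat_lit 5) (nat_lit 393) (nat_lit 392) (nat_lit 76)) (XT.lf (nat_lit 84) (nat_lit 51813223226) (nat_lit 0) (nat_lit 9456374634) (nat_lit 1092) (nat_lit 44474337168) (nat_lit 94) (nat_lit 5) (nat_lit 93) (nat_lit 3) (nat_lit 106) (nat_lit 5) (nat_lit 394) (nat_lit 392) (nat_lit 75)))) (XT.nd (nat_lit 94) (nat_lit 0) (nat_lit 0) (XT.lf (nat_lit 0) (nat_lit 62906809609) (nat_lit 1008) (nat_lit 17113064586) (nat_lit 1092) (nat_lit 27392672924) (nat_lit 94) (nat_lit 5) (nat_lit 106) (nat_lit 5) (nat_lit 107) (nat_lit 5) (nat_lit 395) (nat_lit 392) (nat_lit 74)) (XT.nd (nat_lit 94) (nat_lit 0) (nat_lit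 0) (XT.lf (nat_lit 84) (nat_lit 21175747990) (nat_lit 0) (nat_lit 43725617589) (nat_lit 1092) (nat_lit 44222017358) (nat_lit 95) (nat_lit 5) (nat_lit 94) (nat_lit 5) (nat_lit 107) (nat_lit 5) (nat_lit 396) (nat_lit 392) (nat_lit 73)) (XT.lf (nat_lit 84) (nat_lit 61014193473) (nat_lit 0) (nat_lit 6121997451) (nat_lit 1092) (nat_lit 43745533190) (nat_lit 95) (nat_lit 5) (nat_lit 94) (nat_lit 5) (nat_lit 107) (nat_lit 5) (nat_lit 397) (nat_lit 392) (nat_lit 72))))) (XT.nd (nat_lit 282) (nat_lit 0) (nat_lit 84) (XT.nd (nat_lit 94) (nat_lit 0) (nat_lit 0) (XT.lf (nat_lit 0) (nat_lit 69763980689) (nat_lit 1008) (nat_lit 10930921098) (nat_lit 1092) (nat_lit 31989638851) (nat_lit 95) (nat_lit 5) (nat_lit 107) (nat_lit 5) (nat_lit 108) (nat_lit 5) (nat_lit 398) (nat_lit 392) (nat_lit 71)) (XT.nd (nat_lit 94) (nat_lit 0) (nat_lit 0) (XT.lf (nat_lit 84) (nat_lit 29749384494) (nat_lit 0) (nat_lit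 43081403316) (nat_lit 1092) (nat_lit 41701373402) (nat_lit 96) (nat_lit 5) (nat_lit 95) (nat_lit 5) (nat_lit 108) (nat_lit 5) (nat_lit 399) (nat_lit 392) (nat_lit 70)) (XT.lf (nat_lit 84) (nat_lit 71922401435) (nat_lit 0) (nat_lit 4184189781) (nat_lit 1092) (nat_lit 40326936065) (nat_lit 96) (nat_lit 5) (nat_lit 95) (nat_lit 5) (nat_lit 108) (nat_lit 5) (nat_lit 400) (nat_lit 392) (nat_lit 69)))) (XT.nd (nat_lit 94) (nat_lit 0) (nat_lit 0) (XT.lf (nat_lit 0) (nat_lit 79840098463) (nat_lit 1008) (nat_lit 3347484442) (nat_lit 1092) (nat_lit 35195212935) (nat_lit 96) (nat_lit 5) (nat_lit 108) (nat_lit 5) (nat_lit 109) (nat_lit 5) (nat_lit 401) (nat_lit 392) (nat_lit 68)) (XT.nd (nat_lit 94) (nat_lit 0) (nat_lit 0) (XT.lf (nat_lit 84) (nat_lit 39852261704) (nat_lit 0) (nat_lit 44275056110) (nat_lit 1092) (nat_lit 36251597619) (nat_lit 97) (nat_lit 5) (nat_lit 96) (nat_lit 5) (nat_lit 109)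 (nat_lit 5) (nat_lit 402) (nat_lit 392) (nat_lit 67)) (XT.lf (nat_lit 84) (nat_lit 84462058002) (nat_lit 0) (nat_lit 4120167192) (nat_lit 1092) (nat_lit 33853612088) (nat_lit 97) (nat_lit 5) (nat_lit 96) (nat_lit 5) (nat_lit 109) (nat_lit 5) (nat_lit 403) (nat_lit 392) (nat_lit 66)))))) (XT.nd (nat_lit 564) (nat_lit 1512) (nat_lit 0) (XT.nd (nat_lit 282) (nat_lit 0) (nat_lit 84) (XT.nd (nat_lit 94) (nat_lit 0) (nat_lit 0) (XT.lf (nat_lit 84) (nat_lit 5641980425) (nat_lit 0) (nat_lit 87958889453) (nat_lit 1092) (nat_lit 30942459972) (nat_lit 98) (nat_lit 5) (nat_lit 97) (nat_lit 5) (nat_lit 110) (nat_lit 5) (nat_lit 404) (nat_lit 392) (nat_lit 65)) (XT.nd (nat_lit 94) (nat_lit 0) (nat_lit 0) (XT.lf (nat_lit 84) (nat_lit 51371738166) (nat_lit 0) (nat_lit 47841287767) (nat_lit 1092) (nat_lit 27489553627) (nat_lit 98) (nat_lit 5) (nat_lit 97) (nat_lit 5) (nat_lit 110) (nat_lit 5) (nat_lit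 405) (nat_lit 392) (nat_lit 64)) (XT.lf (nat_lit 84) (nat_lit 98519013076) (nat_lit 0) (nat_lit 6480002222) (nat_lit 1092) (nat_lit 23929755948) (nat_lit 98) (nat_lit 5) (nat_lit 97) (nat_lit 5) (nat_lit 110) (nat_lit 5) (nat_lit 406) (nat_lit 392) (nat_lit 63)))) (XT.nd (nat_lit 94) (nat_lit 0) (nat_lit 0) (XT.lf (nat_lit 84) (nat_lit 15864662398) (nat_lit 0) (nat_lit 95615694732) (nat_lit 1092) (nat_lit 19727622910) (nat_lit 99) (nat_lit 5) (nat_lit 98) (nat_lit 5) (nat_lit 111) (nat_lit 5) (nat_lit 407) (nat_lit 392) (nat_lit 62)) (XT.nd (nat_lit 94) (nat_lit 0) (nat_lit 0) (XT.lf (nat_lit 84) (nat_lit 64150516457) (nat_lit 0) (nat_lit 54394988086) (nat_lit 1092) (nat_lit 15000471100) (nat_lit 99) (nat_lit 5) (nat_lit 98) (nat_lit 5) (nat_lit 111) (nat_lit 5) (nat_lit 408) (nat_lit 392) (nat_lit 61)) (XT.lf (nat_lit 84) (nat_lit 113933128685) (nat_lit 0) (nat_lit 11896411192) (nat_lit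 1092) (nat_lit 10126914027) (nat_lit 99) (nat_lit 5) (nat_lit 98) (nat_lit 5) (nat_lit 111) (nat_lit 5) (nat_lit 409) (nat_lit 392) (nat_lit 60))))) (XT.nd (nat_lit 282) (nat_lit 588) (nat_lit 0) (XT.nd (nat_lit 94) (nat_lit 84) (nat_lit 0) (XT.lf (nat_lit 0) (nat_lit 27045499724) (nat_lit 1008) (nat_lit 106878694470) (nat_lit 1092) (nat_lit 4499334260) (nat_lit 87) (nat_lit 5) (nat_lit 99) (nat_lit 5) (nat_lit 100) (nat_lit 5) (nat_lit 410) (nat_lit 392) (nat_lit 59)) (XT.nd (nat_lit 94) (nat_lit 0) (nat_lit 0) (XT.lf (nat_lit 0) (nat_lit 1630229180) (nat_lit 1092) (nat_lit 62994668604) (nat_lit 84) (nat_lit 76330817540) (nat_lit 86) (nat_lit 5) (nat_lit 99) (nat_lit 5) (nat_lit 87) (nat_lit 5) (nat_lit 411) (nat_lit 392) (nat_lit 58)) (XT.lf (nat_lit 0) (nat_lit 7856224586) (nat_lit 1092) (nat_lit 13157546008) (nat_lit 84) (nat_lit 122551207286) (nat_lit 86) (nat_lit 5) (nat_lit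 99) (nat_lit 5) (nat_lit 87) (nat_lit 5) (nat_lit 412) (nat_lit 392) (nat_lit 57)))) (XT.nd (nat_lit 52264) (nat_lit 0) (nat_lit 1176) (XT.nd (nat_lit 52170) (nat_lit 0) (nat_lit 1176) (XT.lf (nat_lit 0) (nat_lit 14903632975) (nat_lit 672) (nat_lit 107474274410) (nat_lit 84) (nat_lit 23857740182) (nat_lit 79) (nat_lit 5) (nat_lit 87) (nat_lit 5) (nat_lit 80) (nat_lit 5) (nat_lit 413) (nat_lit 392) (nat_lit 56)) (XT.lf (nat_lit 0) (nat_lit 30363626760) (nat_lit 1092) (nat_lit 11245837602) (nat_lit 1092) (nat_lit 11245837602) (nat_lit 93) (nat_lit 3) (nat_lit 106) (nat_lit 3) (nat_lit 106) (nat_lit 5) (nat_lit 393) (nat_lit 393) (nat_lit 75))) (XT.nd (nat_lit 94) (nat_lit 0) (nat_lit 0) (XT.lf (nat_lit 84) (nat_lit 14652284467) (nat_lit 0) (nat_lit 47166352591) (nat_lit 1092) (nat_lit 45525801408) (nat_lit 94) (nat_lit 5) (nat_lit 93) (nat_lit 3) (nat_lit 106) (nat_lit 5) (nat_lit 394)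 (nat_lit 393) (nat_lit 74)) (XT.lf (nat_lit 84) (nat_lit 53424417162) (nat_lit 0) (nat_lit 9754010525) (nat_lit 1092) (nat_lit 45843223447) (nat_lit 94) (nat_lit 5) (nat_lit 93) (nat_lit 3) (nat_lit 106) (nat_lit 5) (nat_lit 395) (nat_lit 393) (nat_lit 73))))))))
noncomputable def xc250 : XT := (XT.nd (nat_lit 54520) (nat_lit 0) (nat_lit 84) (XT.nd (nat_lit 1128) (nat_lit 672) (nat_lit 0) (XT.nd (nat_lit 564) (nat_lit 0) (nat_lit 168) (XT.nd (nat_lit 282) (nat_lit 0) (nat_lit 84) (XT.nd (nat_lit 94) (nat_lit 0) (nat_lit 0) (XT.lf (nat_lit 0) (nat_lit 64866065003) (nat_lit 1008) (nat_lit 17638356765) (nat_lit 1092) (nat_lit 28237580171) (nat_lit 94) (nat_lit 5) (nat_lit 106) (nat_lit 5) (nat_lit 107) (nat_lit 5) (nat_lit 396) (nat_lit 393) (nat_lit 72)) (XT.nd (nat_lit 94) (nat_lit 0) (nat_lit 0) (XT.lf (nat_lit 84) (nat_lit 21837356226) (nat_lit 0) (nat_lit 45084872221) (nat_lit 1092)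 (nat_lit 45583653680) (nat_lit 95) (nat_lit 5) (nat_lit 94) (nat_lit 5) (nat_lit 107) (nat_lit 5) (nat_lit 397) (nat_lit 393) (nat_lit 71)) (XT.lf (nat_lit 84) (nat_lit 62910638367) (nat_lit 0) (nat_lit 6315426789) (nat_lit 1092) (nat_lit 45092676517) (nat_lit 95) (nat_lit 5) (nat_lit 94) (nat_lit 5) (nat_lit 107) (nat_lit 5) (nat_lit 398) (nat_lit 393) (nat_lit 70)))) (XT.nd (nat_lit 94) (nat_lit 0) (nat_lit 0) (XT.lf (nat_lit 0) (nat_lit 71935021151) (nat_lit 1008) (nat_lit 11264583757) (nat_lit 1092) (nat_lit 32977851186) (nat_lit 95) (nat_lit 5) (nat_lit 107) (nat_lit 5) (nat_lit 108) (nat_lit 5) (nat_lit 399) (nat_lit 393) (nat_lit 69)) (XT.nd (nat_lit 94) (nat_lit 0) (nat_lit 0) (XT.lf (nat_lit 84) (nat_lit 30676758705) (nat_lit 0) (nat_lit 44419940331) (nat_lit 1092) (nat_lit 42985661469) (nat_lit 96) (nat_lit 5) (nat_lit 95) (nat_lit 5) (nat_lit 108) (nat_lit 5) (nat_lit 400)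 (nat_lit 393) (nat_lit 68)) (XT.lf (nat_lit 84) (nat_lit 74156984523) (nat_lit 0) (nat_lit 4316822567) (nat_lit 1092) (nat_lit 41568870784) (nat_lit 96) (nat_lit 5) (nat_lit 95) (nat_lit 5) (nat_lit 108) (nat_lit 5) (nat_lit 401) (nat_lit 393) (nat_lit 67))))) (XT.nd (nat_lit 282) (nat_lit 0) (nat_lit 84) (XT.nd (nat_lit 94) (nat_lit 0) (nat_lit 0) (XT.lf (nat_lit 0) (nat_lit 82322787054) (nat_lit 1008) (nat_lit 3446109619) (nat_lit 1092) (nat_lit 36283486638) (nat_lit 96) (nat_lit 5) (nat_lit 108) (nat_lit 5) (nat_lit 109) (nat_lit 5) (nat_lit 402) (nat_lit 393) (nat_lit 66)) (XT.nd (nat_lit 94) (nat_lit 0) (nat_lit 0) (XT.lf (nat_lit 84) (nat_lit 41092776550) (nat_lit 0) (nat_lit 45649954310) (nat_lit 1092) (nat_lit 37367658580) (nat_lit 97) (nat_lit 5) (nat_lit 96) (nat_lit 5) (nat_lit 109) (nat_lit 5) (nat_lit 403) (nat_lit 393) (nat_lit 65)) (XT.lf (nat_lit 84) (nat_lit 87085323346)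 (nat_lit 0) (nat_lit 4250192530) (nat_lit 1092) (nat_lit 34895568180) (nat_lit 97) (nat_lit 5) (nat_lit 96) (nat_lit 5) (nat_lit 109) (nat_lit 5) (nat_lit 404) (nat_lit 393) (nat_lit 64)))) (XT.nd (nat_lit 94) (nat_lit 0) (nat_lit 0) (XT.lf (nat_lit 84) (nat_lit 5822057429) (nat_lit 0) (nat_lit 90687492584) (nat_lit 1092) (nat_lit 31894365919) (nat_lit 98) (nat_lit 5) (nat_lit 97) (nat_lit 5) (nat_lit 110) (nat_lit 5) (nat_lit 405) (nat_lit 393) (nat_lit 63)) (XT.nd (nat_lit 94) (nat_lit 0) (nat_lit 0) (XT.lf (nat_lit 84) (nat_lit 52969282040) (nat_lit 0) (nat_lit 49326188792) (nat_lit 1092) (nat_lit 28334639282) (nat_lit 98) (nat_lit 5) (nat_lit 97) (nat_lit 5) (nat_lit 110) (nat_lit 5) (nat_lit 406) (nat_lit 393) (nat_lit 62)) (XT.lf (nat_lit 84) (nat_lit 101577971531) (nat_lit 0) (nat_lit 6682648638) (nat_lit 1092) (nat_lit 24664701071) (nat_lit 98) (nat_lit 5) (nat_lit 97) (nat_lit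 5) (nat_lit 110) (nat_lit 5) (nat_lit 407) (nat_lit 393) (nat_lit 61)))))) (XT.nd (nat_lit 52828) (nat_lit 0) (nat_lit 588) (XT.nd (nat_lit 282) (nat_lit 1008) (nat_lit 0) (XT.nd (nat_lit 94) (nat_lit 0) (nat_lit 0) (XT.lf (nat_lit 84) (nat_lit 16361543497) (nat_lit 0) (nat_lit 98581173955) (nat_lit 1092) (nat_lit 20332474297) (nat_lit 99) (nat_lit 5) (nat_lit 98) (nat_lit 5) (nat_lit 111) (nat_lit 5) (nat_lit 408) (nat_lit 393) (nat_lit 60)) (XT.nd (nat_lit 94) (nat_lit 0) (nat_lit 0) (XT.lf (nat_lit 84) (nat_lit 66144106389) (nat_lit 0) (nat_lit 56082583527) (nat_lit 1092) (nat_lit 15458982384) (nat_lit 99) (nat_lit 5) (nat_lit 98) (nat_lit 5) (nat_lit 111) (nat_lit 5) (nat_lit 409) (nat_lit 393) (nat_lit 59)) (XT.lf (nat_lit 84) (nat_lit 117469831544) (nat_lit 0) (nat_lit 12266510134) (nat_lit 1092) (nat_lit 10434540583) (nat_lit 99) (nat_lit 5) (nat_lit 98) (nat_lit 5) (nat_lit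 111) (nat_lit 5) (nat_lit 410) (nat_lit 393) (nat_lit 58)))) (XT.nd (nat_lit 94) (nat_lit 84) (nat_lit 0) (XT.lf (nat_lit 0) (nat_lit 27888870069) (nat_lit 1008) (nat_lit 110192913811) (nat_lit 1092) (nat_lit 4632657774) (nat_lit 87) (nat_lit 5) (nat_lit 99) (nat_lit 5) (nat_lit 100) (nat_lit 5) (nat_lit 411) (nat_lit 393) (nat_lit 57)) (XT.nd (nat_lit 52358) (nat_lit 0) (nat_lit 588) (XT.lf (nat_lit 0) (nat_lit 1686616742) (nat_lit 1092) (nat_lit 64942542158) (nat_lit 84) (nat_lit 78695972081) (nat_lit 86) (nat_lit 5) (nat_lit 99) (nat_lit 5) (nat_lit 87) (nat_lit 5) (nat_lit 412) (nat_lit 393) (nat_lit 56)) (XT.lf (nat_lit 0) (nat_lit 31309610615) (nat_lit 1092) (nat_lit 11592016768) (nat_lit 1092) (nat_lit 11592016768) (nat_lit 93) (nat_lit 3) (nat_lit 106) (nat_lit 3) (nat_lit 106) (nat_lit 5) (nat_lit 394) (nat_lit 394) (nat_lit 73))))) (XT.nd (nat_lit 282) (nat_lit 0) (nat_lit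 84) (XT.nd (nat_lit 94) (nat_lit 0) (nat_lit 0) (XT.lf (nat_lit 84) (nat_lit 15111339443) (nat_lit 0) (nat_lit 48632862845) (nat_lit 1092) (nat_lit 46927578290) (nat_lit 94) (nat_lit 5) (nat_lit 93) (nat_lit 3) (nat_lit 106) (nat_lit 5) (nat_lit 395) (nat_lit 394) (nat_lit 72)) (XT.nd (nat_lit 94) (nat_lit 0) (nat_lit 84) (XT.lf (nat_lit 84) (nat_lit 55085262898) (nat_lit 0) (nat_lit 10060607280) (nat_lit 1092) (nat_lit 47255126748) (nat_lit 94) (nat_lit 5) (nat_lit 93) (nat_lit 3) (nat_lit 106) (nat_lit 5) (nat_lit 396) (nat_lit 394) (nat_lit 71)) (XT.lf (nat_lit 0) (nat_lit 66885515681) (nat_lit 1008) (nat_lit 18180241766) (nat_lit 1092) (nat_lit 29108932201) (nat_lit 94) (nat_lit 5) (nat_lit 106) (nat_lit 5) (nat_lit 107) (nat_lit 5) (nat_lit 397) (nat_lit 394) (nat_lit 70)))) (XT.nd (nat_lit 94) (nat_lit 0) (nat_lit 0) (XT.lf (nat_lit 84) (nat_lit 22519168678) (nat_lit 0) (nat_lit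 46486041006) (nat_lit 1092) (nat_lit 46988048397) (nat_lit 95) (nat_lit 5) (nat_lit 94) (nat_lit 5) (nat_lit 107) (nat_lit 5) (nat_lit 398) (nat_lit 394) (nat_lit 69)) (XT.nd (nat_lit 94) (nat_lit 0) (nat_lit 84) (XT.lf (nat_lit 84) (nat_lit 64865576604) (nat_lit 0) (nat_lit 6514636393) (nat_lit 1092) (nat_lit 46482112489) (nat_lit 95) (nat_lit 5) (nat_lit 94) (nat_lit 5) (nat_lit 107) (nat_lit 5) (nat_lit 399) (nat_lit 394) (nat_lit 68)) (XT.lf (nat_lit 0) (nat_lit 74172868864) (nat_lit 1008) (nat_lit 11608897720) (nat_lit 1092) (nat_lit 33996903430) (nat_lit 95) (nat_lit 5) (nat_lit 107) (nat_lit 5) (nat_lit 108) (nat_lit 5) (nat_lit 400) (nat_lit 394) (nat_lit 67))))))) (XT.nd (nat_lit 53486) (nat_lit 0) (nat_lit 504) (XT.nd (nat_lit 564) (nat_lit 672) (nat_lit 0) (XT.nd (nat_lit 282) (nat_lit 0) (nat_lit 84) (XT.nd (nat_lit 94) (nat_lit 0) (nat_lit 0) (XT.lf (nat_lit 84) (nat_lit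 31632576870) (nat_lit 0) (nat_lit 45799793498) (nat_lit 1092) (nat_lit 44310263241) (nat_lit 96) (nat_lit 5) (nat_lit 95) (nat_lit 5) (nat_lit 108) (nat_lit 5) (nat_lit 401) (nat_lit 394) (nat_lit 66)) (XT.nd (nat_lit 94) (nat_lit 0) (nat_lit 84) (XT.lf (nat_lit 84) (nat_lit 76460544201) (nat_lit 0) (nat_lit 4453393840) (nat_lit 1092) (nat_lit 42849791196) (nat_lit 96) (nat_lit 5) (nat_lit 95) (nat_lit 5) (nat_lit 108) (nat_lit 5) (nat_lit 402) (nat_lit 394) (nat_lit 65)) (XT.lf (nat_lit 0) (nat_lit 84881986133) (nat_lit 1008) (nat_lit 3548097033) (nat_lit 1092) (nat_lit 37405661366) (nat_lit 96) (nat_lit 5) (nat_lit 108) (nat_lit 5) (nat_lit 109) (nat_lit 5) (nat_lit 403) (nat_lit 394) (nat_lit 64)))) (XT.nd (nat_lit 94) (nat_lit 0) (nat_lit 0) (XT.lf (nat_lit 84) (nat_lit 42371445587) (nat_lit 0) (nat_lit 47067333889) (nat_lit 1092) (nat_lit 38518775800) (nat_lit 97) (nat_lit 5)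 (nat_lit 96) (nat_lit 5) (nat_lit 109) (nat_lit 5) (nat_lit 404) (nat_lit 394) (nat_lit 63)) (XT.nd (nat_lit 94) (nat_lit 0) (nat_lit 84) (XT.lf (nat_lit 84) (nat_lit 89789617219) (nat_lit 0) (nat_lit 4384112412) (nat_lit 1092) (nat_lit 35970269497) (nat_lit 97) (nat_lit 5) (nat_lit 96) (nat_lit 5) (nat_lit 109) (nat_lit 5) (nat_lit 405) (nat_lit 394) (nat_lit 62)) (XT.lf (nat_lit 84) (nat_lit 6007410259) (nat_lit 0) (nat_lit 93500571202) (nat_lit 1092) (nat_lit 32876213951) (nat_lit 98) (nat_lit 5) (nat_lit 97) (nat_lit 5) (nat_lit 110) (nat_lit 5) (nat_lit 406) (nat_lit 394) (nat_lit 61))))) (XT.nd (nat_lit 282) (nat_lit 840) (nat_lit 0) (XT.nd (nat_lit 94) (nat_lit 0) (nat_lit 0) (XT.lf (nat_lit 84) (nat_lit 54616052432) (nat_lit 0) (nat_lit 50857013882) (nat_lit 1092) (nat_lit 29206342576) (nat_lit 98) (nat_lit 5) (nat_lit 97) (nat_lit 5) (nat_lit 110) (nat_lit 5) (nat_lit 407)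 (nat_lit 394) (nat_lit 60)) (XT.nd (nat_lit 94) (nat_lit 0) (nat_lit 84) (XT.lf (nat_lit 84) (nat_lit 104731469297) (nat_lit 0) (nat_lit 6891472470) (nat_lit 1092) (nat_lit 25422836849) (nat_lit 98) (nat_lit 5) (nat_lit 97) (nat_lit 5) (nat_lit 110) (nat_lit 5) (nat_lit 408) (nat_lit 394) (nat_lit 59)) (XT.lf (nat_lit 84) (nat_lit 16873527216) (nat_lit 0) (nat_lit 101638500543) (nat_lit 1092) (nat_lit 20956473221) (nat_lit 99) (nat_lit 5) (nat_lit 98) (nat_lit 5) (nat_lit 111) (nat_lit 5) (nat_lit 409) (nat_lit 394) (nat_lit 58)))) (XT.nd (nat_lit 94) (nat_lit 924) (nat_lit 0) (XT.lf (nat_lit 84) (nat_lit 68199205958) (nat_lit 0) (nat_lit 57822414417) (nat_lit 1092) (nat_lit 15932092720) (nat_lit 99) (nat_lit 5) (nat_lit 98) (nat_lit 5) (nat_lit 111) (nat_lit 5) (nat_lit 410) (nat_lit 394) (nat_lit 57)) (XT.nd (nat_lit 94) (nat_lit 924) (nat_lit 0) (XT.lf (nat_lit 84) (nat_lit 121115889310)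 (nat_lit 0) (nat_lit 12648004538) (nat_lit 1092) (nat_lit 10752077182) (nat_lit 99) (nat_lit 5) (nat_lit 98) (nat_lit 5) (nat_lit 111) (nat_lit 5) (nat_lit 411) (nat_lit 394) (nat_lit 56)) (XT.lf (nat_lit 0) (nat_lit 28758091115) (nat_lit 1008) (nat_lit 113609815915) (nat_lit 1092) (nat_lit 4770478938) (nat_lit 87) (nat_lit 5) (nat_lit 99) (nat_lit 5) (nat_lit 100) (nat_lit 5) (nat_lit 412) (nat_lit 394) (nat_lit 55)))))) (XT.nd (nat_lit 564) (nat_lit 0) (nat_lit 168) (XT.nd (nat_lit 282) (nat_lit 0) (nat_lit 84) (XT.nd (nat_lit 94) (nat_lit 0) (nat_lit 0) (XT.lf (nat_lit 0) (nat_lit 32284640904) (nat_lit 1092) (nat_lit 11949072120) (nat_lit 1092) (nat_lit 11949072120) (nat_lit 93) (nat_lit 3) (nat_lit 106) (nat_lit 3) (nat_lit 106) (nat_lit 5) (nat_lit 395) (nat_lit 395) (nat_lit 71)) (XT.nd (nat_lit 94) (nat_lit 0) (nat_lit 0) (XT.lf (nat_lit 84) (nat_lit 15584338787) (nat_lit 0)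 (nat_lit 50144577062) (nat_lit 1092) (nat_lit 48373374316) (nat_lit 94) (nat_lit 5) (nat_lit 93) (nat_lit 3) (nat_lit 106) (nat_lit 5) (nat_lit 396) (nat_lit 395) (nat_lit 70)) (XT.lf (nat_lit 84) (nat_lit 56797317126) (nat_lit 0) (nat_lit 10376458432) (nat_lit 1092) (nat_lit 48711346152) (nat_lit 94) (nat_lit 5) (nat_lit 93) (nat_lit 3) (nat_lit 106) (nat_lit 5) (nat_lit 397) (nat_lit 395) (nat_lit 69)))) (XT.nd (nat_lit 94) (nat_lit 0) (nat_lit 0) (XT.lf (nat_lit 0) (nat_lit 68967059780) (nat_lit 1008) (nat_lit 18739215677) (nat_lit 1092) (nat_lit 30007533839) (nat_lit 94) (nat_lit 5) (nat_lit 106) (nat_lit 5) (nat_lit 107) (nat_lit 5) (nat_lit 398) (nat_lit 395) (nat_lit 68)) (XT.nd (nat_lit 94) (nat_lit 0) (nat_lit 0) (XT.lf (nat_lit 84) (nat_lit 23221829782) (nat_lit 0) (nat_lit 47930436477) (nat_lit 1092) (nat_lit 48436494581) (nat_lit 95) (nat_lit 5) (nat_lit 94) (nat_lit 5)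 (nat_lit 107) (nat_lit 5) (nat_lit 399) (nat_lit 395) (nat_lit 67)) (XT.lf (nat_lit 84) (nat_lit 66880839037) (nat_lit 0) (nat_lit 6719818249) (nat_lit 1092) (nat_lit 47915120715) (nat_lit 95) (nat_lit 5) (nat_lit 94) (nat_lit 5) (nat_lit 107) (nat_lit 5) (nat_lit 400) (nat_lit 395) (nat_lit 66))))) (XT.nd (nat_lit 282) (nat_lit 0) (nat_lit 84) (XT.nd (nat_lit 94) (nat_lit 0) (nat_lit 0) (XT.lf (nat_lit 0) (nat_lit 76479624174) (nat_lit 1008) (nat_lit 11964174948) (nat_lit 1092) (nat_lit 35047739455) (nat_lit 95) (nat_lit 5) (nat_lit 107) (nat_lit 5) (nat_lit 108) (nat_lit 5) (nat_lit 401) (nat_lit 395) (nat_lit 65)) (XT.nd (nat_lit 94) (nat_lit 0) (nat_lit 0) (XT.lf (nat_lit 84) (nat_lit 32617738798) (nat_lit 0) (nat_lit 47222254190) (nat_lit 1092) (nat_lit 45676398781) (nat_lit 96) (nat_lit 5) (nat_lit 95) (nat_lit 5) (nat_lit 108) (nat_lit 5) (nat_lit 402) (nat_lit 395) (nat_lit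 64)) (XT.lf (nat_lit 84) (nat_lit 78835236245) (nat_lit 0) (nat_lit 4594035949) (nat_lit 1092) (nat_lit 44170877090) (nat_lit 96) (nat_lit 5) (nat_lit 95) (nat_lit 5) (nat_lit 108) (nat_lit 5) (nat_lit 403) (nat_lit 395) (nat_lit 63)))) (XT.nd (nat_lit 188) (nat_lit 0) (nat_lit 0) (XT.nd (nat_lit 94) (nat_lit 0) (nat_lit 0) (XT.lf (nat_lit 0) (nat_lit 87520094348) (nat_lit 1008) (nat_lit 3653532855) (nat_lit 1092) (nat_lit 38562778305) (nat_lit 96) (nat_lit 5) (nat_lit 108) (nat_lit 5) (nat_lit 109) (nat_lit 5) (nat_lit 404) (nat_lit 395) (nat_lit 62)) (XT.lf (nat_lit 84) (nat_lit 43689469468) (nat_lit 0) (nat_lit 48528520088) (nat_lit 1092) (nat_lit 39706008871) (nat_lit 97) (nat_lit 5) (nat_lit 96) (nat_lit 5) (nat_lit 109) (nat_lit 5) (nat_lit 405) (nat_lit 395) (nat_lit 61))) (XT.nd (nat_lit 94) (nat_lit 0) (nat_lit 84) (XT.lf (nat_lit 84) (nat_lit 92577468843) (nat_lit 0) (nat_lit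 4522055638) (nat_lit 1092) (nat_lit 37078704808) (nat_lit 97) (nat_lit 5) (nat_lit 96) (nat_lit 5) (nat_lit 109) (nat_lit 5) (nat_lit 406) (nat_lit 395) (nat_lit 60)) (XT.lf (nat_lit 84) (nat_lit 6198220625) (nat_lit 0) (nat_lit 96400750633) (nat_lit 1092) (nat_lit 33888906628) (nat_lit 98) (nat_lit 5) (nat_lit 97) (nat_lit 5) (nat_lit 110) (nat_lit 5) (nat_lit 407) (nat_lit 395) (nat_lit 59))))))))
noncomputable def xc251 : XT := (XT.nd (nat_lit 107348) (nat_lit 0) (nat_lit 0) (XT.nd (nat_lit 53674) (nat_lit 0) (nat_lit 0) (XT.nd (nat_lit 53110) (nat_lit 0) (nat_lit 0) (XT.nd (nat_lit 282) (nat_lit 336) (nat_lit 0) (XT.nd (nat_lit 94) (nat_lit 0) (nat_lit 0) (XT.lf (nat_lit 84) (nat_lit 56313592975) (nat_lit 0) (nat_lit 52435193072) (nat_lit 1092) (nat_lit 30105463778) (nat_lit 98) (nat_lit 5) (nat_lit 97) (nat_lit 5) (nat_lit 110) (nat_lit 5) (nat_lit 408) (nat_lit 395) (nat_lit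 58)) (XT.nd (nat_lit 94) (nat_lit 0) (nat_lit 84) (XT.lf (nat_lit 84) (nat_lit 107982454174) (nat_lit 0) (nat_lit 7106671413) (nat_lit 1092) (nat_lit 26204858062) (nat_lit 98) (nat_lit 5) (nat_lit 97) (nat_lit 5) (nat_lit 110) (nat_lit 5) (nat_lit 409) (nat_lit 395) (nat_lit 57)) (XT.lf (nat_lit 84) (nat_lit 17401099547) (nat_lit 0) (nat_lit 104790526649) (nat_lit 1092) (nat_lit 21600189732) (nat_lit 99) (nat_lit 5) (nat_lit 98) (nat_lit 5) (nat_lit 111) (nat_lit 5) (nat_lit 410) (nat_lit 395) (nat_lit 56)))) (XT.nd (nat_lit 52640) (nat_lit 420) (nat_lit 0) (XT.lf (nat_lit 84) (nat_lit 70317739235) (nat_lit 0) (nat_lit 59616104792) (nat_lit 1092) (nat_lit 16420231863) (nat_lit 99) (nat_lit 5) (nat_lit 98) (nat_lit 5) (nat_lit 111) (nat_lit 5) (nat_lit 411) (nat_lit 395) (nat_lit 55)) (XT.nd (nat_lit 94) (nat_lit 0) (nat_lit 0) (XT.lf (nat_lit 0) (nat_lit 33289634596) (nat_lit 1092)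 (nat_lit 12317332253) (nat_lit 1092) (nat_lit 12317332253) (nat_lit 93) (nat_lit 3) (nat_lit 106) (nat_lit 3) (nat_lit 106) (nat_lit 5) (nat_lit 396) (nat_lit 396) (nat_lit 69)) (XT.lf (nat_lit 84) (nat_lit 16071731736) (nat_lit 0) (nat_lit 51702911839) (nat_lit 1092) (nat_lit 49864520671) (nat_lit 94) (nat_lit 5) (nat_lit 93) (nat_lit 3) (nat_lit 106) (nat_lit 5) (nat_lit 397) (nat_lit 396) (nat_lit 68))))) (XT.nd (nat_lit 282) (nat_lit 0) (nat_lit 84) (XT.nd (nat_lit 94) (nat_lit 0) (nat_lit 84) (XT.lf (nat_lit 84) (nat_lit 58562183760) (nat_lit 0) (nat_lit 10701865683) (nat_lit 1092) (nat_lit 50213223053) (nat_lit 94) (nat_lit 5) (nat_lit 93) (nat_lit 3) (nat_lit 106) (nat_lit 5) (nat_lit 398) (nat_lit 396) (nat_lit 67)) (XT.nd (nat_lit 94) (nat_lit 0) (nat_lit 0) (XT.lf (nat_lit 0) (nat_lit 71112652377) (nat_lit 1008) (nat_lit 19315791051) (nat_lit 1092) (nat_lit 30934215743) (nat_lit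 94) (nat_lit 5) (nat_lit 106) (nat_lit 5) (nat_lit 107) (nat_lit 5) (nat_lit 399) (nat_lit 396) (nat_lit 66)) (XT.lf (nat_lit 84) (nat_lit 23946002876) (nat_lit 0) (nat_lit 49419411072) (nat_lit 1092) (nat_lit 49930327308) (nat_lit 95) (nat_lit 5) (nat_lit 94) (nat_lit 5) (nat_lit 107) (nat_lit 5) (nat_lit 400) (nat_lit 396) (nat_lit 65)))) (XT.nd (nat_lit 94) (nat_lit 0) (nat_lit 84) (XT.lf (nat_lit 84) (nat_lit 68958312235) (nat_lit 0) (nat_lit 6931169534) (nat_lit 1092) (nat_lit 49393022333) (nat_lit 95) (nat_lit 5) (nat_lit 94) (nat_lit 5) (nat_lit 107) (nat_lit 5) (nat_lit 401) (nat_lit 396) (nat_lit 64)) (XT.nd (nat_lit 94) (nat_lit 0) (nat_lit 0) (XT.lf (nat_lit 0) (nat_lit 78857450798) (nat_lit 1008) (nat_lit 12330738154) (nat_lit 1092) (nat_lit 36131333120) (nat_lit 95) (nat_lit 5) (nat_lit 107) (nat_lit 5) (nat_lit 108) (nat_lit 5) (nat_lit 402) (nat_lit 396) (nat_lit 63))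 (XT.lf (nat_lit 84) (nat_lit 33633171119) (nat_lit 0) (nat_lit 48688653188) (nat_lit 1092) (nat_lit 47085327731) (nat_lit 96) (nat_lit 5) (nat_lit 95) (nat_lit 5) (nat_lit 108) (nat_lit 5) (nat_lit 403) (nat_lit 396) (nat_lit 62)))))) (XT.nd (nat_lit 564) (nat_lit 168) (nat_lit 0) (XT.nd (nat_lit 282) (nat_lit 0) (nat_lit 84) (XT.nd (nat_lit 94) (nat_lit 0) (nat_lit 84) (XT.lf (nat_lit 84) (nat_lit 81283282225) (nat_lit 0) (nat_lit 4738884737) (nat_lit 1092) (nat_lit 45533346528) (nat_lit 96) (nat_lit 5) (nat_lit 95) (nat_lit 5) (nat_lit 108) (nat_lit 5) (nat_lit 404) (nat_lit 396) (nat_lit 61)) (XT.nd (nat_lit 94) (nat_lit 0) (nat_lit 0) (XT.lf (nat_lit 0) (nat_lit 90239583119) (nat_lit 1008) (nat_lit 3762507000) (nat_lit 1092) (nat_lit 39755911493) (nat_lit 96) (nat_lit 5) (nat_lit 108) (nat_lit 5) (nat_lit 109) (nat_lit 5) (nat_lit 405) (nat_lit 396) (nat_lit 60)) (XT.lf (nat_lit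 84) (nat_lit 45048085010) (nat_lit 0) (nat_lit 50034878742) (nat_lit 1092) (nat_lit 40930451845) (nat_lit 97) (nat_lit 5) (nat_lit 96) (nat_lit 5) (nat_lit 109) (nat_lit 5) (nat_lit 406) (nat_lit 396) (nat_lit 59)))) (XT.nd (nat_lit 94) (nat_lit 0) (nat_lit 84) (XT.lf (nat_lit 84) (nat_lit 95451484817) (nat_lit 0) (nat_lit 4664154524) (nat_lit 1092) (nat_lit 38221895092) (nat_lit 97) (nat_lit 5) (nat_lit 96) (nat_lit 5) (nat_lit 109) (nat_lit 5) (nat_lit 407) (nat_lit 396) (nat_lit 58)) (XT.nd (nat_lit 94) (nat_lit 0) (nat_lit 0) (XT.lf (nat_lit 84) (nat_lit 6394674793) (nat_lit 0) (nat_lit 99390737200) (nat_lit 1092) (nat_lit 34933376004) (nat_lit 98) (nat_lit 5) (nat_lit 97) (nat_lit 5) (nat_lit 110) (nat_lit 5) (nat_lit 408) (nat_lit 396) (nat_lit 57)) (XT.lf (nat_lit 84) (nat_lit 58063494113) (nat_lit 0) (nat_lit 54062200349) (nat_lit 1092) (nat_lit 31032829441) (nat_lit 98) (nat_lit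 5) (nat_lit 97) (nat_lit 5) (nat_lit 110) (nat_lit 5) (nat_lit 409) (nat_lit 396) (nat_lit 56))))) (XT.nd (nat_lit 52828) (nat_lit 336) (nat_lit 0) (XT.nd (nat_lit 94) (nat_lit 0) (nat_lit 84) (XT.lf (nat_lit 84) (nat_lit 111333964333) (nat_lit 0) (nat_lit 7328448928) (nat_lit 1092) (nat_lit 27011482460) (nat_lit 98) (nat_lit 5) (nat_lit 97) (nat_lit 5) (nat_lit 110) (nat_lit 5) (nat_lit 410) (nat_lit 396) (nat_lit 55)) (XT.nd (nat_lit 94) (nat_lit 0) (nat_lit 0) (XT.lf (nat_lit 84) (nat_lit 17944760493) (nat_lit 0) (nat_lit 108040192557) (nat_lit 1092) (nat_lit 22264212945) (nat_lit 99) (nat_lit 5) (nat_lit 98) (nat_lit 5) (nat_lit 111) (nat_lit 5) (nat_lit 411) (nat_lit 396) (nat_lit 54)) (XT.lf (nat_lit 84) (nat_lit 72501688919) (nat_lit 0) (nat_lit 61465328756) (nat_lit 1092) (nat_lit 16923844242) (nat_lit 99) (nat_lit 5) (nat_lit 98) (nat_lit 5) (nat_lit 111) (nat_lit 5) (nat_lit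 412) (nat_lit 396) (nat_lit 53)))) (XT.nd (nat_lit 94) (nat_lit 0) (nat_lit 0) (XT.lf (nat_lit 0) (nat_lit 34325536106) (nat_lit 1092) (nat_lit 12697136456) (nat_lit 1092) (nat_lit 12697136456) (nat_lit 93) (nat_lit 3) (nat_lit 106) (nat_lit 3) (nat_lit 106) (nat_lit 5) (nat_lit 397) (nat_lit 397) (nat_lit 67)) (XT.nd (nat_lit 94) (nat_lit 0) (nat_lit 0) (XT.lf (nat_lit 84) (nat_lit 16573980447) (nat_lit 0) (nat_lit 53309326780) (nat_lit 1092) (nat_lit 51402391782) (nat_lit 94) (nat_lit 5) (nat_lit 93) (nat_lit 3) (nat_lit 106) (nat_lit 5) (nat_lit 398) (nat_lit 397) (nat_lit 66)) (XT.lf (nat_lit 84) (nat_lit 60381515459) (nat_lit 0) (nat_lit 11037139207) (nat_lit 1092) (nat_lit 51762142347) (nat_lit 94) (nat_lit 5) (nat_lit 93) (nat_lit 3) (nat_lit 106) (nat_lit 5) (nat_lit 399) (nat_lit 397) (nat_lit 65))))))) (XT.nd (nat_lit 1128) (nat_lit 84) (nat_lit 0) (XT.nd (nat_lit 564) (nat_lit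 0) (nat_lit 168) (XT.nd (nat_lit 282) (nat_lit 0) (nat_lit 84) (XT.nd (nat_lit 94) (nat_lit 0) (nat_lit 0) (XT.lf (nat_lit 0) (nat_lit 73324307370) (nat_lit 1008) (nat_lit 19910497345) (nat_lit 1092) (nat_lit 31889835156) (nat_lit 94) (nat_lit 5) (nat_lit 106) (nat_lit 5) (nat_lit 107) (nat_lit 5) (nat_lit 400) (nat_lit 397) (nat_lit 64)) (XT.nd (nat_lit 94) (nat_lit 0) (nat_lit 0) (XT.lf (nat_lit 84) (nat_lit 24692370854) (nat_lit 0) (nat_lit 50954358421) (nat_lit 1092) (nat_lit 51470924851) (nat_lit 95) (nat_lit 5) (nat_lit 94) (nat_lit 5) (nat_lit 107) (nat_lit 5) (nat_lit 401) (nat_lit 397) (nat_lit 63)) (XT.lf (nat_lit 84) (nat_lit 71099940272) (nat_lit 0) (nat_lit 7148892828) (nat_lit 1092) (nat_lit 50917181192) (nat_lit 95) (nat_lit 5) (nat_lit 94) (nat_lit 5) (nat_lit 107) (nat_lit 5) (nat_lit 402) (nat_lit 397) (nat_lit 62)))) (XT.nd (nat_lit 94) (nat_lit 0) (nat_lit 0) (XT.lf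 (nat_lit 0) (nat_lit 81308577897) (nat_lit 1008) (nat_lit 12708921068) (nat_lit 1092) (nat_lit 37248689146) (nat_lit 95) (nat_lit 5) (nat_lit 107) (nat_lit 5) (nat_lit 108) (nat_lit 5) (nat_lit 403) (nat_lit 397) (nat_lit 61)) (XT.nd (nat_lit 94) (nat_lit 0) (nat_lit 0) (XT.lf (nat_lit 84) (nat_lit 34679828188) (nat_lit 0) (nat_lit 50200361934) (nat_lit 1092) (nat_lit 48538350435) (nat_lit 96) (nat_lit 5) (nat_lit 95) (nat_lit 5) (nat_lit 108) (nat_lit 5) (nat_lit 404) (nat_lit 397) (nat_lit 60)) (XT.lf (nat_lit 84) (nat_lit 83806971601) (nat_lit 0) (nat_lit 4888079686) (nat_lit 1092) (nat_lit 46938456938) (nat_lit 96) (nat_lit 5) (nat_lit 95) (nat_lit 5) (nat_lit 108) (nat_lit 5) (nat_lit 405) (nat_lit 397) (nat_lit 59))))) (XT.nd (nat_lit 282) (nat_lit 0) (nat_lit 84) (XT.nd (nat_lit 94) (nat_lit 0) (nat_lit 0) (XT.lf (nat_lit 0) (nat_lit 93042998981) (nat_lit 1008) (nat_lit 3875113173)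 (nat_lit 1092) (nat_lit 40986168809) (nat_lit 96) (nat_lit 5) (nat_lit 108) (nat_lit 5) (nat_lit 109) (nat_lit 5) (nat_lit 406) (nat_lit 397) (nat_lit 58)) (XT.nd (nat_lit 94) (nat_lit 0) (nat_lit 0) (XT.lf (nat_lit 84) (nat_lit 46448566374) (nat_lit 0) (nat_lit 51587817558) (nat_lit 1092) (nat_lit 42193234199) (nat_lit 97) (nat_lit 5) (nat_lit 96) (nat_lit 5) (nat_lit 109) (nat_lit 5) (nat_lit 407) (nat_lit 397) (nat_lit 57)) (XT.lf (nat_lit 84) (nat_lit 98414351582) (nat_lit 0) (nat_lit 4810545036) (nat_lit 1092) (nat_lit 39400894448) (nat_lit 97) (nat_lit 5) (nat_lit 96) (nat_lit 5) (nat_lit 109) (nat_lit 5) (nat_lit 408) (nat_lit 397) (nat_lit 56)))) (XT.nd (nat_lit 94) (nat_lit 0) (nat_lit 0) (XT.lf (nat_lit 84) (nat_lit 6596963792) (nat_lit 0) (nat_lit 102473320754) (nat_lit 1092) (nat_lit 36010584459) (nat_lit 98) (nat_lit 5) (nat_lit 97) (nat_lit 5) (nat_lit 110) (nat_lit 5)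 (nat_lit 409) (nat_lit 397) (nat_lit 55)) (XT.nd (nat_lit 94) (nat_lit 0) (nat_lit 0) (XT.lf (nat_lit 84) (nat_lit 59867394613) (nat_lit 0) (nat_lit 55739555040) (nat_lit 1092) (nat_lit 31989293127) (nat_lit 98) (nat_lit 5) (nat_lit 97) (nat_lit 5) (nat_lit 110) (nat_lit 5) (nat_lit 410) (nat_lit 397) (nat_lit 54)) (XT.lf (nat_lit 84) (nat_lit 114789131177) (nat_lit 0) (nat_lit 7557014433) (nat_lit 1092) (nat_lit 27843451387) (nat_lit 98) (nat_lit 5) (nat_lit 97) (nat_lit 5) (nat_lit 110) (nat_lit 5) (nat_lit 411) (nat_lit 397) (nat_lit 53)))))) (XT.nd (nat_lit 53204) (nat_lit 0) (nat_lit 84) (XT.nd (nat_lit 52922) (nat_lit 0) (nat_lit 0) (XT.nd (nat_lit 52734) (nat_lit 420) (nat_lit 0) (XT.lf (nat_lit 84) (nat_lit 18505024564) (nat_lit 0) (nat_lit 111390529424) (nat_lit 1092) (nat_lit 22949151549) (nat_lit 99) (nat_lit 5) (nat_lit 98) (nat_lit 5) (nat_lit 111) (nat_lit 5) (nat_lit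 412) (nat_lit 397) (nat_lit 52)) (XT.nd (nat_lit 94) (nat_lit 0) (nat_lit 0) (XT.lf (nat_lit 0) (nat_lit 35393318206) (nat_lit 1092) (nat_lit 13088835014) (nat_lit 1092) (nat_lit 13088835014) (nat_lit 93) (nat_lit 3) (nat_lit 106) (nat_lit 3) (nat_lit 106) (nat_lit 5) (nat_lit 398) (nat_lit 398) (nat_lit 65)) (XT.lf (nat_lit 84) (nat_lit 17091560459) (nat_lit 0) (nat_lit 54965325889) (nat_lit 1092) (nat_lit 52988406547) (nat_lit 94) (nat_lit 5) (nat_lit 93) (nat_lit 3) (nat_lit 106) (nat_lit 5) (nat_lit 399) (nat_lit 398) (nat_lit 64)))) (XT.nd (nat_lit 94) (nat_lit 0) (nat_lit 84) (XT.lf (nat_lit 84) (nat_lit 62257015201) (nat_lit 0) (nat_lit 11382597971) (nat_lit 1092) (nat_lit 53359533668) (nat_lit 94) (nat_lit 5) (nat_lit 93) (nat_lit 3) (nat_lit 106) (nat_lit 5) (nat_lit 400) (nat_lit 398) (nat_lit 63)) (XT.nd (nat_lit 94) (nat_lit 0) (nat_lit 0) (XT.lf (nat_lit 0) (nat_lit 75604099404)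 (nat_lit 1008) (nat_lit 20523881391) (nat_lit 1092) (nat_lit 32875276680) (nat_lit 94) (nat_lit 5) (nat_lit 106) (nat_lit 5) (nat_lit 107) (nat_lit 5) (nat_lit 401) (nat_lit 398) (nat_lit 62)) (XT.lf (nat_lit 84) (nat_lit 25461636832) (nat_lit 0) (nat_lit 52536714665) (nat_lit 1092) (nat_lit 53059709909) (nat_lit 95) (nat_lit 5) (nat_lit 94) (nat_lit 5) (nat_lit 107) (nat_lit 5) (nat_lit 402) (nat_lit 398) (nat_lit 61))))) (XT.nd (nat_lit 282) (nat_lit 0) (nat_lit 84) (XT.nd (nat_lit 94) (nat_lit 0) (nat_lit 84) (XT.lf (nat_lit 84) (nat_lit 73307726570) (nat_lit 0) (nat_lit 7373196316) (nat_lit 1092) (nat_lit 52489005068) (nat_lit 95) (nat_lit 5) (nat_lit 94) (nat_lit 5) (nat_lit 107) (nat_lit 5) (nat_lit 403) (nat_lit 398) (nat_lit 60)) (XT.nd (nat_lit 94) (nat_lit 0) (nat_lit 0) (XT.lf (nat_lit 0) (nat_lit 83835302198) (nat_lit 1008) (nat_lit 13099068723) (nat_lit 1092) (nat_lit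 38400844040) (nat_lit 95) (nat_lit 5) (nat_lit 107) (nat_lit 5) (nat_lit 108) (nat_lit 5) (nat_lit 404) (nat_lit 398) (nat_lit 59)) (XT.lf (nat_lit 84) (nat_lit 35758692995) (nat_lit 0) (nat_lit 51758793836) (nat_lit 1092) (nat_lit 50036809103) (nat_lit 96) (nat_lit 5) (nat_lit 95) (nat_lit 5) (nat_lit 108) (nat_lit 5) (nat_lit 405) (nat_lit 398) (nat_lit 58)))) (XT.nd (nat_lit 188) (nat_lit 0) (nat_lit 84) (XT.nd (nat_lit 94) (nat_lit 0) (nat_lit 84) (XT.lf (nat_lit 84) (nat_lit 86408663893) (nat_lit 0) (nat_lit 5041764067) (nat_lit 1092) (nat_lit 48387506236) (nat_lit 96) (nat_lit 5) (nat_lit 95) (nat_lit 5) (nat_lit 108) (nat_lit 5) (nat_lit 406) (nat_lit 398) (nat_lit 57)) (XT.lf (nat_lit 0) (nat_lit 95932966009) (nat_lit 1008) (nat_lit 3991448933) (nat_lit 1092) (nat_lit 42254692987) (nat_lit 96) (nat_lit 5) (nat_lit 108) (nat_lit 5) (nat_lit 109) (nat_lit 5) (nat_lit 407) (nat_lit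 398) (nat_lit 56))) (XT.nd (nat_lit 94) (nat_lit 0) (nat_lit 0) (XT.lf (nat_lit 84) (nat_lit 47892226282) (nat_lit 0) (nat_lit 53188787451) (nat_lit 1092) (nat_lit 43495521847) (nat_lit 97) (nat_lit 5) (nat_lit 96) (nat_lit 5) (nat_lit 109) (nat_lit 5) (nat_lit 408) (nat_lit 398) (nat_lit 55)) (XT.lf (nat_lit 84) (nat_lit 101468837946) (nat_lit 0) (nat_lit 4961366936) (nat_lit 1092) (nat_lit 40616791030) (nat_lit 97) (nat_lit 5) (nat_lit 96) (nat_lit 5) (nat_lit 109) (nat_lit 5) (nat_lit 409) (nat_lit 398) (nat_lit 54))))))))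
noncomputable def xc252 : XT := (XT.nd (nat_lit 107818) (nat_lit 0) (nat_lit 0) (XT.nd (nat_lit 53862) (nat_lit 0) (nat_lit 0) (XT.nd (nat_lit 53298) (nat_lit 0) (nat_lit 84) (XT.nd (nat_lit 53016) (nat_lit 336) (nat_lit 0) (XT.nd (nat_lit 94) (nat_lit 0) (nat_lit 0) (XT.lf (nat_lit 84) (nat_lit 6805283619) (nat_lit 0) (nat_lit 105651377285) (nat_lit 1092) (nat_lit 37121525548) (nat_lit 98) (nat_lit 5) (nat_lit 97) (nat_lit 5) (nat_lit 110) (nat_lit 5) (nat_lit 410) (nat_lit 398) (nat_lit 53)) (XT.nd (nat_lit 94) (nat_lit 0) (nat_lit 0) (XT.lf (nat_lit 84) (nat_lit 61726983118) (nat_lit 0) (nat_lit 57468823232) (nat_lit 1092) (nat_lit 32975736161) (nat_lit 98) (nat_lit 5) (nat_lit 97) (nat_lit 5) (nat_lit 110) (nat_lit 5) (nat_lit 411) (nat_lit 398) (nat_lit 52)) (XT.lf (nat_lit 84) (nat_lit 118351182286) (nat_lit 0) (nat_lit 7792583516) (nat_lit 1092) (nat_lit 28701530434) (nat_lit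 98) (nat_lit 5) (nat_lit 97) (nat_lit 5) (nat_lit 110) (nat_lit 5) (nat_lit 412) (nat_lit 398) (nat_lit 51)))) (XT.nd (nat_lit 94) (nat_lit 0) (nat_lit 0) (XT.lf (nat_lit 0) (nat_lit 36493982959) (nat_lit 1092) (nat_lit 13492789517) (nat_lit 1092) (nat_lit 13492789517) (nat_lit 93) (nat_lit 3) (nat_lit 106) (nat_lit 3) (nat_lit 106) (nat_lit 5) (nat_lit 399) (nat_lit 399) (nat_lit 63)) (XT.nd (nat_lit 94) (nat_lit 0) (nat_lit 0) (XT.lf (nat_lit 84) (nat_lit 17624961163) (nat_lit 0) (nat_lit 56672458991) (nat_lit 1092) (nat_lit 54624029602) (nat_lit 94) (nat_lit 5) (nat_lit 93) (nat_lit 3) (nat_lit 106) (nat_lit 5) (nat_lit 400) (nat_lit 399) (nat_lit 62)) (XT.lf (nat_lit 84) (nat_lit 64190437890) (nat_lit 0) (nat_lit 11738570050) (nat_lit 1092) (nat_lit 55006872667) (nat_lit 94) (nat_lit 5) (nat_lit 93) (nat_lit 3) (nat_lit 106) (nat_lit 5) (nat_lit 401) (nat_lit 399) (nat_lit 61)))))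 (XT.nd (nat_lit 282) (nat_lit 0) (nat_lit 84) (XT.nd (nat_lit 94) (nat_lit 0) (nat_lit 0) (XT.lf (nat_lit 0) (nat_lit 77954165859) (nat_lit 1008) (nat_lit 21156507873) (nat_lit 1092) (nat_lit 33891453078) (nat_lit 94) (nat_lit 5) (nat_lit 106) (nat_lit 5) (nat_lit 107) (nat_lit 5) (nat_lit 402) (nat_lit 399) (nat_lit 60)) (XT.nd (nat_lit 94) (nat_lit 0) (nat_lit 0) (XT.lf (nat_lit 84) (nat_lit 26254524828) (nat_lit 0) (nat_lit 54167959814) (nat_lit 1092) (nat_lit 54698150887) (nat_lit 95) (nat_lit 5) (nat_lit 94) (nat_lit 5) (nat_lit 107) (nat_lit 5) (nat_lit 403) (nat_lit 399) (nat_lit 59)) (XT.lf (nat_lit 84) (nat_lit 75583735787) (nat_lit 0) (nat_lit 7604294009) (nat_lit 1092) (nat_lit 54109946931) (nat_lit 95) (nat_lit 5) (nat_lit 94) (nat_lit 5) (nat_lit 107) (nat_lit 5) (nat_lit 404) (nat_lit 399) (nat_lit 58)))) (XT.nd (nat_lit 94) (nat_lit 0) (nat_lit 0) (XT.lf (nat_lit 0)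 (nat_lit 86439990181) (nat_lit 1008) (nat_lit 13501537748) (nat_lit 1092) (nat_lit 39588867042) (nat_lit 95) (nat_lit 5) (nat_lit 107) (nat_lit 5) (nat_lit 108) (nat_lit 5) (nat_lit 405) (nat_lit 399) (nat_lit 57)) (XT.nd (nat_lit 94) (nat_lit 0) (nat_lit 0) (XT.lf (nat_lit 84) (nat_lit 36870778115) (nat_lit 0) (nat_lit 53365405592) (nat_lit 1092) (nat_lit 51582089014) (nat_lit 96) (nat_lit 5) (nat_lit 95) (nat_lit 5) (nat_lit 108) (nat_lit 5) (nat_lit 406) (nat_lit 399) (nat_lit 56)) (XT.lf (nat_lit 84) (nat_lit 89090790900) (nat_lit 0) (nat_lit 5200085084) (nat_lit 1092) (nat_lit 49881833991) (nat_lit 96) (nat_lit 5) (nat_lit 95) (nat_lit 5) (nat_lit 108) (nat_lit 5) (nat_lit 407) (nat_lit 399) (nat_lit 55)))))) (XT.nd (nat_lit 53392) (nat_lit 0) (nat_lit 0) (XT.nd (nat_lit 282) (nat_lit 252) (nat_lit 0) (XT.nd (nat_lit 94) (nat_lit 0) (nat_lit 0) (XT.lf (nat_lit 0) (nat_lit 98912188300)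 (nat_lit 1008) (nat_lit 4111615752) (nat_lit 1092) (nat_lit 43562662665) (nat_lit 96) (nat_lit 5) (nat_lit 108) (nat_lit 5) (nat_lit 109) (nat_lit 5) (nat_lit 408) (nat_lit 399) (nat_lit 54)) (XT.nd (nat_lit 94) (nat_lit 0) (nat_lit 0) (XT.lf (nat_lit 84) (nat_lit 49380417270) (nat_lit 0) (nat_lit 54839283900) (nat_lit 1092) (nat_lit 44838518189) (nat_lit 97) (nat_lit 5) (nat_lit 96) (nat_lit 5) (nat_lit 109) (nat_lit 5) (nat_lit 409) (nat_lit 399) (nat_lit 53)) (XT.lf (nat_lit 84) (nat_lit 104617797697) (nat_lit 0) (nat_lit 5116763916) (nat_lit 1092) (nat_lit 41870708025) (nat_lit 97) (nat_lit 5) (nat_lit 96) (nat_lit 5) (nat_lit 109) (nat_lit 5) (nat_lit 410) (nat_lit 399) (nat_lit 52)))) (XT.nd (nat_lit 94) (nat_lit 336) (nat_lit 0) (XT.lf (nat_lit 84) (nat_lit 7019835454) (nat_lit 0) (nat_lit 108927871617) (nat_lit 1092) (nat_lit 38267224894) (nat_lit 98) (nat_lit 5) (nat_lit 97)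 (nat_lit 5) (nat_lit 110) (nat_lit 5) (nat_lit 411) (nat_lit 399) (nat_lit 51)) (XT.nd (nat_lit 52922) (nat_lit 336) (nat_lit 0) (XT.lf (nat_lit 84) (nat_lit 63643999752) (nat_lit 0) (nat_lit 59251619251) (nat_lit 1092) (nat_lit 33993068418) (nat_lit 98) (nat_lit 5) (nat_lit 97) (nat_lit 5) (nat_lit 110) (nat_lit 5) (nat_lit 412) (nat_lit 399) (nat_lit 50)) (XT.lf (nat_lit 0) (nat_lit 37628562672) (nat_lit 1092) (nat_lit 13909373191) (nat_lit 1092) (nat_lit 13909373191) (nat_lit 93) (nat_lit 3) (nat_lit 106) (nat_lit 3) (nat_lit 106) (nat_lit 5) (nat_lit 400) (nat_lit 400) (nat_lit 61))))) (XT.nd (nat_lit 282) (nat_lit 0) (nat_lit 84) (XT.nd (nat_lit 94) (nat_lit 0) (nat_lit 0) (XT.lf (nat_lit 84) (nat_lit 18174686286) (nat_lit 0) (nat_lit 58432323205) (nat_lit 1092) (nat_lit 56310772634) (nat_lit 94) (nat_lit 5) (nat_lit 93) (nat_lit 3) (nat_lit 106) (nat_lit 5) (nat_lit 401) (nat_lit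 400) (nat_lit 60)) (XT.nd (nat_lit 94) (nat_lit 0) (nat_lit 84) (XT.lf (nat_lit 84) (nat_lit 66183592024) (nat_lit 0) (nat_lit 12105392961) (nat_lit 1092) (nat_lit 56705682338) (nat_lit 94) (nat_lit 5) (nat_lit 93) (nat_lit 3) (nat_lit 106) (nat_lit 5) (nat_lit 402) (nat_lit 400) (nat_lit 59)) (XT.lf (nat_lit 0) (nat_lit 80376708881) (nat_lit 1008) (nat_lit 21808959831) (nat_lit 1092) (nat_lit 34939306103) (nat_lit 94) (nat_lit 5) (nat_lit 106) (nat_lit 5) (nat_lit 107) (nat_lit 5) (nat_lit 403) (nat_lit 400) (nat_lit 58)))) (XT.nd (nat_lit 94) (nat_lit 0) (nat_lit 0) (XT.lf (nat_lit 84) (nat_lit 27071780465) (nat_lit 0) (nat_lit 55849619145) (nat_lit 1092) (nat_lit 56387763212) (nat_lit 95) (nat_lit 5) (nat_lit 94) (nat_lit 5) (nat_lit 107) (nat_lit 5) (nat_lit 404) (nat_lit 400) (nat_lit 57)) (XT.nd (nat_lit 94) (nat_lit 0) (nat_lit 84) (XT.lf (nat_lit 84) (nat_lit 77930095774) (nat_lit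 0) (nat_lit 7842405957) (nat_lit 1092) (nat_lit 55781506253) (nat_lit 95) (nat_lit 5) (nat_lit 94) (nat_lit 5) (nat_lit 107) (nat_lit 5) (nat_lit 405) (nat_lit 400) (nat_lit 56)) (XT.lf (nat_lit 0) (nat_lit 89125080325) (nat_lit 1008) (nat_lit 13916696672) (nat_lit 1092) (nat_lit 40813861101) (nat_lit 95) (nat_lit 5) (nat_lit 107) (nat_lit 5) (nat_lit 108) (nat_lit 5) (nat_lit 406) (nat_lit 400) (nat_lit 55))))))) (XT.nd (nat_lit 53956) (nat_lit 0) (nat_lit 0) (XT.nd (nat_lit 564) (nat_lit 168) (nat_lit 0) (XT.nd (nat_lit 282) (nat_lit 0) (nat_lit 84) (XT.nd (nat_lit 94) (nat_lit 0) (nat_lit 0) (XT.lf (nat_lit 84) (nat_lit 38017126675) (nat_lit 0) (nat_lit 55021698568) (nat_lit 1092) (nat_lit 53175619770) (nat_lit 96) (nat_lit 5) (nat_lit 95) (nat_lit 5) (nat_lit 108) (nat_lit 5) (nat_lit 407) (nat_lit 400) (nat_lit 54)) (XT.nd (nat_lit 94) (nat_lit 0) (nat_lit 84) (XT.lf (nat_lit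 84) (nat_lit 91855858995) (nat_lit 0) (nat_lit 5363194029) (nat_lit 1092) (nat_lit 51422822636) (nat_lit 96) (nat_lit 5) (nat_lit 95) (nat_lit 5) (nat_lit 108) (nat_lit 5) (nat_lit 408) (nat_lit 400) (nat_lit 53)) (XT.lf (nat_lit 0) (nat_lit 101983452533) (nat_lit 1008) (nat_lit 4235719087) (nat_lit 1092) (nat_lit 44911293472) (nat_lit 96) (nat_lit 5) (nat_lit 108) (nat_lit 5) (nat_lit 109) (nat_lit 5) (nat_lit 409) (nat_lit 400) (nat_lit 52)))) (XT.nd (nat_lit 94) (nat_lit 0) (nat_lit 0) (XT.lf (nat_lit 84) (nat_lit 50914532975) (nat_lit 0) (nat_lit 56540848360) (nat_lit 1092) (nat_lit 46223465185) (nat_lit 97) (nat_lit 5) (nat_lit 96) (nat_lit 5) (nat_lit 109) (nat_lit 5) (nat_lit 410) (nat_lit 400) (nat_lit 51)) (XT.nd (nat_lit 94) (nat_lit 0) (nat_lit 84) (XT.lf (nat_lit 84) (nat_lit 107864172286) (nat_lit 0) (nat_lit 5276883752) (nat_lit 1092) (nat_lit 43163804661) (nat_lit 97)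 (nat_lit 5) (nat_lit 96) (nat_lit 5) (nat_lit 109) (nat_lit 5) (nat_lit 411) (nat_lit 400) (nat_lit 50)) (XT.lf (nat_lit 84) (nat_lit 7240825869) (nat_lit 0) (nat_lit 112305860175) (nat_lit 1092) (nat_lit 39448741103) (nat_lit 98) (nat_lit 5) (nat_lit 97) (nat_lit 5) (nat_lit 110) (nat_lit 5) (nat_lit 412) (nat_lit 400) (nat_lit 49))))) (XT.nd (nat_lit 53110) (nat_lit 0) (nat_lit 0) (XT.nd (nat_lit 52922) (nat_lit 336) (nat_lit 0) (XT.lf (nat_lit 84) (nat_lit 65620237767) (nat_lit 0) (nat_lit 61089607167) (nat_lit 1092) (nat_lit 35042229133) (nat_lit 98) (nat_lit 5) (nat_lit 97) (nat_lit 5) (nat_lit 110) (nat_lit 5) (nat_lit 413) (nat_lit 400) (nat_lit 48)) (XT.nd (nat_lit 94) (nat_lit 0) (nat_lit 0) (XT.lf (nat_lit 0) (nat_lit 38798120892) (nat_lit 1092) (nat_lit 14338971226) (nat_lit 1092) (nat_lit 14338971226) (nat_lit 93) (nat_lit 3) (nat_lit 106) (nat_lit 3) (nat_lit 106) (nat_lit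 5) (nat_lit 401) (nat_lit 401) (nat_lit 59)) (XT.lf (nat_lit 84) (nat_lit 18741254383) (nat_lit 0) (nat_lit 60246564448) (nat_lit 1092) (nat_lit 58050195740) (nat_lit 94) (nat_lit 5) (nat_lit 93) (nat_lit 3) (nat_lit 106) (nat_lit 5) (nat_lit 402) (nat_lit 401) (nat_lit 58)))) (XT.nd (nat_lit 94) (nat_lit 0) (nat_lit 84) (XT.lf (nat_lit 84) (nat_lit 68238341400) (nat_lit 0) (nat_lit 12483413998) (nat_lit 1092) (nat_lit 58457534392) (nat_lit 94) (nat_lit 5) (nat_lit 93) (nat_lit 3) (nat_lit 106) (nat_lit 5) (nat_lit 403) (nat_lit 401) (nat_lit 57)) (XT.nd (nat_lit 94) (nat_lit 0) (nat_lit 0) (XT.lf (nat_lit 0) (nat_lit 82873997486) (nat_lit 1008) (nat_lit 22481839174) (nat_lit 1092) (nat_lit 36019807356) (nat_lit 94) (nat_lit 5) (nat_lit 106) (nat_lit 5) (nat_lit 107) (nat_lit 5) (nat_lit 404) (nat_lit 401) (nat_lit 56)) (XT.lf (nat_lit 84) (nat_lit 27914171690) (nat_lit 0) (nat_lit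 57583264646) (nat_lit 1092) (nat_lit 58130110707) (nat_lit 95) (nat_lit 5) (nat_lit 94) (nat_lit 5) (nat_lit 107) (nat_lit 5) (nat_lit 405) (nat_lit 401) (nat_lit 55)))))) (XT.nd (nat_lit 564) (nat_lit 84) (nat_lit 0) (XT.nd (nat_lit 282) (nat_lit 0) (nat_lit 84) (XT.nd (nat_lit 94) (nat_lit 0) (nat_lit 84) (XT.lf (nat_lit 84) (nat_lit 80348999577) (nat_lit 0) (nat_lit 8087758473) (nat_lit 1092) (nat_lit 57505230363) (nat_lit 95) (nat_lit 5) (nat_lit 94) (nat_lit 5) (nat_lit 107) (nat_lit 5) (nat_lit 406) (nat_lit 401) (nat_lit 54)) (XT.nd (nat_lit 94) (nat_lit 0) (nat_lit 0) (XT.lf (nat_lit 0) (nat_lit 91893085425) (nat_lit 1008) (nat_lit 14344926244) (nat_lit 1092) (nat_lit 42076963887) (nat_lit 95) (nat_lit 5) (nat_lit 107) (nat_lit 5) (nat_lit 108) (nat_lit 5) (nat_lit 407) (nat_lit 401) (nat_lit 53)) (XT.lf (nat_lit 84) (nat_lit 39198813352) (nat_lit 0) (nat_lit 56729220213) (nat_lit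 1092) (nat_lit 54818876583) (nat_lit 96) (nat_lit 5) (nat_lit 95) (nat_lit 5) (nat_lit 108) (nat_lit 5) (nat_lit 408) (nat_lit 401) (nat_lit 52)))) (XT.nd (nat_lit 94) (nat_lit 0) (nat_lit 84) (XT.lf (nat_lit 84) (nat_lit 94706451487) (nat_lit 0) (nat_lit 5531246438) (nat_lit 1092) (nat_lit 53011898712) (nat_lit 96) (nat_lit 5) (nat_lit 95) (nat_lit 5) (nat_lit 108) (nat_lit 5) (nat_lit 409) (nat_lit 401) (nat_lit 51)) (XT.nd (nat_lit 94) (nat_lit 0) (nat_lit 0) (XT.lf (nat_lit 0) (nat_lit 105149630605) (nat_lit 1008) (nat_lit 4363868452) (nat_lit 1092) (nat_lit 46301839146) (nat_lit 96) (nat_lit 5) (nat_lit 108) (nat_lit 5) (nat_lit 109) (nat_lit 5) (nat_lit 410) (nat_lit 401) (nat_lit 50)) (XT.lf (nat_lit 84) (nat_lit 52496009452) (nat_lit 0) (nat_lit 58295069707) (nat_lit 1092) (nat_lit 47651644485) (nat_lit 97) (nat_lit 5) (nat_lit 96) (nat_lit 5) (nat_lit 109) (nat_lit 5) (nat_lit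 411) (nat_lit 401) (nat_lit 49))))) (XT.nd (nat_lit 53110) (nat_lit 252) (nat_lit 0) (XT.nd (nat_lit 94) (nat_lit 0) (nat_lit 84) (XT.lf (nat_lit 84) (nat_lit 111210993592) (nat_lit 0) (nat_lit 5441878445) (nat_lit 1092) (nat_lit 44497277250) (nat_lit 97) (nat_lit 5) (nat_lit 96) (nat_lit 5) (nat_lit 109) (nat_lit 5) (nat_lit 412) (nat_lit 401) (nat_lit 48)) (XT.nd (nat_lit 94) (nat_lit 0) (nat_lit 0) (XT.lf (nat_lit 84) (nat_lit 7468467051) (nat_lit 0) (nat_lit 115788493847) (nat_lit 1092) (nat_lit 40667166717) (nat_lit 98) (nat_lit 5) (nat_lit 97) (nat_lit 5) (nat_lit 110) (nat_lit 5) (nat_lit 413) (nat_lit 401) (nat_lit 47)) (XT.lf (nat_lit 84) (nat_lit 67657545234) (nat_lit 0) (nat_lit 62984502357) (nat_lit 1092) (nat_lit 36124187741) (nat_lit 98) (nat_lit 5) (nat_lit 97) (nat_lit 5) (nat_lit 110) (nat_lit 5) (nat_lit 414) (nat_lit 401) (nat_lit 46)))) (XT.nd (nat_lit 188) (nat_lit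 0) (nat_lit 0) (XT.nd (nat_lit 94) (nat_lit 0) (nat_lit 0) (XT.lf (nat_lit 0) (nat_lit 40003753411) (nat_lit 1092) (nat_lit 14781981128) (nat_lit 1092) (nat_lit 14781981128) (nat_lit 93) (nat_lit 3) (nat_lit 106) (nat_lit 3) (nat_lit 106) (nat_lit 5) (nat_lit 402) (nat_lit 402) (nat_lit 57)) (XT.lf (nat_lit 84) (nat_lit 19325199344) (nat_lit 0) (nat_lit 62116878998) (nat_lit 1092) (nat_lit 59843908841) (nat_lit 94) (nat_lit 5) (nat_lit 93) (nat_lit 3) (nat_lit 106) (nat_lit 5) (nat_lit 403) (nat_lit 402) (nat_lit 56))) (XT.nd (nat_lit 94) (nat_lit 0) (nat_lit 84) (XT.lf (nat_lit 84) (nat_lit 70356606875) (nat_lit 0) (nat_lit 12872990571) (nat_lit 1092) (nat_lit 60264050677) (nat_lit 94) (nat_lit 5) (nat_lit 93) (nat_lit 3) (nat_lit 106) (nat_lit 5) (nat_lit 404) (nat_lit 402) (nat_lit 55)) (XT.lf (nat_lit 0) (nat_lit 85448369711) (nat_lit 1008) (nat_lit 23175767224) (nat_lit 1092)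 (nat_lit 37133959172) (nat_lit 94) (nat_lit 5) (nat_lit 106) (nat_lit 5) (nat_lit 107) (nat_lit 5) (nat_lit 405) (nat_lit 402) (nat_lit 54))))))))
noncomputable def xc253 : XT := (XT.nd (nat_lit 108100) (nat_lit 0) (nat_lit 0) (XT.nd (nat_lit 54050) (nat_lit 0) (nat_lit 0) (XT.nd (nat_lit 564) (nat_lit 84) (nat_lit 0) (XT.nd (nat_lit 282) (nat_lit 0) (nat_lit 84) (XT.nd (nat_lit 94) (nat_lit 0) (nat_lit 0) (XT.lf (nat_lit 84) (nat_lit 28782489513) (nat_lit 0) (nat_lit 59370516491) (nat_lit 1092) (nat_lit 59926807005) (nat_lit 95) (nat_lit 5) (nat_lit 94) (nat_lit 5) (nat_lit 107) (nat_lit 5) (nat_lit 406) (nat_lit 402) (nat_lit 53)) (XT.nd (nat_lit 94) (nat_lit 0) (nat_lit 84) (XT.lf (nat_lit 84) (nat_lit 82842707508) (nat_lit 0) (nat_lit 8340584360) (nat_lit 1092) (nat_lit 59282715847) (nat_lit 95) (nat_lit 5) (nat_lit 94) (nat_lit 5) (nat_lit 107) (nat_lit 5) (nat_lit 407) (nat_lit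 402) (nat_lit 52)) (XT.lf (nat_lit 0) (nat_lit 94746594965) (nat_lit 1008) (nat_lit 14786619764) (nat_lit 1092) (nat_lit 43379348841) (nat_lit 95) (nat_lit 5) (nat_lit 107) (nat_lit 5) (nat_lit 108) (nat_lit 5) (nat_lit 408) (nat_lit 402) (nat_lit 51)))) (XT.nd (nat_lit 94) (nat_lit 0) (nat_lit 0) (XT.lf (nat_lit 84) (nat_lit 40416945394) (nat_lit 0) (nat_lit 58489565510) (nat_lit 1092) (nat_lit 56513381615) (nat_lit 96) (nat_lit 5) (nat_lit 95) (nat_lit 5) (nat_lit 108) (nat_lit 5) (nat_lit 409) (nat_lit 402) (nat_lit 50)) (XT.nd (nat_lit 94) (nat_lit 0) (nat_lit 84) (XT.lf (nat_lit 84) (nat_lit 97645231045) (nat_lit 0) (nat_lit 5704402245) (nat_lit 1092) (nat_lit 54650534166) (nat_lit 96) (nat_lit 5) (nat_lit 95) (nat_lit 5) (nat_lit 108) (nat_lit 5) (nat_lit 410) (nat_lit 402) (nat_lit 49)) (XT.lf (nat_lit 0) (nat_lit 108413682339) (nat_lit 1008) (nat_lit 4496177497) (nat_lit 1092)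 (nat_lit 47735592691) (nat_lit 96) (nat_lit 5) (nat_lit 108) (nat_lit 5) (nat_lit 109) (nat_lit 5) (nat_lit 411) (nat_lit 402) (nat_lit 48))))) (XT.nd (nat_lit 53204) (nat_lit 252) (nat_lit 0) (XT.nd (nat_lit 94) (nat_lit 0) (nat_lit 0) (XT.lf (nat_lit 84) (nat_lit 54126326546) (nat_lit 0) (nat_lit 60103585731) (nat_lit 1092) (nat_lit 49124378582) (nat_lit 97) (nat_lit 5) (nat_lit 96) (nat_lit 5) (nat_lit 109) (nat_lit 5) (nat_lit 412) (nat_lit 402) (nat_lit 47)) (XT.nd (nat_lit 94) (nat_lit 0) (nat_lit 84) (XT.lf (nat_lit 84) (nat_lit 114661386770) (nat_lit 0) (nat_lit 5611904381) (nat_lit 1092) (nat_lit 45872360273) (nat_lit 97) (nat_lit 5) (nat_lit 96) (nat_lit 5) (nat_lit 109) (nat_lit 5) (nat_lit 413) (nat_lit 402) (nat_lit 46)) (XT.lf (nat_lit 84) (nat_lit 7702977013) (nat_lit 0) (nat_lit 119379020927) (nat_lit 1092) (nat_lit 41923629200) (nat_lit 98) (nat_lit 5) (nat_lit 97)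 (nat_lit 5) (nat_lit 110) (nat_lit 5) (nat_lit 414) (nat_lit 402) (nat_lit 45)))) (XT.nd (nat_lit 94) (nat_lit 0) (nat_lit 0) (XT.lf (nat_lit 0) (nat_lit 41246589312) (nat_lit 1092) (nat_lit 15238813079) (nat_lit 1092) (nat_lit 15238813079) (nat_lit 93) (nat_lit 3) (nat_lit 106) (nat_lit 3) (nat_lit 106) (nat_lit 5) (nat_lit 403) (nat_lit 403) (nat_lit 55)) (XT.nd (nat_lit 94) (nat_lit 0) (nat_lit 0) (XT.lf (nat_lit 84) (nat_lit 19927070913) (nat_lit 0) (nat_lit 64045015088) (nat_lit 1092) (nat_lit 61693573138) (nat_lit 94) (nat_lit 5) (nat_lit 93) (nat_lit 3) (nat_lit 106) (nat_lit 5) (nat_lit 404) (nat_lit 403) (nat_lit 54)) (XT.lf (nat_lit 84) (nat_lit 72540368177) (nat_lit 0) (nat_lit 13274490564) (nat_lit 1092) (nat_lit 62126904650) (nat_lit 94) (nat_lit 5) (nat_lit 93) (nat_lit 3) (nat_lit 106) (nat_lit 5) (nat_lit 405) (nat_lit 403) (nat_lit 53)))))) (XT.nd (nat_lit 564) (nat_lit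 84) (nat_lit 0) (XT.nd (nat_lit 282) (nat_lit 0) (nat_lit 84) (XT.nd (nat_lit 94) (nat_lit 0) (nat_lit 0) (XT.lf (nat_lit 0) (nat_lit 88102234832) (nat_lit 1008) (nat_lit 23891385270) (nat_lit 1092) (nat_lit 38282795534) (nat_lit 94) (nat_lit 5) (nat_lit 106) (nat_lit 5) (nat_lit 107) (nat_lit 5) (nat_lit 406) (nat_lit 403) (nat_lit 52)) (XT.nd (nat_lit 94) (nat_lit 0) (nat_lit 0) (XT.lf (nat_lit 84) (nat_lit 29677548767) (nat_lit 0) (nat_lit 61213044573) (nat_lit 1092) (nat_lit 61779517017) (nat_lit 95) (nat_lit 5) (nat_lit 94) (nat_lit 5) (nat_lit 107) (nat_lit 5) (nat_lit 407) (nat_lit 403) (nat_lit 51)) (XT.lf (nat_lit 84) (nat_lit 85413549268) (nat_lit 0) (nat_lit 8601123145) (nat_lit 1092) (nat_lit 61115610004) (nat_lit 95) (nat_lit 5) (nat_lit 94) (nat_lit 5) (nat_lit 107) (nat_lit 5) (nat_lit 408) (nat_lit 403) (nat_lit 50)))) (XT.nd (nat_lit 94) (nat_lit 0) (nat_lit 0) (XT.lf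 (nat_lit 0) (nat_lit 97688277574) (nat_lit 1008) (nat_lit 15242183431) (nat_lit 1092) (nat_lit 44722226246) (nat_lit 95) (nat_lit 5) (nat_lit 107) (nat_lit 5) (nat_lit 108) (nat_lit 5) (nat_lit 409) (nat_lit 403) (nat_lit 49)) (XT.nd (nat_lit 94) (nat_lit 0) (nat_lit 0) (XT.lf (nat_lit 84) (nat_lit 41672663682) (nat_lit 0) (nat_lit 60304378479) (nat_lit 1092) (nat_lit 58260705363) (nat_lit 96) (nat_lit 5) (nat_lit 95) (nat_lit 5) (nat_lit 108) (nat_lit 5) (nat_lit 410) (nat_lit 403) (nat_lit 48)) (XT.lf (nat_lit 84) (nat_lit 100674942209) (nat_lit 0) (nat_lit 5882825949) (nat_lit 1092) (nat_lit 56340247688) (nat_lit 96) (nat_lit 5) (nat_lit 95) (nat_lit 5) (nat_lit 108) (nat_lit 5) (nat_lit 411) (nat_lit 403) (nat_lit 47))))) (XT.nd (nat_lit 282) (nat_lit 252) (nat_lit 0) (XT.nd (nat_lit 94) (nat_lit 0) (nat_lit 0) (XT.lf (nat_lit 0) (nat_lit 111778658275) (nat_lit 1008) (nat_lit 4632764092)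 (nat_lit 1092) (nat_lit 49213887573) (nat_lit 96) (nat_lit 5) (nat_lit 108) (nat_lit 5) (nat_lit 109) (nat_lit 5) (nat_lit 412) (nat_lit 403) (nat_lit 46)) (XT.nd (nat_lit 94) (nat_lit 0) (nat_lit 0) (XT.lf (nat_lit 84) (nat_lit 55807009280) (nat_lit 0) (nat_lit 61968084671) (nat_lit 1092) (nat_lit 50643032017) (nat_lit 97) (nat_lit 5) (nat_lit 96) (nat_lit 5) (nat_lit 109) (nat_lit 5) (nat_lit 413) (nat_lit 403) (nat_lit 45)) (XT.lf (nat_lit 84) (nat_lit 118218573185) (nat_lit 0) (nat_lit 5787122479) (nat_lit 1092) (nat_lit 47290327495) (nat_lit 97) (nat_lit 5) (nat_lit 96) (nat_lit 5) (nat_lit 109) (nat_lit 5) (nat_lit 414) (nat_lit 403) (nat_lit 44)))) (XT.nd (nat_lit 53016) (nat_lit 336) (nat_lit 0) (XT.lf (nat_lit 84) (nat_lit 7944579831) (nat_lit 0) (nat_lit 123080790154) (nat_lit 1092) (nat_lit 43219291960) (nat_lit 98) (nat_lit 5) (nat_lit 97) (nat_lit 5) (nat_lit 110) (nat_lit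 5) (nat_lit 415) (nat_lit 403) (nat_lit 43)) (XT.nd (nat_lit 94) (nat_lit 0) (nat_lit 0) (XT.lf (nat_lit 0) (nat_lit 42527792043) (nat_lit 1092) (nat_lit 15709890305) (nat_lit 1092) (nat_lit 15709890305) (nat_lit 93) (nat_lit 3) (nat_lit 106) (nat_lit 3) (nat_lit 106) (nat_lit 5) (nat_lit 404) (nat_lit 404) (nat_lit 53)) (XT.lf (nat_lit 84) (nat_lit 20547435221) (nat_lit 0) (nat_lit 66032774557) (nat_lit 1092) (nat_lit 63600902617) (nat_lit 94) (nat_lit 5) (nat_lit 93) (nat_lit 3) (nat_lit 106) (nat_lit 5) (nat_lit 405) (nat_lit 404) (nat_lit 52))))))) (XT.nd (nat_lit 54144) (nat_lit 0) (nat_lit 0) (XT.nd (nat_lit 564) (nat_lit 0) (nat_lit 0) (XT.nd (nat_lit 282) (nat_lit 0) (nat_lit 84) (XT.nd (nat_lit 94) (nat_lit 0) (nat_lit 84) (XT.lf (nat_lit 84) (nat_lit 74791665768) (nat_lit 0) (nat_lit 13688292692) (nat_lit 1092) (nat_lit 64047822896) (nat_lit 94) (nat_lit 5) (nat_lit 93) (nat_lit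 3) (nat_lit 106) (nat_lit 5) (nat_lit 406) (nat_lit 404) (nat_lit 51)) (XT.nd (nat_lit 94) (nat_lit 0) (nat_lit 0) (XT.lf (nat_lit 0) (nat_lit 90838075647) (nat_lit 1008) (nat_lit 24629355144) (nat_lit 1092) (nat_lit 39467383026) (nat_lit 94) (nat_lit 5) (nat_lit 106) (nat_lit 5) (nat_lit 107) (nat_lit 5) (nat_lit 407) (nat_lit 404) (nat_lit 50)) (XT.lf (nat_lit 84) (nat_lit 30600188887) (nat_lit 0) (nat_lit 63112570069) (nat_lit 1092) (nat_lit 63689958441) (nat_lit 95) (nat_lit 5) (nat_lit 94) (nat_lit 5) (nat_lit 107) (nat_lit 5) (nat_lit 408) (nat_lit 404) (nat_lit 49)))) (XT.nd (nat_lit 94) (nat_lit 0) (nat_lit 84) (XT.lf (nat_lit 84) (nat_lit 88063926140) (nat_lit 0) (nat_lit 8869621313) (nat_lit 1092) (nat_lit 63005612340) (nat_lit 95) (nat_lit 5) (nat_lit 94) (nat_lit 5) (nat_lit 107) (nat_lit 5) (nat_lit 409) (nat_lit 404) (nat_lit 48)) (XT.nd (nat_lit 94) (nat_lit 0) (nat_lit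 0) (XT.lf (nat_lit 0) (nat_lit 100720883540) (nat_lit 1008) (nat_lit 15712036697) (nat_lit 1092) (nat_lit 46106844349) (nat_lit 95) (nat_lit 5) (nat_lit 107) (nat_lit 5) (nat_lit 108) (nat_lit 5) (nat_lit 410) (nat_lit 404) (nat_lit 47)) (XT.lf (nat_lit 84) (nat_lit 42967143803) (nat_lit 0) (nat_lit 62175353721) (nat_lit 1092) (nat_lit 60062468085) (nat_lit 96) (nat_lit 5) (nat_lit 95) (nat_lit 5) (nat_lit 108) (nat_lit 5) (nat_lit 411) (nat_lit 404) (nat_lit 46))))) (XT.nd (nat_lit 282) (nat_lit 168) (nat_lit 0) (XT.nd (nat_lit 94) (nat_lit 0) (nat_lit 84) (XT.lf (nat_lit 84) (nat_lit 103798413959) (nat_lit 0) (nat_lit 6066686773) (nat_lit 1092) (nat_lit 58082606089) (nat_lit 96) (nat_lit 5) (nat_lit 95) (nat_lit 5) (nat_lit 108) (nat_lit 5) (nat_lit 412) (nat_lit 404) (nat_lit 45)) (XT.nd (nat_lit 94) (nat_lit 0) (nat_lit 0) (XT.lf (nat_lit 0) (nat_lit 115247702549) (nat_lit 1008)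 (nat_lit 4773750419) (nat_lit 1092) (nat_lit 50738098947) (nat_lit 96) (nat_lit 5) (nat_lit 108) (nat_lit 5) (nat_lit 109) (nat_lit 5) (nat_lit 413) (nat_lit 404) (nat_lit 44)) (XT.lf (nat_lit 84) (nat_lit 57539629308) (nat_lit 0) (nat_lit 63890306801) (nat_lit 1092) (nat_lit 52209012619) (nat_lit 97) (nat_lit 5) (nat_lit 96) (nat_lit 5) (nat_lit 109) (nat_lit 5) (nat_lit 414) (nat_lit 404) (nat_lit 43)))) (XT.nd (nat_lit 53110) (nat_lit 252) (nat_lit 0) (XT.lf (nat_lit 84) (nat_lit 121885873435) (nat_lit 0) (nat_lit 5967698353) (nat_lit 1092) (nat_lit 48752493126) (nat_lit 97) (nat_lit 5) (nat_lit 96) (nat_lit 5) (nat_lit 109) (nat_lit 5) (nat_lit 415) (nat_lit 404) (nat_lit 42)) (XT.nd (nat_lit 94) (nat_lit 0) (nat_lit 0) (XT.lf (nat_lit 0) (nat_lit 43848560517) (nat_lit 1092) (nat_lit 16195649465) (nat_lit 1092) (nat_lit 16195649465) (nat_lit 93) (nat_lit 3) (nat_lit 106) (nat_lit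 3) (nat_lit 106) (nat_lit 5) (nat_lit 405) (nat_lit 405) (nat_lit 51)) (XT.lf (nat_lit 84) (nat_lit 21186875333) (nat_lit 0) (nat_lit 68082014545) (nat_lit 1092) (nat_lit 65567665614) (nat_lit 94) (nat_lit 5) (nat_lit 93) (nat_lit 3) (nat_lit 106) (nat_lit 5) (nat_lit 406) (nat_lit 405) (nat_lit 50)))))) (XT.nd (nat_lit 564) (nat_lit 0) (nat_lit 0) (XT.nd (nat_lit 282) (nat_lit 0) (nat_lit 84) (XT.nd (nat_lit 94) (nat_lit 0) (nat_lit 84) (XT.lf (nat_lit 84) (nat_lit 77112602771) (nat_lit 0) (nat_lit 14114786872) (nat_lit 1092) (nat_lit 66028586702) (nat_lit 94) (nat_lit 5) (nat_lit 93) (nat_lit 3) (nat_lit 106) (nat_lit 5) (nat_lit 407) (nat_lit 405) (nat_lit 49)) (XT.nd (nat_lit 94) (nat_lit 0) (nat_lit 0) (XT.lf (nat_lit 0) (nat_lit 93658450824) (nat_lit 1008) (nat_lit 25390359823) (nat_lit 1092) (nat_lit 40688821807) (nat_lit 94) (nat_lit 5) (nat_lit 106) (nat_lit 5) (nat_lit 107)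 (nat_lit 5) (nat_lit 408) (nat_lit 405) (nat_lit 48)) (XT.lf (nat_lit 84) (nat_lit 31551274709) (nat_lit 0) (nat_lit 65070867066) (nat_lit 1092) (nat_lit 65659903337) (nat_lit 95) (nat_lit 5) (nat_lit 94) (nat_lit 5) (nat_lit 107) (nat_lit 5) (nat_lit 409) (nat_lit 405) (nat_lit 47)))) (XT.nd (nat_lit 94) (nat_lit 0) (nat_lit 84) (XT.lf (nat_lit 84) (nat_lit 90796313249) (nat_lit 0) (nat_lit 9146332556) (nat_lit 1092) (nat_lit 64954476122) (nat_lit 95) (nat_lit 5) (nat_lit 94) (nat_lit 5) (nat_lit 107) (nat_lit 5) (nat_lit 410) (nat_lit 405) (nat_lit 46)) (XT.nd (nat_lit 94) (nat_lit 0) (nat_lit 0) (XT.lf (nat_lit 0) (nat_lit 103847247410) (nat_lit 1008) (nat_lit 16196612640) (nat_lit 1092) (nat_lit 47534490507) (nat_lit 95) (nat_lit 5) (nat_lit 107) (nat_lit 5) (nat_lit 108) (nat_lit 5) (nat_lit 411) (nat_lit 405) (nat_lit 45)) (XT.lf (nat_lit 84) (nat_lit 44301597174) (nat_lit 0)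 (nat_lit 64104238008) (nat_lit 1092) (nat_lit 61920341282) (nat_lit 96) (nat_lit 5) (nat_lit 95) (nat_lit 5) (nat_lit 108) (nat_lit 5) (nat_lit 412) (nat_lit 405) (nat_lit 44))))) (XT.nd (nat_lit 282) (nat_lit 168) (nat_lit 0) (XT.nd (nat_lit 94) (nat_lit 0) (nat_lit 84) (XT.lf (nat_lit 84) (nat_lit 107018562380) (nat_lit 0) (nat_lit 6256158837) (nat_lit 1092) (nat_lit 59879225739) (nat_lit 96) (nat_lit 5) (nat_lit 95) (nat_lit 5) (nat_lit 108) (nat_lit 5) (nat_lit 413) (nat_lit 405) (nat_lit 43)) (XT.nd (nat_lit 94) (nat_lit 0) (nat_lit 0) (XT.lf (nat_lit 0) (nat_lit 118824055844) (nat_lit 1008) (nat_lit 4919263063) (nat_lit 1092) (nat_lit 52309644931) (nat_lit 96) (nat_lit 5) (nat_lit 108) (nat_lit 5) (nat_lit 109) (nat_lit 5) (nat_lit 414) (nat_lit 405) (nat_lit 42)) (XT.lf (nat_lit 84) (nat_lit 59325806392) (nat_lit 0) (nat_lit 65872046057) (nat_lit 1092) (nat_lit 53823772785)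 (nat_lit 97) (nat_lit 5) (nat_lit 96) (nat_lit 5) (nat_lit 109) (nat_lit 5) (nat_lit 415) (nat_lit 405) (nat_lit 41)))) (XT.nd (nat_lit 53204) (nat_lit 0) (nat_lit 0) (XT.nd (nat_lit 53110) (nat_lit 252) (nat_lit 0) (XT.lf (nat_lit 84) (nat_lit 125666710463) (nat_lit 0) (nat_lit 6153802478) (nat_lit 1092) (nat_lit 50260213017) (nat_lit 97) (nat_lit 5) (nat_lit 96) (nat_lit 5) (nat_lit 109) (nat_lit 5) (nat_lit 416) (nat_lit 405) (nat_lit 40)) (XT.lf (nat_lit 0) (nat_lit 45210130247) (nat_lit 1092) (nat_lit 16696541047) (nat_lit 1092) (nat_lit 16696541047) (nat_lit 93) (nat_lit 3) (nat_lit 106) (nat_lit 3) (nat_lit 106) (nat_lit 5) (nat_lit 406) (nat_lit 406) (nat_lit 49))) (XT.nd (nat_lit 94) (nat_lit 0) (nat_lit 0) (XT.lf (nat_lit 84) (nat_lit 21845991808) (nat_lit 0) (nat_lit 70194649244) (nat_lit 1092) (nat_lit 67595686426) (nat_lit 94) (nat_lit 5) (nat_lit 93) (nat_lit 3) (nat_lit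 106) (nat_lit 5) (nat_lit 407) (nat_lit 406) (nat_lit 48)) (XT.lf (nat_lit 84) (nat_lit 79505346939) (nat_lit 0) (nat_lit 14554374603) (nat_lit 1092) (nat_lit 68071033683) (nat_lit 94) (nat_lit 5) (nat_lit 93) (nat_lit 3) (nat_lit 106) (nat_lit 5) (nat_lit 408) (nat_lit 406) (nat_lit 47))))))))
noncomputable def xc254 : XT := (XT.nd (nat_lit 108570) (nat_lit 0) (nat_lit 0) (XT.nd (nat_lit 54238) (nat_lit 0) (nat_lit 0) (XT.nd (nat_lit 564) (nat_lit 84) (nat_lit 0) (XT.nd (nat_lit 282) (nat_lit 0) (nat_lit 84) (XT.nd (nat_lit 94) (nat_lit 0) (nat_lit 0) (XT.lf (nat_lit 0) (nat_lit 96565997318) (nat_lit 1008) (nat_lit 26175104042) (nat_lit 1092) (nat_lit 41948246620) (nat_lit 94) (nat_lit 5) (nat_lit 106) (nat_lit 5) (nat_lit 107) (nat_lit 5) (nat_lit 409) (nat_lit 406) (nat_lit 46)) (XT.nd (nat_lit 94) (nat_lit 0) (nat_lit 0) (XT.lf (nat_lit 84) (nat_lit 32531697298) (nat_lit 0) (nat_lit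 67089764218) (nat_lit 1092) (nat_lit 67691179739) (nat_lit 95) (nat_lit 5) (nat_lit 94) (nat_lit 5) (nat_lit 107) (nat_lit 5) (nat_lit 410) (nat_lit 406) (nat_lit 45)) (XT.lf (nat_lit 84) (nat_lit 93613261883) (nat_lit 0) (nat_lit 9431518015) (nat_lit 1092) (nat_lit 66964009983) (nat_lit 95) (nat_lit 5) (nat_lit 94) (nat_lit 5) (nat_lit 107) (nat_lit 5) (nat_lit 411) (nat_lit 406) (nat_lit 44)))) (XT.nd (nat_lit 94) (nat_lit 0) (nat_lit 0) (XT.lf (nat_lit 0) (nat_lit 107070290656) (nat_lit 1008) (nat_lit 16696358350) (nat_lit 1092) (nat_lit 49006492378) (nat_lit 95) (nat_lit 5) (nat_lit 107) (nat_lit 5) (nat_lit 108) (nat_lit 5) (nat_lit 412) (nat_lit 406) (nat_lit 43)) (XT.nd (nat_lit 94) (nat_lit 0) (nat_lit 0) (XT.lf (nat_lit 84) (nat_lit 45677272184) (nat_lit 0) (nat_lit 66092831921) (nat_lit 1092) (nat_lit 63836049224) (nat_lit 96) (nat_lit 5) (nat_lit 95) (nat_lit 5) (nat_lit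 108) (nat_lit 5) (nat_lit 413) (nat_lit 406) (nat_lit 42)) (XT.lf (nat_lit 84) (nat_lit 110338393388) (nat_lit 0) (nat_lit 6451421327) (nat_lit 1092) (nat_lit 61731774038) (nat_lit 96) (nat_lit 5) (nat_lit 95) (nat_lit 5) (nat_lit 108) (nat_lit 5) (nat_lit 414) (nat_lit 406) (nat_lit 41))))) (XT.nd (nat_lit 53392) (nat_lit 0) (nat_lit 0) (XT.nd (nat_lit 94) (nat_lit 252) (nat_lit 0) (XT.lf (nat_lit 0) (nat_lit 122511058443) (nat_lit 1008) (nat_lit 5069433116) (nat_lit 1092) (nat_lit 53929987920) (nat_lit 96) (nat_lit 5) (nat_lit 108) (nat_lit 5) (nat_lit 109) (nat_lit 5) (nat_lit 415) (nat_lit 406) (nat_lit 40)) (XT.nd (nat_lit 53204) (nat_lit 252) (nat_lit 0) (XT.lf (nat_lit 84) (nat_lit 61167209932) (nat_lit 0) (nat_lit 67915151721) (nat_lit 1092) (nat_lit 55488810812) (nat_lit 97) (nat_lit 5) (nat_lit 96) (nat_lit 5) (nat_lit 109) (nat_lit 5) (nat_lit 416) (nat_lit 406) (nat_lit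 39)) (XT.lf (nat_lit 0) (nat_lit 46613774517) (nat_lit 1092) (nat_lit 17213029780) (nat_lit 1092) (nat_lit 17213029780) (nat_lit 93) (nat_lit 3) (nat_lit 106) (nat_lit 3) (nat_lit 106) (nat_lit 5) (nat_lit 407) (nat_lit 407) (nat_lit 47)))) (XT.nd (nat_lit 94) (nat_lit 0) (nat_lit 0) (XT.lf (nat_lit 84) (nat_lit 22525403279) (nat_lit 0) (nat_lit 72372651690) (nat_lit 1092) (nat_lit 69686846976) (nat_lit 94) (nat_lit 5) (nat_lit 93) (nat_lit 3) (nat_lit 106) (nat_lit 5) (nat_lit 408) (nat_lit 407) (nat_lit 46)) (XT.nd (nat_lit 94) (nat_lit 0) (nat_lit 84) (XT.lf (nat_lit 84) (nat_lit 81972132699) (nat_lit 0) (nat_lit 15007469353) (nat_lit 1092) (nat_lit 70177059462) (nat_lit 94) (nat_lit 5) (nat_lit 93) (nat_lit 3) (nat_lit 106) (nat_lit 5) (nat_lit 409) (nat_lit 407) (nat_lit 45)) (XT.lf (nat_lit 0) (nat_lit 99563432859) (nat_lit 1008) (nat_lit 26984314938) (nat_lit 1092) (nat_lit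 43246827841) (nat_lit 94) (nat_lit 5) (nat_lit 106) (nat_lit 5) (nat_lit 107) (nat_lit 5) (nat_lit 410) (nat_lit 407) (nat_lit 44)))))) (XT.nd (nat_lit 53768) (nat_lit 84) (nat_lit 0) (XT.nd (nat_lit 282) (nat_lit 0) (nat_lit 84) (XT.nd (nat_lit 94) (nat_lit 0) (nat_lit 0) (XT.lf (nat_lit 84) (nat_lit 33542374796) (nat_lit 0) (nat_lit 69171146472) (nat_lit 1092) (nat_lit 69785673334) (nat_lit 95) (nat_lit 5) (nat_lit 94) (nat_lit 5) (nat_lit 107) (nat_lit 5) (nat_lit 411) (nat_lit 407) (nat_lit 43)) (XT.nd (nat_lit 94) (nat_lit 0) (nat_lit 84) (XT.lf (nat_lit 84) (nat_lit 96517401888) (nat_lit 0) (nat_lit 9725446541) (nat_lit 1092) (nat_lit 69036079572) (nat_lit 95) (nat_lit 5) (nat_lit 94) (nat_lit 5) (nat_lit 107) (nat_lit 5) (nat_lit 412) (nat_lit 407) (nat_lit 42)) (XT.lf (nat_lit 0) (nat_lit 110393024432) (nat_lit 1008) (nat_lit 17211735329) (nat_lit 1092) (nat_lit 50524219142)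 (nat_lit 95) (nat_lit 5) (nat_lit 107) (nat_lit 5) (nat_lit 108) (nat_lit 5) (nat_lit 413) (nat_lit 407) (nat_lit 41)))) (XT.nd (nat_lit 94) (nat_lit 0) (nat_lit 0) (XT.lf (nat_lit 84) (nat_lit 47095455375) (nat_lit 0) (nat_lit 68142991541) (nat_lit 1092) (nat_lit 65811370534) (nat_lit 96) (nat_lit 5) (nat_lit 95) (nat_lit 5) (nat_lit 108) (nat_lit 5) (nat_lit 414) (nat_lit 407) (nat_lit 40)) (XT.nd (nat_lit 94) (nat_lit 0) (nat_lit 84) (XT.lf (nat_lit 84) (nat_lit 113761005556) (nat_lit 0) (nat_lit 6652658676) (nat_lit 1092) (nat_lit 63641970948) (nat_lit 96) (nat_lit 5) (nat_lit 95) (nat_lit 5) (nat_lit 108) (nat_lit 5) (nat_lit 415) (nat_lit 407) (nat_lit 39)) (XT.lf (nat_lit 0) (nat_lit 126312153366) (nat_lit 1008) (nat_lit 5224396279) (nat_lit 1092) (nat_lit 55600635938) (nat_lit 96) (nat_lit 5) (nat_lit 108) (nat_lit 5) (nat_lit 109) (nat_lit 5) (nat_lit 416) (nat_lit 407) (nat_lit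 38))))) (XT.nd (nat_lit 282) (nat_lit 0) (nat_lit 84) (XT.nd (nat_lit 94) (nat_lit 0) (nat_lit 0) (XT.lf (nat_lit 0) (nat_lit 48060805583) (nat_lit 1092) (nat_lit 17745595058) (nat_lit 1092) (nat_lit 17745595058) (nat_lit 93) (nat_lit 3) (nat_lit 106) (nat_lit 3) (nat_lit 106) (nat_lit 5) (nat_lit 408) (nat_lit 408) (nat_lit 45)) (XT.nd (nat_lit 94) (nat_lit 0) (nat_lit 0) (XT.lf (nat_lit 84) (nat_lit 23225747041) (nat_lit 0) (nat_lit 74618055626) (nat_lit 1092) (nat_lit 71843088538) (nat_lit 94) (nat_lit 5) (nat_lit 93) (nat_lit 3) (nat_lit 106) (nat_lit 5) (nat_lit 409) (nat_lit 408) (nat_lit 44)) (XT.lf (nat_lit 84) (nat_lit 84515263246) (nat_lit 0) (nat_lit 15474496958) (nat_lit 1092) (nat_lit 72348619407) (nat_lit 94) (nat_lit 5) (nat_lit 93) (nat_lit 3) (nat_lit 106) (nat_lit 5) (nat_lit 410) (nat_lit 408) (nat_lit 43)))) (XT.nd (nat_lit 94) (nat_lit 0) (nat_lit 0) (XT.lf (nat_lit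 0) (nat_lit 102653558513) (nat_lit 1008) (nat_lit 27818742707) (nat_lit 1092) (nat_lit 44585772551) (nat_lit 94) (nat_lit 5) (nat_lit 106) (nat_lit 5) (nat_lit 107) (nat_lit 5) (nat_lit 411) (nat_lit 408) (nat_lit 42)) (XT.nd (nat_lit 94) (nat_lit 0) (nat_lit 0) (XT.lf (nat_lit 84) (nat_lit 34584253290) (nat_lit 0) (nat_lit 71316956831) (nat_lit 1092) (nat_lit 71945329187) (nat_lit 95) (nat_lit 5) (nat_lit 94) (nat_lit 5) (nat_lit 107) (nat_lit 5) (nat_lit 412) (nat_lit 408) (nat_lit 41)) (XT.lf (nat_lit 84) (nat_lit 99511444135) (nat_lit 0) (nat_lit 10028394955) (nat_lit 1092) (nat_lit 71172609270) (nat_lit 95) (nat_lit 5) (nat_lit 94) (nat_lit 5) (nat_lit 107) (nat_lit 5) (nat_lit 413) (nat_lit 408) (nat_lit 40))))))) (XT.nd (nat_lit 107724) (nat_lit 0) (nat_lit 0) (XT.nd (nat_lit 53862) (nat_lit 0) (nat_lit 84) (XT.nd (nat_lit 53580) (nat_lit 168) (nat_lit 0) (XT.nd (nat_lit 94)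 (nat_lit 0) (nat_lit 0) (XT.lf (nat_lit 0) (nat_lit 113818552400) (nat_lit 1008) (nat_lit 17743219904) (nat_lit 1092) (nat_lit 52089082773) (nat_lit 95) (nat_lit 5) (nat_lit 107) (nat_lit 5) (nat_lit 108) (nat_lit 5) (nat_lit 414) (nat_lit 408) (nat_lit 39)) (XT.nd (nat_lit 94) (nat_lit 0) (nat_lit 0) (XT.lf (nat_lit 84) (nat_lit 48557472662) (nat_lit 0) (nat_lit 70256630183) (nat_lit 1092) (nat_lit 67848139815) (nat_lit 96) (nat_lit 5) (nat_lit 95) (nat_lit 5) (nat_lit 108) (nat_lit 5) (nat_lit 415) (nat_lit 408) (nat_lit 38)) (XT.lf (nat_lit 84) (nat_lit 117289593013) (nat_lit 0) (nat_lit 6860060741) (nat_lit 1092) (nat_lit 65611590568) (nat_lit 96) (nat_lit 5) (nat_lit 95) (nat_lit 5) (nat_lit 108) (nat_lit 5) (nat_lit 416) (nat_lit 408) (nat_lit 37)))) (XT.nd (nat_lit 94) (nat_lit 0) (nat_lit 0) (XT.lf (nat_lit 0) (nat_lit 49552575908) (nat_lit 1092) (nat_lit 18294731380) (nat_lit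 1092) (nat_lit 18294731380) (nat_lit 93) (nat_lit 3) (nat_lit 106) (nat_lit 3) (nat_lit 106) (nat_lit 5) (nat_lit 409) (nat_lit 409) (nat_lit 43)) (XT.nd (nat_lit 94) (nat_lit 0) (nat_lit 0) (XT.lf (nat_lit 84) (nat_lit 23947679664) (nat_lit 0) (nat_lit 76932957402) (nat_lit 1092) (nat_lit 74066413519) (nat_lit 94) (nat_lit 5) (nat_lit 93) (nat_lit 3) (nat_lit 106) (nat_lit 5) (nat_lit 410) (nat_lit 409) (nat_lit 42)) (XT.lf (nat_lit 84) (nat_lit 87137112706) (nat_lit 0) (nat_lit 15955896035) (nat_lit 1092) (nat_lit 74587730426) (nat_lit 94) (nat_lit 5) (nat_lit 93) (nat_lit 3) (nat_lit 106) (nat_lit 5) (nat_lit 411) (nat_lit 409) (nat_lit 41))))) (XT.nd (nat_lit 282) (nat_lit 0) (nat_lit 84) (XT.nd (nat_lit 94) (nat_lit 0) (nat_lit 0) (XT.lf (nat_lit 0) (nat_lit 105839261319) (nat_lit 1008) (nat_lit 28679161294) (nat_lit 1092) (nat_lit 45966325653) (nat_lit 94) (nat_lit 5) (nat_lit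 106) (nat_lit 5) (nat_lit 107) (nat_lit 5) (nat_lit 412) (nat_lit 409) (nat_lit 40)) (XT.nd (nat_lit 94) (nat_lit 0) (nat_lit 0) (XT.lf (nat_lit 84) (nat_lit 35658307711) (nat_lit 0) (nat_lit 73529198178) (nat_lit 1092) (nat_lit 74172153531) (nat_lit 95) (nat_lit 5) (nat_lit 94) (nat_lit 5) (nat_lit 107) (nat_lit 5) (nat_lit 413) (nat_lit 409) (nat_lit 39)) (XT.lf (nat_lit 84) (nat_lit 102598183063) (nat_lit 0) (nat_lit 10340648317) (nat_lit 1092) (nat_lit 73375583958) (nat_lit 95) (nat_lit 5) (nat_lit 94) (nat_lit 5) (nat_lit 107) (nat_lit 5) (nat_lit 414) (nat_lit 409) (nat_lit 38)))) (XT.nd (nat_lit 94) (nat_lit 0) (nat_lit 0) (XT.lf (nat_lit 0) (nat_lit 117350073652) (nat_lit 1008) (nat_lit 18291303657) (nat_lit 1092) (nat_lit 53702539340) (nat_lit 95) (nat_lit 5) (nat_lit 107) (nat_lit 5) (nat_lit 108) (nat_lit 5) (nat_lit 415) (nat_lit 409) (nat_lit 37)) (XT.nd (nat_lit 94) (nat_lit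 0) (nat_lit 0) (XT.lf (nat_lit 84) (nat_lit 50064690575) (nat_lit 0) (nat_lit 72435720196) (nat_lit 1092) (nat_lit 69948249337) (nat_lit 96) (nat_lit 5) (nat_lit 95) (nat_lit 5) (nat_lit 108) (nat_lit 5) (nat_lit 416) (nat_lit 409) (nat_lit 36)) (XT.lf (nat_lit 84) (nat_lit 120927448438) (nat_lit 0) (nat_lit 7073822989) (nat_lit 1092) (nat_lit 67642462763) (nat_lit 96) (nat_lit 5) (nat_lit 95) (nat_lit 5) (nat_lit 108) (nat_lit 5) (nat_lit 417) (nat_lit 409) (nat_lit 35)))))) (XT.nd (nat_lit 564) (nat_lit 0) (nat_lit 0) (XT.nd (nat_lit 282) (nat_lit 0) (nat_lit 84) (XT.nd (nat_lit 94) (nat_lit 0) (nat_lit 0) (XT.lf (nat_lit 0) (nat_lit 51090479440) (nat_lit 1092) (nat_lit 18860948804) (nat_lit 1092) (nat_lit 18860948804) (nat_lit 93) (nat_lit 3) (nat_lit 106) (nat_lit 3) (nat_lit 106) (nat_lit 5) (nat_lit 410) (nat_lit 410) (nat_lit 41)) (XT.nd (nat_lit 94) (nat_lit 0) (nat_lit 0)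 (XT.lf (nat_lit 84) (nat_lit 24691877617) (nat_lit 0) (nat_lit 79319517948) (nat_lit 1092) (nat_lit 76358887292) (nat_lit 94) (nat_lit 5) (nat_lit 93) (nat_lit 3) (nat_lit 106) (nat_lit 5) (nat_lit 411) (nat_lit 410) (nat_lit 40)) (XT.lf (nat_lit 84) (nat_lit 89840128363) (nat_lit 0) (nat_lit 16452118402) (nat_lit 1092) (nat_lit 76896472818) (nat_lit 94) (nat_lit 5) (nat_lit 93) (nat_lit 3) (nat_lit 106) (nat_lit 5) (nat_lit 412) (nat_lit 410) (nat_lit 39)))) (XT.nd (nat_lit 94) (nat_lit 0) (nat_lit 0) (XT.lf (nat_lit 0) (nat_lit 109123517008) (nat_lit 1008) (nat_lit 29566369095) (nat_lit 1092) (nat_lit 47389771017) (nat_lit 94) (nat_lit 5) (nat_lit 106) (nat_lit 5) (nat_lit 107) (nat_lit 5) (nat_lit 413) (nat_lit 410) (nat_lit 38)) (XT.nd (nat_lit 94) (nat_lit 0) (nat_lit 0) (XT.lf (nat_lit 84) (nat_lit 36765542757) (nat_lit 0) (nat_lit 75809935153) (nat_lit 1092) (nat_lit 76468215606)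 (nat_lit 95) (nat_lit 5) (nat_lit 94) (nat_lit 5) (nat_lit 107) (nat_lit 5) (nat_lit 414) (nat_lit 410) (nat_lit 37)) (XT.lf (nat_lit 84) (nat_lit 105780499296) (nat_lit 0) (nat_lit 10662500202) (nat_lit 1092) (nat_lit 75647050840) (nat_lit 95) (nat_lit 5) (nat_lit 94) (nat_lit 5) (nat_lit 107) (nat_lit 5) (nat_lit 415) (nat_lit 410) (nat_lit 36))))) (XT.nd (nat_lit 53580) (nat_lit 168) (nat_lit 0) (XT.nd (nat_lit 94) (nat_lit 0) (nat_lit 0) (XT.lf (nat_lit 0) (nat_lit 120990885712) (nat_lit 1008) (nat_lit 18856493867) (nat_lit 1092) (nat_lit 55366090359) (nat_lit 95) (nat_lit 5) (nat_lit 107) (nat_lit 5) (nat_lit 108) (nat_lit 5) (nat_lit 416) (nat_lit 410) (nat_lit 35)) (XT.nd (nat_lit 94) (nat_lit 0) (nat_lit 0) (XT.lf (nat_lit 84) (nat_lit 51618517556) (nat_lit 0) (nat_lit 74682294802) (nat_lit 1092) (nat_lit 72113650777) (nat_lit 96) (nat_lit 5) (nat_lit 95) (nat_lit 5) (nat_lit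 108) (nat_lit 5) (nat_lit 417) (nat_lit 410) (nat_lit 34)) (XT.lf (nat_lit 84) (nat_lit 124677966142) (nat_lit 0) (nat_lit 7294146691) (nat_lit 1092) (nat_lit 69736474852) (nat_lit 96) (nat_lit 5) (nat_lit 95) (nat_lit 5) (nat_lit 108) (nat_lit 5) (nat_lit 418) (nat_lit 410) (nat_lit 33)))) (XT.nd (nat_lit 188) (nat_lit 0) (nat_lit 0) (XT.nd (nat_lit 94) (nat_lit 0) (nat_lit 0) (XT.lf (nat_lit 0) (nat_lit 52675952923) (nat_lit 1092) (nat_lit 19444773418) (nat_lit 1092) (nat_lit 19444773418) (nat_lit 93) (nat_lit 3) (nat_lit 106) (nat_lit 3) (nat_lit 106) (nat_lit 5) (nat_lit 411) (nat_lit 411) (nat_lit 39)) (XT.lf (nat_lit 84) (nat_lit 25459037911) (nat_lit 0) (nat_lit 81779964799) (nat_lit 1092) (nat_lit 78722640100) (nat_lit 94) (nat_lit 5) (nat_lit 93) (nat_lit 3) (nat_lit 106) (nat_lit 5) (nat_lit 412) (nat_lit 411) (nat_lit 38))) (XT.nd (nat_lit 94) (nat_lit 0) (nat_lit 84) (XT.lf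 (nat_lit 84) (nat_lit 92626832951) (nat_lit 0) (nat_lit 16963629508) (nat_lit 1092) (nat_lit 79276992188) (nat_lit 94) (nat_lit 5) (nat_lit 93) (nat_lit 3) (nat_lit 106) (nat_lit 5) (nat_lit 413) (nat_lit 411) (nat_lit 37)) (XT.lf (nat_lit 0) (nat_lit 112509392796) (nat_lit 1008) (nat_lit 30481189693) (nat_lit 1092) (nat_lit 48857432672) (nat_lit 94) (nat_lit 5) (nat_lit 106) (nat_lit 5) (nat_lit 107) (nat_lit 5) (nat_lit 414) (nat_lit 411) (nat_lit 36))))))))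
noncomputable def xc255 : XT := (XT.nd (nat_lit 162338) (nat_lit 0) (nat_lit 0) (XT.nd (nat_lit 54426) (nat_lit 0) (nat_lit 0) (XT.nd (nat_lit 53862) (nat_lit 0) (nat_lit 0) (XT.nd (nat_lit 282) (nat_lit 84) (nat_lit 0) (XT.nd (nat_lit 94) (nat_lit 0) (nat_lit 0) (XT.lf (nat_lit 84) (nat_lit 37906993844) (nat_lit 0) (nat_lit 78161296088) (nat_lit 1092) (nat_lit 78835649571) (nat_lit 95) (nat_lit 5) (nat_lit 94) (nat_lit 5) (nat_lit 107) (nat_lit 5) (nat_lit 415) (nat_lit 411) (nat_lit 35)) (XT.nd (nat_lit 94) (nat_lit 0) (nat_lit 84) (XT.lf (nat_lit 84) (nat_lit 109061362341) (nat_lit 0) (nat_lit 10994252980) (nat_lit 1092) (nat_lit 77989121328) (nat_lit 95) (nat_lit 5) (nat_lit 94) (nat_lit 5) (nat_lit 107) (nat_lit 5) (nat_lit 416) (nat_lit 411) (nat_lit 34)) (XT.lf (nat_lit 0) (nat_lit 124744387633) (nat_lit 1008) (nat_lit 19439313973) (nat_lit 1092) (nat_lit 57081284178) (nat_lit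 95) (nat_lit 5) (nat_lit 107) (nat_lit 5) (nat_lit 108) (nat_lit 5) (nat_lit 417) (nat_lit 411) (nat_lit 33)))) (XT.nd (nat_lit 94) (nat_lit 168) (nat_lit 0) (XT.lf (nat_lit 84) (nat_lit 53220405278) (nat_lit 0) (nat_lit 76998450004) (nat_lit 1092) (nat_lit 74346357019) (nat_lit 96) (nat_lit 5) (nat_lit 95) (nat_lit 5) (nat_lit 108) (nat_lit 5) (nat_lit 418) (nat_lit 411) (nat_lit 32)) (XT.nd (nat_lit 53392) (nat_lit 168) (nat_lit 0) (XT.lf (nat_lit 84) (nat_lit 128544645244) (nat_lit 0) (nat_lit 7521239111) (nat_lit 1092) (nat_lit 71895573339) (nat_lit 96) (nat_lit 5) (nat_lit 95) (nat_lit 5) (nat_lit 108) (nat_lit 5) (nat_lit 419) (nat_lit 411) (nat_lit 31)) (XT.lf (nat_lit 0) (nat_lit 54310477250) (nat_lit 1092) (nat_lit 20046747818) (nat_lit 1092) (nat_lit 20046747818) (nat_lit 93) (nat_lit 3) (nat_lit 106) (nat_lit 3) (nat_lit 106) (nat_lit 5) (nat_lit 412) (nat_lit 412) (nat_lit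 37))))) (XT.nd (nat_lit 282) (nat_lit 0) (nat_lit 84) (XT.nd (nat_lit 94) (nat_lit 0) (nat_lit 0) (XT.lf (nat_lit 84) (nat_lit 26249878765) (nat_lit 0) (nat_lit 84316594178) (nat_lit 1092) (nat_lit 81159869016) (nat_lit 94) (nat_lit 5) (nat_lit 93) (nat_lit 3) (nat_lit 106) (nat_lit 5) (nat_lit 413) (nat_lit 412) (nat_lit 36)) (XT.nd (nat_lit 94) (nat_lit 0) (nat_lit 84) (XT.lf (nat_lit 84) (nat_lit 95499827022) (nat_lit 0) (nat_lit 17490908881) (nat_lit 1092) (nat_lit 81731501422) (nat_lit 94) (nat_lit 5) (nat_lit 93) (nat_lit 3) (nat_lit 106) (nat_lit 5) (nat_lit 414) (nat_lit 412) (nat_lit 35)) (XT.lf (nat_lit 0) (nat_lit 116000050268) (nat_lit 1008) (nat_lit 31424472604) (nat_lit 1092) (nat_lit 50370676020) (nat_lit 94) (nat_lit 5) (nat_lit 106) (nat_lit 5) (nat_lit 107) (nat_lit 5) (nat_lit 415) (nat_lit 412) (nat_lit 34)))) (XT.nd (nat_lit 94) (nat_lit 0) (nat_lit 0) (XT.lf (nat_lit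 84) (nat_lit 39083728079) (nat_lit 0) (nat_lit 80585474998) (nat_lit 1092) (nat_lit 81276656465) (nat_lit 95) (nat_lit 5) (nat_lit 94) (nat_lit 5) (nat_lit 107) (nat_lit 5) (nat_lit 416) (nat_lit 412) (nat_lit 33)) (XT.nd (nat_lit 94) (nat_lit 0) (nat_lit 84) (XT.lf (nat_lit 84) (nat_lit 112443833367) (nat_lit 0) (nat_lit 11336218111) (nat_lit 1092) (nat_lit 80403972990) (nat_lit 95) (nat_lit 5) (nat_lit 94) (nat_lit 5) (nat_lit 107) (nat_lit 5) (nat_lit 417) (nat_lit 412) (nat_lit 32)) (XT.lf (nat_lit 0) (nat_lit 128614083185) (nat_lit 1008) (nat_lit 20040304043) (nat_lit 1092) (nat_lit 58849717417) (nat_lit 95) (nat_lit 5) (nat_lit 107) (nat_lit 5) (nat_lit 108) (nat_lit 5) (nat_lit 418) (nat_lit 412) (nat_lit 31)))))) (XT.nd (nat_lit 53956) (nat_lit 0) (nat_lit 0) (XT.nd (nat_lit 53674) (nat_lit 0) (nat_lit 0) (XT.nd (nat_lit 53486) (nat_lit 168) (nat_lit 0) (XT.lf (nat_lit 84)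 (nat_lit 54871850015) (nat_lit 0) (nat_lit 79386346545) (nat_lit 1092) (nat_lit 76648444006) (nat_lit 96) (nat_lit 5) (nat_lit 95) (nat_lit 5) (nat_lit 108) (nat_lit 5) (nat_lit 419) (nat_lit 412) (nat_lit 30)) (XT.nd (nat_lit 94) (nat_lit 0) (nat_lit 0) (XT.lf (nat_lit 0) (nat_lit 55995578849) (nat_lit 1092) (nat_lit 20667431614) (nat_lit 1092) (nat_lit 20667431614) (nat_lit 93) (nat_lit 3) (nat_lit 106) (nat_lit 3) (nat_lit 106) (nat_lit 5) (nat_lit 413) (nat_lit 413) (nat_lit 35)) (XT.lf (nat_lit 84) (nat_lit 27065140282) (nat_lit 0) (nat_lit 86931773155) (nat_lit 1092) (nat_lit 83672839966) (nat_lit 94) (nat_lit 5) (nat_lit 93) (nat_lit 3) (nat_lit 106) (nat_lit 5) (nat_lit 414) (nat_lit 413) (nat_lit 34)))) (XT.nd (nat_lit 94) (nat_lit 0) (nat_lit 84) (XT.lf (nat_lit 84) (nat_lit 98461791373) (nat_lit 0) (nat_lit 18034450584) (nat_lit 1092) (nat_lit 84262282729) (nat_lit 94) (nat_lit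 5) (nat_lit 93) (nat_lit 3) (nat_lit 106) (nat_lit 5) (nat_lit 415) (nat_lit 413) (nat_lit 33)) (XT.nd (nat_lit 94) (nat_lit 0) (nat_lit 0) (XT.lf (nat_lit 0) (nat_lit 119598748346) (nat_lit 1008) (nat_lit 32397094069) (nat_lit 1092) (nat_lit 51930909109) (nat_lit 94) (nat_lit 5) (nat_lit 106) (nat_lit 5) (nat_lit 107) (nat_lit 5) (nat_lit 416) (nat_lit 413) (nat_lit 32)) (XT.lf (nat_lit 84) (nat_lit 40296845273) (nat_lit 0) (nat_lit 83084733636) (nat_lit 1092) (nat_lit 83793506241) (nat_lit 95) (nat_lit 5) (nat_lit 94) (nat_lit 5) (nat_lit 107) (nat_lit 5) (nat_lit 417) (nat_lit 413) (nat_lit 31))))) (XT.nd (nat_lit 53674) (nat_lit 84) (nat_lit 0) (XT.nd (nat_lit 94) (nat_lit 0) (nat_lit 84) (XT.lf (nat_lit 84) (nat_lit 115931068073) (nat_lit 0) (nat_lit 11688716443) (nat_lit 1092) (nat_lit 82893851560) (nat_lit 95) (nat_lit 5) (nat_lit 94) (nat_lit 5) (nat_lit 107) (nat_lit 5) (nat_lit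 418) (nat_lit 413) (nat_lit 30)) (XT.nd (nat_lit 94) (nat_lit 0) (nat_lit 0) (XT.lf (nat_lit 0) (nat_lit 132603584140) (nat_lit 1008) (nat_lit 20660021274) (nat_lit 1092) (nat_lit 60673036445) (nat_lit 95) (nat_lit 5) (nat_lit 107) (nat_lit 5) (nat_lit 108) (nat_lit 5) (nat_lit 419) (nat_lit 413) (nat_lit 29)) (XT.lf (nat_lit 84) (nat_lit 56574394048) (nat_lit 0) (nat_lit 81848211929) (nat_lit 1092) (nat_lit 79022052658) (nat_lit 96) (nat_lit 5) (nat_lit 95) (nat_lit 5) (nat_lit 108) (nat_lit 5) (nat_lit 420) (nat_lit 413) (nat_lit 28)))) (XT.nd (nat_lit 94) (nat_lit 0) (nat_lit 0) (XT.lf (nat_lit 0) (nat_lit 57732831125) (nat_lit 1092) (nat_lit 21307401942) (nat_lit 1092) (nat_lit 21307401942) (nat_lit 93) (nat_lit 3) (nat_lit 106) (nat_lit 3) (nat_lit 106) (nat_lit 5) (nat_lit 414) (nat_lit 414) (nat_lit 33)) (XT.nd (nat_lit 94) (nat_lit 0) (nat_lit 0) (XT.lf (nat_lit 84) (nat_lit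 27905585153) (nat_lit 0) (nat_lit 89627941855) (nat_lit 1092) (nat_lit 86263889822) (nat_lit 94) (nat_lit 5) (nat_lit 93) (nat_lit 3) (nat_lit 106) (nat_lit 5) (nat_lit 415) (nat_lit 414) (nat_lit 32)) (XT.lf (nat_lit 84) (nat_lit 101515489566) (nat_lit 0) (nat_lit 18594763685) (nat_lit 1092) (nat_lit 86871689747) (nat_lit 94) (nat_lit 5) (nat_lit 93) (nat_lit 3) (nat_lit 106) (nat_lit 5) (nat_lit 416) (nat_lit 414) (nat_lit 31))))))) (XT.nd (nat_lit 108194) (nat_lit 0) (nat_lit 0) (XT.nd (nat_lit 54050) (nat_lit 0) (nat_lit 0) (XT.nd (nat_lit 282) (nat_lit 84) (nat_lit 0) (XT.nd (nat_lit 94) (nat_lit 0) (nat_lit 0) (XT.lf (nat_lit 0) (nat_lit 123308846346) (nat_lit 1008) (nat_lit 33399957850) (nat_lit 1092) (nat_lit 53539583930) (nat_lit 94) (nat_lit 5) (nat_lit 106) (nat_lit 5) (nat_lit 107) (nat_lit 5) (nat_lit 417) (nat_lit 414) (nat_lit 30)) (XT.nd (nat_lit 94) (nat_lit 0) (nat_lit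 0) (XT.lf (nat_lit 84) (nat_lit 41547478971) (nat_lit 0) (nat_lit 85661403608) (nat_lit 1092) (nat_lit 86388539859) (nat_lit 95) (nat_lit 5) (nat_lit 94) (nat_lit 5) (nat_lit 107) (nat_lit 5) (nat_lit 418) (nat_lit 414) (nat_lit 29)) (XT.lf (nat_lit 84) (nat_lit 119526319636) (nat_lit 0) (nat_lit 12052078515) (nat_lit 1092) (nat_lit 85461073010) (nat_lit 95) (nat_lit 5) (nat_lit 94) (nat_lit 5) (nat_lit 107) (nat_lit 5) (nat_lit 419) (nat_lit 414) (nat_lit 28)))) (XT.nd (nat_lit 53580) (nat_lit 168) (nat_lit 0) (XT.lf (nat_lit 0) (nat_lit 136716613655) (nat_lit 1008) (nat_lit 21299040494) (nat_lit 1092) (nat_lit 62552938911) (nat_lit 95) (nat_lit 5) (nat_lit 107) (nat_lit 5) (nat_lit 108) (nat_lit 5) (nat_lit 420) (nat_lit 414) (nat_lit 27)) (XT.nd (nat_lit 94) (nat_lit 0) (nat_lit 0) (XT.lf (nat_lit 0) (nat_lit 59523855928) (nat_lit 1092) (nat_lit 21967254001) (nat_lit 1092) (nat_lit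 21967254001) (nat_lit 93) (nat_lit 3) (nat_lit 106) (nat_lit 3) (nat_lit 106) (nat_lit 5) (nat_lit 415) (nat_lit 415) (nat_lit 31)) (XT.lf (nat_lit 84) (nat_lit 28771999380) (nat_lit 0) (nat_lit 92407615747) (nat_lit 1092) (nat_lit 88935428557) (nat_lit 94) (nat_lit 5) (nat_lit 93) (nat_lit 3) (nat_lit 106) (nat_lit 5) (nat_lit 416) (nat_lit 415) (nat_lit 30))))) (XT.nd (nat_lit 282) (nat_lit 0) (nat_lit 0) (XT.nd (nat_lit 94) (nat_lit 0) (nat_lit 84) (XT.lf (nat_lit 84) (nat_lit 104663770506) (nat_lit 0) (nat_lit 19172372741) (nat_lit 1092) (nat_lit 89562149714) (nat_lit 94) (nat_lit 5) (nat_lit 93) (nat_lit 3) (nat_lit 106) (nat_lit 5) (nat_lit 417) (nat_lit 415) (nat_lit 29)) (XT.nd (nat_lit 94) (nat_lit 0) (nat_lit 0) (XT.lf (nat_lit 0) (nat_lit 127133807124) (nat_lit 1008) (nat_lit 34433996064) (nat_lit 1092) (nat_lit 55198197762) (nat_lit 94) (nat_lit 5) (nat_lit 106) (nat_lit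 5) (nat_lit 107) (nat_lit 5) (nat_lit 418) (nat_lit 415) (nat_lit 28)) (XT.lf (nat_lit 84) (nat_lit 42836797524) (nat_lit 0) (nat_lit 88317888558) (nat_lit 1092) (nat_lit 89064171453) (nat_lit 95) (nat_lit 5) (nat_lit 94) (nat_lit 5) (nat_lit 107) (nat_lit 5) (nat_lit 419) (nat_lit 415) (nat_lit 27)))) (XT.nd (nat_lit 53674) (nat_lit 84) (nat_lit 0) (XT.lf (nat_lit 84) (nat_lit 123232941757) (nat_lit 0) (nat_lit 12426644877) (nat_lit 1092) (nat_lit 88108025690) (nat_lit 95) (nat_lit 5) (nat_lit 94) (nat_lit 5) (nat_lit 107) (nat_lit 5) (nat_lit 420) (nat_lit 415) (nat_lit 26)) (XT.nd (nat_lit 94) (nat_lit 0) (nat_lit 0) (XT.lf (nat_lit 0) (nat_lit 61370325082) (nat_lit 1092) (nat_lit 22647601598) (nat_lit 1092) (nat_lit 22647601598) (nat_lit 93) (nat_lit 3) (nat_lit 106) (nat_lit 3) (nat_lit 106) (nat_lit 5) (nat_lit 416) (nat_lit 416) (nat_lit 29)) (XT.lf (nat_lit 84) (nat_lit 29665193012)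 (nat_lit 0) (nat_lit 95273387995) (nat_lit 1092) (nat_lit 91689941474) (nat_lit 94) (nat_lit 5) (nat_lit 93) (nat_lit 3) (nat_lit 106) (nat_lit 5) (nat_lit 417) (nat_lit 416) (nat_lit 28)))))) (XT.nd (nat_lit 54238) (nat_lit 0) (nat_lit 0) (XT.nd (nat_lit 53956) (nat_lit 0) (nat_lit 0) (XT.nd (nat_lit 94) (nat_lit 0) (nat_lit 84) (XT.lf (nat_lit 84) (nat_lit 107909571108) (nat_lit 0) (nat_lit 19767818295) (nat_lit 1092) (nat_lit 92336165717) (nat_lit 94) (nat_lit 5) (nat_lit 93) (nat_lit 3) (nat_lit 106) (nat_lit 5) (nat_lit 418) (nat_lit 416) (nat_lit 27)) (XT.nd (nat_lit 94) (nat_lit 0) (nat_lit 0) (XT.lf (nat_lit 0) (nat_lit 131077200327) (nat_lit 1008) (nat_lit 35500170047) (nat_lit 1092) (nat_lit 56908294564) (nat_lit 94) (nat_lit 5) (nat_lit 106) (nat_lit 5) (nat_lit 107) (nat_lit 5) (nat_lit 419) (nat_lit 416) (nat_lit 26)) (XT.lf (nat_lit 84) (nat_lit 44166005185) (nat_lit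 0) (nat_lit 91056666409) (nat_lit 1092) (nat_lit 91822890562) (nat_lit 95) (nat_lit 5) (nat_lit 94) (nat_lit 5) (nat_lit 107) (nat_lit 5) (nat_lit 420) (nat_lit 416) (nat_lit 25)))) (XT.nd (nat_lit 94) (nat_lit 0) (nat_lit 0) (XT.lf (nat_lit 0) (nat_lit 63273961948) (nat_lit 1092) (nat_lit 23349077716) (nat_lit 1092) (nat_lit 23349077716) (nat_lit 93) (nat_lit 3) (nat_lit 106) (nat_lit 3) (nat_lit 106) (nat_lit 5) (nat_lit 417) (nat_lit 417) (nat_lit 27)) (XT.nd (nat_lit 94) (nat_lit 0) (nat_lit 0) (XT.lf (nat_lit 84) (nat_lit 30586000918) (nat_lit 0) (nat_lit 98227931887) (nat_lit 1092) (nat_lit 94529991504) (nat_lit 94) (nat_lit 5) (nat_lit 93) (nat_lit 3) (nat_lit 106) (nat_lit 5) (nat_lit 418) (nat_lit 417) (nat_lit 26)) (XT.lf (nat_lit 84) (nat_lit 111255919046) (nat_lit 0) (nat_lit 20381657387) (nat_lit 1092) (nat_lit 95196319002) (nat_lit 94) (nat_lit 5) (nat_lit 93) (nat_lit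 3) (nat_lit 106) (nat_lit 5) (nat_lit 419) (nat_lit 417) (nat_lit 25))))) (XT.nd (nat_lit 54050) (nat_lit 0) (nat_lit 0) (XT.nd (nat_lit 53862) (nat_lit 84) (nat_lit 0) (XT.lf (nat_lit 0) (nat_lit 135142705734) (nat_lit 1008) (nat_lit 36599471234) (nat_lit 1092) (nat_lit 58671466402) (nat_lit 94) (nat_lit 5) (nat_lit 106) (nat_lit 5) (nat_lit 107) (nat_lit 5) (nat_lit 420) (nat_lit 417) (nat_lit 24)) (XT.nd (nat_lit 94) (nat_lit 0) (nat_lit 0) (XT.lf (nat_lit 0) (nat_lit 65236543037) (nat_lit 1092) (nat_lit 24072335106) (nat_lit 1092) (nat_lit 24072335106) (nat_lit 93) (nat_lit 3) (nat_lit 106) (nat_lit 3) (nat_lit 106) (nat_lit 5) (nat_lit 418) (nat_lit 418) (nat_lit 25)) (XT.lf (nat_lit 84) (nat_lit 31535283565) (nat_lit 0) (nat_lit 101274003329) (nat_lit 1092) (nat_lit 97458221578) (nat_lit 94) (nat_lit 5) (nat_lit 93) (nat_lit 3) (nat_lit 106) (nat_lit 5) (nat_lit 419) (nat_lit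 418) (nat_lit 24)))) (XT.nd (nat_lit 54050) (nat_lit 0) (nat_lit 0) (XT.nd (nat_lit 53956) (nat_lit 0) (nat_lit 0) (XT.lf (nat_lit 84) (nat_lit 114705935581) (nat_lit 0) (nat_lit 21014464085) (nat_lit 1092) (nat_lit 98145271367) (nat_lit 94) (nat_lit 5) (nat_lit 93) (nat_lit 3) (nat_lit 106) (nat_lit 5) (nat_lit 420) (nat_lit 418) (nat_lit 23)) (XT.lf (nat_lit 0) (nat_lit 67259899681) (nat_lit 1092) (nat_lit 24818046883) (nat_lit 1092) (nat_lit 24818046883) (nat_lit 93) (nat_lit 3) (nat_lit 106) (nat_lit 3) (nat_lit 106) (nat_lit 5) (nat_lit 419) (nat_lit 419) (nat_lit 23))) (XT.nd (nat_lit 54050) (nat_lit 0) (nat_lit 0) (XT.lf (nat_lit 84) (nat_lit 32513927835) (nat_lit 0) (nat_lit 104414443425) (nat_lit 1092) (nat_lit 100477357074) (nat_lit 94) (nat_lit 5) (nat_lit 93) (nat_lit 3) (nat_lit 106) (nat_lit 5) (nat_lit 420) (nat_lit 419) (nat_lit 22)) (XT.lf (nat_lit 0) (nat_lit 69345919738)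 (nat_lit 1092) (nat_lit 25586907154) (nat_lit 1092) (nat_lit 25586907154) (nat_lit 93) (nat_lit 3) (nat_lit 106) (nat_lit 3) (nat_lit 106) (nat_lit 5) (nat_lit 420) (nat_lit 420) (nat_lit 21))))))))

set_option maxRecDepth 10000000 in
noncomputable def Tp : PT := (PT.nd (nat_lit 2381866) (PT.nd (nat_lit 1788632) (PT.nd (nat_lit 1355480) (PT.nd (nat_lit 977600) pc0 pc1) (PT.nd (nat_lit 216952) pc2 pc3)) (PT.nd (nat_lit 324300) (PT.nd (nat_lit 214602) pc4 pc5) (PT.nd (nat_lit 160552) pc6 pc7))) (PT.nd (nat_lit 377504) (PT.nd (nat_lit 214978) (PT.nd (nat_lit 107818) pc8 pc9) (PT.nd (nat_lit 56212) pc10 pc11)) (PT.nd (nat_lit 161022) (PT.nd (nat_lit 55742) pc12 pc13) (PT.nd (nat_lit 107724) pc14 pc15))))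

set_option maxRecDepth 10000000 in
noncomputable def Tx : XT := (XT.nd (nat_lit 12146022) (nat_lit 0) (nat_lit 84) XT.nil (XT.nd (nat_lit 10594552) (nat_lit 0) (nat_lit 0) (XT.nd (nat_lit 4321274) (nat_lit 0) (nat_lit 336) (XT.nd (nat_lit 2916350) (nat_lit 0) (nat_lit 84) (XT.nd (nat_lit 2000038) (nat_lit 0) (nat_lit 84) (XT.nd (nat_lit 1404454) (nat_lit 0) (nat_lit 0) (XT.nd (nat_lit 1024600) (nat_lit 0) (nat_lit 0) (XT.nd (nat_lit 702932) (nat_lit 0) (nat_lit 0) (XT.nd (nat_lit 538902) (nat_lit 0) (nat_lit 0) (XT.nd (nat_lit 377222) (nat_lit 0) (nat_lit 0) xc0 xc1) (XT.nd (nat_lit 108100) (nat_lit 0) (nat_lit 0) xc2 xc3)) (XT.nd (nat_lit 161680) (nat_lit 0) (nat_lit 0) (XT.nd (nat_lit 106408) (nat_lit 0) (nat_lit 0) xc4 xc5) (XT.nd (nat_lit 105374) (nat_lit 0) (nat_lit 0) xc6 xc7))) (XT.nd (nat_lit 215636) (nat_lit 0) (nat_lit 0) (XT.nd (nat_lit 108288) (nat_lit 0) (nat_lit 0) (XT.nd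 (nat_lit 54238) (nat_lit 0) (nat_lit 0) xc8 xc9) (XT.nd (nat_lit 53768) (nat_lit 0) (nat_lit 0) xc10 xc11)) (XT.nd (nat_lit 106596) (nat_lit 0) (nat_lit 0) (XT.nd (nat_lit 53392) (nat_lit 0) (nat_lit 0) xc12 xc13) (XT.nd (nat_lit 4606) (nat_lit 84) (nat_lit 0) xc14 xc15)))) (XT.nd (nat_lit 323642) (nat_lit 0) (nat_lit 84) (XT.nd (nat_lit 162432) (nat_lit 0) (nat_lit 0) (XT.nd (nat_lit 105374) (nat_lit 0) (nat_lit 0) (XT.nd (nat_lit 52734) (nat_lit 0) (nat_lit 0) xc16 xc17) (XT.nd (nat_lit 52452) (nat_lit 0) (nat_lit 84) xc18 xc19)) (XT.nd (nat_lit 104528) (nat_lit 0) (nat_lit 84) (XT.nd (nat_lit 52264) (nat_lit 0) (nat_lit 84) xc20 xc21) (XT.nd (nat_lit 4606) (nat_lit 0) (nat_lit 0) xc22 xc23))) (XT.nd (nat_lit 159894) (nat_lit 0) (nat_lit 0) (XT.nd (nat_lit 103588) (nat_lit 0) (nat_lit 0) (XT.nd (nat_lit 51794) (nat_lit 0) (nat_lit 0) xc24 xc25) (XT.nd (nat_lit 4606) (nat_lit 84)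 (nat_lit 0) xc26 xc27)) (XT.nd (nat_lit 56118) (nat_lit 0) (nat_lit 0) (XT.nd (nat_lit 51512) (nat_lit 0) (nat_lit 84) xc28 xc29) (XT.nd (nat_lit 51324) (nat_lit 0) (nat_lit 0) xc30 xc31))))) (XT.nd (nat_lit 531664) (nat_lit 0) (nat_lit 0) (XT.nd (nat_lit 267618) (nat_lit 0) (nat_lit 0) (XT.nd (nat_lit 157356) (nat_lit 0) (nat_lit 0) (XT.nd (nat_lit 101990) (nat_lit 0) (nat_lit 0) (XT.nd (nat_lit 51042) (nat_lit 0) (nat_lit 0) xc32 xc33) (XT.nd (nat_lit 4606) (nat_lit 84) (nat_lit 0) xc34 xc35)) (XT.nd (nat_lit 55178) (nat_lit 0) (nat_lit 0) (XT.nd (nat_lit 4512) (nat_lit 0) (nat_lit 0) xc36 xc37) (XT.nd (nat_lit 50478) (nat_lit 0) (nat_lit 252) xc38 xc39))) (XT.nd (nat_lit 109604) (nat_lit 0) (nat_lit 0) (XT.nd (nat_lit 54802) (nat_lit 0) (nat_lit 0) (XT.nd (nat_lit 50196) (nat_lit 0) (nat_lit 168) xc40 xc41) (XT.nd (nat_lit 50196) (nat_lit 0) (nat_lit 84) xc42 xc43)) (XT.nd (nat_lit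 54708) (nat_lit 0) (nat_lit 0) (XT.nd (nat_lit 50102) (nat_lit 0) (nat_lit 0) xc44 xc45) (XT.nd (nat_lit 49914) (nat_lit 0) (nat_lit 0) xc46 xc47)))) (XT.nd (nat_lit 215730) (nat_lit 0) (nat_lit 0) (XT.nd (nat_lit 108194) (nat_lit 0) (nat_lit 0) (XT.nd (nat_lit 54144) (nat_lit 0) (nat_lit 0) (XT.nd (nat_lit 4512) (nat_lit 672) (nat_lit 0) xc48 xc49) (XT.nd (nat_lit 4606) (nat_lit 588) (nat_lit 0) xc50 xc51)) (XT.nd (nat_lit 53862) (nat_lit 0) (nat_lit 0) (XT.nd (nat_lit 4606) (nat_lit 588) (nat_lit 0) xc52 xc53) (XT.nd (nat_lit 4606) (nat_lit 672) (nat_lit 0) xc54 xc55))) (XT.nd (nat_lit 62604) (nat_lit 0) (nat_lit 0) (XT.nd (nat_lit 53392) (nat_lit 0) (nat_lit 84) (XT.nd (nat_lit 4512) (nat_lit 924) (nat_lit 0) xc56 xc57) (XT.nd (nat_lit 4606) (nat_lit 1008) (nat_lit 0) xc58 xc59)) (XT.nd (nat_lit 53298) (nat_lit 0) (nat_lit 0) (XT.nd (nat_lit 48692) (nat_lit 0) (nat_lit 168) xc60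 xc61) (XT.nd (nat_lit 48410) (nat_lit 0) (nat_lit 336) xc62 xc63)))))) (XT.nd (nat_lit 702462) (nat_lit 0) (nat_lit 84) (XT.nd (nat_lit 374966) (nat_lit 0) (nat_lit 84) (XT.nd (nat_lit 209996) (nat_lit 0) (nat_lit 84) (XT.nd (nat_lit 105374) (nat_lit 0) (nat_lit 84) (XT.nd (nat_lit 52734) (nat_lit 0) (nat_lit 84) (XT.nd (nat_lit 48128) (nat_lit 0) (nat_lit 672) xc64 xc65) (XT.nd (nat_lit 48034) (nat_lit 0) (nat_lit 1176) xc66 xc67)) (XT.nd (nat_lit 52358) (nat_lit 0) (nat_lit 0) (XT.nd (nat_lit 4512) (nat_lit 0) (nat_lit 0) xc68 xc69) (XT.nd (nat_lit 4606) (nat_lit 252) (nat_lit 0) xc70 xc71))) (XT.nd (nat_lit 61194) (nat_lit 0) (nat_lit 0) (XT.nd (nat_lit 51982) (nat_lit 0) (nat_lit 168) (XT.nd (nat_lit 4512) (nat_lit 756) (nat_lit 0) xc72 xc73) (XT.nd (nat_lit 4606) (nat_lit 1680) (nat_lit 0) xc74 xc75)) (XT.nd (nat_lit 51982) (nat_lit 0) (nat_lit 0) (XT.nd (nat_lit 47376) (nat_lit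 0) (nat_lit 588) xc76 xc77) (XT.nd (nat_lit 47188) (nat_lit 0) (nat_lit 1848) xc78 xc79)))) (XT.nd (nat_lit 163560) (nat_lit 0) (nat_lit 0) (XT.nd (nat_lit 102930) (nat_lit 0) (nat_lit 0) (XT.nd (nat_lit 51512) (nat_lit 0) (nat_lit 0) (XT.nd (nat_lit 4512) (nat_lit 168) (nat_lit 0) xc80 xc81) (XT.nd (nat_lit 4606) (nat_lit 756) (nat_lit 0) xc82 xc83)) (XT.nd (nat_lit 9118) (nat_lit 252) (nat_lit 0) (XT.nd (nat_lit 4512) (nat_lit 2184) (nat_lit 0) xc84 xc85) (XT.nd (nat_lit 46906) (nat_lit 0) (nat_lit 1008) xc86 xc87))) (XT.nd (nat_lit 103118) (nat_lit 0) (nat_lit 0) (XT.nd (nat_lit 51512) (nat_lit 0) (nat_lit 0) (XT.nd (nat_lit 46906) (nat_lit 0) (nat_lit 3108) xc88 xc89) (XT.nd (nat_lit 4606) (nat_lit 420) (nat_lit 0) xc90 xc91)) (XT.nd (nat_lit 9212) (nat_lit 84) (nat_lit 0) (XT.nd (nat_lit 4606) (nat_lit 1260) (nat_lit 0) xc92 xc93) (XT.nd (nat_lit 47000) (nat_lit 0) (nat_lit 504)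 xc94 xc95))))) (XT.nd (nat_lit 371582) (nat_lit 0) (nat_lit 84) (XT.nd (nat_lit 164030) (nat_lit 0) (nat_lit 84) (XT.nd (nat_lit 103212) (nat_lit 0) (nat_lit 84) (XT.nd (nat_lit 51512) (nat_lit 0) (nat_lit 84) (XT.nd (nat_lit 46906) (nat_lit 0) (nat_lit 1680) xc96 xc97) (XT.nd (nat_lit 4606) (nat_lit 84) (nat_lit 0) xc98 xc99)) (XT.nd (nat_lit 51606) (nat_lit 0) (nat_lit 84) (XT.nd (nat_lit 4512) (nat_lit 504) (nat_lit 0) xc100 xc101) (XT.nd (nat_lit 4606) (nat_lit 1680) (nat_lit 0) xc102 xc103))) (XT.nd (nat_lit 103588) (nat_lit 0) (nat_lit 0) (XT.nd (nat_lit 51700) (nat_lit 0) (nat_lit 0) (XT.nd (nat_lit 47094) (nat_lit 0) (nat_lit 672) xc104 xc105) (XT.nd (nat_lit 47282) (nat_lit 0) (nat_lit 1764) xc106 xc107)) (XT.nd (nat_lit 51982) (nat_lit 0) (nat_lit 0) (XT.nd (nat_lit 4606) (nat_lit 84) (nat_lit 0) xc108 xc109) (XT.nd (nat_lit 4606) (nat_lit 504) (nat_lit 0) xc110 xc111))))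 (XT.nd (nat_lit 165252) (nat_lit 0) (nat_lit 0) (XT.nd (nat_lit 61100) (nat_lit 0) (nat_lit 0) (XT.nd (nat_lit 9118) (nat_lit 84) (nat_lit 0) (XT.nd (nat_lit 4512) (nat_lit 1512) (nat_lit 0) xc112 xc113) (XT.nd (nat_lit 47376) (nat_lit 0) (nat_lit 504) xc114 xc115)) (XT.nd (nat_lit 52076) (nat_lit 0) (nat_lit 0) (XT.nd (nat_lit 47470) (nat_lit 0) (nat_lit 1260) xc116 xc117) (XT.nd (nat_lit 4606) (nat_lit 84) (nat_lit 0) xc118 xc119))) (XT.nd (nat_lit 104152) (nat_lit 0) (nat_lit 84) (XT.nd (nat_lit 51982) (nat_lit 0) (nat_lit 0) (XT.nd (nat_lit 4512) (nat_lit 420) (nat_lit 0) xc120 xc121) (XT.nd (nat_lit 4606) (nat_lit 1092) (nat_lit 0) xc122 xc123)) (XT.nd (nat_lit 9212) (nat_lit 84) (nat_lit 0) (XT.nd (nat_lit 4606) (nat_lit 2520) (nat_lit 0) xc124 xc125) (XT.nd (nat_lit 47658) (nat_lit 0) (nat_lit 756) xc126 xc127))))))) (XT.nd (nat_lit 1782334) (nat_lit 0) (nat_lit 840) (XT.nd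 (nat_lit 806990) (nat_lit 0) (nat_lit 252) (XT.nd (nat_lit 377692) (nat_lit 0) (nat_lit 84) (XT.nd (nat_lit 209808) (nat_lit 0) (nat_lit 0) (XT.nd (nat_lit 104716) (nat_lit 0) (nat_lit 0) (XT.nd (nat_lit 52264) (nat_lit 0) (nat_lit 0) (XT.nd (nat_lit 47658) (nat_lit 0) (nat_lit 1680) xc128 xc129) (XT.nd (nat_lit 4606) (nat_lit 0) (nat_lit 0) xc130 xc131)) (XT.nd (nat_lit 52452) (nat_lit 0) (nat_lit 0) (XT.nd (nat_lit 4512) (nat_lit 420) (nat_lit 0) xc132 xc133) (XT.nd (nat_lit 4606) (nat_lit 1008) (nat_lit 0) xc134 xc135))) (XT.nd (nat_lit 61852) (nat_lit 0) (nat_lit 0) (XT.nd (nat_lit 9118) (nat_lit 84) (nat_lit 0) (XT.nd (nat_lit 4512) (nat_lit 1848) (nat_lit 0) xc136 xc137) (XT.nd (nat_lit 48128) (nat_lit 0) (nat_lit 420) xc138 xc139)) (XT.nd (nat_lit 52922) (nat_lit 0) (nat_lit 0) (XT.nd (nat_lit 48316) (nat_lit 0) (nat_lit 840) xc140 xc141) (XT.nd (nat_lit 48504) (nat_lit 0) (nat_lit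 1428) xc142 xc143)))) (XT.nd (nat_lit 213756) (nat_lit 0) (nat_lit 0) (XT.nd (nat_lit 106596) (nat_lit 0) (nat_lit 0) (XT.nd (nat_lit 53204) (nat_lit 0) (nat_lit 0) (XT.nd (nat_lit 48598) (nat_lit 0) (nat_lit 1848) xc144 xc145) (XT.nd (nat_lit 4606) (nat_lit 0) (nat_lit 0) xc146 xc147)) (XT.nd (nat_lit 53486) (nat_lit 0) (nat_lit 0) (XT.nd (nat_lit 4512) (nat_lit 252) (nat_lit 0) xc148 xc149) (XT.nd (nat_lit 4606) (nat_lit 336) (nat_lit 0) xc150 xc151))) (XT.nd (nat_lit 107536) (nat_lit 0) (nat_lit 0) (XT.nd (nat_lit 53674) (nat_lit 0) (nat_lit 0) (XT.nd (nat_lit 4512) (nat_lit 504) (nat_lit 0) xc152 xc153) (XT.nd (nat_lit 4606) (nat_lit 672) (nat_lit 0) xc154 xc155)) (XT.nd (nat_lit 53956) (nat_lit 0) (nat_lit 168) (XT.nd (nat_lit 4606) (nat_lit 756) (nat_lit 0) xc156 xc157) (XT.nd (nat_lit 4606) (nat_lit 756) (nat_lit 0) xc158 xc159))))) (XT.nd (nat_lit 437476) (nat_lit 0) (nat_lit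 168) (XT.nd (nat_lit 217516) (nat_lit 0) (nat_lit 168) (XT.nd (nat_lit 108476) (nat_lit 0) (nat_lit 84) (XT.nd (nat_lit 54144) (nat_lit 0) (nat_lit 0) (XT.nd (nat_lit 4512) (nat_lit 756) (nat_lit 0) xc160 xc161) (XT.nd (nat_lit 4606) (nat_lit 756) (nat_lit 0) xc162 xc163)) (XT.nd (nat_lit 54426) (nat_lit 0) (nat_lit 0) (XT.nd (nat_lit 4512) (nat_lit 672) (nat_lit 0) xc164 xc165) (XT.nd (nat_lit 4606) (nat_lit 420) (nat_lit 0) xc166 xc167))) (XT.nd (nat_lit 109698) (nat_lit 0) (nat_lit 0) (XT.nd (nat_lit 54708) (nat_lit 0) (nat_lit 0) (XT.nd (nat_lit 4512) (nat_lit 168) (nat_lit 0) xc168 xc169) (XT.nd (nat_lit 50384) (nat_lit 0) (nat_lit 2184) xc170 xc171)) (XT.nd (nat_lit 55084) (nat_lit 0) (nat_lit 0) (XT.nd (nat_lit 50478) (nat_lit 0) (nat_lit 1260) xc172 xc173) (XT.nd (nat_lit 50572) (nat_lit 0) (nat_lit 588) xc174 xc175)))) (XT.nd (nat_lit 267994) (nat_lit 0) (nat_lit 168) (XT.nd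 (nat_lit 156792) (nat_lit 0) (nat_lit 168) (XT.nd (nat_lit 55178) (nat_lit 0) (nat_lit 168) (XT.nd (nat_lit 50572) (nat_lit 0) (nat_lit 168) xc176 xc177) (XT.nd (nat_lit 50760) (nat_lit 0) (nat_lit 0) xc178 xc179)) (XT.nd (nat_lit 55554) (nat_lit 0) (nat_lit 0) (XT.nd (nat_lit 4606) (nat_lit 1092) (nat_lit 0) xc180 xc181) (XT.nd (nat_lit 4606) (nat_lit 420) (nat_lit 0) xc182 xc183))) (XT.nd (nat_lit 111296) (nat_lit 0) (nat_lit 168) (XT.nd (nat_lit 55554) (nat_lit 0) (nat_lit 0) (XT.nd (nat_lit 50948) (nat_lit 0) (nat_lit 1344) xc184 xc185) (XT.nd (nat_lit 51136) (nat_lit 0) (nat_lit 420) xc186 xc187)) (XT.nd (nat_lit 102554) (nat_lit 0) (nat_lit 0) (XT.nd (nat_lit 51230) (nat_lit 0) (nat_lit 0) xc188 xc189) (XT.nd (nat_lit 4606) (nat_lit 924) (nat_lit 0) xc190 xc191)))))) (XT.nd (nat_lit 1244466) (nat_lit 0) (nat_lit 840) (XT.nd (nat_lit 594832) (nat_lit 0) (nat_lit 336) (XT.nd (nat_lit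 272506) (nat_lit 0) (nat_lit 168) (XT.nd (nat_lit 159518) (nat_lit 0) (nat_lit 168) (XT.nd (nat_lit 56024) (nat_lit 0) (nat_lit 168) (XT.nd (nat_lit 51418) (nat_lit 0) (nat_lit 1344) xc192 xc193) (XT.nd (nat_lit 51700) (nat_lit 0) (nat_lit 0) xc194 xc195)) (XT.nd (nat_lit 56400) (nat_lit 0) (nat_lit 0) (XT.nd (nat_lit 4512) (nat_lit 1596) (nat_lit 0) xc196 xc197) (XT.nd (nat_lit 51982) (nat_lit 0) (nat_lit 1176) xc198 xc199))) (XT.nd (nat_lit 160928) (nat_lit 0) (nat_lit 168) (XT.nd (nat_lit 104152) (nat_lit 0) (nat_lit 168) (XT.nd (nat_lit 51982) (nat_lit 0) (nat_lit 168) xc200 xc201) (XT.nd (nat_lit 4606) (nat_lit 756) (nat_lit 0) xc202 xc203)) (XT.nd (nat_lit 56870) (nat_lit 0) (nat_lit 0) (XT.nd (nat_lit 52264) (nat_lit 0) (nat_lit 252) xc204 xc205) (XT.nd (nat_lit 52264) (nat_lit 0) (nat_lit 0) xc206 xc207)))) (XT.nd (nat_lit 324018) (nat_lit 0) (nat_lit 252) (XT.nd (nat_lit 161680)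 (nat_lit 0) (nat_lit 252) (XT.nd (nat_lit 56870) (nat_lit 0) (nat_lit 0) (XT.nd (nat_lit 52264) (nat_lit 0) (nat_lit 1008) xc208 xc209) (XT.nd (nat_lit 52358) (nat_lit 0) (nat_lit 0) xc210 xc211)) (XT.nd (nat_lit 57058) (nat_lit 0) (nat_lit 0) (XT.nd (nat_lit 4512) (nat_lit 0) (nat_lit 0) xc212 xc213) (XT.nd (nat_lit 52640) (nat_lit 0) (nat_lit 0) xc214 xc215))) (XT.nd (nat_lit 162526) (nat_lit 0) (nat_lit 0) (XT.nd (nat_lit 57152) (nat_lit 0) (nat_lit 0) (XT.nd (nat_lit 4512) (nat_lit 0) (nat_lit 0) xc216 xc217) (XT.nd (nat_lit 52640) (nat_lit 0) (nat_lit 0) xc218 xc219)) (XT.nd (nat_lit 57340) (nat_lit 0) (nat_lit 84) (XT.nd (nat_lit 52734) (nat_lit 0) (nat_lit 1092) xc220 xc221) (XT.nd (nat_lit 52828) (nat_lit 0) (nat_lit 168) xc222 xc223))))) (XT.nd (nat_lit 813100) (nat_lit 0) (nat_lit 1848) (XT.nd (nat_lit 377974) (nat_lit 0) (nat_lit 924) (XT.nd (nat_lit 163842) (nat_lit 0)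 (nat_lit 252) (XT.nd (nat_lit 106032) (nat_lit 0) (nat_lit 0) (XT.nd (nat_lit 52922) (nat_lit 0) (nat_lit 0) xc224 xc225) (XT.nd (nat_lit 4606) (nat_lit 924) (nat_lit 0) xc226 xc227)) (XT.nd (nat_lit 106596) (nat_lit 0) (nat_lit 252) (XT.nd (nat_lit 53204) (nat_lit 0) (nat_lit 0) xc228 xc229) (XT.nd (nat_lit 53674) (nat_lit 0) (nat_lit 0) xc230 xc231))) (XT.nd (nat_lit 216764) (nat_lit 0) (nat_lit 252) (XT.nd (nat_lit 108100) (nat_lit 0) (nat_lit 252) (XT.nd (nat_lit 53956) (nat_lit 0) (nat_lit 0) xc232 xc233) (XT.nd (nat_lit 54332) (nat_lit 0) (nat_lit 0) xc234 xc235)) (XT.nd (nat_lit 108946) (nat_lit 0) (nat_lit 336) (XT.nd (nat_lit 54426) (nat_lit 0) (nat_lit 0) xc236 xc237) (XT.nd (nat_lit 54614) (nat_lit 0) (nat_lit 0) xc238 xc239)))) (XT.nd (nat_lit 754820) (nat_lit 0) (nat_lit 2184) (XT.nd (nat_lit 323548) (nat_lit 0) (nat_lit 1680) (XT.nd (nat_lit 160646) (nat_lit 0) (nat_lit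 1260) (XT.nd (nat_lit 105280) (nat_lit 0) (nat_lit 504) xc240 xc241) (XT.nd (nat_lit 106972) (nat_lit 0) (nat_lit 0) xc242 xc243)) (XT.nd (nat_lit 215354) (nat_lit 0) (nat_lit 0) (XT.nd (nat_lit 107536) (nat_lit 0) (nat_lit 0) xc244 xc245) (XT.nd (nat_lit 107912) (nat_lit 0) (nat_lit 504) xc246 xc247))) (XT.nd (nat_lit 488424) (nat_lit 0) (nat_lit 1680) (XT.nd (nat_lit 216858) (nat_lit 0) (nat_lit 1092) (XT.nd (nat_lit 56306) (nat_lit 0) (nat_lit 504) xc248 xc249) (XT.nd (nat_lit 109228) (nat_lit 0) (nat_lit 588) xc250 xc251)) (XT.nd (nat_lit 432306) (nat_lit 0) (nat_lit 0) (XT.nd (nat_lit 215824) (nat_lit 0) (nat_lit 0) xc252 xc253) (XT.nd (nat_lit 270814) (nat_lit 0) (nat_lit 0) xc254 xc255)))))))) XT.nil))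

set_option maxRecDepth 10000000 in
noncomputable def Te : XT := XT.nil

set_option maxRecDepth 10000000 in
noncomputable def Tz : ZL := (ZL.cons (nat_lit 84) (nat_lit 3) (nat_lit 71678969508180320467) (ZL.cons (nat_lit 168) (nat_lit 6) (nat_lit 141735054983679785038) (ZL.cons (nat_lit 252) (nat_lit 6) (nat_lit 140182860144219260408) (ZL.cons (nat_lit 336) (nat_lit 3) (nat_lit 70061642135567671120) (ZL.cons (nat_lit 420) (nat_lit 6) (nat_lit 138582547264735459514) (ZL.cons (nat_lit 504) (nat_lit 6) (nat_lit 137111407836193861120) (ZL.cons (nat_lit 588) (nat_lit 3) (nat_lit 68526811642110549295) (ZL.cons (nat_lit 672) (nat_lit 6) (nat_lit 135708494729457367158) (ZL.cons (nat_lit 756) (nat_lit 6) (nat_lit 135594663085367473174) (ZL.cons (nat_lit 840) (nat_lit 6) (nat_lit 134204306764439279356) (ZL.cons (nat_lit 924) (nat_lit 3) (nat_lit 67074129836161073951) (ZL.cons (nat_lit 1008) (nat_lit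 6) (nat_lit 132881258363701878918) (ZL.cons (nat_lit 1092) (nat_lit 6) (nat_lit 132770849397562311526) (ZL.cons (nat_lit 1176) (nat_lit 6) (nat_lit 131624284663452935650) (ZL.cons (nat_lit 1260) (nat_lit 6) (nat_lit 131461148370424487616) (ZL.cons (nat_lit 1344) (nat_lit 3) (nat_lit 65703393248201025839) (ZL.cons (nat_lit 1428) (nat_lit 6) (nat_lit 130217935812356707746) (ZL.cons (nat_lit 1512) (nat_lit 6) (nat_lit 130110846611445391166) (ZL.cons (nat_lit 1596) (nat_lit 6) (nat_lit 129040052919025021248) (ZL.cons (nat_lit 1680) (nat_lit 6) (nat_lit 128881821790966390762) (ZL.cons (nat_lit 1764) (nat_lit 3) (nat_lit 64414547232038755060) (ZL.cons (nat_lit 1848) (nat_lit 6) (nat_lit 127926401780186468130) (ZL.cons (nat_lit 1932) (nat_lit 6) (nat_lit 127718566455088735888) (ZL.cons (nat_lit 2016) (nat_lit 6) (nat_lit 127614697201052541340) (ZL.cons (nat_lit 2100) (nat_lit 6) (nat_lit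 126619996327985289380) (ZL.cons (nat_lit 2184) (nat_lit 6) (nat_lit 126466522876909993076) (ZL.cons (nat_lit 2268) (nat_lit 3) (nat_lit 63207690474881339585) (ZL.cons (nat_lit 2352) (nat_lit 6) (nat_lit 125585087427219439778) (ZL.cons (nat_lit 2436) (nat_lit 6) (nat_lit 125383501272905441480) (ZL.cons (nat_lit 2520) (nat_lit 6) (nat_lit 125282755148719025818) (ZL.cons (nat_lit 2604) (nat_lit 6) (nat_lit 124612875109286205524) (ZL.cons (nat_lit 2688) (nat_lit 6) (nat_lit 124364622899454552532) (ZL.cons (nat_lit 2772) (nat_lit 6) (nat_lit 124215764072029434876) (ZL.cons (nat_lit 2856) (nat_lit 3) (nat_lit 62083079937495166560) (ZL.cons (nat_lit 2940) (nat_lit 6) (nat_lit 123702453170463439352) (ZL.cons (nat_lit 3024) (nat_lit 6) (nat_lit 123408938055183042714) (ZL.cons (nat_lit 3108) (nat_lit 6) (nat_lit 123213413172240270364) (ZL.cons (nat_lit 3192) (nat_lit 6) (nat_lit 123115696271962466614)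 (ZL.cons (nat_lit 3276) (nat_lit 6) (nat_lit 122515555941705514436) (ZL.cons (nat_lit 3360) (nat_lit 6) (nat_lit 122274768153313998440) (ZL.cons (nat_lit 3444) (nat_lit 6) (nat_lit 122130385197518539996) (ZL.cons (nat_lit 3528) (nat_lit 3) (nat_lit 61041136247139919001) (ZL.cons (nat_lit 3612) (nat_lit 6) (nat_lit 121683643833308047320) (ZL.cons (nat_lit 3696) (nat_lit 6) (nat_lit 121398954099767410428) (ZL.cons (nat_lit 3780) (nat_lit 6) (nat_lit 121209308238523208338) (ZL.cons (nat_lit 3864) (nat_lit 6) (nat_lit 121114529479766851650) (ZL.cons (nat_lit 3948) (nat_lit 6) (nat_lit 120912426300760602602) (ZL.cons (nat_lit 4032) (nat_lit 6) (nat_lit 120585154661158742726) (ZL.cons (nat_lit 4116) (nat_lit 6) (nat_lit 120351606854765419740) (ZL.cons (nat_lit 4200) (nat_lit 6) (nat_lit 120211565190560319406) (ZL.cons (nat_lit 4284) (nat_lit 3) (nat_lit 60082449567521332356) (ZL.cons (nat_lit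 4368) (nat_lit 6) (nat_lit 120201184488535752454) (ZL.cons (nat_lit 4452) (nat_lit 6) (nat_lit 119832611291163550208) (ZL.cons (nat_lit 4536) (nat_lit 6) (nat_lit 119556481578709004238) (ZL.cons (nat_lit 4620) (nat_lit 6) (nat_lit 119372537969354783008) (ZL.cons (nat_lit 4704) (nat_lit 6) (nat_lit 119280609008388384668) (ZL.cons (nat_lit 4788) (nat_lit 6) (nat_lit 119140622540530072074) (ZL.cons (nat_lit 4872) (nat_lit 6) (nat_lit 118823191270305183734) (ZL.cons (nat_lit 4956) (nat_lit 6) (nat_lit 118596665754889739520) (ZL.cons (nat_lit 5040) (nat_lit 6) (nat_lit 118460834848774220284) (ZL.cons (nat_lit 5124) (nat_lit 3) (nat_lit 59207785971662738319) (ZL.cons (nat_lit 5208) (nat_lit 6) (nat_lit 118508543403255050546) (ZL.cons (nat_lit 5292) (nat_lit 6) (nat_lit 118151052426172410150) (ZL.cons (nat_lit 5376) (nat_lit 6) (nat_lit 117883225352986623566) (ZL.cons (nat_lit 5460) (nat_lit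 6) (nat_lit 117704812540809881346) (ZL.cons (nat_lit 5544) (nat_lit 6) (nat_lit 117615647690212016804) (ZL.cons (nat_lit 5628) (nat_lit 6) (nat_lit 117935784715370569718) (ZL.cons (nat_lit 5712) (nat_lit 6) (nat_lit 117539438542499615010) (ZL.cons (nat_lit 5796) (nat_lit 6) (nat_lit 117231551762456076370) (ZL.cons (nat_lit 5880) (nat_lit 6) (nat_lit 117011837392508991780) (ZL.cons (nat_lit 5964) (nat_lit 6) (nat_lit 116880090635849904254) (ZL.cons (nat_lit 6048) (nat_lit 3) (nat_lit 58418094345350391679) (ZL.cons (nat_lit 6132) (nat_lit 6) (nat_lit 117421812605781520974) (ZL.cons (nat_lit 6216) (nat_lit 6) (nat_lit 116987779531079029588) (ZL.cons (nat_lit 6300) (nat_lit 6) (nat_lit 116641037555247176636) (ZL.cons (nat_lit 6384) (nat_lit 6) (nat_lit 116381263478442339990) (ZL.cons (nat_lit 6468) (nat_lit 6) (nat_lit 116208215164012910094) (ZL.cons (nat_lit 6552) (nat_lit 6) (nat_lit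 116121731312802566214) (ZL.cons (nat_lit 6636) (nat_lit 6) (nat_lit 116966147998641817916) (ZL.cons (nat_lit 6720) (nat_lit 6) (nat_lit 116495561187924257010) (ZL.cons (nat_lit 6804) (nat_lit 6) (nat_lit 116111132310260867380) (ZL.cons (nat_lit 6888) (nat_lit 6) (nat_lit 115812503037667716422) (ZL.cons (nat_lit 6972) (nat_lit 6) (nat_lit 115599395016380534470) (ZL.cons (nat_lit 7056) (nat_lit 6) (nat_lit 115471609607399848220) (ZL.cons (nat_lit 7140) (nat_lit 3) (nat_lit 57714513850669312618) (ZL.cons (nat_lit 7224) (nat_lit 6) (nat_lit 116568366166805523342) (ZL.cons (nat_lit 7308) (nat_lit 6) (nat_lit 116062324713978292678) (ZL.cons (nat_lit 7392) (nat_lit 6) (nat_lit 115641342100299833528) (ZL.cons (nat_lit 7476) (nat_lit 6) (nat_lit 115305025925875145892) (ZL.cons (nat_lit 7560) (nat_lit 6) (nat_lit 115053062708799649628) (ZL.cons (nat_lit 7644) (nat_lit 6) (nat_lit 114885217592961211322)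 (ZL.cons (nat_lit 7728) (nat_lit 6) (nat_lit 114801334129129645968) (ZL.cons (nat_lit 7812) (nat_lit 3) (nat_lit 57327041820940255283) (ZL.cons (nat_lit 7896) (nat_lit 6) (nat_lit 114682716351498615930) (ZL.cons (nat_lit 7980) (nat_lit 6) (nat_lit 114768641169037648802) (ZL.cons (nat_lit 8064) (nat_lit 6) (nat_lit 114911938185428409388) (ZL.cons (nat_lit 8148) (nat_lit 6) (nat_lit 115112740968500918560) (ZL.cons (nat_lit 8232) (nat_lit 6) (nat_lit 115371236687483627028) (ZL.cons (nat_lit 8316) (nat_lit 6) (nat_lit 115687666287464742730) (ZL.cons (nat_lit 8400) (nat_lit 6) (nat_lit 115231229031676613822) (ZL.cons (nat_lit 8484) (nat_lit 6) (nat_lit 114858359121236856666) (ZL.cons (nat_lit 8568) (nat_lit 6) (nat_lit 114568709002329823724) (ZL.cons (nat_lit 8652) (nat_lit 6) (nat_lit 114362008690703071106) (ZL.cons (nat_lit 8736) (nat_lit 6) (nat_lit 114238065520013753696) (ZL.cons (nat_lit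 8820) (nat_lit 3) (nat_lit 57098381981121705663) (ZL.cons (nat_lit 8904) (nat_lit 6) (nat_lit 114006216757272925940) (ZL.cons (nat_lit 8988) (nat_lit 6) (nat_lit 114064369790507297936) (ZL.cons (nat_lit 9072) (nat_lit 6) (nat_lit 114180730061694701704) (ZL.cons (nat_lit 9156) (nat_lit 6) (nat_lit 114355406030796932684) (ZL.cons (nat_lit 9240) (nat_lit 6) (nat_lit 114588560514114967832) (ZL.cons (nat_lit 9324) (nat_lit 6) (nat_lit 114880410836050813584) (ZL.cons (nat_lit 9408) (nat_lit 6) (nat_lit 114472086283501386670) (ZL.cons (nat_lit 9492) (nat_lit 6) (nat_lit 114145882428579284208) (ZL.cons (nat_lit 9576) (nat_lit 6) (nat_lit 113901495215120994912) (ZL.cons (nat_lit 9660) (nat_lit 6) (nat_lit 113738696848643363190) (ZL.cons (nat_lit 9744) (nat_lit 6) (nat_lit 113657335584015268764) (ZL.cons (nat_lit 9828) (nat_lit 3) (nat_lit 56703231287952021654) (ZL.cons (nat_lit 9912) (nat_lit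 6) (nat_lit 113435982899520309940) (ZL.cons (nat_lit 9996) (nat_lit 6) (nat_lit 113524571386403052832) (ZL.cons (nat_lit 10080) (nat_lit 6) (nat_lit 113672310610301926994) (ZL.cons (nat_lit 10164) (nat_lit 6) (nat_lit 113879338279649683950) (ZL.cons (nat_lit 10248) (nat_lit 6) (nat_lit 114145847365920856382) (ZL.cons (nat_lit 10332) (nat_lit 6) (nat_lit 113784188868889084162) (ZL.cons (nat_lit 10416) (nat_lit 6) (nat_lit 113503247919415725346) (ZL.cons (nat_lit 10500) (nat_lit 6) (nat_lit 113302762651106556946) (ZL.cons (nat_lit 10584) (nat_lit 6) (nat_lit 113182546190690148208) (ZL.cons (nat_lit 10668) (nat_lit 3) (nat_lit 56571243241916198076) (ZL.cons (nat_lit 10752) (nat_lit 6) (nat_lit 112882894773669082002) (ZL.cons (nat_lit 10836) (nat_lit 6) (nat_lit 112942850550933719530) (ZL.cons (nat_lit 10920) (nat_lit 6) (nat_lit 113062817990527932816) (ZL.cons (nat_lit 11004) (nat_lit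 6) (nat_lit 113242908914672332954) (ZL.cons (nat_lit 11088) (nat_lit 6) (nat_lit 113483291186973227194) (ZL.cons (nat_lit 11172) (nat_lit 6) (nat_lit 113166895595390198620) (ZL.cons (nat_lit 11256) (nat_lit 6) (nat_lit 112929856591065960700) (ZL.cons (nat_lit 11340) (nat_lit 6) (nat_lit 112771953228818015284) (ZL.cons (nat_lit 11424) (nat_lit 6) (nat_lit 112693038326171948916) (ZL.cons (nat_lit 11508) (nat_lit 3) (nat_lit 56202294938441432171) (ZL.cons (nat_lit 11592) (nat_lit 6) (nat_lit 112435025330531235238) (ZL.cons (nat_lit 11676) (nat_lit 6) (nat_lit 112526360060507343160) (ZL.cons (nat_lit 11760) (nat_lit 6) (nat_lit 112678679200347082422) (ZL.cons (nat_lit 11844) (nat_lit 6) (nat_lit 112892124727444619844) (ZL.cons (nat_lit 11928) (nat_lit 6) (nat_lit 112619631081010712166) (ZL.cons (nat_lit 12012) (nat_lit 6) (nat_lit 112425173982747697230) (ZL.cons (nat_lit 12096) (nat_lit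 6) (nat_lit 112308572178270094184) (ZL.cons (nat_lit 12180) (nat_lit 3) (nat_lit 56134858491240889936) (ZL.cons (nat_lit 12264) (nat_lit 6) (nat_lit 112000622378894138474) (ZL.cons (nat_lit 12348) (nat_lit 6) (nat_lit 112062436785253979764) (ZL.cons (nat_lit 12432) (nat_lit 6) (nat_lit 112186123215475613662) (ZL.cons (nat_lit 12516) (nat_lit 6) (nat_lit 112371796958268490208) (ZL.cons (nat_lit 12600) (nat_lit 6) (nat_lit 112141885217895805514) (ZL.cons (nat_lit 12684) (nat_lit 6) (nat_lit 111988729677403132948) (ZL.cons (nat_lit 12768) (nat_lit 6) (nat_lit 111912187579783281958) (ZL.cons (nat_lit 12852) (nat_lit 3) (nat_lit 55819618393483317795) (ZL.cons (nat_lit 12936) (nat_lit 6) (nat_lit 111670615739678105984) (ZL.cons (nat_lit 13020) (nat_lit 6) (nat_lit 111764781846283473250) (ZL.cons (nat_lit 13104) (nat_lit 6) (nat_lit 111921822879458244432) (ZL.cons (nat_lit 13188) (nat_lit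 6) (nat_lit 111733212696855902108) (ZL.cons (nat_lit 13272) (nat_lit 6) (nat_lit 111620116863220981598) (ZL.cons (nat_lit 13356) (nat_lit 3) (nat_lit 55791214980694722460) (ZL.cons (nat_lit 13440) (nat_lit 6) (nat_lit 111350531705520945470) (ZL.cons (nat_lit 13524) (nat_lit 6) (nat_lit 111414262358477941840) (ZL.cons (nat_lit 13608) (nat_lit 6) (nat_lit 111541783068036446390) (ZL.cons (nat_lit 13692) (nat_lit 6) (nat_lit 111393232592291856122) (ZL.cons (nat_lit 13776) (nat_lit 6) (nat_lit 111318991954445249924) (ZL.cons (nat_lit 13860) (nat_lit 3) (nat_lit 55550943165466503703) (ZL.cons (nat_lit 13944) (nat_lit 6) (nat_lit 111134238031178533382) (ZL.cons (nat_lit 14028) (nat_lit 6) (nat_lit 111231323287088667036) (ZL.cons (nat_lit 14112) (nat_lit 6) (nat_lit 111121628007132391080) (ZL.cons (nat_lit 14196) (nat_lit 3) (nat_lit 55542537135558660780) (ZL.cons (nat_lit 14280) (nat_lit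 6) (nat_lit 110924447852378909630) (ZL.cons (nat_lit 14364) (nat_lit 6) (nat_lit 110990154155577572890) (ZL.cons (nat_lit 14448) (nat_lit 6) (nat_lit 110918145777452833612) (ZL.cons (nat_lit 14532) (nat_lit 3) (nat_lit 55392348137828174266) (ZL.cons (nat_lit 14616) (nat_lit 6) (nat_lit 110818050878609485816) (ZL.cons (nat_lit 14700) (nat_lit 3) (nat_lit 55391298118249908029) (ZL.cons (nat_lit 14784) (nat_lit 6) (nat_lit 110714853037901994238) (ZL.cons (nat_lit 14868) (nat_lit 1) (nat_lit 18446744073709551617) ZL.nil)))))))))))))))))))))))))))))))))))))))))))))))))))))))))))))))))))))))))))))))))))))))))))))))))))))))))))))))))))))))))))))))))))))))))))))))))))))))))))))))))))))))))))))))))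

noncomputable def vl : XL := ⟨(nat_lit 0), (nat_lit 84), (nat_lit 669140731), (nat_lit 168), (nat_lit 80839590), (nat_lit 168), (nat_lit 80839590), (nat_lit 1), (nat_lit 4), (nat_lit 2), (nat_lit 5), (nat_lit 2), (nat_lit 4), (nat_lit 0), (nat_lit 0), (nat_lit 0)⟩

noncomputable def cp0 : Nat := (nat_lit 4256701240223289432106574516565450713439044974192744139257097123176382464)

noncomputable def cp1 : Nat := (nat_lit 87409891541934154825014493774448769353618118448010189510328240684868432180260998847360259420338454304273257507643294894533816200394450647156901121484038142896567103554946860497439469705652207916587108026623951002332720051021844912752058623928584142601653780872022713902595690705764987017008892744508667151312617509315017295441851527638021124777637600477409410804248164682717933918296441703199174002687560637799545044438199708943804546843520174388349414618060495595780911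643580488869577187003234293646736586504501218939179390368018078073440577873251506101815789876439210871982564557488203936072985440956657490814540727301814062089670390715338886269136627291967110446704299229743566776773092500540096498190310342696997575845130633050129700389933921546208565971932802558128207520170699196501132549900046285540814288950789730051439188902505060777410815613540388850385746341224762213437268178782915025799439599621708374170966286475468820432458495814528132282753711901710984834848770894762300106626216491284553857151213812853476346251621466830306828351918332144208588591158422611469916486965188335148766986800684045255118012604886909798628787238336954116524942511373809491200065262463693320339153141615900718622475931586724661104256005418850153740605058177204975767105530631784490920222691953968852655442234790915778697582191840602743911615107967929774524073299077735386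961335312758180123572618828742567298006020441914415944164088431799139854008740485214899057226555033126163335211208927914624179094603282112798812535700375680696423394035445135239955132997836440403390543997663082899313334940300966294984641788803797166134316318060189723137040554451496161210071622239329862098646100614556185517930226182244598395665881365830404640739869319295236639800936216412200435317335755580932001878048309386782244252966525807561209969323489940338522464611806219339909996481107815509773269681760402454787130561502056813244483367064899509474526198743310250306232784633896811094205045692029746234289574345900756153874223019732988344422192660297094418061802205691369287640040896133203121711626890620015269850747215959607946650340074389834586663555846189388859082552735334555762978640094250469189066302679824224334882775168059473639788981846250176869025478051382686822891965447657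915323151523037704940281066874792090122394993474575397318876616984572797639637844327739175431780011461076347154417348718590921878002200833700916872804595908141077134099185767567241854714213517506732482761620019967652003852094607583111939836219863349702716506005968977253108941226450087133476334597019026945261355518695996157974115382422334093643213225760545617853500450674426061063441769293398744678857168380255173836267688400301189704104084368860183577919933008126080440194898216654576692727625525929681959663353497376611032580791313240732216226826043345637775389083475959674119652353443111703699157996459741459332151203420398981213310625325842823380843986100350118772865766950447905404221680208311691911489021266627365032379262650692330944050800368836197223129886527870551582357220187212762479707710415646089682808663579687549706418998108856578455814611997539725797822345582936580862006620217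151464892730647585496296225924263151372039955459836717789759153921916903646234788371288603344845568769162108499983394933664584175967435913284225319201341636689838040139493806146988784401425805591088040575312646682997685590504510652095087163173684798046060035792858979572297266269161682047425247449555256042484720747934958997796340556257035515098916867634932392881729218793786383104269925516447134401699377800842292938145903442977154538702425278298977998213167413440462263544189517373817681071044133820818870051933852911877637146892323133310441744014754880776643848504123711065793592262201513004910190227597253865856202038643471220095470153131361899558381702861810721575363218900493257921026499552257624923633297838818497646226695883821177833425018288862924232570275638514576155343456880903403843225210203548505298167407429306561153370104917023522194230537118964360082370840429636531982778064561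425318488822130038694316393310182557912869220428592392003834299682364189206125926595989410638857909237301663964082120086448365291351221860607847899900600258388717708989284590254248856021117744099925842014393495915545812160622693136958125996059798024630355576787868368389061478650752032993528981616492698687646598148134877910969843327764663193948673979537507997784658969076462358427930036271216059226195557112252507923299671338752040861072594758008832)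

noncomputable def rc0 : Nat := (nat_lit 742854069369804563299594951274619611530631527785677120306237462805816376235680847784680197781501012360025487151666219688159437025081507033980649032025468316594391239849496105478934176663010870078977048883933074822522517194172756769188836368200311223834643350934167542225522131735033462052293313302809588149752924361782158378792607400602228942288053852829860852169720626419469978916004584681696902471807320232970768100251961875939814458412912399445268386949748060152289312509130597443909966767510478055478553822196460114662978105265181479006466514314398489409749081179472271258179520175724635764093816985967592674742736627465287550973881703165561923610173008581098074316904950589812777885654433936114090357067502162160005041959499406736074570068705033834568963654409068738811032347689897815918666775667865433144061037674504567016359688667559959316808138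678166761937062717505731170899660958648006755332157912203599349280494881141988924810489083708940212006224009084209529716925579143869486229353803562537137735175007695807372329552446192767200108434936833864078427589367468012079779566254098543871363098023177134725130889002688396179035398561956599308942009994776311260862241867641384940676780643447870780249019177424677562824418966639863139456614666067123741565133346790669379979497925702722593145159291006251233349686592187341201316363072474503654626966539901575718801212504440364879792634409804211717088909940616218970019476791460931323420380279928711114443089531276511094594029632265632143481189151490853930469631841188893733896401811473850869728737293464984646585144842552648790061648595135502236402819386878895307494900201965415007163999156903166697944656505467737489383921754047282659732385984958803915836205494862629094379305432922037010171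508464950931636927825407743762120457935698058184455092576385839259861505614267956997514752992704291732247313972587332874677504188648364192783108428794271171794821887801358086269355933468317550041589677752677498765171446975003808450594375808802274942290637596359321597319269739499657627675907604300106734110000983852690333711642834313685840609882058339510293483462746704042055193179505155490361225130248403015995029461286457198602843099224288855724053854233867233471527009906251709926718923806436448084404850981837705907544001809824018225374934880132892072405326015382275453911695761930948230316784337899832565533592765745371126421580583080282315019517269249205931239742147478419504698234329441699051922504318054103209983234020653139990459402268752770908254516139851939627151861177816305438065341901195373708478334600524100435694922182224706714993232387673480633898838854105665197385329177560557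439367350919313259435526608518050993828966839175335240956162736044254404643904939333618652174930034828227371658050367178412855938350634499589766833409079040445244102786599978530022032933385806180317887844089107260983599281784605812416511231192866863463604709056530425889477585455516428097007718923336937409192314786322707244888379581663517165600847133487397486412314258011147767050690129990965702613812528567934545748995086535414861028562737705054869253457398981662793435160421221626502585046345626082045963326936047168338308908056140367484367722121961358796576322082955241951682737201715356368833558000349399166583932777780975488278547880653226680592006910739375836112525722140870320454273063326019069207111517301710890238868291072685722304454587598096631610818047045104062126805039756522173727496583557726581257291615294985867763547568928370421645319668123352313327769931087078965263253503296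41202166300707543103622503402515200274309883714751694131781026038213998227713114347409169290781044303595583384737252282517007636632147485761381511002682677355860111444154273076441417955145731066939530894712226888539821127752144064911037903173299857256206221700518536334372083771452771143615679035899650482404351815655265151103270259208140961174501630914749681229681168730952353258538064323615383942430924068368419029352504221087846794236901397630505538456459612188341265409307293940523254690314584578895277535196147913539138822897226096932262007169786029406600419172233368396401459337670726343288325850843657553469762333222744905793497897262779801908035880273687372635863892970594397564370192932827820555218095279389024130318489514996123138345827968255816588195284742252798853329724684613370785744672040417189345216121104621080744057335024225543410709979212794879467328884016859466826704794723417610278072803475628950508301704108943516457929500350194996308082688)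

noncomputable def rc1 : Nat := (nat_lit 874098915419341548250144937744487693536181184480101895103282406848684321802609988473602594203384543042732575076432948945338162003944506471569011214840381428965671035549468604974394697056522079165871080266239510023327200510218449127520586239285841426016537808720227139025956907057649870170088927445086671513126175093150172954418515276380211247776376004774094108042481646827179339182964417031991740026875606377995450444381997089438045468435201743883494146180604955957809116435804888695771870032342936467365865045012189391793903680180780734405778732515061018157898764392108719825645574882039360729854409566574908145407273018140620896703907153388862691366272919671104467042992297435667767730925005400964981903103426969975758451306330501297003899339215462085659719328025581282075201706991965011325499000462855408142889507897300514391889025050607774108156135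403888503857463412247622134372681787829150257994395996217083741709662864754688204324584958145281322827537119017109848348487708947623001066262164912845538571512138128534763462516214668303068283519183321442085885911584226114699164869651883351487669868006840452551180126048869097986287872383369541165249425113738094912000652624636933203391531416159007186224759315867246611042560054188501537406050581772049757671055306317844909202226919539688526554422347909157786975821918406027439116151079679297745240732990777353869613353127581801235726188287425672980060204419144159441640884317991398540087404852148990572265550331261633352112089279146241790946032821127988125357003756806964233940354451352399551329978364404033905439976630828993133349403009662949846417888037971661343163180601897231370405544514961612100716222393298620986461006145561855179302261822445983956658813658304046407398693192952366398009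362164122004353173357555809320018780483093867822442529665258075612099693234899403385224646118062193399099964811078155097732696817604024547871305615020568132444833670648995094745261987433102503062327846338968110942050456920297462342895743459007561538742230197329883444221926602970944180618022056913692876400408961332031217116268906200152698507472159596079466503400743898345866635558461893888590825527353345557629786400942504691890663026798242243348827751680594736397889818462501768690254780513826868228919654476579153231515230377049402810668747920901223949934745753973188766169845727976396378443277391754317800114610763471544173487185909218780022008337009168728045959081410771340991857675672418547142135175067324827616200199676520038520946075831119398362198633497027165060059689772531089412264500871334763345970190269452613555186959961579741153824223340936432132257605456178535004506744260610634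417692933987446788571683802551738362676884003011897041040843688601835779199330081260804401948982166545766927276255259296819596633534973766110325807913132407322162268260433456377753890834759596741196523534431117036991579964597414593321512034203989812133106253258428233808439861003501187728657669504479054042216802083116919114890212666273650323792626506923309440508003688361972231298865278705515823572201872127624797077104156460896828086635796875497064189981088565784558146119975397257978223455829365808620066202171514648927306475854962962259242631513720399554598367177897591539219169036462347883712886033448455687691621084999833949336645841759674359132842253192013416366898380401394938061469887844014258055910880405753126466829976855905045106520950871631736847980460600357928589795722972662691616820474252474495552560424847207479349589977963405562570355150989168676349323928817292187937863831042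69925516447134401699377800842292938145903442977154538702425278298977998213167413440462263544189517373817681071044133820818870051933852911877637146892323133310441744014754880776643848504123711065793592262201513004910190227597253865856202038643471220095470153131361899558381702861810721575363218900493257921026499552257624923633297838818497646226695883821177833425018288862924232570275638514576155343456880903403843225210203548505298167407429306561153370104917023522194230537118964360082370840429636531982778064561425318488822130038694316393310182557912869220428592392003834299682364189206125926595989410638857909237301663964082120086448365291351221860607847899900600258388717708989284590254248856021117744099925842014393495915545812160622693136958125996059798024630355576787868368389061478650752032993528981616492698687646598148134877910969843327764663193948673979537507997784658969076462358427930036271216059226195557112252507923299671338752040861072594758008832)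

end Vale.Agent.Lib.P154.Chain.D7.S0
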