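import Vale.Agent.Lib.P154.Chain.D7.R0_1

set_option linter.all false

namespace Vale.Agent.Lib.P154.Chain.D7.S1

noncomputable def pc0 : PT := (PT.nd (nat_lit 761964) (PT.nd (nat_lit 599814) (PT.nd (nat_lit 491808) (PT.nd (nat_lit 383802) (PT.nd (nat_lit 221746) (PT.nd (nat_lit 167790) PT.nil (PT.lf (nat_lit 84) (nat_lit 3) (nat_lit 1) (nat_lit 1) (nat_lit 60) (nat_lit 3) (nat_lit 60))) (PT.nd (nat_lit 94) (PT.lf (nat_lit 168) (nat_lit 6) (nat_lit 2) (nat_lit 3) (nat_lit 59) (nat_lit 4) (nat_lit 60)) (PT.lf (nat_lit 168) (nat_lit 6) (nat_lit 2) (nat_lit 1) (nat_lit 60) (nat_lit 4) (nat_lit 59)))) (PT.nd (nat_lit 54050) (PT.nd (nat_lit 53956) (PT.lf (nat_lit 588) (nat_lit 3) (nat_lit 7) (nat_lit 1) (nat_lit 58) (nat_lit 7) (nat_lit 58)) (PT.lf (nat_lit 756) (nat_lit 6) (nat_lit 9) (nat_lit 3) (nat_lit 57) (nat_lit 8) (nat_lit 58))) (PT.nd (nat_lit 53862) (PT.lf (nat_lit 756) (nat_lit 6) (nat_lit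 9) (nat_lit 1) (nat_lit 58) (nat_lit 8) (nat_lit 57)) (PT.lf (nat_lit 840) (nat_lit 6) (nat_lit 10) (nat_lit 3) (nat_lit 56) (nat_lit 9) (nat_lit 58))))) (PT.nd (nat_lit 53956) (PT.nd (nat_lit 94) (PT.lf (nat_lit 924) (nat_lit 3) (nat_lit 11) (nat_lit 1) (nat_lit 57) (nat_lit 9) (nat_lit 57)) (PT.nd (nat_lit 53768) (PT.lf (nat_lit 840) (nat_lit 6) (nat_lit 10) (nat_lit 1) (nat_lit 58) (nat_lit 9) (nat_lit 56)) (PT.lf (nat_lit 1008) (nat_lit 6) (nat_lit 12) (nat_lit 3) (nat_lit 55) (nat_lit 10) (nat_lit 58)))) (PT.nd (nat_lit 188) (PT.nd (nat_lit 94) (PT.lf (nat_lit 1092) (nat_lit 6) (nat_lit 13) (nat_lit 3) (nat_lit 56) (nat_lit 10) (nat_lit 57)) (PT.lf (nat_lit 1092) (nat_lit 6) (nat_lit 13) (nat_lit 1) (nat_lit 57) (nat_lit 10) (nat_lit 56))) (PT.nd (nat_lit 53768) (PT.lf (nat_lit 1008) (nat_lit 6) (nat_lit 12) (nat_lit 1) (nat_lit 58) (nat_lit 10) (nat_lit 55)) (PT.lf (nat_lit 1260) (nat_lit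 6) (nat_lit 15) (nat_lit 3) (nat_lit 55) (nat_lit 11) (nat_lit 57)))))) (PT.nd (nat_lit 107912) (PT.nd (nat_lit 53956) (PT.nd (nat_lit 94) (PT.lf (nat_lit 1344) (nat_lit 3) (nat_lit 16) (nat_lit 1) (nat_lit 56) (nat_lit 11) (nat_lit 56)) (PT.nd (nat_lit 53768) (PT.lf (nat_lit 1260) (nat_lit 6) (nat_lit 15) (nat_lit 1) (nat_lit 57) (nat_lit 11) (nat_lit 55)) (PT.lf (nat_lit 1428) (nat_lit 6) (nat_lit 17) (nat_lit 3) (nat_lit 54) (nat_lit 12) (nat_lit 57)))) (PT.nd (nat_lit 188) (PT.nd (nat_lit 94) (PT.lf (nat_lit 1512) (nat_lit 6) (nat_lit 18) (nat_lit 3) (nat_lit 55) (nat_lit 12) (nat_lit 56)) (PT.lf (nat_lit 1512) (nat_lit 6) (nat_lit 18) (nat_lit 1) (nat_lit 56) (nat_lit 12) (nat_lit 55))) (PT.nd (nat_lit 53674) (PT.lf (nat_lit 1428) (nat_lit 6) (nat_lit 17) (nat_lit 1) (nat_lit 57) (nat_lit 12) (nat_lit 54)) (PT.lf (nat_lit 1596) (nat_lit 6) (nat_lit 19) (nat_lit 3) (nat_lit 53) (nat_lit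 13) (nat_lit 57))))) (PT.nd (nat_lit 53862) (PT.nd (nat_lit 188) (PT.nd (nat_lit 94) (PT.lf (nat_lit 1680) (nat_lit 6) (nat_lit 20) (nat_lit 3) (nat_lit 54) (nat_lit 13) (nat_lit 56)) (PT.lf (nat_lit 1764) (nat_lit 3) (nat_lit 21) (nat_lit 1) (nat_lit 55) (nat_lit 13) (nat_lit 55))) (PT.nd (nat_lit 94) (PT.lf (nat_lit 1680) (nat_lit 6) (nat_lit 20) (nat_lit 1) (nat_lit 56) (nat_lit 13) (nat_lit 54)) (PT.lf (nat_lit 1596) (nat_lit 6) (nat_lit 19) (nat_lit 1) (nat_lit 57) (nat_lit 13) (nat_lit 53)))) (PT.nd (nat_lit 188) (PT.nd (nat_lit 94) (PT.lf (nat_lit 1848) (nat_lit 6) (nat_lit 22) (nat_lit 3) (nat_lit 52) (nat_lit 14) (nat_lit 57)) (PT.lf (nat_lit 1932) (nat_lit 6) (nat_lit 23) (nat_lit 3) (nat_lit 53) (nat_lit 14) (nat_lit 56))) (PT.nd (nat_lit 94) (PT.lf (nat_lit 2016) (nat_lit 6) (nat_lit 24) (nat_lit 3) (nat_lit 54) (nat_lit 14) (nat_lit 55)) (PT.lf (nat_lit 2016) (nat_lit 6) (nat_lit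 24) (nat_lit 1) (nat_lit 55) (nat_lit 14) (nat_lit 54))))))) (PT.nd (nat_lit 161680) (PT.nd (nat_lit 107630) (PT.nd (nat_lit 53768) (PT.nd (nat_lit 94) (PT.lf (nat_lit 1932) (nat_lit 6) (nat_lit 23) (nat_lit 1) (nat_lit 56) (nat_lit 14) (nat_lit 53)) (PT.nd (nat_lit 53580) (PT.lf (nat_lit 1848) (nat_lit 6) (nat_lit 22) (nat_lit 1) (nat_lit 57) (nat_lit 14) (nat_lit 52)) (PT.lf (nat_lit 2100) (nat_lit 6) (nat_lit 25) (nat_lit 3) (nat_lit 52) (nat_lit 15) (nat_lit 56)))) (PT.nd (nat_lit 188) (PT.nd (nat_lit 94) (PT.lf (nat_lit 2184) (nat_lit 6) (nat_lit 26) (nat_lit 3) (nat_lit 53) (nat_lit 15) (nat_lit 55)) (PT.lf (nat_lit 2268) (nat_lit 3) (nat_lit 27) (nat_lit 1) (nat_lit 54) (nat_lit 15) (nat_lit 54))) (PT.nd (nat_lit 94) (PT.lf (nat_lit 2184) (nat_lit 6) (nat_lit 26) (nat_lit 1) (nat_lit 55) (nat_lit 15) (nat_lit 53)) (PT.lf (nat_lit 2100) (nat_lit 6) (nat_lit 25) (nat_lit 1) (nat_lit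 56) (nat_lit 15) (nat_lit 52))))) (PT.nd (nat_lit 282) (PT.nd (nat_lit 94) (PT.lf (nat_lit 2352) (nat_lit 6) (nat_lit 28) (nat_lit 3) (nat_lit 51) (nat_lit 16) (nat_lit 56)) (PT.nd (nat_lit 94) (PT.lf (nat_lit 2436) (nat_lit 6) (nat_lit 29) (nat_lit 3) (nat_lit 52) (nat_lit 16) (nat_lit 55)) (PT.lf (nat_lit 2520) (nat_lit 6) (nat_lit 30) (nat_lit 3) (nat_lit 53) (nat_lit 16) (nat_lit 54)))) (PT.nd (nat_lit 188) (PT.nd (nat_lit 94) (PT.lf (nat_lit 2520) (nat_lit 6) (nat_lit 30) (nat_lit 1) (nat_lit 54) (nat_lit 16) (nat_lit 53)) (PT.lf (nat_lit 2436) (nat_lit 6) (nat_lit 29) (nat_lit 1) (nat_lit 55) (nat_lit 16) (nat_lit 52))) (PT.nd (nat_lit 53486) (PT.lf (nat_lit 2352) (nat_lit 6) (nat_lit 28) (nat_lit 1) (nat_lit 56) (nat_lit 16) (nat_lit 51)) (PT.lf (nat_lit 2604) (nat_lit 6) (nat_lit 31) (nat_lit 3) (nat_lit 50) (nat_lit 17) (nat_lit 56)))))) (PT.nd (nat_lit 54050) (PT.nd (nat_lit 282)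 (PT.nd (nat_lit 94) (PT.lf (nat_lit 2688) (nat_lit 6) (nat_lit 32) (nat_lit 3) (nat_lit 51) (nat_lit 17) (nat_lit 55)) (PT.nd (nat_lit 94) (PT.lf (nat_lit 2772) (nat_lit 6) (nat_lit 33) (nat_lit 3) (nat_lit 52) (nat_lit 17) (nat_lit 54)) (PT.lf (nat_lit 2856) (nat_lit 3) (nat_lit 34) (nat_lit 1) (nat_lit 53) (nat_lit 17) (nat_lit 53)))) (PT.nd (nat_lit 188) (PT.nd (nat_lit 94) (PT.lf (nat_lit 2772) (nat_lit 6) (nat_lit 33) (nat_lit 1) (nat_lit 54) (nat_lit 17) (nat_lit 52)) (PT.lf (nat_lit 2688) (nat_lit 6) (nat_lit 32) (nat_lit 1) (nat_lit 55) (nat_lit 17) (nat_lit 51))) (PT.nd (nat_lit 53486) (PT.lf (nat_lit 2604) (nat_lit 6) (nat_lit 31) (nat_lit 1) (nat_lit 56) (nat_lit 17) (nat_lit 50)) (PT.lf (nat_lit 3024) (nat_lit 6) (nat_lit 36) (nat_lit 3) (nat_lit 50) (nat_lit 18) (nat_lit 55))))) (PT.nd (nat_lit 376) (PT.nd (nat_lit 188) (PT.nd (nat_lit 94) (PT.lf (nat_lit 3108) (nat_lit 6) (nat_lit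 37) (nat_lit 3) (nat_lit 51) (nat_lit 18) (nat_lit 54)) (PT.lf (nat_lit 3192) (nat_lit 6) (nat_lit 38) (nat_lit 3) (nat_lit 52) (nat_lit 18) (nat_lit 53))) (PT.nd (nat_lit 94) (PT.lf (nat_lit 3192) (nat_lit 6) (nat_lit 38) (nat_lit 1) (nat_lit 53) (nat_lit 18) (nat_lit 52)) (PT.lf (nat_lit 3108) (nat_lit 6) (nat_lit 37) (nat_lit 1) (nat_lit 54) (nat_lit 18) (nat_lit 51)))) (PT.nd (nat_lit 53580) (PT.nd (nat_lit 53486) (PT.lf (nat_lit 3024) (nat_lit 6) (nat_lit 36) (nat_lit 1) (nat_lit 55) (nat_lit 18) (nat_lit 50)) (PT.lf (nat_lit 3276) (nat_lit 6) (nat_lit 39) (nat_lit 3) (nat_lit 49) (nat_lit 19) (nat_lit 55))) (PT.nd (nat_lit 94) (PT.lf (nat_lit 3360) (nat_lit 6) (nat_lit 40) (nat_lit 3) (nat_lit 50) (nat_lit 19) (nat_lit 54)) (PT.lf (nat_lit 3444) (nat_lit 6) (nat_lit 41) (nat_lit 3) (nat_lit 51) (nat_lit 19) (nat_lit 53))))))))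
noncomputable def pc1 : PT := (PT.nd (nat_lit 162338) (PT.nd (nat_lit 107818) (PT.nd (nat_lit 53956) (PT.nd (nat_lit 282) (PT.nd (nat_lit 94) (PT.lf (nat_lit 3528) (nat_lit 3) (nat_lit 42) (nat_lit 1) (nat_lit 52) (nat_lit 19) (nat_lit 52)) (PT.nd (nat_lit 94) (PT.lf (nat_lit 3444) (nat_lit 6) (nat_lit 41) (nat_lit 1) (nat_lit 53) (nat_lit 19) (nat_lit 51)) (PT.lf (nat_lit 3360) (nat_lit 6) (nat_lit 40) (nat_lit 1) (nat_lit 54) (nat_lit 19) (nat_lit 50)))) (PT.nd (nat_lit 53486) (PT.nd (nat_lit 53392) (PT.lf (nat_lit 3276) (nat_lit 6) (nat_lit 39) (nat_lit 1) (nat_lit 55) (nat_lit 19) (nat_lit 49)) (PT.lf (nat_lit 3612) (nat_lit 6) (nat_lit 43) (nat_lit 3) (nat_lit 48) (nat_lit 20) (nat_lit 55))) (PT.nd (nat_lit 94) (PT.lf (nat_lit 3696) (nat_lit 6) (nat_lit 44) (nat_lit 3) (nat_lit 49) (nat_lit 20) (nat_lit 54)) (PT.lf (nat_lit 3780) (nat_lit 6) (nat_lit 45) (nat_lit 3) (nat_lit 50) (nat_lit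 20) (nat_lit 53))))) (PT.nd (nat_lit 282) (PT.nd (nat_lit 94) (PT.lf (nat_lit 3864) (nat_lit 6) (nat_lit 46) (nat_lit 3) (nat_lit 51) (nat_lit 20) (nat_lit 52)) (PT.nd (nat_lit 94) (PT.lf (nat_lit 3864) (nat_lit 6) (nat_lit 46) (nat_lit 1) (nat_lit 52) (nat_lit 20) (nat_lit 51)) (PT.lf (nat_lit 3780) (nat_lit 6) (nat_lit 45) (nat_lit 1) (nat_lit 53) (nat_lit 20) (nat_lit 50)))) (PT.nd (nat_lit 53392) (PT.nd (nat_lit 94) (PT.lf (nat_lit 3696) (nat_lit 6) (nat_lit 44) (nat_lit 1) (nat_lit 54) (nat_lit 20) (nat_lit 49)) (PT.lf (nat_lit 3612) (nat_lit 6) (nat_lit 43) (nat_lit 1) (nat_lit 55) (nat_lit 20) (nat_lit 48))) (PT.nd (nat_lit 94) (PT.lf (nat_lit 3948) (nat_lit 6) (nat_lit 47) (nat_lit 3) (nat_lit 47) (nat_lit 21) (nat_lit 55)) (PT.lf (nat_lit 4032) (nat_lit 6) (nat_lit 48) (nat_lit 3) (nat_lit 48) (nat_lit 21) (nat_lit 54)))))) (PT.nd (nat_lit 53768) (PT.nd (nat_lit 282) (PT.nd (nat_lit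 94) (PT.lf (nat_lit 4116) (nat_lit 6) (nat_lit 49) (nat_lit 3) (nat_lit 49) (nat_lit 21) (nat_lit 53)) (PT.nd (nat_lit 94) (PT.lf (nat_lit 4200) (nat_lit 6) (nat_lit 50) (nat_lit 3) (nat_lit 50) (nat_lit 21) (nat_lit 52)) (PT.lf (nat_lit 4284) (nat_lit 3) (nat_lit 51) (nat_lit 1) (nat_lit 51) (nat_lit 21) (nat_lit 51)))) (PT.nd (nat_lit 188) (PT.nd (nat_lit 94) (PT.lf (nat_lit 4200) (nat_lit 6) (nat_lit 50) (nat_lit 1) (nat_lit 52) (nat_lit 21) (nat_lit 50)) (PT.lf (nat_lit 4116) (nat_lit 6) (nat_lit 49) (nat_lit 1) (nat_lit 53) (nat_lit 21) (nat_lit 49))) (PT.nd (nat_lit 94) (PT.lf (nat_lit 4032) (nat_lit 6) (nat_lit 48) (nat_lit 1) (nat_lit 54) (nat_lit 21) (nat_lit 48)) (PT.lf (nat_lit 3948) (nat_lit 6) (nat_lit 47) (nat_lit 1) (nat_lit 55) (nat_lit 21) (nat_lit 47))))) (PT.nd (nat_lit 376) (PT.nd (nat_lit 188) (PT.nd (nat_lit 94) (PT.lf (nat_lit 4368) (nat_lit 6) (nat_lit 52) (nat_lit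 3) (nat_lit 46) (nat_lit 22) (nat_lit 55)) (PT.lf (nat_lit 4452) (nat_lit 6) (nat_lit 53) (nat_lit 3) (nat_lit 47) (nat_lit 22) (nat_lit 54))) (PT.nd (nat_lit 94) (PT.lf (nat_lit 4536) (nat_lit 6) (nat_lit 54) (nat_lit 3) (nat_lit 48) (nat_lit 22) (nat_lit 53)) (PT.lf (nat_lit 4620) (nat_lit 6) (nat_lit 55) (nat_lit 3) (nat_lit 49) (nat_lit 22) (nat_lit 52)))) (PT.nd (nat_lit 188) (PT.nd (nat_lit 94) (PT.lf (nat_lit 4704) (nat_lit 6) (nat_lit 56) (nat_lit 3) (nat_lit 50) (nat_lit 22) (nat_lit 51)) (PT.lf (nat_lit 4704) (nat_lit 6) (nat_lit 56) (nat_lit 1) (nat_lit 51) (nat_lit 22) (nat_lit 50))) (PT.nd (nat_lit 94) (PT.lf (nat_lit 4620) (nat_lit 6) (nat_lit 55) (nat_lit 1) (nat_lit 52) (nat_lit 22) (nat_lit 49)) (PT.lf (nat_lit 4536) (nat_lit 6) (nat_lit 54) (nat_lit 1) (nat_lit 53) (nat_lit 22) (nat_lit 48))))))) (PT.nd (nat_lit 107630) (PT.nd (nat_lit 53768) (PT.nd (nat_lit 53392) (PT.nd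 (nat_lit 94) (PT.lf (nat_lit 4452) (nat_lit 6) (nat_lit 53) (nat_lit 1) (nat_lit 54) (nat_lit 22) (nat_lit 47)) (PT.nd (nat_lit 53204) (PT.lf (nat_lit 4368) (nat_lit 6) (nat_lit 52) (nat_lit 1) (nat_lit 55) (nat_lit 22) (nat_lit 46)) (PT.lf (nat_lit 4788) (nat_lit 6) (nat_lit 57) (nat_lit 3) (nat_lit 46) (nat_lit 23) (nat_lit 54)))) (PT.nd (nat_lit 188) (PT.nd (nat_lit 94) (PT.lf (nat_lit 4872) (nat_lit 6) (nat_lit 58) (nat_lit 3) (nat_lit 47) (nat_lit 23) (nat_lit 53)) (PT.lf (nat_lit 4956) (nat_lit 6) (nat_lit 59) (nat_lit 3) (nat_lit 48) (nat_lit 23) (nat_lit 52))) (PT.nd (nat_lit 94) (PT.lf (nat_lit 5040) (nat_lit 6) (nat_lit 60) (nat_lit 3) (nat_lit 49) (nat_lit 23) (nat_lit 51)) (PT.lf (nat_lit 5124) (nat_lit 3) (nat_lit 61) (nat_lit 1) (nat_lit 50) (nat_lit 23) (nat_lit 50))))) (PT.nd (nat_lit 53486) (PT.nd (nat_lit 188) (PT.nd (nat_lit 94) (PT.lf (nat_lit 5040) (nat_lit 6) (nat_lit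 60) (nat_lit 1) (nat_lit 51) (nat_lit 23) (nat_lit 49)) (PT.lf (nat_lit 4956) (nat_lit 6) (nat_lit 59) (nat_lit 1) (nat_lit 52) (nat_lit 23) (nat_lit 48))) (PT.nd (nat_lit 94) (PT.lf (nat_lit 4872) (nat_lit 6) (nat_lit 58) (nat_lit 1) (nat_lit 53) (nat_lit 23) (nat_lit 47)) (PT.lf (nat_lit 4788) (nat_lit 6) (nat_lit 57) (nat_lit 1) (nat_lit 54) (nat_lit 23) (nat_lit 46)))) (PT.nd (nat_lit 188) (PT.nd (nat_lit 94) (PT.lf (nat_lit 5208) (nat_lit 6) (nat_lit 62) (nat_lit 3) (nat_lit 45) (nat_lit 24) (nat_lit 54)) (PT.lf (nat_lit 5292) (nat_lit 6) (nat_lit 63) (nat_lit 3) (nat_lit 46) (nat_lit 24) (nat_lit 53))) (PT.nd (nat_lit 94) (PT.lf (nat_lit 5376) (nat_lit 6) (nat_lit 64) (nat_lit 3) (nat_lit 47) (nat_lit 24) (nat_lit 52)) (PT.lf (nat_lit 5460) (nat_lit 6) (nat_lit 65) (nat_lit 3) (nat_lit 48) (nat_lit 24) (nat_lit 51)))))) (PT.nd (nat_lit 53674) (PT.nd (nat_lit 282) (PT.nd (nat_lit 94)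 (PT.lf (nat_lit 5544) (nat_lit 6) (nat_lit 66) (nat_lit 3) (nat_lit 49) (nat_lit 24) (nat_lit 50)) (PT.nd (nat_lit 94) (PT.lf (nat_lit 5544) (nat_lit 6) (nat_lit 66) (nat_lit 1) (nat_lit 50) (nat_lit 24) (nat_lit 49)) (PT.lf (nat_lit 5460) (nat_lit 6) (nat_lit 65) (nat_lit 1) (nat_lit 51) (nat_lit 24) (nat_lit 48)))) (PT.nd (nat_lit 188) (PT.nd (nat_lit 94) (PT.lf (nat_lit 5376) (nat_lit 6) (nat_lit 64) (nat_lit 1) (nat_lit 52) (nat_lit 24) (nat_lit 47)) (PT.lf (nat_lit 5292) (nat_lit 6) (nat_lit 63) (nat_lit 1) (nat_lit 53) (nat_lit 24) (nat_lit 46))) (PT.nd (nat_lit 53110) (PT.lf (nat_lit 5208) (nat_lit 6) (nat_lit 62) (nat_lit 1) (nat_lit 54) (nat_lit 24) (nat_lit 45)) (PT.lf (nat_lit 5628) (nat_lit 6) (nat_lit 67) (nat_lit 3) (nat_lit 44) (nat_lit 25) (nat_lit 54))))) (PT.nd (nat_lit 376) (PT.nd (nat_lit 188) (PT.nd (nat_lit 94) (PT.lf (nat_lit 5712) (nat_lit 6) (nat_lit 68) (nat_lit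 3) (nat_lit 45) (nat_lit 25) (nat_lit 53)) (PT.lf (nat_lit 5796) (nat_lit 6) (nat_lit 69) (nat_lit 3) (nat_lit 46) (nat_lit 25) (nat_lit 52))) (PT.nd (nat_lit 94) (PT.lf (nat_lit 5880) (nat_lit 6) (nat_lit 70) (nat_lit 3) (nat_lit 47) (nat_lit 25) (nat_lit 51)) (PT.lf (nat_lit 5964) (nat_lit 6) (nat_lit 71) (nat_lit 3) (nat_lit 48) (nat_lit 25) (nat_lit 50)))) (PT.nd (nat_lit 188) (PT.nd (nat_lit 94) (PT.lf (nat_lit 6048) (nat_lit 3) (nat_lit 72) (nat_lit 1) (nat_lit 49) (nat_lit 25) (nat_lit 49)) (PT.lf (nat_lit 5964) (nat_lit 6) (nat_lit 71) (nat_lit 1) (nat_lit 50) (nat_lit 25) (nat_lit 48))) (PT.nd (nat_lit 94) (PT.lf (nat_lit 5880) (nat_lit 6) (nat_lit 70) (nat_lit 1) (nat_lit 51) (nat_lit 25) (nat_lit 47)) (PT.lf (nat_lit 5796) (nat_lit 6) (nat_lit 69) (nat_lit 1) (nat_lit 52) (nat_lit 25) (nat_lit 46))))))))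
noncomputable def pc2 : PT := (PT.nd (nat_lit 161210) (PT.nd (nat_lit 107066) (PT.nd (nat_lit 53580) (PT.nd (nat_lit 53204) (PT.nd (nat_lit 94) (PT.lf (nat_lit 5712) (nat_lit 6) (nat_lit 68) (nat_lit 1) (nat_lit 53) (nat_lit 25) (nat_lit 45)) (PT.nd (nat_lit 53016) (PT.lf (nat_lit 5628) (nat_lit 6) (nat_lit 67) (nat_lit 1) (nat_lit 54) (nat_lit 25) (nat_lit 44)) (PT.lf (nat_lit 6132) (nat_lit 6) (nat_lit 73) (nat_lit 3) (nat_lit 43) (nat_lit 26) (nat_lit 54)))) (PT.nd (nat_lit 188) (PT.nd (nat_lit 94) (PT.lf (nat_lit 6216) (nat_lit 6) (nat_lit 74) (nat_lit 3) (nat_lit 44) (nat_lit 26) (nat_lit 53)) (PT.lf (nat_lit 6300) (nat_lit 6) (nat_lit 75) (nat_lit 3) (nat_lit 45) (nat_lit 26) (nat_lit 52))) (PT.nd (nat_lit 94) (PT.lf (nat_lit 6384) (nat_lit 6) (nat_lit 76) (nat_lit 3) (nat_lit 46) (nat_lit 26) (nat_lit 51)) (PT.lf (nat_lit 6468) (nat_lit 6) (nat_lit 77) (nat_lit 3) (nat_lit 47) (nat_lit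 26) (nat_lit 50))))) (PT.nd (nat_lit 282) (PT.nd (nat_lit 94) (PT.lf (nat_lit 6552) (nat_lit 6) (nat_lit 78) (nat_lit 3) (nat_lit 48) (nat_lit 26) (nat_lit 49)) (PT.nd (nat_lit 94) (PT.lf (nat_lit 6552) (nat_lit 6) (nat_lit 78) (nat_lit 1) (nat_lit 49) (nat_lit 26) (nat_lit 48)) (PT.lf (nat_lit 6468) (nat_lit 6) (nat_lit 77) (nat_lit 1) (nat_lit 50) (nat_lit 26) (nat_lit 47)))) (PT.nd (nat_lit 188) (PT.nd (nat_lit 94) (PT.lf (nat_lit 6384) (nat_lit 6) (nat_lit 76) (nat_lit 1) (nat_lit 51) (nat_lit 26) (nat_lit 46)) (PT.lf (nat_lit 6300) (nat_lit 6) (nat_lit 75) (nat_lit 1) (nat_lit 52) (nat_lit 26) (nat_lit 45))) (PT.nd (nat_lit 94) (PT.lf (nat_lit 6216) (nat_lit 6) (nat_lit 74) (nat_lit 1) (nat_lit 53) (nat_lit 26) (nat_lit 44)) (PT.lf (nat_lit 6132) (nat_lit 6) (nat_lit 73) (nat_lit 1) (nat_lit 54) (nat_lit 26) (nat_lit 43)))))) (PT.nd (nat_lit 658) (PT.nd (nat_lit 282) (PT.nd (nat_lit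 94) (PT.lf (nat_lit 6636) (nat_lit 6) (nat_lit 79) (nat_lit 3) (nat_lit 42) (nat_lit 27) (nat_lit 54)) (PT.nd (nat_lit 94) (PT.lf (nat_lit 6720) (nat_lit 6) (nat_lit 80) (nat_lit 3) (nat_lit 43) (nat_lit 27) (nat_lit 53)) (PT.lf (nat_lit 6804) (nat_lit 6) (nat_lit 81) (nat_lit 3) (nat_lit 44) (nat_lit 27) (nat_lit 52)))) (PT.nd (nat_lit 188) (PT.nd (nat_lit 94) (PT.lf (nat_lit 6888) (nat_lit 6) (nat_lit 82) (nat_lit 3) (nat_lit 45) (nat_lit 27) (nat_lit 51)) (PT.lf (nat_lit 6972) (nat_lit 6) (nat_lit 83) (nat_lit 3) (nat_lit 46) (nat_lit 27) (nat_lit 50))) (PT.nd (nat_lit 94) (PT.lf (nat_lit 7056) (nat_lit 6) (nat_lit 84) (nat_lit 3) (nat_lit 47) (nat_lit 27) (nat_lit 49)) (PT.lf (nat_lit 7140) (nat_lit 3) (nat_lit 85) (nat_lit 1) (nat_lit 48) (nat_lit 27) (nat_lit 48))))) (PT.nd (nat_lit 376) (PT.nd (nat_lit 188) (PT.nd (nat_lit 94) (PT.lf (nat_lit 7056) (nat_lit 6) (nat_lit 84) (nat_lit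 1) (nat_lit 49) (nat_lit 27) (nat_lit 47)) (PT.lf (nat_lit 6972) (nat_lit 6) (nat_lit 83) (nat_lit 1) (nat_lit 50) (nat_lit 27) (nat_lit 46))) (PT.nd (nat_lit 94) (PT.lf (nat_lit 6888) (nat_lit 6) (nat_lit 82) (nat_lit 1) (nat_lit 51) (nat_lit 27) (nat_lit 45)) (PT.lf (nat_lit 6804) (nat_lit 6) (nat_lit 81) (nat_lit 1) (nat_lit 52) (nat_lit 27) (nat_lit 44)))) (PT.nd (nat_lit 52922) (PT.nd (nat_lit 94) (PT.lf (nat_lit 6720) (nat_lit 6) (nat_lit 80) (nat_lit 1) (nat_lit 53) (nat_lit 27) (nat_lit 43)) (PT.lf (nat_lit 6636) (nat_lit 6) (nat_lit 79) (nat_lit 1) (nat_lit 54) (nat_lit 27) (nat_lit 42))) (PT.nd (nat_lit 94) (PT.lf (nat_lit 7224) (nat_lit 6) (nat_lit 86) (nat_lit 3) (nat_lit 41) (nat_lit 28) (nat_lit 54)) (PT.lf (nat_lit 7308) (nat_lit 6) (nat_lit 87) (nat_lit 3) (nat_lit 42) (nat_lit 28) (nat_lit 53))))))) (PT.nd (nat_lit 54144) (PT.nd (nat_lit 658) (PT.nd (nat_lit 282) (PT.nd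 (nat_lit 94) (PT.lf (nat_lit 7392) (nat_lit 6) (nat_lit 88) (nat_lit 3) (nat_lit 43) (nat_lit 28) (nat_lit 52)) (PT.nd (nat_lit 94) (PT.lf (nat_lit 7476) (nat_lit 6) (nat_lit 89) (nat_lit 3) (nat_lit 44) (nat_lit 28) (nat_lit 51)) (PT.lf (nat_lit 7560) (nat_lit 6) (nat_lit 90) (nat_lit 3) (nat_lit 45) (nat_lit 28) (nat_lit 50)))) (PT.nd (nat_lit 188) (PT.nd (nat_lit 94) (PT.lf (nat_lit 7644) (nat_lit 6) (nat_lit 91) (nat_lit 3) (nat_lit 46) (nat_lit 28) (nat_lit 49)) (PT.lf (nat_lit 7728) (nat_lit 6) (nat_lit 92) (nat_lit 3) (nat_lit 47) (nat_lit 28) (nat_lit 48))) (PT.nd (nat_lit 94) (PT.lf (nat_lit 7728) (nat_lit 6) (nat_lit 92) (nat_lit 1) (nat_lit 48) (nat_lit 28) (nat_lit 47)) (PT.lf (nat_lit 7644) (nat_lit 6) (nat_lit 91) (nat_lit 1) (nat_lit 49) (nat_lit 28) (nat_lit 46))))) (PT.nd (nat_lit 376) (PT.nd (nat_lit 188) (PT.nd (nat_lit 94) (PT.lf (nat_lit 7560) (nat_lit 6) (nat_lit 90)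 (nat_lit 1) (nat_lit 50) (nat_lit 28) (nat_lit 45)) (PT.lf (nat_lit 7476) (nat_lit 6) (nat_lit 89) (nat_lit 1) (nat_lit 51) (nat_lit 28) (nat_lit 44))) (PT.nd (nat_lit 94) (PT.lf (nat_lit 7392) (nat_lit 6) (nat_lit 88) (nat_lit 1) (nat_lit 52) (nat_lit 28) (nat_lit 43)) (PT.lf (nat_lit 7308) (nat_lit 6) (nat_lit 87) (nat_lit 1) (nat_lit 53) (nat_lit 28) (nat_lit 42)))) (PT.nd (nat_lit 52922) (PT.nd (nat_lit 52828) (PT.lf (nat_lit 7224) (nat_lit 6) (nat_lit 86) (nat_lit 1) (nat_lit 54) (nat_lit 28) (nat_lit 41)) (PT.lf (nat_lit 8316) (nat_lit 6) (nat_lit 99) (nat_lit 3) (nat_lit 41) (nat_lit 29) (nat_lit 53))) (PT.nd (nat_lit 94) (PT.lf (nat_lit 8400) (nat_lit 6) (nat_lit 100) (nat_lit 3) (nat_lit 42) (nat_lit 29) (nat_lit 52)) (PT.lf (nat_lit 8484) (nat_lit 6) (nat_lit 101) (nat_lit 3) (nat_lit 43) (nat_lit 29) (nat_lit 51)))))) (PT.nd (nat_lit 658) (PT.nd (nat_lit 282) (PT.nd (nat_lit 94)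 (PT.lf (nat_lit 8568) (nat_lit 6) (nat_lit 102) (nat_lit 3) (nat_lit 44) (nat_lit 29) (nat_lit 50)) (PT.nd (nat_lit 94) (PT.lf (nat_lit 8652) (nat_lit 6) (nat_lit 103) (nat_lit 3) (nat_lit 45) (nat_lit 29) (nat_lit 49)) (PT.lf (nat_lit 8736) (nat_lit 6) (nat_lit 104) (nat_lit 3) (nat_lit 46) (nat_lit 29) (nat_lit 48)))) (PT.nd (nat_lit 188) (PT.nd (nat_lit 94) (PT.lf (nat_lit 8820) (nat_lit 3) (nat_lit 105) (nat_lit 1) (nat_lit 47) (nat_lit 29) (nat_lit 47)) (PT.lf (nat_lit 8736) (nat_lit 6) (nat_lit 104) (nat_lit 1) (nat_lit 48) (nat_lit 29) (nat_lit 46))) (PT.nd (nat_lit 94) (PT.lf (nat_lit 8652) (nat_lit 6) (nat_lit 103) (nat_lit 1) (nat_lit 49) (nat_lit 29) (nat_lit 45)) (PT.lf (nat_lit 8568) (nat_lit 6) (nat_lit 102) (nat_lit 1) (nat_lit 50) (nat_lit 29) (nat_lit 44))))) (PT.nd (nat_lit 53110) (PT.nd (nat_lit 188) (PT.nd (nat_lit 94) (PT.lf (nat_lit 8484) (nat_lit 6) (nat_lit 101) (nat_lit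 1) (nat_lit 51) (nat_lit 29) (nat_lit 43)) (PT.lf (nat_lit 8400) (nat_lit 6) (nat_lit 100) (nat_lit 1) (nat_lit 52) (nat_lit 29) (nat_lit 42))) (PT.nd (nat_lit 52828) (PT.lf (nat_lit 8316) (nat_lit 6) (nat_lit 99) (nat_lit 1) (nat_lit 53) (nat_lit 29) (nat_lit 41)) (PT.lf (nat_lit 8232) (nat_lit 6) (nat_lit 98) (nat_lit 3) (nat_lit 40) (nat_lit 30) (nat_lit 53)))) (PT.nd (nat_lit 188) (PT.nd (nat_lit 94) (PT.lf (nat_lit 9324) (nat_lit 6) (nat_lit 111) (nat_lit 3) (nat_lit 41) (nat_lit 30) (nat_lit 52)) (PT.lf (nat_lit 9408) (nat_lit 6) (nat_lit 112) (nat_lit 3) (nat_lit 42) (nat_lit 30) (nat_lit 51))) (PT.nd (nat_lit 94) (PT.lf (nat_lit 9492) (nat_lit 6) (nat_lit 113) (nat_lit 3) (nat_lit 43) (nat_lit 30) (nat_lit 50)) (PT.lf (nat_lit 9576) (nat_lit 6) (nat_lit 114) (nat_lit 3) (nat_lit 44) (nat_lit 30) (nat_lit 49))))))))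
noncomputable def pc3 : PT := (PT.nd (nat_lit 107912) (PT.nd (nat_lit 53956) (PT.nd (nat_lit 658) (PT.nd (nat_lit 282) (PT.nd (nat_lit 94) (PT.lf (nat_lit 9660) (nat_lit 6) (nat_lit 115) (nat_lit 3) (nat_lit 45) (nat_lit 30) (nat_lit 48)) (PT.nd (nat_lit 94) (PT.lf (nat_lit 9744) (nat_lit 6) (nat_lit 116) (nat_lit 3) (nat_lit 46) (nat_lit 30) (nat_lit 47)) (PT.lf (nat_lit 9744) (nat_lit 6) (nat_lit 116) (nat_lit 1) (nat_lit 47) (nat_lit 30) (nat_lit 46)))) (PT.nd (nat_lit 188) (PT.nd (nat_lit 94) (PT.lf (nat_lit 9660) (nat_lit 6) (nat_lit 115) (nat_lit 1) (nat_lit 48) (nat_lit 30) (nat_lit 45)) (PT.lf (nat_lit 9576) (nat_lit 6) (nat_lit 114) (nat_lit 1) (nat_lit 49) (nat_lit 30) (nat_lit 44))) (PT.nd (nat_lit 94) (PT.lf (nat_lit 9492) (nat_lit 6) (nat_lit 113) (nat_lit 1) (nat_lit 50) (nat_lit 30) (nat_lit 43)) (PT.lf (nat_lit 9408) (nat_lit 6) (nat_lit 112) (nat_lit 1) (nat_lit 51) (nat_lit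 30) (nat_lit 42))))) (PT.nd (nat_lit 52922) (PT.nd (nat_lit 94) (PT.lf (nat_lit 9324) (nat_lit 6) (nat_lit 111) (nat_lit 1) (nat_lit 52) (nat_lit 30) (nat_lit 41)) (PT.nd (nat_lit 52734) (PT.lf (nat_lit 8232) (nat_lit 6) (nat_lit 98) (nat_lit 1) (nat_lit 53) (nat_lit 30) (nat_lit 40)) (PT.lf (nat_lit 8148) (nat_lit 6) (nat_lit 97) (nat_lit 3) (nat_lit 39) (nat_lit 31) (nat_lit 53)))) (PT.nd (nat_lit 188) (PT.nd (nat_lit 94) (PT.lf (nat_lit 9240) (nat_lit 6) (nat_lit 110) (nat_lit 3) (nat_lit 40) (nat_lit 31) (nat_lit 52)) (PT.lf (nat_lit 10248) (nat_lit 6) (nat_lit 122) (nat_lit 3) (nat_lit 41) (nat_lit 31) (nat_lit 51))) (PT.nd (nat_lit 94) (PT.lf (nat_lit 10332) (nat_lit 6) (nat_lit 123) (nat_lit 3) (nat_lit 42) (nat_lit 31) (nat_lit 50)) (PT.lf (nat_lit 10416) (nat_lit 6) (nat_lit 124) (nat_lit 3) (nat_lit 43) (nat_lit 31) (nat_lit 49)))))) (PT.nd (nat_lit 658) (PT.nd (nat_lit 282) (PT.nd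 (nat_lit 94) (PT.lf (nat_lit 10500) (nat_lit 6) (nat_lit 125) (nat_lit 3) (nat_lit 44) (nat_lit 31) (nat_lit 48)) (PT.nd (nat_lit 94) (PT.lf (nat_lit 10584) (nat_lit 6) (nat_lit 126) (nat_lit 3) (nat_lit 45) (nat_lit 31) (nat_lit 47)) (PT.lf (nat_lit 10668) (nat_lit 3) (nat_lit 127) (nat_lit 1) (nat_lit 46) (nat_lit 31) (nat_lit 46)))) (PT.nd (nat_lit 188) (PT.nd (nat_lit 94) (PT.lf (nat_lit 10584) (nat_lit 6) (nat_lit 126) (nat_lit 1) (nat_lit 47) (nat_lit 31) (nat_lit 45)) (PT.lf (nat_lit 10500) (nat_lit 6) (nat_lit 125) (nat_lit 1) (nat_lit 48) (nat_lit 31) (nat_lit 44))) (PT.nd (nat_lit 94) (PT.lf (nat_lit 10416) (nat_lit 6) (nat_lit 124) (nat_lit 1) (nat_lit 49) (nat_lit 31) (nat_lit 43)) (PT.lf (nat_lit 10332) (nat_lit 6) (nat_lit 123) (nat_lit 1) (nat_lit 50) (nat_lit 31) (nat_lit 42))))) (PT.nd (nat_lit 52922) (PT.nd (nat_lit 188) (PT.nd (nat_lit 94) (PT.lf (nat_lit 10248) (nat_lit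 6) (nat_lit 122) (nat_lit 1) (nat_lit 51) (nat_lit 31) (nat_lit 41)) (PT.lf (nat_lit 9240) (nat_lit 6) (nat_lit 110) (nat_lit 1) (nat_lit 52) (nat_lit 31) (nat_lit 40))) (PT.nd (nat_lit 52640) (PT.lf (nat_lit 8148) (nat_lit 6) (nat_lit 97) (nat_lit 1) (nat_lit 53) (nat_lit 31) (nat_lit 39)) (PT.lf (nat_lit 8064) (nat_lit 6) (nat_lit 96) (nat_lit 3) (nat_lit 38) (nat_lit 32) (nat_lit 53)))) (PT.nd (nat_lit 188) (PT.nd (nat_lit 94) (PT.lf (nat_lit 9156) (nat_lit 6) (nat_lit 109) (nat_lit 3) (nat_lit 39) (nat_lit 32) (nat_lit 52)) (PT.lf (nat_lit 10164) (nat_lit 6) (nat_lit 121) (nat_lit 3) (nat_lit 40) (nat_lit 32) (nat_lit 51))) (PT.nd (nat_lit 94) (PT.lf (nat_lit 11088) (nat_lit 6) (nat_lit 132) (nat_lit 3) (nat_lit 41) (nat_lit 32) (nat_lit 50)) (PT.lf (nat_lit 11172) (nat_lit 6) (nat_lit 133) (nat_lit 3) (nat_lit 42) (nat_lit 32) (nat_lit 49))))))) (PT.nd (nat_lit 53862) (PT.nd (nat_lit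 658) (PT.nd (nat_lit 282) (PT.nd (nat_lit 94) (PT.lf (nat_lit 11256) (nat_lit 6) (nat_lit 134) (nat_lit 3) (nat_lit 43) (nat_lit 32) (nat_lit 48)) (PT.nd (nat_lit 94) (PT.lf (nat_lit 11340) (nat_lit 6) (nat_lit 135) (nat_lit 3) (nat_lit 44) (nat_lit 32) (nat_lit 47)) (PT.lf (nat_lit 11424) (nat_lit 6) (nat_lit 136) (nat_lit 3) (nat_lit 45) (nat_lit 32) (nat_lit 46)))) (PT.nd (nat_lit 188) (PT.nd (nat_lit 94) (PT.lf (nat_lit 11424) (nat_lit 6) (nat_lit 136) (nat_lit 1) (nat_lit 46) (nat_lit 32) (nat_lit 45)) (PT.lf (nat_lit 11340) (nat_lit 6) (nat_lit 135) (nat_lit 1) (nat_lit 47) (nat_lit 32) (nat_lit 44))) (PT.nd (nat_lit 94) (PT.lf (nat_lit 11256) (nat_lit 6) (nat_lit 134) (nat_lit 1) (nat_lit 48) (nat_lit 32) (nat_lit 43)) (PT.lf (nat_lit 11172) (nat_lit 6) (nat_lit 133) (nat_lit 1) (nat_lit 49) (nat_lit 32) (nat_lit 42))))) (PT.nd (nat_lit 52828) (PT.nd (nat_lit 188) (PT.nd (nat_lit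 94) (PT.lf (nat_lit 11088) (nat_lit 6) (nat_lit 132) (nat_lit 1) (nat_lit 50) (nat_lit 32) (nat_lit 41)) (PT.lf (nat_lit 10164) (nat_lit 6) (nat_lit 121) (nat_lit 1) (nat_lit 51) (nat_lit 32) (nat_lit 40))) (PT.nd (nat_lit 94) (PT.lf (nat_lit 9156) (nat_lit 6) (nat_lit 109) (nat_lit 1) (nat_lit 52) (nat_lit 32) (nat_lit 39)) (PT.lf (nat_lit 8064) (nat_lit 6) (nat_lit 96) (nat_lit 1) (nat_lit 53) (nat_lit 32) (nat_lit 38)))) (PT.nd (nat_lit 188) (PT.nd (nat_lit 94) (PT.lf (nat_lit 7980) (nat_lit 6) (nat_lit 95) (nat_lit 3) (nat_lit 37) (nat_lit 33) (nat_lit 53)) (PT.lf (nat_lit 9072) (nat_lit 6) (nat_lit 108) (nat_lit 3) (nat_lit 38) (nat_lit 33) (nat_lit 52))) (PT.nd (nat_lit 94) (PT.lf (nat_lit 10080) (nat_lit 6) (nat_lit 120) (nat_lit 3) (nat_lit 39) (nat_lit 33) (nat_lit 51)) (PT.lf (nat_lit 11004) (nat_lit 6) (nat_lit 131) (nat_lit 3) (nat_lit 40) (nat_lit 33) (nat_lit 50)))))) (PT.nd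 (nat_lit 658) (PT.nd (nat_lit 282) (PT.nd (nat_lit 94) (PT.lf (nat_lit 11844) (nat_lit 6) (nat_lit 141) (nat_lit 3) (nat_lit 41) (nat_lit 33) (nat_lit 49)) (PT.nd (nat_lit 94) (PT.lf (nat_lit 11928) (nat_lit 6) (nat_lit 142) (nat_lit 3) (nat_lit 42) (nat_lit 33) (nat_lit 48)) (PT.lf (nat_lit 12012) (nat_lit 6) (nat_lit 143) (nat_lit 3) (nat_lit 43) (nat_lit 33) (nat_lit 47)))) (PT.nd (nat_lit 188) (PT.nd (nat_lit 94) (PT.lf (nat_lit 12096) (nat_lit 6) (nat_lit 144) (nat_lit 3) (nat_lit 44) (nat_lit 33) (nat_lit 46)) (PT.lf (nat_lit 12180) (nat_lit 3) (nat_lit 145) (nat_lit 1) (nat_lit 45) (nat_lit 33) (nat_lit 45))) (PT.nd (nat_lit 94) (PT.lf (nat_lit 12096) (nat_lit 6) (nat_lit 144) (nat_lit 1) (nat_lit 46) (nat_lit 33) (nat_lit 44)) (PT.lf (nat_lit 12012) (nat_lit 6) (nat_lit 143) (nat_lit 1) (nat_lit 47) (nat_lit 33) (nat_lit 43))))) (PT.nd (nat_lit 376) (PT.nd (nat_lit 188) (PT.nd (nat_lit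 94) (PT.lf (nat_lit 11928) (nat_lit 6) (nat_lit 142) (nat_lit 1) (nat_lit 48) (nat_lit 33) (nat_lit 42)) (PT.lf (nat_lit 11844) (nat_lit 6) (nat_lit 141) (nat_lit 1) (nat_lit 49) (nat_lit 33) (nat_lit 41))) (PT.nd (nat_lit 94) (PT.lf (nat_lit 11004) (nat_lit 6) (nat_lit 131) (nat_lit 1) (nat_lit 50) (nat_lit 33) (nat_lit 40)) (PT.lf (nat_lit 10080) (nat_lit 6) (nat_lit 120) (nat_lit 1) (nat_lit 51) (nat_lit 33) (nat_lit 39)))) (PT.nd (nat_lit 52546) (PT.nd (nat_lit 94) (PT.lf (nat_lit 9072) (nat_lit 6) (nat_lit 108) (nat_lit 1) (nat_lit 52) (nat_lit 33) (nat_lit 38)) (PT.lf (nat_lit 7980) (nat_lit 6) (nat_lit 95) (nat_lit 1) (nat_lit 53) (nat_lit 33) (nat_lit 37))) (PT.nd (nat_lit 94) (PT.lf (nat_lit 7896) (nat_lit 6) (nat_lit 94) (nat_lit 3) (nat_lit 36) (nat_lit 34) (nat_lit 53)) (PT.lf (nat_lit 8988) (nat_lit 6) (nat_lit 107) (nat_lit 3) (nat_lit 37) (nat_lit 34) (nat_lit 52))))))))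
noncomputable def pc4 : PT := (PT.nd (nat_lit 54990) (PT.nd (nat_lit 1316) (PT.nd (nat_lit 658) (PT.nd (nat_lit 282) (PT.nd (nat_lit 94) (PT.lf (nat_lit 9996) (nat_lit 6) (nat_lit 119) (nat_lit 3) (nat_lit 38) (nat_lit 34) (nat_lit 51)) (PT.nd (nat_lit 94) (PT.lf (nat_lit 10920) (nat_lit 6) (nat_lit 130) (nat_lit 3) (nat_lit 39) (nat_lit 34) (nat_lit 50)) (PT.lf (nat_lit 11760) (nat_lit 6) (nat_lit 140) (nat_lit 3) (nat_lit 40) (nat_lit 34) (nat_lit 49)))) (PT.nd (nat_lit 188) (PT.nd (nat_lit 94) (PT.lf (nat_lit 12516) (nat_lit 6) (nat_lit 149) (nat_lit 3) (nat_lit 41) (nat_lit 34) (nat_lit 48)) (PT.lf (nat_lit 12600) (nat_lit 6) (nat_lit 150) (nat_lit 3) (nat_lit 42) (nat_lit 34) (nat_lit 47))) (PT.nd (nat_lit 94) (PT.lf (nat_lit 12684) (nat_lit 6) (nat_lit 151) (nat_lit 3) (nat_lit 43) (nat_lit 34) (nat_lit 46)) (PT.lf (nat_lit 12768) (nat_lit 6) (nat_lit 152) (nat_lit 3) (nat_lit 44)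 (nat_lit 34) (nat_lit 45))))) (PT.nd (nat_lit 282) (PT.nd (nat_lit 94) (PT.lf (nat_lit 12768) (nat_lit 6) (nat_lit 152) (nat_lit 1) (nat_lit 45) (nat_lit 34) (nat_lit 44)) (PT.nd (nat_lit 94) (PT.lf (nat_lit 12684) (nat_lit 6) (nat_lit 151) (nat_lit 1) (nat_lit 46) (nat_lit 34) (nat_lit 43)) (PT.lf (nat_lit 12600) (nat_lit 6) (nat_lit 150) (nat_lit 1) (nat_lit 47) (nat_lit 34) (nat_lit 42)))) (PT.nd (nat_lit 188) (PT.nd (nat_lit 94) (PT.lf (nat_lit 12516) (nat_lit 6) (nat_lit 149) (nat_lit 1) (nat_lit 48) (nat_lit 34) (nat_lit 41)) (PT.lf (nat_lit 11760) (nat_lit 6) (nat_lit 140) (nat_lit 1) (nat_lit 49) (nat_lit 34) (nat_lit 40))) (PT.nd (nat_lit 94) (PT.lf (nat_lit 10920) (nat_lit 6) (nat_lit 130) (nat_lit 1) (nat_lit 50) (nat_lit 34) (nat_lit 39)) (PT.lf (nat_lit 9996) (nat_lit 6) (nat_lit 119) (nat_lit 1) (nat_lit 51) (nat_lit 34) (nat_lit 38)))))) (PT.nd (nat_lit 52922) (PT.nd (nat_lit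 52546) (PT.nd (nat_lit 94) (PT.lf (nat_lit 8988) (nat_lit 6) (nat_lit 107) (nat_lit 1) (nat_lit 52) (nat_lit 34) (nat_lit 37)) (PT.nd (nat_lit 52358) (PT.lf (nat_lit 7896) (nat_lit 6) (nat_lit 94) (nat_lit 1) (nat_lit 53) (nat_lit 34) (nat_lit 36)) (PT.lf (nat_lit 7812) (nat_lit 3) (nat_lit 93) (nat_lit 3) (nat_lit 35) (nat_lit 35) (nat_lit 53)))) (PT.nd (nat_lit 188) (PT.nd (nat_lit 94) (PT.lf (nat_lit 8904) (nat_lit 6) (nat_lit 106) (nat_lit 3) (nat_lit 36) (nat_lit 35) (nat_lit 52)) (PT.lf (nat_lit 9912) (nat_lit 6) (nat_lit 118) (nat_lit 3) (nat_lit 37) (nat_lit 35) (nat_lit 51))) (PT.nd (nat_lit 94) (PT.lf (nat_lit 10836) (nat_lit 6) (nat_lit 129) (nat_lit 3) (nat_lit 38) (nat_lit 35) (nat_lit 50)) (PT.lf (nat_lit 11676) (nat_lit 6) (nat_lit 139) (nat_lit 3) (nat_lit 39) (nat_lit 35) (nat_lit 49))))) (PT.nd (nat_lit 376) (PT.nd (nat_lit 188) (PT.nd (nat_lit 94) (PT.lf (nat_lit 12432)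 (nat_lit 6) (nat_lit 148) (nat_lit 3) (nat_lit 40) (nat_lit 35) (nat_lit 48)) (PT.lf (nat_lit 13104) (nat_lit 6) (nat_lit 156) (nat_lit 3) (nat_lit 41) (nat_lit 35) (nat_lit 47))) (PT.nd (nat_lit 94) (PT.lf (nat_lit 13188) (nat_lit 6) (nat_lit 157) (nat_lit 3) (nat_lit 42) (nat_lit 35) (nat_lit 46)) (PT.lf (nat_lit 13272) (nat_lit 6) (nat_lit 158) (nat_lit 3) (nat_lit 43) (nat_lit 35) (nat_lit 45)))) (PT.nd (nat_lit 188) (PT.nd (nat_lit 94) (PT.lf (nat_lit 13356) (nat_lit 3) (nat_lit 159) (nat_lit 1) (nat_lit 44) (nat_lit 35) (nat_lit 44)) (PT.lf (nat_lit 13272) (nat_lit 6) (nat_lit 158) (nat_lit 1) (nat_lit 45) (nat_lit 35) (nat_lit 43))) (PT.nd (nat_lit 94) (PT.lf (nat_lit 13188) (nat_lit 6) (nat_lit 157) (nat_lit 1) (nat_lit 46) (nat_lit 35) (nat_lit 42)) (PT.lf (nat_lit 13104) (nat_lit 6) (nat_lit 156) (nat_lit 1) (nat_lit 47) (nat_lit 35) (nat_lit 41))))))) (PT.nd (nat_lit 53580) (PT.nd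 (nat_lit 52828) (PT.nd (nat_lit 282) (PT.nd (nat_lit 94) (PT.lf (nat_lit 12432) (nat_lit 6) (nat_lit 148) (nat_lit 1) (nat_lit 48) (nat_lit 35) (nat_lit 40)) (PT.nd (nat_lit 94) (PT.lf (nat_lit 11676) (nat_lit 6) (nat_lit 139) (nat_lit 1) (nat_lit 49) (nat_lit 35) (nat_lit 39)) (PT.lf (nat_lit 10836) (nat_lit 6) (nat_lit 129) (nat_lit 1) (nat_lit 50) (nat_lit 35) (nat_lit 38)))) (PT.nd (nat_lit 188) (PT.nd (nat_lit 94) (PT.lf (nat_lit 9912) (nat_lit 6) (nat_lit 118) (nat_lit 1) (nat_lit 51) (nat_lit 35) (nat_lit 37)) (PT.lf (nat_lit 8904) (nat_lit 6) (nat_lit 106) (nat_lit 1) (nat_lit 52) (nat_lit 35) (nat_lit 36))) (PT.nd (nat_lit 52264) (PT.lf (nat_lit 7812) (nat_lit 3) (nat_lit 93) (nat_lit 0) (nat_lit 53) (nat_lit 35) (nat_lit 35)) (PT.lf (nat_lit 7896) (nat_lit 6) (nat_lit 94) (nat_lit 5) (nat_lit 34) (nat_lit 36) (nat_lit 53))))) (PT.nd (nat_lit 376) (PT.nd (nat_lit 188) (PT.nd (nat_lit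 94) (PT.lf (nat_lit 8904) (nat_lit 6) (nat_lit 106) (nat_lit 5) (nat_lit 35) (nat_lit 36) (nat_lit 52)) (PT.lf (nat_lit 9828) (nat_lit 3) (nat_lit 117) (nat_lit 3) (nat_lit 36) (nat_lit 36) (nat_lit 51))) (PT.nd (nat_lit 94) (PT.lf (nat_lit 10752) (nat_lit 6) (nat_lit 128) (nat_lit 3) (nat_lit 37) (nat_lit 36) (nat_lit 50)) (PT.lf (nat_lit 11592) (nat_lit 6) (nat_lit 138) (nat_lit 3) (nat_lit 38) (nat_lit 36) (nat_lit 49)))) (PT.nd (nat_lit 188) (PT.nd (nat_lit 94) (PT.lf (nat_lit 12348) (nat_lit 6) (nat_lit 147) (nat_lit 3) (nat_lit 39) (nat_lit 36) (nat_lit 48)) (PT.lf (nat_lit 13020) (nat_lit 6) (nat_lit 155) (nat_lit 3) (nat_lit 40) (nat_lit 36) (nat_lit 47))) (PT.nd (nat_lit 94) (PT.lf (nat_lit 13608) (nat_lit 6) (nat_lit 162) (nat_lit 3) (nat_lit 41) (nat_lit 36) (nat_lit 46)) (PT.lf (nat_lit 13692) (nat_lit 6) (nat_lit 163) (nat_lit 3) (nat_lit 42) (nat_lit 36) (nat_lit 45)))))) (PT.nd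 (nat_lit 658) (PT.nd (nat_lit 282) (PT.nd (nat_lit 94) (PT.lf (nat_lit 13776) (nat_lit 6) (nat_lit 164) (nat_lit 3) (nat_lit 43) (nat_lit 36) (nat_lit 44)) (PT.nd (nat_lit 94) (PT.lf (nat_lit 13776) (nat_lit 6) (nat_lit 164) (nat_lit 1) (nat_lit 44) (nat_lit 36) (nat_lit 43)) (PT.lf (nat_lit 13692) (nat_lit 6) (nat_lit 163) (nat_lit 1) (nat_lit 45) (nat_lit 36) (nat_lit 42)))) (PT.nd (nat_lit 188) (PT.nd (nat_lit 94) (PT.lf (nat_lit 13608) (nat_lit 6) (nat_lit 162) (nat_lit 1) (nat_lit 46) (nat_lit 36) (nat_lit 41)) (PT.lf (nat_lit 13020) (nat_lit 6) (nat_lit 155) (nat_lit 1) (nat_lit 47) (nat_lit 36) (nat_lit 40))) (PT.nd (nat_lit 94) (PT.lf (nat_lit 12348) (nat_lit 6) (nat_lit 147) (nat_lit 1) (nat_lit 48) (nat_lit 36) (nat_lit 39)) (PT.lf (nat_lit 11592) (nat_lit 6) (nat_lit 138) (nat_lit 1) (nat_lit 49) (nat_lit 36) (nat_lit 38))))) (PT.nd (nat_lit 52452) (PT.nd (nat_lit 188) (PT.nd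 (nat_lit 94) (PT.lf (nat_lit 10752) (nat_lit 6) (nat_lit 128) (nat_lit 1) (nat_lit 50) (nat_lit 36) (nat_lit 37)) (PT.lf (nat_lit 9828) (nat_lit 3) (nat_lit 117) (nat_lit 0) (nat_lit 51) (nat_lit 36) (nat_lit 36))) (PT.nd (nat_lit 94) (PT.lf (nat_lit 8904) (nat_lit 6) (nat_lit 106) (nat_lit 0) (nat_lit 52) (nat_lit 36) (nat_lit 35)) (PT.lf (nat_lit 7896) (nat_lit 6) (nat_lit 94) (nat_lit 0) (nat_lit 53) (nat_lit 36) (nat_lit 34)))) (PT.nd (nat_lit 188) (PT.nd (nat_lit 94) (PT.lf (nat_lit 7980) (nat_lit 6) (nat_lit 95) (nat_lit 5) (nat_lit 33) (nat_lit 37) (nat_lit 53)) (PT.lf (nat_lit 8988) (nat_lit 6) (nat_lit 107) (nat_lit 5) (nat_lit 34) (nat_lit 37) (nat_lit 52))) (PT.nd (nat_lit 94) (PT.lf (nat_lit 9912) (nat_lit 6) (nat_lit 118) (nat_lit 5) (nat_lit 35) (nat_lit 37) (nat_lit 51)) (PT.lf (nat_lit 10752) (nat_lit 6) (nat_lit 128) (nat_lit 5) (nat_lit 36) (nat_lit 37) (nat_lit 50))))))))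
noncomputable def pc5 : PT := (PT.nd (nat_lit 54708) (PT.nd (nat_lit 1316) (PT.nd (nat_lit 658) (PT.nd (nat_lit 282) (PT.nd (nat_lit 94) (PT.lf (nat_lit 11508) (nat_lit 3) (nat_lit 137) (nat_lit 3) (nat_lit 37) (nat_lit 37) (nat_lit 49)) (PT.nd (nat_lit 94) (PT.lf (nat_lit 12264) (nat_lit 6) (nat_lit 146) (nat_lit 3) (nat_lit 38) (nat_lit 37) (nat_lit 48)) (PT.lf (nat_lit 12936) (nat_lit 6) (nat_lit 154) (nat_lit 3) (nat_lit 39) (nat_lit 37) (nat_lit 47)))) (PT.nd (nat_lit 188) (PT.nd (nat_lit 94) (PT.lf (nat_lit 13524) (nat_lit 6) (nat_lit 161) (nat_lit 3) (nat_lit 40) (nat_lit 37) (nat_lit 46)) (PT.lf (nat_lit 14028) (nat_lit 6) (nat_lit 167) (nat_lit 3) (nat_lit 41) (nat_lit 37) (nat_lit 45))) (PT.nd (nat_lit 94) (PT.lf (nat_lit 14112) (nat_lit 6) (nat_lit 168) (nat_lit 3) (nat_lit 42) (nat_lit 37) (nat_lit 44)) (PT.lf (nat_lit 14196) (nat_lit 3) (nat_lit 169) (nat_lit 1) (nat_lit 43)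 (nat_lit 37) (nat_lit 43))))) (PT.nd (nat_lit 282) (PT.nd (nat_lit 94) (PT.lf (nat_lit 14112) (nat_lit 6) (nat_lit 168) (nat_lit 1) (nat_lit 44) (nat_lit 37) (nat_lit 42)) (PT.nd (nat_lit 94) (PT.lf (nat_lit 14028) (nat_lit 6) (nat_lit 167) (nat_lit 1) (nat_lit 45) (nat_lit 37) (nat_lit 41)) (PT.lf (nat_lit 13524) (nat_lit 6) (nat_lit 161) (nat_lit 1) (nat_lit 46) (nat_lit 37) (nat_lit 40)))) (PT.nd (nat_lit 188) (PT.nd (nat_lit 94) (PT.lf (nat_lit 12936) (nat_lit 6) (nat_lit 154) (nat_lit 1) (nat_lit 47) (nat_lit 37) (nat_lit 39)) (PT.lf (nat_lit 12264) (nat_lit 6) (nat_lit 146) (nat_lit 1) (nat_lit 48) (nat_lit 37) (nat_lit 38))) (PT.nd (nat_lit 94) (PT.lf (nat_lit 11508) (nat_lit 3) (nat_lit 137) (nat_lit 0) (nat_lit 49) (nat_lit 37) (nat_lit 37)) (PT.lf (nat_lit 10752) (nat_lit 6) (nat_lit 128) (nat_lit 0) (nat_lit 50) (nat_lit 37) (nat_lit 36)))))) (PT.nd (nat_lit 52640) (PT.nd (nat_lit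 52264) (PT.nd (nat_lit 94) (PT.lf (nat_lit 9912) (nat_lit 6) (nat_lit 118) (nat_lit 0) (nat_lit 51) (nat_lit 37) (nat_lit 35)) (PT.nd (nat_lit 94) (PT.lf (nat_lit 8988) (nat_lit 6) (nat_lit 107) (nat_lit 0) (nat_lit 52) (nat_lit 37) (nat_lit 34)) (PT.lf (nat_lit 7980) (nat_lit 6) (nat_lit 95) (nat_lit 0) (nat_lit 53) (nat_lit 37) (nat_lit 33)))) (PT.nd (nat_lit 188) (PT.nd (nat_lit 94) (PT.lf (nat_lit 8064) (nat_lit 6) (nat_lit 96) (nat_lit 5) (nat_lit 32) (nat_lit 38) (nat_lit 53)) (PT.lf (nat_lit 9072) (nat_lit 6) (nat_lit 108) (nat_lit 5) (nat_lit 33) (nat_lit 38) (nat_lit 52))) (PT.nd (nat_lit 94) (PT.lf (nat_lit 9996) (nat_lit 6) (nat_lit 119) (nat_lit 5) (nat_lit 34) (nat_lit 38) (nat_lit 51)) (PT.lf (nat_lit 10836) (nat_lit 6) (nat_lit 129) (nat_lit 5) (nat_lit 35) (nat_lit 38) (nat_lit 50))))) (PT.nd (nat_lit 376) (PT.nd (nat_lit 188) (PT.nd (nat_lit 94) (PT.lf (nat_lit 11592) (nat_lit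 6) (nat_lit 138) (nat_lit 5) (nat_lit 36) (nat_lit 38) (nat_lit 49)) (PT.lf (nat_lit 12264) (nat_lit 6) (nat_lit 146) (nat_lit 5) (nat_lit 37) (nat_lit 38) (nat_lit 48))) (PT.nd (nat_lit 94) (PT.lf (nat_lit 12852) (nat_lit 3) (nat_lit 153) (nat_lit 3) (nat_lit 38) (nat_lit 38) (nat_lit 47)) (PT.lf (nat_lit 13440) (nat_lit 6) (nat_lit 160) (nat_lit 3) (nat_lit 39) (nat_lit 38) (nat_lit 46)))) (PT.nd (nat_lit 188) (PT.nd (nat_lit 94) (PT.lf (nat_lit 13944) (nat_lit 6) (nat_lit 166) (nat_lit 3) (nat_lit 40) (nat_lit 38) (nat_lit 45)) (PT.lf (nat_lit 14364) (nat_lit 6) (nat_lit 171) (nat_lit 3) (nat_lit 41) (nat_lit 38) (nat_lit 44))) (PT.nd (nat_lit 94) (PT.lf (nat_lit 14448) (nat_lit 6) (nat_lit 172) (nat_lit 3) (nat_lit 42) (nat_lit 38) (nat_lit 43)) (PT.lf (nat_lit 14448) (nat_lit 6) (nat_lit 172) (nat_lit 1) (nat_lit 43) (nat_lit 38) (nat_lit 42))))))) (PT.nd (nat_lit 53298) (PT.nd (nat_lit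 658) (PT.nd (nat_lit 282) (PT.nd (nat_lit 94) (PT.lf (nat_lit 14364) (nat_lit 6) (nat_lit 171) (nat_lit 1) (nat_lit 44) (nat_lit 38) (nat_lit 41)) (PT.nd (nat_lit 94) (PT.lf (nat_lit 13944) (nat_lit 6) (nat_lit 166) (nat_lit 1) (nat_lit 45) (nat_lit 38) (nat_lit 40)) (PT.lf (nat_lit 13440) (nat_lit 6) (nat_lit 160) (nat_lit 1) (nat_lit 46) (nat_lit 38) (nat_lit 39)))) (PT.nd (nat_lit 188) (PT.nd (nat_lit 94) (PT.lf (nat_lit 12852) (nat_lit 3) (nat_lit 153) (nat_lit 0) (nat_lit 47) (nat_lit 38) (nat_lit 38)) (PT.lf (nat_lit 12264) (nat_lit 6) (nat_lit 146) (nat_lit 0) (nat_lit 48) (nat_lit 38) (nat_lit 37))) (PT.nd (nat_lit 94) (PT.lf (nat_lit 11592) (nat_lit 6) (nat_lit 138) (nat_lit 0) (nat_lit 49) (nat_lit 38) (nat_lit 36)) (PT.lf (nat_lit 10836) (nat_lit 6) (nat_lit 129) (nat_lit 0) (nat_lit 50) (nat_lit 38) (nat_lit 35))))) (PT.nd (nat_lit 52264) (PT.nd (nat_lit 188) (PT.nd (nat_lit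 94) (PT.lf (nat_lit 9996) (nat_lit 6) (nat_lit 119) (nat_lit 0) (nat_lit 51) (nat_lit 38) (nat_lit 34)) (PT.lf (nat_lit 9072) (nat_lit 6) (nat_lit 108) (nat_lit 0) (nat_lit 52) (nat_lit 38) (nat_lit 33))) (PT.nd (nat_lit 51982) (PT.lf (nat_lit 8064) (nat_lit 6) (nat_lit 96) (nat_lit 0) (nat_lit 53) (nat_lit 38) (nat_lit 32)) (PT.lf (nat_lit 8148) (nat_lit 6) (nat_lit 97) (nat_lit 5) (nat_lit 31) (nat_lit 39) (nat_lit 53)))) (PT.nd (nat_lit 188) (PT.nd (nat_lit 94) (PT.lf (nat_lit 9156) (nat_lit 6) (nat_lit 109) (nat_lit 5) (nat_lit 32) (nat_lit 39) (nat_lit 52)) (PT.lf (nat_lit 10080) (nat_lit 6) (nat_lit 120) (nat_lit 5) (nat_lit 33) (nat_lit 39) (nat_lit 51))) (PT.nd (nat_lit 94) (PT.lf (nat_lit 10920) (nat_lit 6) (nat_lit 130) (nat_lit 5) (nat_lit 34) (nat_lit 39) (nat_lit 50)) (PT.lf (nat_lit 11676) (nat_lit 6) (nat_lit 139) (nat_lit 5) (nat_lit 35) (nat_lit 39) (nat_lit 49)))))) (PT.nd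 (nat_lit 658) (PT.nd (nat_lit 282) (PT.nd (nat_lit 94) (PT.lf (nat_lit 12348) (nat_lit 6) (nat_lit 147) (nat_lit 5) (nat_lit 36) (nat_lit 39) (nat_lit 48)) (PT.nd (nat_lit 94) (PT.lf (nat_lit 12936) (nat_lit 6) (nat_lit 154) (nat_lit 5) (nat_lit 37) (nat_lit 39) (nat_lit 47)) (PT.lf (nat_lit 13440) (nat_lit 6) (nat_lit 160) (nat_lit 5) (nat_lit 38) (nat_lit 39) (nat_lit 46)))) (PT.nd (nat_lit 188) (PT.nd (nat_lit 94) (PT.lf (nat_lit 13860) (nat_lit 3) (nat_lit 165) (nat_lit 3) (nat_lit 39) (nat_lit 39) (nat_lit 45)) (PT.lf (nat_lit 14280) (nat_lit 6) (nat_lit 170) (nat_lit 3) (nat_lit 40) (nat_lit 39) (nat_lit 44))) (PT.nd (nat_lit 94) (PT.lf (nat_lit 14616) (nat_lit 6) (nat_lit 174) (nat_lit 3) (nat_lit 41) (nat_lit 39) (nat_lit 43)) (PT.lf (nat_lit 14700) (nat_lit 3) (nat_lit 175) (nat_lit 1) (nat_lit 42) (nat_lit 39) (nat_lit 42))))) (PT.nd (nat_lit 376) (PT.nd (nat_lit 188) (PT.nd (nat_lit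 94) (PT.lf (nat_lit 14616) (nat_lit 6) (nat_lit 174) (nat_lit 1) (nat_lit 43) (nat_lit 39) (nat_lit 41)) (PT.lf (nat_lit 14280) (nat_lit 6) (nat_lit 170) (nat_lit 1) (nat_lit 44) (nat_lit 39) (nat_lit 40))) (PT.nd (nat_lit 94) (PT.lf (nat_lit 13860) (nat_lit 3) (nat_lit 165) (nat_lit 0) (nat_lit 45) (nat_lit 39) (nat_lit 39)) (PT.lf (nat_lit 13440) (nat_lit 6) (nat_lit 160) (nat_lit 0) (nat_lit 46) (nat_lit 39) (nat_lit 38)))) (PT.nd (nat_lit 188) (PT.nd (nat_lit 94) (PT.lf (nat_lit 12936) (nat_lit 6) (nat_lit 154) (nat_lit 0) (nat_lit 47) (nat_lit 39) (nat_lit 37)) (PT.lf (nat_lit 12348) (nat_lit 6) (nat_lit 147) (nat_lit 0) (nat_lit 48) (nat_lit 39) (nat_lit 36))) (PT.nd (nat_lit 94) (PT.lf (nat_lit 11676) (nat_lit 6) (nat_lit 139) (nat_lit 0) (nat_lit 49) (nat_lit 39) (nat_lit 35)) (PT.lf (nat_lit 10920) (nat_lit 6) (nat_lit 130) (nat_lit 0) (nat_lit 50) (nat_lit 39) (nat_lit 34))))))))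
noncomputable def pc6 : PT := (PT.nd (nat_lit 106126) (PT.nd (nat_lit 53110) (PT.nd (nat_lit 52452) (PT.nd (nat_lit 52076) (PT.nd (nat_lit 94) (PT.lf (nat_lit 10080) (nat_lit 6) (nat_lit 120) (nat_lit 0) (nat_lit 51) (nat_lit 39) (nat_lit 33)) (PT.nd (nat_lit 94) (PT.lf (nat_lit 9156) (nat_lit 6) (nat_lit 109) (nat_lit 0) (nat_lit 52) (nat_lit 39) (nat_lit 32)) (PT.lf (nat_lit 8148) (nat_lit 6) (nat_lit 97) (nat_lit 0) (nat_lit 53) (nat_lit 39) (nat_lit 31)))) (PT.nd (nat_lit 188) (PT.nd (nat_lit 94) (PT.lf (nat_lit 8232) (nat_lit 6) (nat_lit 98) (nat_lit 5) (nat_lit 30) (nat_lit 40) (nat_lit 53)) (PT.lf (nat_lit 9240) (nat_lit 6) (nat_lit 110) (nat_lit 5) (nat_lit 31) (nat_lit 40) (nat_lit 52))) (PT.nd (nat_lit 94) (PT.lf (nat_lit 10164) (nat_lit 6) (nat_lit 121) (nat_lit 5) (nat_lit 32) (nat_lit 40) (nat_lit 51)) (PT.lf (nat_lit 11004) (nat_lit 6) (nat_lit 131) (nat_lit 5) (nat_lit 33)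 (nat_lit 40) (nat_lit 50))))) (PT.nd (nat_lit 282) (PT.nd (nat_lit 94) (PT.lf (nat_lit 11760) (nat_lit 6) (nat_lit 140) (nat_lit 5) (nat_lit 34) (nat_lit 40) (nat_lit 49)) (PT.nd (nat_lit 94) (PT.lf (nat_lit 12432) (nat_lit 6) (nat_lit 148) (nat_lit 5) (nat_lit 35) (nat_lit 40) (nat_lit 48)) (PT.lf (nat_lit 13020) (nat_lit 6) (nat_lit 155) (nat_lit 5) (nat_lit 36) (nat_lit 40) (nat_lit 47)))) (PT.nd (nat_lit 188) (PT.nd (nat_lit 94) (PT.lf (nat_lit 13524) (nat_lit 6) (nat_lit 161) (nat_lit 5) (nat_lit 37) (nat_lit 40) (nat_lit 46)) (PT.lf (nat_lit 13944) (nat_lit 6) (nat_lit 166) (nat_lit 5) (nat_lit 38) (nat_lit 40) (nat_lit 45))) (PT.nd (nat_lit 94) (PT.lf (nat_lit 14280) (nat_lit 6) (nat_lit 170) (nat_lit 5) (nat_lit 39) (nat_lit 40) (nat_lit 44)) (PT.lf (nat_lit 14532) (nat_lit 3) (nat_lit 173) (nat_lit 3) (nat_lit 40) (nat_lit 40) (nat_lit 43)))))) (PT.nd (nat_lit 658) (PT.nd (nat_lit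 282) (PT.nd (nat_lit 94) (PT.lf (nat_lit 14784) (nat_lit 6) (nat_lit 176) (nat_lit 3) (nat_lit 41) (nat_lit 40) (nat_lit 42)) (PT.nd (nat_lit 94) (PT.lf (nat_lit 14784) (nat_lit 6) (nat_lit 176) (nat_lit 1) (nat_lit 42) (nat_lit 40) (nat_lit 41)) (PT.lf (nat_lit 14532) (nat_lit 3) (nat_lit 173) (nat_lit 0) (nat_lit 43) (nat_lit 40) (nat_lit 40)))) (PT.nd (nat_lit 188) (PT.nd (nat_lit 94) (PT.lf (nat_lit 14280) (nat_lit 6) (nat_lit 170) (nat_lit 0) (nat_lit 44) (nat_lit 40) (nat_lit 39)) (PT.lf (nat_lit 13944) (nat_lit 6) (nat_lit 166) (nat_lit 0) (nat_lit 45) (nat_lit 40) (nat_lit 38))) (PT.nd (nat_lit 94) (PT.lf (nat_lit 13524) (nat_lit 6) (nat_lit 161) (nat_lit 0) (nat_lit 46) (nat_lit 40) (nat_lit 37)) (PT.lf (nat_lit 13020) (nat_lit 6) (nat_lit 155) (nat_lit 0) (nat_lit 47) (nat_lit 40) (nat_lit 36))))) (PT.nd (nat_lit 376) (PT.nd (nat_lit 188) (PT.nd (nat_lit 94) (PT.lf (nat_lit 12432)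 (nat_lit 6) (nat_lit 148) (nat_lit 0) (nat_lit 48) (nat_lit 40) (nat_lit 35)) (PT.lf (nat_lit 11760) (nat_lit 6) (nat_lit 140) (nat_lit 0) (nat_lit 49) (nat_lit 40) (nat_lit 34))) (PT.nd (nat_lit 94) (PT.lf (nat_lit 11004) (nat_lit 6) (nat_lit 131) (nat_lit 0) (nat_lit 50) (nat_lit 40) (nat_lit 33)) (PT.lf (nat_lit 10164) (nat_lit 6) (nat_lit 121) (nat_lit 0) (nat_lit 51) (nat_lit 40) (nat_lit 32)))) (PT.nd (nat_lit 51794) (PT.nd (nat_lit 94) (PT.lf (nat_lit 9240) (nat_lit 6) (nat_lit 110) (nat_lit 0) (nat_lit 52) (nat_lit 40) (nat_lit 31)) (PT.lf (nat_lit 8232) (nat_lit 6) (nat_lit 98) (nat_lit 0) (nat_lit 53) (nat_lit 40) (nat_lit 30))) (PT.nd (nat_lit 94) (PT.lf (nat_lit 7224) (nat_lit 6) (nat_lit 86) (nat_lit 5) (nat_lit 28) (nat_lit 41) (nat_lit 54)) (PT.lf (nat_lit 8316) (nat_lit 6) (nat_lit 99) (nat_lit 5) (nat_lit 29) (nat_lit 41) (nat_lit 53))))))) (PT.nd (nat_lit 1410) (PT.nd (nat_lit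 658) (PT.nd (nat_lit 282) (PT.nd (nat_lit 94) (PT.lf (nat_lit 9324) (nat_lit 6) (nat_lit 111) (nat_lit 5) (nat_lit 30) (nat_lit 41) (nat_lit 52)) (PT.nd (nat_lit 94) (PT.lf (nat_lit 10248) (nat_lit 6) (nat_lit 122) (nat_lit 5) (nat_lit 31) (nat_lit 41) (nat_lit 51)) (PT.lf (nat_lit 11088) (nat_lit 6) (nat_lit 132) (nat_lit 5) (nat_lit 32) (nat_lit 41) (nat_lit 50)))) (PT.nd (nat_lit 188) (PT.nd (nat_lit 94) (PT.lf (nat_lit 11844) (nat_lit 6) (nat_lit 141) (nat_lit 5) (nat_lit 33) (nat_lit 41) (nat_lit 49)) (PT.lf (nat_lit 12516) (nat_lit 6) (nat_lit 149) (nat_lit 5) (nat_lit 34) (nat_lit 41) (nat_lit 48))) (PT.nd (nat_lit 94) (PT.lf (nat_lit 13104) (nat_lit 6) (nat_lit 156) (nat_lit 5) (nat_lit 35) (nat_lit 41) (nat_lit 47)) (PT.lf (nat_lit 13608) (nat_lit 6) (nat_lit 162) (nat_lit 5) (nat_lit 36) (nat_lit 41) (nat_lit 46))))) (PT.nd (nat_lit 376) (PT.nd (nat_lit 188) (PT.nd (nat_lit 94)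 (PT.lf (nat_lit 14028) (nat_lit 6) (nat_lit 167) (nat_lit 5) (nat_lit 37) (nat_lit 41) (nat_lit 45)) (PT.lf (nat_lit 14364) (nat_lit 6) (nat_lit 171) (nat_lit 5) (nat_lit 38) (nat_lit 41) (nat_lit 44))) (PT.nd (nat_lit 94) (PT.lf (nat_lit 14616) (nat_lit 6) (nat_lit 174) (nat_lit 5) (nat_lit 39) (nat_lit 41) (nat_lit 43)) (PT.lf (nat_lit 14784) (nat_lit 6) (nat_lit 176) (nat_lit 5) (nat_lit 40) (nat_lit 41) (nat_lit 42)))) (PT.nd (nat_lit 188) (PT.nd (nat_lit 94) (PT.lf (nat_lit 14868) (nat_lit 1) (nat_lit 177) (nat_lit 0) (nat_lit 41) (nat_lit 41) (nat_lit 41)) (PT.lf (nat_lit 14784) (nat_lit 6) (nat_lit 176) (nat_lit 0) (nat_lit 42) (nat_lit 41) (nat_lit 40))) (PT.nd (nat_lit 94) (PT.lf (nat_lit 14616) (nat_lit 6) (nat_lit 174) (nat_lit 0) (nat_lit 43) (nat_lit 41) (nat_lit 39)) (PT.lf (nat_lit 14364) (nat_lit 6) (nat_lit 171) (nat_lit 0) (nat_lit 44) (nat_lit 41) (nat_lit 38)))))) (PT.nd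 (nat_lit 658) (PT.nd (nat_lit 282) (PT.nd (nat_lit 94) (PT.lf (nat_lit 14028) (nat_lit 6) (nat_lit 167) (nat_lit 0) (nat_lit 45) (nat_lit 41) (nat_lit 37)) (PT.nd (nat_lit 94) (PT.lf (nat_lit 13608) (nat_lit 6) (nat_lit 162) (nat_lit 0) (nat_lit 46) (nat_lit 41) (nat_lit 36)) (PT.lf (nat_lit 13104) (nat_lit 6) (nat_lit 156) (nat_lit 0) (nat_lit 47) (nat_lit 41) (nat_lit 35)))) (PT.nd (nat_lit 188) (PT.nd (nat_lit 94) (PT.lf (nat_lit 12516) (nat_lit 6) (nat_lit 149) (nat_lit 0) (nat_lit 48) (nat_lit 41) (nat_lit 34)) (PT.lf (nat_lit 11844) (nat_lit 6) (nat_lit 141) (nat_lit 0) (nat_lit 49) (nat_lit 41) (nat_lit 33))) (PT.nd (nat_lit 94) (PT.lf (nat_lit 11088) (nat_lit 6) (nat_lit 132) (nat_lit 0) (nat_lit 50) (nat_lit 41) (nat_lit 32)) (PT.lf (nat_lit 10248) (nat_lit 6) (nat_lit 122) (nat_lit 0) (nat_lit 51) (nat_lit 41) (nat_lit 31))))) (PT.nd (nat_lit 51794) (PT.nd (nat_lit 188) (PT.nd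 (nat_lit 94) (PT.lf (nat_lit 9324) (nat_lit 6) (nat_lit 111) (nat_lit 0) (nat_lit 52) (nat_lit 41) (nat_lit 30)) (PT.lf (nat_lit 8316) (nat_lit 6) (nat_lit 99) (nat_lit 0) (nat_lit 53) (nat_lit 41) (nat_lit 29))) (PT.nd (nat_lit 51512) (PT.lf (nat_lit 7224) (nat_lit 6) (nat_lit 86) (nat_lit 0) (nat_lit 54) (nat_lit 41) (nat_lit 28)) (PT.lf (nat_lit 6636) (nat_lit 6) (nat_lit 79) (nat_lit 5) (nat_lit 27) (nat_lit 42) (nat_lit 54)))) (PT.nd (nat_lit 188) (PT.nd (nat_lit 94) (PT.lf (nat_lit 7308) (nat_lit 6) (nat_lit 87) (nat_lit 5) (nat_lit 28) (nat_lit 42) (nat_lit 53)) (PT.lf (nat_lit 8400) (nat_lit 6) (nat_lit 100) (nat_lit 5) (nat_lit 29) (nat_lit 42) (nat_lit 52))) (PT.nd (nat_lit 94) (PT.lf (nat_lit 9408) (nat_lit 6) (nat_lit 112) (nat_lit 5) (nat_lit 30) (nat_lit 42) (nat_lit 51)) (PT.lf (nat_lit 10332) (nat_lit 6) (nat_lit 123) (nat_lit 5) (nat_lit 31) (nat_lit 42) (nat_lit 50))))))))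
noncomputable def pc7 : PT := (PT.nd (nat_lit 54050) (PT.nd (nat_lit 1316) (PT.nd (nat_lit 658) (PT.nd (nat_lit 282) (PT.nd (nat_lit 94) (PT.lf (nat_lit 11172) (nat_lit 6) (nat_lit 133) (nat_lit 5) (nat_lit 32) (nat_lit 42) (nat_lit 49)) (PT.nd (nat_lit 94) (PT.lf (nat_lit 11928) (nat_lit 6) (nat_lit 142) (nat_lit 5) (nat_lit 33) (nat_lit 42) (nat_lit 48)) (PT.lf (nat_lit 12600) (nat_lit 6) (nat_lit 150) (nat_lit 5) (nat_lit 34) (nat_lit 42) (nat_lit 47)))) (PT.nd (nat_lit 188) (PT.nd (nat_lit 94) (PT.lf (nat_lit 13188) (nat_lit 6) (nat_lit 157) (nat_lit 5) (nat_lit 35) (nat_lit 42) (nat_lit 46)) (PT.lf (nat_lit 13692) (nat_lit 6) (nat_lit 163) (nat_lit 5) (nat_lit 36) (nat_lit 42) (nat_lit 45))) (PT.nd (nat_lit 94) (PT.lf (nat_lit 14112) (nat_lit 6) (nat_lit 168) (nat_lit 5) (nat_lit 37) (nat_lit 42) (nat_lit 44)) (PT.lf (nat_lit 14448) (nat_lit 6) (nat_lit 172) (nat_lit 5) (nat_lit 38)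 (nat_lit 42) (nat_lit 43))))) (PT.nd (nat_lit 282) (PT.nd (nat_lit 94) (PT.lf (nat_lit 14700) (nat_lit 3) (nat_lit 175) (nat_lit 4) (nat_lit 39) (nat_lit 42) (nat_lit 42)) (PT.nd (nat_lit 94) (PT.lf (nat_lit 14784) (nat_lit 6) (nat_lit 176) (nat_lit 4) (nat_lit 40) (nat_lit 42) (nat_lit 41)) (PT.lf (nat_lit 14784) (nat_lit 6) (nat_lit 176) (nat_lit 2) (nat_lit 41) (nat_lit 42) (nat_lit 40)))) (PT.nd (nat_lit 188) (PT.nd (nat_lit 94) (PT.lf (nat_lit 14700) (nat_lit 3) (nat_lit 175) (nat_lit 0) (nat_lit 42) (nat_lit 42) (nat_lit 39)) (PT.lf (nat_lit 14448) (nat_lit 6) (nat_lit 172) (nat_lit 0) (nat_lit 43) (nat_lit 42) (nat_lit 38))) (PT.nd (nat_lit 94) (PT.lf (nat_lit 14112) (nat_lit 6) (nat_lit 168) (nat_lit 0) (nat_lit 44) (nat_lit 42) (nat_lit 37)) (PT.lf (nat_lit 13692) (nat_lit 6) (nat_lit 163) (nat_lit 0) (nat_lit 45) (nat_lit 42) (nat_lit 36)))))) (PT.nd (nat_lit 658) (PT.nd (nat_lit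 282) (PT.nd (nat_lit 94) (PT.lf (nat_lit 13188) (nat_lit 6) (nat_lit 157) (nat_lit 0) (nat_lit 46) (nat_lit 42) (nat_lit 35)) (PT.nd (nat_lit 94) (PT.lf (nat_lit 12600) (nat_lit 6) (nat_lit 150) (nat_lit 0) (nat_lit 47) (nat_lit 42) (nat_lit 34)) (PT.lf (nat_lit 11928) (nat_lit 6) (nat_lit 142) (nat_lit 0) (nat_lit 48) (nat_lit 42) (nat_lit 33)))) (PT.nd (nat_lit 188) (PT.nd (nat_lit 94) (PT.lf (nat_lit 11172) (nat_lit 6) (nat_lit 133) (nat_lit 0) (nat_lit 49) (nat_lit 42) (nat_lit 32)) (PT.lf (nat_lit 10332) (nat_lit 6) (nat_lit 123) (nat_lit 0) (nat_lit 50) (nat_lit 42) (nat_lit 31))) (PT.nd (nat_lit 94) (PT.lf (nat_lit 9408) (nat_lit 6) (nat_lit 112) (nat_lit 0) (nat_lit 51) (nat_lit 42) (nat_lit 30)) (PT.lf (nat_lit 8400) (nat_lit 6) (nat_lit 100) (nat_lit 0) (nat_lit 52) (nat_lit 42) (nat_lit 29))))) (PT.nd (nat_lit 51700) (PT.nd (nat_lit 51512) (PT.nd (nat_lit 94) (PT.lf (nat_lit 7308)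 (nat_lit 6) (nat_lit 87) (nat_lit 0) (nat_lit 53) (nat_lit 42) (nat_lit 28)) (PT.lf (nat_lit 6636) (nat_lit 6) (nat_lit 79) (nat_lit 0) (nat_lit 54) (nat_lit 42) (nat_lit 27))) (PT.nd (nat_lit 94) (PT.lf (nat_lit 6132) (nat_lit 6) (nat_lit 73) (nat_lit 5) (nat_lit 26) (nat_lit 43) (nat_lit 54)) (PT.lf (nat_lit 6720) (nat_lit 6) (nat_lit 80) (nat_lit 5) (nat_lit 27) (nat_lit 43) (nat_lit 53)))) (PT.nd (nat_lit 188) (PT.nd (nat_lit 94) (PT.lf (nat_lit 7392) (nat_lit 6) (nat_lit 88) (nat_lit 5) (nat_lit 28) (nat_lit 43) (nat_lit 52)) (PT.lf (nat_lit 8484) (nat_lit 6) (nat_lit 101) (nat_lit 5) (nat_lit 29) (nat_lit 43) (nat_lit 51))) (PT.nd (nat_lit 94) (PT.lf (nat_lit 9492) (nat_lit 6) (nat_lit 113) (nat_lit 5) (nat_lit 30) (nat_lit 43) (nat_lit 50)) (PT.lf (nat_lit 10416) (nat_lit 6) (nat_lit 124) (nat_lit 5) (nat_lit 31) (nat_lit 43) (nat_lit 49))))))) (PT.nd (nat_lit 1410) (PT.nd (nat_lit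 658) (PT.nd (nat_lit 282) (PT.nd (nat_lit 94) (PT.lf (nat_lit 11256) (nat_lit 6) (nat_lit 134) (nat_lit 5) (nat_lit 32) (nat_lit 43) (nat_lit 48)) (PT.nd (nat_lit 94) (PT.lf (nat_lit 12012) (nat_lit 6) (nat_lit 143) (nat_lit 5) (nat_lit 33) (nat_lit 43) (nat_lit 47)) (PT.lf (nat_lit 12684) (nat_lit 6) (nat_lit 151) (nat_lit 5) (nat_lit 34) (nat_lit 43) (nat_lit 46)))) (PT.nd (nat_lit 188) (PT.nd (nat_lit 94) (PT.lf (nat_lit 13272) (nat_lit 6) (nat_lit 158) (nat_lit 5) (nat_lit 35) (nat_lit 43) (nat_lit 45)) (PT.lf (nat_lit 13776) (nat_lit 6) (nat_lit 164) (nat_lit 5) (nat_lit 36) (nat_lit 43) (nat_lit 44))) (PT.nd (nat_lit 94) (PT.lf (nat_lit 14196) (nat_lit 3) (nat_lit 169) (nat_lit 4) (nat_lit 37) (nat_lit 43) (nat_lit 43)) (PT.lf (nat_lit 14448) (nat_lit 6) (nat_lit 172) (nat_lit 4) (nat_lit 38) (nat_lit 43) (nat_lit 42))))) (PT.nd (nat_lit 376) (PT.nd (nat_lit 188) (PT.nd (nat_lit 94)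 (PT.lf (nat_lit 14616) (nat_lit 6) (nat_lit 174) (nat_lit 4) (nat_lit 39) (nat_lit 43) (nat_lit 41)) (PT.lf (nat_lit 14532) (nat_lit 3) (nat_lit 173) (nat_lit 2) (nat_lit 40) (nat_lit 43) (nat_lit 40))) (PT.nd (nat_lit 94) (PT.lf (nat_lit 14616) (nat_lit 6) (nat_lit 174) (nat_lit 2) (nat_lit 41) (nat_lit 43) (nat_lit 39)) (PT.lf (nat_lit 14448) (nat_lit 6) (nat_lit 172) (nat_lit 2) (nat_lit 42) (nat_lit 43) (nat_lit 38)))) (PT.nd (nat_lit 188) (PT.nd (nat_lit 94) (PT.lf (nat_lit 14196) (nat_lit 3) (nat_lit 169) (nat_lit 0) (nat_lit 43) (nat_lit 43) (nat_lit 37)) (PT.lf (nat_lit 13776) (nat_lit 6) (nat_lit 164) (nat_lit 0) (nat_lit 44) (nat_lit 43) (nat_lit 36))) (PT.nd (nat_lit 94) (PT.lf (nat_lit 13272) (nat_lit 6) (nat_lit 158) (nat_lit 0) (nat_lit 45) (nat_lit 43) (nat_lit 35)) (PT.lf (nat_lit 12684) (nat_lit 6) (nat_lit 151) (nat_lit 0) (nat_lit 46) (nat_lit 43) (nat_lit 34)))))) (PT.nd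 (nat_lit 658) (PT.nd (nat_lit 282) (PT.nd (nat_lit 94) (PT.lf (nat_lit 12012) (nat_lit 6) (nat_lit 143) (nat_lit 0) (nat_lit 47) (nat_lit 43) (nat_lit 33)) (PT.nd (nat_lit 94) (PT.lf (nat_lit 11256) (nat_lit 6) (nat_lit 134) (nat_lit 0) (nat_lit 48) (nat_lit 43) (nat_lit 32)) (PT.lf (nat_lit 10416) (nat_lit 6) (nat_lit 124) (nat_lit 0) (nat_lit 49) (nat_lit 43) (nat_lit 31)))) (PT.nd (nat_lit 188) (PT.nd (nat_lit 94) (PT.lf (nat_lit 9492) (nat_lit 6) (nat_lit 113) (nat_lit 0) (nat_lit 50) (nat_lit 43) (nat_lit 30)) (PT.lf (nat_lit 8484) (nat_lit 6) (nat_lit 101) (nat_lit 0) (nat_lit 51) (nat_lit 43) (nat_lit 29))) (PT.nd (nat_lit 94) (PT.lf (nat_lit 7392) (nat_lit 6) (nat_lit 88) (nat_lit 0) (nat_lit 52) (nat_lit 43) (nat_lit 28)) (PT.lf (nat_lit 6720) (nat_lit 6) (nat_lit 80) (nat_lit 0) (nat_lit 53) (nat_lit 43) (nat_lit 27))))) (PT.nd (nat_lit 51606) (PT.nd (nat_lit 51418) (PT.nd (nat_lit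 51324) (PT.lf (nat_lit 6132) (nat_lit 6) (nat_lit 73) (nat_lit 0) (nat_lit 54) (nat_lit 43) (nat_lit 26)) (PT.lf (nat_lit 5628) (nat_lit 6) (nat_lit 67) (nat_lit 5) (nat_lit 25) (nat_lit 44) (nat_lit 54))) (PT.nd (nat_lit 94) (PT.lf (nat_lit 6216) (nat_lit 6) (nat_lit 74) (nat_lit 5) (nat_lit 26) (nat_lit 44) (nat_lit 53)) (PT.lf (nat_lit 6804) (nat_lit 6) (nat_lit 81) (nat_lit 5) (nat_lit 27) (nat_lit 44) (nat_lit 52)))) (PT.nd (nat_lit 188) (PT.nd (nat_lit 94) (PT.lf (nat_lit 7476) (nat_lit 6) (nat_lit 89) (nat_lit 5) (nat_lit 28) (nat_lit 44) (nat_lit 51)) (PT.lf (nat_lit 8568) (nat_lit 6) (nat_lit 102) (nat_lit 5) (nat_lit 29) (nat_lit 44) (nat_lit 50))) (PT.nd (nat_lit 94) (PT.lf (nat_lit 9576) (nat_lit 6) (nat_lit 114) (nat_lit 5) (nat_lit 30) (nat_lit 44) (nat_lit 49)) (PT.lf (nat_lit 10500) (nat_lit 6) (nat_lit 125) (nat_lit 5) (nat_lit 31) (nat_lit 44) (nat_lit 48))))))))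
noncomputable def pc8 : PT := (PT.nd (nat_lit 53862) (PT.nd (nat_lit 1316) (PT.nd (nat_lit 658) (PT.nd (nat_lit 282) (PT.nd (nat_lit 94) (PT.lf (nat_lit 11340) (nat_lit 6) (nat_lit 135) (nat_lit 5) (nat_lit 32) (nat_lit 44) (nat_lit 47)) (PT.nd (nat_lit 94) (PT.lf (nat_lit 12096) (nat_lit 6) (nat_lit 144) (nat_lit 5) (nat_lit 33) (nat_lit 44) (nat_lit 46)) (PT.lf (nat_lit 12768) (nat_lit 6) (nat_lit 152) (nat_lit 5) (nat_lit 34) (nat_lit 44) (nat_lit 45)))) (PT.nd (nat_lit 188) (PT.nd (nat_lit 94) (PT.lf (nat_lit 13356) (nat_lit 3) (nat_lit 159) (nat_lit 4) (nat_lit 35) (nat_lit 44) (nat_lit 44)) (PT.lf (nat_lit 13776) (nat_lit 6) (nat_lit 164) (nat_lit 4) (nat_lit 36) (nat_lit 44) (nat_lit 43))) (PT.nd (nat_lit 94) (PT.lf (nat_lit 14112) (nat_lit 6) (nat_lit 168) (nat_lit 4) (nat_lit 37) (nat_lit 44) (nat_lit 42)) (PT.lf (nat_lit 14364) (nat_lit 6) (nat_lit 171) (nat_lit 4) (nat_lit 38)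 (nat_lit 44) (nat_lit 41))))) (PT.nd (nat_lit 282) (PT.nd (nat_lit 94) (PT.lf (nat_lit 14280) (nat_lit 6) (nat_lit 170) (nat_lit 4) (nat_lit 39) (nat_lit 44) (nat_lit 40)) (PT.nd (nat_lit 94) (PT.lf (nat_lit 14280) (nat_lit 6) (nat_lit 170) (nat_lit 2) (nat_lit 40) (nat_lit 44) (nat_lit 39)) (PT.lf (nat_lit 14364) (nat_lit 6) (nat_lit 171) (nat_lit 2) (nat_lit 41) (nat_lit 44) (nat_lit 38)))) (PT.nd (nat_lit 188) (PT.nd (nat_lit 94) (PT.lf (nat_lit 14112) (nat_lit 6) (nat_lit 168) (nat_lit 2) (nat_lit 42) (nat_lit 44) (nat_lit 37)) (PT.lf (nat_lit 13776) (nat_lit 6) (nat_lit 164) (nat_lit 2) (nat_lit 43) (nat_lit 44) (nat_lit 36))) (PT.nd (nat_lit 94) (PT.lf (nat_lit 13356) (nat_lit 3) (nat_lit 159) (nat_lit 0) (nat_lit 44) (nat_lit 44) (nat_lit 35)) (PT.lf (nat_lit 12768) (nat_lit 6) (nat_lit 152) (nat_lit 0) (nat_lit 45) (nat_lit 44) (nat_lit 34)))))) (PT.nd (nat_lit 658) (PT.nd (nat_lit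 282) (PT.nd (nat_lit 94) (PT.lf (nat_lit 12096) (nat_lit 6) (nat_lit 144) (nat_lit 0) (nat_lit 46) (nat_lit 44) (nat_lit 33)) (PT.nd (nat_lit 94) (PT.lf (nat_lit 11340) (nat_lit 6) (nat_lit 135) (nat_lit 0) (nat_lit 47) (nat_lit 44) (nat_lit 32)) (PT.lf (nat_lit 10500) (nat_lit 6) (nat_lit 125) (nat_lit 0) (nat_lit 48) (nat_lit 44) (nat_lit 31)))) (PT.nd (nat_lit 188) (PT.nd (nat_lit 94) (PT.lf (nat_lit 9576) (nat_lit 6) (nat_lit 114) (nat_lit 0) (nat_lit 49) (nat_lit 44) (nat_lit 30)) (PT.lf (nat_lit 8568) (nat_lit 6) (nat_lit 102) (nat_lit 0) (nat_lit 50) (nat_lit 44) (nat_lit 29))) (PT.nd (nat_lit 94) (PT.lf (nat_lit 7476) (nat_lit 6) (nat_lit 89) (nat_lit 0) (nat_lit 51) (nat_lit 44) (nat_lit 28)) (PT.lf (nat_lit 6804) (nat_lit 6) (nat_lit 81) (nat_lit 0) (nat_lit 52) (nat_lit 44) (nat_lit 27))))) (PT.nd (nat_lit 51512) (PT.nd (nat_lit 51324) (PT.nd (nat_lit 94) (PT.lf (nat_lit 6216)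 (nat_lit 6) (nat_lit 74) (nat_lit 0) (nat_lit 53) (nat_lit 44) (nat_lit 26)) (PT.lf (nat_lit 5628) (nat_lit 6) (nat_lit 67) (nat_lit 0) (nat_lit 54) (nat_lit 44) (nat_lit 25))) (PT.nd (nat_lit 94) (PT.lf (nat_lit 5208) (nat_lit 6) (nat_lit 62) (nat_lit 5) (nat_lit 24) (nat_lit 45) (nat_lit 54)) (PT.lf (nat_lit 5712) (nat_lit 6) (nat_lit 68) (nat_lit 5) (nat_lit 25) (nat_lit 45) (nat_lit 53)))) (PT.nd (nat_lit 188) (PT.nd (nat_lit 94) (PT.lf (nat_lit 6300) (nat_lit 6) (nat_lit 75) (nat_lit 5) (nat_lit 26) (nat_lit 45) (nat_lit 52)) (PT.lf (nat_lit 6888) (nat_lit 6) (nat_lit 82) (nat_lit 5) (nat_lit 27) (nat_lit 45) (nat_lit 51))) (PT.nd (nat_lit 94) (PT.lf (nat_lit 7560) (nat_lit 6) (nat_lit 90) (nat_lit 5) (nat_lit 28) (nat_lit 45) (nat_lit 50)) (PT.lf (nat_lit 8652) (nat_lit 6) (nat_lit 103) (nat_lit 5) (nat_lit 29) (nat_lit 45) (nat_lit 49))))))) (PT.nd (nat_lit 1410) (PT.nd (nat_lit 658)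 (PT.nd (nat_lit 282) (PT.nd (nat_lit 94) (PT.lf (nat_lit 9660) (nat_lit 6) (nat_lit 115) (nat_lit 5) (nat_lit 30) (nat_lit 45) (nat_lit 48)) (PT.nd (nat_lit 94) (PT.lf (nat_lit 10584) (nat_lit 6) (nat_lit 126) (nat_lit 5) (nat_lit 31) (nat_lit 45) (nat_lit 47)) (PT.lf (nat_lit 11424) (nat_lit 6) (nat_lit 136) (nat_lit 5) (nat_lit 32) (nat_lit 45) (nat_lit 46)))) (PT.nd (nat_lit 188) (PT.nd (nat_lit 94) (PT.lf (nat_lit 12180) (nat_lit 3) (nat_lit 145) (nat_lit 4) (nat_lit 33) (nat_lit 45) (nat_lit 45)) (PT.lf (nat_lit 12768) (nat_lit 6) (nat_lit 152) (nat_lit 4) (nat_lit 34) (nat_lit 45) (nat_lit 44))) (PT.nd (nat_lit 94) (PT.lf (nat_lit 13272) (nat_lit 6) (nat_lit 158) (nat_lit 4) (nat_lit 35) (nat_lit 45) (nat_lit 43)) (PT.lf (nat_lit 13692) (nat_lit 6) (nat_lit 163) (nat_lit 4) (nat_lit 36) (nat_lit 45) (nat_lit 42))))) (PT.nd (nat_lit 376) (PT.nd (nat_lit 188) (PT.nd (nat_lit 94) (PT.lf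 (nat_lit 14028) (nat_lit 6) (nat_lit 167) (nat_lit 4) (nat_lit 37) (nat_lit 45) (nat_lit 41)) (PT.lf (nat_lit 13944) (nat_lit 6) (nat_lit 166) (nat_lit 4) (nat_lit 38) (nat_lit 45) (nat_lit 40))) (PT.nd (nat_lit 94) (PT.lf (nat_lit 13860) (nat_lit 3) (nat_lit 165) (nat_lit 2) (nat_lit 39) (nat_lit 45) (nat_lit 39)) (PT.lf (nat_lit 13944) (nat_lit 6) (nat_lit 166) (nat_lit 2) (nat_lit 40) (nat_lit 45) (nat_lit 38)))) (PT.nd (nat_lit 188) (PT.nd (nat_lit 94) (PT.lf (nat_lit 14028) (nat_lit 6) (nat_lit 167) (nat_lit 2) (nat_lit 41) (nat_lit 45) (nat_lit 37)) (PT.lf (nat_lit 13692) (nat_lit 6) (nat_lit 163) (nat_lit 2) (nat_lit 42) (nat_lit 45) (nat_lit 36))) (PT.nd (nat_lit 94) (PT.lf (nat_lit 13272) (nat_lit 6) (nat_lit 158) (nat_lit 2) (nat_lit 43) (nat_lit 45) (nat_lit 35)) (PT.lf (nat_lit 12768) (nat_lit 6) (nat_lit 152) (nat_lit 2) (nat_lit 44) (nat_lit 45) (nat_lit 34)))))) (PT.nd (nat_lit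 658) (PT.nd (nat_lit 282) (PT.nd (nat_lit 94) (PT.lf (nat_lit 12180) (nat_lit 3) (nat_lit 145) (nat_lit 0) (nat_lit 45) (nat_lit 45) (nat_lit 33)) (PT.nd (nat_lit 94) (PT.lf (nat_lit 11424) (nat_lit 6) (nat_lit 136) (nat_lit 0) (nat_lit 46) (nat_lit 45) (nat_lit 32)) (PT.lf (nat_lit 10584) (nat_lit 6) (nat_lit 126) (nat_lit 0) (nat_lit 47) (nat_lit 45) (nat_lit 31)))) (PT.nd (nat_lit 188) (PT.nd (nat_lit 94) (PT.lf (nat_lit 9660) (nat_lit 6) (nat_lit 115) (nat_lit 0) (nat_lit 48) (nat_lit 45) (nat_lit 30)) (PT.lf (nat_lit 8652) (nat_lit 6) (nat_lit 103) (nat_lit 0) (nat_lit 49) (nat_lit 45) (nat_lit 29))) (PT.nd (nat_lit 94) (PT.lf (nat_lit 7560) (nat_lit 6) (nat_lit 90) (nat_lit 0) (nat_lit 50) (nat_lit 45) (nat_lit 28)) (PT.lf (nat_lit 6888) (nat_lit 6) (nat_lit 82) (nat_lit 0) (nat_lit 51) (nat_lit 45) (nat_lit 27))))) (PT.nd (nat_lit 51324) (PT.nd (nat_lit 188) (PT.nd (nat_lit 94) (PT.lf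 (nat_lit 6300) (nat_lit 6) (nat_lit 75) (nat_lit 0) (nat_lit 52) (nat_lit 45) (nat_lit 26)) (PT.lf (nat_lit 5712) (nat_lit 6) (nat_lit 68) (nat_lit 0) (nat_lit 53) (nat_lit 45) (nat_lit 25))) (PT.nd (nat_lit 51042) (PT.lf (nat_lit 5208) (nat_lit 6) (nat_lit 62) (nat_lit 0) (nat_lit 54) (nat_lit 45) (nat_lit 24)) (PT.lf (nat_lit 4368) (nat_lit 6) (nat_lit 52) (nat_lit 5) (nat_lit 22) (nat_lit 46) (nat_lit 55)))) (PT.nd (nat_lit 188) (PT.nd (nat_lit 94) (PT.lf (nat_lit 4788) (nat_lit 6) (nat_lit 57) (nat_lit 5) (nat_lit 23) (nat_lit 46) (nat_lit 54)) (PT.lf (nat_lit 5292) (nat_lit 6) (nat_lit 63) (nat_lit 5) (nat_lit 24) (nat_lit 46) (nat_lit 53))) (PT.nd (nat_lit 94) (PT.lf (nat_lit 5796) (nat_lit 6) (nat_lit 69) (nat_lit 5) (nat_lit 25) (nat_lit 46) (nat_lit 52)) (PT.lf (nat_lit 6384) (nat_lit 6) (nat_lit 76) (nat_lit 5) (nat_lit 26) (nat_lit 46) (nat_lit 51))))))))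
noncomputable def pc9 : PT := (PT.nd (nat_lit 53486) (PT.nd (nat_lit 1316) (PT.nd (nat_lit 658) (PT.nd (nat_lit 282) (PT.nd (nat_lit 94) (PT.lf (nat_lit 6972) (nat_lit 6) (nat_lit 83) (nat_lit 5) (nat_lit 27) (nat_lit 46) (nat_lit 50)) (PT.nd (nat_lit 94) (PT.lf (nat_lit 7644) (nat_lit 6) (nat_lit 91) (nat_lit 5) (nat_lit 28) (nat_lit 46) (nat_lit 49)) (PT.lf (nat_lit 8736) (nat_lit 6) (nat_lit 104) (nat_lit 5) (nat_lit 29) (nat_lit 46) (nat_lit 48)))) (PT.nd (nat_lit 188) (PT.nd (nat_lit 94) (PT.lf (nat_lit 9744) (nat_lit 6) (nat_lit 116) (nat_lit 5) (nat_lit 30) (nat_lit 46) (nat_lit 47)) (PT.lf (nat_lit 10668) (nat_lit 3) (nat_lit 127) (nat_lit 4) (nat_lit 31) (nat_lit 46) (nat_lit 46))) (PT.nd (nat_lit 94) (PT.lf (nat_lit 11424) (nat_lit 6) (nat_lit 136) (nat_lit 4) (nat_lit 32) (nat_lit 46) (nat_lit 45)) (PT.lf (nat_lit 12096) (nat_lit 6) (nat_lit 144) (nat_lit 4) (nat_lit 33) (nat_lit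 46) (nat_lit 44))))) (PT.nd (nat_lit 282) (PT.nd (nat_lit 94) (PT.lf (nat_lit 12684) (nat_lit 6) (nat_lit 151) (nat_lit 4) (nat_lit 34) (nat_lit 46) (nat_lit 43)) (PT.nd (nat_lit 94) (PT.lf (nat_lit 13188) (nat_lit 6) (nat_lit 157) (nat_lit 4) (nat_lit 35) (nat_lit 46) (nat_lit 42)) (PT.lf (nat_lit 13608) (nat_lit 6) (nat_lit 162) (nat_lit 4) (nat_lit 36) (nat_lit 46) (nat_lit 41)))) (PT.nd (nat_lit 188) (PT.nd (nat_lit 94) (PT.lf (nat_lit 13524) (nat_lit 6) (nat_lit 161) (nat_lit 4) (nat_lit 37) (nat_lit 46) (nat_lit 40)) (PT.lf (nat_lit 13440) (nat_lit 6) (nat_lit 160) (nat_lit 4) (nat_lit 38) (nat_lit 46) (nat_lit 39))) (PT.nd (nat_lit 94) (PT.lf (nat_lit 13440) (nat_lit 6) (nat_lit 160) (nat_lit 2) (nat_lit 39) (nat_lit 46) (nat_lit 38)) (PT.lf (nat_lit 13524) (nat_lit 6) (nat_lit 161) (nat_lit 2) (nat_lit 40) (nat_lit 46) (nat_lit 37)))))) (PT.nd (nat_lit 658) (PT.nd (nat_lit 282) (PT.nd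 (nat_lit 94) (PT.lf (nat_lit 13608) (nat_lit 6) (nat_lit 162) (nat_lit 2) (nat_lit 41) (nat_lit 46) (nat_lit 36)) (PT.nd (nat_lit 94) (PT.lf (nat_lit 13188) (nat_lit 6) (nat_lit 157) (nat_lit 2) (nat_lit 42) (nat_lit 46) (nat_lit 35)) (PT.lf (nat_lit 12684) (nat_lit 6) (nat_lit 151) (nat_lit 2) (nat_lit 43) (nat_lit 46) (nat_lit 34)))) (PT.nd (nat_lit 188) (PT.nd (nat_lit 94) (PT.lf (nat_lit 12096) (nat_lit 6) (nat_lit 144) (nat_lit 2) (nat_lit 44) (nat_lit 46) (nat_lit 33)) (PT.lf (nat_lit 11424) (nat_lit 6) (nat_lit 136) (nat_lit 2) (nat_lit 45) (nat_lit 46) (nat_lit 32))) (PT.nd (nat_lit 94) (PT.lf (nat_lit 10668) (nat_lit 3) (nat_lit 127) (nat_lit 0) (nat_lit 46) (nat_lit 46) (nat_lit 31)) (PT.lf (nat_lit 9744) (nat_lit 6) (nat_lit 116) (nat_lit 0) (nat_lit 47) (nat_lit 46) (nat_lit 30))))) (PT.nd (nat_lit 376) (PT.nd (nat_lit 188) (PT.nd (nat_lit 94) (PT.lf (nat_lit 8736) (nat_lit 6)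 (nat_lit 104) (nat_lit 0) (nat_lit 48) (nat_lit 46) (nat_lit 29)) (PT.lf (nat_lit 7644) (nat_lit 6) (nat_lit 91) (nat_lit 0) (nat_lit 49) (nat_lit 46) (nat_lit 28))) (PT.nd (nat_lit 94) (PT.lf (nat_lit 6972) (nat_lit 6) (nat_lit 83) (nat_lit 0) (nat_lit 50) (nat_lit 46) (nat_lit 27)) (PT.lf (nat_lit 6384) (nat_lit 6) (nat_lit 76) (nat_lit 0) (nat_lit 51) (nat_lit 46) (nat_lit 26)))) (PT.nd (nat_lit 188) (PT.nd (nat_lit 94) (PT.lf (nat_lit 5796) (nat_lit 6) (nat_lit 69) (nat_lit 0) (nat_lit 52) (nat_lit 46) (nat_lit 25)) (PT.lf (nat_lit 5292) (nat_lit 6) (nat_lit 63) (nat_lit 0) (nat_lit 53) (nat_lit 46) (nat_lit 24))) (PT.nd (nat_lit 94) (PT.lf (nat_lit 4788) (nat_lit 6) (nat_lit 57) (nat_lit 0) (nat_lit 54) (nat_lit 46) (nat_lit 23)) (PT.lf (nat_lit 4368) (nat_lit 6) (nat_lit 52) (nat_lit 0) (nat_lit 55) (nat_lit 46) (nat_lit 22))))))) (PT.nd (nat_lit 1410) (PT.nd (nat_lit 658) (PT.nd (nat_lit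 282) (PT.nd (nat_lit 94) (PT.lf (nat_lit 3948) (nat_lit 6) (nat_lit 47) (nat_lit 5) (nat_lit 21) (nat_lit 47) (nat_lit 55)) (PT.nd (nat_lit 94) (PT.lf (nat_lit 4452) (nat_lit 6) (nat_lit 53) (nat_lit 5) (nat_lit 22) (nat_lit 47) (nat_lit 54)) (PT.lf (nat_lit 4872) (nat_lit 6) (nat_lit 58) (nat_lit 5) (nat_lit 23) (nat_lit 47) (nat_lit 53)))) (PT.nd (nat_lit 188) (PT.nd (nat_lit 94) (PT.lf (nat_lit 5376) (nat_lit 6) (nat_lit 64) (nat_lit 5) (nat_lit 24) (nat_lit 47) (nat_lit 52)) (PT.lf (nat_lit 5880) (nat_lit 6) (nat_lit 70) (nat_lit 5) (nat_lit 25) (nat_lit 47) (nat_lit 51))) (PT.nd (nat_lit 94) (PT.lf (nat_lit 6468) (nat_lit 6) (nat_lit 77) (nat_lit 5) (nat_lit 26) (nat_lit 47) (nat_lit 50)) (PT.lf (nat_lit 7056) (nat_lit 6) (nat_lit 84) (nat_lit 5) (nat_lit 27) (nat_lit 47) (nat_lit 49))))) (PT.nd (nat_lit 376) (PT.nd (nat_lit 188) (PT.nd (nat_lit 94) (PT.lf (nat_lit 7728) (nat_lit 6)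 (nat_lit 92) (nat_lit 5) (nat_lit 28) (nat_lit 47) (nat_lit 48)) (PT.lf (nat_lit 8820) (nat_lit 3) (nat_lit 105) (nat_lit 4) (nat_lit 29) (nat_lit 47) (nat_lit 47))) (PT.nd (nat_lit 94) (PT.lf (nat_lit 9744) (nat_lit 6) (nat_lit 116) (nat_lit 4) (nat_lit 30) (nat_lit 47) (nat_lit 46)) (PT.lf (nat_lit 10584) (nat_lit 6) (nat_lit 126) (nat_lit 4) (nat_lit 31) (nat_lit 47) (nat_lit 45)))) (PT.nd (nat_lit 188) (PT.nd (nat_lit 94) (PT.lf (nat_lit 11340) (nat_lit 6) (nat_lit 135) (nat_lit 4) (nat_lit 32) (nat_lit 47) (nat_lit 44)) (PT.lf (nat_lit 12012) (nat_lit 6) (nat_lit 143) (nat_lit 4) (nat_lit 33) (nat_lit 47) (nat_lit 43))) (PT.nd (nat_lit 94) (PT.lf (nat_lit 12600) (nat_lit 6) (nat_lit 150) (nat_lit 4) (nat_lit 34) (nat_lit 47) (nat_lit 42)) (PT.lf (nat_lit 13104) (nat_lit 6) (nat_lit 156) (nat_lit 4) (nat_lit 35) (nat_lit 47) (nat_lit 41)))))) (PT.nd (nat_lit 658) (PT.nd (nat_lit 282)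 (PT.nd (nat_lit 94) (PT.lf (nat_lit 13020) (nat_lit 6) (nat_lit 155) (nat_lit 4) (nat_lit 36) (nat_lit 47) (nat_lit 40)) (PT.nd (nat_lit 94) (PT.lf (nat_lit 12936) (nat_lit 6) (nat_lit 154) (nat_lit 4) (nat_lit 37) (nat_lit 47) (nat_lit 39)) (PT.lf (nat_lit 12852) (nat_lit 3) (nat_lit 153) (nat_lit 2) (nat_lit 38) (nat_lit 47) (nat_lit 38)))) (PT.nd (nat_lit 188) (PT.nd (nat_lit 94) (PT.lf (nat_lit 12936) (nat_lit 6) (nat_lit 154) (nat_lit 2) (nat_lit 39) (nat_lit 47) (nat_lit 37)) (PT.lf (nat_lit 13020) (nat_lit 6) (nat_lit 155) (nat_lit 2) (nat_lit 40) (nat_lit 47) (nat_lit 36))) (PT.nd (nat_lit 94) (PT.lf (nat_lit 13104) (nat_lit 6) (nat_lit 156) (nat_lit 2) (nat_lit 41) (nat_lit 47) (nat_lit 35)) (PT.lf (nat_lit 12600) (nat_lit 6) (nat_lit 150) (nat_lit 2) (nat_lit 42) (nat_lit 47) (nat_lit 34))))) (PT.nd (nat_lit 376) (PT.nd (nat_lit 188) (PT.nd (nat_lit 94) (PT.lf (nat_lit 12012) (nat_lit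 6) (nat_lit 143) (nat_lit 2) (nat_lit 43) (nat_lit 47) (nat_lit 33)) (PT.lf (nat_lit 11340) (nat_lit 6) (nat_lit 135) (nat_lit 2) (nat_lit 44) (nat_lit 47) (nat_lit 32))) (PT.nd (nat_lit 94) (PT.lf (nat_lit 10584) (nat_lit 6) (nat_lit 126) (nat_lit 2) (nat_lit 45) (nat_lit 47) (nat_lit 31)) (PT.lf (nat_lit 9744) (nat_lit 6) (nat_lit 116) (nat_lit 2) (nat_lit 46) (nat_lit 47) (nat_lit 30)))) (PT.nd (nat_lit 188) (PT.nd (nat_lit 94) (PT.lf (nat_lit 8820) (nat_lit 3) (nat_lit 105) (nat_lit 0) (nat_lit 47) (nat_lit 47) (nat_lit 29)) (PT.lf (nat_lit 7728) (nat_lit 6) (nat_lit 92) (nat_lit 0) (nat_lit 48) (nat_lit 47) (nat_lit 28))) (PT.nd (nat_lit 94) (PT.lf (nat_lit 7056) (nat_lit 6) (nat_lit 84) (nat_lit 0) (nat_lit 49) (nat_lit 47) (nat_lit 27)) (PT.lf (nat_lit 6468) (nat_lit 6) (nat_lit 77) (nat_lit 0) (nat_lit 50) (nat_lit 47) (nat_lit 26))))))))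
noncomputable def pc10 : PT := (PT.nd (nat_lit 53392) (PT.nd (nat_lit 51982) (PT.nd (nat_lit 51324) (PT.nd (nat_lit 282) (PT.nd (nat_lit 94) (PT.lf (nat_lit 5880) (nat_lit 6) (nat_lit 70) (nat_lit 0) (nat_lit 51) (nat_lit 47) (nat_lit 25)) (PT.nd (nat_lit 94) (PT.lf (nat_lit 5376) (nat_lit 6) (nat_lit 64) (nat_lit 0) (nat_lit 52) (nat_lit 47) (nat_lit 24)) (PT.lf (nat_lit 4872) (nat_lit 6) (nat_lit 58) (nat_lit 0) (nat_lit 53) (nat_lit 47) (nat_lit 23)))) (PT.nd (nat_lit 50854) (PT.nd (nat_lit 94) (PT.lf (nat_lit 4452) (nat_lit 6) (nat_lit 53) (nat_lit 0) (nat_lit 54) (nat_lit 47) (nat_lit 22)) (PT.lf (nat_lit 3948) (nat_lit 6) (nat_lit 47) (nat_lit 0) (nat_lit 55) (nat_lit 47) (nat_lit 21))) (PT.nd (nat_lit 94) (PT.lf (nat_lit 3612) (nat_lit 6) (nat_lit 43) (nat_lit 5) (nat_lit 20) (nat_lit 48) (nat_lit 55)) (PT.lf (nat_lit 4032) (nat_lit 6) (nat_lit 48) (nat_lit 5) (nat_lit 21) (nat_lit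 48) (nat_lit 54))))) (PT.nd (nat_lit 282) (PT.nd (nat_lit 94) (PT.lf (nat_lit 4536) (nat_lit 6) (nat_lit 54) (nat_lit 5) (nat_lit 22) (nat_lit 48) (nat_lit 53)) (PT.nd (nat_lit 94) (PT.lf (nat_lit 4956) (nat_lit 6) (nat_lit 59) (nat_lit 5) (nat_lit 23) (nat_lit 48) (nat_lit 52)) (PT.lf (nat_lit 5460) (nat_lit 6) (nat_lit 65) (nat_lit 5) (nat_lit 24) (nat_lit 48) (nat_lit 51)))) (PT.nd (nat_lit 188) (PT.nd (nat_lit 94) (PT.lf (nat_lit 5964) (nat_lit 6) (nat_lit 71) (nat_lit 5) (nat_lit 25) (nat_lit 48) (nat_lit 50)) (PT.lf (nat_lit 6552) (nat_lit 6) (nat_lit 78) (nat_lit 5) (nat_lit 26) (nat_lit 48) (nat_lit 49))) (PT.nd (nat_lit 94) (PT.lf (nat_lit 7140) (nat_lit 3) (nat_lit 85) (nat_lit 4) (nat_lit 27) (nat_lit 48) (nat_lit 48)) (PT.lf (nat_lit 7728) (nat_lit 6) (nat_lit 92) (nat_lit 4) (nat_lit 28) (nat_lit 48) (nat_lit 47)))))) (PT.nd (nat_lit 658) (PT.nd (nat_lit 282) (PT.nd (nat_lit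 94) (PT.lf (nat_lit 8736) (nat_lit 6) (nat_lit 104) (nat_lit 4) (nat_lit 29) (nat_lit 48) (nat_lit 46)) (PT.nd (nat_lit 94) (PT.lf (nat_lit 9660) (nat_lit 6) (nat_lit 115) (nat_lit 4) (nat_lit 30) (nat_lit 48) (nat_lit 45)) (PT.lf (nat_lit 10500) (nat_lit 6) (nat_lit 125) (nat_lit 4) (nat_lit 31) (nat_lit 48) (nat_lit 44)))) (PT.nd (nat_lit 188) (PT.nd (nat_lit 94) (PT.lf (nat_lit 11256) (nat_lit 6) (nat_lit 134) (nat_lit 4) (nat_lit 32) (nat_lit 48) (nat_lit 43)) (PT.lf (nat_lit 11928) (nat_lit 6) (nat_lit 142) (nat_lit 4) (nat_lit 33) (nat_lit 48) (nat_lit 42))) (PT.nd (nat_lit 94) (PT.lf (nat_lit 12516) (nat_lit 6) (nat_lit 149) (nat_lit 4) (nat_lit 34) (nat_lit 48) (nat_lit 41)) (PT.lf (nat_lit 12432) (nat_lit 6) (nat_lit 148) (nat_lit 4) (nat_lit 35) (nat_lit 48) (nat_lit 40))))) (PT.nd (nat_lit 376) (PT.nd (nat_lit 188) (PT.nd (nat_lit 94) (PT.lf (nat_lit 12348) (nat_lit 6) (nat_lit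 147) (nat_lit 4) (nat_lit 36) (nat_lit 48) (nat_lit 39)) (PT.lf (nat_lit 12264) (nat_lit 6) (nat_lit 146) (nat_lit 4) (nat_lit 37) (nat_lit 48) (nat_lit 38))) (PT.nd (nat_lit 94) (PT.lf (nat_lit 12264) (nat_lit 6) (nat_lit 146) (nat_lit 2) (nat_lit 38) (nat_lit 48) (nat_lit 37)) (PT.lf (nat_lit 12348) (nat_lit 6) (nat_lit 147) (nat_lit 2) (nat_lit 39) (nat_lit 48) (nat_lit 36)))) (PT.nd (nat_lit 188) (PT.nd (nat_lit 94) (PT.lf (nat_lit 12432) (nat_lit 6) (nat_lit 148) (nat_lit 2) (nat_lit 40) (nat_lit 48) (nat_lit 35)) (PT.lf (nat_lit 12516) (nat_lit 6) (nat_lit 149) (nat_lit 2) (nat_lit 41) (nat_lit 48) (nat_lit 34))) (PT.nd (nat_lit 94) (PT.lf (nat_lit 11928) (nat_lit 6) (nat_lit 142) (nat_lit 2) (nat_lit 42) (nat_lit 48) (nat_lit 33)) (PT.lf (nat_lit 11256) (nat_lit 6) (nat_lit 134) (nat_lit 2) (nat_lit 43) (nat_lit 48) (nat_lit 32))))))) (PT.nd (nat_lit 51982) (PT.nd (nat_lit 658) (PT.nd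 (nat_lit 282) (PT.nd (nat_lit 94) (PT.lf (nat_lit 10500) (nat_lit 6) (nat_lit 125) (nat_lit 2) (nat_lit 44) (nat_lit 48) (nat_lit 31)) (PT.nd (nat_lit 94) (PT.lf (nat_lit 9660) (nat_lit 6) (nat_lit 115) (nat_lit 2) (nat_lit 45) (nat_lit 48) (nat_lit 30)) (PT.lf (nat_lit 8736) (nat_lit 6) (nat_lit 104) (nat_lit 2) (nat_lit 46) (nat_lit 48) (nat_lit 29)))) (PT.nd (nat_lit 188) (PT.nd (nat_lit 94) (PT.lf (nat_lit 7728) (nat_lit 6) (nat_lit 92) (nat_lit 2) (nat_lit 47) (nat_lit 48) (nat_lit 28)) (PT.lf (nat_lit 7140) (nat_lit 3) (nat_lit 85) (nat_lit 0) (nat_lit 48) (nat_lit 48) (nat_lit 27))) (PT.nd (nat_lit 94) (PT.lf (nat_lit 6552) (nat_lit 6) (nat_lit 78) (nat_lit 0) (nat_lit 49) (nat_lit 48) (nat_lit 26)) (PT.lf (nat_lit 5964) (nat_lit 6) (nat_lit 71) (nat_lit 0) (nat_lit 50) (nat_lit 48) (nat_lit 25))))) (PT.nd (nat_lit 376) (PT.nd (nat_lit 188) (PT.nd (nat_lit 94) (PT.lf (nat_lit 5460)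 (nat_lit 6) (nat_lit 65) (nat_lit 0) (nat_lit 51) (nat_lit 48) (nat_lit 24)) (PT.lf (nat_lit 4956) (nat_lit 6) (nat_lit 59) (nat_lit 0) (nat_lit 52) (nat_lit 48) (nat_lit 23))) (PT.nd (nat_lit 94) (PT.lf (nat_lit 4536) (nat_lit 6) (nat_lit 54) (nat_lit 0) (nat_lit 53) (nat_lit 48) (nat_lit 22)) (PT.lf (nat_lit 4032) (nat_lit 6) (nat_lit 48) (nat_lit 0) (nat_lit 54) (nat_lit 48) (nat_lit 21)))) (PT.nd (nat_lit 50760) (PT.nd (nat_lit 50666) (PT.lf (nat_lit 3612) (nat_lit 6) (nat_lit 43) (nat_lit 0) (nat_lit 55) (nat_lit 48) (nat_lit 20)) (PT.lf (nat_lit 3276) (nat_lit 6) (nat_lit 39) (nat_lit 5) (nat_lit 19) (nat_lit 49) (nat_lit 55))) (PT.nd (nat_lit 94) (PT.lf (nat_lit 3696) (nat_lit 6) (nat_lit 44) (nat_lit 5) (nat_lit 20) (nat_lit 49) (nat_lit 54)) (PT.lf (nat_lit 4116) (nat_lit 6) (nat_lit 49) (nat_lit 5) (nat_lit 21) (nat_lit 49) (nat_lit 53)))))) (PT.nd (nat_lit 658) (PT.nd (nat_lit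 282) (PT.nd (nat_lit 94) (PT.lf (nat_lit 4620) (nat_lit 6) (nat_lit 55) (nat_lit 5) (nat_lit 22) (nat_lit 49) (nat_lit 52)) (PT.nd (nat_lit 94) (PT.lf (nat_lit 5040) (nat_lit 6) (nat_lit 60) (nat_lit 5) (nat_lit 23) (nat_lit 49) (nat_lit 51)) (PT.lf (nat_lit 5544) (nat_lit 6) (nat_lit 66) (nat_lit 5) (nat_lit 24) (nat_lit 49) (nat_lit 50)))) (PT.nd (nat_lit 188) (PT.nd (nat_lit 94) (PT.lf (nat_lit 6048) (nat_lit 3) (nat_lit 72) (nat_lit 4) (nat_lit 25) (nat_lit 49) (nat_lit 49)) (PT.lf (nat_lit 6552) (nat_lit 6) (nat_lit 78) (nat_lit 4) (nat_lit 26) (nat_lit 49) (nat_lit 48))) (PT.nd (nat_lit 94) (PT.lf (nat_lit 7056) (nat_lit 6) (nat_lit 84) (nat_lit 4) (nat_lit 27) (nat_lit 49) (nat_lit 47)) (PT.lf (nat_lit 7644) (nat_lit 6) (nat_lit 91) (nat_lit 4) (nat_lit 28) (nat_lit 49) (nat_lit 46))))) (PT.nd (nat_lit 376) (PT.nd (nat_lit 188) (PT.nd (nat_lit 94) (PT.lf (nat_lit 8652) (nat_lit 6)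 (nat_lit 103) (nat_lit 4) (nat_lit 29) (nat_lit 49) (nat_lit 45)) (PT.lf (nat_lit 9576) (nat_lit 6) (nat_lit 114) (nat_lit 4) (nat_lit 30) (nat_lit 49) (nat_lit 44))) (PT.nd (nat_lit 94) (PT.lf (nat_lit 10416) (nat_lit 6) (nat_lit 124) (nat_lit 4) (nat_lit 31) (nat_lit 49) (nat_lit 43)) (PT.lf (nat_lit 11172) (nat_lit 6) (nat_lit 133) (nat_lit 4) (nat_lit 32) (nat_lit 49) (nat_lit 42)))) (PT.nd (nat_lit 188) (PT.nd (nat_lit 94) (PT.lf (nat_lit 11844) (nat_lit 6) (nat_lit 141) (nat_lit 4) (nat_lit 33) (nat_lit 49) (nat_lit 41)) (PT.lf (nat_lit 11760) (nat_lit 6) (nat_lit 140) (nat_lit 4) (nat_lit 34) (nat_lit 49) (nat_lit 40))) (PT.nd (nat_lit 94) (PT.lf (nat_lit 11676) (nat_lit 6) (nat_lit 139) (nat_lit 4) (nat_lit 35) (nat_lit 49) (nat_lit 39)) (PT.lf (nat_lit 11592) (nat_lit 6) (nat_lit 138) (nat_lit 4) (nat_lit 36) (nat_lit 49) (nat_lit 38))))))))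
noncomputable def pc11 : PT := (PT.nd (nat_lit 53110) (PT.nd (nat_lit 1316) (PT.nd (nat_lit 658) (PT.nd (nat_lit 282) (PT.nd (nat_lit 94) (PT.lf (nat_lit 11508) (nat_lit 3) (nat_lit 137) (nat_lit 2) (nat_lit 37) (nat_lit 49) (nat_lit 37)) (PT.nd (nat_lit 94) (PT.lf (nat_lit 11592) (nat_lit 6) (nat_lit 138) (nat_lit 2) (nat_lit 38) (nat_lit 49) (nat_lit 36)) (PT.lf (nat_lit 11676) (nat_lit 6) (nat_lit 139) (nat_lit 2) (nat_lit 39) (nat_lit 49) (nat_lit 35)))) (PT.nd (nat_lit 188) (PT.nd (nat_lit 94) (PT.lf (nat_lit 11760) (nat_lit 6) (nat_lit 140) (nat_lit 2) (nat_lit 40) (nat_lit 49) (nat_lit 34)) (PT.lf (nat_lit 11844) (nat_lit 6) (nat_lit 141) (nat_lit 2) (nat_lit 41) (nat_lit 49) (nat_lit 33))) (PT.nd (nat_lit 94) (PT.lf (nat_lit 11172) (nat_lit 6) (nat_lit 133) (nat_lit 2) (nat_lit 42) (nat_lit 49) (nat_lit 32)) (PT.lf (nat_lit 10416) (nat_lit 6) (nat_lit 124) (nat_lit 2) (nat_lit 43)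 (nat_lit 49) (nat_lit 31))))) (PT.nd (nat_lit 282) (PT.nd (nat_lit 94) (PT.lf (nat_lit 9576) (nat_lit 6) (nat_lit 114) (nat_lit 2) (nat_lit 44) (nat_lit 49) (nat_lit 30)) (PT.nd (nat_lit 94) (PT.lf (nat_lit 8652) (nat_lit 6) (nat_lit 103) (nat_lit 2) (nat_lit 45) (nat_lit 49) (nat_lit 29)) (PT.lf (nat_lit 7644) (nat_lit 6) (nat_lit 91) (nat_lit 2) (nat_lit 46) (nat_lit 49) (nat_lit 28)))) (PT.nd (nat_lit 188) (PT.nd (nat_lit 94) (PT.lf (nat_lit 7056) (nat_lit 6) (nat_lit 84) (nat_lit 2) (nat_lit 47) (nat_lit 49) (nat_lit 27)) (PT.lf (nat_lit 6552) (nat_lit 6) (nat_lit 78) (nat_lit 2) (nat_lit 48) (nat_lit 49) (nat_lit 26))) (PT.nd (nat_lit 94) (PT.lf (nat_lit 6048) (nat_lit 3) (nat_lit 72) (nat_lit 0) (nat_lit 49) (nat_lit 49) (nat_lit 25)) (PT.lf (nat_lit 5544) (nat_lit 6) (nat_lit 66) (nat_lit 0) (nat_lit 50) (nat_lit 49) (nat_lit 24)))))) (PT.nd (nat_lit 51042) (PT.nd (nat_lit 282) (PT.nd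 (nat_lit 94) (PT.lf (nat_lit 5040) (nat_lit 6) (nat_lit 60) (nat_lit 0) (nat_lit 51) (nat_lit 49) (nat_lit 23)) (PT.nd (nat_lit 94) (PT.lf (nat_lit 4620) (nat_lit 6) (nat_lit 55) (nat_lit 0) (nat_lit 52) (nat_lit 49) (nat_lit 22)) (PT.lf (nat_lit 4116) (nat_lit 6) (nat_lit 49) (nat_lit 0) (nat_lit 53) (nat_lit 49) (nat_lit 21)))) (PT.nd (nat_lit 50572) (PT.nd (nat_lit 94) (PT.lf (nat_lit 3696) (nat_lit 6) (nat_lit 44) (nat_lit 0) (nat_lit 54) (nat_lit 49) (nat_lit 20)) (PT.lf (nat_lit 3276) (nat_lit 6) (nat_lit 39) (nat_lit 0) (nat_lit 55) (nat_lit 49) (nat_lit 19))) (PT.nd (nat_lit 94) (PT.lf (nat_lit 2604) (nat_lit 6) (nat_lit 31) (nat_lit 5) (nat_lit 17) (nat_lit 50) (nat_lit 56)) (PT.lf (nat_lit 3024) (nat_lit 6) (nat_lit 36) (nat_lit 5) (nat_lit 18) (nat_lit 50) (nat_lit 55))))) (PT.nd (nat_lit 376) (PT.nd (nat_lit 188) (PT.nd (nat_lit 94) (PT.lf (nat_lit 3360) (nat_lit 6) (nat_lit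 40) (nat_lit 5) (nat_lit 19) (nat_lit 50) (nat_lit 54)) (PT.lf (nat_lit 3780) (nat_lit 6) (nat_lit 45) (nat_lit 5) (nat_lit 20) (nat_lit 50) (nat_lit 53))) (PT.nd (nat_lit 94) (PT.lf (nat_lit 4200) (nat_lit 6) (nat_lit 50) (nat_lit 5) (nat_lit 21) (nat_lit 50) (nat_lit 52)) (PT.lf (nat_lit 4704) (nat_lit 6) (nat_lit 56) (nat_lit 5) (nat_lit 22) (nat_lit 50) (nat_lit 51)))) (PT.nd (nat_lit 188) (PT.nd (nat_lit 94) (PT.lf (nat_lit 5124) (nat_lit 3) (nat_lit 61) (nat_lit 4) (nat_lit 23) (nat_lit 50) (nat_lit 50)) (PT.lf (nat_lit 5544) (nat_lit 6) (nat_lit 66) (nat_lit 4) (nat_lit 24) (nat_lit 50) (nat_lit 49))) (PT.nd (nat_lit 94) (PT.lf (nat_lit 5964) (nat_lit 6) (nat_lit 71) (nat_lit 4) (nat_lit 25) (nat_lit 50) (nat_lit 48)) (PT.lf (nat_lit 6468) (nat_lit 6) (nat_lit 77) (nat_lit 4) (nat_lit 26) (nat_lit 50) (nat_lit 47))))))) (PT.nd (nat_lit 1410) (PT.nd (nat_lit 658) (PT.nd (nat_lit 282)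 (PT.nd (nat_lit 94) (PT.lf (nat_lit 6972) (nat_lit 6) (nat_lit 83) (nat_lit 4) (nat_lit 27) (nat_lit 50) (nat_lit 46)) (PT.nd (nat_lit 94) (PT.lf (nat_lit 7560) (nat_lit 6) (nat_lit 90) (nat_lit 4) (nat_lit 28) (nat_lit 50) (nat_lit 45)) (PT.lf (nat_lit 8568) (nat_lit 6) (nat_lit 102) (nat_lit 4) (nat_lit 29) (nat_lit 50) (nat_lit 44)))) (PT.nd (nat_lit 188) (PT.nd (nat_lit 94) (PT.lf (nat_lit 9492) (nat_lit 6) (nat_lit 113) (nat_lit 4) (nat_lit 30) (nat_lit 50) (nat_lit 43)) (PT.lf (nat_lit 10332) (nat_lit 6) (nat_lit 123) (nat_lit 4) (nat_lit 31) (nat_lit 50) (nat_lit 42))) (PT.nd (nat_lit 94) (PT.lf (nat_lit 11088) (nat_lit 6) (nat_lit 132) (nat_lit 4) (nat_lit 32) (nat_lit 50) (nat_lit 41)) (PT.lf (nat_lit 11004) (nat_lit 6) (nat_lit 131) (nat_lit 4) (nat_lit 33) (nat_lit 50) (nat_lit 40))))) (PT.nd (nat_lit 376) (PT.nd (nat_lit 188) (PT.nd (nat_lit 94) (PT.lf (nat_lit 10920) (nat_lit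 6) (nat_lit 130) (nat_lit 4) (nat_lit 34) (nat_lit 50) (nat_lit 39)) (PT.lf (nat_lit 10836) (nat_lit 6) (nat_lit 129) (nat_lit 4) (nat_lit 35) (nat_lit 50) (nat_lit 38))) (PT.nd (nat_lit 94) (PT.lf (nat_lit 10752) (nat_lit 6) (nat_lit 128) (nat_lit 4) (nat_lit 36) (nat_lit 50) (nat_lit 37)) (PT.lf (nat_lit 10752) (nat_lit 6) (nat_lit 128) (nat_lit 2) (nat_lit 37) (nat_lit 50) (nat_lit 36)))) (PT.nd (nat_lit 188) (PT.nd (nat_lit 94) (PT.lf (nat_lit 10836) (nat_lit 6) (nat_lit 129) (nat_lit 2) (nat_lit 38) (nat_lit 50) (nat_lit 35)) (PT.lf (nat_lit 10920) (nat_lit 6) (nat_lit 130) (nat_lit 2) (nat_lit 39) (nat_lit 50) (nat_lit 34))) (PT.nd (nat_lit 94) (PT.lf (nat_lit 11004) (nat_lit 6) (nat_lit 131) (nat_lit 2) (nat_lit 40) (nat_lit 50) (nat_lit 33)) (PT.lf (nat_lit 11088) (nat_lit 6) (nat_lit 132) (nat_lit 2) (nat_lit 41) (nat_lit 50) (nat_lit 32)))))) (PT.nd (nat_lit 658) (PT.nd (nat_lit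 282) (PT.nd (nat_lit 94) (PT.lf (nat_lit 10332) (nat_lit 6) (nat_lit 123) (nat_lit 2) (nat_lit 42) (nat_lit 50) (nat_lit 31)) (PT.nd (nat_lit 94) (PT.lf (nat_lit 9492) (nat_lit 6) (nat_lit 113) (nat_lit 2) (nat_lit 43) (nat_lit 50) (nat_lit 30)) (PT.lf (nat_lit 8568) (nat_lit 6) (nat_lit 102) (nat_lit 2) (nat_lit 44) (nat_lit 50) (nat_lit 29)))) (PT.nd (nat_lit 188) (PT.nd (nat_lit 94) (PT.lf (nat_lit 7560) (nat_lit 6) (nat_lit 90) (nat_lit 2) (nat_lit 45) (nat_lit 50) (nat_lit 28)) (PT.lf (nat_lit 6972) (nat_lit 6) (nat_lit 83) (nat_lit 2) (nat_lit 46) (nat_lit 50) (nat_lit 27))) (PT.nd (nat_lit 94) (PT.lf (nat_lit 6468) (nat_lit 6) (nat_lit 77) (nat_lit 2) (nat_lit 47) (nat_lit 50) (nat_lit 26)) (PT.lf (nat_lit 5964) (nat_lit 6) (nat_lit 71) (nat_lit 2) (nat_lit 48) (nat_lit 50) (nat_lit 25))))) (PT.nd (nat_lit 376) (PT.nd (nat_lit 188) (PT.nd (nat_lit 94) (PT.lf (nat_lit 5544) (nat_lit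 6) (nat_lit 66) (nat_lit 2) (nat_lit 49) (nat_lit 50) (nat_lit 24)) (PT.lf (nat_lit 5124) (nat_lit 3) (nat_lit 61) (nat_lit 0) (nat_lit 50) (nat_lit 50) (nat_lit 23))) (PT.nd (nat_lit 94) (PT.lf (nat_lit 4704) (nat_lit 6) (nat_lit 56) (nat_lit 0) (nat_lit 51) (nat_lit 50) (nat_lit 22)) (PT.lf (nat_lit 4200) (nat_lit 6) (nat_lit 50) (nat_lit 0) (nat_lit 52) (nat_lit 50) (nat_lit 21)))) (PT.nd (nat_lit 188) (PT.nd (nat_lit 94) (PT.lf (nat_lit 3780) (nat_lit 6) (nat_lit 45) (nat_lit 0) (nat_lit 53) (nat_lit 50) (nat_lit 20)) (PT.lf (nat_lit 3360) (nat_lit 6) (nat_lit 40) (nat_lit 0) (nat_lit 54) (nat_lit 50) (nat_lit 19))) (PT.nd (nat_lit 94) (PT.lf (nat_lit 3024) (nat_lit 6) (nat_lit 36) (nat_lit 0) (nat_lit 55) (nat_lit 50) (nat_lit 18)) (PT.lf (nat_lit 2604) (nat_lit 6) (nat_lit 31) (nat_lit 0) (nat_lit 56) (nat_lit 50) (nat_lit 17))))))))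
noncomputable def pc12 : PT := (PT.nd (nat_lit 2726) (PT.nd (nat_lit 1316) (PT.nd (nat_lit 658) (PT.nd (nat_lit 282) (PT.nd (nat_lit 94) (PT.lf (nat_lit 2352) (nat_lit 6) (nat_lit 28) (nat_lit 5) (nat_lit 16) (nat_lit 51) (nat_lit 56)) (PT.nd (nat_lit 94) (PT.lf (nat_lit 2688) (nat_lit 6) (nat_lit 32) (nat_lit 5) (nat_lit 17) (nat_lit 51) (nat_lit 55)) (PT.lf (nat_lit 3108) (nat_lit 6) (nat_lit 37) (nat_lit 5) (nat_lit 18) (nat_lit 51) (nat_lit 54)))) (PT.nd (nat_lit 188) (PT.nd (nat_lit 94) (PT.lf (nat_lit 3444) (nat_lit 6) (nat_lit 41) (nat_lit 5) (nat_lit 19) (nat_lit 51) (nat_lit 53)) (PT.lf (nat_lit 3864) (nat_lit 6) (nat_lit 46) (nat_lit 5) (nat_lit 20) (nat_lit 51) (nat_lit 52))) (PT.nd (nat_lit 94) (PT.lf (nat_lit 4284) (nat_lit 3) (nat_lit 51) (nat_lit 4) (nat_lit 21) (nat_lit 51) (nat_lit 51)) (PT.lf (nat_lit 4704) (nat_lit 6) (nat_lit 56) (nat_lit 4) (nat_lit 22) (nat_lit 51)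 (nat_lit 50))))) (PT.nd (nat_lit 282) (PT.nd (nat_lit 94) (PT.lf (nat_lit 5040) (nat_lit 6) (nat_lit 60) (nat_lit 4) (nat_lit 23) (nat_lit 51) (nat_lit 49)) (PT.nd (nat_lit 94) (PT.lf (nat_lit 5460) (nat_lit 6) (nat_lit 65) (nat_lit 4) (nat_lit 24) (nat_lit 51) (nat_lit 48)) (PT.lf (nat_lit 5880) (nat_lit 6) (nat_lit 70) (nat_lit 4) (nat_lit 25) (nat_lit 51) (nat_lit 47)))) (PT.nd (nat_lit 188) (PT.nd (nat_lit 94) (PT.lf (nat_lit 6384) (nat_lit 6) (nat_lit 76) (nat_lit 4) (nat_lit 26) (nat_lit 51) (nat_lit 46)) (PT.lf (nat_lit 6888) (nat_lit 6) (nat_lit 82) (nat_lit 4) (nat_lit 27) (nat_lit 51) (nat_lit 45))) (PT.nd (nat_lit 94) (PT.lf (nat_lit 7476) (nat_lit 6) (nat_lit 89) (nat_lit 4) (nat_lit 28) (nat_lit 51) (nat_lit 44)) (PT.lf (nat_lit 8484) (nat_lit 6) (nat_lit 101) (nat_lit 4) (nat_lit 29) (nat_lit 51) (nat_lit 43)))))) (PT.nd (nat_lit 658) (PT.nd (nat_lit 282) (PT.nd (nat_lit 94)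 (PT.lf (nat_lit 9408) (nat_lit 6) (nat_lit 112) (nat_lit 4) (nat_lit 30) (nat_lit 51) (nat_lit 42)) (PT.nd (nat_lit 94) (PT.lf (nat_lit 10248) (nat_lit 6) (nat_lit 122) (nat_lit 4) (nat_lit 31) (nat_lit 51) (nat_lit 41)) (PT.lf (nat_lit 10164) (nat_lit 6) (nat_lit 121) (nat_lit 4) (nat_lit 32) (nat_lit 51) (nat_lit 40)))) (PT.nd (nat_lit 188) (PT.nd (nat_lit 94) (PT.lf (nat_lit 10080) (nat_lit 6) (nat_lit 120) (nat_lit 4) (nat_lit 33) (nat_lit 51) (nat_lit 39)) (PT.lf (nat_lit 9996) (nat_lit 6) (nat_lit 119) (nat_lit 4) (nat_lit 34) (nat_lit 51) (nat_lit 38))) (PT.nd (nat_lit 94) (PT.lf (nat_lit 9912) (nat_lit 6) (nat_lit 118) (nat_lit 4) (nat_lit 35) (nat_lit 51) (nat_lit 37)) (PT.lf (nat_lit 9828) (nat_lit 3) (nat_lit 117) (nat_lit 2) (nat_lit 36) (nat_lit 51) (nat_lit 36))))) (PT.nd (nat_lit 376) (PT.nd (nat_lit 188) (PT.nd (nat_lit 94) (PT.lf (nat_lit 9912) (nat_lit 6) (nat_lit 118)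 (nat_lit 2) (nat_lit 37) (nat_lit 51) (nat_lit 35)) (PT.lf (nat_lit 9996) (nat_lit 6) (nat_lit 119) (nat_lit 2) (nat_lit 38) (nat_lit 51) (nat_lit 34))) (PT.nd (nat_lit 94) (PT.lf (nat_lit 10080) (nat_lit 6) (nat_lit 120) (nat_lit 2) (nat_lit 39) (nat_lit 51) (nat_lit 33)) (PT.lf (nat_lit 10164) (nat_lit 6) (nat_lit 121) (nat_lit 2) (nat_lit 40) (nat_lit 51) (nat_lit 32)))) (PT.nd (nat_lit 188) (PT.nd (nat_lit 94) (PT.lf (nat_lit 10248) (nat_lit 6) (nat_lit 122) (nat_lit 2) (nat_lit 41) (nat_lit 51) (nat_lit 31)) (PT.lf (nat_lit 9408) (nat_lit 6) (nat_lit 112) (nat_lit 2) (nat_lit 42) (nat_lit 51) (nat_lit 30))) (PT.nd (nat_lit 94) (PT.lf (nat_lit 8484) (nat_lit 6) (nat_lit 101) (nat_lit 2) (nat_lit 43) (nat_lit 51) (nat_lit 29)) (PT.lf (nat_lit 7476) (nat_lit 6) (nat_lit 89) (nat_lit 2) (nat_lit 44) (nat_lit 51) (nat_lit 28))))))) (PT.nd (nat_lit 51418) (PT.nd (nat_lit 658) (PT.nd (nat_lit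 282) (PT.nd (nat_lit 94) (PT.lf (nat_lit 6888) (nat_lit 6) (nat_lit 82) (nat_lit 2) (nat_lit 45) (nat_lit 51) (nat_lit 27)) (PT.nd (nat_lit 94) (PT.lf (nat_lit 6384) (nat_lit 6) (nat_lit 76) (nat_lit 2) (nat_lit 46) (nat_lit 51) (nat_lit 26)) (PT.lf (nat_lit 5880) (nat_lit 6) (nat_lit 70) (nat_lit 2) (nat_lit 47) (nat_lit 51) (nat_lit 25)))) (PT.nd (nat_lit 188) (PT.nd (nat_lit 94) (PT.lf (nat_lit 5460) (nat_lit 6) (nat_lit 65) (nat_lit 2) (nat_lit 48) (nat_lit 51) (nat_lit 24)) (PT.lf (nat_lit 5040) (nat_lit 6) (nat_lit 60) (nat_lit 2) (nat_lit 49) (nat_lit 51) (nat_lit 23))) (PT.nd (nat_lit 94) (PT.lf (nat_lit 4704) (nat_lit 6) (nat_lit 56) (nat_lit 2) (nat_lit 50) (nat_lit 51) (nat_lit 22)) (PT.lf (nat_lit 4284) (nat_lit 3) (nat_lit 51) (nat_lit 0) (nat_lit 51) (nat_lit 51) (nat_lit 21))))) (PT.nd (nat_lit 376) (PT.nd (nat_lit 188) (PT.nd (nat_lit 94) (PT.lf (nat_lit 3864) (nat_lit 6)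 (nat_lit 46) (nat_lit 0) (nat_lit 52) (nat_lit 51) (nat_lit 20)) (PT.lf (nat_lit 3444) (nat_lit 6) (nat_lit 41) (nat_lit 0) (nat_lit 53) (nat_lit 51) (nat_lit 19))) (PT.nd (nat_lit 94) (PT.lf (nat_lit 3108) (nat_lit 6) (nat_lit 37) (nat_lit 0) (nat_lit 54) (nat_lit 51) (nat_lit 18)) (PT.lf (nat_lit 2688) (nat_lit 6) (nat_lit 32) (nat_lit 0) (nat_lit 55) (nat_lit 51) (nat_lit 17)))) (PT.nd (nat_lit 50196) (PT.nd (nat_lit 50102) (PT.lf (nat_lit 2352) (nat_lit 6) (nat_lit 28) (nat_lit 0) (nat_lit 56) (nat_lit 51) (nat_lit 16)) (PT.lf (nat_lit 1848) (nat_lit 6) (nat_lit 22) (nat_lit 5) (nat_lit 14) (nat_lit 52) (nat_lit 57))) (PT.nd (nat_lit 94) (PT.lf (nat_lit 2100) (nat_lit 6) (nat_lit 25) (nat_lit 5) (nat_lit 15) (nat_lit 52) (nat_lit 56)) (PT.lf (nat_lit 2436) (nat_lit 6) (nat_lit 29) (nat_lit 5) (nat_lit 16) (nat_lit 52) (nat_lit 55)))))) (PT.nd (nat_lit 658) (PT.nd (nat_lit 282) (PT.nd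 (nat_lit 94) (PT.lf (nat_lit 2772) (nat_lit 6) (nat_lit 33) (nat_lit 5) (nat_lit 17) (nat_lit 52) (nat_lit 54)) (PT.nd (nat_lit 94) (PT.lf (nat_lit 3192) (nat_lit 6) (nat_lit 38) (nat_lit 5) (nat_lit 18) (nat_lit 52) (nat_lit 53)) (PT.lf (nat_lit 3528) (nat_lit 3) (nat_lit 42) (nat_lit 4) (nat_lit 19) (nat_lit 52) (nat_lit 52)))) (PT.nd (nat_lit 188) (PT.nd (nat_lit 94) (PT.lf (nat_lit 3864) (nat_lit 6) (nat_lit 46) (nat_lit 4) (nat_lit 20) (nat_lit 52) (nat_lit 51)) (PT.lf (nat_lit 4200) (nat_lit 6) (nat_lit 50) (nat_lit 4) (nat_lit 21) (nat_lit 52) (nat_lit 50))) (PT.nd (nat_lit 94) (PT.lf (nat_lit 4620) (nat_lit 6) (nat_lit 55) (nat_lit 4) (nat_lit 22) (nat_lit 52) (nat_lit 49)) (PT.lf (nat_lit 4956) (nat_lit 6) (nat_lit 59) (nat_lit 4) (nat_lit 23) (nat_lit 52) (nat_lit 48))))) (PT.nd (nat_lit 376) (PT.nd (nat_lit 188) (PT.nd (nat_lit 94) (PT.lf (nat_lit 5376) (nat_lit 6) (nat_lit 64)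 (nat_lit 4) (nat_lit 24) (nat_lit 52) (nat_lit 47)) (PT.lf (nat_lit 5796) (nat_lit 6) (nat_lit 69) (nat_lit 4) (nat_lit 25) (nat_lit 52) (nat_lit 46))) (PT.nd (nat_lit 94) (PT.lf (nat_lit 6300) (nat_lit 6) (nat_lit 75) (nat_lit 4) (nat_lit 26) (nat_lit 52) (nat_lit 45)) (PT.lf (nat_lit 6804) (nat_lit 6) (nat_lit 81) (nat_lit 4) (nat_lit 27) (nat_lit 52) (nat_lit 44)))) (PT.nd (nat_lit 188) (PT.nd (nat_lit 94) (PT.lf (nat_lit 7392) (nat_lit 6) (nat_lit 88) (nat_lit 4) (nat_lit 28) (nat_lit 52) (nat_lit 43)) (PT.lf (nat_lit 8400) (nat_lit 6) (nat_lit 100) (nat_lit 4) (nat_lit 29) (nat_lit 52) (nat_lit 42))) (PT.nd (nat_lit 94) (PT.lf (nat_lit 9324) (nat_lit 6) (nat_lit 111) (nat_lit 4) (nat_lit 30) (nat_lit 52) (nat_lit 41)) (PT.lf (nat_lit 9240) (nat_lit 6) (nat_lit 110) (nat_lit 4) (nat_lit 31) (nat_lit 52) (nat_lit 40))))))))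
noncomputable def pc13 : PT := (PT.nd (nat_lit 52546) (PT.nd (nat_lit 1316) (PT.nd (nat_lit 658) (PT.nd (nat_lit 282) (PT.nd (nat_lit 94) (PT.lf (nat_lit 9156) (nat_lit 6) (nat_lit 109) (nat_lit 4) (nat_lit 32) (nat_lit 52) (nat_lit 39)) (PT.nd (nat_lit 94) (PT.lf (nat_lit 9072) (nat_lit 6) (nat_lit 108) (nat_lit 4) (nat_lit 33) (nat_lit 52) (nat_lit 38)) (PT.lf (nat_lit 8988) (nat_lit 6) (nat_lit 107) (nat_lit 4) (nat_lit 34) (nat_lit 52) (nat_lit 37)))) (PT.nd (nat_lit 188) (PT.nd (nat_lit 94) (PT.lf (nat_lit 8904) (nat_lit 6) (nat_lit 106) (nat_lit 4) (nat_lit 35) (nat_lit 52) (nat_lit 36)) (PT.lf (nat_lit 8904) (nat_lit 6) (nat_lit 106) (nat_lit 2) (nat_lit 36) (nat_lit 52) (nat_lit 35))) (PT.nd (nat_lit 94) (PT.lf (nat_lit 8988) (nat_lit 6) (nat_lit 107) (nat_lit 2) (nat_lit 37) (nat_lit 52) (nat_lit 34)) (PT.lf (nat_lit 9072) (nat_lit 6) (nat_lit 108) (nat_lit 2) (nat_lit 38) (nat_lit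 52) (nat_lit 33))))) (PT.nd (nat_lit 282) (PT.nd (nat_lit 94) (PT.lf (nat_lit 9156) (nat_lit 6) (nat_lit 109) (nat_lit 2) (nat_lit 39) (nat_lit 52) (nat_lit 32)) (PT.nd (nat_lit 94) (PT.lf (nat_lit 9240) (nat_lit 6) (nat_lit 110) (nat_lit 2) (nat_lit 40) (nat_lit 52) (nat_lit 31)) (PT.lf (nat_lit 9324) (nat_lit 6) (nat_lit 111) (nat_lit 2) (nat_lit 41) (nat_lit 52) (nat_lit 30)))) (PT.nd (nat_lit 188) (PT.nd (nat_lit 94) (PT.lf (nat_lit 8400) (nat_lit 6) (nat_lit 100) (nat_lit 2) (nat_lit 42) (nat_lit 52) (nat_lit 29)) (PT.lf (nat_lit 7392) (nat_lit 6) (nat_lit 88) (nat_lit 2) (nat_lit 43) (nat_lit 52) (nat_lit 28))) (PT.nd (nat_lit 94) (PT.lf (nat_lit 6804) (nat_lit 6) (nat_lit 81) (nat_lit 2) (nat_lit 44) (nat_lit 52) (nat_lit 27)) (PT.lf (nat_lit 6300) (nat_lit 6) (nat_lit 75) (nat_lit 2) (nat_lit 45) (nat_lit 52) (nat_lit 26)))))) (PT.nd (nat_lit 658) (PT.nd (nat_lit 282) (PT.nd (nat_lit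 94) (PT.lf (nat_lit 5796) (nat_lit 6) (nat_lit 69) (nat_lit 2) (nat_lit 46) (nat_lit 52) (nat_lit 25)) (PT.nd (nat_lit 94) (PT.lf (nat_lit 5376) (nat_lit 6) (nat_lit 64) (nat_lit 2) (nat_lit 47) (nat_lit 52) (nat_lit 24)) (PT.lf (nat_lit 4956) (nat_lit 6) (nat_lit 59) (nat_lit 2) (nat_lit 48) (nat_lit 52) (nat_lit 23)))) (PT.nd (nat_lit 188) (PT.nd (nat_lit 94) (PT.lf (nat_lit 4620) (nat_lit 6) (nat_lit 55) (nat_lit 2) (nat_lit 49) (nat_lit 52) (nat_lit 22)) (PT.lf (nat_lit 4200) (nat_lit 6) (nat_lit 50) (nat_lit 2) (nat_lit 50) (nat_lit 52) (nat_lit 21))) (PT.nd (nat_lit 94) (PT.lf (nat_lit 3864) (nat_lit 6) (nat_lit 46) (nat_lit 2) (nat_lit 51) (nat_lit 52) (nat_lit 20)) (PT.lf (nat_lit 3528) (nat_lit 3) (nat_lit 42) (nat_lit 0) (nat_lit 52) (nat_lit 52) (nat_lit 19))))) (PT.nd (nat_lit 376) (PT.nd (nat_lit 188) (PT.nd (nat_lit 94) (PT.lf (nat_lit 3192) (nat_lit 6) (nat_lit 38) (nat_lit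 0) (nat_lit 53) (nat_lit 52) (nat_lit 18)) (PT.lf (nat_lit 2772) (nat_lit 6) (nat_lit 33) (nat_lit 0) (nat_lit 54) (nat_lit 52) (nat_lit 17))) (PT.nd (nat_lit 94) (PT.lf (nat_lit 2436) (nat_lit 6) (nat_lit 29) (nat_lit 0) (nat_lit 55) (nat_lit 52) (nat_lit 16)) (PT.lf (nat_lit 2100) (nat_lit 6) (nat_lit 25) (nat_lit 0) (nat_lit 56) (nat_lit 52) (nat_lit 15)))) (PT.nd (nat_lit 50008) (PT.nd (nat_lit 49914) (PT.lf (nat_lit 1848) (nat_lit 6) (nat_lit 22) (nat_lit 0) (nat_lit 57) (nat_lit 52) (nat_lit 14)) (PT.lf (nat_lit 1596) (nat_lit 6) (nat_lit 19) (nat_lit 5) (nat_lit 13) (nat_lit 53) (nat_lit 57))) (PT.nd (nat_lit 94) (PT.lf (nat_lit 1932) (nat_lit 6) (nat_lit 23) (nat_lit 5) (nat_lit 14) (nat_lit 53) (nat_lit 56)) (PT.lf (nat_lit 2184) (nat_lit 6) (nat_lit 26) (nat_lit 5) (nat_lit 15) (nat_lit 53) (nat_lit 55))))))) (PT.nd (nat_lit 1410) (PT.nd (nat_lit 658) (PT.nd (nat_lit 282) (PT.nd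 (nat_lit 94) (PT.lf (nat_lit 2520) (nat_lit 6) (nat_lit 30) (nat_lit 5) (nat_lit 16) (nat_lit 53) (nat_lit 54)) (PT.nd (nat_lit 94) (PT.lf (nat_lit 2856) (nat_lit 3) (nat_lit 34) (nat_lit 4) (nat_lit 17) (nat_lit 53) (nat_lit 53)) (PT.lf (nat_lit 3192) (nat_lit 6) (nat_lit 38) (nat_lit 4) (nat_lit 18) (nat_lit 53) (nat_lit 52)))) (PT.nd (nat_lit 188) (PT.nd (nat_lit 94) (PT.lf (nat_lit 3444) (nat_lit 6) (nat_lit 41) (nat_lit 4) (nat_lit 19) (nat_lit 53) (nat_lit 51)) (PT.lf (nat_lit 3780) (nat_lit 6) (nat_lit 45) (nat_lit 4) (nat_lit 20) (nat_lit 53) (nat_lit 50))) (PT.nd (nat_lit 94) (PT.lf (nat_lit 4116) (nat_lit 6) (nat_lit 49) (nat_lit 4) (nat_lit 21) (nat_lit 53) (nat_lit 49)) (PT.lf (nat_lit 4536) (nat_lit 6) (nat_lit 54) (nat_lit 4) (nat_lit 22) (nat_lit 53) (nat_lit 48))))) (PT.nd (nat_lit 376) (PT.nd (nat_lit 188) (PT.nd (nat_lit 94) (PT.lf (nat_lit 4872) (nat_lit 6) (nat_lit 58)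 (nat_lit 4) (nat_lit 23) (nat_lit 53) (nat_lit 47)) (PT.lf (nat_lit 5292) (nat_lit 6) (nat_lit 63) (nat_lit 4) (nat_lit 24) (nat_lit 53) (nat_lit 46))) (PT.nd (nat_lit 94) (PT.lf (nat_lit 5712) (nat_lit 6) (nat_lit 68) (nat_lit 4) (nat_lit 25) (nat_lit 53) (nat_lit 45)) (PT.lf (nat_lit 6216) (nat_lit 6) (nat_lit 74) (nat_lit 4) (nat_lit 26) (nat_lit 53) (nat_lit 44)))) (PT.nd (nat_lit 188) (PT.nd (nat_lit 94) (PT.lf (nat_lit 6720) (nat_lit 6) (nat_lit 80) (nat_lit 4) (nat_lit 27) (nat_lit 53) (nat_lit 43)) (PT.lf (nat_lit 7308) (nat_lit 6) (nat_lit 87) (nat_lit 4) (nat_lit 28) (nat_lit 53) (nat_lit 42))) (PT.nd (nat_lit 94) (PT.lf (nat_lit 8316) (nat_lit 6) (nat_lit 99) (nat_lit 4) (nat_lit 29) (nat_lit 53) (nat_lit 41)) (PT.lf (nat_lit 8232) (nat_lit 6) (nat_lit 98) (nat_lit 4) (nat_lit 30) (nat_lit 53) (nat_lit 40)))))) (PT.nd (nat_lit 658) (PT.nd (nat_lit 282) (PT.nd (nat_lit 94) (PT.lf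 (nat_lit 8148) (nat_lit 6) (nat_lit 97) (nat_lit 4) (nat_lit 31) (nat_lit 53) (nat_lit 39)) (PT.nd (nat_lit 94) (PT.lf (nat_lit 8064) (nat_lit 6) (nat_lit 96) (nat_lit 4) (nat_lit 32) (nat_lit 53) (nat_lit 38)) (PT.lf (nat_lit 7980) (nat_lit 6) (nat_lit 95) (nat_lit 4) (nat_lit 33) (nat_lit 53) (nat_lit 37)))) (PT.nd (nat_lit 188) (PT.nd (nat_lit 94) (PT.lf (nat_lit 7896) (nat_lit 6) (nat_lit 94) (nat_lit 4) (nat_lit 34) (nat_lit 53) (nat_lit 36)) (PT.lf (nat_lit 7812) (nat_lit 3) (nat_lit 93) (nat_lit 2) (nat_lit 35) (nat_lit 53) (nat_lit 35))) (PT.nd (nat_lit 94) (PT.lf (nat_lit 7896) (nat_lit 6) (nat_lit 94) (nat_lit 2) (nat_lit 36) (nat_lit 53) (nat_lit 34)) (PT.lf (nat_lit 7980) (nat_lit 6) (nat_lit 95) (nat_lit 2) (nat_lit 37) (nat_lit 53) (nat_lit 33))))) (PT.nd (nat_lit 376) (PT.nd (nat_lit 188) (PT.nd (nat_lit 94) (PT.lf (nat_lit 8064) (nat_lit 6) (nat_lit 96) (nat_lit 2) (nat_lit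 38) (nat_lit 53) (nat_lit 32)) (PT.lf (nat_lit 8148) (nat_lit 6) (nat_lit 97) (nat_lit 2) (nat_lit 39) (nat_lit 53) (nat_lit 31))) (PT.nd (nat_lit 94) (PT.lf (nat_lit 8232) (nat_lit 6) (nat_lit 98) (nat_lit 2) (nat_lit 40) (nat_lit 53) (nat_lit 30)) (PT.lf (nat_lit 8316) (nat_lit 6) (nat_lit 99) (nat_lit 2) (nat_lit 41) (nat_lit 53) (nat_lit 29)))) (PT.nd (nat_lit 188) (PT.nd (nat_lit 94) (PT.lf (nat_lit 7308) (nat_lit 6) (nat_lit 87) (nat_lit 2) (nat_lit 42) (nat_lit 53) (nat_lit 28)) (PT.lf (nat_lit 6720) (nat_lit 6) (nat_lit 80) (nat_lit 2) (nat_lit 43) (nat_lit 53) (nat_lit 27))) (PT.nd (nat_lit 94) (PT.lf (nat_lit 6216) (nat_lit 6) (nat_lit 74) (nat_lit 2) (nat_lit 44) (nat_lit 53) (nat_lit 26)) (PT.lf (nat_lit 5712) (nat_lit 6) (nat_lit 68) (nat_lit 2) (nat_lit 45) (nat_lit 53) (nat_lit 25))))))))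
noncomputable def pc14 : PT := (PT.nd (nat_lit 53580) (PT.nd (nat_lit 51042) (PT.nd (nat_lit 658) (PT.nd (nat_lit 282) (PT.nd (nat_lit 94) (PT.lf (nat_lit 5292) (nat_lit 6) (nat_lit 63) (nat_lit 2) (nat_lit 46) (nat_lit 53) (nat_lit 24)) (PT.nd (nat_lit 94) (PT.lf (nat_lit 4872) (nat_lit 6) (nat_lit 58) (nat_lit 2) (nat_lit 47) (nat_lit 53) (nat_lit 23)) (PT.lf (nat_lit 4536) (nat_lit 6) (nat_lit 54) (nat_lit 2) (nat_lit 48) (nat_lit 53) (nat_lit 22)))) (PT.nd (nat_lit 188) (PT.nd (nat_lit 94) (PT.lf (nat_lit 4116) (nat_lit 6) (nat_lit 49) (nat_lit 2) (nat_lit 49) (nat_lit 53) (nat_lit 21)) (PT.lf (nat_lit 3780) (nat_lit 6) (nat_lit 45) (nat_lit 2) (nat_lit 50) (nat_lit 53) (nat_lit 20))) (PT.nd (nat_lit 94) (PT.lf (nat_lit 3444) (nat_lit 6) (nat_lit 41) (nat_lit 2) (nat_lit 51) (nat_lit 53) (nat_lit 19)) (PT.lf (nat_lit 3192) (nat_lit 6) (nat_lit 38) (nat_lit 2) (nat_lit 52) (nat_lit 53)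 (nat_lit 18))))) (PT.nd (nat_lit 282) (PT.nd (nat_lit 94) (PT.lf (nat_lit 2856) (nat_lit 3) (nat_lit 34) (nat_lit 0) (nat_lit 53) (nat_lit 53) (nat_lit 17)) (PT.nd (nat_lit 94) (PT.lf (nat_lit 2520) (nat_lit 6) (nat_lit 30) (nat_lit 0) (nat_lit 54) (nat_lit 53) (nat_lit 16)) (PT.lf (nat_lit 2184) (nat_lit 6) (nat_lit 26) (nat_lit 0) (nat_lit 55) (nat_lit 53) (nat_lit 15)))) (PT.nd (nat_lit 49914) (PT.nd (nat_lit 94) (PT.lf (nat_lit 1932) (nat_lit 6) (nat_lit 23) (nat_lit 0) (nat_lit 56) (nat_lit 53) (nat_lit 14)) (PT.lf (nat_lit 1596) (nat_lit 6) (nat_lit 19) (nat_lit 0) (nat_lit 57) (nat_lit 53) (nat_lit 13))) (PT.nd (nat_lit 94) (PT.lf (nat_lit 1428) (nat_lit 6) (nat_lit 17) (nat_lit 5) (nat_lit 12) (nat_lit 54) (nat_lit 57)) (PT.lf (nat_lit 1680) (nat_lit 6) (nat_lit 20) (nat_lit 5) (nat_lit 13) (nat_lit 54) (nat_lit 56)))))) (PT.nd (nat_lit 658) (PT.nd (nat_lit 282) (PT.nd (nat_lit 94)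 (PT.lf (nat_lit 2016) (nat_lit 6) (nat_lit 24) (nat_lit 5) (nat_lit 14) (nat_lit 54) (nat_lit 55)) (PT.nd (nat_lit 94) (PT.lf (nat_lit 2268) (nat_lit 3) (nat_lit 27) (nat_lit 4) (nat_lit 15) (nat_lit 54) (nat_lit 54)) (PT.lf (nat_lit 2520) (nat_lit 6) (nat_lit 30) (nat_lit 4) (nat_lit 16) (nat_lit 54) (nat_lit 53)))) (PT.nd (nat_lit 188) (PT.nd (nat_lit 94) (PT.lf (nat_lit 2772) (nat_lit 6) (nat_lit 33) (nat_lit 4) (nat_lit 17) (nat_lit 54) (nat_lit 52)) (PT.lf (nat_lit 3108) (nat_lit 6) (nat_lit 37) (nat_lit 4) (nat_lit 18) (nat_lit 54) (nat_lit 51))) (PT.nd (nat_lit 94) (PT.lf (nat_lit 3360) (nat_lit 6) (nat_lit 40) (nat_lit 4) (nat_lit 19) (nat_lit 54) (nat_lit 50)) (PT.lf (nat_lit 3696) (nat_lit 6) (nat_lit 44) (nat_lit 4) (nat_lit 20) (nat_lit 54) (nat_lit 49))))) (PT.nd (nat_lit 376) (PT.nd (nat_lit 188) (PT.nd (nat_lit 94) (PT.lf (nat_lit 4032) (nat_lit 6) (nat_lit 48) (nat_lit 4)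 (nat_lit 21) (nat_lit 54) (nat_lit 48)) (PT.lf (nat_lit 4452) (nat_lit 6) (nat_lit 53) (nat_lit 4) (nat_lit 22) (nat_lit 54) (nat_lit 47))) (PT.nd (nat_lit 94) (PT.lf (nat_lit 4788) (nat_lit 6) (nat_lit 57) (nat_lit 4) (nat_lit 23) (nat_lit 54) (nat_lit 46)) (PT.lf (nat_lit 5208) (nat_lit 6) (nat_lit 62) (nat_lit 4) (nat_lit 24) (nat_lit 54) (nat_lit 45)))) (PT.nd (nat_lit 188) (PT.nd (nat_lit 94) (PT.lf (nat_lit 5628) (nat_lit 6) (nat_lit 67) (nat_lit 4) (nat_lit 25) (nat_lit 54) (nat_lit 44)) (PT.lf (nat_lit 6132) (nat_lit 6) (nat_lit 73) (nat_lit 4) (nat_lit 26) (nat_lit 54) (nat_lit 43))) (PT.nd (nat_lit 94) (PT.lf (nat_lit 6636) (nat_lit 6) (nat_lit 79) (nat_lit 4) (nat_lit 27) (nat_lit 54) (nat_lit 42)) (PT.lf (nat_lit 7224) (nat_lit 6) (nat_lit 86) (nat_lit 4) (nat_lit 28) (nat_lit 54) (nat_lit 41))))))) (PT.nd (nat_lit 1410) (PT.nd (nat_lit 658) (PT.nd (nat_lit 282) (PT.nd (nat_lit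 94) (PT.lf (nat_lit 7224) (nat_lit 6) (nat_lit 86) (nat_lit 2) (nat_lit 41) (nat_lit 54) (nat_lit 28)) (PT.nd (nat_lit 94) (PT.lf (nat_lit 6636) (nat_lit 6) (nat_lit 79) (nat_lit 2) (nat_lit 42) (nat_lit 54) (nat_lit 27)) (PT.lf (nat_lit 6132) (nat_lit 6) (nat_lit 73) (nat_lit 2) (nat_lit 43) (nat_lit 54) (nat_lit 26)))) (PT.nd (nat_lit 188) (PT.nd (nat_lit 94) (PT.lf (nat_lit 5628) (nat_lit 6) (nat_lit 67) (nat_lit 2) (nat_lit 44) (nat_lit 54) (nat_lit 25)) (PT.lf (nat_lit 5208) (nat_lit 6) (nat_lit 62) (nat_lit 2) (nat_lit 45) (nat_lit 54) (nat_lit 24))) (PT.nd (nat_lit 94) (PT.lf (nat_lit 4788) (nat_lit 6) (nat_lit 57) (nat_lit 2) (nat_lit 46) (nat_lit 54) (nat_lit 23)) (PT.lf (nat_lit 4452) (nat_lit 6) (nat_lit 53) (nat_lit 2) (nat_lit 47) (nat_lit 54) (nat_lit 22))))) (PT.nd (nat_lit 376) (PT.nd (nat_lit 188) (PT.nd (nat_lit 94) (PT.lf (nat_lit 4032) (nat_lit 6) (nat_lit 48) (nat_lit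 2) (nat_lit 48) (nat_lit 54) (nat_lit 21)) (PT.lf (nat_lit 3696) (nat_lit 6) (nat_lit 44) (nat_lit 2) (nat_lit 49) (nat_lit 54) (nat_lit 20))) (PT.nd (nat_lit 94) (PT.lf (nat_lit 3360) (nat_lit 6) (nat_lit 40) (nat_lit 2) (nat_lit 50) (nat_lit 54) (nat_lit 19)) (PT.lf (nat_lit 3108) (nat_lit 6) (nat_lit 37) (nat_lit 2) (nat_lit 51) (nat_lit 54) (nat_lit 18)))) (PT.nd (nat_lit 188) (PT.nd (nat_lit 94) (PT.lf (nat_lit 2772) (nat_lit 6) (nat_lit 33) (nat_lit 2) (nat_lit 52) (nat_lit 54) (nat_lit 17)) (PT.lf (nat_lit 2520) (nat_lit 6) (nat_lit 30) (nat_lit 2) (nat_lit 53) (nat_lit 54) (nat_lit 16))) (PT.nd (nat_lit 94) (PT.lf (nat_lit 2268) (nat_lit 3) (nat_lit 27) (nat_lit 0) (nat_lit 54) (nat_lit 54) (nat_lit 15)) (PT.lf (nat_lit 2016) (nat_lit 6) (nat_lit 24) (nat_lit 0) (nat_lit 55) (nat_lit 54) (nat_lit 14)))))) (PT.nd (nat_lit 50196) (PT.nd (nat_lit 49820) (PT.nd (nat_lit 94) (PT.lf (nat_lit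 1680) (nat_lit 6) (nat_lit 20) (nat_lit 0) (nat_lit 56) (nat_lit 54) (nat_lit 13)) (PT.nd (nat_lit 49632) (PT.lf (nat_lit 1428) (nat_lit 6) (nat_lit 17) (nat_lit 0) (nat_lit 57) (nat_lit 54) (nat_lit 12)) (PT.lf (nat_lit 1008) (nat_lit 6) (nat_lit 12) (nat_lit 5) (nat_lit 10) (nat_lit 55) (nat_lit 58)))) (PT.nd (nat_lit 188) (PT.nd (nat_lit 94) (PT.lf (nat_lit 1260) (nat_lit 6) (nat_lit 15) (nat_lit 5) (nat_lit 11) (nat_lit 55) (nat_lit 57)) (PT.lf (nat_lit 1512) (nat_lit 6) (nat_lit 18) (nat_lit 5) (nat_lit 12) (nat_lit 55) (nat_lit 56))) (PT.nd (nat_lit 94) (PT.lf (nat_lit 1764) (nat_lit 3) (nat_lit 21) (nat_lit 4) (nat_lit 13) (nat_lit 55) (nat_lit 55)) (PT.lf (nat_lit 2016) (nat_lit 6) (nat_lit 24) (nat_lit 4) (nat_lit 14) (nat_lit 55) (nat_lit 54))))) (PT.nd (nat_lit 376) (PT.nd (nat_lit 188) (PT.nd (nat_lit 94) (PT.lf (nat_lit 2184) (nat_lit 6) (nat_lit 26) (nat_lit 4) (nat_lit 15)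 (nat_lit 55) (nat_lit 53)) (PT.lf (nat_lit 2436) (nat_lit 6) (nat_lit 29) (nat_lit 4) (nat_lit 16) (nat_lit 55) (nat_lit 52))) (PT.nd (nat_lit 94) (PT.lf (nat_lit 2688) (nat_lit 6) (nat_lit 32) (nat_lit 4) (nat_lit 17) (nat_lit 55) (nat_lit 51)) (PT.lf (nat_lit 3024) (nat_lit 6) (nat_lit 36) (nat_lit 4) (nat_lit 18) (nat_lit 55) (nat_lit 50)))) (PT.nd (nat_lit 188) (PT.nd (nat_lit 94) (PT.lf (nat_lit 3276) (nat_lit 6) (nat_lit 39) (nat_lit 4) (nat_lit 19) (nat_lit 55) (nat_lit 49)) (PT.lf (nat_lit 3612) (nat_lit 6) (nat_lit 43) (nat_lit 4) (nat_lit 20) (nat_lit 55) (nat_lit 48))) (PT.nd (nat_lit 94) (PT.lf (nat_lit 3948) (nat_lit 6) (nat_lit 47) (nat_lit 4) (nat_lit 21) (nat_lit 55) (nat_lit 47)) (PT.lf (nat_lit 4368) (nat_lit 6) (nat_lit 52) (nat_lit 4) (nat_lit 22) (nat_lit 55) (nat_lit 46))))))))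
noncomputable def pc15 : PT := (PT.nd (nat_lit 55084) (PT.nd (nat_lit 50666) (PT.nd (nat_lit 658) (PT.nd (nat_lit 282) (PT.nd (nat_lit 94) (PT.lf (nat_lit 4368) (nat_lit 6) (nat_lit 52) (nat_lit 2) (nat_lit 46) (nat_lit 55) (nat_lit 22)) (PT.nd (nat_lit 94) (PT.lf (nat_lit 3948) (nat_lit 6) (nat_lit 47) (nat_lit 2) (nat_lit 47) (nat_lit 55) (nat_lit 21)) (PT.lf (nat_lit 3612) (nat_lit 6) (nat_lit 43) (nat_lit 2) (nat_lit 48) (nat_lit 55) (nat_lit 20)))) (PT.nd (nat_lit 188) (PT.nd (nat_lit 94) (PT.lf (nat_lit 3276) (nat_lit 6) (nat_lit 39) (nat_lit 2) (nat_lit 49) (nat_lit 55) (nat_lit 19)) (PT.lf (nat_lit 3024) (nat_lit 6) (nat_lit 36) (nat_lit 2) (nat_lit 50) (nat_lit 55) (nat_lit 18))) (PT.nd (nat_lit 94) (PT.lf (nat_lit 2688) (nat_lit 6) (nat_lit 32) (nat_lit 2) (nat_lit 51) (nat_lit 55) (nat_lit 17)) (PT.lf (nat_lit 2436) (nat_lit 6) (nat_lit 29) (nat_lit 2) (nat_lit 52) (nat_lit 55)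 (nat_lit 16))))) (PT.nd (nat_lit 282) (PT.nd (nat_lit 94) (PT.lf (nat_lit 2184) (nat_lit 6) (nat_lit 26) (nat_lit 2) (nat_lit 53) (nat_lit 55) (nat_lit 15)) (PT.nd (nat_lit 94) (PT.lf (nat_lit 2016) (nat_lit 6) (nat_lit 24) (nat_lit 2) (nat_lit 54) (nat_lit 55) (nat_lit 14)) (PT.lf (nat_lit 1764) (nat_lit 3) (nat_lit 21) (nat_lit 0) (nat_lit 55) (nat_lit 55) (nat_lit 13)))) (PT.nd (nat_lit 188) (PT.nd (nat_lit 94) (PT.lf (nat_lit 1512) (nat_lit 6) (nat_lit 18) (nat_lit 0) (nat_lit 56) (nat_lit 55) (nat_lit 12)) (PT.lf (nat_lit 1260) (nat_lit 6) (nat_lit 15) (nat_lit 0) (nat_lit 57) (nat_lit 55) (nat_lit 11))) (PT.nd (nat_lit 49444) (PT.lf (nat_lit 1008) (nat_lit 6) (nat_lit 12) (nat_lit 0) (nat_lit 58) (nat_lit 55) (nat_lit 10)) (PT.lf (nat_lit 840) (nat_lit 6) (nat_lit 10) (nat_lit 5) (nat_lit 9) (nat_lit 56) (nat_lit 58)))))) (PT.nd (nat_lit 658) (PT.nd (nat_lit 282) (PT.nd (nat_lit 94)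 (PT.lf (nat_lit 1092) (nat_lit 6) (nat_lit 13) (nat_lit 5) (nat_lit 10) (nat_lit 56) (nat_lit 57)) (PT.nd (nat_lit 94) (PT.lf (nat_lit 1344) (nat_lit 3) (nat_lit 16) (nat_lit 4) (nat_lit 11) (nat_lit 56) (nat_lit 56)) (PT.lf (nat_lit 1512) (nat_lit 6) (nat_lit 18) (nat_lit 4) (nat_lit 12) (nat_lit 56) (nat_lit 55)))) (PT.nd (nat_lit 188) (PT.nd (nat_lit 94) (PT.lf (nat_lit 1680) (nat_lit 6) (nat_lit 20) (nat_lit 4) (nat_lit 13) (nat_lit 56) (nat_lit 54)) (PT.lf (nat_lit 1932) (nat_lit 6) (nat_lit 23) (nat_lit 4) (nat_lit 14) (nat_lit 56) (nat_lit 53))) (PT.nd (nat_lit 94) (PT.lf (nat_lit 2100) (nat_lit 6) (nat_lit 25) (nat_lit 4) (nat_lit 15) (nat_lit 56) (nat_lit 52)) (PT.lf (nat_lit 2352) (nat_lit 6) (nat_lit 28) (nat_lit 4) (nat_lit 16) (nat_lit 56) (nat_lit 51))))) (PT.nd (nat_lit 3384) (PT.nd (nat_lit 3196) (PT.nd (nat_lit 3102) (PT.lf (nat_lit 2604) (nat_lit 6) (nat_lit 31) (nat_lit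 4) (nat_lit 17) (nat_lit 56) (nat_lit 50)) (PT.lf (nat_lit 2604) (nat_lit 6) (nat_lit 31) (nat_lit 2) (nat_lit 50) (nat_lit 56) (nat_lit 17))) (PT.nd (nat_lit 94) (PT.lf (nat_lit 2352) (nat_lit 6) (nat_lit 28) (nat_lit 2) (nat_lit 51) (nat_lit 56) (nat_lit 16)) (PT.lf (nat_lit 2100) (nat_lit 6) (nat_lit 25) (nat_lit 2) (nat_lit 52) (nat_lit 56) (nat_lit 15)))) (PT.nd (nat_lit 188) (PT.nd (nat_lit 94) (PT.lf (nat_lit 1932) (nat_lit 6) (nat_lit 23) (nat_lit 2) (nat_lit 53) (nat_lit 56) (nat_lit 14)) (PT.lf (nat_lit 1680) (nat_lit 6) (nat_lit 20) (nat_lit 2) (nat_lit 54) (nat_lit 56) (nat_lit 13))) (PT.nd (nat_lit 94) (PT.lf (nat_lit 1512) (nat_lit 6) (nat_lit 18) (nat_lit 2) (nat_lit 55) (nat_lit 56) (nat_lit 12)) (PT.lf (nat_lit 1344) (nat_lit 3) (nat_lit 16) (nat_lit 0) (nat_lit 56) (nat_lit 56) (nat_lit 11))))))) (PT.nd (nat_lit 54144) (PT.nd (nat_lit 49914) (PT.nd (nat_lit 49538) (PT.nd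 (nat_lit 94) (PT.lf (nat_lit 1092) (nat_lit 6) (nat_lit 13) (nat_lit 0) (nat_lit 57) (nat_lit 56) (nat_lit 10)) (PT.nd (nat_lit 49350) (PT.lf (nat_lit 840) (nat_lit 6) (nat_lit 10) (nat_lit 0) (nat_lit 58) (nat_lit 56) (nat_lit 9)) (PT.lf (nat_lit 756) (nat_lit 6) (nat_lit 9) (nat_lit 5) (nat_lit 8) (nat_lit 57) (nat_lit 58)))) (PT.nd (nat_lit 188) (PT.nd (nat_lit 94) (PT.lf (nat_lit 924) (nat_lit 3) (nat_lit 11) (nat_lit 4) (nat_lit 9) (nat_lit 57) (nat_lit 57)) (PT.lf (nat_lit 1092) (nat_lit 6) (nat_lit 13) (nat_lit 4) (nat_lit 10) (nat_lit 57) (nat_lit 56))) (PT.nd (nat_lit 94) (PT.lf (nat_lit 1260) (nat_lit 6) (nat_lit 15) (nat_lit 4) (nat_lit 11) (nat_lit 57) (nat_lit 55)) (PT.lf (nat_lit 1428) (nat_lit 6) (nat_lit 17) (nat_lit 4) (nat_lit 12) (nat_lit 57) (nat_lit 54))))) (PT.nd (nat_lit 3854) (PT.nd (nat_lit 3666) (PT.nd (nat_lit 94) (PT.lf (nat_lit 1596) (nat_lit 6) (nat_lit 19)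 (nat_lit 4) (nat_lit 13) (nat_lit 57) (nat_lit 53)) (PT.lf (nat_lit 1848) (nat_lit 6) (nat_lit 22) (nat_lit 4) (nat_lit 14) (nat_lit 57) (nat_lit 52))) (PT.nd (nat_lit 94) (PT.lf (nat_lit 1848) (nat_lit 6) (nat_lit 22) (nat_lit 2) (nat_lit 52) (nat_lit 57) (nat_lit 14)) (PT.lf (nat_lit 1596) (nat_lit 6) (nat_lit 19) (nat_lit 2) (nat_lit 53) (nat_lit 57) (nat_lit 13)))) (PT.nd (nat_lit 188) (PT.nd (nat_lit 94) (PT.lf (nat_lit 1428) (nat_lit 6) (nat_lit 17) (nat_lit 2) (nat_lit 54) (nat_lit 57) (nat_lit 12)) (PT.lf (nat_lit 1260) (nat_lit 6) (nat_lit 15) (nat_lit 2) (nat_lit 55) (nat_lit 57) (nat_lit 11))) (PT.nd (nat_lit 94) (PT.lf (nat_lit 1092) (nat_lit 6) (nat_lit 13) (nat_lit 2) (nat_lit 56) (nat_lit 57) (nat_lit 10)) (PT.lf (nat_lit 924) (nat_lit 3) (nat_lit 11) (nat_lit 0) (nat_lit 57) (nat_lit 57) (nat_lit 9)))))) (PT.nd (nat_lit 53956) (PT.nd (nat_lit 49444) (PT.nd (nat_lit 49256)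 (PT.lf (nat_lit 756) (nat_lit 6) (nat_lit 9) (nat_lit 0) (nat_lit 58) (nat_lit 57) (nat_lit 8)) (PT.nd (nat_lit 94) (PT.lf (nat_lit 588) (nat_lit 3) (nat_lit 7) (nat_lit 4) (nat_lit 7) (nat_lit 58) (nat_lit 58)) (PT.lf (nat_lit 756) (nat_lit 6) (nat_lit 9) (nat_lit 4) (nat_lit 8) (nat_lit 58) (nat_lit 57)))) (PT.nd (nat_lit 4324) (PT.nd (nat_lit 94) (PT.lf (nat_lit 840) (nat_lit 6) (nat_lit 10) (nat_lit 4) (nat_lit 9) (nat_lit 58) (nat_lit 56)) (PT.lf (nat_lit 1008) (nat_lit 6) (nat_lit 12) (nat_lit 4) (nat_lit 10) (nat_lit 58) (nat_lit 55))) (PT.nd (nat_lit 94) (PT.lf (nat_lit 1008) (nat_lit 6) (nat_lit 12) (nat_lit 2) (nat_lit 55) (nat_lit 58) (nat_lit 10)) (PT.lf (nat_lit 840) (nat_lit 6) (nat_lit 10) (nat_lit 2) (nat_lit 56) (nat_lit 58) (nat_lit 9))))) (PT.nd (nat_lit 103024) (PT.nd (nat_lit 49068) (PT.nd (nat_lit 94) (PT.lf (nat_lit 756) (nat_lit 6) (nat_lit 9) (nat_lit 2) (nat_lit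 57) (nat_lit 58) (nat_lit 8)) (PT.lf (nat_lit 588) (nat_lit 3) (nat_lit 7) (nat_lit 0) (nat_lit 58) (nat_lit 58) (nat_lit 7))) (PT.nd (nat_lit 5264) (PT.lf (nat_lit 168) (nat_lit 6) (nat_lit 2) (nat_lit 5) (nat_lit 4) (nat_lit 59) (nat_lit 60)) (PT.lf (nat_lit 168) (nat_lit 6) (nat_lit 2) (nat_lit 0) (nat_lit 60) (nat_lit 59) (nat_lit 4)))) (PT.nd (nat_lit 5264) (PT.nd (nat_lit 94) (PT.lf (nat_lit 84) (nat_lit 3) (nat_lit 1) (nat_lit 4) (nat_lit 3) (nat_lit 60) (nat_lit 60)) (PT.lf (nat_lit 168) (nat_lit 6) (nat_lit 2) (nat_lit 4) (nat_lit 4) (nat_lit 60) (nat_lit 59))) (PT.nd (nat_lit 94) (PT.lf (nat_lit 168) (nat_lit 6) (nat_lit 2) (nat_lit 2) (nat_lit 59) (nat_lit 60) (nat_lit 4)) (PT.lf (nat_lit 84) (nat_lit 3) (nat_lit 1) (nat_lit 0) (nat_lit 60) (nat_lit 60) (nat_lit 3))))))))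
noncomputable def xc0 : XT := (XT.nd (nat_lit 161868) (nat_lit 0) (nat_lit 0) (XT.nd (nat_lit 107818) (nat_lit 0) (nat_lit 0) (XT.nd (nat_lit 53956) (nat_lit 0) (nat_lit 0) (XT.nd (nat_lit 188) (nat_lit 0) (nat_lit 0) (XT.nd (nat_lit 94) (nat_lit 168) (nat_lit 0) (XT.lf (nat_lit 0) (nat_lit 4762913644) (nat_lit 168) (nat_lit 1081710897) (nat_lit 0) (nat_lit 4762913644) (nat_lit 9) (nat_lit 5) (nat_lit 11) (nat_lit 4) (nat_lit 9) (nat_lit 4) (nat_lit 367) (nat_lit 247) (nat_lit 247)) (XT.lf (nat_lit 0) (nat_lit 1947184540) (nat_lit 168) (nat_lit 10130294887) (nat_lit 168) (nat_lit 9702929841) (nat_lit 7) (nat_lit 4) (nat_lit 9) (nat_lit 5) (nat_lit 9) (nat_lit 4) (nat_lit 368) (nat_lit 247) (nat_lit 246))) (XT.nd (nat_lit 53674) (nat_lit 0) (nat_lit 168) (XT.lf (nat_lit 0) (nat_lit 6146849751) (nat_lit 168) (nat_lit 8529726643) (nat_lit 168) (nat_lit 7687846518) (nat_lit 7) (nat_lit 4) (nat_lit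 9) (nat_lit 5) (nat_lit 9) (nat_lit 4) (nat_lit 369) (nat_lit 247) (nat_lit 245)) (XT.lf (nat_lit 0) (nat_lit 2497798783) (nat_lit 168) (nat_lit 5073544078) (nat_lit 0) (nat_lit 2497798783) (nat_lit 9) (nat_lit 5) (nat_lit 11) (nat_lit 4) (nat_lit 9) (nat_lit 4) (nat_lit 365) (nat_lit 248) (nat_lit 248)))) (XT.nd (nat_lit 188) (nat_lit 168) (nat_lit 0) (XT.nd (nat_lit 94) (nat_lit 0) (nat_lit 0) (XT.lf (nat_lit 0) (nat_lit 7456844364) (nat_lit 168) (nat_lit 6194915238) (nat_lit 0) (nat_lit 7016231001) (nat_lit 9) (nat_lit 5) (nat_lit 11) (nat_lit 4) (nat_lit 9) (nat_lit 4) (nat_lit 366) (nat_lit 248) (nat_lit 247)) (XT.lf (nat_lit 0) (nat_lit 9939331865) (nat_lit 168) (nat_lit 2205319792) (nat_lit 0) (nat_lit 9071353456) (nat_lit 9) (nat_lit 5) (nat_lit 11) (nat_lit 4) (nat_lit 9) (nat_lit 4) (nat_lit 367) (nat_lit 248) (nat_lit 246))) (XT.nd (nat_lit 94) (nat_lit 0) (nat_lit 0) (XT.lf (nat_lit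 0) (nat_lit 1862951214) (nat_lit 168) (nat_lit 10600903501) (nat_lit 168) (nat_lit 9318410013) (nat_lit 7) (nat_lit 4) (nat_lit 9) (nat_lit 5) (nat_lit 9) (nat_lit 4) (nat_lit 368) (nat_lit 248) (nat_lit 245)) (XT.nd (nat_lit 53486) (nat_lit 0) (nat_lit 168) (XT.lf (nat_lit 0) (nat_lit 6022389637) (nat_lit 168) (nat_lit 9014659904) (nat_lit 168) (nat_lit 7330114933) (nat_lit 7) (nat_lit 4) (nat_lit 9) (nat_lit 5) (nat_lit 9) (nat_lit 4) (nat_lit 369) (nat_lit 248) (nat_lit 244)) (XT.lf (nat_lit 0) (nat_lit 305377575) (nat_lit 168) (nat_lit 8954667193) (nat_lit 0) (nat_lit 305377575) (nat_lit 9) (nat_lit 5) (nat_lit 11) (nat_lit 4) (nat_lit 9) (nat_lit 4) (nat_lit 363) (nat_lit 249) (nat_lit 249)))))) (XT.nd (nat_lit 376) (nat_lit 168) (nat_lit 0) (XT.nd (nat_lit 188) (nat_lit 0) (nat_lit 0) (XT.nd (nat_lit 94) (nat_lit 0) (nat_lit 0) (XT.lf (nat_lit 0) (nat_lit 3007569713) (nat_lit 168)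 (nat_lit 14065522388) (nat_lit 0) (nat_lit 2553297336) (nat_lit 9) (nat_lit 5) (nat_lit 11) (nat_lit 4) (nat_lit 9) (nat_lit 4) (nat_lit 364) (nat_lit 249) (nat_lit 248)) (XT.lf (nat_lit 0) (nat_lit 5421920786) (nat_lit 168) (nat_lit 10190284993) (nat_lit 0) (nat_lit 4527035046) (nat_lit 9) (nat_lit 5) (nat_lit 11) (nat_lit 4) (nat_lit 9) (nat_lit 4) (nat_lit 365) (nat_lit 249) (nat_lit 247))) (XT.nd (nat_lit 94) (nat_lit 0) (nat_lit 0) (XT.lf (nat_lit 0) (nat_lit 7856058795) (nat_lit 168) (nat_lit 6280010072) (nat_lit 0) (nat_lit 6533808009) (nat_lit 9) (nat_lit 5) (nat_lit 11) (nat_lit 4) (nat_lit 9) (nat_lit 4) (nat_lit 366) (nat_lit 249) (nat_lit 246)) (XT.lf (nat_lit 0) (nat_lit 10312252614) (nat_lit 168) (nat_lit 2331052840) (nat_lit 0) (nat_lit 8575486748) (nat_lit 9) (nat_lit 5) (nat_lit 11) (nat_lit 4) (nat_lit 9) (nat_lit 4) (nat_lit 367) (nat_lit 249) (nat_lit 245)))) (XT.nd (nat_lit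 53392) (nat_lit 0) (nat_lit 168) (XT.nd (nat_lit 94) (nat_lit 0) (nat_lit 0) (XT.lf (nat_lit 0) (nat_lit 1694406049) (nat_lit 168) (nat_lit 11115194340) (nat_lit 168) (nat_lit 8976376991) (nat_lit 7) (nat_lit 4) (nat_lit 9) (nat_lit 5) (nat_lit 9) (nat_lit 4) (nat_lit 368) (nat_lit 249) (nat_lit 244)) (XT.lf (nat_lit 0) (nat_lit 5814827218) (nat_lit 168) (nat_lit 9542844677) (nat_lit 168) (nat_lit 7014064688) (nat_lit 7) (nat_lit 4) (nat_lit 9) (nat_lit 5) (nat_lit 9) (nat_lit 4) (nat_lit 369) (nat_lit 249) (nat_lit 243))) (XT.nd (nat_lit 94) (nat_lit 168) (nat_lit 0) (XT.lf (nat_lit 0) (nat_lit 5487901810) (nat_lit 168) (nat_lit 1802129863) (nat_lit 168) (nat_lit 1802129863) (nat_lit 11) (nat_lit 4) (nat_lit 13) (nat_lit 5) (nat_lit 13) (nat_lit 4) (nat_lit 361) (nat_lit 250) (nat_lit 250)) (XT.nd (nat_lit 94) (nat_lit 168) (nat_lit 0) (XT.lf (nat_lit 0) (nat_lit 15608198499) (nat_lit 168)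 (nat_lit 1762459995) (nat_lit 168) (nat_lit 1279586175) (nat_lit 11) (nat_lit 4) (nat_lit 13) (nat_lit 5) (nat_lit 13) (nat_lit 4) (nat_lit 362) (nat_lit 250) (nat_lit 249)) (XT.lf (nat_lit 0) (nat_lit 1050294389) (nat_lit 168) (nat_lit 17953870325) (nat_lit 0) (nat_lit 127667191) (nat_lit 9) (nat_lit 5) (nat_lit 11) (nat_lit 4) (nat_lit 9) (nat_lit 4) (nat_lit 363) (nat_lit 250) (nat_lit 248))))))) (XT.nd (nat_lit 53862) (nat_lit 0) (nat_lit 0) (XT.nd (nat_lit 376) (nat_lit 168) (nat_lit 0) (XT.nd (nat_lit 188) (nat_lit 0) (nat_lit 0) (XT.nd (nat_lit 94) (nat_lit 0) (nat_lit 0) (XT.lf (nat_lit 0) (nat_lit 3419159792) (nat_lit 168) (nat_lit 14153255163) (nat_lit 0) (nat_lit 2055919231) (nat_lit 9) (nat_lit 5) (nat_lit 11) (nat_lit 4) (nat_lit 9) (nat_lit 4) (nat_lit 364) (nat_lit 250) (nat_lit 247)) (XT.lf (nat_lit 0) (nat_lit 5806402078) (nat_lit 168) (nat_lit 10319915765) (nat_lit 0) (nat_lit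 4015796470) (nat_lit 9) (nat_lit 5) (nat_lit 11) (nat_lit 4) (nat_lit 9) (nat_lit 4) (nat_lit 365) (nat_lit 250) (nat_lit 246))) (XT.nd (nat_lit 94) (nat_lit 0) (nat_lit 0) (XT.lf (nat_lit 0) (nat_lit 8214246405) (nat_lit 168) (nat_lit 6450279058) (nat_lit 0) (nat_lit 6009125718) (nat_lit 9) (nat_lit 5) (nat_lit 11) (nat_lit 4) (nat_lit 9) (nat_lit 4) (nat_lit 366) (nat_lit 250) (nat_lit 245)) (XT.lf (nat_lit 0) (nat_lit 10644937136) (nat_lit 168) (nat_lit 2540738134) (nat_lit 0) (nat_lit 8037764967) (nat_lit 9) (nat_lit 5) (nat_lit 11) (nat_lit 4) (nat_lit 9) (nat_lit 4) (nat_lit 367) (nat_lit 250) (nat_lit 244)))) (XT.nd (nat_lit 53204) (nat_lit 0) (nat_lit 336) (XT.nd (nat_lit 94) (nat_lit 0) (nat_lit 0) (XT.lf (nat_lit 0) (nat_lit 1441391942) (nat_lit 168) (nat_lit 11673646775) (nat_lit 168) (nat_lit 8676511965) (nat_lit 7) (nat_lit 4) (nat_lit 9) (nat_lit 5) (nat_lit 9) (nat_lit 4)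 (nat_lit 368) (nat_lit 250) (nat_lit 243)) (XT.lf (nat_lit 0) (nat_lit 5523969025) (nat_lit 168) (nat_lit 10114773286) (nat_lit 168) (nat_lit 6739401190) (nat_lit 7) (nat_lit 4) (nat_lit 9) (nat_lit 5) (nat_lit 9) (nat_lit 4) (nat_lit 369) (nat_lit 250) (nat_lit 242))) (XT.nd (nat_lit 94) (nat_lit 0) (nat_lit 0) (XT.lf (nat_lit 0) (nat_lit 956300676) (nat_lit 168) (nat_lit 3846579315) (nat_lit 168) (nat_lit 3846579315) (nat_lit 11) (nat_lit 4) (nat_lit 13) (nat_lit 5) (nat_lit 13) (nat_lit 4) (nat_lit 359) (nat_lit 251) (nat_lit 251)) (XT.nd (nat_lit 94) (nat_lit 0) (nat_lit 0) (XT.lf (nat_lit 0) (nat_lit 6397093455) (nat_lit 168) (nat_lit 5917555282) (nat_lit 168) (nat_lit 5419712373) (nat_lit 11) (nat_lit 4) (nat_lit 13) (nat_lit 5) (nat_lit 13) (nat_lit 4) (nat_lit 360) (nat_lit 251) (nat_lit 250)) (XT.lf (nat_lit 0) (nat_lit 10932349508) (nat_lit 168) (nat_lit 4116840177) (nat_lit 168)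 (nat_lit 3136123448) (nat_lit 11) (nat_lit 4) (nat_lit 13) (nat_lit 5) (nat_lit 13) (nat_lit 4) (nat_lit 361) (nat_lit 251) (nat_lit 249)))))) (XT.nd (nat_lit 470) (nat_lit 168) (nat_lit 0) (XT.nd (nat_lit 188) (nat_lit 0) (nat_lit 0) (XT.nd (nat_lit 94) (nat_lit 168) (nat_lit 0) (XT.lf (nat_lit 0) (nat_lit 15522596847) (nat_lit 168) (nat_lit 2289334862) (nat_lit 168) (nat_lit 840263312) (nat_lit 11) (nat_lit 4) (nat_lit 13) (nat_lit 5) (nat_lit 13) (nat_lit 4) (nat_lit 362) (nat_lit 251) (nat_lit 248)) (XT.lf (nat_lit 0) (nat_lit 1043105697) (nat_lit 84) (nat_lit 407632669) (nat_lit 168) (nat_lit 17683930748) (nat_lit 9) (nat_lit 5) (nat_lit 10) (nat_lit 5) (nat_lit 11) (nat_lit 4) (nat_lit 363) (nat_lit 251) (nat_lit 247))) (XT.nd (nat_lit 94) (nat_lit 0) (nat_lit 0) (XT.lf (nat_lit 0) (nat_lit 3788451218) (nat_lit 168) (nat_lit 14328802487) (nat_lit 0) (nat_lit 1514971790) (nat_lit 9)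 (nat_lit 5) (nat_lit 11) (nat_lit 4) (nat_lit 9) (nat_lit 4) (nat_lit 364) (nat_lit 251) (nat_lit 246)) (XT.nd (nat_lit 94) (nat_lit 0) (nat_lit 0) (XT.lf (nat_lit 0) (nat_lit 6149399820) (nat_lit 168) (nat_lit 10536101303) (nat_lit 0) (nat_lit 3461405314) (nat_lit 9) (nat_lit 5) (nat_lit 11) (nat_lit 4) (nat_lit 9) (nat_lit 4) (nat_lit 365) (nat_lit 251) (nat_lit 245)) (XT.lf (nat_lit 0) (nat_lit 8531741061) (nat_lit 168) (nat_lit 6705880904) (nat_lit 0) (nat_lit 5441695071) (nat_lit 9) (nat_lit 5) (nat_lit 11) (nat_lit 4) (nat_lit 9) (nat_lit 4) (nat_lit 366) (nat_lit 251) (nat_lit 244))))) (XT.nd (nat_lit 188) (nat_lit 0) (nat_lit 0) (XT.nd (nat_lit 94) (nat_lit 168) (nat_lit 0) (XT.lf (nat_lit 0) (nat_lit 10937695530) (nat_lit 168) (nat_lit 2834571123) (nat_lit 0) (nat_lit 7457686899) (nat_lit 9) (nat_lit 5) (nat_lit 11) (nat_lit 4) (nat_lit 9) (nat_lit 4) (nat_lit 367) (nat_lit 251)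 (nat_lit 243)) (XT.lf (nat_lit 0) (nat_lit 1103673058) (nat_lit 168) (nat_lit 12276781344) (nat_lit 168) (nat_lit 8418535428) (nat_lit 7) (nat_lit 4) (nat_lit 9) (nat_lit 5) (nat_lit 9) (nat_lit 4) (nat_lit 368) (nat_lit 251) (nat_lit 242))) (XT.nd (nat_lit 52922) (nat_lit 0) (nat_lit 504) (XT.lf (nat_lit 0) (nat_lit 5149543946) (nat_lit 168) (nat_lit 10730978828) (nat_lit 168) (nat_lit 6505868426) (nat_lit 7) (nat_lit 4) (nat_lit 9) (nat_lit 5) (nat_lit 9) (nat_lit 4) (nat_lit 369) (nat_lit 251) (nat_lit 241)) (XT.nd (nat_lit 94) (nat_lit 0) (nat_lit 0) (XT.lf (nat_lit 0) (nat_lit 2433429025) (nat_lit 252) (nat_lit 3368035096) (nat_lit 0) (nat_lit 2433429025) (nat_lit 13) (nat_lit 5) (nat_lit 16) (nat_lit 4) (nat_lit 13) (nat_lit 4) (nat_lit 357) (nat_lit 252) (nat_lit 252)) (XT.lf (nat_lit 0) (nat_lit 7458325857) (nat_lit 252) (nat_lit 2474427507) (nat_lit 0) (nat_lit 6945049818) (nat_lit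 13) (nat_lit 5) (nat_lit 16) (nat_lit 4) (nat_lit 13) (nat_lit 4) (nat_lit 358) (nat_lit 252) (nat_lit 251))))))))
noncomputable def xc1 : XT := (XT.nd (nat_lit 54332) (nat_lit 0) (nat_lit 0) (XT.nd (nat_lit 846) (nat_lit 168) (nat_lit 0) (XT.nd (nat_lit 376) (nat_lit 168) (nat_lit 0) (XT.nd (nat_lit 188) (nat_lit 0) (nat_lit 0) (XT.nd (nat_lit 94) (nat_lit 0) (nat_lit 0) (XT.lf (nat_lit 0) (nat_lit 1867800163) (nat_lit 168) (nat_lit 8221629076) (nat_lit 168) (nat_lit 7210510129) (nat_lit 11) (nat_lit 4) (nat_lit 13) (nat_lit 5) (nat_lit 13) (nat_lit 4) (nat_lit 359) (nat_lit 252) (nat_lit 250)) (XT.lf (nat_lit 0) (nat_lit 6308838151) (nat_lit 168) (nat_lit 6460763269) (nat_lit 168) (nat_lit 4966770501) (nat_lit 11) (nat_lit 4) (nat_lit 13) (nat_lit 5) (nat_lit 13) (nat_lit 4) (nat_lit 360) (nat_lit 252) (nat_lit 249))) (XT.nd (nat_lit 94) (nat_lit 0) (nat_lit 0) (XT.lf (nat_lit 0) (nat_lit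 10801946665) (nat_lit 168) (nat_lit 4674342580) (nat_lit 168) (nat_lit 2711994992) (nat_lit 11) (nat_lit 4) (nat_lit 13) (nat_lit 5) (nat_lit 13) (nat_lit 4) (nat_lit 361) (nat_lit 252) (nat_lit 248)) (XT.lf (nat_lit 0) (nat_lit 15351313752) (nat_lit 168) (nat_lit 2860701878) (nat_lit 168) (nat_lit 444081912) (nat_lit 11) (nat_lit 4) (nat_lit 13) (nat_lit 5) (nat_lit 13) (nat_lit 4) (nat_lit 362) (nat_lit 252) (nat_lit 247)))) (XT.nd (nat_lit 188) (nat_lit 0) (nat_lit 0) (XT.nd (nat_lit 94) (nat_lit 0) (nat_lit 0) (XT.lf (nat_lit 0) (nat_lit 819192993) (nat_lit 84) (nat_lit 990962753) (nat_lit 168) (nat_lit 17329274660) (nat_lit 9) (nat_lit 5) (nat_lit 10) (nat_lit 5) (nat_lit 11) (nat_lit 4) (nat_lit 363) (nat_lit 252) (nat_lit 246)) (XT.lf (nat_lit 0) (nat_lit 4115788208) (nat_lit 168) (nat_lit 14592327990) (nat_lit 0) (nat_lit 929950793) (nat_lit 9) (nat_lit 5) (nat_lit 11) (nat_lit 4)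 (nat_lit 9) (nat_lit 4) (nat_lit 364) (nat_lit 252) (nat_lit 245))) (XT.nd (nat_lit 94) (nat_lit 0) (nat_lit 0) (XT.lf (nat_lit 0) (nat_lit 6451233724) (nat_lit 168) (nat_lit 10839043114) (nat_lit 0) (nat_lit 2863344826) (nat_lit 9) (nat_lit 5) (nat_lit 11) (nat_lit 4) (nat_lit 9) (nat_lit 4) (nat_lit 365) (nat_lit 252) (nat_lit 244)) (XT.nd (nat_lit 94) (nat_lit 0) (nat_lit 0) (XT.lf (nat_lit 0) (nat_lit 8808838701) (nat_lit 168) (nat_lit 7047053858) (nat_lit 0) (nat_lit 4830987162) (nat_lit 9) (nat_lit 5) (nat_lit 11) (nat_lit 4) (nat_lit 9) (nat_lit 4) (nat_lit 366) (nat_lit 252) (nat_lit 243)) (XT.lf (nat_lit 0) (nat_lit 11190800675) (nat_lit 168) (nat_lit 3212825689) (nat_lit 0) (nat_lit 6834711850) (nat_lit 9) (nat_lit 5) (nat_lit 11) (nat_lit 4) (nat_lit 9) (nat_lit 4) (nat_lit 367) (nat_lit 252) (nat_lit 242)))))) (XT.nd (nat_lit 53016) (nat_lit 0) (nat_lit 336) (XT.nd (nat_lit 52828)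 (nat_lit 0) (nat_lit 504) (XT.nd (nat_lit 94) (nat_lit 0) (nat_lit 0) (XT.lf (nat_lit 0) (nat_lit 680934607) (nat_lit 168) (nat_lit 12925160231) (nat_lit 168) (nat_lit 8202206920) (nat_lit 7) (nat_lit 4) (nat_lit 9) (nat_lit 5) (nat_lit 9) (nat_lit 4) (nat_lit 368) (nat_lit 252) (nat_lit 241)) (XT.lf (nat_lit 0) (nat_lit 4691202979) (nat_lit 168) (nat_lit 11392035671) (nat_lit 168) (nat_lit 6313248717) (nat_lit 7) (nat_lit 4) (nat_lit 9) (nat_lit 5) (nat_lit 9) (nat_lit 4) (nat_lit 369) (nat_lit 252) (nat_lit 240))) (XT.nd (nat_lit 94) (nat_lit 0) (nat_lit 0) (XT.lf (nat_lit 0) (nat_lit 148892060) (nat_lit 252) (nat_lit 7549843523) (nat_lit 0) (nat_lit 148892060) (nat_lit 13) (nat_lit 5) (nat_lit 16) (nat_lit 4) (nat_lit 13) (nat_lit 4) (nat_lit 355) (nat_lit 253) (nat_lit 253)) (XT.lf (nat_lit 0) (nat_lit 2823269088) (nat_lit 252) (nat_lit 10958732198) (nat_lit 0) (nat_lit 2294081492) (nat_lit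 13) (nat_lit 5) (nat_lit 16) (nat_lit 4) (nat_lit 13) (nat_lit 4) (nat_lit 356) (nat_lit 253) (nat_lit 252)))) (XT.nd (nat_lit 188) (nat_lit 168) (nat_lit 0) (XT.nd (nat_lit 94) (nat_lit 0) (nat_lit 0) (XT.lf (nat_lit 0) (nat_lit 5365979263) (nat_lit 252) (nat_lit 6781329593) (nat_lit 0) (nat_lit 4323515628) (nat_lit 13) (nat_lit 5) (nat_lit 16) (nat_lit 4) (nat_lit 13) (nat_lit 4) (nat_lit 357) (nat_lit 253) (nat_lit 251)) (XT.lf (nat_lit 0) (nat_lit 7928284718) (nat_lit 252) (nat_lit 2563585455) (nat_lit 0) (nat_lit 6387978175) (nat_lit 13) (nat_lit 5) (nat_lit 16) (nat_lit 4) (nat_lit 13) (nat_lit 4) (nat_lit 358) (nat_lit 253) (nat_lit 250))) (XT.nd (nat_lit 94) (nat_lit 0) (nat_lit 0) (XT.lf (nat_lit 0) (nat_lit 1733354832) (nat_lit 168) (nat_lit 8796414054) (nat_lit 168) (nat_lit 6773233690) (nat_lit 11) (nat_lit 4) (nat_lit 13) (nat_lit 5) (nat_lit 13) (nat_lit 4) (nat_lit 359) (nat_lit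 253) (nat_lit 249)) (XT.nd (nat_lit 94) (nat_lit 0) (nat_lit 0) (XT.lf (nat_lit 0) (nat_lit 6132245281) (nat_lit 168) (nat_lit 7049842663) (nat_lit 168) (nat_lit 4558307478) (nat_lit 11) (nat_lit 4) (nat_lit 13) (nat_lit 5) (nat_lit 13) (nat_lit 4) (nat_lit 360) (nat_lit 253) (nat_lit 248)) (XT.lf (nat_lit 0) (nat_lit 10584473544) (nat_lit 168) (nat_lit 5277286586) (nat_lit 168) (nat_lit 2331479024) (nat_lit 11) (nat_lit 4) (nat_lit 13) (nat_lit 5) (nat_lit 13) (nat_lit 4) (nat_lit 361) (nat_lit 253) (nat_lit 247))))))) (XT.nd (nat_lit 53298) (nat_lit 0) (nat_lit 168) (XT.nd (nat_lit 376) (nat_lit 168) (nat_lit 0) (XT.nd (nat_lit 188) (nat_lit 0) (nat_lit 0) (XT.nd (nat_lit 94) (nat_lit 168) (nat_lit 0) (XT.lf (nat_lit 0) (nat_lit 15094189562) (nat_lit 168) (nat_lit 3477093617) (nat_lit 168) (nat_lit 90672692) (nat_lit 11) (nat_lit 4) (nat_lit 13) (nat_lit 5) (nat_lit 13) (nat_lit 4) (nat_lit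 362) (nat_lit 253) (nat_lit 246)) (XT.lf (nat_lit 0) (nat_lit 507347341) (nat_lit 84) (nat_lit 1620241684) (nat_lit 168) (nat_lit 17018571261) (nat_lit 9) (nat_lit 5) (nat_lit 10) (nat_lit 5) (nat_lit 11) (nat_lit 4) (nat_lit 363) (nat_lit 253) (nat_lit 245))) (XT.nd (nat_lit 94) (nat_lit 0) (nat_lit 0) (XT.lf (nat_lit 0) (nat_lit 4401475876) (nat_lit 168) (nat_lit 14944077306) (nat_lit 0) (nat_lit 300310938) (nat_lit 9) (nat_lit 5) (nat_lit 11) (nat_lit 4) (nat_lit 9) (nat_lit 4) (nat_lit 364) (nat_lit 253) (nat_lit 244)) (XT.lf (nat_lit 0) (nat_lit 6712185129) (nat_lit 168) (nat_lit 11229023572) (nat_lit 0) (nat_lit 2221057551) (nat_lit 9) (nat_lit 5) (nat_lit 11) (nat_lit 4) (nat_lit 9) (nat_lit 4) (nat_lit 365) (nat_lit 253) (nat_lit 243)))) (XT.nd (nat_lit 188) (nat_lit 168) (nat_lit 0) (XT.nd (nat_lit 94) (nat_lit 0) (nat_lit 0) (XT.lf (nat_lit 0) (nat_lit 9045797611) (nat_lit 168)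 (nat_lit 7474115928) (nat_lit 0) (nat_lit 4176432747) (nat_lit 9) (nat_lit 5) (nat_lit 11) (nat_lit 4) (nat_lit 9) (nat_lit 4) (nat_lit 366) (nat_lit 253) (nat_lit 242)) (XT.lf (nat_lit 0) (nat_lit 11404488493) (nat_lit 168) (nat_lit 3675854406) (nat_lit 0) (nat_lit 6168259143) (nat_lit 9) (nat_lit 5) (nat_lit 11) (nat_lit 4) (nat_lit 9) (nat_lit 4) (nat_lit 367) (nat_lit 253) (nat_lit 241))) (XT.nd (nat_lit 94) (nat_lit 0) (nat_lit 0) (XT.lf (nat_lit 0) (nat_lit 172782553) (nat_lit 168) (nat_lit 13619387793) (nat_lit 168) (nat_lit 8027324800) (nat_lit 7) (nat_lit 4) (nat_lit 9) (nat_lit 5) (nat_lit 9) (nat_lit 4) (nat_lit 368) (nat_lit 253) (nat_lit 240)) (XT.nd (nat_lit 52546) (nat_lit 0) (nat_lit 756) (XT.lf (nat_lit 0) (nat_lit 4148518901) (nat_lit 168) (nat_lit 12098559990) (nat_lit 168) (nat_lit 6161362523) (nat_lit 7) (nat_lit 4) (nat_lit 9) (nat_lit 5) (nat_lit 9) (nat_lit 4) (nat_lit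 369) (nat_lit 253) (nat_lit 239)) (XT.lf (nat_lit 0) (nat_lit 3392346582) (nat_lit 168) (nat_lit 2045757010) (nat_lit 168) (nat_lit 2045757010) (nat_lit 16) (nat_lit 4) (nat_lit 18) (nat_lit 5) (nat_lit 18) (nat_lit 4) (nat_lit 353) (nat_lit 254) (nat_lit 254)))))) (XT.nd (nat_lit 470) (nat_lit 336) (nat_lit 0) (XT.nd (nat_lit 188) (nat_lit 0) (nat_lit 0) (XT.nd (nat_lit 94) (nat_lit 252) (nat_lit 0) (XT.lf (nat_lit 0) (nat_lit 11484803470) (nat_lit 168) (nat_lit 2201645238) (nat_lit 168) (nat_lit 1639139461) (nat_lit 16) (nat_lit 4) (nat_lit 18) (nat_lit 5) (nat_lit 18) (nat_lit 4) (nat_lit 354) (nat_lit 254) (nat_lit 253)) (XT.lf (nat_lit 0) (nat_lit 547237238) (nat_lit 168) (nat_lit 267797437) (nat_lit 252) (nat_lit 14881208636) (nat_lit 13) (nat_lit 5) (nat_lit 15) (nat_lit 5) (nat_lit 16) (nat_lit 4) (nat_lit 355) (nat_lit 254) (nat_lit 252))) (XT.nd (nat_lit 94) (nat_lit 0) (nat_lit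 0) (XT.lf (nat_lit 0) (nat_lit 3307796674) (nat_lit 252) (nat_lit 11050654042) (nat_lit 0) (nat_lit 1719740627) (nat_lit 13) (nat_lit 5) (nat_lit 16) (nat_lit 4) (nat_lit 13) (nat_lit 4) (nat_lit 356) (nat_lit 254) (nat_lit 251)) (XT.nd (nat_lit 94) (nat_lit 0) (nat_lit 0) (XT.lf (nat_lit 0) (nat_lit 5821344498) (nat_lit 252) (nat_lit 6917149983) (nat_lit 0) (nat_lit 3735445543) (nat_lit 13) (nat_lit 5) (nat_lit 16) (nat_lit 4) (nat_lit 13) (nat_lit 4) (nat_lit 357) (nat_lit 254) (nat_lit 250)) (XT.lf (nat_lit 0) (nat_lit 8355364453) (nat_lit 252) (nat_lit 2741984455) (nat_lit 0) (nat_lit 5786591678) (nat_lit 13) (nat_lit 5) (nat_lit 16) (nat_lit 4) (nat_lit 13) (nat_lit 4) (nat_lit 358) (nat_lit 254) (nat_lit 249))))) (XT.nd (nat_lit 188) (nat_lit 168) (nat_lit 0) (XT.nd (nat_lit 94) (nat_lit 0) (nat_lit 0) (XT.lf (nat_lit 0) (nat_lit 1509140044) (nat_lit 168) (nat_lit 9418049324) (nat_lit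 168) (nat_lit 6380921728) (nat_lit 11) (nat_lit 4) (nat_lit 13) (nat_lit 5) (nat_lit 13) (nat_lit 4) (nat_lit 359) (nat_lit 254) (nat_lit 248)) (XT.lf (nat_lit 0) (nat_lit 5867150242) (nat_lit 168) (nat_lit 7685342545) (nat_lit 168) (nat_lit 4193942572) (nat_lit 11) (nat_lit 4) (nat_lit 13) (nat_lit 5) (nat_lit 13) (nat_lit 4) (nat_lit 360) (nat_lit 254) (nat_lit 247))) (XT.nd (nat_lit 94) (nat_lit 168) (nat_lit 0) (XT.lf (nat_lit 0) (nat_lit 10279727436) (nat_lit 168) (nat_lit 5926234202) (nat_lit 168) (nat_lit 1994220865) (nat_lit 11) (nat_lit 4) (nat_lit 13) (nat_lit 5) (nat_lit 13) (nat_lit 4) (nat_lit 361) (nat_lit 254) (nat_lit 246)) (XT.nd (nat_lit 94) (nat_lit 84) (nat_lit 0) (XT.lf (nat_lit 0) (nat_lit 215855333) (nat_lit 252) (nat_lit 3920976200) (nat_lit 84) (nat_lit 14532876190) (nat_lit 10) (nat_lit 5) (nat_lit 13) (nat_lit 5) (nat_lit 11) (nat_lit 4) (nat_lit 362) (nat_lit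 254) (nat_lit 245)) (XT.lf (nat_lit 0) (nat_lit 107278068) (nat_lit 84) (nat_lit 2296056018) (nat_lit 168) (nat_lit 16751530942) (nat_lit 9) (nat_lit 5) (nat_lit 10) (nat_lit 5) (nat_lit 11) (nat_lit 4) (nat_lit 363) (nat_lit 254) (nat_lit 244))))))))
noncomputable def xc2 : XT := (XT.nd (nat_lit 53956) (nat_lit 0) (nat_lit 0) (XT.nd (nat_lit 53110) (nat_lit 0) (nat_lit 252) (XT.nd (nat_lit 376) (nat_lit 168) (nat_lit 0) (XT.nd (nat_lit 188) (nat_lit 0) (nat_lit 0) (XT.nd (nat_lit 94) (nat_lit 0) (nat_lit 0) (XT.lf (nat_lit 0) (nat_lit 4267336475) (nat_lit 84) (nat_lit 382235863) (nat_lit 168) (nat_lit 15005934264) (nat_lit 9) (nat_lit 5) (nat_lit 10) (nat_lit 5) (nat_lit 11) (nat_lit 4) (nat_lit 364) (nat_lit 254) (nat_lit 243)) (XT.lf (nat_lit 0) (nat_lit 6932497269) (nat_lit 168) (nat_lit 11706406180) (nat_lit 0) (nat_lit 1533944810) (nat_lit 9) (nat_lit 5) (nat_lit 11) (nat_lit 4) (nat_lit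 9) (nat_lit 4) (nat_lit 365) (nat_lit 254) (nat_lit 242))) (XT.nd (nat_lit 94) (nat_lit 0) (nat_lit 0) (XT.lf (nat_lit 0) (nat_lit 9242838660) (nat_lit 168) (nat_lit 7987465182) (nat_lit 0) (nat_lit 3477421714) (nat_lit 9) (nat_lit 5) (nat_lit 11) (nat_lit 4) (nat_lit 9) (nat_lit 4) (nat_lit 366) (nat_lit 254) (nat_lit 241)) (XT.lf (nat_lit 0) (nat_lit 11578958163) (nat_lit 168) (nat_lit 4224088866) (nat_lit 0) (nat_lit 5457707574) (nat_lit 9) (nat_lit 5) (nat_lit 11) (nat_lit 4) (nat_lit 9) (nat_lit 4) (nat_lit 367) (nat_lit 254) (nat_lit 240)))) (XT.nd (nat_lit 52452) (nat_lit 0) (nat_lit 756) (XT.nd (nat_lit 94) (nat_lit 168) (nat_lit 0) (XT.lf (nat_lit 0) (nat_lit 13943033288) (nat_lit 168) (nat_lit 412769369) (nat_lit 0) (nat_lit 7476648224) (nat_lit 9) (nat_lit 5) (nat_lit 11) (nat_lit 4) (nat_lit 9) (nat_lit 4) (nat_lit 368) (nat_lit 254) (nat_lit 239)) (XT.lf (nat_lit 0) (nat_lit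 3520985875) (nat_lit 168) (nat_lit 12851210339) (nat_lit 168) (nat_lit 6050068268) (nat_lit 7) (nat_lit 4) (nat_lit 9) (nat_lit 5) (nat_lit 9) (nat_lit 4) (nat_lit 369) (nat_lit 254) (nat_lit 238))) (XT.nd (nat_lit 94) (nat_lit 168) (nat_lit 0) (XT.lf (nat_lit 0) (nat_lit 2979874259) (nat_lit 252) (nat_lit 1184474172) (nat_lit 0) (nat_lit 2979874259) (nat_lit 18) (nat_lit 5) (nat_lit 21) (nat_lit 4) (nat_lit 18) (nat_lit 4) (nat_lit 351) (nat_lit 255) (nat_lit 255)) (XT.nd (nat_lit 94) (nat_lit 0) (nat_lit 0) (XT.lf (nat_lit 0) (nat_lit 2136361942) (nat_lit 168) (nat_lit 6533156371) (nat_lit 168) (nat_lit 5953212916) (nat_lit 16) (nat_lit 4) (nat_lit 18) (nat_lit 5) (nat_lit 18) (nat_lit 4) (nat_lit 352) (nat_lit 255) (nat_lit 254)) (XT.lf (nat_lit 0) (nat_lit 6739238125) (nat_lit 168) (nat_lit 4686003403) (nat_lit 168) (nat_lit 3543554171) (nat_lit 16) (nat_lit 4) (nat_lit 18) (nat_lit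 5) (nat_lit 18) (nat_lit 4) (nat_lit 353) (nat_lit 255) (nat_lit 253)))))) (XT.nd (nat_lit 376) (nat_lit 252) (nat_lit 0) (XT.nd (nat_lit 188) (nat_lit 0) (nat_lit 0) (XT.nd (nat_lit 94) (nat_lit 252) (nat_lit 0) (XT.lf (nat_lit 0) (nat_lit 11395260129) (nat_lit 168) (nat_lit 2810243183) (nat_lit 168) (nat_lit 1122201540) (nat_lit 16) (nat_lit 4) (nat_lit 18) (nat_lit 5) (nat_lit 18) (nat_lit 4) (nat_lit 354) (nat_lit 255) (nat_lit 252)) (XT.lf (nat_lit 0) (nat_lit 404090007) (nat_lit 168) (nat_lit 886564471) (nat_lit 252) (nat_lit 14408610670) (nat_lit 13) (nat_lit 5) (nat_lit 15) (nat_lit 5) (nat_lit 16) (nat_lit 4) (nat_lit 355) (nat_lit 255) (nat_lit 251))) (XT.nd (nat_lit 94) (nat_lit 0) (nat_lit 0) (XT.lf (nat_lit 0) (nat_lit 3748115881) (nat_lit 252) (nat_lit 11234583411) (nat_lit 0) (nat_lit 1099711149) (nat_lit 13) (nat_lit 5) (nat_lit 16) (nat_lit 4) (nat_lit 13) (nat_lit 4) (nat_lit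 356) (nat_lit 255) (nat_lit 250)) (XT.lf (nat_lit 0) (nat_lit 6233378205) (nat_lit 252) (nat_lit 7143657962) (nat_lit 0) (nat_lit 3102099653) (nat_lit 13) (nat_lit 5) (nat_lit 16) (nat_lit 4) (nat_lit 13) (nat_lit 4) (nat_lit 357) (nat_lit 255) (nat_lit 249)))) (XT.nd (nat_lit 188) (nat_lit 84) (nat_lit 0) (XT.nd (nat_lit 94) (nat_lit 168) (nat_lit 0) (XT.lf (nat_lit 0) (nat_lit 8739963145) (nat_lit 252) (nat_lit 3009790793) (nat_lit 0) (nat_lit 5140329773) (nat_lit 13) (nat_lit 5) (nat_lit 16) (nat_lit 4) (nat_lit 13) (nat_lit 4) (nat_lit 358) (nat_lit 255) (nat_lit 248)) (XT.lf (nat_lit 0) (nat_lit 1194946806) (nat_lit 168) (nat_lit 10087114316) (nat_lit 168) (nat_lit 6033208566) (nat_lit 11) (nat_lit 4) (nat_lit 13) (nat_lit 5) (nat_lit 13) (nat_lit 4) (nat_lit 359) (nat_lit 255) (nat_lit 247))) (XT.nd (nat_lit 94) (nat_lit 84) (nat_lit 0) (XT.lf (nat_lit 0) (nat_lit 5513305936) (nat_lit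 168) (nat_lit 8367855270) (nat_lit 168) (nat_lit 3873336157) (nat_lit 11) (nat_lit 4) (nat_lit 13) (nat_lit 5) (nat_lit 13) (nat_lit 4) (nat_lit 360) (nat_lit 255) (nat_lit 246)) (XT.nd (nat_lit 94) (nat_lit 84) (nat_lit 0) (XT.lf (nat_lit 0) (nat_lit 9887424286) (nat_lit 168) (nat_lit 6621790314) (nat_lit 168) (nat_lit 1699906155) (nat_lit 11) (nat_lit 4) (nat_lit 13) (nat_lit 5) (nat_lit 13) (nat_lit 4) (nat_lit 361) (nat_lit 255) (nat_lit 245)) (XT.lf (nat_lit 0) (nat_lit 479252881) (nat_lit 252) (nat_lit 4363036634) (nat_lit 84) (nat_lit 13837123693) (nat_lit 10) (nat_lit 5) (nat_lit 13) (nat_lit 5) (nat_lit 11) (nat_lit 4) (nat_lit 362) (nat_lit 255) (nat_lit 244))))))) (XT.nd (nat_lit 52922) (nat_lit 0) (nat_lit 336) (XT.nd (nat_lit 376) (nat_lit 168) (nat_lit 0) (XT.nd (nat_lit 188) (nat_lit 0) (nat_lit 0) (XT.nd (nat_lit 94) (nat_lit 84) (nat_lit 0) (XT.lf (nat_lit 0) (nat_lit 2641431365)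 (nat_lit 252) (nat_lit 373703618) (nat_lit 84) (nat_lit 16150300475) (nat_lit 10) (nat_lit 5) (nat_lit 13) (nat_lit 5) (nat_lit 11) (nat_lit 4) (nat_lit 363) (nat_lit 255) (nat_lit 243)) (XT.lf (nat_lit 0) (nat_lit 3742282996) (nat_lit 84) (nat_lit 1117734905) (nat_lit 168) (nat_lit 14806994545) (nat_lit 9) (nat_lit 5) (nat_lit 10) (nat_lit 5) (nat_lit 11) (nat_lit 4) (nat_lit 364) (nat_lit 255) (nat_lit 242))) (XT.nd (nat_lit 94) (nat_lit 0) (nat_lit 0) (XT.lf (nat_lit 0) (nat_lit 7112375499) (nat_lit 168) (nat_lit 12271635907) (nat_lit 0) (nat_lit 801366142) (nat_lit 9) (nat_lit 5) (nat_lit 11) (nat_lit 4) (nat_lit 9) (nat_lit 4) (nat_lit 365) (nat_lit 255) (nat_lit 241)) (XT.lf (nat_lit 0) (nat_lit 9400145511) (nat_lit 168) (nat_lit 8587580115) (nat_lit 0) (nat_lit 2733302510) (nat_lit 9) (nat_lit 5) (nat_lit 11) (nat_lit 4) (nat_lit 9) (nat_lit 4) (nat_lit 366) (nat_lit 255) (nat_lit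 240)))) (XT.nd (nat_lit 188) (nat_lit 168) (nat_lit 0) (XT.nd (nat_lit 94) (nat_lit 0) (nat_lit 0) (XT.lf (nat_lit 0) (nat_lit 11714372310) (nat_lit 168) (nat_lit 4858040079) (nat_lit 0) (nat_lit 4702394834) (nat_lit 9) (nat_lit 5) (nat_lit 11) (nat_lit 4) (nat_lit 9) (nat_lit 4) (nat_lit 367) (nat_lit 255) (nat_lit 239)) (XT.lf (nat_lit 0) (nat_lit 14057212997) (nat_lit 168) (nat_lit 1079539477) (nat_lit 0) (nat_lit 6710478514) (nat_lit 9) (nat_lit 5) (nat_lit 11) (nat_lit 4) (nat_lit 9) (nat_lit 4) (nat_lit 368) (nat_lit 255) (nat_lit 238))) (XT.nd (nat_lit 52170) (nat_lit 0) (nat_lit 924) (XT.lf (nat_lit 0) (nat_lit 2808018973) (nat_lit 168) (nat_lit 13650688267) (nat_lit 168) (nat_lit 5979262216) (nat_lit 7) (nat_lit 4) (nat_lit 9) (nat_lit 5) (nat_lit 9) (nat_lit 4) (nat_lit 369) (nat_lit 255) (nat_lit 237)) (XT.nd (nat_lit 94) (nat_lit 0) (nat_lit 0) (XT.lf (nat_lit 0) (nat_lit 633670941)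 (nat_lit 252) (nat_lit 5559561336) (nat_lit 0) (nat_lit 633670941) (nat_lit 18) (nat_lit 5) (nat_lit 21) (nat_lit 4) (nat_lit 18) (nat_lit 4) (nat_lit 349) (nat_lit 256) (nat_lit 256)) (XT.lf (nat_lit 0) (nat_lit 3888072660) (nat_lit 252) (nat_lit 6787503873) (nat_lit 0) (nat_lit 3290150957) (nat_lit 18) (nat_lit 5) (nat_lit 21) (nat_lit 4) (nat_lit 18) (nat_lit 4) (nat_lit 350) (nat_lit 256) (nat_lit 255)))))) (XT.nd (nat_lit 470) (nat_lit 168) (nat_lit 0) (XT.nd (nat_lit 188) (nat_lit 252) (nat_lit 0) (XT.nd (nat_lit 94) (nat_lit 168) (nat_lit 0) (XT.lf (nat_lit 0) (nat_lit 6526267825) (nat_lit 252) (nat_lit 2414868283) (nat_lit 0) (nat_lit 5348402667) (nat_lit 18) (nat_lit 5) (nat_lit 21) (nat_lit 4) (nat_lit 18) (nat_lit 4) (nat_lit 351) (nat_lit 256) (nat_lit 254)) (XT.lf (nat_lit 0) (nat_lit 2044042758) (nat_lit 168) (nat_lit 7160620852) (nat_lit 168) (nat_lit 5420249918) (nat_lit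 16) (nat_lit 4) (nat_lit 18) (nat_lit 5) (nat_lit 18) (nat_lit 4) (nat_lit 352) (nat_lit 256) (nat_lit 253))) (XT.nd (nat_lit 94) (nat_lit 252) (nat_lit 0) (XT.lf (nat_lit 0) (nat_lit 6602830639) (nat_lit 168) (nat_lit 5327576446) (nat_lit 168) (nat_lit 3041613101) (nat_lit 16) (nat_lit 4) (nat_lit 18) (nat_lit 5) (nat_lit 18) (nat_lit 4) (nat_lit 353) (nat_lit 256) (nat_lit 252)) (XT.nd (nat_lit 94) (nat_lit 252) (nat_lit 0) (XT.lf (nat_lit 0) (nat_lit 11216089984) (nat_lit 168) (nat_lit 3465500574) (nat_lit 168) (nat_lit 650349632) (nat_lit 16) (nat_lit 4) (nat_lit 18) (nat_lit 5) (nat_lit 18) (nat_lit 4) (nat_lit 354) (nat_lit 256) (nat_lit 251)) (XT.lf (nat_lit 0) (nat_lit 169101378) (nat_lit 168) (nat_lit 1552970684) (nat_lit 252) (nat_lit 13982345015) (nat_lit 13) (nat_lit 5) (nat_lit 15) (nat_lit 5) (nat_lit 16) (nat_lit 4) (nat_lit 355) (nat_lit 256) (nat_lit 250))))) (XT.nd (nat_lit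 188) (nat_lit 168) (nat_lit 0) (XT.nd (nat_lit 94) (nat_lit 0) (nat_lit 0) (XT.lf (nat_lit 0) (nat_lit 4144637132) (nat_lit 252) (nat_lit 11510691746) (nat_lit 0) (nat_lit 433415125) (nat_lit 13) (nat_lit 5) (nat_lit 16) (nat_lit 4) (nat_lit 13) (nat_lit 4) (nat_lit 356) (nat_lit 256) (nat_lit 249)) (XT.lf (nat_lit 0) (nat_lit 6602464441) (nat_lit 252) (nat_lit 7461064657) (nat_lit 0) (nat_lit 2422887613) (nat_lit 13) (nat_lit 5) (nat_lit 16) (nat_lit 4) (nat_lit 13) (nat_lit 4) (nat_lit 357) (nat_lit 256) (nat_lit 248))) (XT.nd (nat_lit 94) (nat_lit 168) (nat_lit 0) (XT.lf (nat_lit 0) (nat_lit 9082439280) (nat_lit 252) (nat_lit 3367254094) (nat_lit 0) (nat_lit 4448590075) (nat_lit 13) (nat_lit 5) (nat_lit 16) (nat_lit 4) (nat_lit 13) (nat_lit 4) (nat_lit 358) (nat_lit 256) (nat_lit 247)) (XT.nd (nat_lit 94) (nat_lit 0) (nat_lit 0) (XT.lf (nat_lit 0) (nat_lit 790482259) (nat_lit 168) (nat_lit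 10804232668) (nat_lit 168) (nat_lit 5729770100) (nat_lit 11) (nat_lit 4) (nat_lit 13) (nat_lit 5) (nat_lit 13) (nat_lit 4) (nat_lit 359) (nat_lit 256) (nat_lit 246)) (XT.lf (nat_lit 0) (nat_lit 5070382544) (nat_lit 168) (nat_lit 9098017010) (nat_lit 168) (nat_lit 3596189395) (nat_lit 11) (nat_lit 4) (nat_lit 13) (nat_lit 5) (nat_lit 13) (nat_lit 4) (nat_lit 360) (nat_lit 256) (nat_lit 245))))))))
noncomputable def xc3 : XT := (XT.nd (nat_lit 53674) (nat_lit 0) (nat_lit 0) (XT.nd (nat_lit 52734) (nat_lit 0) (nat_lit 504) (XT.nd (nat_lit 376) (nat_lit 168) (nat_lit 0) (XT.nd (nat_lit 188) (nat_lit 84) (nat_lit 0) (XT.nd (nat_lit 94) (nat_lit 84) (nat_lit 0) (XT.lf (nat_lit 0) (nat_lit 9407198426) (nat_lit 168) (nat_lit 7364603255) (nat_lit 168) (nat_lit 1448260561) (nat_lit 11) (nat_lit 4) (nat_lit 13) (nat_lit 5) (nat_lit 13) (nat_lit 4) (nat_lit 361) (nat_lit 256) (nat_lit 244)) (XT.lf (nat_lit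 0) (nat_lit 701592319) (nat_lit 252) (nat_lit 4893460175) (nat_lit 84) (nat_lit 13096056768) (nat_lit 10) (nat_lit 5) (nat_lit 13) (nat_lit 5) (nat_lit 11) (nat_lit 4) (nat_lit 362) (nat_lit 256) (nat_lit 243))) (XT.nd (nat_lit 94) (nat_lit 84) (nat_lit 0) (XT.lf (nat_lit 0) (nat_lit 2840263471) (nat_lit 252) (nat_lit 939781707) (nat_lit 84) (nat_lit 15397893271) (nat_lit 10) (nat_lit 5) (nat_lit 13) (nat_lit 5) (nat_lit 11) (nat_lit 4) (nat_lit 363) (nat_lit 256) (nat_lit 242)) (XT.lf (nat_lit 0) (nat_lit 3129271603) (nat_lit 84) (nat_lit 1900696740) (nat_lit 168) (nat_lit 14650518284) (nat_lit 9) (nat_lit 5) (nat_lit 10) (nat_lit 5) (nat_lit 11) (nat_lit 4) (nat_lit 364) (nat_lit 256) (nat_lit 241)))) (XT.nd (nat_lit 188) (nat_lit 168) (nat_lit 0) (XT.nd (nat_lit 94) (nat_lit 0) (nat_lit 0) (XT.lf (nat_lit 0) (nat_lit 7251987484) (nat_lit 168) (nat_lit 12925239608) (nat_lit 0) (nat_lit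 22638707) (nat_lit 9) (nat_lit 5) (nat_lit 11) (nat_lit 4) (nat_lit 9) (nat_lit 4) (nat_lit 365) (nat_lit 256) (nat_lit 240)) (XT.lf (nat_lit 0) (nat_lit 9517864791) (nat_lit 168) (nat_lit 9275020096) (nat_lit 0) (nat_lit 1943381539) (nat_lit 9) (nat_lit 5) (nat_lit 11) (nat_lit 4) (nat_lit 9) (nat_lit 4) (nat_lit 366) (nat_lit 256) (nat_lit 239))) (XT.nd (nat_lit 94) (nat_lit 168) (nat_lit 0) (XT.lf (nat_lit 0) (nat_lit 11810857152) (nat_lit 168) (nat_lit 5578298955) (nat_lit 0) (nat_lit 3901616893) (nat_lit 9) (nat_lit 5) (nat_lit 11) (nat_lit 4) (nat_lit 9) (nat_lit 4) (nat_lit 367) (nat_lit 256) (nat_lit 238)) (XT.nd (nat_lit 94) (nat_lit 168) (nat_lit 0) (XT.lf (nat_lit 0) (nat_lit 14133101877) (nat_lit 168) (nat_lit 1831630452) (nat_lit 0) (nat_lit 5899170049) (nat_lit 9) (nat_lit 5) (nat_lit 11) (nat_lit 4) (nat_lit 9) (nat_lit 4) (nat_lit 368) (nat_lit 256) (nat_lit 237)) (XT.lf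 (nat_lit 0) (nat_lit 2008953636) (nat_lit 168) (nat_lit 14497738972) (nat_lit 168) (nat_lit 5948878368) (nat_lit 7) (nat_lit 4) (nat_lit 9) (nat_lit 5) (nat_lit 9) (nat_lit 4) (nat_lit 369) (nat_lit 256) (nat_lit 236)))))) (XT.nd (nat_lit 470) (nat_lit 420) (nat_lit 0) (XT.nd (nat_lit 188) (nat_lit 252) (nat_lit 0) (XT.nd (nat_lit 94) (nat_lit 0) (nat_lit 0) (XT.lf (nat_lit 0) (nat_lit 3281208253) (nat_lit 252) (nat_lit 1624211581) (nat_lit 252) (nat_lit 1624211581) (nat_lit 21) (nat_lit 4) (nat_lit 24) (nat_lit 5) (nat_lit 24) (nat_lit 4) (nat_lit 347) (nat_lit 257) (nat_lit 257)) (XT.lf (nat_lit 0) (nat_lit 11312792223) (nat_lit 252) (nat_lit 1337493160) (nat_lit 252) (nat_lit 701925709) (nat_lit 21) (nat_lit 4) (nat_lit 24) (nat_lit 5) (nat_lit 24) (nat_lit 4) (nat_lit 348) (nat_lit 257) (nat_lit 256))) (XT.nd (nat_lit 94) (nat_lit 0) (nat_lit 0) (XT.lf (nat_lit 0) (nat_lit 1851423288)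 (nat_lit 252) (nat_lit 11166466127) (nat_lit 0) (nat_lit 637044310) (nat_lit 18) (nat_lit 5) (nat_lit 21) (nat_lit 4) (nat_lit 18) (nat_lit 4) (nat_lit 349) (nat_lit 257) (nat_lit 255)) (XT.nd (nat_lit 94) (nat_lit 0) (nat_lit 0) (XT.lf (nat_lit 0) (nat_lit 4440751669) (nat_lit 252) (nat_lit 6880767265) (nat_lit 0) (nat_lit 2646429236) (nat_lit 18) (nat_lit 5) (nat_lit 21) (nat_lit 4) (nat_lit 18) (nat_lit 4) (nat_lit 350) (nat_lit 257) (nat_lit 254)) (XT.lf (nat_lit 0) (nat_lit 7048488643) (nat_lit 252) (nat_lit 2552670896) (nat_lit 0) (nat_lit 4691660433) (nat_lit 18) (nat_lit 5) (nat_lit 21) (nat_lit 4) (nat_lit 18) (nat_lit 4) (nat_lit 351) (nat_lit 257) (nat_lit 253))))) (XT.nd (nat_lit 188) (nat_lit 252) (nat_lit 0) (XT.nd (nat_lit 94) (nat_lit 0) (nat_lit 0) (XT.lf (nat_lit 0) (nat_lit 1859318338) (nat_lit 168) (nat_lit 7836191222) (nat_lit 168) (nat_lit 4933770601) (nat_lit 16) (nat_lit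 4) (nat_lit 18) (nat_lit 5) (nat_lit 18) (nat_lit 4) (nat_lit 352) (nat_lit 257) (nat_lit 252)) (XT.lf (nat_lit 0) (nat_lit 6375343560) (nat_lit 168) (nat_lit 6016831164) (nat_lit 168) (nat_lit 2585222947) (nat_lit 16) (nat_lit 4) (nat_lit 18) (nat_lit 5) (nat_lit 18) (nat_lit 4) (nat_lit 353) (nat_lit 257) (nat_lit 251))) (XT.nd (nat_lit 94) (nat_lit 252) (nat_lit 0) (XT.lf (nat_lit 0) (nat_lit 10947126029) (nat_lit 168) (nat_lit 4168028179) (nat_lit 168) (nat_lit 223143923) (nat_lit 16) (nat_lit 4) (nat_lit 18) (nat_lit 5) (nat_lit 18) (nat_lit 4) (nat_lit 354) (nat_lit 257) (nat_lit 250)) (XT.nd (nat_lit 94) (nat_lit 168) (nat_lit 0) (XT.lf (nat_lit 0) (nat_lit 2111256413) (nat_lit 252) (nat_lit 154765388) (nat_lit 84) (nat_lit 13445633525) (nat_lit 15) (nat_lit 5) (nat_lit 18) (nat_lit 5) (nat_lit 16) (nat_lit 4) (nat_lit 355) (nat_lit 257) (nat_lit 249)) (XT.lf (nat_lit 0) (nat_lit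 4215041314) (nat_lit 168) (nat_lit 285521117) (nat_lit 252) (nat_lit 11596547697) (nat_lit 13) (nat_lit 5) (nat_lit 15) (nat_lit 5) (nat_lit 16) (nat_lit 4) (nat_lit 356) (nat_lit 257) (nat_lit 248))))))) (XT.nd (nat_lit 846) (nat_lit 168) (nat_lit 0) (XT.nd (nat_lit 376) (nat_lit 168) (nat_lit 0) (XT.nd (nat_lit 188) (nat_lit 168) (nat_lit 0) (XT.nd (nat_lit 94) (nat_lit 0) (nat_lit 0) (XT.lf (nat_lit 0) (nat_lit 6928947234) (nat_lit 252) (nat_lit 7869665925) (nat_lit 0) (nat_lit 1697176326) (nat_lit 13) (nat_lit 5) (nat_lit 16) (nat_lit 4) (nat_lit 13) (nat_lit 4) (nat_lit 357) (nat_lit 257) (nat_lit 247)) (XT.lf (nat_lit 0) (nat_lit 9383112081) (nat_lit 252) (nat_lit 3814707550) (nat_lit 0) (nat_lit 3710727810) (nat_lit 13) (nat_lit 5) (nat_lit 16) (nat_lit 4) (nat_lit 13) (nat_lit 4) (nat_lit 358) (nat_lit 257) (nat_lit 246))) (XT.nd (nat_lit 94) (nat_lit 0) (nat_lit 0) (XT.lf (nat_lit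 0) (nat_lit 295369398) (nat_lit 168) (nat_lit 11570072809) (nat_lit 168) (nat_lit 5470323492) (nat_lit 11) (nat_lit 4) (nat_lit 13) (nat_lit 5) (nat_lit 13) (nat_lit 4) (nat_lit 359) (nat_lit 257) (nat_lit 245)) (XT.lf (nat_lit 0) (nat_lit 4537967215) (nat_lit 168) (nat_lit 9876508352) (nat_lit 168) (nat_lit 3362243956) (nat_lit 11) (nat_lit 4) (nat_lit 13) (nat_lit 5) (nat_lit 13) (nat_lit 4) (nat_lit 360) (nat_lit 257) (nat_lit 244)))) (XT.nd (nat_lit 188) (nat_lit 84) (nat_lit 0) (XT.nd (nat_lit 94) (nat_lit 84) (nat_lit 0) (XT.lf (nat_lit 0) (nat_lit 8838602236) (nat_lit 168) (nat_lit 8155365402) (nat_lit 168) (nat_lit 1239049524) (nat_lit 11) (nat_lit 4) (nat_lit 13) (nat_lit 5) (nat_lit 13) (nat_lit 4) (nat_lit 361) (nat_lit 257) (nat_lit 243)) (XT.lf (nat_lit 0) (nat_lit 883080889) (nat_lit 252) (nat_lit 5512741233) (nat_lit 84) (nat_lit 12308984661) (nat_lit 10) (nat_lit 5) (nat_lit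 13) (nat_lit 5) (nat_lit 11) (nat_lit 4) (nat_lit 362) (nat_lit 257) (nat_lit 242))) (XT.nd (nat_lit 94) (nat_lit 84) (nat_lit 0) (XT.lf (nat_lit 0) (nat_lit 2998951526) (nat_lit 252) (nat_lit 1593645255) (nat_lit 84) (nat_lit 14599821863) (nat_lit 10) (nat_lit 5) (nat_lit 13) (nat_lit 5) (nat_lit 11) (nat_lit 4) (nat_lit 363) (nat_lit 257) (nat_lit 241)) (XT.nd (nat_lit 94) (nat_lit 0) (nat_lit 0) (XT.lf (nat_lit 0) (nat_lit 2427730905) (nat_lit 84) (nat_lit 2731851170) (nat_lit 168) (nat_lit 14536359629) (nat_lit 9) (nat_lit 5) (nat_lit 10) (nat_lit 5) (nat_lit 11) (nat_lit 4) (nat_lit 364) (nat_lit 257) (nat_lit 240)) (XT.lf (nat_lit 0) (nat_lit 6540118717) (nat_lit 84) (nat_lit 819473922) (nat_lit 168) (nat_lit 12856481869) (nat_lit 9) (nat_lit 5) (nat_lit 10) (nat_lit 5) (nat_lit 11) (nat_lit 4) (nat_lit 365) (nat_lit 257) (nat_lit 239)))))) (XT.nd (nat_lit 52170) (nat_lit 0) (nat_lit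 924) (XT.nd (nat_lit 188) (nat_lit 168) (nat_lit 0) (XT.nd (nat_lit 94) (nat_lit 0) (nat_lit 0) (XT.lf (nat_lit 0) (nat_lit 9596106226) (nat_lit 168) (nat_lit 10050425892) (nat_lit 0) (nat_lit 1106922512) (nat_lit 9) (nat_lit 5) (nat_lit 11) (nat_lit 4) (nat_lit 9) (nat_lit 4) (nat_lit 366) (nat_lit 257) (nat_lit 238)) (XT.lf (nat_lit 0) (nat_lit 11868502625) (nat_lit 168) (nat_lit 6385536850) (nat_lit 0) (nat_lit 3054627342) (nat_lit 9) (nat_lit 5) (nat_lit 11) (nat_lit 4) (nat_lit 9) (nat_lit 4) (nat_lit 367) (nat_lit 257) (nat_lit 237))) (XT.nd (nat_lit 94) (nat_lit 168) (nat_lit 0) (XT.lf (nat_lit 0) (nat_lit 14170770664) (nat_lit 168) (nat_lit 2669743323) (nat_lit 0) (nat_lit 5041966605) (nat_lit 9) (nat_lit 5) (nat_lit 11) (nat_lit 4) (nat_lit 9) (nat_lit 4) (nat_lit 368) (nat_lit 257) (nat_lit 236)) (XT.nd (nat_lit 51794) (nat_lit 0) (nat_lit 1428) (XT.lf (nat_lit 0) (nat_lit 1123045052)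 (nat_lit 168) (nat_lit 15393151993) (nat_lit 168) (nat_lit 5958888402) (nat_lit 7) (nat_lit 4) (nat_lit 9) (nat_lit 5) (nat_lit 9) (nat_lit 4) (nat_lit 369) (nat_lit 257) (nat_lit 235)) (XT.lf (nat_lit 0) (nat_lit 2455147965) (nat_lit 252) (nat_lit 1341810510) (nat_lit 0) (nat_lit 2455147965) (nat_lit 24) (nat_lit 5) (nat_lit 27) (nat_lit 4) (nat_lit 24) (nat_lit 4) (nat_lit 345) (nat_lit 258) (nat_lit 258))))) (XT.nd (nat_lit 188) (nat_lit 252) (nat_lit 0) (XT.nd (nat_lit 94) (nat_lit 0) (nat_lit 0) (XT.lf (nat_lit 0) (nat_lit 1864191342) (nat_lit 252) (nat_lit 5784216548) (nat_lit 252) (nat_lit 5128946506) (nat_lit 21) (nat_lit 4) (nat_lit 24) (nat_lit 5) (nat_lit 24) (nat_lit 4) (nat_lit 346) (nat_lit 258) (nat_lit 257)) (XT.lf (nat_lit 0) (nat_lit 6516382815) (nat_lit 252) (nat_lit 3917425142) (nat_lit 252) (nat_lit 2626587649) (nat_lit 21) (nat_lit 4) (nat_lit 24) (nat_lit 5) (nat_lit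 24) (nat_lit 4) (nat_lit 347) (nat_lit 258) (nat_lit 256))) (XT.nd (nat_lit 94) (nat_lit 252) (nat_lit 0) (XT.lf (nat_lit 0) (nat_lit 11222108975) (nat_lit 252) (nat_lit 2019814187) (nat_lit 252) (nat_lit 112519419) (nat_lit 21) (nat_lit 4) (nat_lit 24) (nat_lit 5) (nat_lit 24) (nat_lit 4) (nat_lit 348) (nat_lit 258) (nat_lit 255)) (XT.nd (nat_lit 94) (nat_lit 0) (nat_lit 0) (XT.lf (nat_lit 0) (nat_lit 2349357906) (nat_lit 168) (nat_lit 40880585) (nat_lit 252) (nat_lit 11268065577) (nat_lit 18) (nat_lit 5) (nat_lit 20) (nat_lit 5) (nat_lit 21) (nat_lit 4) (nat_lit 349) (nat_lit 258) (nat_lit 254)) (XT.lf (nat_lit 0) (nat_lit 4948703140) (nat_lit 252) (nat_lit 7067380981) (nat_lit 0) (nat_lit 1956307480) (nat_lit 18) (nat_lit 5) (nat_lit 21) (nat_lit 4) (nat_lit 18) (nat_lit 4) (nat_lit 350) (nat_lit 258) (nat_lit 253))))))))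
noncomputable def xc4 : XT := (XT.nd (nat_lit 1692) (nat_lit 168) (nat_lit 0) (XT.nd (nat_lit 846) (nat_lit 336) (nat_lit 0) (XT.nd (nat_lit 376) (nat_lit 168) (nat_lit 0) (XT.nd (nat_lit 188) (nat_lit 84) (nat_lit 0) (XT.nd (nat_lit 94) (nat_lit 168) (nat_lit 0) (XT.lf (nat_lit 0) (nat_lit 7526897736) (nat_lit 252) (nat_lit 2782484632) (nat_lit 0) (nat_lit 3988909664) (nat_lit 18) (nat_lit 5) (nat_lit 21) (nat_lit 4) (nat_lit 18) (nat_lit 4) (nat_lit 351) (nat_lit 258) (nat_lit 252)) (XT.lf (nat_lit 0) (nat_lit 1582016501) (nat_lit 168) (nat_lit 8560497183) (nat_lit 168) (nat_lit 4493321515) (nat_lit 16) (nat_lit 4) (nat_lit 18) (nat_lit 5) (nat_lit 18) (nat_lit 4) (nat_lit 352) (nat_lit 258) (nat_lit 251))) (XT.nd (nat_lit 94) (nat_lit 84) (nat_lit 0) (XT.lf (nat_lit 0) (nat_lit 6056564847) (nat_lit 168) (nat_lit 6754410012) (nat_lit 168) (nat_lit 2173958306) (nat_lit 16) (nat_lit 4) (nat_lit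 18) (nat_lit 5) (nat_lit 18) (nat_lit 4) (nat_lit 353) (nat_lit 258) (nat_lit 250)) (XT.lf (nat_lit 0) (nat_lit 156593896) (nat_lit 252) (nat_lit 4760252412) (nat_lit 84) (nat_lit 10429889147) (nat_lit 15) (nat_lit 5) (nat_lit 18) (nat_lit 5) (nat_lit 16) (nat_lit 4) (nat_lit 354) (nat_lit 258) (nat_lit 249)))) (XT.nd (nat_lit 188) (nat_lit 0) (nat_lit 0) (XT.nd (nat_lit 94) (nat_lit 168) (nat_lit 0) (XT.lf (nat_lit 0) (nat_lit 2459595752) (nat_lit 252) (nat_lit 565729462) (nat_lit 84) (nat_lit 12695629641) (nat_lit 15) (nat_lit 5) (nat_lit 18) (nat_lit 5) (nat_lit 16) (nat_lit 4) (nat_lit 355) (nat_lit 258) (nat_lit 248)) (XT.lf (nat_lit 0) (nat_lit 3756358454) (nat_lit 168) (nat_lit 1061899404) (nat_lit 252) (nat_lit 11289195692) (nat_lit 13) (nat_lit 5) (nat_lit 15) (nat_lit 5) (nat_lit 16) (nat_lit 4) (nat_lit 356) (nat_lit 258) (nat_lit 247))) (XT.nd (nat_lit 94) (nat_lit 0) (nat_lit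 0) (XT.lf (nat_lit 0) (nat_lit 7213130900) (nat_lit 252) (nat_lit 8369842626) (nat_lit 0) (nat_lit 924289354) (nat_lit 13) (nat_lit 5) (nat_lit 16) (nat_lit 4) (nat_lit 13) (nat_lit 4) (nat_lit 357) (nat_lit 258) (nat_lit 246)) (XT.nd (nat_lit 94) (nat_lit 0) (nat_lit 0) (XT.lf (nat_lit 0) (nat_lit 9642261807) (nat_lit 252) (nat_lit 4352568235) (nat_lit 0) (nat_lit 2926055215) (nat_lit 13) (nat_lit 5) (nat_lit 16) (nat_lit 4) (nat_lit 13) (nat_lit 4) (nat_lit 358) (nat_lit 258) (nat_lit 245)) (XT.lf (nat_lit 0) (nat_lit 12097380611) (nat_lit 252) (nat_lit 284993228) (nat_lit 0) (nat_lit 4966658939) (nat_lit 13) (nat_lit 5) (nat_lit 16) (nat_lit 4) (nat_lit 13) (nat_lit 4) (nat_lit 359) (nat_lit 258) (nat_lit 244)))))) (XT.nd (nat_lit 376) (nat_lit 84) (nat_lit 0) (XT.nd (nat_lit 188) (nat_lit 84) (nat_lit 0) (XT.nd (nat_lit 94) (nat_lit 0) (nat_lit 0) (XT.lf (nat_lit 0) (nat_lit 3915563682)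 (nat_lit 168) (nat_lit 10704054932) (nat_lit 168) (nat_lit 3171281778) (nat_lit 11) (nat_lit 4) (nat_lit 13) (nat_lit 5) (nat_lit 13) (nat_lit 4) (nat_lit 360) (nat_lit 258) (nat_lit 243)) (XT.lf (nat_lit 0) (nat_lit 8181105725) (nat_lit 168) (nat_lit 8994813831) (nat_lit 168) (nat_lit 1072078036) (nat_lit 11) (nat_lit 4) (nat_lit 13) (nat_lit 5) (nat_lit 13) (nat_lit 4) (nat_lit 361) (nat_lit 258) (nat_lit 242))) (XT.nd (nat_lit 94) (nat_lit 0) (nat_lit 0) (XT.lf (nat_lit 0) (nat_lit 1023887758) (nat_lit 252) (nat_lit 6221457042) (nat_lit 84) (nat_lit 11475173738) (nat_lit 10) (nat_lit 5) (nat_lit 13) (nat_lit 5) (nat_lit 11) (nat_lit 4) (nat_lit 362) (nat_lit 258) (nat_lit 241)) (XT.lf (nat_lit 0) (nat_lit 3117643443) (nat_lit 252) (nat_lit 2335903733) (nat_lit 84) (nat_lit 13755342366) (nat_lit 10) (nat_lit 5) (nat_lit 13) (nat_lit 5) (nat_lit 11) (nat_lit 4) (nat_lit 363) (nat_lit 258)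 (nat_lit 240)))) (XT.nd (nat_lit 188) (nat_lit 0) (nat_lit 0) (XT.nd (nat_lit 94) (nat_lit 0) (nat_lit 0) (XT.lf (nat_lit 0) (nat_lit 1637006993) (nat_lit 84) (nat_lit 3611972919) (nat_lit 168) (nat_lit 14464412172) (nat_lit 9) (nat_lit 5) (nat_lit 10) (nat_lit 5) (nat_lit 11) (nat_lit 4) (nat_lit 364) (nat_lit 258) (nat_lit 239)) (XT.lf (nat_lit 0) (nat_lit 5717190072) (nat_lit 84) (nat_lit 1710675883) (nat_lit 168) (nat_lit 12806383012) (nat_lit 9) (nat_lit 5) (nat_lit 10) (nat_lit 5) (nat_lit 11) (nat_lit 4) (nat_lit 365) (nat_lit 258) (nat_lit 238))) (XT.nd (nat_lit 94) (nat_lit 0) (nat_lit 0) (XT.lf (nat_lit 0) (nat_lit 9634942746) (nat_lit 168) (nat_lit 10914520262) (nat_lit 0) (nat_lit 223145761) (nat_lit 9) (nat_lit 5) (nat_lit 11) (nat_lit 4) (nat_lit 9) (nat_lit 4) (nat_lit 366) (nat_lit 258) (nat_lit 237)) (XT.nd (nat_lit 94) (nat_lit 0) (nat_lit 0) (XT.lf (nat_lit 0) (nat_lit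 11887362460) (nat_lit 168) (nat_lit 7280506196) (nat_lit 0) (nat_lit 2160636698) (nat_lit 9) (nat_lit 5) (nat_lit 11) (nat_lit 4) (nat_lit 9) (nat_lit 4) (nat_lit 367) (nat_lit 258) (nat_lit 236)) (XT.lf (nat_lit 0) (nat_lit 14170254471) (nat_lit 168) (nat_lit 3594659299) (nat_lit 0) (nat_lit 4138069177) (nat_lit 9) (nat_lit 5) (nat_lit 11) (nat_lit 4) (nat_lit 9) (nat_lit 4) (nat_lit 368) (nat_lit 258) (nat_lit 235))))))) (XT.nd (nat_lit 52358) (nat_lit 0) (nat_lit 336) (XT.nd (nat_lit 51888) (nat_lit 0) (nat_lit 924) (XT.nd (nat_lit 51700) (nat_lit 0) (nat_lit 1428) (XT.nd (nat_lit 51606) (nat_lit 0) (nat_lit 1428) (XT.lf (nat_lit 0) (nat_lit 149467460) (nat_lit 168) (nat_lit 16337761949) (nat_lit 168) (nat_lit 6009301649) (nat_lit 7) (nat_lit 4) (nat_lit 9) (nat_lit 5) (nat_lit 9) (nat_lit 4) (nat_lit 369) (nat_lit 258) (nat_lit 234)) (XT.lf (nat_lit 0) (nat_lit 114629998) (nat_lit 252)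 (nat_lit 5764167365) (nat_lit 0) (nat_lit 114629998) (nat_lit 24) (nat_lit 5) (nat_lit 27) (nat_lit 4) (nat_lit 24) (nat_lit 4) (nat_lit 343) (nat_lit 259) (nat_lit 259))) (XT.nd (nat_lit 94) (nat_lit 0) (nat_lit 0) (XT.lf (nat_lit 0) (nat_lit 2883356225) (nat_lit 252) (nat_lit 7149870989) (nat_lit 0) (nat_lit 2207772812) (nat_lit 24) (nat_lit 5) (nat_lit 27) (nat_lit 4) (nat_lit 24) (nat_lit 4) (nat_lit 344) (nat_lit 259) (nat_lit 258)) (XT.lf (nat_lit 0) (nat_lit 5553047052) (nat_lit 252) (nat_lit 2730125528) (nat_lit 0) (nat_lit 4222193597) (nat_lit 24) (nat_lit 5) (nat_lit 27) (nat_lit 4) (nat_lit 24) (nat_lit 4) (nat_lit 345) (nat_lit 259) (nat_lit 257)))) (XT.nd (nat_lit 188) (nat_lit 252) (nat_lit 0) (XT.nd (nat_lit 94) (nat_lit 0) (nat_lit 0) (XT.lf (nat_lit 0) (nat_lit 1770696913) (nat_lit 252) (nat_lit 6487689526) (nat_lit 252) (nat_lit 4521268621) (nat_lit 21) (nat_lit 4) (nat_lit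 24) (nat_lit 5) (nat_lit 24) (nat_lit 4) (nat_lit 346) (nat_lit 259) (nat_lit 256)) (XT.lf (nat_lit 0) (nat_lit 6378238830) (nat_lit 252) (nat_lit 4634217168) (nat_lit 252) (nat_lit 2051338987) (nat_lit 21) (nat_lit 4) (nat_lit 24) (nat_lit 5) (nat_lit 24) (nat_lit 4) (nat_lit 347) (nat_lit 259) (nat_lit 255))) (XT.nd (nat_lit 94) (nat_lit 168) (nat_lit 0) (XT.lf (nat_lit 0) (nat_lit 422585866) (nat_lit 336) (nat_lit 2322527988) (nat_lit 84) (nat_lit 10613661157) (nat_lit 20) (nat_lit 5) (nat_lit 24) (nat_lit 5) (nat_lit 21) (nat_lit 4) (nat_lit 348) (nat_lit 259) (nat_lit 254)) (XT.nd (nat_lit 94) (nat_lit 0) (nat_lit 0) (XT.lf (nat_lit 0) (nat_lit 2110498967) (nat_lit 168) (nat_lit 780314575) (nat_lit 252) (nat_lit 10772904825) (nat_lit 18) (nat_lit 5) (nat_lit 20) (nat_lit 5) (nat_lit 21) (nat_lit 4) (nat_lit 349) (nat_lit 259) (nat_lit 253)) (XT.lf (nat_lit 0) (nat_lit 5412400537) (nat_lit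 252) (nat_lit 7347518963) (nat_lit 0) (nat_lit 1219142424) (nat_lit 18) (nat_lit 5) (nat_lit 21) (nat_lit 4) (nat_lit 18) (nat_lit 4) (nat_lit 350) (nat_lit 259) (nat_lit 252)))))) (XT.nd (nat_lit 470) (nat_lit 336) (nat_lit 0) (XT.nd (nat_lit 188) (nat_lit 84) (nat_lit 0) (XT.nd (nat_lit 94) (nat_lit 168) (nat_lit 0) (XT.lf (nat_lit 0) (nat_lit 7961941032) (nat_lit 252) (nat_lit 3104523702) (nat_lit 0) (nat_lit 3239495322) (nat_lit 18) (nat_lit 5) (nat_lit 21) (nat_lit 4) (nat_lit 18) (nat_lit 4) (nat_lit 351) (nat_lit 259) (nat_lit 251)) (XT.lf (nat_lit 0) (nat_lit 1211878771) (nat_lit 168) (nat_lit 9334213864) (nat_lit 168) (nat_lit 4098492115) (nat_lit 16) (nat_lit 4) (nat_lit 18) (nat_lit 5) (nat_lit 18) (nat_lit 4) (nat_lit 352) (nat_lit 259) (nat_lit 250))) (XT.nd (nat_lit 94) (nat_lit 84) (nat_lit 0) (XT.lf (nat_lit 0) (nat_lit 5646197364) (nat_lit 168) (nat_lit 7541000493) (nat_lit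 168) (nat_lit 1807435836) (nat_lit 16) (nat_lit 4) (nat_lit 18) (nat_lit 5) (nat_lit 18) (nat_lit 4) (nat_lit 353) (nat_lit 259) (nat_lit 249)) (XT.nd (nat_lit 94) (nat_lit 0) (nat_lit 0) (XT.lf (nat_lit 0) (nat_lit 488829127) (nat_lit 252) (nat_lit 5223626519) (nat_lit 84) (nat_lit 9644798448) (nat_lit 15) (nat_lit 5) (nat_lit 18) (nat_lit 5) (nat_lit 16) (nat_lit 4) (nat_lit 354) (nat_lit 259) (nat_lit 248)) (XT.lf (nat_lit 0) (nat_lit 2765737262) (nat_lit 252) (nat_lit 1067580918) (nat_lit 84) (nat_lit 11899058152) (nat_lit 15) (nat_lit 5) (nat_lit 18) (nat_lit 5) (nat_lit 16) (nat_lit 4) (nat_lit 355) (nat_lit 259) (nat_lit 247))))) (XT.nd (nat_lit 188) (nat_lit 168) (nat_lit 0) (XT.nd (nat_lit 94) (nat_lit 0) (nat_lit 0) (XT.lf (nat_lit 0) (nat_lit 3206100102) (nat_lit 168) (nat_lit 1887531496) (nat_lit 252) (nat_lit 11026288338) (nat_lit 13) (nat_lit 5) (nat_lit 15) (nat_lit 5) (nat_lit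 16) (nat_lit 4) (nat_lit 356) (nat_lit 259) (nat_lit 246)) (XT.lf (nat_lit 0) (nat_lit 7455280328) (nat_lit 252) (nat_lit 8962060977) (nat_lit 0) (nat_lit 103506285) (nat_lit 13) (nat_lit 5) (nat_lit 16) (nat_lit 4) (nat_lit 13) (nat_lit 4) (nat_lit 357) (nat_lit 259) (nat_lit 245))) (XT.nd (nat_lit 94) (nat_lit 168) (nat_lit 0) (XT.lf (nat_lit 0) (nat_lit 9860130013) (nat_lit 252) (nat_lit 4981337492) (nat_lit 0) (nat_lit 2093840891) (nat_lit 13) (nat_lit 5) (nat_lit 16) (nat_lit 4) (nat_lit 13) (nat_lit 4) (nat_lit 358) (nat_lit 259) (nat_lit 244)) (XT.nd (nat_lit 94) (nat_lit 168) (nat_lit 0) (XT.lf (nat_lit 0) (nat_lit 12291697680) (nat_lit 252) (nat_lit 949214382) (nat_lit 0) (nat_lit 4123357075) (nat_lit 13) (nat_lit 5) (nat_lit 16) (nat_lit 4) (nat_lit 13) (nat_lit 4) (nat_lit 359) (nat_lit 259) (nat_lit 243)) (XT.lf (nat_lit 0) (nat_lit 3202591801) (nat_lit 168) (nat_lit 11581428110)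 (nat_lit 168) (nat_lit 3023124864) (nat_lit 11) (nat_lit 4) (nat_lit 13) (nat_lit 5) (nat_lit 13) (nat_lit 4) (nat_lit 360) (nat_lit 259) (nat_lit 242))))))))
noncomputable def xc5 : XT := (XT.nd (nat_lit 53204) (nat_lit 0) (nat_lit 0) (XT.nd (nat_lit 52264) (nat_lit 0) (nat_lit 756) (XT.nd (nat_lit 376) (nat_lit 0) (nat_lit 0) (XT.nd (nat_lit 188) (nat_lit 84) (nat_lit 0) (XT.nd (nat_lit 94) (nat_lit 84) (nat_lit 0) (XT.lf (nat_lit 0) (nat_lit 7434096036) (nat_lit 168) (nat_lit 9883730994) (nat_lit 168) (nat_lit 947190463) (nat_lit 11) (nat_lit 4) (nat_lit 13) (nat_lit 5) (nat_lit 13) (nat_lit 4) (nat_lit 361) (nat_lit 259) (nat_lit 241)) (XT.lf (nat_lit 0) (nat_lit 1124144173) (nat_lit 252) (nat_lit 7020268200) (nat_lit 84) (nat_lit 10593846802) (nat_lit 10) (nat_lit 5) (nat_lit 13) (nat_lit 5) (nat_lit 11) (nat_lit 4) (nat_lit 362) (nat_lit 259) (nat_lit 240))) (XT.nd (nat_lit 94) (nat_lit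 84) (nat_lit 0) (XT.lf (nat_lit 0) (nat_lit 3196449856) (nat_lit 252) (nat_lit 3167249001) (nat_lit 84) (nat_lit 12863667636) (nat_lit 10) (nat_lit 5) (nat_lit 13) (nat_lit 5) (nat_lit 11) (nat_lit 4) (nat_lit 363) (nat_lit 259) (nat_lit 239)) (XT.lf (nat_lit 0) (nat_lit 756362828) (nat_lit 84) (nat_lit 4541882353) (nat_lit 168) (nat_lit 14434608851) (nat_lit 9) (nat_lit 5) (nat_lit 10) (nat_lit 5) (nat_lit 11) (nat_lit 4) (nat_lit 364) (nat_lit 259) (nat_lit 238)))) (XT.nd (nat_lit 188) (nat_lit 0) (nat_lit 0) (XT.nd (nat_lit 94) (nat_lit 0) (nat_lit 0) (XT.lf (nat_lit 0) (nat_lit 4805309504) (nat_lit 84) (nat_lit 2651332370) (nat_lit 168) (nat_lit 12797771350) (nat_lit 9) (nat_lit 5) (nat_lit 10) (nat_lit 5) (nat_lit 11) (nat_lit 4) (nat_lit 365) (nat_lit 259) (nat_lit 237)) (XT.lf (nat_lit 0) (nat_lit 8918239933) (nat_lit 84) (nat_lit 723346302) (nat_lit 168) (nat_lit 11151938015) (nat_lit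 9) (nat_lit 5) (nat_lit 10) (nat_lit 5) (nat_lit 11) (nat_lit 4) (nat_lit 366) (nat_lit 259) (nat_lit 236))) (XT.nd (nat_lit 94) (nat_lit 0) (nat_lit 0) (XT.lf (nat_lit 0) (nat_lit 11867454236) (nat_lit 168) (nat_lit 8264041196) (nat_lit 0) (nat_lit 1218811667) (nat_lit 9) (nat_lit 5) (nat_lit 11) (nat_lit 4) (nat_lit 9) (nat_lit 4) (nat_lit 367) (nat_lit 259) (nat_lit 235)) (XT.nd (nat_lit 51512) (nat_lit 0) (nat_lit 1512) (XT.lf (nat_lit 0) (nat_lit 14131552814) (nat_lit 168) (nat_lit 4607240497) (nat_lit 0) (nat_lit 3186635240) (nat_lit 9) (nat_lit 5) (nat_lit 11) (nat_lit 4) (nat_lit 9) (nat_lit 4) (nat_lit 368) (nat_lit 259) (nat_lit 234)) (XT.lf (nat_lit 0) (nat_lit 1483901118) (nat_lit 252) (nat_lit 2133482531) (nat_lit 252) (nat_lit 2133482531) (nat_lit 27) (nat_lit 4) (nat_lit 30) (nat_lit 5) (nat_lit 30) (nat_lit 4) (nat_lit 341) (nat_lit 260) (nat_lit 260)))))) (XT.nd (nat_lit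 470) (nat_lit 252) (nat_lit 0) (XT.nd (nat_lit 188) (nat_lit 252) (nat_lit 0) (XT.nd (nat_lit 94) (nat_lit 252) (nat_lit 0) (XT.lf (nat_lit 0) (nat_lit 7655018523) (nat_lit 252) (nat_lit 2401621090) (nat_lit 252) (nat_lit 1683502270) (nat_lit 27) (nat_lit 4) (nat_lit 30) (nat_lit 5) (nat_lit 30) (nat_lit 4) (nat_lit 342) (nat_lit 260) (nat_lit 259)) (XT.lf (nat_lit 0) (nat_lit 406750864) (nat_lit 168) (nat_lit 490046862) (nat_lit 252) (nat_lit 11091095341) (nat_lit 24) (nat_lit 5) (nat_lit 26) (nat_lit 5) (nat_lit 27) (nat_lit 4) (nat_lit 343) (nat_lit 260) (nat_lit 258))) (XT.nd (nat_lit 94) (nat_lit 252) (nat_lit 0) (XT.lf (nat_lit 0) (nat_lit 3513200338) (nat_lit 252) (nat_lit 7244321645) (nat_lit 0) (nat_lit 1485820385) (nat_lit 24) (nat_lit 5) (nat_lit 27) (nat_lit 4) (nat_lit 24) (nat_lit 4) (nat_lit 344) (nat_lit 260) (nat_lit 257)) (XT.nd (nat_lit 94) (nat_lit 252) (nat_lit 0) (XT.lf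 (nat_lit 0) (nat_lit 6151046071) (nat_lit 252) (nat_lit 2869682400) (nat_lit 0) (nat_lit 3488098666) (nat_lit 24) (nat_lit 5) (nat_lit 27) (nat_lit 4) (nat_lit 24) (nat_lit 4) (nat_lit 345) (nat_lit 260) (nat_lit 256)) (XT.lf (nat_lit 0) (nat_lit 1583620910) (nat_lit 252) (nat_lit 7240021153) (nat_lit 252) (nat_lit 3960616473) (nat_lit 21) (nat_lit 4) (nat_lit 24) (nat_lit 5) (nat_lit 24) (nat_lit 4) (nat_lit 346) (nat_lit 260) (nat_lit 255))))) (XT.nd (nat_lit 188) (nat_lit 168) (nat_lit 0) (XT.nd (nat_lit 94) (nat_lit 84) (nat_lit 0) (XT.lf (nat_lit 0) (nat_lit 6147855789) (nat_lit 252) (nat_lit 5399467365) (nat_lit 252) (nat_lit 1522140983) (nat_lit 21) (nat_lit 4) (nat_lit 24) (nat_lit 5) (nat_lit 24) (nat_lit 4) (nat_lit 347) (nat_lit 260) (nat_lit 254)) (XT.lf (nat_lit 0) (nat_lit 911228001) (nat_lit 336) (nat_lit 2606565767) (nat_lit 84) (nat_lit 9847530673) (nat_lit 20) (nat_lit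 5) (nat_lit 24) (nat_lit 5) (nat_lit 21) (nat_lit 4) (nat_lit 348) (nat_lit 260) (nat_lit 253))) (XT.nd (nat_lit 94) (nat_lit 0) (nat_lit 0) (XT.lf (nat_lit 0) (nat_lit 1778317577) (nat_lit 168) (nat_lit 1568847952) (nat_lit 252) (nat_lit 10324216078) (nat_lit 18) (nat_lit 5) (nat_lit 20) (nat_lit 5) (nat_lit 21) (nat_lit 4) (nat_lit 349) (nat_lit 260) (nat_lit 252)) (XT.nd (nat_lit 94) (nat_lit 0) (nat_lit 0) (XT.lf (nat_lit 0) (nat_lit 5832276074) (nat_lit 252) (nat_lit 7721442331) (nat_lit 0) (nat_lit 434246951) (nat_lit 18) (nat_lit 5) (nat_lit 21) (nat_lit 4) (nat_lit 18) (nat_lit 4) (nat_lit 350) (nat_lit 260) (nat_lit 251)) (XT.lf (nat_lit 0) (nat_lit 8354024036) (nat_lit 252) (nat_lit 3519088279) (nat_lit 0) (nat_lit 2442718875) (nat_lit 18) (nat_lit 5) (nat_lit 21) (nat_lit 4) (nat_lit 18) (nat_lit 4) (nat_lit 351) (nat_lit 260) (nat_lit 250))))))) (XT.nd (nat_lit 846) (nat_lit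 168) (nat_lit 0) (XT.nd (nat_lit 376) (nat_lit 336) (nat_lit 0) (XT.nd (nat_lit 188) (nat_lit 84) (nat_lit 0) (XT.nd (nat_lit 94) (nat_lit 0) (nat_lit 0) (XT.lf (nat_lit 0) (nat_lit 748560143) (nat_lit 168) (nat_lit 10158062449) (nat_lit 168) (nat_lit 3748914379) (nat_lit 16) (nat_lit 4) (nat_lit 18) (nat_lit 5) (nat_lit 18) (nat_lit 4) (nat_lit 352) (nat_lit 260) (nat_lit 249)) (XT.lf (nat_lit 0) (nat_lit 5143858606) (nat_lit 168) (nat_lit 8377335791) (nat_lit 168) (nat_lit 1485313900) (nat_lit 16) (nat_lit 4) (nat_lit 18) (nat_lit 5) (nat_lit 18) (nat_lit 4) (nat_lit 353) (nat_lit 260) (nat_lit 248))) (XT.nd (nat_lit 94) (nat_lit 0) (nat_lit 0) (XT.lf (nat_lit 0) (nat_lit 778367302) (nat_lit 252) (nat_lit 5779512720) (nat_lit 84) (nat_lit 8812052454) (nat_lit 15) (nat_lit 5) (nat_lit 18) (nat_lit 5) (nat_lit 16) (nat_lit 4) (nat_lit 354) (nat_lit 260) (nat_lit 247)) (XT.lf (nat_lit 0)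 (nat_lit 3029966298) (nat_lit 252) (nat_lit 1660787535) (nat_lit 84) (nat_lit 11055176571) (nat_lit 15) (nat_lit 5) (nat_lit 18) (nat_lit 5) (nat_lit 16) (nat_lit 4) (nat_lit 355) (nat_lit 260) (nat_lit 246)))) (XT.nd (nat_lit 188) (nat_lit 168) (nat_lit 0) (XT.nd (nat_lit 94) (nat_lit 0) (nat_lit 0) (XT.lf (nat_lit 0) (nat_lit 2563753359) (nat_lit 168) (nat_lit 2763186971) (nat_lit 252) (nat_lit 10807580578) (nat_lit 13) (nat_lit 5) (nat_lit 15) (nat_lit 5) (nat_lit 16) (nat_lit 4) (nat_lit 356) (nat_lit 260) (nat_lit 245)) (XT.lf (nat_lit 0) (nat_lit 6881688468) (nat_lit 168) (nat_lit 781687191) (nat_lit 252) (nat_lit 8872940229) (nat_lit 13) (nat_lit 5) (nat_lit 15) (nat_lit 5) (nat_lit 16) (nat_lit 4) (nat_lit 357) (nat_lit 260) (nat_lit 244))) (XT.nd (nat_lit 94) (nat_lit 168) (nat_lit 0) (XT.lf (nat_lit 0) (nat_lit 10036919775) (nat_lit 252) (nat_lit 5701601399) (nat_lit 0) (nat_lit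 1213309128) (nat_lit 13) (nat_lit 5) (nat_lit 16) (nat_lit 4) (nat_lit 13) (nat_lit 4) (nat_lit 358) (nat_lit 260) (nat_lit 243)) (XT.nd (nat_lit 94) (nat_lit 168) (nat_lit 0) (XT.lf (nat_lit 0) (nat_lit 12445644438) (nat_lit 252) (nat_lit 1703864222) (nat_lit 0) (nat_lit 3232071150) (nat_lit 13) (nat_lit 5) (nat_lit 16) (nat_lit 4) (nat_lit 13) (nat_lit 4) (nat_lit 359) (nat_lit 260) (nat_lit 242)) (XT.lf (nat_lit 0) (nat_lit 2398387005) (nat_lit 168) (nat_lit 12509445690) (nat_lit 168) (nat_lit 2917635117) (nat_lit 11) (nat_lit 4) (nat_lit 13) (nat_lit 5) (nat_lit 13) (nat_lit 4) (nat_lit 360) (nat_lit 260) (nat_lit 241)))))) (XT.nd (nat_lit 470) (nat_lit 0) (nat_lit 0) (XT.nd (nat_lit 188) (nat_lit 84) (nat_lit 0) (XT.nd (nat_lit 94) (nat_lit 84) (nat_lit 0) (XT.lf (nat_lit 0) (nat_lit 6596876880) (nat_lit 168) (nat_lit 10822945455) (nat_lit 168) (nat_lit 864270396) (nat_lit 11) (nat_lit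 4) (nat_lit 13) (nat_lit 5) (nat_lit 13) (nat_lit 4) (nat_lit 361) (nat_lit 260) (nat_lit 240)) (XT.lf (nat_lit 0) (nat_lit 1183943584) (nat_lit 252) (nat_lit 7909919283) (nat_lit 84) (nat_lit 9664182363) (nat_lit 10) (nat_lit 5) (nat_lit 13) (nat_lit 5) (nat_lit 11) (nat_lit 4) (nat_lit 362) (nat_lit 260) (nat_lit 239))) (XT.nd (nat_lit 94) (nat_lit 84) (nat_lit 0) (XT.lf (nat_lit 0) (nat_lit 3235444221) (nat_lit 252) (nat_lit 4088455962) (nat_lit 84) (nat_lit 11923966540) (nat_lit 10) (nat_lit 5) (nat_lit 13) (nat_lit 5) (nat_lit 11) (nat_lit 4) (nat_lit 363) (nat_lit 260) (nat_lit 238)) (XT.nd (nat_lit 94) (nat_lit 84) (nat_lit 0) (XT.lf (nat_lit 0) (nat_lit 5309556852) (nat_lit 252) (nat_lit 210690217) (nat_lit 84) (nat_lit 14234032494) (nat_lit 10) (nat_lit 5) (nat_lit 13) (nat_lit 5) (nat_lit 11) (nat_lit 4) (nat_lit 364) (nat_lit 260) (nat_lit 237)) (XT.lf (nat_lit 0) (nat_lit 3803627045)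 (nat_lit 84) (nat_lit 3642320172) (nat_lit 168) (nat_lit 12830638855) (nat_lit 9) (nat_lit 5) (nat_lit 10) (nat_lit 5) (nat_lit 11) (nat_lit 4) (nat_lit 365) (nat_lit 260) (nat_lit 236))))) (XT.nd (nat_lit 188) (nat_lit 0) (nat_lit 0) (XT.nd (nat_lit 94) (nat_lit 0) (nat_lit 0) (XT.lf (nat_lit 0) (nat_lit 7887171256) (nat_lit 84) (nat_lit 1724444591) (nat_lit 168) (nat_lit 11204741960) (nat_lit 9) (nat_lit 5) (nat_lit 10) (nat_lit 5) (nat_lit 11) (nat_lit 4) (nat_lit 366) (nat_lit 260) (nat_lit 235)) (XT.lf (nat_lit 0) (nat_lit 11808759396) (nat_lit 168) (nat_lit 9337058609) (nat_lit 0) (nat_lit 228274371) (nat_lit 9) (nat_lit 5) (nat_lit 11) (nat_lit 4) (nat_lit 9) (nat_lit 4) (nat_lit 367) (nat_lit 260) (nat_lit 234))) (XT.nd (nat_lit 51324) (nat_lit 0) (nat_lit 1764) (XT.lf (nat_lit 0) (nat_lit 14054629622) (nat_lit 168) (nat_lit 5708430750) (nat_lit 0) (nat_lit 2186777956) (nat_lit 9)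 (nat_lit 5) (nat_lit 11) (nat_lit 4) (nat_lit 9) (nat_lit 4) (nat_lit 368) (nat_lit 260) (nat_lit 233)) (XT.nd (nat_lit 94) (nat_lit 0) (nat_lit 0) (XT.lf (nat_lit 0) (nat_lit 1240056979) (nat_lit 336) (nat_lit 3044950860) (nat_lit 0) (nat_lit 1240056979) (nat_lit 30) (nat_lit 5) (nat_lit 34) (nat_lit 4) (nat_lit 30) (nat_lit 4) (nat_lit 339) (nat_lit 261) (nat_lit 261)) (XT.lf (nat_lit 0) (nat_lit 5188119216) (nat_lit 336) (nat_lit 1636476023) (nat_lit 0) (nat_lit 4447738712) (nat_lit 30) (nat_lit 5) (nat_lit 34) (nat_lit 4) (nat_lit 30) (nat_lit 4) (nat_lit 340) (nat_lit 261) (nat_lit 260))))))))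
noncomputable def xc6 : XT := (XT.nd (nat_lit 1692) (nat_lit 336) (nat_lit 0) (XT.nd (nat_lit 846) (nat_lit 420) (nat_lit 0) (XT.nd (nat_lit 376) (nat_lit 504) (nat_lit 0) (XT.nd (nat_lit 188) (nat_lit 252) (nat_lit 0) (XT.nd (nat_lit 94) (nat_lit 0) (nat_lit 0) (XT.lf (nat_lit 0) (nat_lit 2921279818) (nat_lit 252) (nat_lit 5020073986) (nat_lit 252) (nat_lit 3561574661) (nat_lit 27) (nat_lit 4) (nat_lit 30) (nat_lit 5) (nat_lit 30) (nat_lit 4) (nat_lit 341) (nat_lit 261) (nat_lit 259)) (XT.lf (nat_lit 0) (nat_lit 7563372516) (nat_lit 252) (nat_lit 3167075717) (nat_lit 252) (nat_lit 1012049894) (nat_lit 27) (nat_lit 4) (nat_lit 30) (nat_lit 5) (nat_lit 30) (nat_lit 4) (nat_lit 342) (nat_lit 261) (nat_lit 258))) (XT.nd (nat_lit 94) (nat_lit 0) (nat_lit 0) (XT.lf (nat_lit 0) (nat_lit 258535998) (nat_lit 168) (nat_lit 1262461162) (nat_lit 252) (nat_lit 10470226621) (nat_lit 24) (nat_lit 5) (nat_lit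 26) (nat_lit 5) (nat_lit 27) (nat_lit 4) (nat_lit 343) (nat_lit 261) (nat_lit 257)) (XT.lf (nat_lit 0) (nat_lit 4097892233) (nat_lit 252) (nat_lit 7433310996) (nat_lit 0) (nat_lit 716826008) (nat_lit 24) (nat_lit 5) (nat_lit 27) (nat_lit 4) (nat_lit 24) (nat_lit 4) (nat_lit 344) (nat_lit 261) (nat_lit 256)))) (XT.nd (nat_lit 188) (nat_lit 252) (nat_lit 0) (XT.nd (nat_lit 94) (nat_lit 252) (nat_lit 0) (XT.lf (nat_lit 0) (nat_lit 6704850386) (nat_lit 252) (nat_lit 3102421718) (nat_lit 0) (nat_lit 2707326886) (nat_lit 24) (nat_lit 5) (nat_lit 27) (nat_lit 4) (nat_lit 24) (nat_lit 4) (nat_lit 345) (nat_lit 261) (nat_lit 255)) (XT.lf (nat_lit 0) (nat_lit 1302788957) (nat_lit 252) (nat_lit 8041912678) (nat_lit 252) (nat_lit 3446467475) (nat_lit 21) (nat_lit 4) (nat_lit 24) (nat_lit 5) (nat_lit 24) (nat_lit 4) (nat_lit 346) (nat_lit 261) (nat_lit 254))) (XT.nd (nat_lit 94) (nat_lit 252) (nat_lit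 0) (XT.lf (nat_lit 0) (nat_lit 5825018950) (nat_lit 252) (nat_lit 6213889028) (nat_lit 252) (nat_lit 1038500370) (nat_lit 21) (nat_lit 4) (nat_lit 24) (nat_lit 5) (nat_lit 24) (nat_lit 4) (nat_lit 347) (nat_lit 261) (nat_lit 253)) (XT.nd (nat_lit 94) (nat_lit 168) (nat_lit 0) (XT.lf (nat_lit 0) (nat_lit 1356129466) (nat_lit 336) (nat_lit 2983595488) (nat_lit 84) (nat_lit 9034406623) (nat_lit 20) (nat_lit 5) (nat_lit 24) (nat_lit 5) (nat_lit 21) (nat_lit 4) (nat_lit 348) (nat_lit 261) (nat_lit 252)) (XT.lf (nat_lit 0) (nat_lit 1352504107) (nat_lit 168) (nat_lit 2407215711) (nat_lit 252) (nat_lit 9921581110) (nat_lit 18) (nat_lit 5) (nat_lit 20) (nat_lit 5) (nat_lit 21) (nat_lit 4) (nat_lit 349) (nat_lit 261) (nat_lit 251)))))) (XT.nd (nat_lit 376) (nat_lit 252) (nat_lit 0) (XT.nd (nat_lit 188) (nat_lit 168) (nat_lit 0) (XT.nd (nat_lit 94) (nat_lit 0) (nat_lit 0) (XT.lf (nat_lit 0) (nat_lit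 5805444683) (nat_lit 168) (nat_lit 407317071) (nat_lit 252) (nat_lit 7786223183) (nat_lit 18) (nat_lit 5) (nat_lit 20) (nat_lit 5) (nat_lit 21) (nat_lit 4) (nat_lit 350) (nat_lit 261) (nat_lit 250)) (XT.lf (nat_lit 0) (nat_lit 8703512212) (nat_lit 252) (nat_lit 4026564782) (nat_lit 0) (nat_lit 1597837643) (nat_lit 18) (nat_lit 5) (nat_lit 21) (nat_lit 4) (nat_lit 18) (nat_lit 4) (nat_lit 351) (nat_lit 261) (nat_lit 249))) (XT.nd (nat_lit 94) (nat_lit 0) (nat_lit 0) (XT.lf (nat_lit 0) (nat_lit 191628753) (nat_lit 168) (nat_lit 11032810853) (nat_lit 168) (nat_lit 3444262464) (nat_lit 16) (nat_lit 4) (nat_lit 18) (nat_lit 5) (nat_lit 18) (nat_lit 4) (nat_lit 352) (nat_lit 261) (nat_lit 248)) (XT.lf (nat_lit 0) (nat_lit 4549080339) (nat_lit 168) (nat_lit 9264195457) (nat_lit 168) (nat_lit 1207292247) (nat_lit 16) (nat_lit 4) (nat_lit 18) (nat_lit 5) (nat_lit 18) (nat_lit 4) (nat_lit 353) (nat_lit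 261) (nat_lit 247)))) (XT.nd (nat_lit 188) (nat_lit 168) (nat_lit 0) (XT.nd (nat_lit 94) (nat_lit 0) (nat_lit 0) (XT.lf (nat_lit 0) (nat_lit 1025478300) (nat_lit 252) (nat_lit 6428429159) (nat_lit 84) (nat_lit 7930874958) (nat_lit 15) (nat_lit 5) (nat_lit 18) (nat_lit 5) (nat_lit 16) (nat_lit 4) (nat_lit 354) (nat_lit 261) (nat_lit 246)) (XT.lf (nat_lit 0) (nat_lit 3252529150) (nat_lit 252) (nat_lit 2345902245) (nat_lit 84) (nat_lit 10163198312) (nat_lit 15) (nat_lit 5) (nat_lit 18) (nat_lit 5) (nat_lit 16) (nat_lit 4) (nat_lit 355) (nat_lit 261) (nat_lit 245))) (XT.nd (nat_lit 94) (nat_lit 0) (nat_lit 0) (XT.lf (nat_lit 0) (nat_lit 1828719490) (nat_lit 168) (nat_lit 3689682029) (nat_lit 252) (nat_lit 10632868554) (nat_lit 13) (nat_lit 5) (nat_lit 15) (nat_lit 5) (nat_lit 16) (nat_lit 4) (nat_lit 356) (nat_lit 261) (nat_lit 244)) (XT.nd (nat_lit 94) (nat_lit 0) (nat_lit 0) (XT.lf (nat_lit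 0) (nat_lit 6111900191) (nat_lit 168) (nat_lit 1719497773) (nat_lit 252) (nat_lit 8722476829) (nat_lit 13) (nat_lit 5) (nat_lit 15) (nat_lit 5) (nat_lit 16) (nat_lit 4) (nat_lit 357) (nat_lit 261) (nat_lit 243)) (XT.lf (nat_lit 0) (nat_lit 10172795879) (nat_lit 252) (nat_lit 6514031318) (nat_lit 0) (nat_lit 283639178) (nat_lit 13) (nat_lit 5) (nat_lit 16) (nat_lit 4) (nat_lit 13) (nat_lit 4) (nat_lit 358) (nat_lit 261) (nat_lit 242))))))) (XT.nd (nat_lit 846) (nat_lit 0) (nat_lit 0) (XT.nd (nat_lit 376) (nat_lit 84) (nat_lit 0) (XT.nd (nat_lit 188) (nat_lit 84) (nat_lit 0) (XT.nd (nat_lit 94) (nat_lit 168) (nat_lit 0) (XT.lf (nat_lit 0) (nat_lit 12559364379) (nat_lit 252) (nat_lit 2549646162) (nat_lit 0) (nat_lit 2291970393) (nat_lit 13) (nat_lit 5) (nat_lit 16) (nat_lit 4) (nat_lit 13) (nat_lit 4) (nat_lit 359) (nat_lit 261) (nat_lit 241)) (XT.lf (nat_lit 0) (nat_lit 1502199693) (nat_lit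 168) (nat_lit 13488972681) (nat_lit 168) (nat_lit 2854714209) (nat_lit 11) (nat_lit 4) (nat_lit 13) (nat_lit 5) (nat_lit 13) (nat_lit 4) (nat_lit 360) (nat_lit 261) (nat_lit 240))) (XT.nd (nat_lit 94) (nat_lit 84) (nat_lit 0) (XT.lf (nat_lit 0) (nat_lit 5668667878) (nat_lit 168) (nat_lit 11813332661) (nat_lit 168) (nat_lit 823240546) (nat_lit 11) (nat_lit 4) (nat_lit 13) (nat_lit 5) (nat_lit 13) (nat_lit 4) (nat_lit 361) (nat_lit 261) (nat_lit 239)) (XT.lf (nat_lit 0) (nat_lit 1203341729) (nat_lit 252) (nat_lit 8891239538) (nat_lit 84) (nat_lit 8685313875) (nat_lit 10) (nat_lit 5) (nat_lit 13) (nat_lit 5) (nat_lit 11) (nat_lit 4) (nat_lit 362) (nat_lit 261) (nat_lit 238)))) (XT.nd (nat_lit 188) (nat_lit 84) (nat_lit 0) (XT.nd (nat_lit 94) (nat_lit 0) (nat_lit 0) (XT.lf (nat_lit 0) (nat_lit 3234662885) (nat_lit 252) (nat_lit 5100383277) (nat_lit 84) (nat_lit 10935363177) (nat_lit 10) (nat_lit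 5) (nat_lit 13) (nat_lit 5) (nat_lit 11) (nat_lit 4) (nat_lit 363) (nat_lit 261) (nat_lit 237)) (XT.lf (nat_lit 0) (nat_lit 5289202788) (nat_lit 252) (nat_lit 1252304302) (nat_lit 84) (nat_lit 13235986962) (nat_lit 10) (nat_lit 5) (nat_lit 13) (nat_lit 5) (nat_lit 11) (nat_lit 4) (nat_lit 364) (nat_lit 261) (nat_lit 236))) (XT.nd (nat_lit 94) (nat_lit 0) (nat_lit 0) (XT.lf (nat_lit 0) (nat_lit 2711209020) (nat_lit 84) (nat_lit 4684562994) (nat_lit 168) (nat_lit 12905016163) (nat_lit 9) (nat_lit 5) (nat_lit 10) (nat_lit 5) (nat_lit 11) (nat_lit 4) (nat_lit 365) (nat_lit 261) (nat_lit 235)) (XT.nd (nat_lit 94) (nat_lit 0) (nat_lit 0) (XT.lf (nat_lit 0) (nat_lit 6766250595) (nat_lit 84) (nat_lit 2776493899) (nat_lit 168) (nat_lit 11298456262) (nat_lit 9) (nat_lit 5) (nat_lit 10) (nat_lit 5) (nat_lit 11) (nat_lit 4) (nat_lit 366) (nat_lit 261) (nat_lit 234)) (XT.lf (nat_lit 0) (nat_lit 10890850201)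 (nat_lit 84) (nat_lit 828592773) (nat_lit 168) (nat_lit 9680185570) (nat_lit 9) (nat_lit 5) (nat_lit 10) (nat_lit 5) (nat_lit 11) (nat_lit 4) (nat_lit 367) (nat_lit 261) (nat_lit 233)))))) (XT.nd (nat_lit 51512) (nat_lit 0) (nat_lit 1260) (XT.nd (nat_lit 51230) (nat_lit 0) (nat_lit 1764) (XT.nd (nat_lit 51136) (nat_lit 0) (nat_lit 2100) (XT.lf (nat_lit 0) (nat_lit 13939413192) (nat_lit 168) (nat_lit 6899256482) (nat_lit 0) (nat_lit 1137565355) (nat_lit 9) (nat_lit 5) (nat_lit 11) (nat_lit 4) (nat_lit 9) (nat_lit 4) (nat_lit 368) (nat_lit 261) (nat_lit 232)) (XT.lf (nat_lit 0) (nat_lit 3237235667) (nat_lit 336) (nat_lit 1038611092) (nat_lit 336) (nat_lit 1038611092) (nat_lit 34) (nat_lit 4) (nat_lit 38) (nat_lit 5) (nat_lit 38) (nat_lit 4) (nat_lit 337) (nat_lit 262) (nat_lit 262))) (XT.nd (nat_lit 94) (nat_lit 0) (nat_lit 0) (XT.lf (nat_lit 0) (nat_lit 332765711) (nat_lit 252) (nat_lit 218569252)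 (nat_lit 336) (nat_lit 10285604591) (nat_lit 30) (nat_lit 5) (nat_lit 33) (nat_lit 5) (nat_lit 34) (nat_lit 4) (nat_lit 338) (nat_lit 262) (nat_lit 261)) (XT.nd (nat_lit 94) (nat_lit 0) (nat_lit 0) (XT.lf (nat_lit 0) (nat_lit 3209080460) (nat_lit 336) (nat_lit 6136899954) (nat_lit 0) (nat_lit 1705367657) (nat_lit 30) (nat_lit 5) (nat_lit 34) (nat_lit 4) (nat_lit 30) (nat_lit 4) (nat_lit 339) (nat_lit 262) (nat_lit 260)) (XT.lf (nat_lit 0) (nat_lit 5883753226) (nat_lit 336) (nat_lit 1729059353) (nat_lit 0) (nat_lit 3661921602) (nat_lit 30) (nat_lit 5) (nat_lit 34) (nat_lit 4) (nat_lit 30) (nat_lit 4) (nat_lit 340) (nat_lit 262) (nat_lit 259))))) (XT.nd (nat_lit 188) (nat_lit 252) (nat_lit 0) (XT.nd (nat_lit 94) (nat_lit 0) (nat_lit 0) (XT.lf (nat_lit 0) (nat_lit 2781669197) (nat_lit 252) (nat_lit 5821603408) (nat_lit 252) (nat_lit 2903245286) (nat_lit 27) (nat_lit 4) (nat_lit 30) (nat_lit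 5) (nat_lit 30) (nat_lit 4) (nat_lit 341) (nat_lit 262) (nat_lit 258)) (XT.lf (nat_lit 0) (nat_lit 7379995079) (nat_lit 252) (nat_lit 3980579633) (nat_lit 252) (nat_lit 386638097) (nat_lit 27) (nat_lit 4) (nat_lit 30) (nat_lit 5) (nat_lit 30) (nat_lit 4) (nat_lit 342) (nat_lit 262) (nat_lit 257))) (XT.nd (nat_lit 94) (nat_lit 0) (nat_lit 0) (XT.lf (nat_lit 0) (nat_lit 16130245) (nat_lit 168) (nat_lit 2083988820) (nat_lit 252) (nat_lit 9896802857) (nat_lit 24) (nat_lit 5) (nat_lit 26) (nat_lit 5) (nat_lit 27) (nat_lit 4) (nat_lit 343) (nat_lit 262) (nat_lit 256)) (XT.nd (nat_lit 94) (nat_lit 0) (nat_lit 0) (XT.lf (nat_lit 0) (nat_lit 4537006766) (nat_lit 168) (nat_lit 101981807) (nat_lit 252) (nat_lit 7616045064) (nat_lit 24) (nat_lit 5) (nat_lit 26) (nat_lit 5) (nat_lit 27) (nat_lit 4) (nat_lit 344) (nat_lit 262) (nat_lit 255)) (XT.lf (nat_lit 0) (nat_lit 7214976200) (nat_lit 252) (nat_lit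 3428560419) (nat_lit 0) (nat_lit 1879150494) (nat_lit 24) (nat_lit 5) (nat_lit 27) (nat_lit 4) (nat_lit 24) (nat_lit 4) (nat_lit 345) (nat_lit 262) (nat_lit 254))))))))
noncomputable def xc7 : XT := (XT.nd (nat_lit 1786) (nat_lit 84) (nat_lit 0) (XT.nd (nat_lit 846) (nat_lit 420) (nat_lit 0) (XT.nd (nat_lit 376) (nat_lit 252) (nat_lit 0) (XT.nd (nat_lit 188) (nat_lit 252) (nat_lit 0) (XT.nd (nat_lit 94) (nat_lit 0) (nat_lit 0) (XT.lf (nat_lit 0) (nat_lit 927939289) (nat_lit 252) (nat_lit 8894111549) (nat_lit 252) (nat_lit 2978342388) (nat_lit 21) (nat_lit 4) (nat_lit 24) (nat_lit 5) (nat_lit 24) (nat_lit 4) (nat_lit 346) (nat_lit 262) (nat_lit 253)) (XT.lf (nat_lit 0) (nat_lit 5409427395) (nat_lit 252) (nat_lit 7078241282) (nat_lit 252) (nat_lit 599966344) (nat_lit 21) (nat_lit 4) (nat_lit 24) (nat_lit 5) (nat_lit 24) (nat_lit 4) (nat_lit 347) (nat_lit 262) (nat_lit 252))) (XT.nd (nat_lit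 94) (nat_lit 168) (nat_lit 0) (XT.lf (nat_lit 0) (nat_lit 1757704955) (nat_lit 336) (nat_lit 3453968584) (nat_lit 84) (nat_lit 8173531089) (nat_lit 20) (nat_lit 5) (nat_lit 24) (nat_lit 5) (nat_lit 21) (nat_lit 4) (nat_lit 348) (nat_lit 262) (nat_lit 251)) (XT.lf (nat_lit 0) (nat_lit 832661656) (nat_lit 168) (nat_lit 3296199299) (nat_lit 252) (nat_lit 9564624623) (nat_lit 18) (nat_lit 5) (nat_lit 20) (nat_lit 5) (nat_lit 21) (nat_lit 4) (nat_lit 349) (nat_lit 262) (nat_lit 250)))) (XT.nd (nat_lit 188) (nat_lit 252) (nat_lit 0) (XT.nd (nat_lit 94) (nat_lit 0) (nat_lit 0) (XT.lf (nat_lit 0) (nat_lit 5247001338) (nat_lit 168) (nat_lit 1308061351) (nat_lit 252) (nat_lit 7457041887) (nat_lit 18) (nat_lit 5) (nat_lit 20) (nat_lit 5) (nat_lit 21) (nat_lit 4) (nat_lit 350) (nat_lit 262) (nat_lit 249)) (XT.lf (nat_lit 0) (nat_lit 9010731318) (nat_lit 252) (nat_lit 4627426230) (nat_lit 0) (nat_lit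 704064109) (nat_lit 18) (nat_lit 5) (nat_lit 21) (nat_lit 4) (nat_lit 18) (nat_lit 4) (nat_lit 351) (nat_lit 262) (nat_lit 248))) (XT.nd (nat_lit 94) (nat_lit 252) (nat_lit 0) (XT.lf (nat_lit 0) (nat_lit 11504397564) (nat_lit 252) (nat_lit 450177933) (nat_lit 0) (nat_lit 2729375534) (nat_lit 18) (nat_lit 5) (nat_lit 21) (nat_lit 4) (nat_lit 18) (nat_lit 4) (nat_lit 352) (nat_lit 262) (nat_lit 247)) (XT.nd (nat_lit 94) (nat_lit 84) (nat_lit 0) (XT.lf (nat_lit 0) (nat_lit 3861308170) (nat_lit 168) (nat_lit 10202406139) (nat_lit 168) (nat_lit 973111731) (nat_lit 16) (nat_lit 4) (nat_lit 18) (nat_lit 5) (nat_lit 18) (nat_lit 4) (nat_lit 353) (nat_lit 262) (nat_lit 246)) (XT.lf (nat_lit 0) (nat_lit 1230392454) (nat_lit 252) (nat_lit 7170980695) (nat_lit 84) (nat_lit 7000444609) (nat_lit 15) (nat_lit 5) (nat_lit 18) (nat_lit 5) (nat_lit 16) (nat_lit 4) (nat_lit 354) (nat_lit 262) (nat_lit 245))))))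 (XT.nd (nat_lit 470) (nat_lit 252) (nat_lit 0) (XT.nd (nat_lit 188) (nat_lit 0) (nat_lit 0) (XT.nd (nat_lit 94) (nat_lit 168) (nat_lit 0) (XT.lf (nat_lit 0) (nat_lit 3433633269) (nat_lit 252) (nat_lit 3123563645) (nat_lit 84) (nat_lit 9222291957) (nat_lit 15) (nat_lit 5) (nat_lit 18) (nat_lit 5) (nat_lit 16) (nat_lit 4) (nat_lit 355) (nat_lit 262) (nat_lit 244)) (XT.lf (nat_lit 0) (nat_lit 1000313368) (nat_lit 168) (nat_lit 4667880262) (nat_lit 252) (nat_lit 10501989414) (nat_lit 13) (nat_lit 5) (nat_lit 15) (nat_lit 5) (nat_lit 16) (nat_lit 4) (nat_lit 356) (nat_lit 262) (nat_lit 243))) (XT.nd (nat_lit 94) (nat_lit 0) (nat_lit 0) (XT.lf (nat_lit 0) (nat_lit 5249784652) (nat_lit 168) (nat_lit 2708671296) (nat_lit 252) (nat_lit 8615117210) (nat_lit 13) (nat_lit 5) (nat_lit 15) (nat_lit 5) (nat_lit 16) (nat_lit 4) (nat_lit 357) (nat_lit 262) (nat_lit 242)) (XT.nd (nat_lit 94) (nat_lit 0) (nat_lit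 0) (XT.lf (nat_lit 0) (nat_lit 9564584284) (nat_lit 168) (nat_lit 710347426) (nat_lit 252) (nat_lit 6716083826) (nat_lit 13) (nat_lit 5) (nat_lit 15) (nat_lit 5) (nat_lit 16) (nat_lit 4) (nat_lit 358) (nat_lit 262) (nat_lit 241)) (XT.lf (nat_lit 0) (nat_lit 12632963503) (nat_lit 252) (nat_lit 3487348558) (nat_lit 0) (nat_lit 1302178532) (nat_lit 13) (nat_lit 5) (nat_lit 16) (nat_lit 4) (nat_lit 13) (nat_lit 4) (nat_lit 359) (nat_lit 262) (nat_lit 240))))) (XT.nd (nat_lit 188) (nat_lit 84) (nat_lit 0) (XT.nd (nat_lit 94) (nat_lit 0) (nat_lit 0) (XT.lf (nat_lit 0) (nat_lit 513194524) (nat_lit 168) (nat_lit 14520922105) (nat_lit 168) (nat_lit 2834303491) (nat_lit 11) (nat_lit 4) (nat_lit 13) (nat_lit 5) (nat_lit 13) (nat_lit 4) (nat_lit 360) (nat_lit 262) (nat_lit 239)) (XT.lf (nat_lit 0) (nat_lit 4648603845) (nat_lit 168) (nat_lit 12855815757) (nat_lit 168) (nat_lit 824062667) (nat_lit 11)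 (nat_lit 4) (nat_lit 13) (nat_lit 5) (nat_lit 13) (nat_lit 4) (nat_lit 361) (nat_lit 262) (nat_lit 238))) (XT.nd (nat_lit 94) (nat_lit 0) (nat_lit 0) (XT.lf (nat_lit 0) (nat_lit 1182356689) (nat_lit 252) (nat_lit 9965143659) (nat_lit 84) (nat_lit 7656328932) (nat_lit 10) (nat_lit 5) (nat_lit 13) (nat_lit 5) (nat_lit 11) (nat_lit 4) (nat_lit 362) (nat_lit 262) (nat_lit 237)) (XT.nd (nat_lit 94) (nat_lit 0) (nat_lit 0) (XT.lf (nat_lit 0) (nat_lit 3194105118) (nat_lit 252) (nat_lit 6203974168) (nat_lit 84) (nat_lit 9896936065) (nat_lit 10) (nat_lit 5) (nat_lit 13) (nat_lit 5) (nat_lit 11) (nat_lit 4) (nat_lit 363) (nat_lit 262) (nat_lit 236)) (XT.lf (nat_lit 0) (nat_lit 5229660806) (nat_lit 252) (nat_lit 2384689344) (nat_lit 84) (nat_lit 12188401588) (nat_lit 10) (nat_lit 5) (nat_lit 13) (nat_lit 5) (nat_lit 11) (nat_lit 4) (nat_lit 364) (nat_lit 262) (nat_lit 235))))))) (XT.nd (nat_lit 51700)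 (nat_lit 0) (nat_lit 756) (XT.nd (nat_lit 51230) (nat_lit 0) (nat_lit 1764) (XT.nd (nat_lit 188) (nat_lit 0) (nat_lit 0) (XT.nd (nat_lit 94) (nat_lit 0) (nat_lit 0) (XT.lf (nat_lit 0) (nat_lit 1527037183) (nat_lit 84) (nat_lit 5779032317) (nat_lit 168) (nat_lit 13020972602) (nat_lit 9) (nat_lit 5) (nat_lit 10) (nat_lit 5) (nat_lit 11) (nat_lit 4) (nat_lit 365) (nat_lit 262) (nat_lit 234)) (XT.lf (nat_lit 0) (nat_lit 5554433137) (nat_lit 84) (nat_lit 3880474847) (nat_lit 168) (nat_lit 11433168272) (nat_lit 9) (nat_lit 5) (nat_lit 10) (nat_lit 5) (nat_lit 11) (nat_lit 4) (nat_lit 366) (nat_lit 262) (nat_lit 233))) (XT.nd (nat_lit 94) (nat_lit 0) (nat_lit 0) (XT.lf (nat_lit 0) (nat_lit 9652218366) (nat_lit 84) (nat_lit 1941799351) (nat_lit 168) (nat_lit 9833089210) (nat_lit 9) (nat_lit 5) (nat_lit 10) (nat_lit 5) (nat_lit 11) (nat_lit 4) (nat_lit 367) (nat_lit 262) (nat_lit 232)) (XT.lf (nat_lit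 0) (nat_lit 13785796132) (nat_lit 168) (nat_lit 8180827668) (nat_lit 0) (nat_lit 38019460) (nat_lit 9) (nat_lit 5) (nat_lit 11) (nat_lit 4) (nat_lit 9) (nat_lit 4) (nat_lit 368) (nat_lit 262) (nat_lit 231)))) (XT.nd (nat_lit 188) (nat_lit 336) (nat_lit 0) (XT.nd (nat_lit 94) (nat_lit 336) (nat_lit 0) (XT.lf (nat_lit 0) (nat_lit 1893436783) (nat_lit 336) (nat_lit 1331163119) (nat_lit 0) (nat_lit 1893436783) (nat_lit 38) (nat_lit 5) (nat_lit 42) (nat_lit 4) (nat_lit 38) (nat_lit 4) (nat_lit 335) (nat_lit 263) (nat_lit 263)) (XT.lf (nat_lit 0) (nat_lit 1831648197) (nat_lit 336) (nat_lit 4704521015) (nat_lit 336) (nat_lit 3893128550) (nat_lit 34) (nat_lit 4) (nat_lit 38) (nat_lit 5) (nat_lit 38) (nat_lit 4) (nat_lit 336) (nat_lit 263) (nat_lit 262))) (XT.nd (nat_lit 94) (nat_lit 336) (nat_lit 0) (XT.lf (nat_lit 0) (nat_lit 6428977230) (nat_lit 336) (nat_lit 2899776781) (nat_lit 336) (nat_lit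 1301388716) (nat_lit 34) (nat_lit 4) (nat_lit 38) (nat_lit 5) (nat_lit 38) (nat_lit 4) (nat_lit 337) (nat_lit 263) (nat_lit 261)) (XT.nd (nat_lit 94) (nat_lit 0) (nat_lit 0) (XT.lf (nat_lit 0) (nat_lit 231330344) (nat_lit 252) (nat_lit 1045405602) (nat_lit 336) (nat_lit 9562423973) (nat_lit 30) (nat_lit 5) (nat_lit 33) (nat_lit 5) (nat_lit 34) (nat_lit 4) (nat_lit 338) (nat_lit 263) (nat_lit 260)) (XT.lf (nat_lit 0) (nat_lit 3892946633) (nat_lit 336) (nat_lit 6277938463) (nat_lit 0) (nat_lit 884119408) (nat_lit 30) (nat_lit 5) (nat_lit 34) (nat_lit 4) (nat_lit 30) (nat_lit 4) (nat_lit 339) (nat_lit 263) (nat_lit 259)))))) (XT.nd (nat_lit 470) (nat_lit 504) (nat_lit 0) (XT.nd (nat_lit 188) (nat_lit 252) (nat_lit 0) (XT.nd (nat_lit 94) (nat_lit 252) (nat_lit 0) (XT.lf (nat_lit 0) (nat_lit 6535289145) (nat_lit 336) (nat_lit 1914312310) (nat_lit 0) (nat_lit 2829935422) (nat_lit 30) (nat_lit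 5) (nat_lit 34) (nat_lit 4) (nat_lit 30) (nat_lit 4) (nat_lit 340) (nat_lit 263) (nat_lit 258)) (XT.lf (nat_lit 0) (nat_lit 2548840243) (nat_lit 252) (nat_lit 6672300439) (nat_lit 252) (nat_lit 2291363303) (nat_lit 27) (nat_lit 4) (nat_lit 30) (nat_lit 5) (nat_lit 30) (nat_lit 4) (nat_lit 341) (nat_lit 263) (nat_lit 257))) (XT.nd (nat_lit 94) (nat_lit 168) (nat_lit 0) (XT.lf (nat_lit 0) (nat_lit 189421179) (nat_lit 336) (nat_lit 4651492761) (nat_lit 84) (nat_lit 6913316936) (nat_lit 26) (nat_lit 5) (nat_lit 30) (nat_lit 5) (nat_lit 27) (nat_lit 4) (nat_lit 342) (nat_lit 263) (nat_lit 256)) (XT.nd (nat_lit 94) (nat_lit 168) (nat_lit 0) (XT.lf (nat_lit 0) (nat_lit 2637884551) (nat_lit 336) (nat_lit 314231104) (nat_lit 84) (nat_lit 9052778523) (nat_lit 26) (nat_lit 5) (nat_lit 30) (nat_lit 5) (nat_lit 27) (nat_lit 4) (nat_lit 343) (nat_lit 263) (nat_lit 255)) (XT.lf (nat_lit 0) (nat_lit 4158682807)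 (nat_lit 168) (nat_lit 985046740) (nat_lit 252) (nat_lit 7120423743) (nat_lit 24) (nat_lit 5) (nat_lit 26) (nat_lit 5) (nat_lit 27) (nat_lit 4) (nat_lit 344) (nat_lit 263) (nat_lit 254))))) (XT.nd (nat_lit 188) (nat_lit 252) (nat_lit 0) (XT.nd (nat_lit 94) (nat_lit 252) (nat_lit 0) (XT.lf (nat_lit 0) (nat_lit 7681899005) (nat_lit 252) (nat_lit 3848402498) (nat_lit 0) (nat_lit 1002797544) (nat_lit 24) (nat_lit 5) (nat_lit 27) (nat_lit 4) (nat_lit 24) (nat_lit 4) (nat_lit 345) (nat_lit 263) (nat_lit 253)) (XT.lf (nat_lit 0) (nat_lit 458722509) (nat_lit 252) (nat_lit 9797412106) (nat_lit 252) (nat_lit 2555804868) (nat_lit 21) (nat_lit 4) (nat_lit 24) (nat_lit 5) (nat_lit 24) (nat_lit 4) (nat_lit 346) (nat_lit 263) (nat_lit 252))) (XT.nd (nat_lit 94) (nat_lit 252) (nat_lit 0) (XT.lf (nat_lit 0) (nat_lit 4900693749) (nat_lit 252) (nat_lit 7993329794) (nat_lit 252) (nat_lit 206130145) (nat_lit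 21) (nat_lit 4) (nat_lit 24) (nat_lit 5) (nat_lit 24) (nat_lit 4) (nat_lit 347) (nat_lit 263) (nat_lit 251)) (XT.nd (nat_lit 94) (nat_lit 168) (nat_lit 0) (XT.lf (nat_lit 0) (nat_lit 2116328781) (nat_lit 336) (nat_lit 4018123490) (nat_lit 84) (nat_lit 7264101645) (nat_lit 20) (nat_lit 5) (nat_lit 24) (nat_lit 5) (nat_lit 21) (nat_lit 4) (nat_lit 348) (nat_lit 263) (nat_lit 250)) (XT.lf (nat_lit 0) (nat_lit 218305674) (nat_lit 168) (nat_lit 4236627342) (nat_lit 252) (nat_lit 9253013896) (nat_lit 18) (nat_lit 5) (nat_lit 20) (nat_lit 5) (nat_lit 21) (nat_lit 4) (nat_lit 349) (nat_lit 263) (nat_lit 249))))))))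
noncomputable def xc8 : XT := (XT.nd (nat_lit 1692) (nat_lit 0) (nat_lit 0) (XT.nd (nat_lit 846) (nat_lit 336) (nat_lit 0) (XT.nd (nat_lit 376) (nat_lit 252) (nat_lit 0) (XT.nd (nat_lit 188) (nat_lit 168) (nat_lit 0) (XT.nd (nat_lit 94) (nat_lit 0) (nat_lit 0) (XT.lf (nat_lit 0) (nat_lit 4595205111) (nat_lit 168) (nat_lit 2259896465) (nat_lit 252) (nat_lit 7172371208) (nat_lit 18) (nat_lit 5) (nat_lit 20) (nat_lit 5) (nat_lit 21) (nat_lit 4) (nat_lit 350) (nat_lit 263) (nat_lit 248)) (XT.lf (nat_lit 0) (nat_lit 9034033690) (nat_lit 168) (nat_lit 244358088) (nat_lit 252) (nat_lit 5080298665) (nat_lit 18) (nat_lit 5) (nat_lit 20) (nat_lit 5) (nat_lit 21) (nat_lit 4) (nat_lit 351) (nat_lit 263) (nat_lit 247))) (XT.nd (nat_lit 94) (nat_lit 168) (nat_lit 0) (XT.lf (nat_lit 0) (nat_lit 11745036321) (nat_lit 252) (nat_lit 1180953692) (nat_lit 0) (nat_lit 1775361409) (nat_lit 18) (nat_lit 5) (nat_lit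 21) (nat_lit 4) (nat_lit 18) (nat_lit 4) (nat_lit 352) (nat_lit 263) (nat_lit 246)) (XT.lf (nat_lit 0) (nat_lit 3079901022) (nat_lit 168) (nat_lit 11192842346) (nat_lit 168) (nat_lit 782554072) (nat_lit 16) (nat_lit 4) (nat_lit 18) (nat_lit 5) (nat_lit 18) (nat_lit 4) (nat_lit 353) (nat_lit 263) (nat_lit 245)))) (XT.nd (nat_lit 188) (nat_lit 168) (nat_lit 0) (XT.nd (nat_lit 94) (nat_lit 0) (nat_lit 0) (XT.lf (nat_lit 0) (nat_lit 1393300766) (nat_lit 252) (nat_lit 8007859463) (nat_lit 84) (nat_lit 6019894150) (nat_lit 15) (nat_lit 5) (nat_lit 18) (nat_lit 5) (nat_lit 16) (nat_lit 4) (nat_lit 354) (nat_lit 263) (nat_lit 244)) (XT.lf (nat_lit 0) (nat_lit 3573447464) (nat_lit 252) (nat_lit 3994496598) (nat_lit 84) (nat_lit 8231580483) (nat_lit 15) (nat_lit 5) (nat_lit 18) (nat_lit 5) (nat_lit 16) (nat_lit 4) (nat_lit 355) (nat_lit 263) (nat_lit 243))) (XT.nd (nat_lit 94) (nat_lit 0) (nat_lit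 0) (XT.lf (nat_lit 0) (nat_lit 77762830) (nat_lit 168) (nat_lit 5698693453) (nat_lit 252) (nat_lit 10414821167) (nat_lit 13) (nat_lit 5) (nat_lit 15) (nat_lit 5) (nat_lit 16) (nat_lit 4) (nat_lit 356) (nat_lit 263) (nat_lit 242)) (XT.nd (nat_lit 94) (nat_lit 0) (nat_lit 0) (XT.lf (nat_lit 0) (nat_lit 4294538269) (nat_lit 168) (nat_lit 3750129772) (nat_lit 252) (nat_lit 8550761301) (nat_lit 13) (nat_lit 5) (nat_lit 15) (nat_lit 5) (nat_lit 16) (nat_lit 4) (nat_lit 357) (nat_lit 263) (nat_lit 241)) (XT.lf (nat_lit 0) (nat_lit 8577625151) (nat_lit 168) (nat_lit 1762131107) (nat_lit 252) (nat_lit 6673854335) (nat_lit 13) (nat_lit 5) (nat_lit 15) (nat_lit 5) (nat_lit 16) (nat_lit 4) (nat_lit 358) (nat_lit 263) (nat_lit 240)))))) (XT.nd (nat_lit 376) (nat_lit 84) (nat_lit 0) (XT.nd (nat_lit 188) (nat_lit 252) (nat_lit 0) (XT.nd (nat_lit 94) (nat_lit 0) (nat_lit 0) (XT.lf (nat_lit 0) (nat_lit 12666510411)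 (nat_lit 252) (nat_lit 4517845447) (nat_lit 0) (nat_lit 261772976) (nat_lit 13) (nat_lit 5) (nat_lit 16) (nat_lit 4) (nat_lit 13) (nat_lit 4) (nat_lit 359) (nat_lit 263) (nat_lit 239)) (XT.lf (nat_lit 0) (nat_lit 15042355499) (nat_lit 252) (nat_lit 558075188) (nat_lit 0) (nat_lit 2292483589) (nat_lit 13) (nat_lit 5) (nat_lit 16) (nat_lit 4) (nat_lit 13) (nat_lit 4) (nat_lit 360) (nat_lit 263) (nat_lit 238))) (XT.nd (nat_lit 94) (nat_lit 84) (nat_lit 0) (XT.lf (nat_lit 0) (nat_lit 3535733972) (nat_lit 168) (nat_lit 13951366445) (nat_lit 168) (nat_lit 866737528) (nat_lit 11) (nat_lit 4) (nat_lit 13) (nat_lit 5) (nat_lit 13) (nat_lit 4) (nat_lit 361) (nat_lit 263) (nat_lit 237)) (XT.lf (nat_lit 0) (nat_lit 1120968905) (nat_lit 252) (nat_lit 11132632638) (nat_lit 84) (nat_lit 6576268412) (nat_lit 10) (nat_lit 5) (nat_lit 13) (nat_lit 5) (nat_lit 11) (nat_lit 4) (nat_lit 362) (nat_lit 263) (nat_lit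 236)))) (XT.nd (nat_lit 188) (nat_lit 84) (nat_lit 0) (XT.nd (nat_lit 94) (nat_lit 0) (nat_lit 0) (XT.lf (nat_lit 0) (nat_lit 3113733118) (nat_lit 252) (nat_lit 7400257297) (nat_lit 84) (nat_lit 8807717282) (nat_lit 10) (nat_lit 5) (nat_lit 13) (nat_lit 5) (nat_lit 11) (nat_lit 4) (nat_lit 363) (nat_lit 263) (nat_lit 235)) (XT.lf (nat_lit 0) (nat_lit 5130875405) (nat_lit 252) (nat_lit 3608900844) (nat_lit 84) (nat_lit 11090299912) (nat_lit 10) (nat_lit 5) (nat_lit 13) (nat_lit 5) (nat_lit 11) (nat_lit 4) (nat_lit 364) (nat_lit 263) (nat_lit 234))) (XT.nd (nat_lit 94) (nat_lit 0) (nat_lit 0) (XT.lf (nat_lit 0) (nat_lit 250007761) (nat_lit 84) (nat_lit 6926748299) (nat_lit 168) (nat_lit 13178616255) (nat_lit 9) (nat_lit 5) (nat_lit 10) (nat_lit 5) (nat_lit 11) (nat_lit 4) (nat_lit 365) (nat_lit 263) (nat_lit 233)) (XT.nd (nat_lit 94) (nat_lit 0) (nat_lit 0) (XT.lf (nat_lit 0) (nat_lit 4250589339)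 (nat_lit 84) (nat_lit 5037416460) (nat_lit 168) (nat_lit 11609003556) (nat_lit 9) (nat_lit 5) (nat_lit 10) (nat_lit 5) (nat_lit 11) (nat_lit 4) (nat_lit 366) (nat_lit 263) (nat_lit 232)) (XT.lf (nat_lit 0) (nat_lit 8322366444) (nat_lit 84) (nat_lit 3107689200) (nat_lit 168) (nat_lit 10026569140) (nat_lit 9) (nat_lit 5) (nat_lit 10) (nat_lit 5) (nat_lit 11) (nat_lit 4) (nat_lit 367) (nat_lit 263) (nat_lit 231))))))) (XT.nd (nat_lit 51512) (nat_lit 0) (nat_lit 756) (XT.nd (nat_lit 51042) (nat_lit 0) (nat_lit 1764) (XT.nd (nat_lit 50854) (nat_lit 0) (nat_lit 2436) (XT.nd (nat_lit 50760) (nat_lit 0) (nat_lit 2772) (XT.lf (nat_lit 0) (nat_lit 12469134401) (nat_lit 84) (nat_lit 1135767810) (nat_lit 168) (nat_lit 8429838012) (nat_lit 9) (nat_lit 5) (nat_lit 10) (nat_lit 5) (nat_lit 11) (nat_lit 4) (nat_lit 368) (nat_lit 263) (nat_lit 230)) (XT.lf (nat_lit 0) (nat_lit 4177801074) (nat_lit 336) (nat_lit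 378839620) (nat_lit 336) (nat_lit 378839620) (nat_lit 42) (nat_lit 4) (nat_lit 46) (nat_lit 5) (nat_lit 46) (nat_lit 4) (nat_lit 333) (nat_lit 264) (nat_lit 264))) (XT.nd (nat_lit 94) (nat_lit 0) (nat_lit 0) (XT.lf (nat_lit 0) (nat_lit 1905601290) (nat_lit 336) (nat_lit 7075919209) (nat_lit 0) (nat_lit 1069055659) (nat_lit 38) (nat_lit 5) (nat_lit 42) (nat_lit 4) (nat_lit 38) (nat_lit 4) (nat_lit 334) (nat_lit 264) (nat_lit 263)) (XT.lf (nat_lit 0) (nat_lit 4588488230) (nat_lit 336) (nat_lit 2708285640) (nat_lit 0) (nat_lit 2940550135) (nat_lit 38) (nat_lit 5) (nat_lit 42) (nat_lit 4) (nat_lit 38) (nat_lit 4) (nat_lit 335) (nat_lit 264) (nat_lit 262)))) (XT.nd (nat_lit 188) (nat_lit 336) (nat_lit 0) (XT.nd (nat_lit 94) (nat_lit 0) (nat_lit 0) (XT.lf (nat_lit 0) (nat_lit 1739249670) (nat_lit 336) (nat_lit 5563736936) (nat_lit 336) (nat_lit 3128803240) (nat_lit 34) (nat_lit 4) (nat_lit 38)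 (nat_lit 5) (nat_lit 38) (nat_lit 4) (nat_lit 336) (nat_lit 264) (nat_lit 261)) (XT.lf (nat_lit 0) (nat_lit 6292452510) (nat_lit 336) (nat_lit 3769819212) (nat_lit 336) (nat_lit 571553217) (nat_lit 34) (nat_lit 4) (nat_lit 38) (nat_lit 5) (nat_lit 38) (nat_lit 4) (nat_lit 337) (nat_lit 264) (nat_lit 260))) (XT.nd (nat_lit 94) (nat_lit 0) (nat_lit 0) (XT.lf (nat_lit 0) (nat_lit 36332685) (nat_lit 252) (nat_lit 1920821023) (nat_lit 336) (nat_lit 8886688580) (nat_lit 30) (nat_lit 5) (nat_lit 33) (nat_lit 5) (nat_lit 34) (nat_lit 4) (nat_lit 338) (nat_lit 264) (nat_lit 259)) (XT.nd (nat_lit 94) (nat_lit 0) (nat_lit 0) (XT.lf (nat_lit 0) (nat_lit 4532349912) (nat_lit 336) (nat_lit 6513148710) (nat_lit 0) (nat_lit 15603725) (nat_lit 30) (nat_lit 5) (nat_lit 34) (nat_lit 4) (nat_lit 30) (nat_lit 4) (nat_lit 339) (nat_lit 264) (nat_lit 258)) (XT.lf (nat_lit 0) (nat_lit 7143334274) (nat_lit 336)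 (nat_lit 2192407569) (nat_lit 0) (nat_lit 1951004674) (nat_lit 30) (nat_lit 5) (nat_lit 34) (nat_lit 4) (nat_lit 30) (nat_lit 4) (nat_lit 340) (nat_lit 264) (nat_lit 257)))))) (XT.nd (nat_lit 470) (nat_lit 504) (nat_lit 0) (XT.nd (nat_lit 188) (nat_lit 168) (nat_lit 0) (XT.nd (nat_lit 94) (nat_lit 84) (nat_lit 0) (XT.lf (nat_lit 0) (nat_lit 2222575934) (nat_lit 252) (nat_lit 7572958017) (nat_lit 252) (nat_lit 1725358375) (nat_lit 27) (nat_lit 4) (nat_lit 30) (nat_lit 5) (nat_lit 30) (nat_lit 4) (nat_lit 341) (nat_lit 264) (nat_lit 256)) (XT.lf (nat_lit 0) (nat_lit 713678487) (nat_lit 336) (nat_lit 5033686084) (nat_lit 84) (nat_lit 6016148716) (nat_lit 26) (nat_lit 5) (nat_lit 30) (nat_lit 5) (nat_lit 27) (nat_lit 4) (nat_lit 342) (nat_lit 264) (nat_lit 255))) (XT.nd (nat_lit 94) (nat_lit 168) (nat_lit 0) (XT.lf (nat_lit 0) (nat_lit 3132710353) (nat_lit 336) (nat_lit 737089640) (nat_lit 84)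 (nat_lit 8145412608) (nat_lit 26) (nat_lit 5) (nat_lit 30) (nat_lit 5) (nat_lit 27) (nat_lit 4) (nat_lit 343) (nat_lit 264) (nat_lit 254)) (XT.nd (nat_lit 94) (nat_lit 0) (nat_lit 0) (XT.lf (nat_lit 0) (nat_lit 3686875919) (nat_lit 168) (nat_lit 1918452485) (nat_lit 252) (nat_lit 6670293263) (nat_lit 24) (nat_lit 5) (nat_lit 26) (nat_lit 5) (nat_lit 27) (nat_lit 4) (nat_lit 344) (nat_lit 264) (nat_lit 253)) (XT.lf (nat_lit 0) (nat_lit 8106054021) (nat_lit 252) (nat_lit 4362339292) (nat_lit 0) (nat_lit 77451183) (nat_lit 24) (nat_lit 5) (nat_lit 27) (nat_lit 4) (nat_lit 24) (nat_lit 4) (nat_lit 345) (nat_lit 264) (nat_lit 252))))) (XT.nd (nat_lit 188) (nat_lit 168) (nat_lit 0) (XT.nd (nat_lit 94) (nat_lit 336) (nat_lit 0) (XT.lf (nat_lit 0) (nat_lit 10648402150) (nat_lit 252) (nat_lit 103177209) (nat_lit 0) (nat_lit 2074206900) (nat_lit 24) (nat_lit 5) (nat_lit 27) (nat_lit 4) (nat_lit 24)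 (nat_lit 4) (nat_lit 346) (nat_lit 264) (nat_lit 251)) (XT.lf (nat_lit 0) (nat_lit 140486629) (nat_lit 336) (nat_lit 8818054501) (nat_lit 84) (nat_lit 4156390798) (nat_lit 20) (nat_lit 5) (nat_lit 24) (nat_lit 5) (nat_lit 21) (nat_lit 4) (nat_lit 347) (nat_lit 264) (nat_lit 250))) (XT.nd (nat_lit 94) (nat_lit 168) (nat_lit 0) (XT.lf (nat_lit 0) (nat_lit 2432335216) (nat_lit 336) (nat_lit 4676586059) (nat_lit 84) (nat_lit 6305270608) (nat_lit 20) (nat_lit 5) (nat_lit 24) (nat_lit 5) (nat_lit 21) (nat_lit 4) (nat_lit 348) (nat_lit 264) (nat_lit 249)) (XT.nd (nat_lit 94) (nat_lit 168) (nat_lit 0) (XT.lf (nat_lit 0) (nat_lit 4743112071) (nat_lit 336) (nat_lit 481241175) (nat_lit 84) (nat_lit 8500194129) (nat_lit 20) (nat_lit 5) (nat_lit 24) (nat_lit 5) (nat_lit 21) (nat_lit 4) (nat_lit 349) (nat_lit 264) (nat_lit 248)) (XT.lf (nat_lit 0) (nat_lit 3849448460) (nat_lit 168) (nat_lit 3263709626)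 (nat_lit 252) (nat_lit 6931945806) (nat_lit 18) (nat_lit 5) (nat_lit 20) (nat_lit 5) (nat_lit 21) (nat_lit 4) (nat_lit 350) (nat_lit 264) (nat_lit 247))))))))
noncomputable def xc9 : XT := (XT.nd (nat_lit 52170) (nat_lit 0) (nat_lit 924) (XT.nd (nat_lit 846) (nat_lit 336) (nat_lit 0) (XT.nd (nat_lit 376) (nat_lit 168) (nat_lit 0) (XT.nd (nat_lit 188) (nat_lit 252) (nat_lit 0) (XT.nd (nat_lit 94) (nat_lit 0) (nat_lit 0) (XT.lf (nat_lit 0) (nat_lit 8253054442) (nat_lit 168) (nat_lit 1258902660) (nat_lit 252) (nat_lit 4865217606) (nat_lit 18) (nat_lit 5) (nat_lit 20) (nat_lit 5) (nat_lit 21) (nat_lit 4) (nat_lit 351) (nat_lit 264) (nat_lit 246)) (XT.lf (nat_lit 0) (nat_lit 11944679196) (nat_lit 252) (nat_lit 2005240574) (nat_lit 0) (nat_lit 771058622) (nat_lit 18) (nat_lit 5) (nat_lit 21) (nat_lit 4) (nat_lit 18) (nat_lit 4) (nat_lit 352) (nat_lit 264) (nat_lit 245))) (XT.nd (nat_lit 94) (nat_lit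 84) (nat_lit 0) (XT.lf (nat_lit 0) (nat_lit 2204130541) (nat_lit 168) (nat_lit 12236427270) (nat_lit 168) (nat_lit 635441650) (nat_lit 16) (nat_lit 4) (nat_lit 18) (nat_lit 5) (nat_lit 18) (nat_lit 4) (nat_lit 353) (nat_lit 264) (nat_lit 244)) (XT.lf (nat_lit 0) (nat_lit 1514355084) (nat_lit 252) (nat_lit 8939845522) (nat_lit 84) (nat_lit 4988309606) (nat_lit 15) (nat_lit 5) (nat_lit 18) (nat_lit 5) (nat_lit 16) (nat_lit 4) (nat_lit 354) (nat_lit 264) (nat_lit 243)))) (XT.nd (nat_lit 188) (nat_lit 168) (nat_lit 0) (XT.nd (nat_lit 94) (nat_lit 0) (nat_lit 0) (XT.lf (nat_lit 0) (nat_lit 3672102056) (nat_lit 252) (nat_lit 4959512905) (nat_lit 84) (nat_lit 7190140443) (nat_lit 15) (nat_lit 5) (nat_lit 18) (nat_lit 5) (nat_lit 16) (nat_lit 4) (nat_lit 355) (nat_lit 264) (nat_lit 242)) (XT.lf (nat_lit 0) (nat_lit 5852613246) (nat_lit 252) (nat_lit 920857320) (nat_lit 84) (nat_lit 9440813381) (nat_lit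 15) (nat_lit 5) (nat_lit 18) (nat_lit 5) (nat_lit 16) (nat_lit 4) (nat_lit 356) (nat_lit 264) (nat_lit 241))) (XT.nd (nat_lit 94) (nat_lit 0) (nat_lit 0) (XT.lf (nat_lit 0) (nat_lit 3245270653) (nat_lit 168) (nat_lit 4844843951) (nat_lit 252) (nat_lit 8529349115) (nat_lit 13) (nat_lit 5) (nat_lit 15) (nat_lit 5) (nat_lit 16) (nat_lit 4) (nat_lit 357) (nat_lit 264) (nat_lit 240)) (XT.nd (nat_lit 94) (nat_lit 0) (nat_lit 0) (XT.lf (nat_lit 0) (nat_lit 7497598320) (nat_lit 168) (nat_lit 2866860032) (nat_lit 252) (nat_lit 6673903273) (nat_lit 13) (nat_lit 5) (nat_lit 15) (nat_lit 5) (nat_lit 16) (nat_lit 4) (nat_lit 358) (nat_lit 264) (nat_lit 239)) (XT.lf (nat_lit 0) (nat_lit 11821154580) (nat_lit 168) (nat_lit 847286984) (nat_lit 252) (nat_lit 4803215567) (nat_lit 13) (nat_lit 5) (nat_lit 15) (nat_lit 5) (nat_lit 16) (nat_lit 4) (nat_lit 359) (nat_lit 264) (nat_lit 238)))))) (XT.nd (nat_lit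 376) (nat_lit 84) (nat_lit 0) (XT.nd (nat_lit 188) (nat_lit 84) (nat_lit 0) (XT.nd (nat_lit 94) (nat_lit 168) (nat_lit 0) (XT.lf (nat_lit 0) (nat_lit 15016272260) (nat_lit 252) (nat_lit 1711845140) (nat_lit 0) (nat_lit 1191262840) (nat_lit 13) (nat_lit 5) (nat_lit 16) (nat_lit 4) (nat_lit 13) (nat_lit 4) (nat_lit 360) (nat_lit 264) (nat_lit 237)) (XT.lf (nat_lit 0) (nat_lit 2329020949) (nat_lit 168) (nat_lit 15101005894) (nat_lit 168) (nat_lit 951304904) (nat_lit 11) (nat_lit 4) (nat_lit 13) (nat_lit 5) (nat_lit 13) (nat_lit 4) (nat_lit 361) (nat_lit 264) (nat_lit 236))) (XT.nd (nat_lit 94) (nat_lit 0) (nat_lit 0) (XT.lf (nat_lit 0) (nat_lit 1019121157) (nat_lit 252) (nat_lit 12394794695) (nat_lit 84) (nat_lit 5444125584) (nat_lit 10) (nat_lit 5) (nat_lit 13) (nat_lit 5) (nat_lit 11) (nat_lit 4) (nat_lit 362) (nat_lit 264) (nat_lit 235)) (XT.lf (nat_lit 0) (nat_lit 2993471969) (nat_lit 252)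 (nat_lit 8690347726) (nat_lit 84) (nat_lit 7666691562) (nat_lit 10) (nat_lit 5) (nat_lit 13) (nat_lit 5) (nat_lit 11) (nat_lit 4) (nat_lit 363) (nat_lit 264) (nat_lit 234)))) (XT.nd (nat_lit 188) (nat_lit 84) (nat_lit 0) (XT.nd (nat_lit 94) (nat_lit 0) (nat_lit 0) (XT.lf (nat_lit 0) (nat_lit 4992754507) (nat_lit 252) (nat_lit 4926079897) (nat_lit 84) (nat_lit 9940658389) (nat_lit 10) (nat_lit 5) (nat_lit 13) (nat_lit 5) (nat_lit 11) (nat_lit 4) (nat_lit 364) (nat_lit 264) (nat_lit 233)) (XT.lf (nat_lit 0) (nat_lit 7018832312) (nat_lit 252) (nat_lit 1098482516) (nat_lit 84) (nat_lit 12268145642) (nat_lit 10) (nat_lit 5) (nat_lit 13) (nat_lit 5) (nat_lit 11) (nat_lit 4) (nat_lit 365) (nat_lit 264) (nat_lit 232))) (XT.nd (nat_lit 94) (nat_lit 0) (nat_lit 0) (XT.lf (nat_lit 0) (nat_lit 2853503882) (nat_lit 84) (nat_lit 6248397129) (nat_lit 168) (nat_lit 11826126010) (nat_lit 9) (nat_lit 5) (nat_lit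 10) (nat_lit 5) (nat_lit 11) (nat_lit 4) (nat_lit 366) (nat_lit 264) (nat_lit 231)) (XT.nd (nat_lit 94) (nat_lit 0) (nat_lit 0) (XT.lf (nat_lit 0) (nat_lit 6900054873) (nat_lit 84) (nat_lit 4327349050) (nat_lit 168) (nat_lit 10260805703) (nat_lit 9) (nat_lit 5) (nat_lit 10) (nat_lit 5) (nat_lit 11) (nat_lit 4) (nat_lit 367) (nat_lit 264) (nat_lit 230)) (XT.lf (nat_lit 0) (nat_lit 11022355211) (nat_lit 84) (nat_lit 2363845877) (nat_lit 168) (nat_lit 8680674099) (nat_lit 9) (nat_lit 5) (nat_lit 10) (nat_lit 5) (nat_lit 11) (nat_lit 4) (nat_lit 368) (nat_lit 264) (nat_lit 229))))))) (XT.nd (nat_lit 846) (nat_lit 840) (nat_lit 0) (XT.nd (nat_lit 376) (nat_lit 672) (nat_lit 0) (XT.nd (nat_lit 188) (nat_lit 336) (nat_lit 0) (XT.nd (nat_lit 94) (nat_lit 336) (nat_lit 0) (XT.lf (nat_lit 0) (nat_lit 2203925255) (nat_lit 420) (nat_lit 357241980) (nat_lit 0) (nat_lit 2203925255) (nat_lit 46) (nat_lit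 5) (nat_lit 51) (nat_lit 4) (nat_lit 46) (nat_lit 4) (nat_lit 331) (nat_lit 265) (nat_lit 265)) (XT.lf (nat_lit 0) (nat_lit 3766403271) (nat_lit 336) (nat_lit 3410128984) (nat_lit 336) (nat_lit 2520913604) (nat_lit 42) (nat_lit 4) (nat_lit 46) (nat_lit 5) (nat_lit 46) (nat_lit 4) (nat_lit 332) (nat_lit 265) (nat_lit 264))) (XT.nd (nat_lit 94) (nat_lit 252) (nat_lit 0) (XT.lf (nat_lit 0) (nat_lit 93432521) (nat_lit 420) (nat_lit 1561932473) (nat_lit 84) (nat_lit 8216827220) (nat_lit 41) (nat_lit 5) (nat_lit 46) (nat_lit 5) (nat_lit 42) (nat_lit 4) (nat_lit 333) (nat_lit 265) (nat_lit 263)) (XT.lf (nat_lit 0) (nat_lit 2697135043) (nat_lit 336) (nat_lit 7169262755) (nat_lit 0) (nat_lit 186718403) (nat_lit 38) (nat_lit 5) (nat_lit 42) (nat_lit 4) (nat_lit 38) (nat_lit 4) (nat_lit 334) (nat_lit 265) (nat_lit 262)))) (XT.nd (nat_lit 188) (nat_lit 336) (nat_lit 0) (XT.nd (nat_lit 94) (nat_lit 336)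 (nat_lit 0) (XT.lf (nat_lit 0) (nat_lit 5346141317) (nat_lit 336) (nat_lit 2846206687) (nat_lit 0) (nat_lit 2048729077) (nat_lit 38) (nat_lit 5) (nat_lit 42) (nat_lit 4) (nat_lit 38) (nat_lit 4) (nat_lit 335) (nat_lit 265) (nat_lit 261)) (XT.lf (nat_lit 0) (nat_lit 1554366491) (nat_lit 336) (nat_lit 6471577192) (nat_lit 336) (nat_lit 2410832652) (nat_lit 34) (nat_lit 4) (nat_lit 38) (nat_lit 5) (nat_lit 38) (nat_lit 4) (nat_lit 336) (nat_lit 265) (nat_lit 260))) (XT.nd (nat_lit 94) (nat_lit 252) (nat_lit 0) (XT.lf (nat_lit 0) (nat_lit 110688609) (nat_lit 420) (nat_lit 4576316478) (nat_lit 84) (nat_lit 5952925948) (nat_lit 33) (nat_lit 5) (nat_lit 38) (nat_lit 5) (nat_lit 34) (nat_lit 4) (nat_lit 337) (nat_lit 265) (nat_lit 259)) (XT.nd (nat_lit 94) (nat_lit 252) (nat_lit 0) (XT.lf (nat_lit 0) (nat_lit 2595726401) (nat_lit 420) (nat_lit 247323543) (nat_lit 84) (nat_lit 8007863461) (nat_lit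 33) (nat_lit 5) (nat_lit 38) (nat_lit 5) (nat_lit 34) (nat_lit 4) (nat_lit 338) (nat_lit 265) (nat_lit 258)) (XT.lf (nat_lit 0) (nat_lit 4217492872) (nat_lit 252) (nat_lit 919515121) (nat_lit 336) (nat_lit 5932356517) (nat_lit 30) (nat_lit 5) (nat_lit 33) (nat_lit 5) (nat_lit 34) (nat_lit 4) (nat_lit 339) (nat_lit 265) (nat_lit 257)))))) (XT.nd (nat_lit 470) (nat_lit 336) (nat_lit 0) (XT.nd (nat_lit 188) (nat_lit 252) (nat_lit 0) (XT.nd (nat_lit 94) (nat_lit 252) (nat_lit 0) (XT.lf (nat_lit 0) (nat_lit 7708455375) (nat_lit 336) (nat_lit 2563604345) (nat_lit 0) (nat_lit 1024310102) (nat_lit 30) (nat_lit 5) (nat_lit 34) (nat_lit 4) (nat_lit 30) (nat_lit 4) (nat_lit 340) (nat_lit 265) (nat_lit 256)) (XT.lf (nat_lit 0) (nat_lit 1802572159) (nat_lit 252) (nat_lit 8524415650) (nat_lit 252) (nat_lit 1204702926) (nat_lit 27) (nat_lit 4) (nat_lit 30) (nat_lit 5) (nat_lit 30) (nat_lit 4) (nat_lit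 341) (nat_lit 265) (nat_lit 255))) (XT.nd (nat_lit 94) (nat_lit 168) (nat_lit 0) (XT.lf (nat_lit 0) (nat_lit 1194412383) (nat_lit 336) (nat_lit 5510318447) (nat_lit 84) (nat_lit 5070456764) (nat_lit 26) (nat_lit 5) (nat_lit 30) (nat_lit 5) (nat_lit 27) (nat_lit 4) (nat_lit 342) (nat_lit 265) (nat_lit 254)) (XT.nd (nat_lit 94) (nat_lit 168) (nat_lit 0) (XT.lf (nat_lit 0) (nat_lit 3584897687) (nat_lit 336) (nat_lit 1253164498) (nat_lit 84) (nat_lit 7189829585) (nat_lit 26) (nat_lit 5) (nat_lit 30) (nat_lit 5) (nat_lit 27) (nat_lit 4) (nat_lit 343) (nat_lit 265) (nat_lit 253)) (XT.lf (nat_lit 0) (nat_lit 3121146328) (nat_lit 168) (nat_lit 2903069075) (nat_lit 252) (nat_lit 6265234055) (nat_lit 24) (nat_lit 5) (nat_lit 26) (nat_lit 5) (nat_lit 27) (nat_lit 4) (nat_lit 344) (nat_lit 265) (nat_lit 252))))) (XT.nd (nat_lit 188) (nat_lit 336) (nat_lit 0) (XT.nd (nat_lit 94) (nat_lit 0) (nat_lit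 0) (XT.lf (nat_lit 0) (nat_lit 7580714815) (nat_lit 168) (nat_lit 916210712) (nat_lit 252) (nat_lit 4063728055) (nat_lit 24) (nat_lit 5) (nat_lit 26) (nat_lit 5) (nat_lit 27) (nat_lit 4) (nat_lit 345) (nat_lit 265) (nat_lit 251)) (XT.lf (nat_lit 0) (nat_lit 11003669800) (nat_lit 252) (nat_lit 749244200) (nat_lit 0) (nat_lit 1088894490) (nat_lit 24) (nat_lit 5) (nat_lit 27) (nat_lit 4) (nat_lit 24) (nat_lit 4) (nat_lit 346) (nat_lit 265) (nat_lit 250))) (XT.nd (nat_lit 94) (nat_lit 0) (nat_lit 0) (XT.lf (nat_lit 0) (nat_lit 439831987) (nat_lit 336) (nat_lit 9534752581) (nat_lit 84) (nat_lit 3157393222) (nat_lit 20) (nat_lit 5) (nat_lit 24) (nat_lit 5) (nat_lit 21) (nat_lit 4) (nat_lit 347) (nat_lit 265) (nat_lit 249)) (XT.nd (nat_lit 94) (nat_lit 0) (nat_lit 0) (XT.lf (nat_lit 0) (nat_lit 2706018813) (nat_lit 336) (nat_lit 5429970047) (nat_lit 84) (nat_lit 5296144246) (nat_lit 20) (nat_lit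 5) (nat_lit 24) (nat_lit 5) (nat_lit 21) (nat_lit 4) (nat_lit 348) (nat_lit 265) (nat_lit 248)) (XT.lf (nat_lit 0) (nat_lit 4991905501) (nat_lit 336) (nat_lit 1270208003) (nat_lit 84) (nat_lit 7481243534) (nat_lit 20) (nat_lit 5) (nat_lit 24) (nat_lit 5) (nat_lit 21) (nat_lit 4) (nat_lit 349) (nat_lit 265) (nat_lit 247))))))))
noncomputable def xc10 : XT := (XT.nd (nat_lit 1692) (nat_lit 0) (nat_lit 0) (XT.nd (nat_lit 846) (nat_lit 336) (nat_lit 0) (XT.nd (nat_lit 376) (nat_lit 252) (nat_lit 0) (XT.nd (nat_lit 188) (nat_lit 168) (nat_lit 0) (XT.nd (nat_lit 94) (nat_lit 0) (nat_lit 0) (XT.lf (nat_lit 0) (nat_lit 3009036260) (nat_lit 168) (nat_lit 4320436491) (nat_lit 252) (nat_lit 6735541578) (nat_lit 18) (nat_lit 5) (nat_lit 20) (nat_lit 5) (nat_lit 21) (nat_lit 4) (nat_lit 350) (nat_lit 265) (nat_lit 246)) (XT.lf (nat_lit 0) (nat_lit 7378478716) (nat_lit 168) (nat_lit 2326038266) (nat_lit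 252) (nat_lit 4693395670) (nat_lit 18) (nat_lit 5) (nat_lit 20) (nat_lit 5) (nat_lit 21) (nat_lit 4) (nat_lit 351) (nat_lit 265) (nat_lit 245))) (XT.nd (nat_lit 94) (nat_lit 168) (nat_lit 0) (XT.lf (nat_lit 0) (nat_lit 11816074062) (nat_lit 168) (nat_lit 290318208) (nat_lit 252) (nat_lit 2636368687) (nat_lit 18) (nat_lit 5) (nat_lit 20) (nat_lit 5) (nat_lit 21) (nat_lit 4) (nat_lit 352) (nat_lit 265) (nat_lit 244)) (XT.lf (nat_lit 0) (nat_lit 1233180418) (nat_lit 168) (nat_lit 13334133640) (nat_lit 168) (nat_lit 531637340) (nat_lit 16) (nat_lit 4) (nat_lit 18) (nat_lit 5) (nat_lit 18) (nat_lit 4) (nat_lit 353) (nat_lit 265) (nat_lit 243)))) (XT.nd (nat_lit 188) (nat_lit 168) (nat_lit 0) (XT.nd (nat_lit 94) (nat_lit 0) (nat_lit 0) (XT.lf (nat_lit 0) (nat_lit 1593668242) (nat_lit 252) (nat_lit 9967807581) (nat_lit 84) (nat_lit 3904729430) (nat_lit 15) (nat_lit 5) (nat_lit 18) (nat_lit 5) (nat_lit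 16) (nat_lit 4) (nat_lit 354) (nat_lit 265) (nat_lit 242)) (XT.lf (nat_lit 0) (nat_lit 3729689001) (nat_lit 252) (nat_lit 6019512060) (nat_lit 84) (nat_lit 6097001106) (nat_lit 15) (nat_lit 5) (nat_lit 18) (nat_lit 5) (nat_lit 16) (nat_lit 4) (nat_lit 355) (nat_lit 265) (nat_lit 241))) (XT.nd (nat_lit 94) (nat_lit 168) (nat_lit 0) (XT.lf (nat_lit 0) (nat_lit 5889127239) (nat_lit 252) (nat_lit 2011930285) (nat_lit 84) (nat_lit 8338402307) (nat_lit 15) (nat_lit 5) (nat_lit 18) (nat_lit 5) (nat_lit 16) (nat_lit 4) (nat_lit 356) (nat_lit 265) (nat_lit 240)) (XT.nd (nat_lit 94) (nat_lit 0) (nat_lit 0) (XT.lf (nat_lit 0) (nat_lit 2101003775) (nat_lit 168) (nat_lit 5993834220) (nat_lit 252) (nat_lit 8550860694) (nat_lit 13) (nat_lit 5) (nat_lit 15) (nat_lit 5) (nat_lit 16) (nat_lit 4) (nat_lit 357) (nat_lit 265) (nat_lit 239)) (XT.lf (nat_lit 0) (nat_lit 6323497093) (nat_lit 168) (nat_lit 4025563927)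 (nat_lit 252) (nat_lit 6716230685) (nat_lit 13) (nat_lit 5) (nat_lit 15) (nat_lit 5) (nat_lit 16) (nat_lit 4) (nat_lit 358) (nat_lit 265) (nat_lit 238)))))) (XT.nd (nat_lit 376) (nat_lit 84) (nat_lit 0) (XT.nd (nat_lit 188) (nat_lit 252) (nat_lit 0) (XT.nd (nat_lit 94) (nat_lit 0) (nat_lit 0) (XT.lf (nat_lit 0) (nat_lit 10618116059) (nat_lit 168) (nat_lit 2015412435) (nat_lit 252) (nat_lit 4865732924) (nat_lit 13) (nat_lit 5) (nat_lit 15) (nat_lit 5) (nat_lit 16) (nat_lit 4) (nat_lit 359) (nat_lit 265) (nat_lit 237)) (XT.lf (nat_lit 0) (nat_lit 14950751648) (nat_lit 252) (nat_lit 2959530491) (nat_lit 0) (nat_lit 37718359) (nat_lit 13) (nat_lit 5) (nat_lit 16) (nat_lit 4) (nat_lit 13) (nat_lit 4) (nat_lit 360) (nat_lit 265) (nat_lit 236))) (XT.nd (nat_lit 94) (nat_lit 84) (nat_lit 0) (XT.lf (nat_lit 0) (nat_lit 1027339993) (nat_lit 168) (nat_lit 16305805687) (nat_lit 168) (nat_lit 1077843622)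 (nat_lit 11) (nat_lit 4) (nat_lit 13) (nat_lit 5) (nat_lit 13) (nat_lit 4) (nat_lit 361) (nat_lit 265) (nat_lit 235)) (XT.lf (nat_lit 0) (nat_lit 876718511) (nat_lit 252) (nat_lit 13752806298) (nat_lit 84) (nat_lit 4258845173) (nat_lit 10) (nat_lit 5) (nat_lit 13) (nat_lit 5) (nat_lit 11) (nat_lit 4) (nat_lit 362) (nat_lit 265) (nat_lit 234)))) (XT.nd (nat_lit 188) (nat_lit 84) (nat_lit 0) (XT.nd (nat_lit 94) (nat_lit 0) (nat_lit 0) (XT.lf (nat_lit 0) (nat_lit 2833209575) (nat_lit 252) (nat_lit 10075447954) (nat_lit 84) (nat_lit 6472795348) (nat_lit 10) (nat_lit 5) (nat_lit 13) (nat_lit 5) (nat_lit 11) (nat_lit 4) (nat_lit 363) (nat_lit 265) (nat_lit 233)) (XT.lf (nat_lit 0) (nat_lit 4815169370) (nat_lit 252) (nat_lit 6337454251) (nat_lit 84) (nat_lit 8738405432) (nat_lit 10) (nat_lit 5) (nat_lit 13) (nat_lit 5) (nat_lit 11) (nat_lit 4) (nat_lit 364) (nat_lit 265) (nat_lit 232))) (XT.nd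 (nat_lit 94) (nat_lit 84) (nat_lit 0) (XT.lf (nat_lit 0) (nat_lit 6824445289) (nat_lit 252) (nat_lit 2535340988) (nat_lit 84) (nat_lit 11057787210) (nat_lit 10) (nat_lit 5) (nat_lit 13) (nat_lit 5) (nat_lit 11) (nat_lit 4) (nat_lit 365) (nat_lit 265) (nat_lit 231)) (XT.nd (nat_lit 94) (nat_lit 0) (nat_lit 0) (XT.lf (nat_lit 0) (nat_lit 1361874538) (nat_lit 84) (nat_lit 7514545615) (nat_lit 168) (nat_lit 12084738016) (nat_lit 9) (nat_lit 5) (nat_lit 10) (nat_lit 5) (nat_lit 11) (nat_lit 4) (nat_lit 366) (nat_lit 265) (nat_lit 230)) (XT.lf (nat_lit 0) (nat_lit 5383957910) (nat_lit 84) (nat_lit 5601915752) (nat_lit 168) (nat_lit 10536017233) (nat_lit 9) (nat_lit 5) (nat_lit 10) (nat_lit 5) (nat_lit 11) (nat_lit 4) (nat_lit 367) (nat_lit 265) (nat_lit 229))))))) (XT.nd (nat_lit 51136) (nat_lit 0) (nat_lit 1260) (XT.nd (nat_lit 50666) (nat_lit 0) (nat_lit 2100) (XT.nd (nat_lit 50478) (nat_lit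 0) (nat_lit 3108) (XT.nd (nat_lit 50384) (nat_lit 0) (nat_lit 3528) (XT.lf (nat_lit 0) (nat_lit 9482526320) (nat_lit 84) (nat_lit 3646577677) (nat_lit 168) (nat_lit 8971986040) (nat_lit 9) (nat_lit 5) (nat_lit 10) (nat_lit 5) (nat_lit 11) (nat_lit 4) (nat_lit 368) (nat_lit 265) (nat_lit 228)) (XT.lf (nat_lit 0) (nat_lit 4540365957) (nat_lit 420) (nat_lit 33461776) (nat_lit 420) (nat_lit 33461776) (nat_lit 51) (nat_lit 4) (nat_lit 56) (nat_lit 5) (nat_lit 56) (nat_lit 4) (nat_lit 329) (nat_lit 266) (nat_lit 266))) (XT.nd (nat_lit 94) (nat_lit 0) (nat_lit 0) (XT.lf (nat_lit 0) (nat_lit 2605406251) (nat_lit 420) (nat_lit 5075331601) (nat_lit 0) (nat_lit 1688625194) (nat_lit 46) (nat_lit 5) (nat_lit 51) (nat_lit 4) (nat_lit 46) (nat_lit 4) (nat_lit 330) (nat_lit 266) (nat_lit 265)) (XT.lf (nat_lit 0) (nat_lit 5289081227) (nat_lit 420) (nat_lit 759304895) (nat_lit 0) (nat_lit 3483084789) (nat_lit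 46) (nat_lit 5) (nat_lit 51) (nat_lit 4) (nat_lit 46) (nat_lit 4) (nat_lit 331) (nat_lit 266) (nat_lit 264)))) (XT.nd (nat_lit 188) (nat_lit 588) (nat_lit 0) (XT.nd (nat_lit 94) (nat_lit 84) (nat_lit 0) (XT.lf (nat_lit 0) (nat_lit 3676293565) (nat_lit 336) (nat_lit 4346094090) (nat_lit 336) (nat_lit 1677619108) (nat_lit 42) (nat_lit 4) (nat_lit 46) (nat_lit 5) (nat_lit 46) (nat_lit 4) (nat_lit 332) (nat_lit 266) (nat_lit 263)) (XT.lf (nat_lit 0) (nat_lit 885349067) (nat_lit 420) (nat_lit 1706876657) (nat_lit 84) (nat_lit 7283501849) (nat_lit 41) (nat_lit 5) (nat_lit 46) (nat_lit 5) (nat_lit 42) (nat_lit 4) (nat_lit 333) (nat_lit 266) (nat_lit 262))) (XT.nd (nat_lit 94) (nat_lit 336) (nat_lit 0) (XT.lf (nat_lit 0) (nat_lit 2694414411) (nat_lit 252) (nat_lit 757494741) (nat_lit 336) (nat_lit 6606056555) (nat_lit 38) (nat_lit 5) (nat_lit 41) (nat_lit 5) (nat_lit 42) (nat_lit 4) (nat_lit 334)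 (nat_lit 266) (nat_lit 261)) (XT.nd (nat_lit 94) (nat_lit 336) (nat_lit 0) (XT.lf (nat_lit 0) (nat_lit 6060539040) (nat_lit 336) (nat_lit 3076217934) (nat_lit 0) (nat_lit 1110579119) (nat_lit 38) (nat_lit 5) (nat_lit 42) (nat_lit 4) (nat_lit 38) (nat_lit 4) (nat_lit 335) (nat_lit 266) (nat_lit 260)) (XT.lf (nat_lit 0) (nat_lit 1276826329) (nat_lit 336) (nat_lit 7428887988) (nat_lit 336) (nat_lit 1738547563) (nat_lit 34) (nat_lit 4) (nat_lit 38) (nat_lit 5) (nat_lit 38) (nat_lit 4) (nat_lit 336) (nat_lit 266) (nat_lit 259)))))) (XT.nd (nat_lit 470) (nat_lit 252) (nat_lit 0) (XT.nd (nat_lit 188) (nat_lit 504) (nat_lit 0) (XT.nd (nat_lit 94) (nat_lit 0) (nat_lit 0) (XT.lf (nat_lit 0) (nat_lit 737635464) (nat_lit 420) (nat_lit 4910321616) (nat_lit 84) (nat_lit 5000382370) (nat_lit 33) (nat_lit 5) (nat_lit 38) (nat_lit 5) (nat_lit 34) (nat_lit 4) (nat_lit 337) (nat_lit 266) (nat_lit 258)) (XT.lf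 (nat_lit 0) (nat_lit 3191836022) (nat_lit 420) (nat_lit 622366782) (nat_lit 84) (nat_lit 7046214665) (nat_lit 33) (nat_lit 5) (nat_lit 38) (nat_lit 5) (nat_lit 34) (nat_lit 4) (nat_lit 338) (nat_lit 266) (nat_lit 257))) (XT.nd (nat_lit 94) (nat_lit 252) (nat_lit 0) (XT.lf (nat_lit 0) (nat_lit 3794115350) (nat_lit 252) (nat_lit 1904892284) (nat_lit 336) (nat_lit 5381053843) (nat_lit 30) (nat_lit 5) (nat_lit 33) (nat_lit 5) (nat_lit 34) (nat_lit 4) (nat_lit 339) (nat_lit 266) (nat_lit 256)) (XT.nd (nat_lit 94) (nat_lit 252) (nat_lit 0) (XT.lf (nat_lit 0) (nat_lit 8231179198) (nat_lit 336) (nat_lit 3028248631) (nat_lit 0) (nat_lit 48987930) (nat_lit 30) (nat_lit 5) (nat_lit 34) (nat_lit 4) (nat_lit 30) (nat_lit 4) (nat_lit 340) (nat_lit 266) (nat_lit 255)) (XT.lf (nat_lit 0) (nat_lit 1288437429) (nat_lit 252) (nat_lit 9527560195) (nat_lit 252) (nat_lit 728911651) (nat_lit 27) (nat_lit 4) (nat_lit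 30) (nat_lit 5) (nat_lit 30) (nat_lit 4) (nat_lit 341) (nat_lit 266) (nat_lit 254))))) (XT.nd (nat_lit 188) (nat_lit 168) (nat_lit 0) (XT.nd (nat_lit 94) (nat_lit 0) (nat_lit 0) (XT.lf (nat_lit 0) (nat_lit 1632070962) (nat_lit 336) (nat_lit 6081834121) (nat_lit 84) (nat_lit 4075359596) (nat_lit 26) (nat_lit 5) (nat_lit 30) (nat_lit 5) (nat_lit 27) (nat_lit 4) (nat_lit 342) (nat_lit 266) (nat_lit 253)) (XT.lf (nat_lit 0) (nat_lit 3994868039) (nat_lit 336) (nat_lit 1862936714) (nat_lit 84) (nat_lit 6185138750) (nat_lit 26) (nat_lit 5) (nat_lit 30) (nat_lit 5) (nat_lit 27) (nat_lit 4) (nat_lit 343) (nat_lit 266) (nat_lit 252))) (XT.nd (nat_lit 94) (nat_lit 0) (nat_lit 0) (XT.lf (nat_lit 0) (nat_lit 2460966716) (nat_lit 168) (nat_lit 3939814275) (nat_lit 252) (nat_lit 5904868563) (nat_lit 24) (nat_lit 5) (nat_lit 26) (nat_lit 5) (nat_lit 27) (nat_lit 4) (nat_lit 344) (nat_lit 266) (nat_lit 251))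 (XT.nd (nat_lit 94) (nat_lit 0) (nat_lit 0) (XT.lf (nat_lit 0) (nat_lit 6883804622) (nat_lit 168) (nat_lit 1963273916) (nat_lit 252) (nat_lit 3730703354) (nat_lit 24) (nat_lit 5) (nat_lit 26) (nat_lit 5) (nat_lit 27) (nat_lit 4) (nat_lit 345) (nat_lit 266) (nat_lit 250)) (XT.lf (nat_lit 0) (nat_lit 11317718128) (nat_lit 252) (nat_lit 1489322901) (nat_lit 0) (nat_lit 53121148) (nat_lit 24) (nat_lit 5) (nat_lit 27) (nat_lit 4) (nat_lit 24) (nat_lit 4) (nat_lit 346) (nat_lit 266) (nat_lit 249))))))))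
noncomputable def xc11 : XT := (XT.nd (nat_lit 1786) (nat_lit 84) (nat_lit 0) (XT.nd (nat_lit 846) (nat_lit 420) (nat_lit 0) (XT.nd (nat_lit 376) (nat_lit 252) (nat_lit 0) (XT.nd (nat_lit 188) (nat_lit 168) (nat_lit 0) (XT.nd (nat_lit 94) (nat_lit 0) (nat_lit 0) (XT.lf (nat_lit 0) (nat_lit 696338014) (nat_lit 336) (nat_lit 10348177381) (nat_lit 84) (nat_lit 2106855159) (nat_lit 20) (nat_lit 5) (nat_lit 24) (nat_lit 5) (nat_lit 21) (nat_lit 4) (nat_lit 347) (nat_lit 266) (nat_lit 248)) (XT.lf (nat_lit 0) (nat_lit 2937634673) (nat_lit 336) (nat_lit 6278977687) (nat_lit 84) (nat_lit 4235781949) (nat_lit 20) (nat_lit 5) (nat_lit 24) (nat_lit 5) (nat_lit 21) (nat_lit 4) (nat_lit 348) (nat_lit 266) (nat_lit 247))) (XT.nd (nat_lit 94) (nat_lit 168) (nat_lit 0) (XT.lf (nat_lit 0) (nat_lit 5199379590) (nat_lit 336) (nat_lit 2153728581) (nat_lit 84) (nat_lit 6411352398) (nat_lit 20) (nat_lit 5) (nat_lit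 24) (nat_lit 5) (nat_lit 21) (nat_lit 4) (nat_lit 349) (nat_lit 266) (nat_lit 246)) (XT.lf (nat_lit 0) (nat_lit 2073185160) (nat_lit 168) (nat_lit 5431062041) (nat_lit 252) (nat_lit 6582975455) (nat_lit 18) (nat_lit 5) (nat_lit 20) (nat_lit 5) (nat_lit 21) (nat_lit 4) (nat_lit 350) (nat_lit 266) (nat_lit 245)))) (XT.nd (nat_lit 188) (nat_lit 252) (nat_lit 0) (XT.nd (nat_lit 94) (nat_lit 0) (nat_lit 0) (XT.lf (nat_lit 0) (nat_lit 6409491316) (nat_lit 168) (nat_lit 3446759587) (nat_lit 252) (nat_lit 4564672702) (nat_lit 18) (nat_lit 5) (nat_lit 20) (nat_lit 5) (nat_lit 21) (nat_lit 4) (nat_lit 351) (nat_lit 266) (nat_lit 244)) (XT.lf (nat_lit 0) (nat_lit 10814946699) (nat_lit 168) (nat_lit 1420831742) (nat_lit 252) (nat_lit 2530771959) (nat_lit 18) (nat_lit 5) (nat_lit 20) (nat_lit 5) (nat_lit 21) (nat_lit 4) (nat_lit 352) (nat_lit 266) (nat_lit 243))) (XT.nd (nat_lit 94) (nat_lit 84) (nat_lit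 0) (XT.lf (nat_lit 0) (nat_lit 166145626) (nat_lit 168) (nat_lit 14486984634) (nat_lit 168) (nat_lit 471044386) (nat_lit 16) (nat_lit 4) (nat_lit 18) (nat_lit 5) (nat_lit 18) (nat_lit 4) (nat_lit 353) (nat_lit 266) (nat_lit 242)) (XT.nd (nat_lit 94) (nat_lit 0) (nat_lit 0) (XT.lf (nat_lit 0) (nat_lit 1631314170) (nat_lit 252) (nat_lit 11092703808) (nat_lit 84) (nat_lit 2768143613) (nat_lit 15) (nat_lit 5) (nat_lit 18) (nat_lit 5) (nat_lit 16) (nat_lit 4) (nat_lit 354) (nat_lit 266) (nat_lit 241)) (XT.lf (nat_lit 0) (nat_lit 3746261977) (nat_lit 252) (nat_lit 7175482096) (nat_lit 84) (nat_lit 4951143552) (nat_lit 15) (nat_lit 5) (nat_lit 18) (nat_lit 5) (nat_lit 16) (nat_lit 4) (nat_lit 355) (nat_lit 266) (nat_lit 240)))))) (XT.nd (nat_lit 470) (nat_lit 252) (nat_lit 0) (XT.nd (nat_lit 188) (nat_lit 0) (nat_lit 0) (XT.nd (nat_lit 94) (nat_lit 168) (nat_lit 0) (XT.lf (nat_lit 0) (nat_lit 5885260883)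 (nat_lit 252) (nat_lit 3198039805) (nat_lit 84) (nat_lit 7183551797) (nat_lit 15) (nat_lit 5) (nat_lit 18) (nat_lit 5) (nat_lit 16) (nat_lit 4) (nat_lit 356) (nat_lit 266) (nat_lit 239)) (XT.lf (nat_lit 0) (nat_lit 860671060) (nat_lit 168) (nat_lit 7198171560) (nat_lit 252) (nat_lit 8615316089) (nat_lit 13) (nat_lit 5) (nat_lit 15) (nat_lit 5) (nat_lit 16) (nat_lit 4) (nat_lit 357) (nat_lit 266) (nat_lit 238))) (XT.nd (nat_lit 94) (nat_lit 0) (nat_lit 0) (XT.lf (nat_lit 0) (nat_lit 5054227084) (nat_lit 168) (nat_lit 5239322823) (nat_lit 252) (nat_lit 6800876025) (nat_lit 13) (nat_lit 5) (nat_lit 15) (nat_lit 5) (nat_lit 16) (nat_lit 4) (nat_lit 358) (nat_lit 266) (nat_lit 237)) (XT.nd (nat_lit 94) (nat_lit 0) (nat_lit 0) (XT.lf (nat_lit 0) (nat_lit 9320778841) (nat_lit 168) (nat_lit 3238309601) (nat_lit 252) (nat_lit 4969961140) (nat_lit 13) (nat_lit 5) (nat_lit 15) (nat_lit 5) (nat_lit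 16) (nat_lit 4) (nat_lit 359) (nat_lit 266) (nat_lit 236)) (XT.lf (nat_lit 0) (nat_lit 13664303203) (nat_lit 168) (nat_lit 1193266740) (nat_lit 252) (nat_lit 3120864829) (nat_lit 13) (nat_lit 5) (nat_lit 15) (nat_lit 5) (nat_lit 16) (nat_lit 4) (nat_lit 360) (nat_lit 266) (nat_lit 235))))) (XT.nd (nat_lit 188) (nat_lit 0) (nat_lit 0) (XT.nd (nat_lit 94) (nat_lit 252) (nat_lit 0) (XT.lf (nat_lit 0) (nat_lit 17200042254) (nat_lit 252) (nat_lit 363057001) (nat_lit 0) (nat_lit 879625056) (nat_lit 13) (nat_lit 5) (nat_lit 16) (nat_lit 4) (nat_lit 13) (nat_lit 4) (nat_lit 361) (nat_lit 266) (nat_lit 234)) (XT.lf (nat_lit 0) (nat_lit 693628235) (nat_lit 252) (nat_lit 15207933257) (nat_lit 84) (nat_lit 3019322374) (nat_lit 10) (nat_lit 5) (nat_lit 13) (nat_lit 5) (nat_lit 11) (nat_lit 4) (nat_lit 362) (nat_lit 266) (nat_lit 233))) (XT.nd (nat_lit 94) (nat_lit 0) (nat_lit 0) (XT.lf (nat_lit 0) (nat_lit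 2632796555) (nat_lit 252) (nat_lit 11556849039) (nat_lit 84) (nat_lit 5224915805) (nat_lit 10) (nat_lit 5) (nat_lit 13) (nat_lit 5) (nat_lit 11) (nat_lit 4) (nat_lit 363) (nat_lit 266) (nat_lit 232)) (XT.nd (nat_lit 94) (nat_lit 0) (nat_lit 0) (XT.lf (nat_lit 0) (nat_lit 4597954464) (nat_lit 252) (nat_lit 7844339455) (nat_lit 84) (nat_lit 7482420415) (nat_lit 10) (nat_lit 5) (nat_lit 13) (nat_lit 5) (nat_lit 11) (nat_lit 4) (nat_lit 364) (nat_lit 266) (nat_lit 231)) (XT.lf (nat_lit 0) (nat_lit 6590933696) (nat_lit 252) (nat_lit 4066944057) (nat_lit 84) (nat_lit 9793940434) (nat_lit 10) (nat_lit 5) (nat_lit 13) (nat_lit 5) (nat_lit 11) (nat_lit 4) (nat_lit 365) (nat_lit 266) (nat_lit 230))))))) (XT.nd (nat_lit 50948) (nat_lit 0) (nat_lit 1428) (XT.nd (nat_lit 50478) (nat_lit 0) (nat_lit 2772) (XT.nd (nat_lit 188) (nat_lit 0) (nat_lit 0) (XT.nd (nat_lit 94) (nat_lit 84) (nat_lit 0) (XT.lf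 (nat_lit 0) (nat_lit 8613591916) (nat_lit 252) (nat_lit 221141917) (nat_lit 84) (nat_lit 12161630441) (nat_lit 10) (nat_lit 5) (nat_lit 13) (nat_lit 5) (nat_lit 11) (nat_lit 4) (nat_lit 366) (nat_lit 266) (nat_lit 229)) (XT.lf (nat_lit 0) (nat_lit 3772662394) (nat_lit 84) (nat_lit 6932577336) (nat_lit 168) (nat_lit 10852460254) (nat_lit 9) (nat_lit 5) (nat_lit 10) (nat_lit 5) (nat_lit 11) (nat_lit 4) (nat_lit 367) (nat_lit 266) (nat_lit 228))) (XT.nd (nat_lit 50196) (nat_lit 0) (nat_lit 3528) (XT.lf (nat_lit 0) (nat_lit 7848212444) (nat_lit 84) (nat_lit 4985158852) (nat_lit 168) (nat_lit 9304045367) (nat_lit 9) (nat_lit 5) (nat_lit 10) (nat_lit 5) (nat_lit 11) (nat_lit 4) (nat_lit 368) (nat_lit 266) (nat_lit 227)) (XT.lf (nat_lit 0) (nat_lit 96058183) (nat_lit 420) (nat_lit 2181994865) (nat_lit 420) (nat_lit 2181994865) (nat_lit 51) (nat_lit 4) (nat_lit 56) (nat_lit 5) (nat_lit 56) (nat_lit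 4) (nat_lit 327) (nat_lit 267) (nat_lit 267)))) (XT.nd (nat_lit 188) (nat_lit 672) (nat_lit 0) (XT.nd (nat_lit 94) (nat_lit 84) (nat_lit 0) (XT.lf (nat_lit 0) (nat_lit 4590484055) (nat_lit 420) (nat_lit 2724224770) (nat_lit 420) (nat_lit 1749722261) (nat_lit 51) (nat_lit 4) (nat_lit 56) (nat_lit 5) (nat_lit 56) (nat_lit 4) (nat_lit 328) (nat_lit 267) (nat_lit 266)) (XT.lf (nat_lit 0) (nat_lit 853170318) (nat_lit 504) (nat_lit 186914862) (nat_lit 84) (nat_lit 8175524117) (nat_lit 50) (nat_lit 5) (nat_lit 56) (nat_lit 5) (nat_lit 51) (nat_lit 4) (nat_lit 329) (nat_lit 267) (nat_lit 265))) (XT.nd (nat_lit 94) (nat_lit 336) (nat_lit 0) (XT.lf (nat_lit 0) (nat_lit 3478404779) (nat_lit 420) (nat_lit 5166362918) (nat_lit 0) (nat_lit 727207072) (nat_lit 46) (nat_lit 5) (nat_lit 51) (nat_lit 4) (nat_lit 46) (nat_lit 4) (nat_lit 330) (nat_lit 267) (nat_lit 264)) (XT.nd (nat_lit 94) (nat_lit 336) (nat_lit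 0) (XT.lf (nat_lit 0) (nat_lit 6127598337) (nat_lit 420) (nat_lit 893809474) (nat_lit 0) (nat_lit 2513922085) (nat_lit 46) (nat_lit 5) (nat_lit 51) (nat_lit 4) (nat_lit 46) (nat_lit 4) (nat_lit 331) (nat_lit 267) (nat_lit 263)) (XT.lf (nat_lit 0) (nat_lit 3495990160) (nat_lit 336) (nat_lit 5329681340) (nat_lit 336) (nat_lit 879459457) (nat_lit 42) (nat_lit 4) (nat_lit 46) (nat_lit 5) (nat_lit 46) (nat_lit 4) (nat_lit 332) (nat_lit 267) (nat_lit 262)))))) (XT.nd (nat_lit 470) (nat_lit 588) (nat_lit 0) (XT.nd (nat_lit 188) (nat_lit 420) (nat_lit 0) (XT.nd (nat_lit 94) (nat_lit 252) (nat_lit 0) (XT.lf (nat_lit 0) (nat_lit 1634074092) (nat_lit 420) (nat_lit 1942809865) (nat_lit 84) (nat_lit 6304919046) (nat_lit 41) (nat_lit 5) (nat_lit 46) (nat_lit 5) (nat_lit 42) (nat_lit 4) (nat_lit 333) (nat_lit 267) (nat_lit 261)) (XT.lf (nat_lit 0) (nat_lit 2411473327) (nat_lit 252) (nat_lit 1754003420)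 (nat_lit 336) (nat_lit 5899812109) (nat_lit 38) (nat_lit 5) (nat_lit 41) (nat_lit 5) (nat_lit 42) (nat_lit 4) (nat_lit 334) (nat_lit 267) (nat_lit 260))) (XT.nd (nat_lit 94) (nat_lit 420) (nat_lit 0) (XT.lf (nat_lit 0) (nat_lit 6732347290) (nat_lit 336) (nat_lit 3398533777) (nat_lit 0) (nat_lit 125225809) (nat_lit 38) (nat_lit 5) (nat_lit 42) (nat_lit 4) (nat_lit 38) (nat_lit 4) (nat_lit 335) (nat_lit 267) (nat_lit 259)) (XT.nd (nat_lit 94) (nat_lit 84) (nat_lit 0) (XT.lf (nat_lit 0) (nat_lit 906370489) (nat_lit 336) (nat_lit 8436561635) (nat_lit 336) (nat_lit 1111321333) (nat_lit 34) (nat_lit 4) (nat_lit 38) (nat_lit 5) (nat_lit 38) (nat_lit 4) (nat_lit 336) (nat_lit 267) (nat_lit 258)) (XT.lf (nat_lit 0) (nat_lit 1321387250) (nat_lit 420) (nat_lit 5338029295) (nat_lit 84) (nat_lit 3999817243) (nat_lit 33) (nat_lit 5) (nat_lit 38) (nat_lit 5) (nat_lit 34) (nat_lit 4) (nat_lit 337) (nat_lit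 267) (nat_lit 257))))) (XT.nd (nat_lit 188) (nat_lit 336) (nat_lit 0) (XT.nd (nat_lit 94) (nat_lit 252) (nat_lit 0) (XT.lf (nat_lit 0) (nat_lit 3745677785) (nat_lit 420) (nat_lit 1089878631) (nat_lit 84) (nat_lit 6036818095) (nat_lit 33) (nat_lit 5) (nat_lit 38) (nat_lit 5) (nat_lit 34) (nat_lit 4) (nat_lit 338) (nat_lit 267) (nat_lit 256)) (XT.lf (nat_lit 0) (nat_lit 3277589309) (nat_lit 252) (nat_lit 2941125395) (nat_lit 336) (nat_lit 4874493413) (nat_lit 30) (nat_lit 5) (nat_lit 33) (nat_lit 5) (nat_lit 34) (nat_lit 4) (nat_lit 339) (nat_lit 267) (nat_lit 255))) (XT.nd (nat_lit 94) (nat_lit 336) (nat_lit 0) (XT.lf (nat_lit 0) (nat_lit 7725935943) (nat_lit 252) (nat_lit 995936853) (nat_lit 336) (nat_lit 2600716488) (nat_lit 30) (nat_lit 5) (nat_lit 33) (nat_lit 5) (nat_lit 34) (nat_lit 4) (nat_lit 340) (nat_lit 267) (nat_lit 254)) (XT.nd (nat_lit 94) (nat_lit 84) (nat_lit 0) (XT.lf (nat_lit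 0) (nat_lit 679692517) (nat_lit 252) (nat_lit 10583326689) (nat_lit 252) (nat_lit 297541062) (nat_lit 27) (nat_lit 4) (nat_lit 30) (nat_lit 5) (nat_lit 30) (nat_lit 4) (nat_lit 341) (nat_lit 267) (nat_lit 253)) (XT.lf (nat_lit 0) (nat_lit 2027062168) (nat_lit 336) (nat_lit 6748765818) (nat_lit 84) (nat_lit 3029929677) (nat_lit 26) (nat_lit 5) (nat_lit 30) (nat_lit 5) (nat_lit 27) (nat_lit 4) (nat_lit 342) (nat_lit 267) (nat_lit 252))))))))
noncomputable def xc12 : XT := (XT.nd (nat_lit 1692) (nat_lit 336) (nat_lit 0) (XT.nd (nat_lit 846) (nat_lit 420) (nat_lit 0) (XT.nd (nat_lit 376) (nat_lit 504) (nat_lit 0) (XT.nd (nat_lit 188) (nat_lit 0) (nat_lit 0) (XT.nd (nat_lit 94) (nat_lit 168) (nat_lit 0) (XT.lf (nat_lit 0) (nat_lit 4363003544) (nat_lit 336) (nat_lit 2566974659) (nat_lit 84) (nat_lit 5130403626) (nat_lit 26) (nat_lit 5) (nat_lit 30) (nat_lit 5) (nat_lit 27) (nat_lit 4) (nat_lit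 343) (nat_lit 267) (nat_lit 251)) (XT.lf (nat_lit 0) (nat_lit 1705721725) (nat_lit 168) (nat_lit 5029654441) (nat_lit 252) (nat_lit 5588860888) (nat_lit 24) (nat_lit 5) (nat_lit 26) (nat_lit 5) (nat_lit 27) (nat_lit 4) (nat_lit 344) (nat_lit 267) (nat_lit 250))) (XT.nd (nat_lit 94) (nat_lit 0) (nat_lit 0) (XT.lf (nat_lit 0) (nat_lit 6092933461) (nat_lit 168) (nat_lit 3063121844) (nat_lit 252) (nat_lit 3441214389) (nat_lit 24) (nat_lit 5) (nat_lit 26) (nat_lit 5) (nat_lit 27) (nat_lit 4) (nat_lit 345) (nat_lit 267) (nat_lit 249)) (XT.lf (nat_lit 0) (nat_lit 10545967626) (nat_lit 168) (nat_lit 1055341350) (nat_lit 252) (nat_lit 1279230910) (nat_lit 24) (nat_lit 5) (nat_lit 26) (nat_lit 5) (nat_lit 27) (nat_lit 4) (nat_lit 346) (nat_lit 267) (nat_lit 248)))) (XT.nd (nat_lit 188) (nat_lit 168) (nat_lit 0) (XT.nd (nat_lit 94) (nat_lit 0) (nat_lit 0) (XT.lf (nat_lit 0) (nat_lit 910243799) (nat_lit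 336) (nat_lit 11259087097) (nat_lit 84) (nat_lit 1003797397) (nat_lit 20) (nat_lit 5) (nat_lit 24) (nat_lit 5) (nat_lit 21) (nat_lit 4) (nat_lit 347) (nat_lit 267) (nat_lit 247)) (XT.lf (nat_lit 0) (nat_lit 3127398686) (nat_lit 336) (nat_lit 7224400342) (nat_lit 84) (nat_lit 3123195348) (nat_lit 20) (nat_lit 5) (nat_lit 24) (nat_lit 5) (nat_lit 21) (nat_lit 4) (nat_lit 348) (nat_lit 267) (nat_lit 246))) (XT.nd (nat_lit 94) (nat_lit 168) (nat_lit 0) (XT.lf (nat_lit 0) (nat_lit 5365727724) (nat_lit 336) (nat_lit 3132626443) (nat_lit 84) (nat_lit 5289523469) (nat_lit 20) (nat_lit 5) (nat_lit 24) (nat_lit 5) (nat_lit 21) (nat_lit 4) (nat_lit 349) (nat_lit 267) (nat_lit 245)) (XT.nd (nat_lit 94) (nat_lit 0) (nat_lit 0) (XT.lf (nat_lit 0) (nat_lit 1041022849) (nat_lit 168) (nat_lit 6596621495) (nat_lit 252) (nat_lit 6474105229) (nat_lit 18) (nat_lit 5) (nat_lit 20) (nat_lit 5) (nat_lit 21) (nat_lit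 4) (nat_lit 350) (nat_lit 267) (nat_lit 244)) (XT.lf (nat_lit 0) (nat_lit 5345189043) (nat_lit 168) (nat_lit 4622111254) (nat_lit 252) (nat_lit 4478928717) (nat_lit 18) (nat_lit 5) (nat_lit 20) (nat_lit 5) (nat_lit 21) (nat_lit 4) (nat_lit 351) (nat_lit 267) (nat_lit 243)))))) (XT.nd (nat_lit 376) (nat_lit 168) (nat_lit 0) (XT.nd (nat_lit 188) (nat_lit 252) (nat_lit 0) (XT.nd (nat_lit 94) (nat_lit 0) (nat_lit 0) (XT.lf (nat_lit 0) (nat_lit 9719470845) (nat_lit 168) (nat_lit 2605681190) (nat_lit 252) (nat_lit 2467458858) (nat_lit 18) (nat_lit 5) (nat_lit 20) (nat_lit 5) (nat_lit 21) (nat_lit 4) (nat_lit 352) (nat_lit 267) (nat_lit 242)) (XT.lf (nat_lit 0) (nat_lit 14167945544) (nat_lit 168) (nat_lit 545451780) (nat_lit 252) (nat_lit 437820752) (nat_lit 18) (nat_lit 5) (nat_lit 20) (nat_lit 5) (nat_lit 21) (nat_lit 4) (nat_lit 353) (nat_lit 267) (nat_lit 241))) (XT.nd (nat_lit 94) (nat_lit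 0) (nat_lit 0) (XT.lf (nat_lit 0) (nat_lit 1627327956) (nat_lit 252) (nat_lit 12315582724) (nat_lit 84) (nat_lit 1577492737) (nat_lit 15) (nat_lit 5) (nat_lit 18) (nat_lit 5) (nat_lit 16) (nat_lit 4) (nat_lit 354) (nat_lit 267) (nat_lit 240)) (XT.lf (nat_lit 0) (nat_lit 3721836431) (nat_lit 252) (nat_lit 8428500497) (nat_lit 84) (nat_lit 3751499721) (nat_lit 15) (nat_lit 5) (nat_lit 18) (nat_lit 5) (nat_lit 16) (nat_lit 4) (nat_lit 355) (nat_lit 267) (nat_lit 239)))) (XT.nd (nat_lit 188) (nat_lit 168) (nat_lit 0) (XT.nd (nat_lit 94) (nat_lit 0) (nat_lit 0) (XT.lf (nat_lit 0) (nat_lit 5841010572) (nat_lit 252) (nat_lit 4480291460) (nat_lit 84) (nat_lit 5975185410) (nat_lit 15) (nat_lit 5) (nat_lit 18) (nat_lit 5) (nat_lit 16) (nat_lit 4) (nat_lit 356) (nat_lit 267) (nat_lit 238)) (XT.lf (nat_lit 0) (nat_lit 7986825671) (nat_lit 252) (nat_lit 467275469) (nat_lit 84) (nat_lit 8250622512) (nat_lit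 15) (nat_lit 5) (nat_lit 18) (nat_lit 5) (nat_lit 16) (nat_lit 4) (nat_lit 357) (nat_lit 267) (nat_lit 237))) (XT.nd (nat_lit 94) (nat_lit 0) (nat_lit 0) (XT.lf (nat_lit 0) (nat_lit 3688605202) (nat_lit 168) (nat_lit 6509268071) (nat_lit 252) (nat_lit 6927918191) (nat_lit 13) (nat_lit 5) (nat_lit 15) (nat_lit 5) (nat_lit 16) (nat_lit 4) (nat_lit 358) (nat_lit 267) (nat_lit 236)) (XT.nd (nat_lit 94) (nat_lit 0) (nat_lit 0) (XT.lf (nat_lit 0) (nat_lit 7927933670) (nat_lit 168) (nat_lit 4517118350) (nat_lit 252) (nat_lit 5115997366) (nat_lit 13) (nat_lit 5) (nat_lit 15) (nat_lit 5) (nat_lit 16) (nat_lit 4) (nat_lit 359) (nat_lit 267) (nat_lit 235)) (XT.lf (nat_lit 0) (nat_lit 12245053292) (nat_lit 168) (nat_lit 2480672484) (nat_lit 252) (nat_lit 3285324003) (nat_lit 13) (nat_lit 5) (nat_lit 15) (nat_lit 5) (nat_lit 16) (nat_lit 4) (nat_lit 360) (nat_lit 267) (nat_lit 234))))))) (XT.nd (nat_lit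 50760) (nat_lit 0) (nat_lit 2436) (XT.nd (nat_lit 376) (nat_lit 84) (nat_lit 0) (XT.nd (nat_lit 188) (nat_lit 0) (nat_lit 0) (XT.nd (nat_lit 94) (nat_lit 252) (nat_lit 0) (XT.lf (nat_lit 0) (nat_lit 16643988074) (nat_lit 168) (nat_lit 398032293) (nat_lit 252) (nat_lit 1434191723) (nat_lit 13) (nat_lit 5) (nat_lit 15) (nat_lit 5) (nat_lit 16) (nat_lit 4) (nat_lit 361) (nat_lit 267) (nat_lit 233)) (XT.lf (nat_lit 0) (nat_lit 469679667) (nat_lit 252) (nat_lit 16761531902) (nat_lit 84) (nat_lit 1724401822) (nat_lit 10) (nat_lit 5) (nat_lit 13) (nat_lit 5) (nat_lit 11) (nat_lit 4) (nat_lit 362) (nat_lit 267) (nat_lit 232))) (XT.nd (nat_lit 94) (nat_lit 0) (nat_lit 0) (XT.lf (nat_lit 0) (nat_lit 2392046102) (nat_lit 252) (nat_lit 13135931803) (nat_lit 84) (nat_lit 3921889779) (nat_lit 10) (nat_lit 5) (nat_lit 13) (nat_lit 5) (nat_lit 11) (nat_lit 4) (nat_lit 363) (nat_lit 267) (nat_lit 231)) (XT.lf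 (nat_lit 0) (nat_lit 4340907324) (nat_lit 252) (nat_lit 9448140083) (nat_lit 84) (nat_lit 6171532629) (nat_lit 10) (nat_lit 5) (nat_lit 13) (nat_lit 5) (nat_lit 11) (nat_lit 4) (nat_lit 364) (nat_lit 267) (nat_lit 230)))) (XT.nd (nat_lit 188) (nat_lit 84) (nat_lit 0) (XT.nd (nat_lit 94) (nat_lit 0) (nat_lit 0) (XT.lf (nat_lit 0) (nat_lit 6318079875) (nat_lit 252) (nat_lit 5694719336) (nat_lit 84) (nat_lit 8475427275) (nat_lit 10) (nat_lit 5) (nat_lit 13) (nat_lit 5) (nat_lit 11) (nat_lit 4) (nat_lit 365) (nat_lit 267) (nat_lit 229)) (XT.lf (nat_lit 0) (nat_lit 8325406688) (nat_lit 252) (nat_lit 1872170979) (nat_lit 84) (nat_lit 10835721188) (nat_lit 10) (nat_lit 5) (nat_lit 13) (nat_lit 5) (nat_lit 11) (nat_lit 4) (nat_lit 366) (nat_lit 267) (nat_lit 228))) (XT.nd (nat_lit 94) (nat_lit 0) (nat_lit 0) (XT.lf (nat_lit 0) (nat_lit 2064666429) (nat_lit 84) (nat_lit 8320574118) (nat_lit 168)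 (nat_lit 11210429726) (nat_lit 9) (nat_lit 5) (nat_lit 10) (nat_lit 5) (nat_lit 11) (nat_lit 4) (nat_lit 367) (nat_lit 267) (nat_lit 227)) (XT.nd (nat_lit 50008) (nat_lit 0) (nat_lit 3948) (XT.lf (nat_lit 0) (nat_lit 6117890232) (nat_lit 84) (nat_lit 6380837099) (nat_lit 168) (nat_lit 9677161595) (nat_lit 9) (nat_lit 5) (nat_lit 10) (nat_lit 5) (nat_lit 11) (nat_lit 4) (nat_lit 368) (nat_lit 267) (nat_lit 226)) (XT.lf (nat_lit 0) (nat_lit 97298186) (nat_lit 420) (nat_lit 4129530611) (nat_lit 0) (nat_lit 97298186) (nat_lit 56) (nat_lit 5) (nat_lit 61) (nat_lit 4) (nat_lit 56) (nat_lit 4) (nat_lit 325) (nat_lit 268) (nat_lit 268)))))) (XT.nd (nat_lit 470) (nat_lit 672) (nat_lit 0) (XT.nd (nat_lit 188) (nat_lit 420) (nat_lit 0) (XT.nd (nat_lit 94) (nat_lit 420) (nat_lit 0) (XT.lf (nat_lit 0) (nat_lit 2854206524) (nat_lit 420) (nat_lit 4077755996) (nat_lit 0) (nat_lit 1849494437) (nat_lit 56)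 (nat_lit 5) (nat_lit 61) (nat_lit 4) (nat_lit 56) (nat_lit 4) (nat_lit 326) (nat_lit 268) (nat_lit 267)) (XT.lf (nat_lit 0) (nat_lit 147647138) (nat_lit 420) (nat_lit 5376500783) (nat_lit 420) (nat_lit 3397286187) (nat_lit 51) (nat_lit 4) (nat_lit 56) (nat_lit 5) (nat_lit 56) (nat_lit 4) (nat_lit 327) (nat_lit 268) (nat_lit 266))) (XT.nd (nat_lit 94) (nat_lit 420) (nat_lit 0) (XT.lf (nat_lit 0) (nat_lit 4502882696) (nat_lit 420) (nat_lit 3744300289) (nat_lit 420) (nat_lit 819884424) (nat_lit 51) (nat_lit 4) (nat_lit 56) (nat_lit 5) (nat_lit 56) (nat_lit 4) (nat_lit 328) (nat_lit 268) (nat_lit 265)) (XT.nd (nat_lit 94) (nat_lit 336) (nat_lit 0) (XT.lf (nat_lit 0) (nat_lit 1729237190) (nat_lit 504) (nat_lit 329116188) (nat_lit 84) (nat_lit 7160876306) (nat_lit 50) (nat_lit 5) (nat_lit 56) (nat_lit 5) (nat_lit 51) (nat_lit 4) (nat_lit 329) (nat_lit 268) (nat_lit 264)) (XT.lf (nat_lit 0) (nat_lit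 4025770288) (nat_lit 336) (nat_lit 285496373) (nat_lit 420) (nat_lit 5065846188) (nat_lit 46) (nat_lit 5) (nat_lit 50) (nat_lit 5) (nat_lit 51) (nat_lit 4) (nat_lit 330) (nat_lit 268) (nat_lit 263))))) (XT.nd (nat_lit 188) (nat_lit 336) (nat_lit 0) (XT.nd (nat_lit 94) (nat_lit 336) (nat_lit 0) (XT.lf (nat_lit 0) (nat_lit 6924183428) (nat_lit 420) (nat_lit 1118123072) (nat_lit 0) (nat_lit 1499459036) (nat_lit 46) (nat_lit 5) (nat_lit 51) (nat_lit 4) (nat_lit 46) (nat_lit 4) (nat_lit 331) (nat_lit 268) (nat_lit 262)) (XT.lf (nat_lit 0) (nat_lit 3225324995) (nat_lit 336) (nat_lit 6361807540) (nat_lit 336) (nat_lit 125690684) (nat_lit 42) (nat_lit 4) (nat_lit 46) (nat_lit 5) (nat_lit 46) (nat_lit 4) (nat_lit 332) (nat_lit 268) (nat_lit 261))) (XT.nd (nat_lit 94) (nat_lit 252) (nat_lit 0) (XT.lf (nat_lit 0) (nat_lit 2340305486) (nat_lit 420) (nat_lit 2269952014) (nat_lit 84) (nat_lit 5280166672)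 (nat_lit 41) (nat_lit 5) (nat_lit 46) (nat_lit 5) (nat_lit 42) (nat_lit 4) (nat_lit 333) (nat_lit 268) (nat_lit 260)) (XT.nd (nat_lit 94) (nat_lit 0) (nat_lit 0) (XT.lf (nat_lit 0) (nat_lit 2036715422) (nat_lit 252) (nat_lit 2799897171) (nat_lit 336) (nat_lit 5238538486) (nat_lit 38) (nat_lit 5) (nat_lit 41) (nat_lit 5) (nat_lit 42) (nat_lit 4) (nat_lit 334) (nat_lit 268) (nat_lit 259)) (XT.lf (nat_lit 0) (nat_lit 6444462698) (nat_lit 252) (nat_lit 926924774) (nat_lit 336) (nat_lit 2895725081) (nat_lit 38) (nat_lit 5) (nat_lit 41) (nat_lit 5) (nat_lit 42) (nat_lit 4) (nat_lit 335) (nat_lit 268) (nat_lit 258))))))))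
noncomputable def xc13 : XT := (XT.nd (nat_lit 1786) (nat_lit 504) (nat_lit 0) (XT.nd (nat_lit 846) (nat_lit 756) (nat_lit 0) (XT.nd (nat_lit 376) (nat_lit 504) (nat_lit 0) (XT.nd (nat_lit 188) (nat_lit 252) (nat_lit 0) (XT.nd (nat_lit 94) (nat_lit 84) (nat_lit 0) (XT.lf (nat_lit 0) (nat_lit 442653665) (nat_lit 336) (nat_lit 9495537391) (nat_lit 336) (nat_lit 528569321) (nat_lit 34) (nat_lit 4) (nat_lit 38) (nat_lit 5) (nat_lit 38) (nat_lit 4) (nat_lit 336) (nat_lit 268) (nat_lit 257)) (XT.lf (nat_lit 0) (nat_lit 1862488084) (nat_lit 420) (nat_lit 5859838182) (nat_lit 84) (nat_lit 2950297937) (nat_lit 33) (nat_lit 5) (nat_lit 38) (nat_lit 5) (nat_lit 34) (nat_lit 4) (nat_lit 337) (nat_lit 268) (nat_lit 256))) (XT.nd (nat_lit 94) (nat_lit 252) (nat_lit 0) (XT.lf (nat_lit 0) (nat_lit 4257767928) (nat_lit 420) (nat_lit 1650294862) (nat_lit 84) (nat_lit 4978732889) (nat_lit 33) (nat_lit 5) (nat_lit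 38) (nat_lit 5) (nat_lit 34) (nat_lit 4) (nat_lit 338) (nat_lit 268) (nat_lit 255)) (XT.lf (nat_lit 0) (nat_lit 2667433293) (nat_lit 252) (nat_lit 4029180329) (nat_lit 336) (nat_lit 4412203058) (nat_lit 30) (nat_lit 5) (nat_lit 33) (nat_lit 5) (nat_lit 34) (nat_lit 4) (nat_lit 339) (nat_lit 268) (nat_lit 254)))) (XT.nd (nat_lit 188) (nat_lit 420) (nat_lit 0) (XT.nd (nat_lit 94) (nat_lit 84) (nat_lit 0) (XT.lf (nat_lit 0) (nat_lit 7078712538) (nat_lit 252) (nat_lit 2093399125) (nat_lit 336) (nat_lit 2167067282) (nat_lit 30) (nat_lit 5) (nat_lit 33) (nat_lit 5) (nat_lit 34) (nat_lit 4) (nat_lit 340) (nat_lit 268) (nat_lit 253)) (XT.lf (nat_lit 0) (nat_lit 89408167) (nat_lit 336) (nat_lit 25799115) (nat_lit 84) (nat_lit 11463379794) (nat_lit 29) (nat_lit 5) (nat_lit 33) (nat_lit 5) (nat_lit 30) (nat_lit 5) (nat_lit 341) (nat_lit 268) (nat_lit 252))) (XT.nd (nat_lit 94) (nat_lit 168) (nat_lit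 0) (XT.lf (nat_lit 0) (nat_lit 2379754173) (nat_lit 336) (nat_lit 7511735188) (nat_lit 84) (nat_lit 1933192558) (nat_lit 26) (nat_lit 5) (nat_lit 30) (nat_lit 5) (nat_lit 27) (nat_lit 4) (nat_lit 342) (nat_lit 268) (nat_lit 251)) (XT.nd (nat_lit 94) (nat_lit 168) (nat_lit 0) (XT.lf (nat_lit 0) (nat_lit 4689647343) (nat_lit 336) (nat_lit 3365934571) (nat_lit 84) (nat_lit 4024641089) (nat_lit 26) (nat_lit 5) (nat_lit 30) (nat_lit 5) (nat_lit 27) (nat_lit 4) (nat_lit 343) (nat_lit 268) (nat_lit 250)) (XT.lf (nat_lit 0) (nat_lit 854707389) (nat_lit 168) (nat_lit 6173605418) (nat_lit 252) (nat_lit 5316916476) (nat_lit 24) (nat_lit 5) (nat_lit 26) (nat_lit 5) (nat_lit 27) (nat_lit 4) (nat_lit 344) (nat_lit 268) (nat_lit 249)))))) (XT.nd (nat_lit 470) (nat_lit 420) (nat_lit 0) (XT.nd (nat_lit 188) (nat_lit 336) (nat_lit 0) (XT.nd (nat_lit 94) (nat_lit 0) (nat_lit 0) (XT.lf (nat_lit 0) (nat_lit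 5207364159) (nat_lit 168) (nat_lit 4216779671) (nat_lit 252) (nat_lit 3194991327) (nat_lit 24) (nat_lit 5) (nat_lit 26) (nat_lit 5) (nat_lit 27) (nat_lit 4) (nat_lit 345) (nat_lit 268) (nat_lit 248)) (XT.lf (nat_lit 0) (nat_lit 9626882353) (nat_lit 168) (nat_lit 2218414162) (nat_lit 252) (nat_lit 1057955811) (nat_lit 24) (nat_lit 5) (nat_lit 26) (nat_lit 5) (nat_lit 27) (nat_lit 4) (nat_lit 346) (nat_lit 268) (nat_lit 247))) (XT.nd (nat_lit 94) (nat_lit 0) (nat_lit 0) (XT.lf (nat_lit 0) (nat_lit 927345492) (nat_lit 252) (nat_lit 155950278) (nat_lit 336) (nat_lit 12113927560) (nat_lit 20) (nat_lit 5) (nat_lit 23) (nat_lit 5) (nat_lit 24) (nat_lit 5) (nat_lit 347) (nat_lit 268) (nat_lit 246)) (XT.nd (nat_lit 94) (nat_lit 0) (nat_lit 0) (XT.lf (nat_lit 0) (nat_lit 3275487733) (nat_lit 336) (nat_lit 8267119245) (nat_lit 84) (nat_lit 1957347395) (nat_lit 20) (nat_lit 5) (nat_lit 24) (nat_lit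 5) (nat_lit 21) (nat_lit 4) (nat_lit 348) (nat_lit 268) (nat_lit 245)) (XT.lf (nat_lit 0) (nat_lit 5491104957) (nat_lit 336) (nat_lit 4207814025) (nat_lit 84) (nat_lit 4114711086) (nat_lit 20) (nat_lit 5) (nat_lit 24) (nat_lit 5) (nat_lit 21) (nat_lit 4) (nat_lit 349) (nat_lit 268) (nat_lit 244))))) (XT.nd (nat_lit 188) (nat_lit 252) (nat_lit 0) (XT.nd (nat_lit 94) (nat_lit 168) (nat_lit 0) (XT.lf (nat_lit 0) (nat_lit 7730665586) (nat_lit 336) (nat_lit 86631435) (nat_lit 84) (nat_lit 6321293732) (nat_lit 20) (nat_lit 5) (nat_lit 24) (nat_lit 5) (nat_lit 21) (nat_lit 4) (nat_lit 350) (nat_lit 268) (nat_lit 243)) (XT.lf (nat_lit 0) (nat_lit 4184579856) (nat_lit 168) (nat_lit 5853188817) (nat_lit 252) (nat_lit 4436083794) (nat_lit 18) (nat_lit 5) (nat_lit 20) (nat_lit 5) (nat_lit 21) (nat_lit 4) (nat_lit 351) (nat_lit 268) (nat_lit 242))) (XT.nd (nat_lit 94) (nat_lit 252) (nat_lit 0) (XT.lf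 (nat_lit 0) (nat_lit 8528625401) (nat_lit 168) (nat_lit 3845970957) (nat_lit 252) (nat_lit 2446370369) (nat_lit 18) (nat_lit 5) (nat_lit 20) (nat_lit 5) (nat_lit 21) (nat_lit 4) (nat_lit 352) (nat_lit 268) (nat_lit 241)) (XT.nd (nat_lit 94) (nat_lit 252) (nat_lit 0) (XT.lf (nat_lit 0) (nat_lit 12947772984) (nat_lit 168) (nat_lit 1794676759) (nat_lit 252) (nat_lit 437834527) (nat_lit 18) (nat_lit 5) (nat_lit 20) (nat_lit 5) (nat_lit 21) (nat_lit 4) (nat_lit 353) (nat_lit 268) (nat_lit 240)) (XT.lf (nat_lit 0) (nat_lit 1581705886) (nat_lit 252) (nat_lit 13637584180) (nat_lit 84) (nat_lit 331666992) (nat_lit 15) (nat_lit 5) (nat_lit 18) (nat_lit 5) (nat_lit 16) (nat_lit 4) (nat_lit 354) (nat_lit 268) (nat_lit 239))))))) (XT.nd (nat_lit 846) (nat_lit 84) (nat_lit 0) (XT.nd (nat_lit 376) (nat_lit 252) (nat_lit 0) (XT.nd (nat_lit 188) (nat_lit 168) (nat_lit 0) (XT.nd (nat_lit 94) (nat_lit 0) (nat_lit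 0) (XT.lf (nat_lit 0) (nat_lit 3656389596) (nat_lit 252) (nat_lit 9779735207) (nat_lit 84) (nat_lit 2496951420) (nat_lit 15) (nat_lit 5) (nat_lit 18) (nat_lit 5) (nat_lit 16) (nat_lit 4) (nat_lit 355) (nat_lit 268) (nat_lit 238)) (XT.lf (nat_lit 0) (nat_lit 5756335062) (nat_lit 252) (nat_lit 5859880442) (nat_lit 84) (nat_lit 4712176822) (nat_lit 15) (nat_lit 5) (nat_lit 18) (nat_lit 5) (nat_lit 16) (nat_lit 4) (nat_lit 356) (nat_lit 268) (nat_lit 237))) (XT.nd (nat_lit 94) (nat_lit 168) (nat_lit 0) (XT.lf (nat_lit 0) (nat_lit 7883499650) (nat_lit 252) (nat_lit 1874366169) (nat_lit 84) (nat_lit 6979408020) (nat_lit 15) (nat_lit 5) (nat_lit 18) (nat_lit 5) (nat_lit 16) (nat_lit 4) (nat_lit 357) (nat_lit 268) (nat_lit 236)) (XT.lf (nat_lit 0) (nat_lit 2225358542) (nat_lit 168) (nat_lit 7836583393) (nat_lit 252) (nat_lit 7097475600) (nat_lit 13) (nat_lit 5) (nat_lit 15) (nat_lit 5) (nat_lit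 16) (nat_lit 4) (nat_lit 358) (nat_lit 268) (nat_lit 235)))) (XT.nd (nat_lit 188) (nat_lit 252) (nat_lit 0) (XT.nd (nat_lit 94) (nat_lit 0) (nat_lit 0) (XT.lf (nat_lit 0) (nat_lit 6438282270) (nat_lit 168) (nat_lit 5853030667) (nat_lit 252) (nat_lit 5303977723) (nat_lit 13) (nat_lit 5) (nat_lit 15) (nat_lit 5) (nat_lit 16) (nat_lit 4) (nat_lit 359) (nat_lit 268) (nat_lit 234)) (XT.lf (nat_lit 0) (nat_lit 10729791085) (nat_lit 168) (nat_lit 3824923303) (nat_lit 252) (nat_lit 3491173369) (nat_lit 13) (nat_lit 5) (nat_lit 15) (nat_lit 5) (nat_lit 16) (nat_lit 4) (nat_lit 360) (nat_lit 268) (nat_lit 233))) (XT.nd (nat_lit 94) (nat_lit 252) (nat_lit 0) (XT.lf (nat_lit 0) (nat_lit 15103885124) (nat_lit 168) (nat_lit 1750370891) (nat_lit 252) (nat_lit 1657372815) (nat_lit 13) (nat_lit 5) (nat_lit 15) (nat_lit 5) (nat_lit 16) (nat_lit 4) (nat_lit 361) (nat_lit 268) (nat_lit 232)) (XT.nd (nat_lit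 94) (nat_lit 0) (nat_lit 0) (XT.lf (nat_lit 0) (nat_lit 204664065) (nat_lit 252) (nat_lit 18415050350) (nat_lit 84) (nat_lit 372876514) (nat_lit 10) (nat_lit 5) (nat_lit 13) (nat_lit 5) (nat_lit 11) (nat_lit 4) (nat_lit 362) (nat_lit 268) (nat_lit 231)) (XT.lf (nat_lit 0) (nat_lit 2110733813) (nat_lit 252) (nat_lit 14814168115) (nat_lit 84) (nat_lit 2562502712) (nat_lit 10) (nat_lit 5) (nat_lit 13) (nat_lit 5) (nat_lit 11) (nat_lit 4) (nat_lit 363) (nat_lit 268) (nat_lit 230)))))) (XT.nd (nat_lit 50196) (nat_lit 0) (nat_lit 3528) (XT.nd (nat_lit 188) (nat_lit 84) (nat_lit 0) (XT.nd (nat_lit 94) (nat_lit 0) (nat_lit 0) (XT.lf (nat_lit 0) (nat_lit 4043788354) (nat_lit 252) (nat_lit 11150351046) (nat_lit 84) (nat_lit 4804520189) (nat_lit 10) (nat_lit 5) (nat_lit 13) (nat_lit 5) (nat_lit 11) (nat_lit 4) (nat_lit 364) (nat_lit 268) (nat_lit 229)) (XT.lf (nat_lit 0) (nat_lit 6005629498) (nat_lit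 252) (nat_lit 7420184082) (nat_lit 84) (nat_lit 7101018741) (nat_lit 10) (nat_lit 5) (nat_lit 13) (nat_lit 5) (nat_lit 11) (nat_lit 4) (nat_lit 365) (nat_lit 268) (nat_lit 228))) (XT.nd (nat_lit 94) (nat_lit 84) (nat_lit 0) (XT.lf (nat_lit 0) (nat_lit 7998085887) (nat_lit 252) (nat_lit 3620190317) (nat_lit 84) (nat_lit 9454138945) (nat_lit 10) (nat_lit 5) (nat_lit 13) (nat_lit 5) (nat_lit 11) (nat_lit 4) (nat_lit 366) (nat_lit 268) (nat_lit 227)) (XT.nd (nat_lit 94) (nat_lit 0) (nat_lit 0) (XT.lf (nat_lit 0) (nat_lit 258377982) (nat_lit 84) (nat_lit 9767199857) (nat_lit 168) (nat_lit 11610259314) (nat_lit 9) (nat_lit 5) (nat_lit 10) (nat_lit 5) (nat_lit 11) (nat_lit 4) (nat_lit 367) (nat_lit 268) (nat_lit 226)) (XT.lf (nat_lit 0) (nat_lit 4289946843) (nat_lit 84) (nat_lit 7834913338) (nat_lit 168) (nat_lit 10091682508) (nat_lit 9) (nat_lit 5) (nat_lit 10) (nat_lit 5) (nat_lit 11) (nat_lit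 4) (nat_lit 368) (nat_lit 268) (nat_lit 225))))) (XT.nd (nat_lit 188) (nat_lit 840) (nat_lit 0) (XT.nd (nat_lit 94) (nat_lit 0) (nat_lit 0) (XT.lf (nat_lit 0) (nat_lit 204980495) (nat_lit 420) (nat_lit 1996364935) (nat_lit 420) (nat_lit 1996364935) (nat_lit 61) (nat_lit 4) (nat_lit 66) (nat_lit 5) (nat_lit 66) (nat_lit 4) (nat_lit 323) (nat_lit 269) (nat_lit 269)) (XT.lf (nat_lit 0) (nat_lit 4677247993) (nat_lit 420) (nat_lit 2455034229) (nat_lit 420) (nat_lit 1387064465) (nat_lit 61) (nat_lit 4) (nat_lit 66) (nat_lit 5) (nat_lit 66) (nat_lit 4) (nat_lit 324) (nat_lit 269) (nat_lit 268))) (XT.nd (nat_lit 94) (nat_lit 420) (nat_lit 0) (XT.lf (nat_lit 0) (nat_lit 336788545) (nat_lit 336) (nat_lit 864893616) (nat_lit 420) (nat_lit 7447671501) (nat_lit 56) (nat_lit 5) (nat_lit 60) (nat_lit 5) (nat_lit 61) (nat_lit 4) (nat_lit 325) (nat_lit 269) (nat_lit 267)) (XT.nd (nat_lit 94) (nat_lit 420)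 (nat_lit 0) (XT.lf (nat_lit 0) (nat_lit 3816483339) (nat_lit 420) (nat_lit 4166253310) (nat_lit 0) (nat_lit 801410582) (nat_lit 56) (nat_lit 5) (nat_lit 61) (nat_lit 4) (nat_lit 56) (nat_lit 4) (nat_lit 326) (nat_lit 269) (nat_lit 266)) (XT.lf (nat_lit 0) (nat_lit 14198006) (nat_lit 420) (nat_lit 6435763111) (nat_lit 420) (nat_lit 2475489084) (nat_lit 51) (nat_lit 4) (nat_lit 56) (nat_lit 5) (nat_lit 56) (nat_lit 4) (nat_lit 327) (nat_lit 269) (nat_lit 265))))))))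
noncomputable def xc14 : XT := (XT.nd (nat_lit 1692) (nat_lit 1176) (nat_lit 0) (XT.nd (nat_lit 846) (nat_lit 1092) (nat_lit 0) (XT.nd (nat_lit 376) (nat_lit 756) (nat_lit 0) (XT.nd (nat_lit 188) (nat_lit 336) (nat_lit 0) (XT.nd (nat_lit 94) (nat_lit 0) (nat_lit 0) (XT.lf (nat_lit 0) (nat_lit 64822561) (nat_lit 504) (nat_lit 4745400462) (nat_lit 84) (nat_lit 4262099149) (nat_lit 50) (nat_lit 5) (nat_lit 56) (nat_lit 5) (nat_lit 51) (nat_lit 4) (nat_lit 328) (nat_lit 269) (nat_lit 264)) (XT.lf (nat_lit 0) (nat_lit 2563442011) (nat_lit 504) (nat_lit 559919739) (nat_lit 84) (nat_lit 6102102385) (nat_lit 50) (nat_lit 5) (nat_lit 56) (nat_lit 5) (nat_lit 51) (nat_lit 4) (nat_lit 329) (nat_lit 269) (nat_lit 263))) (XT.nd (nat_lit 94) (nat_lit 0) (nat_lit 0) (XT.lf (nat_lit 0) (nat_lit 3749186184) (nat_lit 336) (nat_lit 1360580035) (nat_lit 420) (nat_lit 4274860921) (nat_lit 46) (nat_lit 5) (nat_lit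 50) (nat_lit 5) (nat_lit 51) (nat_lit 4) (nat_lit 330) (nat_lit 269) (nat_lit 262)) (XT.lf (nat_lit 0) (nat_lit 7679578999) (nat_lit 420) (nat_lit 1432454771) (nat_lit 0) (nat_lit 438750056) (nat_lit 46) (nat_lit 5) (nat_lit 51) (nat_lit 4) (nat_lit 46) (nat_lit 4) (nat_lit 331) (nat_lit 269) (nat_lit 261)))) (XT.nd (nat_lit 188) (nat_lit 336) (nat_lit 0) (XT.nd (nat_lit 94) (nat_lit 0) (nat_lit 0) (XT.lf (nat_lit 0) (nat_lit 572615651) (nat_lit 420) (nat_lit 6864842154) (nat_lit 84) (nat_lit 2285453198) (nat_lit 41) (nat_lit 5) (nat_lit 46) (nat_lit 5) (nat_lit 42) (nat_lit 4) (nat_lit 332) (nat_lit 269) (nat_lit 260)) (XT.lf (nat_lit 0) (nat_lit 3004701531) (nat_lit 420) (nat_lit 2688608032) (nat_lit 84) (nat_lit 4208289548) (nat_lit 41) (nat_lit 5) (nat_lit 46) (nat_lit 5) (nat_lit 42) (nat_lit 4) (nat_lit 333) (nat_lit 269) (nat_lit 259))) (XT.nd (nat_lit 94) (nat_lit 84) (nat_lit 0)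 (XT.lf (nat_lit 0) (nat_lit 1569791381) (nat_lit 252) (nat_lit 3896150877) (nat_lit 336) (nat_lit 4621619308) (nat_lit 38) (nat_lit 5) (nat_lit 41) (nat_lit 5) (nat_lit 42) (nat_lit 4) (nat_lit 334) (nat_lit 269) (nat_lit 258)) (XT.nd (nat_lit 94) (nat_lit 84) (nat_lit 0) (XT.lf (nat_lit 0) (nat_lit 5939071541) (nat_lit 252) (nat_lit 2031744661) (nat_lit 336) (nat_lit 2309777793) (nat_lit 38) (nat_lit 5) (nat_lit 41) (nat_lit 5) (nat_lit 42) (nat_lit 4) (nat_lit 335) (nat_lit 269) (nat_lit 257)) (XT.lf (nat_lit 0) (nat_lit 12462045) (nat_lit 336) (nat_lit 113824523) (nat_lit 84) (nat_lit 10355429657) (nat_lit 37) (nat_lit 5) (nat_lit 41) (nat_lit 5) (nat_lit 38) (nat_lit 5) (nat_lit 336) (nat_lit 269) (nat_lit 256)))))) (XT.nd (nat_lit 376) (nat_lit 504) (nat_lit 0) (XT.nd (nat_lit 188) (nat_lit 252) (nat_lit 0) (XT.nd (nat_lit 94) (nat_lit 0) (nat_lit 0) (XT.lf (nat_lit 0) (nat_lit 2361442331)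 (nat_lit 420) (nat_lit 6476234659) (nat_lit 84) (nat_lit 1850846190) (nat_lit 33) (nat_lit 5) (nat_lit 38) (nat_lit 5) (nat_lit 34) (nat_lit 4) (nat_lit 337) (nat_lit 269) (nat_lit 255)) (XT.lf (nat_lit 0) (nat_lit 4728583773) (nat_lit 420) (nat_lit 2304137840) (nat_lit 84) (nat_lit 3870972800) (nat_lit 33) (nat_lit 5) (nat_lit 38) (nat_lit 5) (nat_lit 34) (nat_lit 4) (nat_lit 338) (nat_lit 269) (nat_lit 254))) (XT.nd (nat_lit 94) (nat_lit 0) (nat_lit 0) (XT.lf (nat_lit 0) (nat_lit 1963078573) (nat_lit 252) (nat_lit 5170071270) (nat_lit 336) (nat_lit 3993751876) (nat_lit 30) (nat_lit 5) (nat_lit 33) (nat_lit 5) (nat_lit 34) (nat_lit 4) (nat_lit 339) (nat_lit 269) (nat_lit 253)) (XT.lf (nat_lit 0) (nat_lit 6338404967) (nat_lit 252) (nat_lit 3243414545) (nat_lit 336) (nat_lit 1776396070) (nat_lit 30) (nat_lit 5) (nat_lit 33) (nat_lit 5) (nat_lit 34) (nat_lit 4) (nat_lit 340) (nat_lit 269)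 (nat_lit 252)))) (XT.nd (nat_lit 188) (nat_lit 168) (nat_lit 0) (XT.nd (nat_lit 94) (nat_lit 252) (nat_lit 0) (XT.lf (nat_lit 0) (nat_lit 445806415) (nat_lit 336) (nat_lit 824546344) (nat_lit 84) (nat_lit 10328082083) (nat_lit 29) (nat_lit 5) (nat_lit 33) (nat_lit 5) (nat_lit 30) (nat_lit 5) (nat_lit 341) (nat_lit 269) (nat_lit 251)) (XT.lf (nat_lit 0) (nat_lit 2690475724) (nat_lit 336) (nat_lit 8371453399) (nat_lit 84) (nat_lit 784125964) (nat_lit 26) (nat_lit 5) (nat_lit 30) (nat_lit 5) (nat_lit 27) (nat_lit 4) (nat_lit 342) (nat_lit 269) (nat_lit 250))) (XT.nd (nat_lit 94) (nat_lit 168) (nat_lit 0) (XT.lf (nat_lit 0) (nat_lit 4975103903) (nat_lit 336) (nat_lit 4260561164) (nat_lit 84) (nat_lit 2866820452) (nat_lit 26) (nat_lit 5) (nat_lit 30) (nat_lit 5) (nat_lit 27) (nat_lit 4) (nat_lit 343) (nat_lit 269) (nat_lit 249)) (XT.nd (nat_lit 94) (nat_lit 168) (nat_lit 0) (XT.lf (nat_lit 0)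 (nat_lit 7280785237) (nat_lit 336) (nat_lit 90998413) (nat_lit 84) (nat_lit 4996833599) (nat_lit 26) (nat_lit 5) (nat_lit 30) (nat_lit 5) (nat_lit 27) (nat_lit 4) (nat_lit 344) (nat_lit 269) (nat_lit 248)) (XT.lf (nat_lit 0) (nat_lit 4226271272) (nat_lit 168) (nat_lit 5425322726) (nat_lit 252) (nat_lit 2991804663) (nat_lit 24) (nat_lit 5) (nat_lit 26) (nat_lit 5) (nat_lit 27) (nat_lit 4) (nat_lit 345) (nat_lit 269) (nat_lit 247))))))) (XT.nd (nat_lit 846) (nat_lit 420) (nat_lit 0) (XT.nd (nat_lit 376) (nat_lit 420) (nat_lit 0) (XT.nd (nat_lit 188) (nat_lit 252) (nat_lit 0) (XT.nd (nat_lit 94) (nat_lit 84) (nat_lit 0) (XT.lf (nat_lit 0) (nat_lit 8613281249) (nat_lit 168) (nat_lit 3436089114) (nat_lit 252) (nat_lit 878966976) (nat_lit 24) (nat_lit 5) (nat_lit 26) (nat_lit 5) (nat_lit 27) (nat_lit 4) (nat_lit 346) (nat_lit 269) (nat_lit 246)) (XT.lf (nat_lit 0) (nat_lit 1226481619) (nat_lit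 252) (nat_lit 163894904) (nat_lit 84) (nat_lit 11832965985) (nat_lit 23) (nat_lit 5) (nat_lit 26) (nat_lit 5) (nat_lit 24) (nat_lit 5) (nat_lit 347) (nat_lit 269) (nat_lit 245))) (XT.nd (nat_lit 94) (nat_lit 0) (nat_lit 0) (XT.lf (nat_lit 0) (nat_lit 3382039847) (nat_lit 336) (nat_lit 9408106320) (nat_lit 84) (nat_lit 737151398) (nat_lit 20) (nat_lit 5) (nat_lit 24) (nat_lit 5) (nat_lit 21) (nat_lit 4) (nat_lit 348) (nat_lit 269) (nat_lit 244)) (XT.lf (nat_lit 0) (nat_lit 5575628155) (nat_lit 336) (nat_lit 5380293514) (nat_lit 84) (nat_lit 2885820200) (nat_lit 20) (nat_lit 5) (nat_lit 24) (nat_lit 5) (nat_lit 21) (nat_lit 4) (nat_lit 349) (nat_lit 269) (nat_lit 243)))) (XT.nd (nat_lit 188) (nat_lit 252) (nat_lit 0) (XT.nd (nat_lit 94) (nat_lit 168) (nat_lit 0) (XT.lf (nat_lit 0) (nat_lit 7793822230) (nat_lit 336) (nat_lit 1289656427) (nat_lit 84) (nat_lit 5083969395) (nat_lit 20) (nat_lit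 5) (nat_lit 24) (nat_lit 5) (nat_lit 21) (nat_lit 4) (nat_lit 350) (nat_lit 269) (nat_lit 242)) (XT.lf (nat_lit 0) (nat_lit 2926581946) (nat_lit 168) (nat_lit 7141139770) (nat_lit 252) (nat_lit 4436097996) (nat_lit 18) (nat_lit 5) (nat_lit 20) (nat_lit 5) (nat_lit 21) (nat_lit 4) (nat_lit 351) (nat_lit 269) (nat_lit 241))) (XT.nd (nat_lit 94) (nat_lit 252) (nat_lit 0) (XT.lf (nat_lit 0) (nat_lit 7241300374) (nat_lit 168) (nat_lit 5142857122) (nat_lit 252) (nat_lit 2467486836) (nat_lit 18) (nat_lit 5) (nat_lit 20) (nat_lit 5) (nat_lit 21) (nat_lit 4) (nat_lit 352) (nat_lit 269) (nat_lit 240)) (XT.nd (nat_lit 94) (nat_lit 252) (nat_lit 0) (XT.lf (nat_lit 0) (nat_lit 11632002645) (nat_lit 168) (nat_lit 3100229472) (nat_lit 252) (nat_lit 479418757) (nat_lit 18) (nat_lit 5) (nat_lit 20) (nat_lit 5) (nat_lit 21) (nat_lit 4) (nat_lit 353) (nat_lit 269) (nat_lit 239)) (XT.lf (nat_lit 0) (nat_lit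 513780596) (nat_lit 168) (nat_lit 990450226) (nat_lit 252) (nat_lit 14079315583) (nat_lit 15) (nat_lit 5) (nat_lit 17) (nat_lit 5) (nat_lit 18) (nat_lit 5) (nat_lit 354) (nat_lit 269) (nat_lit 238)))))) (XT.nd (nat_lit 470) (nat_lit 252) (nat_lit 0) (XT.nd (nat_lit 188) (nat_lit 168) (nat_lit 0) (XT.nd (nat_lit 94) (nat_lit 0) (nat_lit 0) (XT.lf (nat_lit 0) (nat_lit 3549860469) (nat_lit 252) (nat_lit 11230445719) (nat_lit 84) (nat_lit 1186329278) (nat_lit 15) (nat_lit 5) (nat_lit 18) (nat_lit 5) (nat_lit 16) (nat_lit 4) (nat_lit 355) (nat_lit 269) (nat_lit 237)) (XT.lf (nat_lit 0) (nat_lit 5631155424) (nat_lit 252) (nat_lit 7338092673) (nat_lit 84) (nat_lit 3393348776) (nat_lit 15) (nat_lit 5) (nat_lit 18) (nat_lit 5) (nat_lit 16) (nat_lit 4) (nat_lit 356) (nat_lit 269) (nat_lit 236))) (XT.nd (nat_lit 94) (nat_lit 168) (nat_lit 0) (XT.lf (nat_lit 0) (nat_lit 7740230285) (nat_lit 252) (nat_lit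 3379253199) (nat_lit 84) (nat_lit 5652620803) (nat_lit 15) (nat_lit 5) (nat_lit 18) (nat_lit 5) (nat_lit 16) (nat_lit 4) (nat_lit 357) (nat_lit 269) (nat_lit 235)) (XT.nd (nat_lit 94) (nat_lit 0) (nat_lit 0) (XT.lf (nat_lit 0) (nat_lit 663123207) (nat_lit 168) (nat_lit 9222505986) (nat_lit 252) (nat_lit 7309706296) (nat_lit 13) (nat_lit 5) (nat_lit 15) (nat_lit 5) (nat_lit 16) (nat_lit 4) (nat_lit 358) (nat_lit 269) (nat_lit 234)) (XT.lf (nat_lit 0) (nat_lit 4850436128) (nat_lit 168) (nat_lit 7247291762) (nat_lit 252) (nat_lit 5534077428) (nat_lit 13) (nat_lit 5) (nat_lit 15) (nat_lit 5) (nat_lit 16) (nat_lit 4) (nat_lit 359) (nat_lit 269) (nat_lit 233))))) (XT.nd (nat_lit 188) (nat_lit 252) (nat_lit 0) (XT.nd (nat_lit 94) (nat_lit 0) (nat_lit 0) (XT.lf (nat_lit 0) (nat_lit 9117104201) (nat_lit 168) (nat_lit 5227272177) (nat_lit 252) (nat_lit 3738604800) (nat_lit 13) (nat_lit 5) (nat_lit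 15) (nat_lit 5) (nat_lit 16) (nat_lit 4) (nat_lit 360) (nat_lit 269) (nat_lit 232)) (XT.lf (nat_lit 0) (nat_lit 13467104405) (nat_lit 168) (nat_lit 3160564362) (nat_lit 252) (nat_lit 1921614843) (nat_lit 13) (nat_lit 5) (nat_lit 15) (nat_lit 5) (nat_lit 16) (nat_lit 4) (nat_lit 361) (nat_lit 269) (nat_lit 231))) (XT.nd (nat_lit 94) (nat_lit 252) (nat_lit 0) (XT.lf (nat_lit 0) (nat_lit 17904491399) (nat_lit 168) (nat_lit 1045241930) (nat_lit 252) (nat_lit 81413933) (nat_lit 13) (nat_lit 5) (nat_lit 15) (nat_lit 5) (nat_lit 16) (nat_lit 4) (nat_lit 362) (nat_lit 269) (nat_lit 230)) (XT.nd (nat_lit 94) (nat_lit 0) (nat_lit 0) (XT.lf (nat_lit 0) (nat_lit 1788597474) (nat_lit 252) (nat_lit 16593122269) (nat_lit 84) (nat_lit 1145487513) (nat_lit 10) (nat_lit 5) (nat_lit 13) (nat_lit 5) (nat_lit 11) (nat_lit 4) (nat_lit 363) (nat_lit 269) (nat_lit 229)) (XT.lf (nat_lit 0) (nat_lit 3706320608) (nat_lit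 252) (nat_lit 12952558983) (nat_lit 84) (nat_lit 3380108896) (nat_lit 10) (nat_lit 5) (nat_lit 13) (nat_lit 5) (nat_lit 11) (nat_lit 4) (nat_lit 364) (nat_lit 269) (nat_lit 228))))))))
noncomputable def xc15 : XT := (XT.nd (nat_lit 51324) (nat_lit 0) (nat_lit 672) (XT.nd (nat_lit 50384) (nat_lit 0) (nat_lit 2436) (XT.nd (nat_lit 49914) (nat_lit 0) (nat_lit 3948) (XT.nd (nat_lit 188) (nat_lit 84) (nat_lit 0) (XT.nd (nat_lit 94) (nat_lit 0) (nat_lit 0) (XT.lf (nat_lit 0) (nat_lit 5653291328) (nat_lit 252) (nat_lit 9244946610) (nat_lit 84) (nat_lit 5669433739) (nat_lit 10) (nat_lit 5) (nat_lit 13) (nat_lit 5) (nat_lit 11) (nat_lit 4) (nat_lit 365) (nat_lit 269) (nat_lit 227)) (XT.lf (nat_lit 0) (nat_lit 7631324415) (nat_lit 252) (nat_lit 5466829267) (nat_lit 84) (nat_lit 8015595932) (nat_lit 10) (nat_lit 5) (nat_lit 13) (nat_lit 5) (nat_lit 11) (nat_lit 4) (nat_lit 366) (nat_lit 269) (nat_lit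 226))) (XT.nd (nat_lit 94) (nat_lit 84) (nat_lit 0) (XT.lf (nat_lit 0) (nat_lit 9642263604) (nat_lit 252) (nat_lit 1614685351) (nat_lit 84) (nat_lit 10420782344) (nat_lit 10) (nat_lit 5) (nat_lit 13) (nat_lit 5) (nat_lit 11) (nat_lit 4) (nat_lit 367) (nat_lit 269) (nat_lit 225)) (XT.lf (nat_lit 0) (nat_lit 2362678442) (nat_lit 84) (nat_lit 9348742918) (nat_lit 168) (nat_lit 10547994481) (nat_lit 9) (nat_lit 5) (nat_lit 10) (nat_lit 5) (nat_lit 11) (nat_lit 4) (nat_lit 368) (nat_lit 269) (nat_lit 224)))) (XT.nd (nat_lit 188) (nat_lit 840) (nat_lit 0) (XT.nd (nat_lit 94) (nat_lit 0) (nat_lit 0) (XT.lf (nat_lit 0) (nat_lit 92350841) (nat_lit 504) (nat_lit 3896761229) (nat_lit 0) (nat_lit 92350841) (nat_lit 66) (nat_lit 5) (nat_lit 72) (nat_lit 4) (nat_lit 66) (nat_lit 4) (nat_lit 321) (nat_lit 270) (nat_lit 270)) (XT.lf (nat_lit 0) (nat_lit 2820407400) (nat_lit 504) (nat_lit 3737029117) (nat_lit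 0) (nat_lit 1719330572) (nat_lit 66) (nat_lit 5) (nat_lit 72) (nat_lit 4) (nat_lit 66) (nat_lit 4) (nat_lit 322) (nat_lit 270) (nat_lit 269))) (XT.nd (nat_lit 94) (nat_lit 420) (nat_lit 0) (XT.lf (nat_lit 0) (nat_lit 366887208) (nat_lit 420) (nat_lit 5099480177) (nat_lit 420) (nat_lit 2930433585) (nat_lit 61) (nat_lit 4) (nat_lit 66) (nat_lit 5) (nat_lit 66) (nat_lit 4) (nat_lit 323) (nat_lit 270) (nat_lit 268)) (XT.nd (nat_lit 94) (nat_lit 420) (nat_lit 0) (XT.lf (nat_lit 0) (nat_lit 4592395565) (nat_lit 420) (nat_lit 3567287427) (nat_lit 420) (nat_lit 362382674) (nat_lit 61) (nat_lit 4) (nat_lit 66) (nat_lit 5) (nat_lit 66) (nat_lit 4) (nat_lit 324) (nat_lit 270) (nat_lit 267)) (XT.lf (nat_lit 0) (nat_lit 194731010) (nat_lit 336) (nat_lit 1973830215) (nat_lit 420) (nat_lit 6484549693) (nat_lit 56) (nat_lit 5) (nat_lit 60) (nat_lit 5) (nat_lit 61) (nat_lit 4) (nat_lit 325) (nat_lit 270)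 (nat_lit 266)))))) (XT.nd (nat_lit 470) (nat_lit 672) (nat_lit 0) (XT.nd (nat_lit 188) (nat_lit 840) (nat_lit 0) (XT.nd (nat_lit 94) (nat_lit 0) (nat_lit 0) (XT.lf (nat_lit 0) (nat_lit 4443162191) (nat_lit 336) (nat_lit 297005972) (nat_lit 420) (nat_lit 4049270792) (nat_lit 56) (nat_lit 5) (nat_lit 60) (nat_lit 5) (nat_lit 61) (nat_lit 4) (nat_lit 326) (nat_lit 270) (nat_lit 265)) (XT.lf (nat_lit 0) (nat_lit 7336475550) (nat_lit 420) (nat_lit 204157522) (nat_lit 0) (nat_lit 1391450702) (nat_lit 56) (nat_lit 5) (nat_lit 61) (nat_lit 4) (nat_lit 56) (nat_lit 4) (nat_lit 327) (nat_lit 270) (nat_lit 264))) (XT.nd (nat_lit 94) (nat_lit 336) (nat_lit 0) (XT.lf (nat_lit 0) (nat_lit 890904410) (nat_lit 504) (nat_lit 5024813371) (nat_lit 84) (nat_lit 3164263932) (nat_lit 50) (nat_lit 5) (nat_lit 56) (nat_lit 5) (nat_lit 51) (nat_lit 4) (nat_lit 328) (nat_lit 270) (nat_lit 263)) (XT.nd (nat_lit 94)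 (nat_lit 336) (nat_lit 0) (XT.lf (nat_lit 0) (nat_lit 3356562346) (nat_lit 504) (nat_lit 879540648) (nat_lit 84) (nat_lit 4998215466) (nat_lit 50) (nat_lit 5) (nat_lit 56) (nat_lit 5) (nat_lit 51) (nat_lit 4) (nat_lit 329) (nat_lit 270) (nat_lit 262)) (XT.lf (nat_lit 0) (nat_lit 3383192284) (nat_lit 336) (nat_lit 2484093136) (nat_lit 420) (nat_lit 3527467459) (nat_lit 46) (nat_lit 5) (nat_lit 50) (nat_lit 5) (nat_lit 51) (nat_lit 4) (nat_lit 330) (nat_lit 270) (nat_lit 261))))) (XT.nd (nat_lit 188) (nat_lit 252) (nat_lit 0) (XT.nd (nat_lit 94) (nat_lit 420) (nat_lit 0) (XT.lf (nat_lit 0) (nat_lit 7718310606) (nat_lit 336) (nat_lit 682953536) (nat_lit 420) (nat_lit 1160919009) (nat_lit 46) (nat_lit 5) (nat_lit 50) (nat_lit 5) (nat_lit 51) (nat_lit 4) (nat_lit 331) (nat_lit 270) (nat_lit 260)) (XT.lf (nat_lit 0) (nat_lit 1226230071) (nat_lit 420) (nat_lit 7336541729) (nat_lit 84) (nat_lit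 1172786374) (nat_lit 41) (nat_lit 5) (nat_lit 46) (nat_lit 5) (nat_lit 42) (nat_lit 4) (nat_lit 332) (nat_lit 270) (nat_lit 259))) (XT.nd (nat_lit 94) (nat_lit 252) (nat_lit 0) (XT.lf (nat_lit 0) (nat_lit 3627881514) (nat_lit 420) (nat_lit 3199168151) (nat_lit 84) (nat_lit 3088288573) (nat_lit 41) (nat_lit 5) (nat_lit 46) (nat_lit 5) (nat_lit 42) (nat_lit 4) (nat_lit 333) (nat_lit 270) (nat_lit 258)) (XT.nd (nat_lit 94) (nat_lit 0) (nat_lit 0) (XT.lf (nat_lit 0) (nat_lit 1010265982) (nat_lit 252) (nat_lit 5043786361) (nat_lit 336) (nat_lit 4048479542) (nat_lit 38) (nat_lit 5) (nat_lit 41) (nat_lit 5) (nat_lit 42) (nat_lit 4) (nat_lit 334) (nat_lit 270) (nat_lit 257)) (XT.lf (nat_lit 0) (nat_lit 5342235652) (nat_lit 252) (nat_lit 3187688758) (nat_lit 336) (nat_lit 1766678656) (nat_lit 38) (nat_lit 5) (nat_lit 41) (nat_lit 5) (nat_lit 42) (nat_lit 4) (nat_lit 335) (nat_lit 270) (nat_lit 256)))))))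 (XT.nd (nat_lit 846) (nat_lit 756) (nat_lit 0) (XT.nd (nat_lit 376) (nat_lit 336) (nat_lit 0) (XT.nd (nat_lit 188) (nat_lit 252) (nat_lit 0) (XT.nd (nat_lit 94) (nat_lit 336) (nat_lit 0) (XT.lf (nat_lit 0) (nat_lit 516068626) (nat_lit 336) (nat_lit 768964211) (nat_lit 84) (nat_lit 9213541924) (nat_lit 37) (nat_lit 5) (nat_lit 41) (nat_lit 5) (nat_lit 38) (nat_lit 5) (nat_lit 336) (nat_lit 270) (nat_lit 255)) (XT.lf (nat_lit 0) (nat_lit 2818715066) (nat_lit 420) (nat_lit 7187793271) (nat_lit 84) (nat_lit 700437197) (nat_lit 33) (nat_lit 5) (nat_lit 38) (nat_lit 5) (nat_lit 34) (nat_lit 4) (nat_lit 337) (nat_lit 270) (nat_lit 254))) (XT.nd (nat_lit 94) (nat_lit 252) (nat_lit 0) (XT.lf (nat_lit 0) (nat_lit 5158564170) (nat_lit 420) (nat_lit 3052017015) (nat_lit 84) (nat_lit 2712505280) (nat_lit 33) (nat_lit 5) (nat_lit 38) (nat_lit 5) (nat_lit 34) (nat_lit 4) (nat_lit 338) (nat_lit 270) (nat_lit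 253)) (XT.lf (nat_lit 0) (nat_lit 1163868617) (nat_lit 252) (nat_lit 6364861646) (nat_lit 336) (nat_lit 3618749826) (nat_lit 30) (nat_lit 5) (nat_lit 33) (nat_lit 5) (nat_lit 34) (nat_lit 4) (nat_lit 339) (nat_lit 270) (nat_lit 252)))) (XT.nd (nat_lit 188) (nat_lit 252) (nat_lit 0) (XT.nd (nat_lit 94) (nat_lit 84) (nat_lit 0) (XT.lf (nat_lit 0) (nat_lit 5504323186) (nat_lit 252) (nat_lit 4447055046) (nat_lit 336) (nat_lit 1428338705) (nat_lit 30) (nat_lit 5) (nat_lit 33) (nat_lit 5) (nat_lit 34) (nat_lit 4) (nat_lit 340) (nat_lit 270) (nat_lit 251)) (XT.lf (nat_lit 0) (nat_lit 761243237) (nat_lit 336) (nat_lit 1718041530) (nat_lit 84) (nat_lit 9141447665) (nat_lit 29) (nat_lit 5) (nat_lit 33) (nat_lit 5) (nat_lit 30) (nat_lit 5) (nat_lit 341) (nat_lit 270) (nat_lit 250))) (XT.nd (nat_lit 94) (nat_lit 0) (nat_lit 0) (XT.lf (nat_lit 0) (nat_lit 2536808668) (nat_lit 252) (nat_lit 426943106)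 (nat_lit 336) (nat_lit 8906014021) (nat_lit 26) (nat_lit 5) (nat_lit 29) (nat_lit 5) (nat_lit 30) (nat_lit 5) (nat_lit 342) (nat_lit 270) (nat_lit 249)) (XT.nd (nat_lit 94) (nat_lit 0) (nat_lit 0) (XT.lf (nat_lit 0) (nat_lit 5219639298) (nat_lit 336) (nat_lit 5251688324) (nat_lit 84) (nat_lit 1655862506) (nat_lit 26) (nat_lit 5) (nat_lit 30) (nat_lit 5) (nat_lit 27) (nat_lit 4) (nat_lit 343) (nat_lit 270) (nat_lit 248)) (XT.lf (nat_lit 0) (nat_lit 7501552130) (nat_lit 336) (nat_lit 1114966271) (nat_lit 84) (nat_lit 3777640127) (nat_lit 26) (nat_lit 5) (nat_lit 30) (nat_lit 5) (nat_lit 27) (nat_lit 4) (nat_lit 344) (nat_lit 270) (nat_lit 247)))))) (XT.nd (nat_lit 470) (nat_lit 252) (nat_lit 0) (XT.nd (nat_lit 188) (nat_lit 336) (nat_lit 0) (XT.nd (nat_lit 94) (nat_lit 0) (nat_lit 0) (XT.lf (nat_lit 0) (nat_lit 3148740318) (nat_lit 168) (nat_lit 6689877499) (nat_lit 252) (nat_lit 2831465003)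 (nat_lit 24) (nat_lit 5) (nat_lit 26) (nat_lit 5) (nat_lit 27) (nat_lit 4) (nat_lit 345) (nat_lit 270) (nat_lit 246)) (XT.lf (nat_lit 0) (nat_lit 7504219533) (nat_lit 168) (nat_lit 4709501206) (nat_lit 252) (nat_lit 742097568) (nat_lit 24) (nat_lit 5) (nat_lit 26) (nat_lit 5) (nat_lit 27) (nat_lit 4) (nat_lit 346) (nat_lit 270) (nat_lit 245))) (XT.nd (nat_lit 94) (nat_lit 252) (nat_lit 0) (XT.lf (nat_lit 0) (nat_lit 1338287517) (nat_lit 252) (nat_lit 1332925073) (nat_lit 84) (nat_lit 10580348648) (nat_lit 23) (nat_lit 5) (nat_lit 26) (nat_lit 5) (nat_lit 24) (nat_lit 5) (nat_lit 347) (nat_lit 270) (nat_lit 244)) (XT.nd (nat_lit 94) (nat_lit 0) (nat_lit 0) (XT.lf (nat_lit 0) (nat_lit 2903003205) (nat_lit 252) (nat_lit 549603274) (nat_lit 336) (nat_lit 10104273945) (nat_lit 20) (nat_lit 5) (nat_lit 23) (nat_lit 5) (nat_lit 24) (nat_lit 5) (nat_lit 348) (nat_lit 270) (nat_lit 243)) (XT.lf (nat_lit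 0) (nat_lit 5619376101) (nat_lit 336) (nat_lit 6651157783) (nat_lit 84) (nat_lit 1601705356) (nat_lit 20) (nat_lit 5) (nat_lit 24) (nat_lit 5) (nat_lit 21) (nat_lit 4) (nat_lit 349) (nat_lit 270) (nat_lit 242))))) (XT.nd (nat_lit 188) (nat_lit 84) (nat_lit 0) (XT.nd (nat_lit 94) (nat_lit 168) (nat_lit 0) (XT.lf (nat_lit 0) (nat_lit 7816846070) (nat_lit 336) (nat_lit 2590147760) (nat_lit 84) (nat_lit 3791674676) (nat_lit 20) (nat_lit 5) (nat_lit 24) (nat_lit 5) (nat_lit 21) (nat_lit 4) (nat_lit 350) (nat_lit 270) (nat_lit 241)) (XT.lf (nat_lit 0) (nat_lit 1570022727) (nat_lit 168) (nat_lit 8487164617) (nat_lit 252) (nat_lit 4478971337) (nat_lit 18) (nat_lit 5) (nat_lit 20) (nat_lit 5) (nat_lit 21) (nat_lit 4) (nat_lit 351) (nat_lit 270) (nat_lit 240))) (XT.nd (nat_lit 94) (nat_lit 84) (nat_lit 0) (XT.lf (nat_lit 0) (nat_lit 5856295843) (nat_lit 168) (nat_lit 6497548518) (nat_lit 252) (nat_lit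 2530827940) (nat_lit 18) (nat_lit 5) (nat_lit 20) (nat_lit 5) (nat_lit 21) (nat_lit 4) (nat_lit 352) (nat_lit 270) (nat_lit 239)) (XT.nd (nat_lit 94) (nat_lit 84) (nat_lit 0) (XT.lf (nat_lit 0) (nat_lit 10219408093) (nat_lit 168) (nat_lit 4463326832) (nat_lit 252) (nat_lit 562612202) (nat_lit 18) (nat_lit 5) (nat_lit 20) (nat_lit 5) (nat_lit 21) (nat_lit 4) (nat_lit 353) (nat_lit 270) (nat_lit 238)) (XT.lf (nat_lit 0) (nat_lit 1398749304) (nat_lit 252) (nat_lit 969254074) (nat_lit 84) (nat_lit 13250076976) (nat_lit 17) (nat_lit 5) (nat_lit 20) (nat_lit 5) (nat_lit 18) (nat_lit 5) (nat_lit 354) (nat_lit 270) (nat_lit 237))))))))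
noncomputable def xc16 : XT := (XT.nd (nat_lit 51042) (nat_lit 0) (nat_lit 1680) (XT.nd (nat_lit 846) (nat_lit 84) (nat_lit 0) (XT.nd (nat_lit 376) (nat_lit 420) (nat_lit 0) (XT.nd (nat_lit 188) (nat_lit 0) (nat_lit 0) (XT.nd (nat_lit 94) (nat_lit 0) (nat_lit 0) (XT.lf (nat_lit 0) (nat_lit 3218666002) (nat_lit 168) (nat_lit 185322169) (nat_lit 252) (nat_lit 12598500496) (nat_lit 15) (nat_lit 5) (nat_lit 17) (nat_lit 5) (nat_lit 18) (nat_lit 5) (nat_lit 355) (nat_lit 270) (nat_lit 236)) (XT.lf (nat_lit 0) (nat_lit 5465354980) (nat_lit 252) (nat_lit 8916306000) (nat_lit 84) (nat_lit 2017471986) (nat_lit 15) (nat_lit 5) (nat_lit 18) (nat_lit 5) (nat_lit 16) (nat_lit 4) (nat_lit 356) (nat_lit 270) (nat_lit 235))) (XT.nd (nat_lit 94) (nat_lit 0) (nat_lit 0) (XT.lf (nat_lit 0) (nat_lit 7556884033) (nat_lit 252) (nat_lit 4983339271) (nat_lit 84) (nat_lit 4269024159) (nat_lit 15) (nat_lit 5) (nat_lit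 18) (nat_lit 5) (nat_lit 16) (nat_lit 4) (nat_lit 357) (nat_lit 270) (nat_lit 234)) (XT.lf (nat_lit 0) (nat_lit 9678686435) (nat_lit 252) (nat_lit 979418124) (nat_lit 84) (nat_lit 6575166860) (nat_lit 15) (nat_lit 5) (nat_lit 18) (nat_lit 5) (nat_lit 16) (nat_lit 4) (nat_lit 358) (nat_lit 270) (nat_lit 233)))) (XT.nd (nat_lit 188) (nat_lit 252) (nat_lit 0) (XT.nd (nat_lit 94) (nat_lit 0) (nat_lit 0) (XT.lf (nat_lit 0) (nat_lit 3162915207) (nat_lit 168) (nat_lit 8701201231) (nat_lit 252) (nat_lit 5806510959) (nat_lit 13) (nat_lit 5) (nat_lit 15) (nat_lit 5) (nat_lit 16) (nat_lit 4) (nat_lit 359) (nat_lit 270) (nat_lit 232)) (XT.lf (nat_lit 0) (nat_lit 7405489445) (nat_lit 168) (nat_lit 6689026244) (nat_lit 252) (nat_lit 4027848928) (nat_lit 13) (nat_lit 5) (nat_lit 15) (nat_lit 5) (nat_lit 16) (nat_lit 4) (nat_lit 360) (nat_lit 270) (nat_lit 231))) (XT.nd (nat_lit 94) (nat_lit 252) (nat_lit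 0) (XT.lf (nat_lit 0) (nat_lit 11732120267) (nat_lit 168) (nat_lit 4629927156) (nat_lit 252) (nat_lit 2227164109) (nat_lit 13) (nat_lit 5) (nat_lit 15) (nat_lit 5) (nat_lit 16) (nat_lit 4) (nat_lit 361) (nat_lit 270) (nat_lit 230)) (XT.nd (nat_lit 94) (nat_lit 252) (nat_lit 0) (XT.lf (nat_lit 0) (nat_lit 16146840545) (nat_lit 168) (nat_lit 2521984672) (nat_lit 252) (nat_lit 402778075) (nat_lit 13) (nat_lit 5) (nat_lit 15) (nat_lit 5) (nat_lit 16) (nat_lit 4) (nat_lit 362) (nat_lit 270) (nat_lit 229)) (XT.lf (nat_lit 0) (nat_lit 1091410700) (nat_lit 168) (nat_lit 337271899) (nat_lit 252) (nat_lit 18140526314) (nat_lit 10) (nat_lit 5) (nat_lit 12) (nat_lit 5) (nat_lit 13) (nat_lit 5) (nat_lit 363) (nat_lit 270) (nat_lit 228)))))) (XT.nd (nat_lit 376) (nat_lit 84) (nat_lit 0) (XT.nd (nat_lit 188) (nat_lit 0) (nat_lit 0) (XT.nd (nat_lit 94) (nat_lit 0) (nat_lit 0) (XT.lf (nat_lit 0) (nat_lit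 3328189531) (nat_lit 252) (nat_lit 14856443741) (nat_lit 84) (nat_lit 1896971051) (nat_lit 10) (nat_lit 5) (nat_lit 13) (nat_lit 5) (nat_lit 11) (nat_lit 4) (nat_lit 364) (nat_lit 270) (nat_lit 227)) (XT.lf (nat_lit 0) (nat_lit 5260736950) (nat_lit 252) (nat_lit 11170707790) (nat_lit 84) (nat_lit 4179337883) (nat_lit 10) (nat_lit 5) (nat_lit 13) (nat_lit 5) (nat_lit 11) (nat_lit 4) (nat_lit 365) (nat_lit 270) (nat_lit 226))) (XT.nd (nat_lit 94) (nat_lit 0) (nat_lit 0) (XT.lf (nat_lit 0) (nat_lit 7224780414) (nat_lit 252) (nat_lit 7413809090) (nat_lit 84) (nat_lit 6518751278) (nat_lit 10) (nat_lit 5) (nat_lit 13) (nat_lit 5) (nat_lit 11) (nat_lit 4) (nat_lit 366) (nat_lit 270) (nat_lit 225)) (XT.lf (nat_lit 0) (nat_lit 9222150617) (nat_lit 252) (nat_lit 3582245818) (nat_lit 84) (nat_lit 8917391814) (nat_lit 10) (nat_lit 5) (nat_lit 13) (nat_lit 5) (nat_lit 11) (nat_lit 4) (nat_lit 367) (nat_lit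 270) (nat_lit 224)))) (XT.nd (nat_lit 49538) (nat_lit 0) (nat_lit 4788) (XT.nd (nat_lit 49444) (nat_lit 0) (nat_lit 5292) (XT.lf (nat_lit 0) (nat_lit 334288613) (nat_lit 84) (nat_lit 10923736889) (nat_lit 168) (nat_lit 11046522847) (nat_lit 9) (nat_lit 5) (nat_lit 10) (nat_lit 5) (nat_lit 11) (nat_lit 4) (nat_lit 368) (nat_lit 270) (nat_lit 223)) (XT.lf (nat_lit 0) (nat_lit 111059731) (nat_lit 504) (nat_lit 1931335833) (nat_lit 504) (nat_lit 1931335833) (nat_lit 72) (nat_lit 4) (nat_lit 78) (nat_lit 5) (nat_lit 78) (nat_lit 4) (nat_lit 319) (nat_lit 271) (nat_lit 271))) (XT.nd (nat_lit 94) (nat_lit 504) (nat_lit 0) (XT.lf (nat_lit 0) (nat_lit 4332529475) (nat_lit 504) (nat_lit 2445416216) (nat_lit 504) (nat_lit 1275014490) (nat_lit 72) (nat_lit 4) (nat_lit 78) (nat_lit 5) (nat_lit 78) (nat_lit 4) (nat_lit 320) (nat_lit 271) (nat_lit 270)) (XT.nd (nat_lit 94) (nat_lit 0) (nat_lit 0) (XT.lf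 (nat_lit 0) (nat_lit 317335446) (nat_lit 420) (nat_lit 974120673) (nat_lit 504) (nat_lit 6872579510) (nat_lit 66) (nat_lit 5) (nat_lit 71) (nat_lit 5) (nat_lit 72) (nat_lit 4) (nat_lit 321) (nat_lit 271) (nat_lit 269)) (XT.lf (nat_lit 0) (nat_lit 3880525434) (nat_lit 504) (nat_lit 3822749387) (nat_lit 0) (nat_lit 576268633) (nat_lit 66) (nat_lit 5) (nat_lit 72) (nat_lit 4) (nat_lit 66) (nat_lit 4) (nat_lit 322) (nat_lit 271) (nat_lit 268))))))) (XT.nd (nat_lit 846) (nat_lit 1428) (nat_lit 0) (XT.nd (nat_lit 376) (nat_lit 840) (nat_lit 0) (XT.nd (nat_lit 188) (nat_lit 336) (nat_lit 0) (XT.nd (nat_lit 94) (nat_lit 84) (nat_lit 0) (XT.lf (nat_lit 0) (nat_lit 237625709) (nat_lit 420) (nat_lit 6251716115) (nat_lit 420) (nat_lit 1911601153) (nat_lit 61) (nat_lit 4) (nat_lit 66) (nat_lit 5) (nat_lit 66) (nat_lit 4) (nat_lit 323) (nat_lit 271) (nat_lit 267)) (XT.lf (nat_lit 0) (nat_lit 607475314)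 (nat_lit 504) (nat_lit 4111044685) (nat_lit 84) (nat_lit 3808795505) (nat_lit 60) (nat_lit 5) (nat_lit 66) (nat_lit 5) (nat_lit 61) (nat_lit 4) (nat_lit 324) (nat_lit 271) (nat_lit 266))) (XT.nd (nat_lit 94) (nat_lit 336) (nat_lit 0) (XT.lf (nat_lit 0) (nat_lit 3094512692) (nat_lit 504) (nat_lit 34374278) (nat_lit 84) (nat_lit 5530692554) (nat_lit 60) (nat_lit 5) (nat_lit 66) (nat_lit 5) (nat_lit 61) (nat_lit 4) (nat_lit 325) (nat_lit 271) (nat_lit 265)) (XT.lf (nat_lit 0) (nat_lit 4173544782) (nat_lit 336) (nat_lit 1458200963) (nat_lit 420) (nat_lit 3165416975) (nat_lit 56) (nat_lit 5) (nat_lit 60) (nat_lit 5) (nat_lit 61) (nat_lit 4) (nat_lit 326) (nat_lit 271) (nat_lit 264)))) (XT.nd (nat_lit 188) (nat_lit 336) (nat_lit 0) (XT.nd (nat_lit 94) (nat_lit 504) (nat_lit 0) (XT.lf (nat_lit 0) (nat_lit 8183475536) (nat_lit 420) (nat_lit 509739296) (nat_lit 0) (nat_lit 248158480) (nat_lit 56)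 (nat_lit 5) (nat_lit 61) (nat_lit 4) (nat_lit 56) (nat_lit 4) (nat_lit 327) (nat_lit 271) (nat_lit 263)) (XT.lf (nat_lit 0) (nat_lit 1675649961) (nat_lit 504) (nat_lit 5394550528) (nat_lit 84) (nat_lit 2020104818) (nat_lit 50) (nat_lit 5) (nat_lit 56) (nat_lit 5) (nat_lit 51) (nat_lit 4) (nat_lit 328) (nat_lit 271) (nat_lit 262))) (XT.nd (nat_lit 94) (nat_lit 336) (nat_lit 0) (XT.lf (nat_lit 0) (nat_lit 4109337467) (nat_lit 504) (nat_lit 1288276835) (nat_lit 84) (nat_lit 3848186612) (nat_lit 50) (nat_lit 5) (nat_lit 56) (nat_lit 5) (nat_lit 51) (nat_lit 4) (nat_lit 329) (nat_lit 271) (nat_lit 261)) (XT.nd (nat_lit 94) (nat_lit 0) (nat_lit 0) (XT.lf (nat_lit 0) (nat_lit 2927447442) (nat_lit 336) (nat_lit 3657082906) (nat_lit 420) (nat_lit 2822969153) (nat_lit 46) (nat_lit 5) (nat_lit 50) (nat_lit 5) (nat_lit 51) (nat_lit 4) (nat_lit 330) (nat_lit 271) (nat_lit 260)) (XT.lf (nat_lit 0) (nat_lit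 7225122311) (nat_lit 336) (nat_lit 1862938549) (nat_lit 420) (nat_lit 487970647) (nat_lit 46) (nat_lit 5) (nat_lit 50) (nat_lit 5) (nat_lit 51) (nat_lit 4) (nat_lit 331) (nat_lit 271) (nat_lit 259)))))) (XT.nd (nat_lit 470) (nat_lit 672) (nat_lit 0) (XT.nd (nat_lit 188) (nat_lit 336) (nat_lit 0) (XT.nd (nat_lit 94) (nat_lit 0) (nat_lit 0) (XT.lf (nat_lit 0) (nat_lit 1838294197) (nat_lit 420) (nat_lit 7901789757) (nat_lit 84) (nat_lit 10731218) (nat_lit 41) (nat_lit 5) (nat_lit 46) (nat_lit 5) (nat_lit 42) (nat_lit 4) (nat_lit 332) (nat_lit 271) (nat_lit 258)) (XT.lf (nat_lit 0) (nat_lit 4210426304) (nat_lit 420) (nat_lit 3802108267) (nat_lit 84) (nat_lit 1919119789) (nat_lit 41) (nat_lit 5) (nat_lit 46) (nat_lit 5) (nat_lit 42) (nat_lit 4) (nat_lit 333) (nat_lit 271) (nat_lit 257))) (XT.nd (nat_lit 94) (nat_lit 84) (nat_lit 0) (XT.lf (nat_lit 0) (nat_lit 357617690) (nat_lit 252) (nat_lit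 6243873339) (nat_lit 336) (nat_lit 3518584962) (nat_lit 38) (nat_lit 5) (nat_lit 41) (nat_lit 5) (nat_lit 42) (nat_lit 4) (nat_lit 334) (nat_lit 271) (nat_lit 256)) (XT.nd (nat_lit 94) (nat_lit 84) (nat_lit 0) (XT.lf (nat_lit 0) (nat_lit 4653398717) (nat_lit 252) (nat_lit 4395834528) (nat_lit 336) (nat_lit 1265921448) (nat_lit 38) (nat_lit 5) (nat_lit 41) (nat_lit 5) (nat_lit 42) (nat_lit 4) (nat_lit 335) (nat_lit 271) (nat_lit 255)) (XT.lf (nat_lit 0) (nat_lit 979044823) (nat_lit 336) (nat_lit 1517117742) (nat_lit 84) (nat_lit 8021795744) (nat_lit 37) (nat_lit 5) (nat_lit 41) (nat_lit 5) (nat_lit 38) (nat_lit 5) (nat_lit 336) (nat_lit 271) (nat_lit 254))))) (XT.nd (nat_lit 188) (nat_lit 336) (nat_lit 0) (XT.nd (nat_lit 94) (nat_lit 0) (nat_lit 0) (XT.lf (nat_lit 0) (nat_lit 2727491309) (nat_lit 336) (nat_lit 512323520) (nat_lit 420) (nat_lit 7487936057) (nat_lit 33) (nat_lit 5) (nat_lit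 37) (nat_lit 5) (nat_lit 38) (nat_lit 5) (nat_lit 337) (nat_lit 271) (nat_lit 253)) (XT.lf (nat_lit 0) (nat_lit 5548109906) (nat_lit 420) (nat_lit 3894629491) (nat_lit 84) (nat_lit 1502250515) (nat_lit 33) (nat_lit 5) (nat_lit 38) (nat_lit 5) (nat_lit 34) (nat_lit 4) (nat_lit 338) (nat_lit 271) (nat_lit 252))) (XT.nd (nat_lit 94) (nat_lit 84) (nat_lit 0) (XT.lf (nat_lit 0) (nat_lit 269058476) (nat_lit 252) (nat_lit 7614665128) (nat_lit 336) (nat_lit 3286847367) (nat_lit 30) (nat_lit 5) (nat_lit 33) (nat_lit 5) (nat_lit 34) (nat_lit 4) (nat_lit 339) (nat_lit 271) (nat_lit 251)) (XT.nd (nat_lit 94) (nat_lit 84) (nat_lit 0) (XT.lf (nat_lit 0) (nat_lit 4575689744) (nat_lit 252) (nat_lit 5705442548) (nat_lit 336) (nat_lit 1122570762) (nat_lit 30) (nat_lit 5) (nat_lit 33) (nat_lit 5) (nat_lit 34) (nat_lit 4) (nat_lit 340) (nat_lit 271) (nat_lit 250)) (XT.lf (nat_lit 0) (nat_lit 1036012653) (nat_lit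 336) (nat_lit 2707117504) (nat_lit 84) (nat_lit 7902370471) (nat_lit 29) (nat_lit 5) (nat_lit 33) (nat_lit 5) (nat_lit 30) (nat_lit 5) (nat_lit 341) (nat_lit 271) (nat_lit 249))))))))
noncomputable def xc17 : XT := (XT.nd (nat_lit 1692) (nat_lit 252) (nat_lit 0) (XT.nd (nat_lit 846) (nat_lit 588) (nat_lit 0) (XT.nd (nat_lit 376) (nat_lit 336) (nat_lit 0) (XT.nd (nat_lit 188) (nat_lit 168) (nat_lit 0) (XT.nd (nat_lit 94) (nat_lit 0) (nat_lit 0) (XT.lf (nat_lit 0) (nat_lit 1494310484) (nat_lit 252) (nat_lit 1709777836) (nat_lit 336) (nat_lit 8691616032) (nat_lit 26) (nat_lit 5) (nat_lit 29) (nat_lit 5) (nat_lit 30) (nat_lit 5) (nat_lit 342) (nat_lit 271) (nat_lit 248)) (XT.lf (nat_lit 0) (nat_lit 5423481462) (nat_lit 336) (nat_lit 6340239885) (nat_lit 84) (nat_lit 390638511) (nat_lit 26) (nat_lit 5) (nat_lit 30) (nat_lit 5) (nat_lit 27) (nat_lit 4) (nat_lit 343) (nat_lit 271) (nat_lit 247)))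 (XT.nd (nat_lit 94) (nat_lit 168) (nat_lit 0) (XT.lf (nat_lit 0) (nat_lit 7682340460) (nat_lit 336) (nat_lit 2235371080) (nat_lit 84) (nat_lit 2504428231) (nat_lit 26) (nat_lit 5) (nat_lit 30) (nat_lit 5) (nat_lit 27) (nat_lit 4) (nat_lit 344) (nat_lit 271) (nat_lit 246)) (XT.lf (nat_lit 0) (nat_lit 1973766926) (nat_lit 168) (nat_lit 8011622686) (nat_lit 252) (nat_lit 2713822896) (nat_lit 24) (nat_lit 5) (nat_lit 26) (nat_lit 5) (nat_lit 27) (nat_lit 4) (nat_lit 345) (nat_lit 271) (nat_lit 245)))) (XT.nd (nat_lit 188) (nat_lit 252) (nat_lit 0) (XT.nd (nat_lit 94) (nat_lit 84) (nat_lit 0) (XT.lf (nat_lit 0) (nat_lit 6298663442) (nat_lit 168) (nat_lit 6039837392) (nat_lit 252) (nat_lit 647220012) (nat_lit 24) (nat_lit 5) (nat_lit 26) (nat_lit 5) (nat_lit 27) (nat_lit 4) (nat_lit 346) (nat_lit 271) (nat_lit 244)) (XT.lf (nat_lit 0) (nat_lit 1409618297) (nat_lit 252) (nat_lit 2599518617) (nat_lit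 84) (nat_lit 9273054088) (nat_lit 23) (nat_lit 5) (nat_lit 26) (nat_lit 5) (nat_lit 24) (nat_lit 5) (nat_lit 347) (nat_lit 271) (nat_lit 243))) (XT.nd (nat_lit 94) (nat_lit 0) (nat_lit 0) (XT.lf (nat_lit 0) (nat_lit 1580477867) (nat_lit 252) (nat_lit 1909355098) (nat_lit 336) (nat_lit 10098817592) (nat_lit 20) (nat_lit 5) (nat_lit 23) (nat_lit 5) (nat_lit 24) (nat_lit 5) (nat_lit 348) (nat_lit 271) (nat_lit 242)) (XT.nd (nat_lit 94) (nat_lit 0) (nat_lit 0) (XT.lf (nat_lit 0) (nat_lit 5622389574) (nat_lit 336) (nat_lit 8021591412) (nat_lit 84) (nat_lit 261169626) (nat_lit 20) (nat_lit 5) (nat_lit 24) (nat_lit 5) (nat_lit 21) (nat_lit 4) (nat_lit 349) (nat_lit 271) (nat_lit 241)) (XT.lf (nat_lit 0) (nat_lit 7799758567) (nat_lit 336) (nat_lit 3989317629) (nat_lit 84) (nat_lit 2443205022) (nat_lit 20) (nat_lit 5) (nat_lit 24) (nat_lit 5) (nat_lit 21) (nat_lit 4) (nat_lit 350) (nat_lit 271) (nat_lit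 240)))))) (XT.nd (nat_lit 376) (nat_lit 336) (nat_lit 0) (XT.nd (nat_lit 188) (nat_lit 84) (nat_lit 0) (XT.nd (nat_lit 94) (nat_lit 0) (nat_lit 0) (XT.lf (nat_lit 0) (nat_lit 113637744) (nat_lit 168) (nat_lit 9892517996) (nat_lit 252) (nat_lit 4564743779) (nat_lit 18) (nat_lit 5) (nat_lit 20) (nat_lit 5) (nat_lit 21) (nat_lit 4) (nat_lit 351) (nat_lit 271) (nat_lit 239)) (XT.lf (nat_lit 0) (nat_lit 4372320839) (nat_lit 168) (nat_lit 7911307861) (nat_lit 252) (nat_lit 2636452723) (nat_lit 18) (nat_lit 5) (nat_lit 20) (nat_lit 5) (nat_lit 21) (nat_lit 4) (nat_lit 352) (nat_lit 271) (nat_lit 238))) (XT.nd (nat_lit 94) (nat_lit 84) (nat_lit 0) (XT.lf (nat_lit 0) (nat_lit 8708672642) (nat_lit 168) (nat_lit 5885239389) (nat_lit 252) (nat_lit 687492408) (nat_lit 18) (nat_lit 5) (nat_lit 20) (nat_lit 5) (nat_lit 21) (nat_lit 4) (nat_lit 353) (nat_lit 271) (nat_lit 237)) (XT.lf (nat_lit 0) (nat_lit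 1258084992) (nat_lit 252) (nat_lit 2541207254) (nat_lit 84) (nat_lit 11855518266) (nat_lit 17) (nat_lit 5) (nat_lit 20) (nat_lit 5) (nat_lit 18) (nat_lit 5) (nat_lit 354) (nat_lit 271) (nat_lit 236)))) (XT.nd (nat_lit 188) (nat_lit 168) (nat_lit 0) (XT.nd (nat_lit 94) (nat_lit 0) (nat_lit 0) (XT.lf (nat_lit 0) (nat_lit 1588258265) (nat_lit 168) (nat_lit 1641141832) (nat_lit 252) (nat_lit 12810935486) (nat_lit 15) (nat_lit 5) (nat_lit 17) (nat_lit 5) (nat_lit 18) (nat_lit 5) (nat_lit 355) (nat_lit 271) (nat_lit 235)) (XT.lf (nat_lit 0) (nat_lit 5258779186) (nat_lit 252) (nat_lit 10595991485) (nat_lit 84) (nat_lit 583263991) (nat_lit 15) (nat_lit 5) (nat_lit 18) (nat_lit 5) (nat_lit 16) (nat_lit 4) (nat_lit 356) (nat_lit 271) (nat_lit 234))) (XT.nd (nat_lit 94) (nat_lit 168) (nat_lit 0) (XT.lf (nat_lit 0) (nat_lit 7333289996) (nat_lit 252) (nat_lit 6688119562) (nat_lit 84) (nat_lit 2827328430)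 (nat_lit 15) (nat_lit 5) (nat_lit 18) (nat_lit 5) (nat_lit 16) (nat_lit 4) (nat_lit 357) (nat_lit 271) (nat_lit 233)) (XT.nd (nat_lit 94) (nat_lit 168) (nat_lit 0) (XT.lf (nat_lit 0) (nat_lit 9438585858) (nat_lit 252) (nat_lit 2708538672) (nat_lit 84) (nat_lit 5126208537) (nat_lit 15) (nat_lit 5) (nat_lit 18) (nat_lit 5) (nat_lit 16) (nat_lit 4) (nat_lit 358) (nat_lit 271) (nat_lit 232)) (XT.lf (nat_lit 0) (nat_lit 1374146560) (nat_lit 168) (nat_lit 10216114271) (nat_lit 252) (nat_lit 6121532253) (nat_lit 13) (nat_lit 5) (nat_lit 15) (nat_lit 5) (nat_lit 16) (nat_lit 4) (nat_lit 359) (nat_lit 271) (nat_lit 231))))))) (XT.nd (nat_lit 50008) (nat_lit 0) (nat_lit 3864) (XT.nd (nat_lit 376) (nat_lit 168) (nat_lit 0) (XT.nd (nat_lit 188) (nat_lit 84) (nat_lit 0) (XT.nd (nat_lit 94) (nat_lit 0) (nat_lit 0) (XT.lf (nat_lit 0) (nat_lit 5593351415) (nat_lit 168) (nat_lit 8211548011) (nat_lit 252)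 (nat_lit 4359175360) (nat_lit 13) (nat_lit 5) (nat_lit 15) (nat_lit 5) (nat_lit 16) (nat_lit 4) (nat_lit 360) (nat_lit 271) (nat_lit 230)) (XT.lf (nat_lit 0) (nat_lit 9897315521) (nat_lit 168) (nat_lit 6159828872) (nat_lit 252) (nat_lit 2574305417) (nat_lit 13) (nat_lit 5) (nat_lit 15) (nat_lit 5) (nat_lit 16) (nat_lit 4) (nat_lit 361) (nat_lit 271) (nat_lit 229))) (XT.nd (nat_lit 94) (nat_lit 84) (nat_lit 0) (XT.lf (nat_lit 0) (nat_lit 14290050624) (nat_lit 168) (nat_lit 4059044437) (nat_lit 252) (nat_lit 765258740) (nat_lit 13) (nat_lit 5) (nat_lit 15) (nat_lit 5) (nat_lit 16) (nat_lit 4) (nat_lit 362) (nat_lit 271) (nat_lit 228)) (XT.lf (nat_lit 0) (nat_lit 1048099810) (nat_lit 252) (nat_lit 848196732) (nat_lit 84) (nat_lit 17716611391) (nat_lit 12) (nat_lit 5) (nat_lit 15) (nat_lit 5) (nat_lit 13) (nat_lit 5) (nat_lit 363) (nat_lit 271) (nat_lit 227)))) (XT.nd (nat_lit 188) (nat_lit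 0) (nat_lit 0) (XT.nd (nat_lit 94) (nat_lit 0) (nat_lit 0) (XT.lf (nat_lit 0) (nat_lit 2909042665) (nat_lit 252) (nat_lit 16863779938) (nat_lit 84) (nat_lit 353724212) (nat_lit 10) (nat_lit 5) (nat_lit 13) (nat_lit 5) (nat_lit 11) (nat_lit 4) (nat_lit 364) (nat_lit 271) (nat_lit 226)) (XT.lf (nat_lit 0) (nat_lit 4827600461) (nat_lit 252) (nat_lit 13199262631) (nat_lit 84) (nat_lit 2629342246) (nat_lit 10) (nat_lit 5) (nat_lit 13) (nat_lit 5) (nat_lit 11) (nat_lit 4) (nat_lit 365) (nat_lit 271) (nat_lit 225))) (XT.nd (nat_lit 94) (nat_lit 0) (nat_lit 0) (XT.lf (nat_lit 0) (nat_lit 6778074940) (nat_lit 252) (nat_lit 9462944575) (nat_lit 84) (nat_lit 4962209765) (nat_lit 10) (nat_lit 5) (nat_lit 13) (nat_lit 5) (nat_lit 11) (nat_lit 4) (nat_lit 366) (nat_lit 271) (nat_lit 224)) (XT.nd (nat_lit 94) (nat_lit 0) (nat_lit 0) (XT.lf (nat_lit 0) (nat_lit 8762284150) (nat_lit 252) (nat_lit 5651343131)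 (nat_lit 84) (nat_lit 7354501246) (nat_lit 10) (nat_lit 5) (nat_lit 13) (nat_lit 5) (nat_lit 11) (nat_lit 4) (nat_lit 367) (nat_lit 271) (nat_lit 223)) (XT.lf (nat_lit 0) (nat_lit 10782077580) (nat_lit 252) (nat_lit 1760905486) (nat_lit 84) (nat_lit 9808446556) (nat_lit 10) (nat_lit 5) (nat_lit 13) (nat_lit 5) (nat_lit 11) (nat_lit 4) (nat_lit 368) (nat_lit 271) (nat_lit 222)))))) (XT.nd (nat_lit 470) (nat_lit 840) (nat_lit 0) (XT.nd (nat_lit 188) (nat_lit 1008) (nat_lit 0) (XT.nd (nat_lit 94) (nat_lit 0) (nat_lit 0) (XT.lf (nat_lit 0) (nat_lit 18470080) (nat_lit 588) (nat_lit 3838280085) (nat_lit 0) (nat_lit 18470080) (nat_lit 78) (nat_lit 5) (nat_lit 85) (nat_lit 4) (nat_lit 78) (nat_lit 4) (nat_lit 317) (nat_lit 272) (nat_lit 272)) (XT.lf (nat_lit 0) (nat_lit 2642204251) (nat_lit 588) (nat_lit 3769039825) (nat_lit 0) (nat_lit 1435520072) (nat_lit 78) (nat_lit 5) (nat_lit 85) (nat_lit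 4) (nat_lit 78) (nat_lit 4) (nat_lit 318) (nat_lit 272) (nat_lit 271))) (XT.nd (nat_lit 94) (nat_lit 504) (nat_lit 0) (XT.lf (nat_lit 0) (nat_lit 180574964) (nat_lit 504) (nat_lit 5072699978) (nat_lit 504) (nat_lit 2695614074) (nat_lit 72) (nat_lit 4) (nat_lit 78) (nat_lit 5) (nat_lit 78) (nat_lit 4) (nat_lit 319) (nat_lit 272) (nat_lit 270)) (XT.nd (nat_lit 94) (nat_lit 504) (nat_lit 0) (XT.lf (nat_lit 0) (nat_lit 4250689634) (nat_lit 504) (nat_lit 3658688111) (nat_lit 504) (nat_lit 146391998) (nat_lit 72) (nat_lit 4) (nat_lit 78) (nat_lit 5) (nat_lit 78) (nat_lit 4) (nat_lit 320) (nat_lit 272) (nat_lit 269)) (XT.lf (nat_lit 0) (nat_lit 178639889) (nat_lit 420) (nat_lit 2180795280) (nat_lit 504) (nat_lit 5808458805) (nat_lit 66) (nat_lit 5) (nat_lit 71) (nat_lit 5) (nat_lit 72) (nat_lit 4) (nat_lit 321) (nat_lit 272) (nat_lit 268))))) (XT.nd (nat_lit 188) (nat_lit 420) (nat_lit 0) (XT.nd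 (nat_lit 94) (nat_lit 420) (nat_lit 0) (XT.lf (nat_lit 0) (nat_lit 4284463425) (nat_lit 420) (nat_lit 622383512) (nat_lit 504) (nat_lit 3378060435) (nat_lit 66) (nat_lit 5) (nat_lit 71) (nat_lit 5) (nat_lit 72) (nat_lit 4) (nat_lit 322) (nat_lit 272) (nat_lit 267)) (XT.lf (nat_lit 0) (nat_lit 22056008) (nat_lit 420) (nat_lit 7450511688) (nat_lit 420) (nat_lit 935282914) (nat_lit 61) (nat_lit 4) (nat_lit 66) (nat_lit 5) (nat_lit 66) (nat_lit 4) (nat_lit 323) (nat_lit 272) (nat_lit 266))) (XT.nd (nat_lit 94) (nat_lit 336) (nat_lit 0) (XT.lf (nat_lit 0) (nat_lit 1529449353) (nat_lit 504) (nat_lit 4383419646) (nat_lit 84) (nat_lit 2622324223) (nat_lit 60) (nat_lit 5) (nat_lit 66) (nat_lit 5) (nat_lit 61) (nat_lit 4) (nat_lit 324) (nat_lit 272) (nat_lit 265)) (XT.nd (nat_lit 94) (nat_lit 336) (nat_lit 0) (XT.lf (nat_lit 0) (nat_lit 3982855729) (nat_lit 504) (nat_lit 345752565) (nat_lit 84) (nat_lit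 4340081077) (nat_lit 60) (nat_lit 5) (nat_lit 66) (nat_lit 5) (nat_lit 61) (nat_lit 4) (nat_lit 325) (nat_lit 272) (nat_lit 264)) (XT.lf (nat_lit 0) (nat_lit 3817155466) (nat_lit 336) (nat_lit 2666778101) (nat_lit 420) (nat_lit 2323643680) (nat_lit 56) (nat_lit 5) (nat_lit 60) (nat_lit 5) (nat_lit 61) (nat_lit 4) (nat_lit 326) (nat_lit 272) (nat_lit 263))))))))
noncomputable def xc18 : XT := (XT.nd (nat_lit 1692) (nat_lit 1176) (nat_lit 0) (XT.nd (nat_lit 846) (nat_lit 1008) (nat_lit 0) (XT.nd (nat_lit 376) (nat_lit 672) (nat_lit 0) (XT.nd (nat_lit 188) (nat_lit 336) (nat_lit 0) (XT.nd (nat_lit 94) (nat_lit 420) (nat_lit 0) (XT.lf (nat_lit 0) (nat_lit 47134931) (nat_lit 420) (nat_lit 913126198) (nat_lit 84) (nat_lit 7992760466) (nat_lit 55) (nat_lit 5) (nat_lit 60) (nat_lit 5) (nat_lit 56) (nat_lit 5) (nat_lit 327) (nat_lit 272) (nat_lit 262)) (XT.lf (nat_lit 0) (nat_lit 2419790680) (nat_lit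 504) (nat_lit 5854956567) (nat_lit 84) (nat_lit 828555330) (nat_lit 50) (nat_lit 5) (nat_lit 56) (nat_lit 5) (nat_lit 51) (nat_lit 4) (nat_lit 328) (nat_lit 272) (nat_lit 261))) (XT.nd (nat_lit 94) (nat_lit 336) (nat_lit 0) (XT.lf (nat_lit 0) (nat_lit 4822469039) (nat_lit 504) (nat_lit 1786509286) (nat_lit 84) (nat_lit 2650943875) (nat_lit 50) (nat_lit 5) (nat_lit 56) (nat_lit 5) (nat_lit 51) (nat_lit 4) (nat_lit 329) (nat_lit 272) (nat_lit 260)) (XT.lf (nat_lit 0) (nat_lit 2381526857) (nat_lit 336) (nat_lit 4880642695) (nat_lit 420) (nat_lit 2160709336) (nat_lit 46) (nat_lit 5) (nat_lit 50) (nat_lit 5) (nat_lit 51) (nat_lit 4) (nat_lit 330) (nat_lit 272) (nat_lit 259)))) (XT.nd (nat_lit 188) (nat_lit 252) (nat_lit 0) (XT.nd (nat_lit 94) (nat_lit 336) (nat_lit 0) (XT.lf (nat_lit 0) (nat_lit 140792875) (nat_lit 420) (nat_lit 2951020784) (nat_lit 84) (nat_lit 6500621656) (nat_lit 45) (nat_lit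 5) (nat_lit 50) (nat_lit 5) (nat_lit 46) (nat_lit 5) (nat_lit 331) (nat_lit 272) (nat_lit 258)) (XT.lf (nat_lit 0) (nat_lit 1195038834) (nat_lit 336) (nat_lit 1226506804) (nat_lit 420) (nat_lit 7346773401) (nat_lit 41) (nat_lit 5) (nat_lit 45) (nat_lit 5) (nat_lit 46) (nat_lit 5) (nat_lit 332) (nat_lit 272) (nat_lit 257))) (XT.nd (nat_lit 94) (nat_lit 252) (nat_lit 0) (XT.lf (nat_lit 0) (nat_lit 4752878894) (nat_lit 420) (nat_lit 4497990384) (nat_lit 84) (nat_lit 699693409) (nat_lit 41) (nat_lit 5) (nat_lit 46) (nat_lit 5) (nat_lit 42) (nat_lit 4) (nat_lit 333) (nat_lit 272) (nat_lit 256)) (XT.nd (nat_lit 94) (nat_lit 252) (nat_lit 0) (XT.lf (nat_lit 0) (nat_lit 7112625152) (nat_lit 420) (nat_lit 380929147) (nat_lit 84) (nat_lit 2646536385) (nat_lit 41) (nat_lit 5) (nat_lit 46) (nat_lit 5) (nat_lit 42) (nat_lit 4) (nat_lit 334) (nat_lit 272) (nat_lit 255)) (XT.lf (nat_lit 0) (nat_lit 3871918668)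 (nat_lit 252) (nat_lit 5657308087) (nat_lit 336) (nat_lit 807039408) (nat_lit 38) (nat_lit 5) (nat_lit 41) (nat_lit 5) (nat_lit 42) (nat_lit 4) (nat_lit 335) (nat_lit 272) (nat_lit 254)))))) (XT.nd (nat_lit 376) (nat_lit 588) (nat_lit 0) (XT.nd (nat_lit 188) (nat_lit 0) (nat_lit 0) (XT.nd (nat_lit 94) (nat_lit 336) (nat_lit 0) (XT.lf (nat_lit 0) (nat_lit 1401822178) (nat_lit 336) (nat_lit 2358982473) (nat_lit 84) (nat_lit 6779080284) (nat_lit 37) (nat_lit 5) (nat_lit 41) (nat_lit 5) (nat_lit 38) (nat_lit 5) (nat_lit 336) (nat_lit 272) (nat_lit 253)) (XT.lf (nat_lit 0) (nat_lit 1833946588) (nat_lit 336) (nat_lit 1793729889) (nat_lit 420) (nat_lit 7123203341) (nat_lit 33) (nat_lit 5) (nat_lit 37) (nat_lit 5) (nat_lit 38) (nat_lit 5) (nat_lit 337) (nat_lit 272) (nat_lit 252))) (XT.nd (nat_lit 94) (nat_lit 0) (nat_lit 0) (XT.lf (nat_lit 0) (nat_lit 5897584077) (nat_lit 420) (nat_lit 4832760669)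 (nat_lit 84) (nat_lit 239080422) (nat_lit 33) (nat_lit 5) (nat_lit 38) (nat_lit 5) (nat_lit 34) (nat_lit 4) (nat_lit 338) (nat_lit 272) (nat_lit 251)) (XT.lf (nat_lit 0) (nat_lit 8205624933) (nat_lit 420) (nat_lit 707635467) (nat_lit 84) (nat_lit 2282713402) (nat_lit 33) (nat_lit 5) (nat_lit 38) (nat_lit 5) (nat_lit 34) (nat_lit 4) (nat_lit 339) (nat_lit 272) (nat_lit 250)))) (XT.nd (nat_lit 188) (nat_lit 252) (nat_lit 0) (XT.nd (nat_lit 94) (nat_lit 84) (nat_lit 0) (XT.lf (nat_lit 0) (nat_lit 3551639056) (nat_lit 252) (nat_lit 7019750000) (nat_lit 336) (nat_lit 858807231) (nat_lit 30) (nat_lit 5) (nat_lit 33) (nat_lit 5) (nat_lit 34) (nat_lit 4) (nat_lit 340) (nat_lit 272) (nat_lit 249)) (XT.lf (nat_lit 0) (nat_lit 1270370777) (nat_lit 336) (nat_lit 3792696188) (nat_lit 84) (nat_lit 6609695552) (nat_lit 29) (nat_lit 5) (nat_lit 33) (nat_lit 5) (nat_lit 30) (nat_lit 5) (nat_lit 341) (nat_lit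 272) (nat_lit 248))) (XT.nd (nat_lit 94) (nat_lit 0) (nat_lit 0) (XT.lf (nat_lit 0) (nat_lit 354320085) (nat_lit 252) (nat_lit 3049450724) (nat_lit 336) (nat_lit 8520370222) (nat_lit 26) (nat_lit 5) (nat_lit 29) (nat_lit 5) (nat_lit 30) (nat_lit 5) (nat_lit 342) (nat_lit 272) (nat_lit 247)) (XT.nd (nat_lit 94) (nat_lit 0) (nat_lit 0) (XT.lf (nat_lit 0) (nat_lit 4647081928) (nat_lit 252) (nat_lit 949154195) (nat_lit 336) (nat_lit 6587492022) (nat_lit 26) (nat_lit 5) (nat_lit 29) (nat_lit 5) (nat_lit 30) (nat_lit 5) (nat_lit 343) (nat_lit 272) (nat_lit 246)) (XT.lf (nat_lit 0) (nat_lit 7823318741) (nat_lit 336) (nat_lit 3453257173) (nat_lit 84) (nat_lit 1176011144) (nat_lit 26) (nat_lit 5) (nat_lit 30) (nat_lit 5) (nat_lit 27) (nat_lit 4) (nat_lit 344) (nat_lit 272) (nat_lit 245))))))) (XT.nd (nat_lit 846) (nat_lit 504) (nat_lit 0) (XT.nd (nat_lit 376) (nat_lit 168) (nat_lit 0) (XT.nd (nat_lit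 188) (nat_lit 336) (nat_lit 0) (XT.nd (nat_lit 94) (nat_lit 0) (nat_lit 0) (XT.lf (nat_lit 0) (nat_lit 700255898) (nat_lit 168) (nat_lit 9391790292) (nat_lit 252) (nat_lit 2638768687) (nat_lit 24) (nat_lit 5) (nat_lit 26) (nat_lit 5) (nat_lit 27) (nat_lit 4) (nat_lit 345) (nat_lit 272) (nat_lit 244)) (XT.lf (nat_lit 0) (nat_lit 4995489273) (nat_lit 168) (nat_lit 7428337684) (nat_lit 252) (nat_lit 594245871) (nat_lit 24) (nat_lit 5) (nat_lit 26) (nat_lit 5) (nat_lit 27) (nat_lit 4) (nat_lit 346) (nat_lit 272) (nat_lit 243))) (XT.nd (nat_lit 94) (nat_lit 252) (nat_lit 0) (XT.lf (nat_lit 0) (nat_lit 1440540448) (nat_lit 252) (nat_lit 3964856135) (nat_lit 84) (nat_lit 7909863771) (nat_lit 23) (nat_lit 5) (nat_lit 26) (nat_lit 5) (nat_lit 24) (nat_lit 5) (nat_lit 347) (nat_lit 272) (nat_lit 242)) (XT.lf (nat_lit 0) (nat_lit 158076847) (nat_lit 252) (nat_lit 3328214160) (nat_lit 336) (nat_lit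 10136577923) (nat_lit 20) (nat_lit 5) (nat_lit 23) (nat_lit 5) (nat_lit 24) (nat_lit 5) (nat_lit 348) (nat_lit 272) (nat_lit 241)))) (XT.nd (nat_lit 188) (nat_lit 168) (nat_lit 0) (XT.nd (nat_lit 94) (nat_lit 0) (nat_lit 0) (XT.lf (nat_lit 0) (nat_lit 4435766543) (nat_lit 252) (nat_lit 1160416313) (nat_lit 336) (nat_lit 8343966948) (nat_lit 20) (nat_lit 5) (nat_lit 23) (nat_lit 5) (nat_lit 24) (nat_lit 5) (nat_lit 349) (nat_lit 272) (nat_lit 240)) (XT.lf (nat_lit 0) (nat_lit 7742543793) (nat_lit 336) (nat_lit 5488470207) (nat_lit 84) (nat_lit 1037303517) (nat_lit 20) (nat_lit 5) (nat_lit 24) (nat_lit 5) (nat_lit 21) (nat_lit 4) (nat_lit 350) (nat_lit 272) (nat_lit 239))) (XT.nd (nat_lit 94) (nat_lit 168) (nat_lit 0) (XT.lf (nat_lit 0) (nat_lit 9928903305) (nat_lit 336) (nat_lit 1414838524) (nat_lit 84) (nat_lit 3263888735) (nat_lit 20) (nat_lit 5) (nat_lit 24) (nat_lit 5) (nat_lit 21) (nat_lit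 4) (nat_lit 351) (nat_lit 272) (nat_lit 238)) (XT.nd (nat_lit 94) (nat_lit 0) (nat_lit 0) (XT.lf (nat_lit 0) (nat_lit 2787992141) (nat_lit 168) (nat_lit 9385452921) (nat_lit 252) (nat_lit 2784459638) (nat_lit 18) (nat_lit 5) (nat_lit 20) (nat_lit 5) (nat_lit 21) (nat_lit 4) (nat_lit 352) (nat_lit 272) (nat_lit 237)) (XT.lf (nat_lit 0) (nat_lit 7098388127) (nat_lit 168) (nat_lit 7367292514) (nat_lit 252) (nat_lit 854175776) (nat_lit 18) (nat_lit 5) (nat_lit 20) (nat_lit 5) (nat_lit 21) (nat_lit 4) (nat_lit 353) (nat_lit 272) (nat_lit 236)))))) (XT.nd (nat_lit 470) (nat_lit 252) (nat_lit 0) (XT.nd (nat_lit 188) (nat_lit 168) (nat_lit 0) (XT.nd (nat_lit 94) (nat_lit 0) (nat_lit 0) (XT.lf (nat_lit 0) (nat_lit 1077010007) (nat_lit 252) (nat_lit 4213895702) (nat_lit 84) (nat_lit 10403023408) (nat_lit 17) (nat_lit 5) (nat_lit 20) (nat_lit 5) (nat_lit 18) (nat_lit 5) (nat_lit 354) (nat_lit 272)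 (nat_lit 235)) (XT.lf (nat_lit 0) (nat_lit 3015353179) (nat_lit 252) (nat_lit 141265618) (nat_lit 84) (nat_lit 12923920681) (nat_lit 17) (nat_lit 5) (nat_lit 20) (nat_lit 5) (nat_lit 18) (nat_lit 5) (nat_lit 355) (nat_lit 272) (nat_lit 234))) (XT.nd (nat_lit 94) (nat_lit 0) (nat_lit 0) (XT.lf (nat_lit 0) (nat_lit 4091118528) (nat_lit 168) (nat_lit 929336091) (nat_lit 252) (nat_lit 11458597807) (nat_lit 15) (nat_lit 5) (nat_lit 17) (nat_lit 5) (nat_lit 18) (nat_lit 5) (nat_lit 356) (nat_lit 272) (nat_lit 233)) (XT.nd (nat_lit 94) (nat_lit 0) (nat_lit 0) (XT.lf (nat_lit 0) (nat_lit 7069239760) (nat_lit 252) (nat_lit 8495183104) (nat_lit 84) (nat_lit 1326189803) (nat_lit 15) (nat_lit 5) (nat_lit 18) (nat_lit 5) (nat_lit 16) (nat_lit 4) (nat_lit 357) (nat_lit 272) (nat_lit 232)) (XT.lf (nat_lit 0) (nat_lit 9158525399) (nat_lit 252) (nat_lit 4539210612) (nat_lit 84) (nat_lit 3618025687) (nat_lit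 15) (nat_lit 5) (nat_lit 18) (nat_lit 5) (nat_lit 16) (nat_lit 4) (nat_lit 358) (nat_lit 272) (nat_lit 231))))) (XT.nd (nat_lit 188) (nat_lit 84) (nat_lit 0) (XT.nd (nat_lit 94) (nat_lit 168) (nat_lit 0) (XT.lf (nat_lit 0) (nat_lit 11281039841) (nat_lit 252) (nat_lit 507109912) (nat_lit 84) (nat_lit 5967031842) (nat_lit 15) (nat_lit 5) (nat_lit 18) (nat_lit 5) (nat_lit 16) (nat_lit 4) (nat_lit 359) (nat_lit 272) (nat_lit 230)) (XT.lf (nat_lit 0) (nat_lit 3679001007) (nat_lit 168) (nat_lit 9796256628) (nat_lit 252) (nat_lit 4732892925) (nat_lit 13) (nat_lit 5) (nat_lit 15) (nat_lit 5) (nat_lit 16) (nat_lit 4) (nat_lit 360) (nat_lit 272) (nat_lit 229))) (XT.nd (nat_lit 94) (nat_lit 84) (nat_lit 0) (XT.lf (nat_lit 0) (nat_lit 7960979938) (nat_lit 168) (nat_lit 7751695538) (nat_lit 252) (nat_lit 2963362339) (nat_lit 13) (nat_lit 5) (nat_lit 15) (nat_lit 5) (nat_lit 16) (nat_lit 4) (nat_lit 361)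 (nat_lit 272) (nat_lit 228)) (XT.nd (nat_lit 94) (nat_lit 84) (nat_lit 0) (XT.lf (nat_lit 0) (nat_lit 12332390915) (nat_lit 168) (nat_lit 5657853925) (nat_lit 252) (nat_lit 1169193796) (nat_lit 13) (nat_lit 5) (nat_lit 15) (nat_lit 5) (nat_lit 16) (nat_lit 4) (nat_lit 362) (nat_lit 272) (nat_lit 227)) (XT.lf (nat_lit 0) (nat_lit 638163113) (nat_lit 252) (nat_lit 2867955880) (nat_lit 84) (nat_lit 16152484322) (nat_lit 12) (nat_lit 5) (nat_lit 15) (nat_lit 5) (nat_lit 13) (nat_lit 5) (nat_lit 363) (nat_lit 272) (nat_lit 226))))))))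
noncomputable def xc19 : XT := (XT.nd (nat_lit 50760) (nat_lit 0) (nat_lit 1092) (XT.nd (nat_lit 49820) (nat_lit 0) (nat_lit 3360) (XT.nd (nat_lit 376) (nat_lit 0) (nat_lit 0) (XT.nd (nat_lit 188) (nat_lit 0) (nat_lit 0) (XT.nd (nat_lit 94) (nat_lit 0) (nat_lit 0) (XT.lf (nat_lit 0) (nat_lit 1184360629) (nat_lit 168) (nat_lit 1276794654) (nat_lit 252) (nat_lit 17712309931) (nat_lit 10) (nat_lit 5) (nat_lit 12) (nat_lit 5) (nat_lit 13) (nat_lit 5) (nat_lit 364) (nat_lit 272) (nat_lit 225)) (XT.lf (nat_lit 0) (nat_lit 4353478133) (nat_lit 252) (nat_lit 15332501961) (nat_lit 84) (nat_lit 1018002070) (nat_lit 10) (nat_lit 5) (nat_lit 13) (nat_lit 5) (nat_lit 11) (nat_lit 4) (nat_lit 365) (nat_lit 272) (nat_lit 224))) (XT.nd (nat_lit 94) (nat_lit 0) (nat_lit 0) (XT.lf (nat_lit 0) (nat_lit 6290791618) (nat_lit 252) (nat_lit 11616145732) (nat_lit 84) (nat_lit 3344520534) (nat_lit 10) (nat_lit 5)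 (nat_lit 13) (nat_lit 5) (nat_lit 11) (nat_lit 4) (nat_lit 366) (nat_lit 272) (nat_lit 223)) (XT.lf (nat_lit 0) (nat_lit 8262235557) (nat_lit 252) (nat_lit 7823905905) (nat_lit 84) (nat_lit 5730653863) (nat_lit 10) (nat_lit 5) (nat_lit 13) (nat_lit 5) (nat_lit 11) (nat_lit 4) (nat_lit 367) (nat_lit 272) (nat_lit 222)))) (XT.nd (nat_lit 49162) (nat_lit 0) (nat_lit 5712) (XT.nd (nat_lit 49068) (nat_lit 0) (nat_lit 6888) (XT.lf (nat_lit 0) (nat_lit 10269647542) (nat_lit 252) (nat_lit 3952247715) (nat_lit 84) (nat_lit 8178626183) (nat_lit 10) (nat_lit 5) (nat_lit 13) (nat_lit 5) (nat_lit 11) (nat_lit 4) (nat_lit 368) (nat_lit 272) (nat_lit 221)) (XT.lf (nat_lit 0) (nat_lit 1861156773) (nat_lit 1092) (nat_lit 62017432) (nat_lit 0) (nat_lit 1861156773) (nat_lit 92) (nat_lit 5) (nat_lit 105) (nat_lit 4) (nat_lit 92) (nat_lit 4) (nat_lit 315) (nat_lit 273) (nat_lit 273))) (XT.nd (nat_lit 94) (nat_lit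 588) (nat_lit 0) (XT.lf (nat_lit 0) (nat_lit 3807472987) (nat_lit 588) (nat_lit 2566332195) (nat_lit 588) (nat_lit 1283673974) (nat_lit 85) (nat_lit 4) (nat_lit 92) (nat_lit 5) (nat_lit 92) (nat_lit 4) (nat_lit 316) (nat_lit 273) (nat_lit 272)) (XT.nd (nat_lit 94) (nat_lit 0) (nat_lit 0) (XT.lf (nat_lit 0) (nat_lit 20751798) (nat_lit 504) (nat_lit 1233557117) (nat_lit 588) (nat_lit 6497209493) (nat_lit 78) (nat_lit 5) (nat_lit 84) (nat_lit 5) (nat_lit 85) (nat_lit 4) (nat_lit 317) (nat_lit 273) (nat_lit 271)) (XT.lf (nat_lit 0) (nat_lit 3809547728) (nat_lit 588) (nat_lit 3851716695) (nat_lit 0) (nat_lit 188370435) (nat_lit 78) (nat_lit 5) (nat_lit 85) (nat_lit 4) (nat_lit 78) (nat_lit 4) (nat_lit 318) (nat_lit 273) (nat_lit 270)))))) (XT.nd (nat_lit 470) (nat_lit 1260) (nat_lit 0) (XT.nd (nat_lit 188) (nat_lit 504) (nat_lit 0) (XT.nd (nat_lit 94) (nat_lit 84) (nat_lit 0) (XT.lf (nat_lit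 0) (nat_lit 55902745) (nat_lit 504) (nat_lit 6326826884) (nat_lit 504) (nat_lit 1570439383) (nat_lit 72) (nat_lit 4) (nat_lit 78) (nat_lit 5) (nat_lit 78) (nat_lit 4) (nat_lit 319) (nat_lit 273) (nat_lit 269)) (XT.lf (nat_lit 0) (nat_lit 922534064) (nat_lit 588) (nat_lit 3983797644) (nat_lit 84) (nat_lit 3154770241) (nat_lit 71) (nat_lit 5) (nat_lit 78) (nat_lit 5) (nat_lit 72) (nat_lit 4) (nat_lit 320) (nat_lit 273) (nat_lit 268))) (XT.nd (nat_lit 94) (nat_lit 504) (nat_lit 0) (XT.lf (nat_lit 0) (nat_lit 3388209620) (nat_lit 588) (nat_lit 43980352) (nat_lit 84) (nat_lit 4742358645) (nat_lit 71) (nat_lit 5) (nat_lit 78) (nat_lit 5) (nat_lit 72) (nat_lit 4) (nat_lit 321) (nat_lit 273) (nat_lit 267)) (XT.nd (nat_lit 94) (nat_lit 84) (nat_lit 0) (XT.lf (nat_lit 0) (nat_lit 4022480906) (nat_lit 420) (nat_lit 1877949010) (nat_lit 504) (nat_lit 2392430786) (nat_lit 66) (nat_lit 5) (nat_lit 71)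 (nat_lit 5) (nat_lit 72) (nat_lit 4) (nat_lit 322) (nat_lit 273) (nat_lit 266)) (XT.lf (nat_lit 0) (nat_lit 5078641) (nat_lit 504) (nat_lit 277233504) (nat_lit 84) (nat_lit 8135043623) (nat_lit 65) (nat_lit 5) (nat_lit 71) (nat_lit 5) (nat_lit 66) (nat_lit 5) (nat_lit 323) (nat_lit 273) (nat_lit 265))))) (XT.nd (nat_lit 188) (nat_lit 840) (nat_lit 0) (XT.nd (nat_lit 94) (nat_lit 0) (nat_lit 0) (XT.lf (nat_lit 0) (nat_lit 2411700022) (nat_lit 504) (nat_lit 4743453986) (nat_lit 84) (nat_lit 1390663596) (nat_lit 60) (nat_lit 5) (nat_lit 66) (nat_lit 5) (nat_lit 61) (nat_lit 4) (nat_lit 324) (nat_lit 273) (nat_lit 264)) (XT.lf (nat_lit 0) (nat_lit 4832486610) (nat_lit 504) (nat_lit 743617483) (nat_lit 84) (nat_lit 3104404743) (nat_lit 60) (nat_lit 5) (nat_lit 66) (nat_lit 5) (nat_lit 61) (nat_lit 4) (nat_lit 325) (nat_lit 273) (nat_lit 263))) (XT.nd (nat_lit 94) (nat_lit 504) (nat_lit 0) (XT.lf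 (nat_lit 0) (nat_lit 3373662052) (nat_lit 336) (nat_lit 3923863905) (nat_lit 420) (nat_lit 1523166287) (nat_lit 56) (nat_lit 5) (nat_lit 60) (nat_lit 5) (nat_lit 61) (nat_lit 4) (nat_lit 326) (nat_lit 273) (nat_lit 262)) (XT.nd (nat_lit 94) (nat_lit 420) (nat_lit 0) (XT.lf (nat_lit 0) (nat_lit 799949471) (nat_lit 420) (nat_lit 1414813252) (nat_lit 84) (nat_lit 6752273064) (nat_lit 55) (nat_lit 5) (nat_lit 60) (nat_lit 5) (nat_lit 56) (nat_lit 5) (nat_lit 327) (nat_lit 273) (nat_lit 261)) (XT.lf (nat_lit 0) (nat_lit 2708229838) (nat_lit 420) (nat_lit 419956365) (nat_lit 504) (nat_lit 5990670289) (nat_lit 50) (nat_lit 5) (nat_lit 55) (nat_lit 5) (nat_lit 56) (nat_lit 5) (nat_lit 328) (nat_lit 273) (nat_lit 260))))))) (XT.nd (nat_lit 846) (nat_lit 840) (nat_lit 0) (XT.nd (nat_lit 376) (nat_lit 672) (nat_lit 0) (XT.nd (nat_lit 188) (nat_lit 420) (nat_lit 0) (XT.nd (nat_lit 94) (nat_lit 336)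 (nat_lit 0) (XT.lf (nat_lit 0) (nat_lit 5496621775) (nat_lit 504) (nat_lit 2374702404) (nat_lit 84) (nat_lit 1405371300) (nat_lit 50) (nat_lit 5) (nat_lit 56) (nat_lit 5) (nat_lit 51) (nat_lit 4) (nat_lit 329) (nat_lit 273) (nat_lit 259)) (XT.lf (nat_lit 0) (nat_lit 1744921674) (nat_lit 336) (nat_lit 6155912990) (nat_lit 420) (nat_lit 1540070713) (nat_lit 46) (nat_lit 5) (nat_lit 50) (nat_lit 5) (nat_lit 51) (nat_lit 4) (nat_lit 330) (nat_lit 273) (nat_lit 258))) (XT.nd (nat_lit 94) (nat_lit 336) (nat_lit 0) (XT.lf (nat_lit 0) (nat_lit 719843835) (nat_lit 420) (nat_lit 3647776915) (nat_lit 84) (nat_lit 5243695795) (nat_lit 45) (nat_lit 5) (nat_lit 50) (nat_lit 5) (nat_lit 46) (nat_lit 5) (nat_lit 331) (nat_lit 273) (nat_lit 257)) (XT.lf (nat_lit 0) (nat_lit 448352460) (nat_lit 336) (nat_lit 2516628210) (nat_lit 420) (nat_lit 6823463388) (nat_lit 41) (nat_lit 5) (nat_lit 45) (nat_lit 5) (nat_lit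 46) (nat_lit 5) (nat_lit 332) (nat_lit 273) (nat_lit 256)))) (XT.nd (nat_lit 188) (nat_lit 672) (nat_lit 0) (XT.nd (nat_lit 94) (nat_lit 0) (nat_lit 0) (XT.lf (nat_lit 0) (nat_lit 4678656308) (nat_lit 336) (nat_lit 582870748) (nat_lit 420) (nat_lit 4710374537) (nat_lit 41) (nat_lit 5) (nat_lit 45) (nat_lit 5) (nat_lit 46) (nat_lit 5) (nat_lit 333) (nat_lit 273) (nat_lit 255)) (XT.lf (nat_lit 0) (nat_lit 7588555319) (nat_lit 420) (nat_lit 1204795228) (nat_lit 84) (nat_lit 1369224721) (nat_lit 41) (nat_lit 5) (nat_lit 46) (nat_lit 5) (nat_lit 42) (nat_lit 4) (nat_lit 334) (nat_lit 273) (nat_lit 254))) (XT.nd (nat_lit 94) (nat_lit 420) (nat_lit 0) (XT.lf (nat_lit 0) (nat_lit 2997067084) (nat_lit 252) (nat_lit 6973285263) (nat_lit 336) (nat_lit 389604812) (nat_lit 38) (nat_lit 5) (nat_lit 41) (nat_lit 5) (nat_lit 42) (nat_lit 4) (nat_lit 335) (nat_lit 273) (nat_lit 253)) (XT.nd (nat_lit 94)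 (nat_lit 336) (nat_lit 0) (XT.lf (nat_lit 0) (nat_lit 1784794764) (nat_lit 336) (nat_lit 3295343110) (nat_lit 84) (nat_lit 5484237203) (nat_lit 37) (nat_lit 5) (nat_lit 41) (nat_lit 5) (nat_lit 38) (nat_lit 5) (nat_lit 336) (nat_lit 273) (nat_lit 252)) (XT.lf (nat_lit 0) (nat_lit 844996350) (nat_lit 336) (nat_lit 3130573889) (nat_lit 420) (nat_lit 6801003478) (nat_lit 33) (nat_lit 5) (nat_lit 37) (nat_lit 5) (nat_lit 38) (nat_lit 5) (nat_lit 337) (nat_lit 273) (nat_lit 251)))))) (XT.nd (nat_lit 470) (nat_lit 504) (nat_lit 0) (XT.nd (nat_lit 188) (nat_lit 336) (nat_lit 0) (XT.nd (nat_lit 94) (nat_lit 0) (nat_lit 0) (XT.lf (nat_lit 0) (nat_lit 5117876012) (nat_lit 336) (nat_lit 1100352047) (nat_lit 420) (nat_lit 4777848566) (nat_lit 33) (nat_lit 5) (nat_lit 37) (nat_lit 5) (nat_lit 38) (nat_lit 5) (nat_lit 338) (nat_lit 273) (nat_lit 250)) (XT.lf (nat_lit 0) (nat_lit 8491198340) (nat_lit 420)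 (nat_lit 1774305116) (nat_lit 84) (nat_lit 958318414) (nat_lit 33) (nat_lit 5) (nat_lit 38) (nat_lit 5) (nat_lit 34) (nat_lit 4) (nat_lit 339) (nat_lit 273) (nat_lit 249))) (XT.nd (nat_lit 94) (nat_lit 84) (nat_lit 0) (XT.lf (nat_lit 0) (nat_lit 2431216601) (nat_lit 252) (nat_lit 8391202474) (nat_lit 336) (nat_lit 636802259) (nat_lit 30) (nat_lit 5) (nat_lit 33) (nat_lit 5) (nat_lit 34) (nat_lit 4) (nat_lit 340) (nat_lit 273) (nat_lit 248)) (XT.nd (nat_lit 94) (nat_lit 0) (nat_lit 0) (XT.lf (nat_lit 0) (nat_lit 1464536055) (nat_lit 336) (nat_lit 4975789455) (nat_lit 84) (nat_lit 5262217999) (nat_lit 29) (nat_lit 5) (nat_lit 33) (nat_lit 5) (nat_lit 30) (nat_lit 5) (nat_lit 341) (nat_lit 273) (nat_lit 247)) (XT.lf (nat_lit 0) (nat_lit 3571756990) (nat_lit 336) (nat_lit 866409951) (nat_lit 84) (nat_lit 7516663479) (nat_lit 29) (nat_lit 5) (nat_lit 33) (nat_lit 5) (nat_lit 30) (nat_lit 5) (nat_lit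 342) (nat_lit 273) (nat_lit 246))))) (XT.nd (nat_lit 188) (nat_lit 252) (nat_lit 0) (XT.nd (nat_lit 94) (nat_lit 0) (nat_lit 0) (XT.lf (nat_lit 0) (nat_lit 3378347479) (nat_lit 252) (nat_lit 2354820987) (nat_lit 336) (nat_lit 6482305669) (nat_lit 26) (nat_lit 5) (nat_lit 29) (nat_lit 5) (nat_lit 30) (nat_lit 5) (nat_lit 343) (nat_lit 273) (nat_lit 245)) (XT.lf (nat_lit 0) (nat_lit 7713589064) (nat_lit 252) (nat_lit 213143728) (nat_lit 336) (nat_lit 4558730433) (nat_lit 26) (nat_lit 5) (nat_lit 29) (nat_lit 5) (nat_lit 30) (nat_lit 5) (nat_lit 344) (nat_lit 273) (nat_lit 244))) (XT.nd (nat_lit 94) (nat_lit 252) (nat_lit 0) (XT.lf (nat_lit 0) (nat_lit 10165363010) (nat_lit 336) (nat_lit 659420768) (nat_lit 84) (nat_lit 1939928647) (nat_lit 26) (nat_lit 5) (nat_lit 30) (nat_lit 5) (nat_lit 27) (nat_lit 4) (nat_lit 345) (nat_lit 273) (nat_lit 243)) (XT.nd (nat_lit 94) (nat_lit 84) (nat_lit 0)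 (XT.lf (nat_lit 0) (nat_lit 3593482329) (nat_lit 168) (nat_lit 8876296311) (nat_lit 252) (nat_lit 583125769) (nat_lit 24) (nat_lit 5) (nat_lit 26) (nat_lit 5) (nat_lit 27) (nat_lit 4) (nat_lit 346) (nat_lit 273) (nat_lit 242)) (XT.lf (nat_lit 0) (nat_lit 1431082791) (nat_lit 252) (nat_lit 5430210263) (nat_lit 84) (nat_lit 6489507060) (nat_lit 23) (nat_lit 5) (nat_lit 26) (nat_lit 5) (nat_lit 24) (nat_lit 5) (nat_lit 347) (nat_lit 273) (nat_lit 241))))))))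
noncomputable def xc20 : XT := (XT.nd (nat_lit 1692) (nat_lit 0) (nat_lit 0) (XT.nd (nat_lit 846) (nat_lit 420) (nat_lit 0) (XT.nd (nat_lit 376) (nat_lit 420) (nat_lit 0) (XT.nd (nat_lit 188) (nat_lit 0) (nat_lit 0) (XT.nd (nat_lit 94) (nat_lit 252) (nat_lit 0) (XT.lf (nat_lit 0) (nat_lit 3455523488) (nat_lit 252) (nat_lit 1338013380) (nat_lit 84) (nat_lit 8865610638) (nat_lit 23) (nat_lit 5) (nat_lit 26) (nat_lit 5) (nat_lit 24) (nat_lit 5) (nat_lit 348) (nat_lit 273) (nat_lit 240)) (XT.lf (nat_lit 0) (nat_lit 2884891741) (nat_lit 252) (nat_lit 2647558737) (nat_lit 336) (nat_lit 8445075670) (nat_lit 20) (nat_lit 5) (nat_lit 23) (nat_lit 5) (nat_lit 24) (nat_lit 5) (nat_lit 349) (nat_lit 273) (nat_lit 239))) (XT.nd (nat_lit 94) (nat_lit 0) (nat_lit 0) (XT.lf (nat_lit 0) (nat_lit 7213347577) (nat_lit 252) (nat_lit 436127277) (nat_lit 336) (nat_lit 6657202020) (nat_lit 20) (nat_lit 5) (nat_lit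 23) (nat_lit 5) (nat_lit 24) (nat_lit 5) (nat_lit 350) (nat_lit 273) (nat_lit 238)) (XT.lf (nat_lit 0) (nat_lit 9813166164) (nat_lit 336) (nat_lit 3041592462) (nat_lit 84) (nat_lit 1792005374) (nat_lit 20) (nat_lit 5) (nat_lit 24) (nat_lit 5) (nat_lit 21) (nat_lit 4) (nat_lit 351) (nat_lit 273) (nat_lit 237)))) (XT.nd (nat_lit 188) (nat_lit 252) (nat_lit 0) (XT.nd (nat_lit 94) (nat_lit 0) (nat_lit 0) (XT.lf (nat_lit 0) (nat_lit 1101832989) (nat_lit 168) (nat_lit 10921357757) (nat_lit 252) (nat_lit 2974986643) (nat_lit 18) (nat_lit 5) (nat_lit 20) (nat_lit 5) (nat_lit 21) (nat_lit 4) (nat_lit 352) (nat_lit 273) (nat_lit 236)) (XT.lf (nat_lit 0) (nat_lit 5387053594) (nat_lit 168) (nat_lit 8910867636) (nat_lit 252) (nat_lit 1062817672) (nat_lit 18) (nat_lit 5) (nat_lit 20) (nat_lit 5) (nat_lit 21) (nat_lit 4) (nat_lit 353) (nat_lit 273) (nat_lit 235))) (XT.nd (nat_lit 94) (nat_lit 168) (nat_lit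 0) (XT.lf (nat_lit 0) (nat_lit 855355566) (nat_lit 252) (nat_lit 5988878537) (nat_lit 84) (nat_lit 8891238524) (nat_lit 17) (nat_lit 5) (nat_lit 20) (nat_lit 5) (nat_lit 18) (nat_lit 5) (nat_lit 354) (nat_lit 273) (nat_lit 234)) (XT.nd (nat_lit 94) (nat_lit 168) (nat_lit 0) (XT.lf (nat_lit 0) (nat_lit 2777000180) (nat_lit 252) (nat_lit 1940337272) (nat_lit 84) (nat_lit 11405324456) (nat_lit 17) (nat_lit 5) (nat_lit 20) (nat_lit 5) (nat_lit 18) (nat_lit 5) (nat_lit 355) (nat_lit 273) (nat_lit 233)) (XT.lf (nat_lit 0) (nat_lit 2231209330) (nat_lit 168) (nat_lit 2516245293) (nat_lit 252) (nat_lit 11774853711) (nat_lit 15) (nat_lit 5) (nat_lit 17) (nat_lit 5) (nat_lit 18) (nat_lit 5) (nat_lit 356) (nat_lit 273) (nat_lit 232)))))) (XT.nd (nat_lit 376) (nat_lit 252) (nat_lit 0) (XT.nd (nat_lit 188) (nat_lit 168) (nat_lit 0) (XT.nd (nat_lit 94) (nat_lit 0) (nat_lit 0) (XT.lf (nat_lit 0) (nat_lit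 6526235094) (nat_lit 168) (nat_lit 240639282) (nat_lit 252) (nat_lit 10167962160) (nat_lit 15) (nat_lit 5) (nat_lit 17) (nat_lit 5) (nat_lit 18) (nat_lit 5) (nat_lit 357) (nat_lit 273) (nat_lit 231)) (XT.lf (nat_lit 0) (nat_lit 8838244015) (nat_lit 252) (nat_lit 6473140321) (nat_lit 84) (nat_lit 2049212528) (nat_lit 15) (nat_lit 5) (nat_lit 18) (nat_lit 5) (nat_lit 16) (nat_lit 4) (nat_lit 358) (nat_lit 273) (nat_lit 230))) (XT.nd (nat_lit 94) (nat_lit 168) (nat_lit 0) (XT.lf (nat_lit 0) (nat_lit 10945696546) (nat_lit 252) (nat_lit 2463249653) (nat_lit 84) (nat_lit 4391591700) (nat_lit 15) (nat_lit 5) (nat_lit 18) (nat_lit 5) (nat_lit 16) (nat_lit 4) (nat_lit 359) (nat_lit 273) (nat_lit 229)) (XT.lf (nat_lit 0) (nat_lit 1660653846) (nat_lit 168) (nat_lit 11444629210) (nat_lit 252) (nat_lit 5149349968) (nat_lit 13) (nat_lit 5) (nat_lit 15) (nat_lit 5) (nat_lit 16) (nat_lit 4) (nat_lit 360)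 (nat_lit 273) (nat_lit 228)))) (XT.nd (nat_lit 188) (nat_lit 252) (nat_lit 0) (XT.nd (nat_lit 94) (nat_lit 0) (nat_lit 0) (XT.lf (nat_lit 0) (nat_lit 5921308650) (nat_lit 168) (nat_lit 9407010942) (nat_lit 252) (nat_lit 3394697516) (nat_lit 13) (nat_lit 5) (nat_lit 15) (nat_lit 5) (nat_lit 16) (nat_lit 4) (nat_lit 361) (nat_lit 273) (nat_lit 227)) (XT.lf (nat_lit 0) (nat_lit 10272036672) (nat_lit 168) (nat_lit 7319903394) (nat_lit 252) (nat_lit 1614959754) (nat_lit 13) (nat_lit 5) (nat_lit 15) (nat_lit 5) (nat_lit 16) (nat_lit 4) (nat_lit 362) (nat_lit 273) (nat_lit 226))) (XT.nd (nat_lit 94) (nat_lit 168) (nat_lit 0) (XT.lf (nat_lit 0) (nat_lit 187663475) (nat_lit 252) (nat_lit 4991738866) (nat_lit 84) (nat_lit 14527270947) (nat_lit 12) (nat_lit 5) (nat_lit 15) (nat_lit 5) (nat_lit 13) (nat_lit 5) (nat_lit 363) (nat_lit 273) (nat_lit 225)) (XT.nd (nat_lit 94) (nat_lit 168) (nat_lit 0) (XT.lf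 (nat_lit 0) (nat_lit 1985604147) (nat_lit 252) (nat_lit 983061123) (nat_lit 84) (nat_lit 17253691657) (nat_lit 12) (nat_lit 5) (nat_lit 15) (nat_lit 5) (nat_lit 13) (nat_lit 5) (nat_lit 364) (nat_lit 273) (nat_lit 224)) (XT.lf (nat_lit 0) (nat_lit 3174894231) (nat_lit 168) (nat_lit 669677082) (nat_lit 252) (nat_lit 16909380378) (nat_lit 10) (nat_lit 5) (nat_lit 12) (nat_lit 5) (nat_lit 13) (nat_lit 5) (nat_lit 365) (nat_lit 273) (nat_lit 223))))))) (XT.nd (nat_lit 49632) (nat_lit 0) (nat_lit 3360) (XT.nd (nat_lit 49162) (nat_lit 0) (nat_lit 5712) (XT.nd (nat_lit 188) (nat_lit 0) (nat_lit 0) (XT.nd (nat_lit 94) (nat_lit 0) (nat_lit 0) (XT.lf (nat_lit 0) (nat_lit 5762476249) (nat_lit 252) (nat_lit 13875419569) (nat_lit 84) (nat_lit 1664175730) (nat_lit 10) (nat_lit 5) (nat_lit 13) (nat_lit 5) (nat_lit 11) (nat_lit 4) (nat_lit 366) (nat_lit 273) (nat_lit 222)) (XT.lf (nat_lit 0) (nat_lit 7721538742)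 (nat_lit 252) (nat_lit 10101959197) (nat_lit 84) (nat_lit 4044336069) (nat_lit 10) (nat_lit 5) (nat_lit 13) (nat_lit 5) (nat_lit 11) (nat_lit 4) (nat_lit 367) (nat_lit 273) (nat_lit 221))) (XT.nd (nat_lit 48880) (nat_lit 0) (nat_lit 7980) (XT.lf (nat_lit 0) (nat_lit 9716941565) (nat_lit 252) (nat_lit 6248515802) (nat_lit 84) (nat_lit 6486514994) (nat_lit 10) (nat_lit 5) (nat_lit 13) (nat_lit 5) (nat_lit 11) (nat_lit 4) (nat_lit 368) (nat_lit 273) (nat_lit 220)) (XT.lf (nat_lit 0) (nat_lit 3565152425) (nat_lit 924) (nat_lit 68348262) (nat_lit 924) (nat_lit 68348262) (nat_lit 105) (nat_lit 4) (nat_lit 116) (nat_lit 5) (nat_lit 116) (nat_lit 4) (nat_lit 313) (nat_lit 274) (nat_lit 274)))) (XT.nd (nat_lit 188) (nat_lit 1176) (nat_lit 0) (XT.nd (nat_lit 94) (nat_lit 0) (nat_lit 0) (XT.lf (nat_lit 0) (nat_lit 2433401981) (nat_lit 1092) (nat_lit 3939880962) (nat_lit 0) (nat_lit 1110981355) (nat_lit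 92) (nat_lit 5) (nat_lit 105) (nat_lit 4) (nat_lit 92) (nat_lit 4) (nat_lit 314) (nat_lit 274) (nat_lit 273)) (XT.lf (nat_lit 0) (nat_lit 5006052510) (nat_lit 1092) (nat_lit 163100137) (nat_lit 0) (nat_lit 2400973662) (nat_lit 92) (nat_lit 5) (nat_lit 105) (nat_lit 4) (nat_lit 92) (nat_lit 4) (nat_lit 315) (nat_lit 274) (nat_lit 272))) (XT.nd (nat_lit 94) (nat_lit 588) (nat_lit 0) (XT.lf (nat_lit 0) (nat_lit 3728934680) (nat_lit 588) (nat_lit 3890311772) (nat_lit 588) (nat_lit 41141536) (nat_lit 85) (nat_lit 4) (nat_lit 92) (nat_lit 5) (nat_lit 92) (nat_lit 4) (nat_lit 316) (nat_lit 274) (nat_lit 271)) (XT.nd (nat_lit 94) (nat_lit 504) (nat_lit 0) (XT.lf (nat_lit 0) (nat_lit 2434218197) (nat_lit 672) (nat_lit 111957254) (nat_lit 84) (nat_lit 5209276945) (nat_lit 84) (nat_lit 5) (nat_lit 92) (nat_lit 5) (nat_lit 85) (nat_lit 4) (nat_lit 317) (nat_lit 274) (nat_lit 270)) (XT.lf (nat_lit 0)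 (nat_lit 3826745462) (nat_lit 504) (nat_lit 1123033761) (nat_lit 588) (nat_lit 2905254371) (nat_lit 78) (nat_lit 5) (nat_lit 84) (nat_lit 5) (nat_lit 85) (nat_lit 4) (nat_lit 318) (nat_lit 274) (nat_lit 269)))))) (XT.nd (nat_lit 470) (nat_lit 1260) (nat_lit 0) (XT.nd (nat_lit 188) (nat_lit 504) (nat_lit 0) (XT.nd (nat_lit 94) (nat_lit 588) (nat_lit 0) (XT.lf (nat_lit 0) (nat_lit 7475715952) (nat_lit 588) (nat_lit 148950669) (nat_lit 0) (nat_lit 335593402) (nat_lit 78) (nat_lit 5) (nat_lit 85) (nat_lit 4) (nat_lit 78) (nat_lit 4) (nat_lit 319) (nat_lit 274) (nat_lit 268)) (XT.lf (nat_lit 0) (nat_lit 1949597580) (nat_lit 588) (nat_lit 4248459627) (nat_lit 84) (nat_lit 1871161561) (nat_lit 71) (nat_lit 5) (nat_lit 78) (nat_lit 5) (nat_lit 72) (nat_lit 4) (nat_lit 320) (nat_lit 274) (nat_lit 267))) (XT.nd (nat_lit 94) (nat_lit 504) (nat_lit 0) (XT.lf (nat_lit 0) (nat_lit 4380908434) (nat_lit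 588) (nat_lit 346325444) (nat_lit 84) (nat_lit 3456704615) (nat_lit 71) (nat_lit 5) (nat_lit 78) (nat_lit 5) (nat_lit 72) (nat_lit 4) (nat_lit 321) (nat_lit 274) (nat_lit 266)) (XT.nd (nat_lit 94) (nat_lit 84) (nat_lit 0) (XT.lf (nat_lit 0) (nat_lit 3676617378) (nat_lit 420) (nat_lit 3179748914) (nat_lit 504) (nat_lit 1447225425) (nat_lit 66) (nat_lit 5) (nat_lit 71) (nat_lit 5) (nat_lit 72) (nat_lit 4) (nat_lit 322) (nat_lit 274) (nat_lit 265)) (XT.lf (nat_lit 0) (nat_lit 898026257) (nat_lit 504) (nat_lit 680257138) (nat_lit 84) (nat_lit 6850731917) (nat_lit 65) (nat_lit 5) (nat_lit 71) (nat_lit 5) (nat_lit 66) (nat_lit 5) (nat_lit 323) (nat_lit 274) (nat_lit 264))))) (XT.nd (nat_lit 188) (nat_lit 840) (nat_lit 0) (XT.nd (nat_lit 94) (nat_lit 0) (nat_lit 0) (XT.lf (nat_lit 0) (nat_lit 3255049671) (nat_lit 504) (nat_lit 5191483294) (nat_lit 84) (nat_lit 112665588) (nat_lit 60) (nat_lit 5)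 (nat_lit 66) (nat_lit 5) (nat_lit 61) (nat_lit 4) (nat_lit 324) (nat_lit 274) (nat_lit 263)) (XT.lf (nat_lit 0) (nat_lit 5644197278) (nat_lit 504) (nat_lit 1228339884) (nat_lit 84) (nat_lit 1822511771) (nat_lit 60) (nat_lit 5) (nat_lit 66) (nat_lit 5) (nat_lit 61) (nat_lit 4) (nat_lit 325) (nat_lit 274) (nat_lit 262))) (XT.nd (nat_lit 94) (nat_lit 504) (nat_lit 0) (XT.lf (nat_lit 0) (nat_lit 2842651157) (nat_lit 336) (nat_lit 5230630113) (nat_lit 420) (nat_lit 763238665) (nat_lit 56) (nat_lit 5) (nat_lit 60) (nat_lit 5) (nat_lit 61) (nat_lit 4) (nat_lit 326) (nat_lit 274) (nat_lit 261)) (XT.nd (nat_lit 94) (nat_lit 420) (nat_lit 0) (XT.lf (nat_lit 0) (nat_lit 1513979418) (nat_lit 420) (nat_lit 2005211567) (nat_lit 84) (nat_lit 5464549721) (nat_lit 55) (nat_lit 5) (nat_lit 60) (nat_lit 5) (nat_lit 56) (nat_lit 5) (nat_lit 327) (nat_lit 274) (nat_lit 260)) (XT.lf (nat_lit 0) (nat_lit 2070035251)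 (nat_lit 420) (nat_lit 1736182784) (nat_lit 504) (nat_lit 5330617155) (nat_lit 50) (nat_lit 5) (nat_lit 55) (nat_lit 5) (nat_lit 56) (nat_lit 5) (nat_lit 328) (nat_lit 274) (nat_lit 259))))))))
noncomputable def xc21 : XT := (XT.nd (nat_lit 1786) (nat_lit 1092) (nat_lit 0) (XT.nd (nat_lit 846) (nat_lit 1176) (nat_lit 0) (XT.nd (nat_lit 376) (nat_lit 672) (nat_lit 0) (XT.nd (nat_lit 188) (nat_lit 84) (nat_lit 0) (XT.nd (nat_lit 94) (nat_lit 336) (nat_lit 0) (XT.lf (nat_lit 0) (nat_lit 6132424056) (nat_lit 504) (nat_lit 3053404449) (nat_lit 84) (nat_lit 110307882) (nat_lit 50) (nat_lit 5) (nat_lit 56) (nat_lit 5) (nat_lit 51) (nat_lit 4) (nat_lit 329) (nat_lit 274) (nat_lit 258)) (XT.lf (nat_lit 0) (nat_lit 1017038511) (nat_lit 336) (nat_lit 7484082475) (nat_lit 420) (nat_lit 960474783) (nat_lit 46) (nat_lit 5) (nat_lit 50) (nat_lit 5) (nat_lit 51) (nat_lit 4) (nat_lit 330) (nat_lit 274) (nat_lit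 257))) (XT.nd (nat_lit 94) (nat_lit 0) (nat_lit 0) (XT.lf (nat_lit 0) (nat_lit 1259553491) (nat_lit 420) (nat_lit 4436986311) (nat_lit 84) (nat_lit 3936303061) (nat_lit 45) (nat_lit 5) (nat_lit 50) (nat_lit 5) (nat_lit 46) (nat_lit 5) (nat_lit 331) (nat_lit 274) (nat_lit 256)) (XT.lf (nat_lit 0) (nat_lit 3472882083) (nat_lit 420) (nat_lit 383727460) (nat_lit 84) (nat_lit 5954482382) (nat_lit 45) (nat_lit 5) (nat_lit 50) (nat_lit 5) (nat_lit 46) (nat_lit 5) (nat_lit 332) (nat_lit 274) (nat_lit 255)))) (XT.nd (nat_lit 188) (nat_lit 336) (nat_lit 0) (XT.nd (nat_lit 94) (nat_lit 0) (nat_lit 0) (XT.lf (nat_lit 0) (nat_lit 3805191512) (nat_lit 336) (nat_lit 1933481931) (nat_lit 420) (nat_lit 4256960842) (nat_lit 41) (nat_lit 5) (nat_lit 45) (nat_lit 5) (nat_lit 46) (nat_lit 5) (nat_lit 333) (nat_lit 274) (nat_lit 254)) (XT.lf (nat_lit 0) (nat_lit 8026177537) (nat_lit 420) (nat_lit 2121953680)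 (nat_lit 84) (nat_lit 39529462) (nat_lit 41) (nat_lit 5) (nat_lit 46) (nat_lit 5) (nat_lit 42) (nat_lit 4) (nat_lit 334) (nat_lit 274) (nat_lit 253))) (XT.nd (nat_lit 94) (nat_lit 84) (nat_lit 0) (XT.lf (nat_lit 0) (nat_lit 2028028511) (nat_lit 252) (nat_lit 8344992682) (nat_lit 336) (nat_lit 13228566) (nat_lit 38) (nat_lit 5) (nat_lit 41) (nat_lit 5) (nat_lit 42) (nat_lit 4) (nat_lit 335) (nat_lit 274) (nat_lit 252)) (XT.nd (nat_lit 94) (nat_lit 0) (nat_lit 0) (XT.lf (nat_lit 0) (nat_lit 2128319552) (nat_lit 336) (nat_lit 4327072440) (nat_lit 84) (nat_lit 4136059571) (nat_lit 37) (nat_lit 5) (nat_lit 41) (nat_lit 5) (nat_lit 38) (nat_lit 5) (nat_lit 336) (nat_lit 274) (nat_lit 251)) (XT.lf (nat_lit 0) (nat_lit 4286204009) (nat_lit 336) (nat_lit 235440079) (nat_lit 84) (nat_lit 6283138553) (nat_lit 37) (nat_lit 5) (nat_lit 41) (nat_lit 5) (nat_lit 38) (nat_lit 5) (nat_lit 337) (nat_lit 274)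 (nat_lit 250)))))) (XT.nd (nat_lit 470) (nat_lit 504) (nat_lit 0) (XT.nd (nat_lit 188) (nat_lit 336) (nat_lit 0) (XT.nd (nat_lit 94) (nat_lit 0) (nat_lit 0) (XT.lf (nat_lit 0) (nat_lit 4001236900) (nat_lit 336) (nat_lit 2501158568) (nat_lit 420) (nat_lit 4522819961) (nat_lit 33) (nat_lit 5) (nat_lit 37) (nat_lit 5) (nat_lit 38) (nat_lit 5) (nat_lit 338) (nat_lit 274) (nat_lit 249)) (XT.lf (nat_lit 0) (nat_lit 8312461947) (nat_lit 336) (nat_lit 429843066) (nat_lit 420) (nat_lit 2511786678) (nat_lit 33) (nat_lit 5) (nat_lit 37) (nat_lit 5) (nat_lit 38) (nat_lit 5) (nat_lit 339) (nat_lit 274) (nat_lit 248))) (XT.nd (nat_lit 94) (nat_lit 84) (nat_lit 0) (XT.lf (nat_lit 0) (nat_lit 1213378028) (nat_lit 252) (nat_lit 9821078307) (nat_lit 336) (nat_lit 456348914) (nat_lit 30) (nat_lit 5) (nat_lit 33) (nat_lit 5) (nat_lit 34) (nat_lit 4) (nat_lit 340) (nat_lit 274) (nat_lit 247)) (XT.nd (nat_lit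 94) (nat_lit 0) (nat_lit 0) (XT.lf (nat_lit 0) (nat_lit 1618689469) (nat_lit 336) (nat_lit 6257500073) (nat_lit 84) (nat_lit 3858681822) (nat_lit 29) (nat_lit 5) (nat_lit 33) (nat_lit 5) (nat_lit 30) (nat_lit 5) (nat_lit 341) (nat_lit 274) (nat_lit 246)) (XT.lf (nat_lit 0) (nat_lit 3703927670) (nat_lit 336) (nat_lit 2177701568) (nat_lit 84) (nat_lit 6106304434) (nat_lit 29) (nat_lit 5) (nat_lit 33) (nat_lit 5) (nat_lit 30) (nat_lit 5) (nat_lit 342) (nat_lit 274) (nat_lit 245))))) (XT.nd (nat_lit 188) (nat_lit 252) (nat_lit 0) (XT.nd (nat_lit 94) (nat_lit 0) (nat_lit 0) (XT.lf (nat_lit 0) (nat_lit 2010811499) (nat_lit 252) (nat_lit 3819639762) (nat_lit 336) (nat_lit 6419298759) (nat_lit 26) (nat_lit 5) (nat_lit 29) (nat_lit 5) (nat_lit 30) (nat_lit 5) (nat_lit 343) (nat_lit 274) (nat_lit 244)) (XT.lf (nat_lit 0) (nat_lit 6317651999) (nat_lit 252) (nat_lit 1685401186) (nat_lit 336) (nat_lit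 4517424127) (nat_lit 26) (nat_lit 5) (nat_lit 29) (nat_lit 5) (nat_lit 30) (nat_lit 5) (nat_lit 344) (nat_lit 274) (nat_lit 243))) (XT.nd (nat_lit 94) (nat_lit 252) (nat_lit 0) (XT.lf (nat_lit 0) (nat_lit 10206674748) (nat_lit 336) (nat_lit 2103958502) (nat_lit 84) (nat_lit 490264244) (nat_lit 26) (nat_lit 5) (nat_lit 30) (nat_lit 5) (nat_lit 27) (nat_lit 4) (nat_lit 345) (nat_lit 274) (nat_lit 242)) (XT.nd (nat_lit 94) (nat_lit 84) (nat_lit 0) (XT.lf (nat_lit 0) (nat_lit 2091335794) (nat_lit 168) (nat_lit 10385062920) (nat_lit 252) (nat_lit 613849339) (nat_lit 24) (nat_lit 5) (nat_lit 26) (nat_lit 5) (nat_lit 27) (nat_lit 4) (nat_lit 346) (nat_lit 274) (nat_lit 241)) (XT.lf (nat_lit 0) (nat_lit 1381236511) (nat_lit 252) (nat_lit 6996946865) (nat_lit 84) (nat_lit 5010660034) (nat_lit 23) (nat_lit 5) (nat_lit 26) (nat_lit 5) (nat_lit 24) (nat_lit 5) (nat_lit 347) (nat_lit 274) (nat_lit 240)))))))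 (XT.nd (nat_lit 846) (nat_lit 420) (nat_lit 0) (XT.nd (nat_lit 376) (nat_lit 420) (nat_lit 0) (XT.nd (nat_lit 188) (nat_lit 0) (nat_lit 0) (XT.nd (nat_lit 94) (nat_lit 252) (nat_lit 0) (XT.lf (nat_lit 0) (nat_lit 3386529079) (nat_lit 252) (nat_lit 2931472780) (nat_lit 84) (nat_lit 7379858394) (nat_lit 23) (nat_lit 5) (nat_lit 26) (nat_lit 5) (nat_lit 24) (nat_lit 5) (nat_lit 348) (nat_lit 274) (nat_lit 239)) (XT.lf (nat_lit 0) (nat_lit 1232215295) (nat_lit 252) (nat_lit 4196273635) (nat_lit 336) (nat_lit 8588907525) (nat_lit 20) (nat_lit 5) (nat_lit 23) (nat_lit 5) (nat_lit 24) (nat_lit 5) (nat_lit 349) (nat_lit 274) (nat_lit 238))) (XT.nd (nat_lit 94) (nat_lit 0) (nat_lit 0) (XT.lf (nat_lit 0) (nat_lit 5535014240) (nat_lit 252) (nat_lit 1992230593) (nat_lit 336) (nat_lit 6819940035) (nat_lit 20) (nat_lit 5) (nat_lit 23) (nat_lit 5) (nat_lit 24) (nat_lit 5) (nat_lit 350) (nat_lit 274) (nat_lit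 237)) (XT.lf (nat_lit 0) (nat_lit 9657709138) (nat_lit 336) (nat_lit 4770429921) (nat_lit 84) (nat_lit 260232193) (nat_lit 20) (nat_lit 5) (nat_lit 24) (nat_lit 5) (nat_lit 21) (nat_lit 4) (nat_lit 351) (nat_lit 274) (nat_lit 236)))) (XT.nd (nat_lit 188) (nat_lit 252) (nat_lit 0) (XT.nd (nat_lit 94) (nat_lit 168) (nat_lit 0) (XT.lf (nat_lit 0) (nat_lit 11839548049) (nat_lit 336) (nat_lit 673872100) (nat_lit 84) (nat_lit 2527305386) (nat_lit 20) (nat_lit 5) (nat_lit 24) (nat_lit 5) (nat_lit 21) (nat_lit 4) (nat_lit 352) (nat_lit 274) (nat_lit 235)) (XT.lf (nat_lit 0) (nat_lit 3573073902) (nat_lit 168) (nat_lit 10517403527) (nat_lit 252) (nat_lit 1313612572) (nat_lit 18) (nat_lit 5) (nat_lit 20) (nat_lit 5) (nat_lit 21) (nat_lit 4) (nat_lit 353) (nat_lit 274) (nat_lit 234))) (XT.nd (nat_lit 94) (nat_lit 168) (nat_lit 0) (XT.lf (nat_lit 0) (nat_lit 592915065) (nat_lit 252) (nat_lit 7867810232)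 (nat_lit 84) (nat_lit 7318754474) (nat_lit 17) (nat_lit 5) (nat_lit 20) (nat_lit 5) (nat_lit 18) (nat_lit 5) (nat_lit 354) (nat_lit 274) (nat_lit 233)) (XT.nd (nat_lit 94) (nat_lit 168) (nat_lit 0) (XT.lf (nat_lit 0) (nat_lit 2498363211) (nat_lit 252) (nat_lit 3842633485) (nat_lit 84) (nat_lit 9826233865) (nat_lit 17) (nat_lit 5) (nat_lit 20) (nat_lit 5) (nat_lit 18) (nat_lit 5) (nat_lit 355) (nat_lit 274) (nat_lit 232)) (XT.lf (nat_lit 0) (nat_lit 266670032) (nat_lit 168) (nat_lit 4166949675) (nat_lit 252) (nat_lit 12134406051) (nat_lit 15) (nat_lit 5) (nat_lit 17) (nat_lit 5) (nat_lit 18) (nat_lit 5) (nat_lit 356) (nat_lit 274) (nat_lit 231)))))) (XT.nd (nat_lit 470) (nat_lit 252) (nat_lit 0) (XT.nd (nat_lit 188) (nat_lit 168) (nat_lit 0) (XT.nd (nat_lit 94) (nat_lit 0) (nat_lit 0) (XT.lf (nat_lit 0) (nat_lit 4539263232) (nat_lit 168) (nat_lit 1898316571) (nat_lit 252) (nat_lit 10543509308)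 (nat_lit 15) (nat_lit 5) (nat_lit 17) (nat_lit 5) (nat_lit 18) (nat_lit 5) (nat_lit 357) (nat_lit 274) (nat_lit 230)) (XT.lf (nat_lit 0) (nat_lit 8477443167) (nat_lit 252) (nat_lit 8512130426) (nat_lit 84) (nat_lit 418306760) (nat_lit 15) (nat_lit 5) (nat_lit 18) (nat_lit 5) (nat_lit 16) (nat_lit 4) (nat_lit 358) (nat_lit 274) (nat_lit 229))) (XT.nd (nat_lit 94) (nat_lit 168) (nat_lit 0) (XT.lf (nat_lit 0) (nat_lit 10570286668) (nat_lit 252) (nat_lit 4523781980) (nat_lit 84) (nat_lit 2754258210) (nat_lit 15) (nat_lit 5) (nat_lit 18) (nat_lit 5) (nat_lit 16) (nat_lit 4) (nat_lit 359) (nat_lit 274) (nat_lit 228)) (XT.nd (nat_lit 94) (nat_lit 168) (nat_lit 0) (XT.lf (nat_lit 0) (nat_lit 12699229520) (nat_lit 252) (nat_lit 454231448) (nat_lit 84) (nat_lit 5149961977) (nat_lit 15) (nat_lit 5) (nat_lit 18) (nat_lit 5) (nat_lit 16) (nat_lit 4) (nat_lit 360) (nat_lit 274) (nat_lit 227)) (XT.lf (nat_lit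 0) (nat_lit 3776400471) (nat_lit 168) (nat_lit 11127318009) (nat_lit 252) (nat_lit 3868712999) (nat_lit 13) (nat_lit 5) (nat_lit 15) (nat_lit 5) (nat_lit 16) (nat_lit 4) (nat_lit 361) (nat_lit 274) (nat_lit 226))))) (XT.nd (nat_lit 188) (nat_lit 252) (nat_lit 0) (XT.nd (nat_lit 94) (nat_lit 0) (nat_lit 0) (XT.lf (nat_lit 0) (nat_lit 8107067429) (nat_lit 168) (nat_lit 9046742048) (nat_lit 252) (nat_lit 2102972114) (nat_lit 13) (nat_lit 5) (nat_lit 15) (nat_lit 5) (nat_lit 16) (nat_lit 4) (nat_lit 362) (nat_lit 274) (nat_lit 225)) (XT.lf (nat_lit 0) (nat_lit 12532466133) (nat_lit 168) (nat_lit 6914535013) (nat_lit 252) (nat_lit 310066158) (nat_lit 13) (nat_lit 5) (nat_lit 15) (nat_lit 5) (nat_lit 16) (nat_lit 4) (nat_lit 363) (nat_lit 274) (nat_lit 224))) (XT.nd (nat_lit 94) (nat_lit 168) (nat_lit 0) (XT.lf (nat_lit 0) (nat_lit 1481219139) (nat_lit 252) (nat_lit 3232029435) (nat_lit 84) (nat_lit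 15560041488) (nat_lit 12) (nat_lit 5) (nat_lit 15) (nat_lit 5) (nat_lit 13) (nat_lit 5) (nat_lit 364) (nat_lit 274) (nat_lit 223)) (XT.nd (nat_lit 94) (nat_lit 0) (nat_lit 0) (XT.lf (nat_lit 0) (nat_lit 860694817) (nat_lit 168) (nat_lit 2444019779) (nat_lit 252) (nat_lit 17501312324) (nat_lit 10) (nat_lit 5) (nat_lit 12) (nat_lit 5) (nat_lit 13) (nat_lit 5) (nat_lit 365) (nat_lit 274) (nat_lit 222)) (XT.lf (nat_lit 0) (nat_lit 5111406365) (nat_lit 168) (nat_lit 82043907) (nat_lit 252) (nat_lit 16161641945) (nat_lit 10) (nat_lit 5) (nat_lit 12) (nat_lit 5) (nat_lit 13) (nat_lit 5) (nat_lit 366) (nat_lit 274) (nat_lit 221))))))))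
noncomputable def xc22 : XT := (XT.nd (nat_lit 50290) (nat_lit 0) (nat_lit 1344) (XT.nd (nat_lit 49444) (nat_lit 0) (nat_lit 3864) (XT.nd (nat_lit 48974) (nat_lit 0) (nat_lit 6216) (XT.nd (nat_lit 48786) (nat_lit 0) (nat_lit 7980) (XT.nd (nat_lit 94) (nat_lit 0) (nat_lit 0) (XT.lf (nat_lit 0) (nat_lit 7139689718) (nat_lit 252) (nat_lit 12487626390) (nat_lit 84) (nat_lit 2293976039) (nat_lit 10) (nat_lit 5) (nat_lit 13) (nat_lit 5) (nat_lit 11) (nat_lit 4) (nat_lit 367) (nat_lit 274) (nat_lit 220)) (XT.lf (nat_lit 0) (nat_lit 9123444470) (nat_lit 252) (nat_lit 8651850110) (nat_lit 84) (nat_lit 4730535764) (nat_lit 10) (nat_lit 5) (nat_lit 13) (nat_lit 5) (nat_lit 11) (nat_lit 4) (nat_lit 368) (nat_lit 274) (nat_lit 219))) (XT.nd (nat_lit 94) (nat_lit 924) (nat_lit 0) (XT.lf (nat_lit 0) (nat_lit 1706877728) (nat_lit 924) (nat_lit 212589925) (nat_lit 0) (nat_lit 1706877728) (nat_lit 116) (nat_lit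 5) (nat_lit 127) (nat_lit 4) (nat_lit 116) (nat_lit 4) (nat_lit 311) (nat_lit 275) (nat_lit 275)) (XT.lf (nat_lit 0) (nat_lit 3309188902) (nat_lit 924) (nat_lit 2711424023) (nat_lit 924) (nat_lit 1305742472) (nat_lit 105) (nat_lit 4) (nat_lit 116) (nat_lit 5) (nat_lit 116) (nat_lit 4) (nat_lit 312) (nat_lit 275) (nat_lit 274)))) (XT.nd (nat_lit 188) (nat_lit 672) (nat_lit 0) (XT.nd (nat_lit 94) (nat_lit 1008) (nat_lit 0) (XT.lf (nat_lit 0) (nat_lit 1203910186) (nat_lit 1008) (nat_lit 323955628) (nat_lit 84) (nat_lit 5876940022) (nat_lit 104) (nat_lit 5) (nat_lit 116) (nat_lit 5) (nat_lit 105) (nat_lit 4) (nat_lit 313) (nat_lit 275) (nat_lit 273)) (XT.lf (nat_lit 0) (nat_lit 3465403886) (nat_lit 1008) (nat_lit 255384754) (nat_lit 1092) (nat_lit 3766371225) (nat_lit 92) (nat_lit 5) (nat_lit 104) (nat_lit 5) (nat_lit 105) (nat_lit 4) (nat_lit 314) (nat_lit 275) (nat_lit 272))) (XT.nd (nat_lit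 94) (nat_lit 672) (nat_lit 0) (XT.lf (nat_lit 0) (nat_lit 6253387135) (nat_lit 1092) (nat_lit 280332369) (nat_lit 0) (nat_lit 1040801234) (nat_lit 92) (nat_lit 5) (nat_lit 105) (nat_lit 4) (nat_lit 92) (nat_lit 4) (nat_lit 315) (nat_lit 275) (nat_lit 271)) (XT.nd (nat_lit 94) (nat_lit 0) (nat_lit 0) (XT.lf (nat_lit 0) (nat_lit 1139003050) (nat_lit 672) (nat_lit 4105954885) (nat_lit 84) (nat_lit 2420892953) (nat_lit 84) (nat_lit 5) (nat_lit 92) (nat_lit 5) (nat_lit 85) (nat_lit 4) (nat_lit 316) (nat_lit 275) (nat_lit 270)) (XT.lf (nat_lit 0) (nat_lit 3577274867) (nat_lit 672) (nat_lit 324226550) (nat_lit 84) (nat_lit 3860759993) (nat_lit 84) (nat_lit 5) (nat_lit 92) (nat_lit 5) (nat_lit 85) (nat_lit 4) (nat_lit 317) (nat_lit 275) (nat_lit 269)))))) (XT.nd (nat_lit 376) (nat_lit 1260) (nat_lit 0) (XT.nd (nat_lit 188) (nat_lit 504) (nat_lit 0) (XT.nd (nat_lit 94) (nat_lit 84) (nat_lit 0) (XT.lf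 (nat_lit 0) (nat_lit 3573130117) (nat_lit 504) (nat_lit 2482021104) (nat_lit 588) (nat_lit 1808087285) (nat_lit 78) (nat_lit 5) (nat_lit 84) (nat_lit 5) (nat_lit 85) (nat_lit 4) (nat_lit 318) (nat_lit 275) (nat_lit 268)) (XT.lf (nat_lit 0) (nat_lit 561811641) (nat_lit 588) (nat_lit 450219901) (nat_lit 84) (nat_lit 6957651709) (nat_lit 77) (nat_lit 5) (nat_lit 84) (nat_lit 5) (nat_lit 78) (nat_lit 5) (nat_lit 319) (nat_lit 275) (nat_lit 267))) (XT.nd (nat_lit 94) (nat_lit 0) (nat_lit 0) (XT.lf (nat_lit 0) (nat_lit 2938705355) (nat_lit 588) (nat_lit 4597860525) (nat_lit 84) (nat_lit 543606907) (nat_lit 71) (nat_lit 5) (nat_lit 78) (nat_lit 5) (nat_lit 72) (nat_lit 4) (nat_lit 320) (nat_lit 275) (nat_lit 266)) (XT.lf (nat_lit 0) (nat_lit 5336684780) (nat_lit 588) (nat_lit 732276399) (nat_lit 84) (nat_lit 2127166111) (nat_lit 71) (nat_lit 5) (nat_lit 78) (nat_lit 5) (nat_lit 72) (nat_lit 4)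 (nat_lit 321) (nat_lit 275) (nat_lit 265)))) (XT.nd (nat_lit 188) (nat_lit 756) (nat_lit 0) (XT.nd (nat_lit 94) (nat_lit 84) (nat_lit 0) (XT.lf (nat_lit 0) (nat_lit 3246550460) (nat_lit 420) (nat_lit 4528996638) (nat_lit 504) (nat_lit 541563322) (nat_lit 66) (nat_lit 5) (nat_lit 71) (nat_lit 5) (nat_lit 72) (nat_lit 4) (nat_lit 322) (nat_lit 275) (nat_lit 264)) (XT.lf (nat_lit 0) (nat_lit 1753225998) (nat_lit 504) (nat_lit 1168765483) (nat_lit 84) (nat_lit 5521446563) (nat_lit 65) (nat_lit 5) (nat_lit 71) (nat_lit 5) (nat_lit 66) (nat_lit 5) (nat_lit 323) (nat_lit 275) (nat_lit 263))) (XT.nd (nat_lit 94) (nat_lit 336) (nat_lit 0) (XT.lf (nat_lit 0) (nat_lit 2834763578) (nat_lit 420) (nat_lit 1237799940) (nat_lit 504) (nat_lit 4502404371) (nat_lit 60) (nat_lit 5) (nat_lit 65) (nat_lit 5) (nat_lit 66) (nat_lit 5) (nat_lit 324) (nat_lit 275) (nat_lit 262)) (XT.nd (nat_lit 94) (nat_lit 336)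 (nat_lit 0) (XT.lf (nat_lit 0) (nat_lit 6418744334) (nat_lit 504) (nat_lit 1800371580) (nat_lit 84) (nat_lit 493207302) (nat_lit 60) (nat_lit 5) (nat_lit 66) (nat_lit 5) (nat_lit 61) (nat_lit 4) (nat_lit 325) (nat_lit 275) (nat_lit 261)) (XT.lf (nat_lit 0) (nat_lit 2223627823) (nat_lit 336) (nat_lit 6588294765) (nat_lit 420) (nat_lit 43152485) (nat_lit 56) (nat_lit 5) (nat_lit 60) (nat_lit 5) (nat_lit 61) (nat_lit 4) (nat_lit 326) (nat_lit 275) (nat_lit 260))))))) (XT.nd (nat_lit 846) (nat_lit 924) (nat_lit 0) (XT.nd (nat_lit 376) (nat_lit 756) (nat_lit 0) (XT.nd (nat_lit 188) (nat_lit 336) (nat_lit 0) (XT.nd (nat_lit 94) (nat_lit 420) (nat_lit 0) (XT.lf (nat_lit 0) (nat_lit 2189890322) (nat_lit 420) (nat_lit 2684871456) (nat_lit 84) (nat_lit 4128390142) (nat_lit 55) (nat_lit 5) (nat_lit 60) (nat_lit 5) (nat_lit 56) (nat_lit 5) (nat_lit 327) (nat_lit 275) (nat_lit 259)) (XT.lf (nat_lit 0)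 (nat_lit 1341815805) (nat_lit 420) (nat_lit 3104313991) (nat_lit 504) (nat_lit 4711385675) (nat_lit 50) (nat_lit 5) (nat_lit 55) (nat_lit 5) (nat_lit 56) (nat_lit 5) (nat_lit 328) (nat_lit 275) (nat_lit 258))) (XT.nd (nat_lit 94) (nat_lit 336) (nat_lit 0) (XT.lf (nat_lit 0) (nat_lit 5482119403) (nat_lit 420) (nat_lit 1260856971) (nat_lit 504) (nat_lit 2574898926) (nat_lit 50) (nat_lit 5) (nat_lit 55) (nat_lit 5) (nat_lit 56) (nat_lit 5) (nat_lit 329) (nat_lit 275) (nat_lit 257)) (XT.lf (nat_lit 0) (nat_lit 197198903) (nat_lit 336) (nat_lit 8866389144) (nat_lit 420) (nat_lit 421381304) (nat_lit 46) (nat_lit 5) (nat_lit 50) (nat_lit 5) (nat_lit 51) (nat_lit 4) (nat_lit 330) (nat_lit 275) (nat_lit 256)))) (XT.nd (nat_lit 188) (nat_lit 672) (nat_lit 0) (XT.nd (nat_lit 94) (nat_lit 0) (nat_lit 0) (XT.lf (nat_lit 0) (nat_lit 1760424907) (nat_lit 420) (nat_lit 5319384597) (nat_lit 84) (nat_lit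 2577224826) (nat_lit 45) (nat_lit 5) (nat_lit 50) (nat_lit 5) (nat_lit 46) (nat_lit 5) (nat_lit 331) (nat_lit 275) (nat_lit 255)) (XT.lf (nat_lit 0) (nat_lit 3947215642) (nat_lit 420) (nat_lit 1298945554) (nat_lit 84) (nat_lit 4590076290) (nat_lit 45) (nat_lit 5) (nat_lit 50) (nat_lit 5) (nat_lit 46) (nat_lit 5) (nat_lit 332) (nat_lit 275) (nat_lit 254))) (XT.nd (nat_lit 94) (nat_lit 336) (nat_lit 0) (XT.lf (nat_lit 0) (nat_lit 2838667120) (nat_lit 336) (nat_lit 3339011922) (nat_lit 420) (nat_lit 3844323441) (nat_lit 41) (nat_lit 5) (nat_lit 45) (nat_lit 5) (nat_lit 46) (nat_lit 5) (nat_lit 333) (nat_lit 275) (nat_lit 253)) (XT.nd (nat_lit 94) (nat_lit 336) (nat_lit 0) (XT.lf (nat_lit 0) (nat_lit 7068084508) (nat_lit 336) (nat_lit 1371419861) (nat_lit 420) (nat_lit 1775444184) (nat_lit 41) (nat_lit 5) (nat_lit 45) (nat_lit 5) (nat_lit 46) (nat_lit 5) (nat_lit 334) (nat_lit 275) (nat_lit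 252)) (XT.lf (nat_lit 0) (nat_lit 315943700) (nat_lit 336) (nat_lit 9454467417) (nat_lit 84) (nat_lit 644658199) (nat_lit 37) (nat_lit 5) (nat_lit 41) (nat_lit 5) (nat_lit 38) (nat_lit 5) (nat_lit 335) (nat_lit 275) (nat_lit 251)))))) (XT.nd (nat_lit 470) (nat_lit 588) (nat_lit 0) (XT.nd (nat_lit 188) (nat_lit 336) (nat_lit 0) (XT.nd (nat_lit 94) (nat_lit 0) (nat_lit 0) (XT.lf (nat_lit 0) (nat_lit 2432716743) (nat_lit 336) (nat_lit 5455132143) (nat_lit 84) (nat_lit 2733290747) (nat_lit 37) (nat_lit 5) (nat_lit 41) (nat_lit 5) (nat_lit 38) (nat_lit 5) (nat_lit 336) (nat_lit 275) (nat_lit 250)) (XT.lf (nat_lit 0) (nat_lit 4566829570) (nat_lit 336) (nat_lit 1394229467) (nat_lit 84) (nat_lit 4874258016) (nat_lit 37) (nat_lit 5) (nat_lit 41) (nat_lit 5) (nat_lit 38) (nat_lit 5) (nat_lit 337) (nat_lit 275) (nat_lit 249))) (XT.nd (nat_lit 94) (nat_lit 0) (nat_lit 0) (XT.lf (nat_lit 0) (nat_lit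 2788201851) (nat_lit 336) (nat_lit 3959728854) (nat_lit 420) (nat_lit 4309013070) (nat_lit 33) (nat_lit 5) (nat_lit 37) (nat_lit 5) (nat_lit 38) (nat_lit 5) (nat_lit 338) (nat_lit 275) (nat_lit 248)) (XT.nd (nat_lit 94) (nat_lit 0) (nat_lit 0) (XT.lf (nat_lit 0) (nat_lit 7069922944) (nat_lit 336) (nat_lit 1895261026) (nat_lit 420) (nat_lit 2321441352) (nat_lit 33) (nat_lit 5) (nat_lit 37) (nat_lit 5) (nat_lit 38) (nat_lit 5) (nat_lit 339) (nat_lit 275) (nat_lit 247)) (XT.lf (nat_lit 0) (nat_lit 11208720366) (nat_lit 420) (nat_lit 100936359) (nat_lit 84) (nat_lit 215289065) (nat_lit 33) (nat_lit 5) (nat_lit 38) (nat_lit 5) (nat_lit 34) (nat_lit 4) (nat_lit 340) (nat_lit 275) (nat_lit 246))))) (XT.nd (nat_lit 188) (nat_lit 252) (nat_lit 0) (XT.nd (nat_lit 94) (nat_lit 0) (nat_lit 0) (XT.lf (nat_lit 0) (nat_lit 1732974707) (nat_lit 336) (nat_lit 7639022729) (nat_lit 84) (nat_lit 2397778778)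 (nat_lit 29) (nat_lit 5) (nat_lit 33) (nat_lit 5) (nat_lit 30) (nat_lit 5) (nat_lit 341) (nat_lit 275) (nat_lit 245)) (XT.lf (nat_lit 0) (nat_lit 3796891149) (nat_lit 336) (nat_lit 3587915785) (nat_lit 84) (nat_lit 4638783671) (nat_lit 29) (nat_lit 5) (nat_lit 33) (nat_lit 5) (nat_lit 30) (nat_lit 5) (nat_lit 342) (nat_lit 275) (nat_lit 244))) (XT.nd (nat_lit 94) (nat_lit 0) (nat_lit 0) (XT.lf (nat_lit 0) (nat_lit 543199301) (nat_lit 252) (nat_lit 5344975885) (nat_lit 336) (nat_lit 6398412562) (nat_lit 26) (nat_lit 5) (nat_lit 29) (nat_lit 5) (nat_lit 30) (nat_lit 5) (nat_lit 343) (nat_lit 275) (nat_lit 243)) (XT.nd (nat_lit 94) (nat_lit 0) (nat_lit 0) (XT.lf (nat_lit 0) (nat_lit 4822492677) (nat_lit 252) (nat_lit 3217952328) (nat_lit 336) (nat_lit 4517586043) (nat_lit 26) (nat_lit 5) (nat_lit 29) (nat_lit 5) (nat_lit 30) (nat_lit 5) (nat_lit 344) (nat_lit 275) (nat_lit 242)) (XT.lf (nat_lit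 0) (nat_lit 9180178184) (nat_lit 252) (nat_lit 1039204136) (nat_lit 336) (nat_lit 2619917256) (nat_lit 26) (nat_lit 5) (nat_lit 29) (nat_lit 5) (nat_lit 30) (nat_lit 5) (nat_lit 345) (nat_lit 275) (nat_lit 241))))))))
noncomputable def xc23 : XT := (XT.nd (nat_lit 1786) (nat_lit 168) (nat_lit 0) (XT.nd (nat_lit 846) (nat_lit 420) (nat_lit 0) (XT.nd (nat_lit 376) (nat_lit 504) (nat_lit 0) (XT.nd (nat_lit 188) (nat_lit 0) (nat_lit 0) (XT.nd (nat_lit 94) (nat_lit 84) (nat_lit 0) (XT.lf (nat_lit 0) (nat_lit 487649510) (nat_lit 168) (nat_lit 11956043841) (nat_lit 252) (nat_lit 686445219) (nat_lit 24) (nat_lit 5) (nat_lit 26) (nat_lit 5) (nat_lit 27) (nat_lit 4) (nat_lit 346) (nat_lit 275) (nat_lit 240)) (XT.lf (nat_lit 0) (nat_lit 1290955147) (nat_lit 252) (nat_lit 8666526304) (nat_lit 84) (nat_lit 3471944252) (nat_lit 23) (nat_lit 5) (nat_lit 26) (nat_lit 5) (nat_lit 24) (nat_lit 5) (nat_lit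 347) (nat_lit 275) (nat_lit 239))) (XT.nd (nat_lit 94) (nat_lit 0) (nat_lit 0) (XT.lf (nat_lit 0) (nat_lit 3277675330) (nat_lit 252) (nat_lit 4626971519) (nat_lit 84) (nat_lit 5834445019) (nat_lit 23) (nat_lit 5) (nat_lit 26) (nat_lit 5) (nat_lit 24) (nat_lit 5) (nat_lit 348) (nat_lit 275) (nat_lit 238)) (XT.lf (nat_lit 0) (nat_lit 5289397500) (nat_lit 252) (nat_lit 513249796) (nat_lit 84) (nat_lit 8256989508) (nat_lit 23) (nat_lit 5) (nat_lit 26) (nat_lit 5) (nat_lit 24) (nat_lit 5) (nat_lit 349) (nat_lit 275) (nat_lit 237)))) (XT.nd (nat_lit 188) (nat_lit 252) (nat_lit 0) (XT.nd (nat_lit 94) (nat_lit 0) (nat_lit 0) (XT.lf (nat_lit 0) (nat_lit 3754110239) (nat_lit 252) (nat_lit 3611127793) (nat_lit 336) (nat_lit 7024966781) (nat_lit 20) (nat_lit 5) (nat_lit 23) (nat_lit 5) (nat_lit 24) (nat_lit 5) (nat_lit 350) (nat_lit 275) (nat_lit 236)) (XT.lf (nat_lit 0) (nat_lit 8115616433) (nat_lit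 252) (nat_lit 1360264887) (nat_lit 336) (nat_lit 5256191466) (nat_lit 20) (nat_lit 5) (nat_lit 23) (nat_lit 5) (nat_lit 24) (nat_lit 5) (nat_lit 351) (nat_lit 275) (nat_lit 235))) (XT.nd (nat_lit 94) (nat_lit 252) (nat_lit 0) (XT.lf (nat_lit 0) (nat_lit 11627489716) (nat_lit 336) (nat_lit 2530330971) (nat_lit 84) (nat_lit 927608649) (nat_lit 20) (nat_lit 5) (nat_lit 24) (nat_lit 5) (nat_lit 21) (nat_lit 4) (nat_lit 352) (nat_lit 275) (nat_lit 234)) (XT.nd (nat_lit 94) (nat_lit 84) (nat_lit 0) (XT.lf (nat_lit 0) (nat_lit 1654758230) (nat_lit 168) (nat_lit 12188397649) (nat_lit 252) (nat_lit 1606794244) (nat_lit 18) (nat_lit 5) (nat_lit 20) (nat_lit 5) (nat_lit 21) (nat_lit 4) (nat_lit 353) (nat_lit 275) (nat_lit 233)) (XT.lf (nat_lit 0) (nat_lit 289443883) (nat_lit 252) (nat_lit 9852442146) (nat_lit 84) (nat_lit 5684105536) (nat_lit 17) (nat_lit 5) (nat_lit 20) (nat_lit 5) (nat_lit 18) (nat_lit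 5) (nat_lit 354) (nat_lit 275) (nat_lit 232)))))) (XT.nd (nat_lit 470) (nat_lit 252) (nat_lit 0) (XT.nd (nat_lit 188) (nat_lit 168) (nat_lit 0) (XT.nd (nat_lit 94) (nat_lit 0) (nat_lit 0) (XT.lf (nat_lit 0) (nat_lit 2179182555) (nat_lit 252) (nat_lit 5849927395) (nat_lit 84) (nat_lit 8185177033) (nat_lit 17) (nat_lit 5) (nat_lit 20) (nat_lit 5) (nat_lit 18) (nat_lit 5) (nat_lit 355) (nat_lit 275) (nat_lit 231)) (XT.lf (nat_lit 0) (nat_lit 4096556527) (nat_lit 252) (nat_lit 1767977282) (nat_lit 84) (nat_lit 10751158629) (nat_lit 17) (nat_lit 5) (nat_lit 20) (nat_lit 5) (nat_lit 18) (nat_lit 5) (nat_lit 356) (nat_lit 275) (nat_lit 230))) (XT.nd (nat_lit 94) (nat_lit 0) (nat_lit 0) (XT.lf (nat_lit 0) (nat_lit 2446504613) (nat_lit 168) (nat_lit 3621118009) (nat_lit 252) (nat_lit 10962207102) (nat_lit 15) (nat_lit 5) (nat_lit 17) (nat_lit 5) (nat_lit 18) (nat_lit 5) (nat_lit 357) (nat_lit 275)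 (nat_lit 229)) (XT.nd (nat_lit 94) (nat_lit 0) (nat_lit 0) (XT.lf (nat_lit 0) (nat_lit 6786253729) (nat_lit 168) (nat_lit 1302453322) (nat_lit 252) (nat_lit 9368548653) (nat_lit 15) (nat_lit 5) (nat_lit 17) (nat_lit 5) (nat_lit 18) (nat_lit 5) (nat_lit 358) (nat_lit 275) (nat_lit 228)) (XT.lf (nat_lit 0) (nat_lit 10154460287) (nat_lit 252) (nat_lit 6690627524) (nat_lit 84) (nat_lit 1053505204) (nat_lit 15) (nat_lit 5) (nat_lit 18) (nat_lit 5) (nat_lit 16) (nat_lit 4) (nat_lit 359) (nat_lit 275) (nat_lit 227))))) (XT.nd (nat_lit 188) (nat_lit 84) (nat_lit 0) (XT.nd (nat_lit 94) (nat_lit 168) (nat_lit 0) (XT.lf (nat_lit 0) (nat_lit 12269659426) (nat_lit 252) (nat_lit 2641343232) (nat_lit 84) (nat_lit 3443161974) (nat_lit 15) (nat_lit 5) (nat_lit 18) (nat_lit 5) (nat_lit 16) (nat_lit 4) (nat_lit 360) (nat_lit 275) (nat_lit 226)) (XT.lf (nat_lit 0) (nat_lit 1524256120) (nat_lit 168) (nat_lit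 12914220248) (nat_lit 252) (nat_lit 4385850619) (nat_lit 13) (nat_lit 5) (nat_lit 15) (nat_lit 5) (nat_lit 16) (nat_lit 4) (nat_lit 361) (nat_lit 275) (nat_lit 225))) (XT.nd (nat_lit 94) (nat_lit 84) (nat_lit 0) (XT.lf (nat_lit 0) (nat_lit 5835465210) (nat_lit 168) (nat_lit 10839979482) (nat_lit 252) (nat_lit 2633685754) (nat_lit 13) (nat_lit 5) (nat_lit 15) (nat_lit 5) (nat_lit 16) (nat_lit 4) (nat_lit 362) (nat_lit 275) (nat_lit 224)) (XT.nd (nat_lit 94) (nat_lit 84) (nat_lit 0) (XT.lf (nat_lit 0) (nat_lit 10241991103) (nat_lit 168) (nat_lit 8713917156) (nat_lit 252) (nat_lit 853947617) (nat_lit 13) (nat_lit 5) (nat_lit 15) (nat_lit 5) (nat_lit 16) (nat_lit 4) (nat_lit 363) (nat_lit 275) (nat_lit 223)) (XT.lf (nat_lit 0) (nat_lit 935781115) (nat_lit 252) (nat_lit 5588502807) (nat_lit 84) (nat_lit 13802392390) (nat_lit 12) (nat_lit 5) (nat_lit 15) (nat_lit 5) (nat_lit 13) (nat_lit 5) (nat_lit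 364) (nat_lit 275) (nat_lit 222))))))) (XT.nd (nat_lit 49256) (nat_lit 0) (nat_lit 4620) (XT.nd (nat_lit 48786) (nat_lit 0) (nat_lit 7896) (XT.nd (nat_lit 188) (nat_lit 0) (nat_lit 0) (XT.nd (nat_lit 94) (nat_lit 168) (nat_lit 0) (XT.lf (nat_lit 0) (nat_lit 2738600096) (nat_lit 252) (nat_lit 1531165360) (nat_lit 84) (nat_lit 16590329878) (nat_lit 12) (nat_lit 5) (nat_lit 15) (nat_lit 5) (nat_lit 13) (nat_lit 5) (nat_lit 365) (nat_lit 275) (nat_lit 221)) (XT.lf (nat_lit 0) (nat_lit 2670199259) (nat_lit 168) (nat_lit 1929684329) (nat_lit 252) (nat_lit 16810168016) (nat_lit 10) (nat_lit 5) (nat_lit 12) (nat_lit 5) (nat_lit 13) (nat_lit 5) (nat_lit 366) (nat_lit 275) (nat_lit 220))) (XT.nd (nat_lit 94) (nat_lit 0) (nat_lit 0) (XT.lf (nat_lit 0) (nat_lit 6516146142) (nat_lit 252) (nat_lit 14983131176) (nat_lit 84) (nat_lit 477942254) (nat_lit 10) (nat_lit 5) (nat_lit 13) (nat_lit 5) (nat_lit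 11) (nat_lit 4) (nat_lit 367) (nat_lit 275) (nat_lit 219)) (XT.lf (nat_lit 0) (nat_lit 8488603055) (nat_lit 252) (nat_lit 11164490798) (nat_lit 84) (nat_lit 2909051738) (nat_lit 10) (nat_lit 5) (nat_lit 13) (nat_lit 5) (nat_lit 11) (nat_lit 4) (nat_lit 368) (nat_lit 275) (nat_lit 218)))) (XT.nd (nat_lit 188) (nat_lit 1008) (nat_lit 0) (XT.nd (nat_lit 94) (nat_lit 924) (nat_lit 0) (XT.lf (nat_lit 0) (nat_lit 3312315429) (nat_lit 756) (nat_lit 123119026) (nat_lit 756) (nat_lit 123119026) (nat_lit 127) (nat_lit 4) (nat_lit 136) (nat_lit 5) (nat_lit 136) (nat_lit 4) (nat_lit 309) (nat_lit 276) (nat_lit 276)) (XT.lf (nat_lit 0) (nat_lit 2288249855) (nat_lit 924) (nat_lit 4056006566) (nat_lit 0) (nat_lit 838992175) (nat_lit 116) (nat_lit 5) (nat_lit 127) (nat_lit 4) (nat_lit 116) (nat_lit 4) (nat_lit 310) (nat_lit 276) (nat_lit 275))) (XT.nd (nat_lit 94) (nat_lit 1008) (nat_lit 0) (XT.lf (nat_lit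 0) (nat_lit 4823352359) (nat_lit 924) (nat_lit 462445420) (nat_lit 0) (nat_lit 1968413129) (nat_lit 116) (nat_lit 5) (nat_lit 127) (nat_lit 4) (nat_lit 116) (nat_lit 4) (nat_lit 311) (nat_lit 276) (nat_lit 274)) (XT.nd (nat_lit 94) (nat_lit 0) (nat_lit 0) (XT.lf (nat_lit 0) (nat_lit 60383718) (nat_lit 1008) (nat_lit 4095715564) (nat_lit 84) (nat_lit 3173254787) (nat_lit 104) (nat_lit 5) (nat_lit 116) (nat_lit 5) (nat_lit 105) (nat_lit 4) (nat_lit 312) (nat_lit 276) (nat_lit 273)) (XT.lf (nat_lit 0) (nat_lit 2505408866) (nat_lit 1008) (nat_lit 452290113) (nat_lit 84) (nat_lit 4451157115) (nat_lit 104) (nat_lit 5) (nat_lit 116) (nat_lit 5) (nat_lit 105) (nat_lit 4) (nat_lit 313) (nat_lit 276) (nat_lit 272)))))) (XT.nd (nat_lit 470) (nat_lit 1092) (nat_lit 0) (XT.nd (nat_lit 188) (nat_lit 1176) (nat_lit 0) (XT.nd (nat_lit 94) (nat_lit 0) (nat_lit 0) (XT.lf (nat_lit 0) (nat_lit 3297971183) (nat_lit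 1008) (nat_lit 1685487667) (nat_lit 1092) (nat_lit 2509212203) (nat_lit 92) (nat_lit 5) (nat_lit 104) (nat_lit 5) (nat_lit 105) (nat_lit 4) (nat_lit 314) (nat_lit 276) (nat_lit 271)) (XT.lf (nat_lit 0) (nat_lit 7102256358) (nat_lit 1008) (nat_lit 366863036) (nat_lit 1092) (nat_lit 112617123) (nat_lit 92) (nat_lit 5) (nat_lit 104) (nat_lit 5) (nat_lit 105) (nat_lit 4) (nat_lit 315) (nat_lit 276) (nat_lit 270))) (XT.nd (nat_lit 94) (nat_lit 504) (nat_lit 0) (XT.lf (nat_lit 0) (nat_lit 2281235469) (nat_lit 672) (nat_lit 4362164118) (nat_lit 84) (nat_lit 1030830156) (nat_lit 84) (nat_lit 5) (nat_lit 92) (nat_lit 5) (nat_lit 85) (nat_lit 4) (nat_lit 316) (nat_lit 276) (nat_lit 269)) (XT.nd (nat_lit 94) (nat_lit 504) (nat_lit 0) (XT.lf (nat_lit 0) (nat_lit 4684338511) (nat_lit 672) (nat_lit 616672048) (nat_lit 84) (nat_lit 2470947614) (nat_lit 84) (nat_lit 5) (nat_lit 92) (nat_lit 5) (nat_lit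 85) (nat_lit 4) (nat_lit 317) (nat_lit 276) (nat_lit 268)) (XT.lf (nat_lit 0) (nat_lit 3238801934) (nat_lit 504) (nat_lit 3885985031) (nat_lit 588) (nat_lit 749529401) (nat_lit 78) (nat_lit 5) (nat_lit 84) (nat_lit 5) (nat_lit 85) (nat_lit 4) (nat_lit 318) (nat_lit 276) (nat_lit 267))))) (XT.nd (nat_lit 188) (nat_lit 504) (nat_lit 0) (XT.nd (nat_lit 94) (nat_lit 504) (nat_lit 0) (XT.lf (nat_lit 0) (nat_lit 1565059352) (nat_lit 588) (nat_lit 841824358) (nat_lit 84) (nat_lit 5574813079) (nat_lit 77) (nat_lit 5) (nat_lit 84) (nat_lit 5) (nat_lit 78) (nat_lit 5) (nat_lit 319) (nat_lit 276) (nat_lit 266)) (XT.lf (nat_lit 0) (nat_lit 3052993770) (nat_lit 504) (nat_lit 846179776) (nat_lit 588) (nat_lit 4194540448) (nat_lit 71) (nat_lit 5) (nat_lit 77) (nat_lit 5) (nat_lit 78) (nat_lit 5) (nat_lit 320) (nat_lit 276) (nat_lit 265))) (XT.nd (nat_lit 94) (nat_lit 504) (nat_lit 0) (XT.lf (nat_lit 0)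 (nat_lit 6256429541) (nat_lit 588) (nat_lit 1202192964) (nat_lit 84) (nat_lit 752503863) (nat_lit 71) (nat_lit 5) (nat_lit 78) (nat_lit 5) (nat_lit 72) (nat_lit 4) (nat_lit 321) (nat_lit 276) (nat_lit 264)) (XT.nd (nat_lit 94) (nat_lit 0) (nat_lit 0) (XT.lf (nat_lit 0) (nat_lit 318843615) (nat_lit 504) (nat_lit 5604778134) (nat_lit 84) (nat_lit 2409707595) (nat_lit 65) (nat_lit 5) (nat_lit 71) (nat_lit 5) (nat_lit 66) (nat_lit 5) (nat_lit 322) (nat_lit 276) (nat_lit 263)) (XT.lf (nat_lit 0) (nat_lit 2571474999) (nat_lit 504) (nat_lit 1743213882) (nat_lit 84) (nat_lit 4145948529) (nat_lit 65) (nat_lit 5) (nat_lit 71) (nat_lit 5) (nat_lit 66) (nat_lit 5) (nat_lit 323) (nat_lit 276) (nat_lit 262))))))))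
noncomputable def xc24 : XT := (XT.nd (nat_lit 1692) (nat_lit 1176) (nat_lit 0) (XT.nd (nat_lit 846) (nat_lit 1344) (nat_lit 0) (XT.nd (nat_lit 376) (nat_lit 840) (nat_lit 0) (XT.nd (nat_lit 188) (nat_lit 420) (nat_lit 0) (XT.nd (nat_lit 94) (nat_lit 0) (nat_lit 0) (XT.lf (nat_lit 0) (nat_lit 2213998396) (nat_lit 420) (nat_lit 2640348933) (nat_lit 504) (nat_lit 3739123323) (nat_lit 60) (nat_lit 5) (nat_lit 65) (nat_lit 5) (nat_lit 66) (nat_lit 5) (nat_lit 324) (nat_lit 276) (nat_lit 261)) (XT.lf (nat_lit 0) (nat_lit 6262867073) (nat_lit 420) (nat_lit 902939940) (nat_lit 504) (nat_lit 1566263100) (nat_lit 60) (nat_lit 5) (nat_lit 65) (nat_lit 5) (nat_lit 66) (nat_lit 5) (nat_lit 325) (nat_lit 276) (nat_lit 260))) (XT.nd (nat_lit 94) (nat_lit 0) (nat_lit 0) (XT.lf (nat_lit 0) (nat_lit 624913938) (nat_lit 420) (nat_lit 7366686591) (nat_lit 84) (nat_lit 884578297) (nat_lit 55) (nat_lit 5) (nat_lit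 60) (nat_lit 5) (nat_lit 56) (nat_lit 5) (nat_lit 326) (nat_lit 276) (nat_lit 259)) (XT.lf (nat_lit 0) (nat_lit 2828312203) (nat_lit 420) (nat_lit 3454426433) (nat_lit 84) (nat_lit 2742548889) (nat_lit 55) (nat_lit 5) (nat_lit 60) (nat_lit 5) (nat_lit 56) (nat_lit 5) (nat_lit 327) (nat_lit 276) (nat_lit 258)))) (XT.nd (nat_lit 188) (nat_lit 420) (nat_lit 0) (XT.nd (nat_lit 94) (nat_lit 0) (nat_lit 0) (XT.lf (nat_lit 0) (nat_lit 522892722) (nat_lit 420) (nat_lit 4525625228) (nat_lit 504) (nat_lit 4132398661) (nat_lit 50) (nat_lit 5) (nat_lit 55) (nat_lit 5) (nat_lit 56) (nat_lit 5) (nat_lit 328) (nat_lit 276) (nat_lit 257)) (XT.lf (nat_lit 0) (nat_lit 4630660455) (nat_lit 420) (nat_lit 2687310597) (nat_lit 504) (nat_lit 2024298611) (nat_lit 50) (nat_lit 5) (nat_lit 55) (nat_lit 5) (nat_lit 56) (nat_lit 5) (nat_lit 329) (nat_lit 276) (nat_lit 256))) (XT.nd (nat_lit 94) (nat_lit 336) (nat_lit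 0) (XT.lf (nat_lit 0) (nat_lit 91354238) (nat_lit 504) (nat_lit 709830580) (nat_lit 84) (nat_lit 8709367751) (nat_lit 49) (nat_lit 5) (nat_lit 55) (nat_lit 5) (nat_lit 50) (nat_lit 5) (nat_lit 330) (nat_lit 276) (nat_lit 255)) (XT.nd (nat_lit 94) (nat_lit 0) (nat_lit 0) (XT.lf (nat_lit 0) (nat_lit 2222924949) (nat_lit 420) (nat_lit 6295794260) (nat_lit 84) (nat_lit 1165194288) (nat_lit 45) (nat_lit 5) (nat_lit 50) (nat_lit 5) (nat_lit 46) (nat_lit 5) (nat_lit 331) (nat_lit 276) (nat_lit 254)) (XT.lf (nat_lit 0) (nat_lit 4383975764) (nat_lit 420) (nat_lit 2307188204) (nat_lit 84) (nat_lit 3172878092) (nat_lit 45) (nat_lit 5) (nat_lit 50) (nat_lit 5) (nat_lit 46) (nat_lit 5) (nat_lit 332) (nat_lit 276) (nat_lit 253)))))) (XT.nd (nat_lit 376) (nat_lit 672) (nat_lit 0) (XT.nd (nat_lit 188) (nat_lit 336) (nat_lit 0) (XT.nd (nat_lit 94) (nat_lit 0) (nat_lit 0) (XT.lf (nat_lit 0) (nat_lit 1778182228)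 (nat_lit 336) (nat_lit 4800770819) (nat_lit 420) (nat_lit 3472077714) (nat_lit 41) (nat_lit 5) (nat_lit 45) (nat_lit 5) (nat_lit 46) (nat_lit 5) (nat_lit 333) (nat_lit 276) (nat_lit 252)) (XT.lf (nat_lit 0) (nat_lit 5977036371) (nat_lit 336) (nat_lit 2839223512) (nat_lit 420) (nat_lit 1428596940) (nat_lit 41) (nat_lit 5) (nat_lit 45) (nat_lit 5) (nat_lit 46) (nat_lit 5) (nat_lit 334) (nat_lit 276) (nat_lit 251))) (XT.nd (nat_lit 94) (nat_lit 252) (nat_lit 0) (XT.lf (nat_lit 0) (nat_lit 615541650) (nat_lit 420) (nat_lit 206809349) (nat_lit 84) (nat_lit 9623880833) (nat_lit 40) (nat_lit 5) (nat_lit 45) (nat_lit 5) (nat_lit 41) (nat_lit 5) (nat_lit 335) (nat_lit 276) (nat_lit 250)) (XT.lf (nat_lit 0) (nat_lit 2698270066) (nat_lit 336) (nat_lit 6680573688) (nat_lit 84) (nat_lit 1274623202) (nat_lit 37) (nat_lit 5) (nat_lit 41) (nat_lit 5) (nat_lit 38) (nat_lit 5) (nat_lit 336) (nat_lit 276)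 (nat_lit 249)))) (XT.nd (nat_lit 188) (nat_lit 336) (nat_lit 0) (XT.nd (nat_lit 94) (nat_lit 336) (nat_lit 0) (XT.lf (nat_lit 0) (nat_lit 4809326026) (nat_lit 336) (nat_lit 2649476720) (nat_lit 84) (nat_lit 3409662526) (nat_lit 37) (nat_lit 5) (nat_lit 41) (nat_lit 5) (nat_lit 38) (nat_lit 5) (nat_lit 337) (nat_lit 276) (nat_lit 248)) (XT.lf (nat_lit 0) (nat_lit 1477640187) (nat_lit 336) (nat_lit 5477422445) (nat_lit 420) (nat_lit 4136228605) (nat_lit 33) (nat_lit 5) (nat_lit 37) (nat_lit 5) (nat_lit 38) (nat_lit 5) (nat_lit 338) (nat_lit 276) (nat_lit 247))) (XT.nd (nat_lit 94) (nat_lit 336) (nat_lit 0) (XT.lf (nat_lit 0) (nat_lit 5730744449) (nat_lit 336) (nat_lit 3419596396) (nat_lit 420) (nat_lit 2171413012) (nat_lit 33) (nat_lit 5) (nat_lit 37) (nat_lit 5) (nat_lit 38) (nat_lit 5) (nat_lit 339) (nat_lit 276) (nat_lit 246)) (XT.nd (nat_lit 94) (nat_lit 336) (nat_lit 0) (XT.lf (nat_lit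 0) (nat_lit 10059321731) (nat_lit 336) (nat_lit 1311061594) (nat_lit 420) (nat_lit 190516157) (nat_lit 33) (nat_lit 5) (nat_lit 37) (nat_lit 5) (nat_lit 38) (nat_lit 5) (nat_lit 340) (nat_lit 276) (nat_lit 245)) (XT.lf (nat_lit 0) (nat_lit 1807498294) (nat_lit 336) (nat_lit 9121645148) (nat_lit 84) (nat_lit 878147153) (nat_lit 29) (nat_lit 5) (nat_lit 33) (nat_lit 5) (nat_lit 30) (nat_lit 5) (nat_lit 341) (nat_lit 276) (nat_lit 244))))))) (XT.nd (nat_lit 846) (nat_lit 420) (nat_lit 0) (XT.nd (nat_lit 376) (nat_lit 504) (nat_lit 0) (XT.nd (nat_lit 188) (nat_lit 252) (nat_lit 0) (XT.nd (nat_lit 94) (nat_lit 0) (nat_lit 0) (XT.lf (nat_lit 0) (nat_lit 3850734078) (nat_lit 336) (nat_lit 5098367070) (nat_lit 84) (nat_lit 3112733308) (nat_lit 29) (nat_lit 5) (nat_lit 33) (nat_lit 5) (nat_lit 30) (nat_lit 5) (nat_lit 342) (nat_lit 276) (nat_lit 243)) (XT.lf (nat_lit 0) (nat_lit 5916570676) (nat_lit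 336) (nat_lit 1005188349) (nat_lit 84) (nat_lit 5403947156) (nat_lit 29) (nat_lit 5) (nat_lit 33) (nat_lit 5) (nat_lit 30) (nat_lit 5) (nat_lit 343) (nat_lit 276) (nat_lit 242))) (XT.nd (nat_lit 94) (nat_lit 0) (nat_lit 0) (XT.lf (nat_lit 0) (nat_lit 3226717452) (nat_lit 252) (nat_lit 4812225650) (nat_lit 336) (nat_lit 4559216332) (nat_lit 26) (nat_lit 5) (nat_lit 29) (nat_lit 5) (nat_lit 30) (nat_lit 5) (nat_lit 344) (nat_lit 276) (nat_lit 241)) (XT.lf (nat_lit 0) (nat_lit 7558487499) (nat_lit 252) (nat_lit 2640265118) (nat_lit 336) (nat_lit 2681348941) (nat_lit 26) (nat_lit 5) (nat_lit 29) (nat_lit 5) (nat_lit 30) (nat_lit 5) (nat_lit 345) (nat_lit 276) (nat_lit 240)))) (XT.nd (nat_lit 188) (nat_lit 252) (nat_lit 0) (XT.nd (nat_lit 94) (nat_lit 252) (nat_lit 0) (XT.lf (nat_lit 0) (nat_lit 11973490719) (nat_lit 252) (nat_lit 414345039) (nat_lit 336) (nat_lit 784275070) (nat_lit 26) (nat_lit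 5) (nat_lit 29) (nat_lit 5) (nat_lit 30) (nat_lit 5) (nat_lit 346) (nat_lit 276) (nat_lit 239)) (XT.lf (nat_lit 0) (nat_lit 1160154547) (nat_lit 252) (nat_lit 10440504803) (nat_lit 84) (nat_lit 1871925471) (nat_lit 23) (nat_lit 5) (nat_lit 26) (nat_lit 5) (nat_lit 24) (nat_lit 5) (nat_lit 347) (nat_lit 276) (nat_lit 238))) (XT.nd (nat_lit 94) (nat_lit 252) (nat_lit 0) (XT.lf (nat_lit 0) (nat_lit 3128860777) (nat_lit 252) (nat_lit 6426089979) (nat_lit 84) (nat_lit 4227930028) (nat_lit 23) (nat_lit 5) (nat_lit 26) (nat_lit 5) (nat_lit 24) (nat_lit 5) (nat_lit 348) (nat_lit 276) (nat_lit 237)) (XT.nd (nat_lit 94) (nat_lit 252) (nat_lit 0) (XT.lf (nat_lit 0) (nat_lit 5123110636) (nat_lit 252) (nat_lit 2336752310) (nat_lit 84) (nat_lit 6644173633) (nat_lit 23) (nat_lit 5) (nat_lit 26) (nat_lit 5) (nat_lit 24) (nat_lit 5) (nat_lit 349) (nat_lit 276) (nat_lit 236)) (XT.lf (nat_lit 0) (nat_lit 1868975585)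 (nat_lit 252) (nat_lit 5294327859) (nat_lit 336) (nat_lit 7272473363) (nat_lit 20) (nat_lit 5) (nat_lit 23) (nat_lit 5) (nat_lit 24) (nat_lit 5) (nat_lit 350) (nat_lit 276) (nat_lit 235)))))) (XT.nd (nat_lit 470) (nat_lit 168) (nat_lit 0) (XT.nd (nat_lit 188) (nat_lit 252) (nat_lit 0) (XT.nd (nat_lit 94) (nat_lit 0) (nat_lit 0) (XT.lf (nat_lit 0) (nat_lit 6207070345) (nat_lit 252) (nat_lit 3050206747) (nat_lit 336) (nat_lit 5520949568) (nat_lit 20) (nat_lit 5) (nat_lit 23) (nat_lit 5) (nat_lit 24) (nat_lit 5) (nat_lit 351) (nat_lit 276) (nat_lit 234)) (XT.lf (nat_lit 0) (nat_lit 10633527107) (nat_lit 252) (nat_lit 749798756) (nat_lit 336) (nat_lit 3749112856) (nat_lit 20) (nat_lit 5) (nat_lit 23) (nat_lit 5) (nat_lit 24) (nat_lit 5) (nat_lit 352) (nat_lit 276) (nat_lit 233))) (XT.nd (nat_lit 94) (nat_lit 252) (nat_lit 0) (XT.lf (nat_lit 0) (nat_lit 13559393337) (nat_lit 336) (nat_lit 362233233)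 (nat_lit 84) (nat_lit 1576621758) (nat_lit 20) (nat_lit 5) (nat_lit 24) (nat_lit 5) (nat_lit 21) (nat_lit 4) (nat_lit 353) (nat_lit 276) (nat_lit 232)) (XT.nd (nat_lit 94) (nat_lit 84) (nat_lit 0) (XT.lf (nat_lit 0) (nat_lit 3929849554) (nat_lit 168) (nat_lit 11888705671) (nat_lit 252) (nat_lit 56478769) (nat_lit 18) (nat_lit 5) (nat_lit 20) (nat_lit 5) (nat_lit 21) (nat_lit 4) (nat_lit 354) (nat_lit 276) (nat_lit 231)) (XT.lf (nat_lit 0) (nat_lit 1819160700) (nat_lit 252) (nat_lit 7964090011) (nat_lit 84) (nat_lit 6480624321) (nat_lit 17) (nat_lit 5) (nat_lit 20) (nat_lit 5) (nat_lit 18) (nat_lit 5) (nat_lit 355) (nat_lit 276) (nat_lit 230))))) (XT.nd (nat_lit 188) (nat_lit 0) (nat_lit 0) (XT.nd (nat_lit 94) (nat_lit 168) (nat_lit 0) (XT.lf (nat_lit 0) (nat_lit 3721755697) (nat_lit 252) (nat_lit 3903459586) (nat_lit 84) (nat_lit 9040577573) (nat_lit 17) (nat_lit 5) (nat_lit 20) (nat_lit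 5) (nat_lit 18) (nat_lit 5) (nat_lit 356) (nat_lit 276) (nat_lit 229)) (XT.lf (nat_lit 0) (nat_lit 246008568) (nat_lit 168) (nat_lit 5410649428) (nat_lit 252) (nat_lit 11424445814) (nat_lit 15) (nat_lit 5) (nat_lit 17) (nat_lit 5) (nat_lit 18) (nat_lit 5) (nat_lit 357) (nat_lit 276) (nat_lit 228))) (XT.nd (nat_lit 94) (nat_lit 0) (nat_lit 0) (XT.lf (nat_lit 0) (nat_lit 4565288387) (nat_lit 168) (nat_lit 3098347389) (nat_lit 252) (nat_lit 9845382328) (nat_lit 15) (nat_lit 5) (nat_lit 17) (nat_lit 5) (nat_lit 18) (nat_lit 5) (nat_lit 358) (nat_lit 276) (nat_lit 227)) (XT.nd (nat_lit 94) (nat_lit 0) (nat_lit 0) (XT.lf (nat_lit 0) (nat_lit 8978142755) (nat_lit 168) (nat_lit 726897970) (nat_lit 252) (nat_lit 8246118962) (nat_lit 15) (nat_lit 5) (nat_lit 17) (nat_lit 5) (nat_lit 18) (nat_lit 5) (nat_lit 359) (nat_lit 276) (nat_lit 226)) (XT.lf (nat_lit 0) (nat_lit 11799698479) (nat_lit 252) (nat_lit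 4936178599) (nat_lit 84) (nat_lit 1671538996) (nat_lit 15) (nat_lit 5) (nat_lit 18) (nat_lit 5) (nat_lit 16) (nat_lit 4) (nat_lit 360) (nat_lit 276) (nat_lit 225))))))))
noncomputable def xc25 : XT := (XT.nd (nat_lit 50008) (nat_lit 0) (nat_lit 2268) (XT.nd (nat_lit 49068) (nat_lit 0) (nat_lit 6216) (XT.nd (nat_lit 376) (nat_lit 168) (nat_lit 0) (XT.nd (nat_lit 188) (nat_lit 84) (nat_lit 0) (XT.nd (nat_lit 94) (nat_lit 168) (nat_lit 0) (XT.lf (nat_lit 0) (nat_lit 13940464963) (nat_lit 252) (nat_lit 820355446) (nat_lit 84) (nat_lit 4117674128) (nat_lit 15) (nat_lit 5) (nat_lit 18) (nat_lit 5) (nat_lit 16) (nat_lit 4) (nat_lit 361) (nat_lit 276) (nat_lit 224)) (XT.lf (nat_lit 0) (nat_lit 3455112642) (nat_lit 168) (nat_lit 12701287180) (nat_lit 252) (nat_lit 3207595356) (nat_lit 13) (nat_lit 5) (nat_lit 15) (nat_lit 5) (nat_lit 16) (nat_lit 4) (nat_lit 362) (nat_lit 276) (nat_lit 223))) (XT.nd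 (nat_lit 94) (nat_lit 84) (nat_lit 0) (XT.lf (nat_lit 0) (nat_lit 7843333189) (nat_lit 168) (nat_lit 10581184805) (nat_lit 252) (nat_lit 1440629108) (nat_lit 13) (nat_lit 5) (nat_lit 15) (nat_lit 5) (nat_lit 16) (nat_lit 4) (nat_lit 363) (nat_lit 276) (nat_lit 222)) (XT.lf (nat_lit 0) (nat_lit 348781671) (nat_lit 252) (nat_lit 8054677719) (nat_lit 84) (nat_lit 11979106049) (nat_lit 12) (nat_lit 5) (nat_lit 15) (nat_lit 5) (nat_lit 13) (nat_lit 5) (nat_lit 364) (nat_lit 276) (nat_lit 221)))) (XT.nd (nat_lit 188) (nat_lit 0) (nat_lit 0) (XT.nd (nat_lit 94) (nat_lit 168) (nat_lit 0) (XT.lf (nat_lit 0) (nat_lit 2139827346) (nat_lit 252) (nat_lit 4014843399) (nat_lit 84) (nat_lit 14761718643) (nat_lit 12) (nat_lit 5) (nat_lit 15) (nat_lit 5) (nat_lit 13) (nat_lit 5) (nat_lit 365) (nat_lit 276) (nat_lit 220)) (XT.lf (nat_lit 0) (nat_lit 118125782) (nat_lit 168) (nat_lit 3846248865) (nat_lit 252)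 (nat_lit 17503148588) (nat_lit 10) (nat_lit 5) (nat_lit 12) (nat_lit 5) (nat_lit 13) (nat_lit 5) (nat_lit 366) (nat_lit 276) (nat_lit 219))) (XT.nd (nat_lit 94) (nat_lit 0) (nat_lit 0) (XT.lf (nat_lit 0) (nat_lit 4430198686) (nat_lit 168) (nat_lit 1434357118) (nat_lit 252) (nat_lit 16170671509) (nat_lit 10) (nat_lit 5) (nat_lit 12) (nat_lit 5) (nat_lit 13) (nat_lit 5) (nat_lit 367) (nat_lit 276) (nat_lit 218)) (XT.nd (nat_lit 48316) (nat_lit 0) (nat_lit 10584) (XT.lf (nat_lit 0) (nat_lit 7811825581) (nat_lit 252) (nat_lit 13788779911) (nat_lit 84) (nat_lit 1020365100) (nat_lit 10) (nat_lit 5) (nat_lit 13) (nat_lit 5) (nat_lit 11) (nat_lit 4) (nat_lit 368) (nat_lit 276) (nat_lit 217)) (XT.lf (nat_lit 0) (nat_lit 1618367322) (nat_lit 756) (nat_lit 260470585) (nat_lit 0) (nat_lit 1618367322) (nat_lit 136) (nat_lit 5) (nat_lit 145) (nat_lit 4) (nat_lit 136) (nat_lit 4) (nat_lit 307) (nat_lit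 277) (nat_lit 277)))))) (XT.nd (nat_lit 470) (nat_lit 1680) (nat_lit 0) (XT.nd (nat_lit 188) (nat_lit 1848) (nat_lit 0) (XT.nd (nat_lit 94) (nat_lit 84) (nat_lit 0) (XT.lf (nat_lit 0) (nat_lit 3009608953) (nat_lit 756) (nat_lit 2792508366) (nat_lit 756) (nat_lit 1252003974) (nat_lit 127) (nat_lit 4) (nat_lit 136) (nat_lit 5) (nat_lit 136) (nat_lit 4) (nat_lit 308) (nat_lit 277) (nat_lit 276)) (XT.lf (nat_lit 0) (nat_lit 1227623802) (nat_lit 840) (nat_lit 541385117) (nat_lit 84) (nat_lit 5349257243) (nat_lit 126) (nat_lit 5) (nat_lit 136) (nat_lit 5) (nat_lit 127) (nat_lit 4) (nat_lit 309) (nat_lit 277) (nat_lit 275))) (XT.nd (nat_lit 94) (nat_lit 1008) (nat_lit 0) (XT.lf (nat_lit 0) (nat_lit 3047887212) (nat_lit 840) (nat_lit 660549001) (nat_lit 924) (nat_lit 3477696663) (nat_lit 116) (nat_lit 5) (nat_lit 126) (nat_lit 5) (nat_lit 127) (nat_lit 4) (nat_lit 310) (nat_lit 277) (nat_lit 274))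 (XT.nd (nat_lit 94) (nat_lit 1008) (nat_lit 0) (XT.lf (nat_lit 0) (nat_lit 6198517731) (nat_lit 924) (nat_lit 574276863) (nat_lit 0) (nat_lit 485978167) (nat_lit 116) (nat_lit 5) (nat_lit 127) (nat_lit 4) (nat_lit 116) (nat_lit 4) (nat_lit 311) (nat_lit 277) (nat_lit 273)) (XT.lf (nat_lit 0) (nat_lit 1363909148) (nat_lit 1008) (nat_lit 4264860709) (nat_lit 84) (nat_lit 1706213162) (nat_lit 104) (nat_lit 5) (nat_lit 116) (nat_lit 5) (nat_lit 105) (nat_lit 4) (nat_lit 312) (nat_lit 277) (nat_lit 272))))) (XT.nd (nat_lit 188) (nat_lit 672) (nat_lit 0) (XT.nd (nat_lit 94) (nat_lit 1008) (nat_lit 0) (XT.lf (nat_lit 0) (nat_lit 3771766780) (nat_lit 1008) (nat_lit 657160079) (nat_lit 84) (nat_lit 2986967627) (nat_lit 104) (nat_lit 5) (nat_lit 116) (nat_lit 5) (nat_lit 105) (nat_lit 4) (nat_lit 313) (nat_lit 277) (nat_lit 271)) (XT.lf (nat_lit 0) (nat_lit 3053525531) (nat_lit 1008) (nat_lit 3157816335)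 (nat_lit 1092) (nat_lit 1289809815) (nat_lit 92) (nat_lit 5) (nat_lit 104) (nat_lit 5) (nat_lit 105) (nat_lit 4) (nat_lit 314) (nat_lit 277) (nat_lit 270))) (XT.nd (nat_lit 94) (nat_lit 588) (nat_lit 0) (XT.lf (nat_lit 0) (nat_lit 1048581493) (nat_lit 1092) (nat_lit 778658734) (nat_lit 84) (nat_lit 5763984329) (nat_lit 91) (nat_lit 5) (nat_lit 104) (nat_lit 5) (nat_lit 92) (nat_lit 5) (nat_lit 315) (nat_lit 277) (nat_lit 269)) (XT.nd (nat_lit 94) (nat_lit 0) (nat_lit 0) (XT.lf (nat_lit 0) (nat_lit 2981439189) (nat_lit 588) (nat_lit 410078148) (nat_lit 672) (nat_lit 4293901569) (nat_lit 84) (nat_lit 5) (nat_lit 91) (nat_lit 5) (nat_lit 92) (nat_lit 5) (nat_lit 316) (nat_lit 277) (nat_lit 268)) (XT.lf (nat_lit 0) (nat_lit 5756441030) (nat_lit 672) (nat_lit 989566339) (nat_lit 84) (nat_lit 1038544357) (nat_lit 84) (nat_lit 5) (nat_lit 92) (nat_lit 5) (nat_lit 85) (nat_lit 4) (nat_lit 317) (nat_lit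 277) (nat_lit 267))))))) (XT.nd (nat_lit 846) (nat_lit 1512) (nat_lit 0) (XT.nd (nat_lit 376) (nat_lit 1344) (nat_lit 0) (XT.nd (nat_lit 188) (nat_lit 504) (nat_lit 0) (XT.nd (nat_lit 94) (nat_lit 0) (nat_lit 0) (XT.lf (nat_lit 0) (nat_lit 265937744) (nat_lit 588) (nat_lit 5067520592) (nat_lit 84) (nat_lit 2554735695) (nat_lit 77) (nat_lit 5) (nat_lit 84) (nat_lit 5) (nat_lit 78) (nat_lit 5) (nat_lit 318) (nat_lit 277) (nat_lit 266)) (XT.lf (nat_lit 0) (nat_lit 2532464344) (nat_lit 588) (nat_lit 1315889988) (nat_lit 84) (nat_lit 4148212914) (nat_lit 77) (nat_lit 5) (nat_lit 84) (nat_lit 5) (nat_lit 78) (nat_lit 5) (nat_lit 319) (nat_lit 277) (nat_lit 265))) (XT.nd (nat_lit 94) (nat_lit 0) (nat_lit 0) (XT.lf (nat_lit 0) (nat_lit 2534906872) (nat_lit 504) (nat_lit 2294562436) (nat_lit 588) (nat_lit 3280460974) (nat_lit 71) (nat_lit 5) (nat_lit 77) (nat_lit 5) (nat_lit 78) (nat_lit 5) (nat_lit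 320) (nat_lit 277) (nat_lit 264)) (XT.lf (nat_lit 0) (nat_lit 6465458129) (nat_lit 504) (nat_lit 682310492) (nat_lit 588) (nat_lit 1080971261) (nat_lit 71) (nat_lit 5) (nat_lit 77) (nat_lit 5) (nat_lit 78) (nat_lit 5) (nat_lit 321) (nat_lit 277) (nat_lit 263)))) (XT.nd (nat_lit 188) (nat_lit 840) (nat_lit 0) (XT.nd (nat_lit 94) (nat_lit 0) (nat_lit 0) (XT.lf (nat_lit 0) (nat_lit 1131211692) (nat_lit 504) (nat_lit 6231892283) (nat_lit 84) (nat_lit 989104901) (nat_lit 65) (nat_lit 5) (nat_lit 71) (nat_lit 5) (nat_lit 66) (nat_lit 5) (nat_lit 322) (nat_lit 277) (nat_lit 262)) (XT.lf (nat_lit 0) (nat_lit 3353535955) (nat_lit 504) (nat_lit 2404137779) (nat_lit 84) (nat_lit 2722955706) (nat_lit 65) (nat_lit 5) (nat_lit 71) (nat_lit 5) (nat_lit 66) (nat_lit 5) (nat_lit 323) (nat_lit 277) (nat_lit 261))) (XT.nd (nat_lit 94) (nat_lit 420) (nat_lit 0) (XT.lf (nat_lit 0) (nat_lit 1506017092) (nat_lit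 420) (nat_lit 4093972079) (nat_lit 504) (nat_lit 3014770280) (nat_lit 60) (nat_lit 5) (nat_lit 65) (nat_lit 5) (nat_lit 66) (nat_lit 5) (nat_lit 324) (nat_lit 277) (nat_lit 260)) (XT.nd (nat_lit 94) (nat_lit 420) (nat_lit 0) (XT.lf (nat_lit 0) (nat_lit 5522424610) (nat_lit 420) (nat_lit 2360190247) (nat_lit 504) (nat_lit 871800640) (nat_lit 60) (nat_lit 5) (nat_lit 65) (nat_lit 5) (nat_lit 66) (nat_lit 5) (nat_lit 325) (nat_lit 277) (nat_lit 259)) (XT.lf (nat_lit 0) (nat_lit 700337388) (nat_lit 336) (nat_lit 559565351) (nat_lit 420) (nat_lit 7639970937) (nat_lit 55) (nat_lit 5) (nat_lit 59) (nat_lit 5) (nat_lit 60) (nat_lit 5) (nat_lit 326) (nat_lit 277) (nat_lit 258)))))) (XT.nd (nat_lit 470) (nat_lit 672) (nat_lit 0) (XT.nd (nat_lit 188) (nat_lit 840) (nat_lit 0) (XT.nd (nat_lit 94) (nat_lit 0) (nat_lit 0) (XT.lf (nat_lit 0) (nat_lit 3429840138) (nat_lit 420) (nat_lit 4314593803) (nat_lit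 84) (nat_lit 1305734210) (nat_lit 55) (nat_lit 5) (nat_lit 60) (nat_lit 5) (nat_lit 56) (nat_lit 5) (nat_lit 327) (nat_lit 277) (nat_lit 257)) (XT.lf (nat_lit 0) (nat_lit 5617788008) (nat_lit 420) (nat_lit 379690110) (nat_lit 84) (nat_lit 3209463138) (nat_lit 55) (nat_lit 5) (nat_lit 60) (nat_lit 5) (nat_lit 56) (nat_lit 5) (nat_lit 328) (nat_lit 277) (nat_lit 256))) (XT.nd (nat_lit 94) (nat_lit 420) (nat_lit 0) (XT.lf (nat_lit 0) (nat_lit 3688712833) (nat_lit 420) (nat_lit 4168114442) (nat_lit 504) (nat_lit 1512549556) (nat_lit 50) (nat_lit 5) (nat_lit 55) (nat_lit 5) (nat_lit 56) (nat_lit 5) (nat_lit 329) (nat_lit 277) (nat_lit 255)) (XT.nd (nat_lit 94) (nat_lit 336) (nat_lit 0) (XT.lf (nat_lit 0) (nat_lit 566625436) (nat_lit 504) (nat_lit 1715240167) (nat_lit 84) (nat_lit 7256579364) (nat_lit 49) (nat_lit 5) (nat_lit 55) (nat_lit 5) (nat_lit 50) (nat_lit 5) (nat_lit 330) (nat_lit 277)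 (nat_lit 254)) (XT.lf (nat_lit 0) (nat_lit 2343237086) (nat_lit 336) (nat_lit 307296043) (nat_lit 420) (nat_lit 7062877789) (nat_lit 45) (nat_lit 5) (nat_lit 49) (nat_lit 5) (nat_lit 50) (nat_lit 5) (nat_lit 331) (nat_lit 277) (nat_lit 253))))) (XT.nd (nat_lit 188) (nat_lit 336) (nat_lit 0) (XT.nd (nat_lit 94) (nat_lit 336) (nat_lit 0) (XT.lf (nat_lit 0) (nat_lit 4783569555) (nat_lit 420) (nat_lit 3409395196) (nat_lit 84) (nat_lit 1701566811) (nat_lit 45) (nat_lit 5) (nat_lit 50) (nat_lit 5) (nat_lit 46) (nat_lit 5) (nat_lit 332) (nat_lit 277) (nat_lit 252)) (XT.lf (nat_lit 0) (nat_lit 622748354) (nat_lit 336) (nat_lit 6320121137) (nat_lit 420) (nat_lit 3139876689) (nat_lit 41) (nat_lit 5) (nat_lit 45) (nat_lit 5) (nat_lit 46) (nat_lit 5) (nat_lit 333) (nat_lit 277) (nat_lit 251))) (XT.nd (nat_lit 94) (nat_lit 336) (nat_lit 0) (XT.lf (nat_lit 0) (nat_lit 4791958225) (nat_lit 336) (nat_lit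 4364436830) (nat_lit 420) (nat_lit 1121030720) (nat_lit 41) (nat_lit 5) (nat_lit 45) (nat_lit 5) (nat_lit 46) (nat_lit 5) (nat_lit 334) (nat_lit 277) (nat_lit 250)) (XT.nd (nat_lit 94) (nat_lit 252) (nat_lit 0) (XT.lf (nat_lit 0) (nat_lit 893498422) (nat_lit 420) (nat_lit 1456851309) (nat_lit 84) (nat_lit 8129191684) (nat_lit 40) (nat_lit 5) (nat_lit 45) (nat_lit 5) (nat_lit 41) (nat_lit 5) (nat_lit 335) (nat_lit 277) (nat_lit 249)) (XT.lf (nat_lit 0) (nat_lit 2681405646) (nat_lit 252) (nat_lit 246264372) (nat_lit 336) (nat_lit 7760717915) (nat_lit 37) (nat_lit 5) (nat_lit 40) (nat_lit 5) (nat_lit 41) (nat_lit 5) (nat_lit 336) (nat_lit 277) (nat_lit 248))))))))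
noncomputable def xc26 : XT := (XT.nd (nat_lit 1692) (nat_lit 672) (nat_lit 0) (XT.nd (nat_lit 846) (nat_lit 672) (nat_lit 0) (XT.nd (nat_lit 376) (nat_lit 588) (nat_lit 0) (XT.nd (nat_lit 188) (nat_lit 0) (nat_lit 0) (XT.nd (nat_lit 94) (nat_lit 336) (nat_lit 0) (XT.lf (nat_lit 0) (nat_lit 5013919411) (nat_lit 336) (nat_lit 4002351861) (nat_lit 84) (nat_lit 1887986924) (nat_lit 37) (nat_lit 5) (nat_lit 41) (nat_lit 5) (nat_lit 38) (nat_lit 5) (nat_lit 337) (nat_lit 277) (nat_lit 247)) (XT.lf (nat_lit 0) (nat_lit 68330328) (nat_lit 336) (nat_lit 7055653991) (nat_lit 420) (nat_lit 4004305510) (nat_lit 33) (nat_lit 5) (nat_lit 37) (nat_lit 5) (nat_lit 38) (nat_lit 5) (nat_lit 338) (nat_lit 277) (nat_lit 246))) (XT.nd (nat_lit 94) (nat_lit 0) (nat_lit 0) (XT.lf (nat_lit 0) (nat_lit 4293678207) (nat_lit 336) (nat_lit 5004270017) (nat_lit 420) (nat_lit 2061561814) (nat_lit 33) (nat_lit 5) (nat_lit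 37) (nat_lit 5) (nat_lit 38) (nat_lit 5) (nat_lit 339) (nat_lit 277) (nat_lit 245)) (XT.lf (nat_lit 0) (nat_lit 8595333682) (nat_lit 336) (nat_lit 2901983590) (nat_lit 420) (nat_lit 102073199) (nat_lit 33) (nat_lit 5) (nat_lit 37) (nat_lit 5) (nat_lit 38) (nat_lit 5) (nat_lit 340) (nat_lit 277) (nat_lit 244)))) (XT.nd (nat_lit 188) (nat_lit 252) (nat_lit 0) (XT.nd (nat_lit 94) (nat_lit 0) (nat_lit 0) (XT.lf (nat_lit 0) (nat_lit 1133376613) (nat_lit 252) (nat_lit 716056450) (nat_lit 336) (nat_lit 9997796207) (nat_lit 29) (nat_lit 5) (nat_lit 32) (nat_lit 5) (nat_lit 33) (nat_lit 5) (nat_lit 341) (nat_lit 277) (nat_lit 243)) (XT.lf (nat_lit 0) (nat_lit 3865506643) (nat_lit 336) (nat_lit 6710463321) (nat_lit 84) (nat_lit 1526730906) (nat_lit 29) (nat_lit 5) (nat_lit 33) (nat_lit 5) (nat_lit 30) (nat_lit 5) (nat_lit 342) (nat_lit 277) (nat_lit 242))) (XT.nd (nat_lit 94) (nat_lit 252) (nat_lit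 0) (XT.lf (nat_lit 0) (nat_lit 5911887534) (nat_lit 336) (nat_lit 2643465115) (nat_lit 84) (nat_lit 3811906209) (nat_lit 29) (nat_lit 5) (nat_lit 33) (nat_lit 5) (nat_lit 30) (nat_lit 5) (nat_lit 343) (nat_lit 277) (nat_lit 241)) (XT.nd (nat_lit 94) (nat_lit 0) (nat_lit 0) (XT.lf (nat_lit 0) (nat_lit 1528838896) (nat_lit 252) (nat_lit 6469707183) (nat_lit 336) (nat_lit 4642353797) (nat_lit 26) (nat_lit 5) (nat_lit 29) (nat_lit 5) (nat_lit 30) (nat_lit 5) (nat_lit 344) (nat_lit 277) (nat_lit 240)) (XT.lf (nat_lit 0) (nat_lit 5835472705) (nat_lit 252) (nat_lit 4304330221) (nat_lit 336) (nat_lit 2783692417) (nat_lit 26) (nat_lit 5) (nat_lit 29) (nat_lit 5) (nat_lit 30) (nat_lit 5) (nat_lit 345) (nat_lit 277) (nat_lit 239)))))) (XT.nd (nat_lit 376) (nat_lit 420) (nat_lit 0) (XT.nd (nat_lit 188) (nat_lit 0) (nat_lit 0) (XT.nd (nat_lit 94) (nat_lit 252) (nat_lit 0) (XT.lf (nat_lit 0) (nat_lit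 10226095482) (nat_lit 252) (nat_lit 2084795757) (nat_lit 336) (nat_lit 905247072) (nat_lit 26) (nat_lit 5) (nat_lit 29) (nat_lit 5) (nat_lit 30) (nat_lit 5) (nat_lit 346) (nat_lit 277) (nat_lit 238)) (XT.lf (nat_lit 0) (nat_lit 988712790) (nat_lit 252) (nat_lit 12320535896) (nat_lit 84) (nat_lit 209112304) (nat_lit 23) (nat_lit 5) (nat_lit 26) (nat_lit 5) (nat_lit 24) (nat_lit 5) (nat_lit 347) (nat_lit 277) (nat_lit 237))) (XT.nd (nat_lit 94) (nat_lit 0) (nat_lit 0) (XT.lf (nat_lit 0) (nat_lit 2939946709) (nat_lit 252) (nat_lit 8330505126) (nat_lit 84) (nat_lit 2558815979) (nat_lit 23) (nat_lit 5) (nat_lit 26) (nat_lit 5) (nat_lit 24) (nat_lit 5) (nat_lit 348) (nat_lit 277) (nat_lit 236)) (XT.lf (nat_lit 0) (nat_lit 4917249613) (nat_lit 252) (nat_lit 4264818336) (nat_lit 84) (nat_lit 4968948156) (nat_lit 23) (nat_lit 5) (nat_lit 26) (nat_lit 5) (nat_lit 24) (nat_lit 5) (nat_lit 349) (nat_lit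 277) (nat_lit 235)))) (XT.nd (nat_lit 188) (nat_lit 168) (nat_lit 0) (XT.nd (nat_lit 94) (nat_lit 252) (nat_lit 0) (XT.lf (nat_lit 0) (nat_lit 6922464557) (nat_lit 252) (nat_lit 119685878) (nat_lit 84) (nat_lit 7441755331) (nat_lit 23) (nat_lit 5) (nat_lit 26) (nat_lit 5) (nat_lit 24) (nat_lit 5) (nat_lit 350) (nat_lit 277) (nat_lit 234)) (XT.lf (nat_lit 0) (nat_lit 4193240393) (nat_lit 252) (nat_lit 4805817680) (nat_lit 336) (nat_lit 5827899491) (nat_lit 20) (nat_lit 5) (nat_lit 23) (nat_lit 5) (nat_lit 24) (nat_lit 5) (nat_lit 351) (nat_lit 277) (nat_lit 233))) (XT.nd (nat_lit 94) (nat_lit 168) (nat_lit 0) (XT.lf (nat_lit 0) (nat_lit 8597672420) (nat_lit 252) (nat_lit 2511752154) (nat_lit 336) (nat_lit 4072292461) (nat_lit 20) (nat_lit 5) (nat_lit 23) (nat_lit 5) (nat_lit 24) (nat_lit 5) (nat_lit 352) (nat_lit 277) (nat_lit 232)) (XT.nd (nat_lit 94) (nat_lit 168) (nat_lit 0) (XT.lf (nat_lit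 0) (nat_lit 13095254609) (nat_lit 252) (nat_lit 159064823) (nat_lit 336) (nat_lit 2294232984) (nat_lit 20) (nat_lit 5) (nat_lit 23) (nat_lit 5) (nat_lit 24) (nat_lit 5) (nat_lit 353) (nat_lit 277) (nat_lit 231)) (XT.lf (nat_lit 0) (nat_lit 1775787400) (nat_lit 168) (nat_lit 13699934841) (nat_lit 252) (nat_lit 450844006) (nat_lit 18) (nat_lit 5) (nat_lit 20) (nat_lit 5) (nat_lit 21) (nat_lit 4) (nat_lit 354) (nat_lit 277) (nat_lit 230))))))) (XT.nd (nat_lit 846) (nat_lit 252) (nat_lit 0) (XT.nd (nat_lit 376) (nat_lit 168) (nat_lit 0) (XT.nd (nat_lit 188) (nat_lit 168) (nat_lit 0) (XT.nd (nat_lit 94) (nat_lit 0) (nat_lit 0) (XT.lf (nat_lit 0) (nat_lit 1417962068) (nat_lit 252) (nat_lit 10187091954) (nat_lit 84) (nat_lit 4710986908) (nat_lit 17) (nat_lit 5) (nat_lit 20) (nat_lit 5) (nat_lit 18) (nat_lit 5) (nat_lit 355) (nat_lit 277) (nat_lit 229)) (XT.lf (nat_lit 0) (nat_lit 3306222463) (nat_lit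 252) (nat_lit 6147140179) (nat_lit 84) (nat_lit 7265093075) (nat_lit 17) (nat_lit 5) (nat_lit 20) (nat_lit 5) (nat_lit 18) (nat_lit 5) (nat_lit 356) (nat_lit 277) (nat_lit 228))) (XT.nd (nat_lit 94) (nat_lit 168) (nat_lit 0) (XT.lf (nat_lit 0) (nat_lit 5224780737) (nat_lit 252) (nat_lit 2022685434) (nat_lit 84) (nat_lit 9886858175) (nat_lit 17) (nat_lit 5) (nat_lit 20) (nat_lit 5) (nat_lit 18) (nat_lit 5) (nat_lit 357) (nat_lit 277) (nat_lit 227)) (XT.lf (nat_lit 0) (nat_lit 2235149995) (nat_lit 168) (nat_lit 4962448155) (nat_lit 252) (nat_lit 10365748935) (nat_lit 15) (nat_lit 5) (nat_lit 17) (nat_lit 5) (nat_lit 18) (nat_lit 5) (nat_lit 358) (nat_lit 277) (nat_lit 226)))) (XT.nd (nat_lit 188) (nat_lit 168) (nat_lit 0) (XT.nd (nat_lit 94) (nat_lit 0) (nat_lit 0) (XT.lf (nat_lit 0) (nat_lit 6628747497) (nat_lit 168) (nat_lit 2596984514) (nat_lit 252) (nat_lit 8780216048) (nat_lit 15) (nat_lit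 5) (nat_lit 17) (nat_lit 5) (nat_lit 18) (nat_lit 5) (nat_lit 359) (nat_lit 277) (nat_lit 225)) (XT.lf (nat_lit 0) (nat_lit 11120611805) (nat_lit 168) (nat_lit 169983074) (nat_lit 252) (nat_lit 7172579753) (nat_lit 15) (nat_lit 5) (nat_lit 17) (nat_lit 5) (nat_lit 18) (nat_lit 5) (nat_lit 360) (nat_lit 277) (nat_lit 224))) (XT.nd (nat_lit 94) (nat_lit 168) (nat_lit 0) (XT.lf (nat_lit 0) (nat_lit 13417134229) (nat_lit 252) (nat_lit 3243545987) (nat_lit 84) (nat_lit 2274059065) (nat_lit 15) (nat_lit 5) (nat_lit 18) (nat_lit 5) (nat_lit 16) (nat_lit 4) (nat_lit 361) (nat_lit 277) (nat_lit 223)) (XT.nd (nat_lit 94) (nat_lit 0) (nat_lit 0) (XT.lf (nat_lit 0) (nat_lit 963790988) (nat_lit 168) (nat_lit 14632400078) (nat_lit 252) (nat_lit 3825235863) (nat_lit 13) (nat_lit 5) (nat_lit 15) (nat_lit 5) (nat_lit 16) (nat_lit 4) (nat_lit 362) (nat_lit 277) (nat_lit 222)) (XT.lf (nat_lit 0) (nat_lit 5334256592)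 (nat_lit 168) (nat_lit 12518078450) (nat_lit 252) (nat_lit 2070657481) (nat_lit 13) (nat_lit 5) (nat_lit 15) (nat_lit 5) (nat_lit 16) (nat_lit 4) (nat_lit 363) (nat_lit 277) (nat_lit 221)))))) (XT.nd (nat_lit 48504) (nat_lit 0) (nat_lit 9744) (XT.nd (nat_lit 188) (nat_lit 168) (nat_lit 0) (XT.nd (nat_lit 94) (nat_lit 84) (nat_lit 0) (XT.lf (nat_lit 0) (nat_lit 9805230600) (nat_lit 168) (nat_lit 10349600533) (nat_lit 252) (nat_lit 286090423) (nat_lit 13) (nat_lit 5) (nat_lit 15) (nat_lit 5) (nat_lit 16) (nat_lit 4) (nat_lit 364) (nat_lit 277) (nat_lit 220)) (XT.lf (nat_lit 0) (nat_lit 1499300029) (nat_lit 252) (nat_lit 6609995430) (nat_lit 84) (nat_lit 12865930779) (nat_lit 12) (nat_lit 5) (nat_lit 15) (nat_lit 5) (nat_lit 13) (nat_lit 5) (nat_lit 365) (nat_lit 277) (nat_lit 219))) (XT.nd (nat_lit 94) (nat_lit 168) (nat_lit 0) (XT.lf (nat_lit 0) (nat_lit 3311599556) (nat_lit 252) (nat_lit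 2495872606) (nat_lit 84) (nat_lit 15719305193) (nat_lit 12) (nat_lit 5) (nat_lit 15) (nat_lit 5) (nat_lit 13) (nat_lit 5) (nat_lit 366) (nat_lit 277) (nat_lit 218)) (XT.nd (nat_lit 94) (nat_lit 0) (nat_lit 0) (XT.lf (nat_lit 0) (nat_lit 1748580358) (nat_lit 168) (nat_lit 3427027269) (nat_lit 252) (nat_lit 16920031630) (nat_lit 10) (nat_lit 5) (nat_lit 12) (nat_lit 5) (nat_lit 13) (nat_lit 5) (nat_lit 367) (nat_lit 277) (nat_lit 217)) (XT.lf (nat_lit 0) (nat_lit 6145413290) (nat_lit 168) (nat_lit 956557096) (nat_lit 252) (nat_lit 15580095630) (nat_lit 10) (nat_lit 5) (nat_lit 12) (nat_lit 5) (nat_lit 13) (nat_lit 5) (nat_lit 368) (nat_lit 277) (nat_lit 216))))) (XT.nd (nat_lit 188) (nat_lit 840) (nat_lit 0) (XT.nd (nat_lit 94) (nat_lit 756) (nat_lit 0) (XT.lf (nat_lit 0) (nat_lit 3226767175) (nat_lit 588) (nat_lit 108116440) (nat_lit 588) (nat_lit 108116440) (nat_lit 145) (nat_lit 4) (nat_lit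 152) (nat_lit 5) (nat_lit 152) (nat_lit 4) (nat_lit 305) (nat_lit 278) (nat_lit 278)) (XT.lf (nat_lit 0) (nat_lit 2285462829) (nat_lit 756) (nat_lit 3956046704) (nat_lit 0) (nat_lit 697202801) (nat_lit 136) (nat_lit 5) (nat_lit 145) (nat_lit 4) (nat_lit 136) (nat_lit 4) (nat_lit 306) (nat_lit 278) (nat_lit 277))) (XT.nd (nat_lit 94) (nat_lit 840) (nat_lit 0) (XT.lf (nat_lit 0) (nat_lit 4784260872) (nat_lit 756) (nat_lit 556234422) (nat_lit 0) (nat_lit 1655496452) (nat_lit 136) (nat_lit 5) (nat_lit 145) (nat_lit 4) (nat_lit 136) (nat_lit 4) (nat_lit 307) (nat_lit 278) (nat_lit 276)) (XT.nd (nat_lit 94) (nat_lit 0) (nat_lit 0) (XT.lf (nat_lit 0) (nat_lit 247091789) (nat_lit 840) (nat_lit 4121105663) (nat_lit 84) (nat_lit 2688983141) (nat_lit 126) (nat_lit 5) (nat_lit 136) (nat_lit 5) (nat_lit 127) (nat_lit 4) (nat_lit 308) (nat_lit 278) (nat_lit 275)) (XT.lf (nat_lit 0) (nat_lit 2662148254)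 (nat_lit 840) (nat_lit 665383662) (nat_lit 84) (nat_lit 3794918918) (nat_lit 126) (nat_lit 5) (nat_lit 136) (nat_lit 5) (nat_lit 127) (nat_lit 4) (nat_lit 309) (nat_lit 278) (nat_lit 274))))))))
noncomputable def xc27 : XT := (XT.nd (nat_lit 1786) (nat_lit 2520) (nat_lit 0) (XT.nd (nat_lit 846) (nat_lit 1848) (nat_lit 0) (XT.nd (nat_lit 376) (nat_lit 2268) (nat_lit 0) (XT.nd (nat_lit 188) (nat_lit 924) (nat_lit 0) (XT.nd (nat_lit 94) (nat_lit 84) (nat_lit 0) (XT.lf (nat_lit 0) (nat_lit 2886708008) (nat_lit 840) (nat_lit 2216490577) (nat_lit 924) (nat_lit 2088633510) (nat_lit 116) (nat_lit 5) (nat_lit 126) (nat_lit 5) (nat_lit 127) (nat_lit 4) (nat_lit 310) (nat_lit 278) (nat_lit 273)) (XT.lf (nat_lit 0) (nat_lit 279214138) (nat_lit 924) (nat_lit 774082960) (nat_lit 84) (nat_lit 6212671034) (nat_lit 115) (nat_lit 5) (nat_lit 126) (nat_lit 5) (nat_lit 116) (nat_lit 5) (nat_lit 311) (nat_lit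 278) (nat_lit 272))) (XT.nd (nat_lit 94) (nat_lit 0) (nat_lit 0) (XT.lf (nat_lit 0) (nat_lit 2632356641) (nat_lit 1008) (nat_lit 4511806464) (nat_lit 84) (nat_lit 199485937) (nat_lit 104) (nat_lit 5) (nat_lit 116) (nat_lit 5) (nat_lit 105) (nat_lit 4) (nat_lit 312) (nat_lit 278) (nat_lit 271)) (XT.lf (nat_lit 0) (nat_lit 5004164306) (nat_lit 1008) (nat_lit 938756486) (nat_lit 84) (nat_lit 1483006780) (nat_lit 104) (nat_lit 5) (nat_lit 116) (nat_lit 5) (nat_lit 105) (nat_lit 4) (nat_lit 313) (nat_lit 278) (nat_lit 270)))) (XT.nd (nat_lit 188) (nat_lit 1176) (nat_lit 0) (XT.nd (nat_lit 94) (nat_lit 84) (nat_lit 0) (XT.lf (nat_lit 0) (nat_lit 2731839081) (nat_lit 1008) (nat_lit 4673743120) (nat_lit 1092) (nat_lit 107027449) (nat_lit 92) (nat_lit 5) (nat_lit 104) (nat_lit 5) (nat_lit 105) (nat_lit 4) (nat_lit 314) (nat_lit 278) (nat_lit 269)) (XT.lf (nat_lit 0) (nat_lit 2172708488) (nat_lit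 1092) (nat_lit 1157748769) (nat_lit 84) (nat_lit 4273168783) (nat_lit 91) (nat_lit 5) (nat_lit 104) (nat_lit 5) (nat_lit 92) (nat_lit 5) (nat_lit 315) (nat_lit 278) (nat_lit 268))) (XT.nd (nat_lit 94) (nat_lit 588) (nat_lit 0) (XT.lf (nat_lit 0) (nat_lit 2560688385) (nat_lit 588) (nat_lit 1917004219) (nat_lit 672) (nat_lit 3221525121) (nat_lit 84) (nat_lit 5) (nat_lit 91) (nat_lit 5) (nat_lit 92) (nat_lit 5) (nat_lit 316) (nat_lit 278) (nat_lit 267)) (XT.nd (nat_lit 94) (nat_lit 588) (nat_lit 0) (XT.lf (nat_lit 0) (nat_lit 6352227234) (nat_lit 588) (nat_lit 446786681) (nat_lit 672) (nat_lit 1000902495) (nat_lit 84) (nat_lit 5) (nat_lit 91) (nat_lit 5) (nat_lit 92) (nat_lit 5) (nat_lit 317) (nat_lit 278) (nat_lit 266)) (XT.lf (nat_lit 0) (nat_lit 1230371485) (nat_lit 588) (nat_lit 5590906301) (nat_lit 84) (nat_lit 1083470976) (nat_lit 77) (nat_lit 5) (nat_lit 84) (nat_lit 5) (nat_lit 78)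 (nat_lit 5) (nat_lit 318) (nat_lit 278) (nat_lit 265)))))) (XT.nd (nat_lit 470) (nat_lit 840) (nat_lit 0) (XT.nd (nat_lit 188) (nat_lit 504) (nat_lit 0) (XT.nd (nat_lit 94) (nat_lit 504) (nat_lit 0) (XT.lf (nat_lit 0) (nat_lit 3464928341) (nat_lit 588) (nat_lit 1872858669) (nat_lit 84) (nat_lit 2676521474) (nat_lit 77) (nat_lit 5) (nat_lit 84) (nat_lit 5) (nat_lit 78) (nat_lit 5) (nat_lit 319) (nat_lit 278) (nat_lit 264)) (XT.lf (nat_lit 0) (nat_lit 1933242797) (nat_lit 504) (nat_lit 3791713443) (nat_lit 588) (nat_lit 2404051136) (nat_lit 71) (nat_lit 5) (nat_lit 77) (nat_lit 5) (nat_lit 78) (nat_lit 5) (nat_lit 320) (nat_lit 278) (nat_lit 263))) (XT.nd (nat_lit 94) (nat_lit 504) (nat_lit 0) (XT.lf (nat_lit 0) (nat_lit 5831550626) (nat_lit 504) (nat_lit 2181308947) (nat_lit 588) (nat_lit 236083548) (nat_lit 71) (nat_lit 5) (nat_lit 77) (nat_lit 5) (nat_lit 78) (nat_lit 5) (nat_lit 321) (nat_lit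 278) (nat_lit 262)) (XT.nd (nat_lit 94) (nat_lit 0) (nat_lit 0) (XT.lf (nat_lit 0) (nat_lit 1421804293) (nat_lit 420) (nat_lit 490268647) (nat_lit 504) (nat_lit 6461709448) (nat_lit 65) (nat_lit 5) (nat_lit 70) (nat_lit 5) (nat_lit 71) (nat_lit 5) (nat_lit 322) (nat_lit 278) (nat_lit 261)) (XT.lf (nat_lit 0) (nat_lit 4100137827) (nat_lit 504) (nat_lit 3152153227) (nat_lit 84) (nat_lit 1251141716) (nat_lit 65) (nat_lit 5) (nat_lit 71) (nat_lit 5) (nat_lit 66) (nat_lit 5) (nat_lit 323) (nat_lit 278) (nat_lit 260))))) (XT.nd (nat_lit 188) (nat_lit 420) (nat_lit 0) (XT.nd (nat_lit 94) (nat_lit 0) (nat_lit 0) (XT.lf (nat_lit 0) (nat_lit 710159754) (nat_lit 420) (nat_lit 5600024307) (nat_lit 504) (nat_lit 2328670068) (nat_lit 60) (nat_lit 5) (nat_lit 65) (nat_lit 5) (nat_lit 66) (nat_lit 5) (nat_lit 324) (nat_lit 278) (nat_lit 259)) (XT.lf (nat_lit 0) (nat_lit 4695082151) (nat_lit 420) (nat_lit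 3869760574) (nat_lit 504) (nat_lit 214692266) (nat_lit 60) (nat_lit 5) (nat_lit 65) (nat_lit 5) (nat_lit 66) (nat_lit 5) (nat_lit 325) (nat_lit 278) (nat_lit 258))) (XT.nd (nat_lit 94) (nat_lit 336) (nat_lit 0) (XT.lf (nat_lit 0) (nat_lit 1869270855) (nat_lit 504) (nat_lit 204006874) (nat_lit 84) (nat_lit 6852731384) (nat_lit 59) (nat_lit 5) (nat_lit 65) (nat_lit 5) (nat_lit 60) (nat_lit 5) (nat_lit 326) (nat_lit 278) (nat_lit 257)) (XT.nd (nat_lit 94) (nat_lit 0) (nat_lit 0) (XT.lf (nat_lit 0) (nat_lit 3809727410) (nat_lit 336) (nat_lit 187164093) (nat_lit 420) (nat_lit 5080867930) (nat_lit 55) (nat_lit 5) (nat_lit 59) (nat_lit 5) (nat_lit 60) (nat_lit 5) (nat_lit 327) (nat_lit 278) (nat_lit 256)) (XT.lf (nat_lit 0) (nat_lit 6156725925) (nat_lit 420) (nat_lit 1362193406) (nat_lit 84) (nat_lit 1716624418) (nat_lit 55) (nat_lit 5) (nat_lit 60) (nat_lit 5) (nat_lit 56) (nat_lit 5) (nat_lit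 328) (nat_lit 278) (nat_lit 255))))))) (XT.nd (nat_lit 846) (nat_lit 1008) (nat_lit 0) (XT.nd (nat_lit 376) (nat_lit 672) (nat_lit 0) (XT.nd (nat_lit 188) (nat_lit 336) (nat_lit 0) (XT.nd (nat_lit 94) (nat_lit 84) (nat_lit 0) (XT.lf (nat_lit 0) (nat_lit 2655398544) (nat_lit 420) (nat_lit 5704648771) (nat_lit 504) (nat_lit 1039174758) (nat_lit 50) (nat_lit 5) (nat_lit 55) (nat_lit 5) (nat_lit 56) (nat_lit 5) (nat_lit 329) (nat_lit 278) (nat_lit 254)) (XT.lf (nat_lit 0) (nat_lit 1005082327) (nat_lit 504) (nat_lit 2813433349) (nat_lit 84) (nat_lit 5750543223) (nat_lit 49) (nat_lit 5) (nat_lit 55) (nat_lit 5) (nat_lit 50) (nat_lit 5) (nat_lit 330) (nat_lit 278) (nat_lit 253))) (XT.nd (nat_lit 94) (nat_lit 0) (nat_lit 0) (XT.lf (nat_lit 0) (nat_lit 1192432229) (nat_lit 336) (nat_lit 1860524342) (nat_lit 420) (nat_lit 6692308952) (nat_lit 45) (nat_lit 5) (nat_lit 49) (nat_lit 5) (nat_lit 50) (nat_lit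 5) (nat_lit 331) (nat_lit 278) (nat_lit 252)) (XT.lf (nat_lit 0) (nat_lit 5146369479) (nat_lit 420) (nat_lit 4606593904) (nat_lit 84) (nat_lit 174771030) (nat_lit 45) (nat_lit 5) (nat_lit 50) (nat_lit 5) (nat_lit 46) (nat_lit 5) (nat_lit 332) (nat_lit 278) (nat_lit 251)))) (XT.nd (nat_lit 188) (nat_lit 336) (nat_lit 0) (XT.nd (nat_lit 94) (nat_lit 336) (nat_lit 0) (XT.lf (nat_lit 0) (nat_lit 7276004478) (nat_lit 420) (nat_lit 616044350) (nat_lit 84) (nat_lit 2224936129) (nat_lit 45) (nat_lit 5) (nat_lit 50) (nat_lit 5) (nat_lit 46) (nat_lit 5) (nat_lit 333) (nat_lit 278) (nat_lit 250)) (XT.lf (nat_lit 0) (nat_lit 3511745452) (nat_lit 336) (nat_lit 5948481474) (nat_lit 420) (nat_lit 852458838) (nat_lit 41) (nat_lit 5) (nat_lit 45) (nat_lit 5) (nat_lit 46) (nat_lit 5) (nat_lit 334) (nat_lit 278) (nat_lit 249))) (XT.nd (nat_lit 94) (nat_lit 252) (nat_lit 0) (XT.lf (nat_lit 0) (nat_lit 1133950474)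 (nat_lit 420) (nat_lit 2803449799) (nat_lit 84) (nat_lit 6578128642) (nat_lit 40) (nat_lit 5) (nat_lit 45) (nat_lit 5) (nat_lit 41) (nat_lit 5) (nat_lit 335) (nat_lit 278) (nat_lit 248)) (XT.nd (nat_lit 94) (nat_lit 0) (nat_lit 0) (XT.lf (nat_lit 0) (nat_lit 1278945014) (nat_lit 252) (nat_lit 1853238571) (nat_lit 336) (nat_lit 7593408882) (nat_lit 37) (nat_lit 5) (nat_lit 40) (nat_lit 5) (nat_lit 41) (nat_lit 5) (nat_lit 336) (nat_lit 278) (nat_lit 247)) (XT.lf (nat_lit 0) (nat_lit 5180800425) (nat_lit 336) (nat_lit 5454115910) (nat_lit 84) (nat_lit 307812851) (nat_lit 37) (nat_lit 5) (nat_lit 41) (nat_lit 5) (nat_lit 38) (nat_lit 5) (nat_lit 337) (nat_lit 278) (nat_lit 246)))))) (XT.nd (nat_lit 470) (nat_lit 336) (nat_lit 0) (XT.nd (nat_lit 188) (nat_lit 336) (nat_lit 0) (XT.nd (nat_lit 94) (nat_lit 336) (nat_lit 0) (XT.lf (nat_lit 0) (nat_lit 7269148527) (nat_lit 336) (nat_lit 1412007578)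 (nat_lit 84) (nat_lit 2486374780) (nat_lit 37) (nat_lit 5) (nat_lit 41) (nat_lit 5) (nat_lit 38) (nat_lit 5) (nat_lit 338) (nat_lit 278) (nat_lit 245)) (XT.lf (nat_lit 0) (nat_lit 2757384722) (nat_lit 336) (nat_lit 6650758970) (nat_lit 420) (nat_lit 1991785366) (nat_lit 33) (nat_lit 5) (nat_lit 37) (nat_lit 5) (nat_lit 38) (nat_lit 5) (nat_lit 339) (nat_lit 278) (nat_lit 244))) (XT.nd (nat_lit 94) (nat_lit 336) (nat_lit 0) (XT.lf (nat_lit 0) (nat_lit 7032927871) (nat_lit 336) (nat_lit 4554533042) (nat_lit 420) (nat_lit 53061292) (nat_lit 33) (nat_lit 5) (nat_lit 37) (nat_lit 5) (nat_lit 38) (nat_lit 5) (nat_lit 340) (nat_lit 278) (nat_lit 243)) (XT.nd (nat_lit 94) (nat_lit 252) (nat_lit 0) (XT.lf (nat_lit 0) (nat_lit 1866479840) (nat_lit 420) (nat_lit 519300822) (nat_lit 84) (nat_lit 9503611289) (nat_lit 32) (nat_lit 5) (nat_lit 37) (nat_lit 5) (nat_lit 33) (nat_lit 5) (nat_lit 341) (nat_lit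 278) (nat_lit 242)) (XT.lf (nat_lit 0) (nat_lit 3719260880) (nat_lit 252) (nat_lit 123183733) (nat_lit 336) (nat_lit 8303745447) (nat_lit 29) (nat_lit 5) (nat_lit 32) (nat_lit 5) (nat_lit 33) (nat_lit 5) (nat_lit 342) (nat_lit 278) (nat_lit 241))))) (XT.nd (nat_lit 188) (nat_lit 336) (nat_lit 0) (XT.nd (nat_lit 94) (nat_lit 0) (nat_lit 0) (XT.lf (nat_lit 0) (nat_lit 5868732790) (nat_lit 336) (nat_lit 4384102297) (nat_lit 84) (nat_lit 2158616468) (nat_lit 29) (nat_lit 5) (nat_lit 33) (nat_lit 5) (nat_lit 30) (nat_lit 5) (nat_lit 343) (nat_lit 278) (nat_lit 240)) (XT.lf (nat_lit 0) (nat_lit 7921921752) (nat_lit 336) (nat_lit 267230780) (nat_lit 84) (nat_lit 4497055809) (nat_lit 29) (nat_lit 5) (nat_lit 33) (nat_lit 5) (nat_lit 30) (nat_lit 5) (nat_lit 344) (nat_lit 278) (nat_lit 239))) (XT.nd (nat_lit 94) (nat_lit 84) (nat_lit 0) (XT.lf (nat_lit 0) (nat_lit 4009527772) (nat_lit 252) (nat_lit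 6032950526) (nat_lit 336) (nat_lit 2927043078) (nat_lit 26) (nat_lit 5) (nat_lit 29) (nat_lit 5) (nat_lit 30) (nat_lit 5) (nat_lit 345) (nat_lit 278) (nat_lit 238)) (XT.nd (nat_lit 94) (nat_lit 84) (nat_lit 0) (XT.lf (nat_lit 0) (nat_lit 8376503174) (nat_lit 252) (nat_lit 3819609676) (nat_lit 336) (nat_lit 1066666139) (nat_lit 26) (nat_lit 5) (nat_lit 29) (nat_lit 5) (nat_lit 30) (nat_lit 5) (nat_lit 346) (nat_lit 278) (nat_lit 237)) (XT.lf (nat_lit 0) (nat_lit 799352623) (nat_lit 336) (nat_lit 742160032) (nat_lit 84) (nat_lit 12024574866) (nat_lit 25) (nat_lit 5) (nat_lit 29) (nat_lit 5) (nat_lit 26) (nat_lit 5) (nat_lit 347) (nat_lit 278) (nat_lit 236))))))))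
noncomputable def xc28 : XT := (XT.nd (nat_lit 1692) (nat_lit 168) (nat_lit 0) (XT.nd (nat_lit 846) (nat_lit 420) (nat_lit 0) (XT.nd (nat_lit 376) (nat_lit 252) (nat_lit 0) (XT.nd (nat_lit 188) (nat_lit 252) (nat_lit 0) (XT.nd (nat_lit 94) (nat_lit 0) (nat_lit 0) (XT.lf (nat_lit 0) (nat_lit 2710757039) (nat_lit 252) (nat_lit 10341992076) (nat_lit 84) (nat_lit 825547083) (nat_lit 23) (nat_lit 5) (nat_lit 26) (nat_lit 5) (nat_lit 24) (nat_lit 5) (nat_lit 348) (nat_lit 278) (nat_lit 235)) (XT.lf (nat_lit 0) (nat_lit 4671622547) (nat_lit 252) (nat_lit 6299245031) (nat_lit 84) (nat_lit 3229751589) (nat_lit 23) (nat_lit 5) (nat_lit 26) (nat_lit 5) (nat_lit 24) (nat_lit 5) (nat_lit 349) (nat_lit 278) (nat_lit 234))) (XT.nd (nat_lit 94) (nat_lit 252) (nat_lit 0) (XT.lf (nat_lit 0) (nat_lit 6660894333) (nat_lit 252) (nat_lit 2176362569) (nat_lit 84) (nat_lit 5696809327) (nat_lit 23) (nat_lit 5) (nat_lit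 26) (nat_lit 5) (nat_lit 24) (nat_lit 5) (nat_lit 350) (nat_lit 278) (nat_lit 233)) (XT.lf (nat_lit 0) (nat_lit 2072249476) (nat_lit 252) (nat_lit 6628734099) (nat_lit 336) (nat_lit 6177327347) (nat_lit 20) (nat_lit 5) (nat_lit 23) (nat_lit 5) (nat_lit 24) (nat_lit 5) (nat_lit 351) (nat_lit 278) (nat_lit 232)))) (XT.nd (nat_lit 188) (nat_lit 252) (nat_lit 0) (XT.nd (nat_lit 94) (nat_lit 0) (nat_lit 0) (XT.lf (nat_lit 0) (nat_lit 6455319006) (nat_lit 252) (nat_lit 4340820334) (nat_lit 336) (nat_lit 4437462006) (nat_lit 20) (nat_lit 5) (nat_lit 23) (nat_lit 5) (nat_lit 24) (nat_lit 5) (nat_lit 352) (nat_lit 278) (nat_lit 231)) (XT.lf (nat_lit 0) (nat_lit 10932181024) (nat_lit 252) (nat_lit 1994099794) (nat_lit 336) (nat_lit 2674670899) (nat_lit 20) (nat_lit 5) (nat_lit 23) (nat_lit 5) (nat_lit 24) (nat_lit 5) (nat_lit 353) (nat_lit 278) (nat_lit 230))) (XT.nd (nat_lit 94) (nat_lit 252) (nat_lit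 0) (XT.lf (nat_lit 0) (nat_lit 15097496632) (nat_lit 336) (nat_lit 477799121) (nat_lit 84) (nat_lit 405281491) (nat_lit 20) (nat_lit 5) (nat_lit 24) (nat_lit 5) (nat_lit 21) (nat_lit 4) (nat_lit 354) (nat_lit 278) (nat_lit 229)) (XT.nd (nat_lit 94) (nat_lit 0) (nat_lit 0) (XT.lf (nat_lit 0) (nat_lit 975212702) (nat_lit 252) (nat_lit 12521005295) (nat_lit 84) (nat_lit 2874615307) (nat_lit 17) (nat_lit 5) (nat_lit 20) (nat_lit 5) (nat_lit 18) (nat_lit 5) (nat_lit 355) (nat_lit 278) (nat_lit 228)) (XT.lf (nat_lit 0) (nat_lit 2849569506) (nat_lit 252) (nat_lit 8501110405) (nat_lit 84) (nat_lit 5423050199) (nat_lit 17) (nat_lit 5) (nat_lit 20) (nat_lit 5) (nat_lit 18) (nat_lit 5) (nat_lit 356) (nat_lit 278) (nat_lit 227)))))) (XT.nd (nat_lit 376) (nat_lit 252) (nat_lit 0) (XT.nd (nat_lit 188) (nat_lit 168) (nat_lit 0) (XT.nd (nat_lit 94) (nat_lit 0) (nat_lit 0) (XT.lf (nat_lit 0) (nat_lit 4754642239)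 (nat_lit 252) (nat_lit 4396109478) (nat_lit 84) (nat_lit 8039314547) (nat_lit 17) (nat_lit 5) (nat_lit 20) (nat_lit 5) (nat_lit 18) (nat_lit 5) (nat_lit 357) (nat_lit 278) (nat_lit 226)) (XT.lf (nat_lit 0) (nat_lit 6692206631) (nat_lit 252) (nat_lit 202176222) (nat_lit 84) (nat_lit 10725846981) (nat_lit 17) (nat_lit 5) (nat_lit 20) (nat_lit 5) (nat_lit 18) (nat_lit 5) (nat_lit 358) (nat_lit 278) (nat_lit 225))) (XT.nd (nat_lit 94) (nat_lit 0) (nat_lit 0) (XT.lf (nat_lit 0) (nat_lit 4168586270) (nat_lit 168) (nat_lit 4536835315) (nat_lit 252) (nat_lit 9357918255) (nat_lit 15) (nat_lit 5) (nat_lit 17) (nat_lit 5) (nat_lit 18) (nat_lit 5) (nat_lit 359) (nat_lit 278) (nat_lit 224)) (XT.lf (nat_lit 0) (nat_lit 8642334330) (nat_lit 168) (nat_lit 2115465104) (nat_lit 252) (nat_lit 7763199160) (nat_lit 15) (nat_lit 5) (nat_lit 17) (nat_lit 5) (nat_lit 18) (nat_lit 5) (nat_lit 360) (nat_lit 278)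 (nat_lit 223)))) (XT.nd (nat_lit 188) (nat_lit 252) (nat_lit 0) (XT.nd (nat_lit 94) (nat_lit 0) (nat_lit 0) (XT.lf (nat_lit 0) (nat_lit 12852875557) (nat_lit 252) (nat_lit 5778284535) (nat_lit 84) (nat_lit 362422297) (nat_lit 15) (nat_lit 5) (nat_lit 18) (nat_lit 5) (nat_lit 16) (nat_lit 4) (nat_lit 361) (nat_lit 278) (nat_lit 222)) (XT.lf (nat_lit 0) (nat_lit 15010573405) (nat_lit 252) (nat_lit 1607763020) (nat_lit 84) (nat_lit 2862638212) (nat_lit 15) (nat_lit 5) (nat_lit 18) (nat_lit 5) (nat_lit 16) (nat_lit 4) (nat_lit 362) (nat_lit 278) (nat_lit 221))) (XT.nd (nat_lit 94) (nat_lit 84) (nat_lit 0) (XT.lf (nat_lit 0) (nat_lit 2712422590) (nat_lit 168) (nat_lit 14526403479) (nat_lit 252) (nat_lit 2744619988) (nat_lit 13) (nat_lit 5) (nat_lit 15) (nat_lit 5) (nat_lit 16) (nat_lit 4) (nat_lit 363) (nat_lit 278) (nat_lit 220)) (XT.nd (nat_lit 94) (nat_lit 84) (nat_lit 0) (XT.lf (nat_lit 0)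 (nat_lit 7166693311) (nat_lit 168) (nat_lit 12363363905) (nat_lit 252) (nat_lit 971707041) (nat_lit 13) (nat_lit 5) (nat_lit 15) (nat_lit 5) (nat_lit 16) (nat_lit 4) (nat_lit 364) (nat_lit 278) (nat_lit 219)) (XT.lf (nat_lit 0) (nat_lit 816421106) (nat_lit 252) (nat_lit 9319040405) (nat_lit 84) (nat_lit 10901199215) (nat_lit 12) (nat_lit 5) (nat_lit 15) (nat_lit 5) (nat_lit 13) (nat_lit 5) (nat_lit 365) (nat_lit 278) (nat_lit 218))))))) (XT.nd (nat_lit 48692) (nat_lit 0) (nat_lit 5628) (XT.nd (nat_lit 48222) (nat_lit 0) (nat_lit 9744) (XT.nd (nat_lit 188) (nat_lit 168) (nat_lit 0) (XT.nd (nat_lit 94) (nat_lit 0) (nat_lit 0) (XT.lf (nat_lit 0) (nat_lit 2617977711) (nat_lit 252) (nat_lit 5220888859) (nat_lit 84) (nat_lit 13749714762) (nat_lit 12) (nat_lit 5) (nat_lit 15) (nat_lit 5) (nat_lit 13) (nat_lit 5) (nat_lit 366) (nat_lit 278) (nat_lit 217)) (XT.lf (nat_lit 0) (nat_lit 4454219744)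 (nat_lit 252) (nat_lit 1027156946) (nat_lit 84) (nat_lit 16676962653) (nat_lit 12) (nat_lit 5) (nat_lit 15) (nat_lit 5) (nat_lit 13) (nat_lit 5) (nat_lit 367) (nat_lit 278) (nat_lit 216))) (XT.nd (nat_lit 47940) (nat_lit 0) (nat_lit 11928) (XT.lf (nat_lit 0) (nat_lit 3333221310) (nat_lit 168) (nat_lit 3026703434) (nat_lit 252) (nat_lit 16385516047) (nat_lit 10) (nat_lit 5) (nat_lit 12) (nat_lit 5) (nat_lit 13) (nat_lit 5) (nat_lit 368) (nat_lit 278) (nat_lit 215)) (XT.lf (nat_lit 0) (nat_lit 1629191334) (nat_lit 588) (nat_lit 136380259) (nat_lit 0) (nat_lit 1629191334) (nat_lit 152) (nat_lit 5) (nat_lit 159) (nat_lit 4) (nat_lit 152) (nat_lit 4) (nat_lit 303) (nat_lit 279) (nat_lit 279)))) (XT.nd (nat_lit 188) (nat_lit 1512) (nat_lit 0) (XT.nd (nat_lit 94) (nat_lit 84) (nat_lit 0) (XT.lf (nat_lit 0) (nat_lit 3052855191) (nat_lit 588) (nat_lit 2735828383) (nat_lit 588) (nat_lit 1047569915)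 (nat_lit 145) (nat_lit 4) (nat_lit 152) (nat_lit 5) (nat_lit 152) (nat_lit 4) (nat_lit 304) (nat_lit 279) (nat_lit 278)) (XT.lf (nat_lit 0) (nat_lit 1400641754) (nat_lit 672) (nat_lit 481051154) (nat_lit 84) (nat_lit 5005476435) (nat_lit 144) (nat_lit 5) (nat_lit 152) (nat_lit 5) (nat_lit 145) (nat_lit 4) (nat_lit 305) (nat_lit 279) (nat_lit 277))) (XT.nd (nat_lit 94) (nat_lit 840) (nat_lit 0) (XT.lf (nat_lit 0) (nat_lit 2904530758) (nat_lit 672) (nat_lit 945073054) (nat_lit 756) (nat_lit 3092029484) (nat_lit 136) (nat_lit 5) (nat_lit 144) (nat_lit 5) (nat_lit 145) (nat_lit 4) (nat_lit 306) (nat_lit 279) (nat_lit 276)) (XT.nd (nat_lit 94) (nat_lit 840) (nat_lit 0) (XT.lf (nat_lit 0) (nat_lit 6299517593) (nat_lit 756) (nat_lit 662147072) (nat_lit 0) (nat_lit 39072416) (nat_lit 136) (nat_lit 5) (nat_lit 145) (nat_lit 4) (nat_lit 136) (nat_lit 4) (nat_lit 307) (nat_lit 279) (nat_lit 275)) (XT.lf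 (nat_lit 0) (nat_lit 1686740278) (nat_lit 840) (nat_lit 4283933351) (nat_lit 84) (nat_lit 1092331755) (nat_lit 126) (nat_lit 5) (nat_lit 136) (nat_lit 5) (nat_lit 127) (nat_lit 4) (nat_lit 308) (nat_lit 279) (nat_lit 274)))))) (XT.nd (nat_lit 470) (nat_lit 2268) (nat_lit 0) (XT.nd (nat_lit 188) (nat_lit 1008) (nat_lit 0) (XT.nd (nat_lit 94) (nat_lit 840) (nat_lit 0) (XT.lf (nat_lit 0) (nat_lit 4063633579) (nat_lit 840) (nat_lit 862144607) (nat_lit 84) (nat_lit 2203962419) (nat_lit 126) (nat_lit 5) (nat_lit 136) (nat_lit 5) (nat_lit 127) (nat_lit 4) (nat_lit 309) (nat_lit 279) (nat_lit 273)) (XT.lf (nat_lit 0) (nat_lit 2652311540) (nat_lit 840) (nat_lit 3813031450) (nat_lit 924) (nat_lit 735271890) (nat_lit 116) (nat_lit 5) (nat_lit 126) (nat_lit 5) (nat_lit 127) (nat_lit 4) (nat_lit 310) (nat_lit 279) (nat_lit 272))) (XT.nd (nat_lit 94) (nat_lit 924) (nat_lit 0) (XT.lf (nat_lit 0) (nat_lit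 1568452264) (nat_lit 924) (nat_lit 1064282558) (nat_lit 84) (nat_lit 4642999697) (nat_lit 115) (nat_lit 5) (nat_lit 126) (nat_lit 5) (nat_lit 116) (nat_lit 5) (nat_lit 311) (nat_lit 279) (nat_lit 271)) (XT.nd (nat_lit 94) (nat_lit 0) (nat_lit 0) (XT.lf (nat_lit 0) (nat_lit 2504503392) (nat_lit 924) (nat_lit 1376055773) (nat_lit 1008) (nat_lit 3474377880) (nat_lit 104) (nat_lit 5) (nat_lit 115) (nat_lit 5) (nat_lit 116) (nat_lit 5) (nat_lit 312) (nat_lit 279) (nat_lit 270)) (XT.lf (nat_lit 0) (nat_lit 6140974412) (nat_lit 924) (nat_lit 63404737) (nat_lit 1008) (nat_lit 1234566056) (nat_lit 104) (nat_lit 5) (nat_lit 115) (nat_lit 5) (nat_lit 116) (nat_lit 5) (nat_lit 313) (nat_lit 279) (nat_lit 269))))) (XT.nd (nat_lit 188) (nat_lit 1176) (nat_lit 0) (XT.nd (nat_lit 94) (nat_lit 0) (nat_lit 0) (XT.lf (nat_lit 0) (nat_lit 1019278906) (nat_lit 1092) (nat_lit 5204762939) (nat_lit 84) (nat_lit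 1302693900) (nat_lit 91) (nat_lit 5) (nat_lit 104) (nat_lit 5) (nat_lit 92) (nat_lit 5) (nat_lit 314) (nat_lit 279) (nat_lit 268)) (XT.lf (nat_lit 0) (nat_lit 3263080651) (nat_lit 1092) (nat_lit 1615986442) (nat_lit 84) (nat_lit 2739920072) (nat_lit 91) (nat_lit 5) (nat_lit 104) (nat_lit 5) (nat_lit 92) (nat_lit 5) (nat_lit 315) (nat_lit 279) (nat_lit 267))) (XT.nd (nat_lit 94) (nat_lit 588) (nat_lit 0) (XT.lf (nat_lit 0) (nat_lit 2060180782) (nat_lit 588) (nat_lit 3470156686) (nat_lit 672) (nat_lit 2185625118) (nat_lit 84) (nat_lit 5) (nat_lit 91) (nat_lit 5) (nat_lit 92) (nat_lit 5) (nat_lit 316) (nat_lit 279) (nat_lit 266)) (XT.nd (nat_lit 94) (nat_lit 504) (nat_lit 0) (XT.lf (nat_lit 0) (nat_lit 1667418) (nat_lit 672) (nat_lit 1998021124) (nat_lit 84) (nat_lit 5818174843) (nat_lit 83) (nat_lit 5) (nat_lit 91) (nat_lit 5) (nat_lit 84) (nat_lit 5) (nat_lit 317) (nat_lit 279) (nat_lit 265))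 (XT.lf (nat_lit 0) (nat_lit 1720969617) (nat_lit 504) (nat_lit 443199093) (nat_lit 588) (nat_lit 5759921481) (nat_lit 77) (nat_lit 5) (nat_lit 83) (nat_lit 5) (nat_lit 84) (nat_lit 5) (nat_lit 318) (nat_lit 279) (nat_lit 264))))))))
noncomputable def xc29 : XT := (XT.nd (nat_lit 1786) (nat_lit 1680) (nat_lit 0) (XT.nd (nat_lit 846) (nat_lit 1512) (nat_lit 0) (XT.nd (nat_lit 376) (nat_lit 840) (nat_lit 0) (XT.nd (nat_lit 188) (nat_lit 504) (nat_lit 0) (XT.nd (nat_lit 94) (nat_lit 504) (nat_lit 0) (XT.lf (nat_lit 0) (nat_lit 4363320495) (nat_lit 588) (nat_lit 2513249555) (nat_lit 84) (nat_lit 1158366988) (nat_lit 77) (nat_lit 5) (nat_lit 84) (nat_lit 5) (nat_lit 78) (nat_lit 5) (nat_lit 319) (nat_lit 279) (nat_lit 263)) (XT.lf (nat_lit 0) (nat_lit 1247440733) (nat_lit 504) (nat_lit 5339028299) (nat_lit 588) (nat_lit 1564494027) (nat_lit 71) (nat_lit 5) (nat_lit 77) (nat_lit 5) (nat_lit 78)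 (nat_lit 5) (nat_lit 320) (nat_lit 279) (nat_lit 262))) (XT.nd (nat_lit 94) (nat_lit 420) (nat_lit 0) (XT.lf (nat_lit 0) (nat_lit 561356597) (nat_lit 588) (nat_lit 3163199693) (nat_lit 84) (nat_lit 4547258616) (nat_lit 70) (nat_lit 5) (nat_lit 77) (nat_lit 5) (nat_lit 71) (nat_lit 5) (nat_lit 321) (nat_lit 279) (nat_lit 261)) (XT.lf (nat_lit 0) (nat_lit 626533325) (nat_lit 420) (nat_lit 2041276484) (nat_lit 504) (nat_lit 5730084888) (nat_lit 65) (nat_lit 5) (nat_lit 70) (nat_lit 5) (nat_lit 71) (nat_lit 5) (nat_lit 322) (nat_lit 279) (nat_lit 260)))) (XT.nd (nat_lit 188) (nat_lit 840) (nat_lit 0) (XT.nd (nat_lit 94) (nat_lit 0) (nat_lit 0) (XT.lf (nat_lit 0) (nat_lit 4538283923) (nat_lit 420) (nat_lit 276434872) (nat_lit 504) (nat_lit 3714264849) (nat_lit 65) (nat_lit 5) (nat_lit 70) (nat_lit 5) (nat_lit 71) (nat_lit 5) (nat_lit 323) (nat_lit 279) (nat_lit 259)) (XT.lf (nat_lit 0) (nat_lit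 6987323205) (nat_lit 504) (nat_lit 170803372) (nat_lit 84) (nat_lit 1507596961) (nat_lit 65) (nat_lit 5) (nat_lit 71) (nat_lit 5) (nat_lit 66) (nat_lit 5) (nat_lit 324) (nat_lit 279) (nat_lit 258))) (XT.nd (nat_lit 94) (nat_lit 336) (nat_lit 0) (XT.lf (nat_lit 0) (nat_lit 397501080) (nat_lit 504) (nat_lit 5031407823) (nat_lit 84) (nat_lit 3378418351) (nat_lit 59) (nat_lit 5) (nat_lit 65) (nat_lit 5) (nat_lit 60) (nat_lit 5) (nat_lit 325) (nat_lit 279) (nat_lit 257)) (XT.nd (nat_lit 94) (nat_lit 336) (nat_lit 0) (XT.lf (nat_lit 0) (nat_lit 2450413553) (nat_lit 504) (nat_lit 1183405381) (nat_lit 84) (nat_lit 5320888922) (nat_lit 59) (nat_lit 5) (nat_lit 65) (nat_lit 5) (nat_lit 60) (nat_lit 5) (nat_lit 326) (nat_lit 279) (nat_lit 256)) (XT.lf (nat_lit 0) (nat_lit 2780183610) (nat_lit 336) (nat_lit 1761715877) (nat_lit 420) (nat_lit 4565818559) (nat_lit 55) (nat_lit 5) (nat_lit 59) (nat_lit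 5) (nat_lit 60) (nat_lit 5) (nat_lit 327) (nat_lit 279) (nat_lit 255)))))) (XT.nd (nat_lit 470) (nat_lit 672) (nat_lit 0) (XT.nd (nat_lit 188) (nat_lit 420) (nat_lit 0) (XT.nd (nat_lit 94) (nat_lit 420) (nat_lit 0) (XT.lf (nat_lit 0) (nat_lit 6660646889) (nat_lit 420) (nat_lit 2436068083) (nat_lit 84) (nat_lit 170196582) (nat_lit 55) (nat_lit 5) (nat_lit 60) (nat_lit 5) (nat_lit 56) (nat_lit 5) (nat_lit 328) (nat_lit 279) (nat_lit 254)) (XT.lf (nat_lit 0) (nat_lit 1529754430) (nat_lit 420) (nat_lit 7298345795) (nat_lit 504) (nat_lit 603732983) (nat_lit 50) (nat_lit 5) (nat_lit 55) (nat_lit 5) (nat_lit 56) (nat_lit 5) (nat_lit 329) (nat_lit 279) (nat_lit 253))) (XT.nd (nat_lit 94) (nat_lit 336) (nat_lit 0) (XT.lf (nat_lit 0) (nat_lit 1407133598) (nat_lit 504) (nat_lit 4005433756) (nat_lit 84) (nat_lit 4189855543) (nat_lit 49) (nat_lit 5) (nat_lit 55) (nat_lit 5) (nat_lit 50) (nat_lit 5) (nat_lit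 330) (nat_lit 279) (nat_lit 252)) (XT.nd (nat_lit 94) (nat_lit 336) (nat_lit 0) (XT.lf (nat_lit 0) (nat_lit 3419301635) (nat_lit 504) (nat_lit 52133789) (nat_lit 84) (nat_lit 6308420907) (nat_lit 49) (nat_lit 5) (nat_lit 55) (nat_lit 5) (nat_lit 50) (nat_lit 5) (nat_lit 331) (nat_lit 279) (nat_lit 251)) (XT.lf (nat_lit 0) (nat_lit 4049074956) (nat_lit 336) (nat_lit 1437902922) (nat_lit 420) (nat_lit 4476261495) (nat_lit 45) (nat_lit 5) (nat_lit 49) (nat_lit 5) (nat_lit 50) (nat_lit 5) (nat_lit 332) (nat_lit 279) (nat_lit 250))))) (XT.nd (nat_lit 188) (nat_lit 336) (nat_lit 0) (XT.nd (nat_lit 94) (nat_lit 336) (nat_lit 0) (XT.lf (nat_lit 0) (nat_lit 7579567715) (nat_lit 420) (nat_lit 1937524312) (nat_lit 84) (nat_lit 636659104) (nat_lit 45) (nat_lit 5) (nat_lit 50) (nat_lit 5) (nat_lit 46) (nat_lit 5) (nat_lit 333) (nat_lit 279) (nat_lit 249)) (XT.lf (nat_lit 0) (nat_lit 2135204761) (nat_lit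 336) (nat_lit 7592833938) (nat_lit 420) (nat_lit 622630957) (nat_lit 41) (nat_lit 5) (nat_lit 45) (nat_lit 5) (nat_lit 46) (nat_lit 5) (nat_lit 334) (nat_lit 279) (nat_lit 248))) (XT.nd (nat_lit 94) (nat_lit 252) (nat_lit 0) (XT.lf (nat_lit 0) (nat_lit 1337121933) (nat_lit 420) (nat_lit 4247859990) (nat_lit 84) (nat_lit 4969245952) (nat_lit 40) (nat_lit 5) (nat_lit 45) (nat_lit 5) (nat_lit 41) (nat_lit 5) (nat_lit 335) (nat_lit 279) (nat_lit 247)) (XT.nd (nat_lit 94) (nat_lit 252) (nat_lit 0) (XT.lf (nat_lit 0) (nat_lit 3301304122) (nat_lit 420) (nat_lit 218008709) (nat_lit 84) (nat_lit 7246134022) (nat_lit 40) (nat_lit 5) (nat_lit 45) (nat_lit 5) (nat_lit 41) (nat_lit 5) (nat_lit 336) (nat_lit 279) (nat_lit 246)) (XT.lf (nat_lit 0) (nat_lit 3963885219) (nat_lit 252) (nat_lit 1359728072) (nat_lit 336) (nat_lit 5659882663) (nat_lit 37) (nat_lit 5) (nat_lit 40) (nat_lit 5) (nat_lit 41) (nat_lit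 5) (nat_lit 337) (nat_lit 279) (nat_lit 245))))))) (XT.nd (nat_lit 846) (nat_lit 756) (nat_lit 0) (XT.nd (nat_lit 376) (nat_lit 504) (nat_lit 0) (XT.nd (nat_lit 188) (nat_lit 84) (nat_lit 0) (XT.nd (nat_lit 94) (nat_lit 336) (nat_lit 0) (XT.lf (nat_lit 0) (nat_lit 7378066359) (nat_lit 336) (nat_lit 2990393125) (nat_lit 84) (nat_lit 840982848) (nat_lit 37) (nat_lit 5) (nat_lit 41) (nat_lit 5) (nat_lit 38) (nat_lit 5) (nat_lit 338) (nat_lit 279) (nat_lit 244)) (XT.lf (nat_lit 0) (nat_lit 1120432007) (nat_lit 336) (nat_lit 8360597955) (nat_lit 420) (nat_lit 1962018629) (nat_lit 33) (nat_lit 5) (nat_lit 37) (nat_lit 5) (nat_lit 38) (nat_lit 5) (nat_lit 339) (nat_lit 279) (nat_lit 243))) (XT.nd (nat_lit 94) (nat_lit 84) (nat_lit 0) (XT.lf (nat_lit 0) (nat_lit 5370647974) (nat_lit 336) (nat_lit 6270250301) (nat_lit 420) (nat_lit 43434749) (nat_lit 33) (nat_lit 5) (nat_lit 37) (nat_lit 5) (nat_lit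 38) (nat_lit 5) (nat_lit 340) (nat_lit 279) (nat_lit 242)) (XT.lf (nat_lit 0) (nat_lit 1856771388) (nat_lit 420) (nat_lit 2250529395) (nat_lit 84) (nat_lit 7826575532) (nat_lit 32) (nat_lit 5) (nat_lit 37) (nat_lit 5) (nat_lit 33) (nat_lit 5) (nat_lit 341) (nat_lit 279) (nat_lit 241)))) (XT.nd (nat_lit 188) (nat_lit 252) (nat_lit 0) (XT.nd (nat_lit 94) (nat_lit 0) (nat_lit 0) (XT.lf (nat_lit 0) (nat_lit 1927645867) (nat_lit 252) (nat_lit 1868751740) (nat_lit 336) (nat_lit 8395483947) (nat_lit 29) (nat_lit 5) (nat_lit 32) (nat_lit 5) (nat_lit 33) (nat_lit 5) (nat_lit 342) (nat_lit 279) (nat_lit 240)) (XT.lf (nat_lit 0) (nat_lit 5787066221) (nat_lit 336) (nat_lit 6228722351) (nat_lit 84) (nat_lit 442536895) (nat_lit 29) (nat_lit 5) (nat_lit 33) (nat_lit 5) (nat_lit 30) (nat_lit 5) (nat_lit 343) (nat_lit 279) (nat_lit 239))) (XT.nd (nat_lit 94) (nat_lit 252) (nat_lit 0) (XT.lf (nat_lit 0) (nat_lit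 7822502211) (nat_lit 336) (nat_lit 2135740066) (nat_lit 84) (nat_lit 2775466176) (nat_lit 29) (nat_lit 5) (nat_lit 33) (nat_lit 5) (nat_lit 30) (nat_lit 5) (nat_lit 344) (nat_lit 279) (nat_lit 238)) (XT.nd (nat_lit 94) (nat_lit 0) (nat_lit 0) (XT.lf (nat_lit 0) (nat_lit 2078950728) (nat_lit 252) (nat_lit 7827737290) (nat_lit 336) (nat_lit 3111534542) (nat_lit 26) (nat_lit 5) (nat_lit 29) (nat_lit 5) (nat_lit 30) (nat_lit 5) (nat_lit 345) (nat_lit 279) (nat_lit 237)) (XT.lf (nat_lit 0) (nat_lit 6422989782) (nat_lit 252) (nat_lit 5620403824) (nat_lit 336) (nat_lit 1268682729) (nat_lit 26) (nat_lit 5) (nat_lit 29) (nat_lit 5) (nat_lit 30) (nat_lit 5) (nat_lit 346) (nat_lit 279) (nat_lit 236)))))) (XT.nd (nat_lit 470) (nat_lit 504) (nat_lit 0) (XT.nd (nat_lit 188) (nat_lit 0) (nat_lit 0) (XT.nd (nat_lit 94) (nat_lit 168) (nat_lit 0) (XT.lf (nat_lit 0) (nat_lit 584750509) (nat_lit 336) (nat_lit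 2765623055) (nat_lit 84) (nat_lit 10265656894) (nat_lit 25) (nat_lit 5) (nat_lit 29) (nat_lit 5) (nat_lit 26) (nat_lit 5) (nat_lit 347) (nat_lit 279) (nat_lit 235)) (XT.lf (nat_lit 0) (nat_lit 1457424628) (nat_lit 168) (nat_lit 993509244) (nat_lit 252) (nat_lit 11478772235) (nat_lit 23) (nat_lit 5) (nat_lit 25) (nat_lit 5) (nat_lit 26) (nat_lit 5) (nat_lit 348) (nat_lit 279) (nat_lit 234))) (XT.nd (nat_lit 94) (nat_lit 0) (nat_lit 0) (XT.lf (nat_lit 0) (nat_lit 4386000488) (nat_lit 252) (nat_lit 8441928695) (nat_lit 84) (nat_lit 1424962821) (nat_lit 23) (nat_lit 5) (nat_lit 26) (nat_lit 5) (nat_lit 24) (nat_lit 5) (nat_lit 349) (nat_lit 279) (nat_lit 233)) (XT.nd (nat_lit 94) (nat_lit 0) (nat_lit 0) (XT.lf (nat_lit 0) (nat_lit 6359808492) (nat_lit 252) (nat_lit 4340627219) (nat_lit 84) (nat_lit 3886443994) (nat_lit 23) (nat_lit 5) (nat_lit 26) (nat_lit 5) (nat_lit 24) (nat_lit 5) (nat_lit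 350) (nat_lit 279) (nat_lit 232)) (XT.lf (nat_lit 0) (nat_lit 8364341946) (nat_lit 252) (nat_lit 154698472) (nat_lit 84) (nat_lit 6413245630) (nat_lit 23) (nat_lit 5) (nat_lit 26) (nat_lit 5) (nat_lit 24) (nat_lit 5) (nat_lit 351) (nat_lit 279) (nat_lit 231))))) (XT.nd (nat_lit 188) (nat_lit 252) (nat_lit 0) (XT.nd (nat_lit 94) (nat_lit 0) (nat_lit 0) (XT.lf (nat_lit 0) (nat_lit 4204469968) (nat_lit 252) (nat_lit 6238708179) (nat_lit 336) (nat_lit 4844961866) (nat_lit 20) (nat_lit 5) (nat_lit 23) (nat_lit 5) (nat_lit 24) (nat_lit 5) (nat_lit 352) (nat_lit 279) (nat_lit 230)) (XT.lf (nat_lit 0) (nat_lit 8661234825) (nat_lit 252) (nat_lit 3897775021) (nat_lit 336) (nat_lit 3096980042) (nat_lit 20) (nat_lit 5) (nat_lit 23) (nat_lit 5) (nat_lit 24) (nat_lit 5) (nat_lit 353) (nat_lit 279) (nat_lit 229))) (XT.nd (nat_lit 94) (nat_lit 252) (nat_lit 0) (XT.lf (nat_lit 0) (nat_lit 13216569352) (nat_lit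 252) (nat_lit 1495673683) (nat_lit 336) (nat_lit 1323984061) (nat_lit 20) (nat_lit 5) (nat_lit 23) (nat_lit 5) (nat_lit 24) (nat_lit 5) (nat_lit 354) (nat_lit 279) (nat_lit 228)) (XT.nd (nat_lit 94) (nat_lit 0) (nat_lit 0) (XT.lf (nat_lit 0) (nat_lit 490499911) (nat_lit 252) (nat_lit 14968005485) (nat_lit 84) (nat_lit 969797826) (nat_lit 17) (nat_lit 5) (nat_lit 20) (nat_lit 5) (nat_lit 18) (nat_lit 5) (nat_lit 355) (nat_lit 279) (nat_lit 227)) (XT.lf (nat_lit 0) (nat_lit 2351371175) (nat_lit 252) (nat_lit 10967564413) (nat_lit 84) (nat_lit 3512731967) (nat_lit 17) (nat_lit 5) (nat_lit 20) (nat_lit 5) (nat_lit 18) (nat_lit 5) (nat_lit 356) (nat_lit 279) (nat_lit 226))))))))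
noncomputable def xc30 : XT := (XT.nd (nat_lit 49350) (nat_lit 0) (nat_lit 4116) (XT.nd (nat_lit 846) (nat_lit 168) (nat_lit 0) (XT.nd (nat_lit 376) (nat_lit 252) (nat_lit 0) (XT.nd (nat_lit 188) (nat_lit 168) (nat_lit 0) (XT.nd (nat_lit 94) (nat_lit 0) (nat_lit 0) (XT.lf (nat_lit 0) (nat_lit 4243363852) (nat_lit 252) (nat_lit 6881432368) (nat_lit 84) (nat_lit 6123660959) (nat_lit 17) (nat_lit 5) (nat_lit 20) (nat_lit 5) (nat_lit 18) (nat_lit 5) (nat_lit 357) (nat_lit 279) (nat_lit 225)) (XT.lf (nat_lit 0) (nat_lit 6168241475) (nat_lit 252) (nat_lit 2705800647) (nat_lit 84) (nat_lit 8805018461) (nat_lit 17) (nat_lit 5) (nat_lit 20) (nat_lit 5) (nat_lit 18) (nat_lit 5) (nat_lit 358) (nat_lit 279) (nat_lit 224))) (XT.nd (nat_lit 94) (nat_lit 0) (nat_lit 0) (XT.lf (nat_lit 0) (nat_lit 1595365944) (nat_lit 168) (nat_lit 6548258517) (nat_lit 252) (nat_lit 9979764063) (nat_lit 15) (nat_lit 5)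 (nat_lit 17) (nat_lit 5) (nat_lit 18) (nat_lit 5) (nat_lit 359) (nat_lit 279) (nat_lit 223)) (XT.lf (nat_lit 0) (nat_lit 6051542473) (nat_lit 168) (nat_lit 4132350216) (nat_lit 252) (nat_lit 8397573774) (nat_lit 15) (nat_lit 5) (nat_lit 17) (nat_lit 5) (nat_lit 18) (nat_lit 5) (nat_lit 360) (nat_lit 279) (nat_lit 222)))) (XT.nd (nat_lit 188) (nat_lit 252) (nat_lit 0) (XT.nd (nat_lit 94) (nat_lit 0) (nat_lit 0) (XT.lf (nat_lit 0) (nat_lit 10611245752) (nat_lit 168) (nat_lit 1652308351) (nat_lit 252) (nat_lit 6791016484) (nat_lit 15) (nat_lit 5) (nat_lit 17) (nat_lit 5) (nat_lit 18) (nat_lit 5) (nat_lit 361) (nat_lit 279) (nat_lit 221)) (XT.lf (nat_lit 0) (nat_lit 14393417526) (nat_lit 252) (nat_lit 4273286339) (nat_lit 84) (nat_lit 876163030) (nat_lit 15) (nat_lit 5) (nat_lit 18) (nat_lit 5) (nat_lit 16) (nat_lit 4) (nat_lit 362) (nat_lit 279) (nat_lit 220))) (XT.nd (nat_lit 94) (nat_lit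 252) (nat_lit 0) (XT.lf (nat_lit 0) (nat_lit 16583663379) (nat_lit 252) (nat_lit 24116751) (nat_lit 84) (nat_lit 3438776351) (nat_lit 15) (nat_lit 5) (nat_lit 18) (nat_lit 5) (nat_lit 16) (nat_lit 4) (nat_lit 363) (nat_lit 279) (nat_lit 219)) (XT.nd (nat_lit 94) (nat_lit 84) (nat_lit 0) (XT.lf (nat_lit 0) (nat_lit 4413457025) (nat_lit 168) (nat_lit 14450267111) (nat_lit 252) (nat_lit 1701535582) (nat_lit 13) (nat_lit 5) (nat_lit 15) (nat_lit 5) (nat_lit 16) (nat_lit 4) (nat_lit 364) (nat_lit 279) (nat_lit 218)) (XT.lf (nat_lit 0) (nat_lit 90554062) (nat_lit 252) (nat_lit 12144503439) (nat_lit 84) (nat_lit 8865692614) (nat_lit 12) (nat_lit 5) (nat_lit 15) (nat_lit 5) (nat_lit 13) (nat_lit 5) (nat_lit 365) (nat_lit 279) (nat_lit 217)))))) (XT.nd (nat_lit 48034) (nat_lit 0) (nat_lit 10584) (XT.nd (nat_lit 188) (nat_lit 168) (nat_lit 0) (XT.nd (nat_lit 94) (nat_lit 0) (nat_lit 0) (XT.lf (nat_lit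 0) (nat_lit 1881690762) (nat_lit 252) (nat_lit 8061842947) (nat_lit 84) (nat_lit 11709495390) (nat_lit 12) (nat_lit 5) (nat_lit 15) (nat_lit 5) (nat_lit 13) (nat_lit 5) (nat_lit 366) (nat_lit 279) (nat_lit 216)) (XT.lf (nat_lit 0) (nat_lit 3707826196) (nat_lit 252) (nat_lit 3883136306) (nat_lit 84) (nat_lit 14632172213) (nat_lit 12) (nat_lit 5) (nat_lit 15) (nat_lit 5) (nat_lit 13) (nat_lit 5) (nat_lit 367) (nat_lit 279) (nat_lit 215))) (XT.nd (nat_lit 47752) (nat_lit 0) (nat_lit 11928) (XT.lf (nat_lit 0) (nat_lit 403644003) (nat_lit 168) (nat_lit 5171022707) (nat_lit 252) (nat_lit 17236807520) (nat_lit 10) (nat_lit 5) (nat_lit 12) (nat_lit 5) (nat_lit 13) (nat_lit 5) (nat_lit 368) (nat_lit 279) (nat_lit 214)) (XT.lf (nat_lit 0) (nat_lit 8824582) (nat_lit 588) (nat_lit 3335597960) (nat_lit 0) (nat_lit 8824582) (nat_lit 152) (nat_lit 5) (nat_lit 159) (nat_lit 4) (nat_lit 152) (nat_lit 4)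 (nat_lit 301) (nat_lit 280) (nat_lit 280)))) (XT.nd (nat_lit 188) (nat_lit 1344) (nat_lit 0) (XT.nd (nat_lit 94) (nat_lit 0) (nat_lit 0) (XT.lf (nat_lit 0) (nat_lit 2491571826) (nat_lit 588) (nat_lit 3503990481) (nat_lit 0) (nat_lit 750977346) (nat_lit 152) (nat_lit 5) (nat_lit 159) (nat_lit 4) (nat_lit 152) (nat_lit 4) (nat_lit 302) (nat_lit 280) (nat_lit 279)) (XT.lf (nat_lit 0) (nat_lit 4957067408) (nat_lit 588) (nat_lit 305892281) (nat_lit 0) (nat_lit 1528214460) (nat_lit 152) (nat_lit 5) (nat_lit 159) (nat_lit 4) (nat_lit 152) (nat_lit 4) (nat_lit 303) (nat_lit 280) (nat_lit 278))) (XT.nd (nat_lit 94) (nat_lit 672) (nat_lit 0) (XT.lf (nat_lit 0) (nat_lit 594316570) (nat_lit 672) (nat_lit 3859292082) (nat_lit 84) (nat_lit 2385725823) (nat_lit 144) (nat_lit 5) (nat_lit 152) (nat_lit 5) (nat_lit 145) (nat_lit 4) (nat_lit 304) (nat_lit 280) (nat_lit 277)) (XT.nd (nat_lit 94) (nat_lit 672)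 (nat_lit 0) (XT.lf (nat_lit 0) (nat_lit 2980950851) (nat_lit 672) (nat_lit 600297885) (nat_lit 84) (nat_lit 3310252585) (nat_lit 144) (nat_lit 5) (nat_lit 152) (nat_lit 5) (nat_lit 145) (nat_lit 4) (nat_lit 305) (nat_lit 280) (nat_lit 276)) (XT.lf (nat_lit 0) (nat_lit 2750204843) (nat_lit 672) (nat_lit 2638922828) (nat_lit 756) (nat_lit 1558410908) (nat_lit 136) (nat_lit 5) (nat_lit 144) (nat_lit 5) (nat_lit 145) (nat_lit 4) (nat_lit 306) (nat_lit 280) (nat_lit 275))))))) (XT.nd (nat_lit 846) (nat_lit 2688) (nat_lit 0) (XT.nd (nat_lit 376) (nat_lit 2016) (nat_lit 0) (XT.nd (nat_lit 188) (nat_lit 924) (nat_lit 0) (XT.nd (nat_lit 94) (nat_lit 756) (nat_lit 0) (XT.lf (nat_lit 0) (nat_lit 776154283) (nat_lit 756) (nat_lit 862976454) (nat_lit 84) (nat_lit 5368769995) (nat_lit 135) (nat_lit 5) (nat_lit 144) (nat_lit 5) (nat_lit 136) (nat_lit 5) (nat_lit 307) (nat_lit 280) (nat_lit 274)) (XT.lf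 (nat_lit 0) (nat_lit 2545599002) (nat_lit 756) (nat_lit 553399270) (nat_lit 840) (nat_lit 3972817662) (nat_lit 126) (nat_lit 5) (nat_lit 135) (nat_lit 5) (nat_lit 136) (nat_lit 5) (nat_lit 308) (nat_lit 280) (nat_lit 273))) (XT.nd (nat_lit 94) (nat_lit 924) (nat_lit 0) (XT.lf (nat_lit 0) (nat_lit 5433386108) (nat_lit 840) (nat_lit 1131851356) (nat_lit 84) (nat_lit 574904807) (nat_lit 126) (nat_lit 5) (nat_lit 136) (nat_lit 5) (nat_lit 127) (nat_lit 4) (nat_lit 309) (nat_lit 280) (nat_lit 272)) (XT.lf (nat_lit 0) (nat_lit 571890432) (nat_lit 924) (nat_lit 4873799968) (nat_lit 84) (nat_lit 1766619530) (nat_lit 115) (nat_lit 5) (nat_lit 126) (nat_lit 5) (nat_lit 116) (nat_lit 5) (nat_lit 310) (nat_lit 280) (nat_lit 271)))) (XT.nd (nat_lit 188) (nat_lit 1092) (nat_lit 0) (XT.nd (nat_lit 94) (nat_lit 924) (nat_lit 0) (XT.lf (nat_lit 0) (nat_lit 2825052413) (nat_lit 924) (nat_lit 1429657879) (nat_lit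 84) (nat_lit 3033850868) (nat_lit 115) (nat_lit 5) (nat_lit 126) (nat_lit 5) (nat_lit 116) (nat_lit 5) (nat_lit 311) (nat_lit 280) (nat_lit 270)) (XT.lf (nat_lit 0) (nat_lit 2099360391) (nat_lit 924) (nat_lit 2999106641) (nat_lit 1008) (nat_lit 2270738126) (nat_lit 104) (nat_lit 5) (nat_lit 115) (nat_lit 5) (nat_lit 116) (nat_lit 5) (nat_lit 312) (nat_lit 280) (nat_lit 269))) (XT.nd (nat_lit 94) (nat_lit 1092) (nat_lit 0) (XT.lf (nat_lit 0) (nat_lit 5704546431) (nat_lit 924) (nat_lit 1683799570) (nat_lit 1008) (nat_lit 66154222) (nat_lit 104) (nat_lit 5) (nat_lit 115) (nat_lit 5) (nat_lit 116) (nat_lit 5) (nat_lit 313) (nat_lit 280) (nat_lit 268)) (XT.nd (nat_lit 94) (nat_lit 0) (nat_lit 0) (XT.lf (nat_lit 0) (nat_lit 1830568245) (nat_lit 1008) (nat_lit 281903044) (nat_lit 1092) (nat_lit 5431283025) (nat_lit 91) (nat_lit 5) (nat_lit 103) (nat_lit 5) (nat_lit 104) (nat_lit 5) (nat_lit 314)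 (nat_lit 280) (nat_lit 267)) (XT.lf (nat_lit 0) (nat_lit 4320714321) (nat_lit 1092) (nat_lit 2153798877) (nat_lit 84) (nat_lit 1162809048) (nat_lit 91) (nat_lit 5) (nat_lit 104) (nat_lit 5) (nat_lit 92) (nat_lit 5) (nat_lit 315) (nat_lit 280) (nat_lit 266)))))) (XT.nd (nat_lit 470) (nat_lit 1008) (nat_lit 0) (XT.nd (nat_lit 188) (nat_lit 1008) (nat_lit 0) (XT.nd (nat_lit 94) (nat_lit 84) (nat_lit 0) (XT.lf (nat_lit 0) (nat_lit 1479449856) (nat_lit 588) (nat_lit 5070983249) (nat_lit 672) (nat_lit 1185235991) (nat_lit 84) (nat_lit 5) (nat_lit 91) (nat_lit 5) (nat_lit 92) (nat_lit 5) (nat_lit 316) (nat_lit 280) (nat_lit 265)) (XT.lf (nat_lit 0) (nat_lit 950256931) (nat_lit 672) (nat_lit 2640130658) (nat_lit 84) (nat_lit 4248051073) (nat_lit 83) (nat_lit 5) (nat_lit 91) (nat_lit 5) (nat_lit 84) (nat_lit 5) (nat_lit 317) (nat_lit 280) (nat_lit 264))) (XT.nd (nat_lit 94) (nat_lit 504) (nat_lit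 0) (XT.lf (nat_lit 0) (nat_lit 1034230303) (nat_lit 504) (nat_lit 2041022846) (nat_lit 588) (nat_lit 4870764543) (nat_lit 77) (nat_lit 5) (nat_lit 83) (nat_lit 5) (nat_lit 84) (nat_lit 5) (nat_lit 318) (nat_lit 280) (nat_lit 263)) (XT.nd (nat_lit 94) (nat_lit 504) (nat_lit 0) (XT.lf (nat_lit 0) (nat_lit 4816557387) (nat_lit 504) (nat_lit 416048064) (nat_lit 588) (nat_lit 2825738741) (nat_lit 77) (nat_lit 5) (nat_lit 83) (nat_lit 5) (nat_lit 84) (nat_lit 5) (nat_lit 319) (nat_lit 280) (nat_lit 262)) (XT.lf (nat_lit 0) (nat_lit 476861439) (nat_lit 504) (nat_lit 6937949262) (nat_lit 588) (nat_lit 761007093) (nat_lit 71) (nat_lit 5) (nat_lit 77) (nat_lit 5) (nat_lit 78) (nat_lit 5) (nat_lit 320) (nat_lit 280) (nat_lit 261))))) (XT.nd (nat_lit 188) (nat_lit 924) (nat_lit 0) (XT.nd (nat_lit 94) (nat_lit 0) (nat_lit 0) (XT.lf (nat_lit 0) (nat_lit 1319597528) (nat_lit 588) (nat_lit 3997703266) (nat_lit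 84) (nat_lit 2980190316) (nat_lit 70) (nat_lit 5) (nat_lit 77) (nat_lit 5) (nat_lit 71) (nat_lit 5) (nat_lit 321) (nat_lit 280) (nat_lit 260)) (XT.lf (nat_lit 0) (nat_lit 3391651619) (nat_lit 588) (nat_lit 250757274) (nat_lit 84) (nat_lit 4782391112) (nat_lit 70) (nat_lit 5) (nat_lit 77) (nat_lit 5) (nat_lit 71) (nat_lit 5) (nat_lit 322) (nat_lit 280) (nat_lit 259))) (XT.nd (nat_lit 94) (nat_lit 504) (nat_lit 0) (XT.lf (nat_lit 0) (nat_lit 3625978843) (nat_lit 420) (nat_lit 1882410465) (nat_lit 504) (nat_lit 3048592793) (nat_lit 65) (nat_lit 5) (nat_lit 70) (nat_lit 5) (nat_lit 71) (nat_lit 5) (nat_lit 323) (nat_lit 280) (nat_lit 258)) (XT.nd (nat_lit 94) (nat_lit 504) (nat_lit 0) (XT.lf (nat_lit 0) (nat_lit 7569390690) (nat_lit 420) (nat_lit 69538212) (nat_lit 504) (nat_lit 1056250196) (nat_lit 65) (nat_lit 5) (nat_lit 70) (nat_lit 5) (nat_lit 71) (nat_lit 5) (nat_lit 324) (nat_lit 280)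 (nat_lit 257)) (XT.lf (nat_lit 0) (nat_lit 969934123) (nat_lit 504) (nat_lit 6071481434) (nat_lit 84) (nat_lit 1796472603) (nat_lit 59) (nat_lit 5) (nat_lit 65) (nat_lit 5) (nat_lit 60) (nat_lit 5) (nat_lit 325) (nat_lit 280) (nat_lit 256))))))))
noncomputable def xc31 : XT := (XT.nd (nat_lit 1786) (nat_lit 1176) (nat_lit 0) (XT.nd (nat_lit 846) (nat_lit 1008) (nat_lit 0) (XT.nd (nat_lit 376) (nat_lit 756) (nat_lit 0) (XT.nd (nat_lit 188) (nat_lit 420) (nat_lit 0) (XT.nd (nat_lit 94) (nat_lit 336) (nat_lit 0) (XT.lf (nat_lit 0) (nat_lit 2996925084) (nat_lit 504) (nat_lit 2252881271) (nat_lit 84) (nat_lit 3736405667) (nat_lit 59) (nat_lit 5) (nat_lit 65) (nat_lit 5) (nat_lit 60) (nat_lit 5) (nat_lit 326) (nat_lit 280) (nat_lit 255)) (XT.lf (nat_lit 0) (nat_lit 1659612494) (nat_lit 336) (nat_lit 3392540214) (nat_lit 420) (nat_lit 4088329007) (nat_lit 55) (nat_lit 5) (nat_lit 59) (nat_lit 5)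 (nat_lit 60) (nat_lit 5) (nat_lit 327) (nat_lit 280) (nat_lit 254))) (XT.nd (nat_lit 94) (nat_lit 420) (nat_lit 0) (XT.lf (nat_lit 0) (nat_lit 5683819366) (nat_lit 336) (nat_lit 1460691480) (nat_lit 420) (nat_lit 2156113864) (nat_lit 55) (nat_lit 5) (nat_lit 59) (nat_lit 5) (nat_lit 60) (nat_lit 5) (nat_lit 328) (nat_lit 280) (nat_lit 253)) (XT.lf (nat_lit 0) (nat_lit 310731274) (nat_lit 420) (nat_lit 8950691006) (nat_lit 504) (nat_lit 205818351) (nat_lit 50) (nat_lit 5) (nat_lit 55) (nat_lit 5) (nat_lit 56) (nat_lit 5) (nat_lit 329) (nat_lit 280) (nat_lit 252)))) (XT.nd (nat_lit 188) (nat_lit 672) (nat_lit 0) (XT.nd (nat_lit 94) (nat_lit 0) (nat_lit 0) (XT.lf (nat_lit 0) (nat_lit 1773154005) (nat_lit 504) (nat_lit 5292352457) (nat_lit 84) (nat_lit 2573061599) (nat_lit 49) (nat_lit 5) (nat_lit 55) (nat_lit 5) (nat_lit 50) (nat_lit 5) (nat_lit 330) (nat_lit 280) (nat_lit 251)) (XT.lf (nat_lit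 0) (nat_lit 3762162845) (nat_lit 504) (nat_lit 1366735089) (nat_lit 84) (nat_lit 4687937810) (nat_lit 49) (nat_lit 5) (nat_lit 55) (nat_lit 5) (nat_lit 50) (nat_lit 5) (nat_lit 331) (nat_lit 280) (nat_lit 250))) (XT.nd (nat_lit 94) (nat_lit 336) (nat_lit 0) (XT.lf (nat_lit 0) (nat_lit 2680040420) (nat_lit 336) (nat_lit 3113754827) (nat_lit 420) (nat_lit 4207653712) (nat_lit 45) (nat_lit 5) (nat_lit 49) (nat_lit 5) (nat_lit 50) (nat_lit 5) (nat_lit 332) (nat_lit 280) (nat_lit 249)) (XT.nd (nat_lit 94) (nat_lit 336) (nat_lit 0) (XT.lf (nat_lit 0) (nat_lit 6827259292) (nat_lit 336) (nat_lit 1030629091) (nat_lit 420) (nat_lit 2335065156) (nat_lit 45) (nat_lit 5) (nat_lit 49) (nat_lit 5) (nat_lit 50) (nat_lit 5) (nat_lit 333) (nat_lit 280) (nat_lit 248)) (XT.lf (nat_lit 0) (nat_lit 661053070) (nat_lit 336) (nat_lit 9299026932) (nat_lit 420) (nat_lit 431332855) (nat_lit 41) (nat_lit 5) (nat_lit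 45) (nat_lit 5) (nat_lit 46) (nat_lit 5) (nat_lit 334) (nat_lit 280) (nat_lit 247)))))) (XT.nd (nat_lit 470) (nat_lit 672) (nat_lit 0) (XT.nd (nat_lit 188) (nat_lit 252) (nat_lit 0) (XT.nd (nat_lit 94) (nat_lit 0) (nat_lit 0) (XT.lf (nat_lit 0) (nat_lit 1503202175) (nat_lit 420) (nat_lit 5791428224) (nat_lit 84) (nat_lit 3301043968) (nat_lit 40) (nat_lit 5) (nat_lit 45) (nat_lit 5) (nat_lit 41) (nat_lit 5) (nat_lit 335) (nat_lit 280) (nat_lit 246)) (XT.lf (nat_lit 0) (nat_lit 3446663094) (nat_lit 420) (nat_lit 1787547497) (nat_lit 84) (nat_lit 5573421958) (nat_lit 40) (nat_lit 5) (nat_lit 45) (nat_lit 5) (nat_lit 41) (nat_lit 5) (nat_lit 336) (nat_lit 280) (nat_lit 245))) (XT.nd (nat_lit 94) (nat_lit 0) (nat_lit 0) (XT.lf (nat_lit 0) (nat_lit 2336365870) (nat_lit 252) (nat_lit 3096362975) (nat_lit 336) (nat_lit 5594170284) (nat_lit 37) (nat_lit 5) (nat_lit 40) (nat_lit 5) (nat_lit 41) (nat_lit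 5) (nat_lit 337) (nat_lit 280) (nat_lit 244)) (XT.nd (nat_lit 94) (nat_lit 0) (nat_lit 0) (XT.lf (nat_lit 0) (nat_lit 6575373343) (nat_lit 252) (nat_lit 883553104) (nat_lit 336) (nat_lit 3794886087) (nat_lit 37) (nat_lit 5) (nat_lit 40) (nat_lit 5) (nat_lit 41) (nat_lit 5) (nat_lit 338) (nat_lit 280) (nat_lit 243)) (XT.lf (nat_lit 0) (nat_lit 9522812610) (nat_lit 336) (nat_lit 606240207) (nat_lit 84) (nat_lit 1359665745) (nat_lit 37) (nat_lit 5) (nat_lit 41) (nat_lit 5) (nat_lit 38) (nat_lit 5) (nat_lit 339) (nat_lit 280) (nat_lit 242))))) (XT.nd (nat_lit 188) (nat_lit 252) (nat_lit 0) (XT.nd (nat_lit 94) (nat_lit 84) (nat_lit 0) (XT.lf (nat_lit 0) (nat_lit 3606944570) (nat_lit 336) (nat_lit 8050734594) (nat_lit 420) (nat_lit 73184598) (nat_lit 33) (nat_lit 5) (nat_lit 37) (nat_lit 5) (nat_lit 38) (nat_lit 5) (nat_lit 340) (nat_lit 280) (nat_lit 241)) (XT.lf (nat_lit 0) (nat_lit 1809055421)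 (nat_lit 420) (nat_lit 4084757804) (nat_lit 84) (nat_lit 6087259142) (nat_lit 32) (nat_lit 5) (nat_lit 37) (nat_lit 5) (nat_lit 33) (nat_lit 5) (nat_lit 341) (nat_lit 280) (nat_lit 240))) (XT.nd (nat_lit 94) (nat_lit 0) (nat_lit 0) (XT.lf (nat_lit 0) (nat_lit 31658478) (nat_lit 252) (nat_lit 3680207447) (nat_lit 336) (nat_lit 8528431179) (nat_lit 29) (nat_lit 5) (nat_lit 32) (nat_lit 5) (nat_lit 33) (nat_lit 5) (nat_lit 342) (nat_lit 280) (nat_lit 239)) (XT.nd (nat_lit 94) (nat_lit 0) (nat_lit 0) (XT.lf (nat_lit 0) (nat_lit 4314914360) (nat_lit 252) (nat_lit 1365442704) (nat_lit 336) (nat_lit 6827147314) (nat_lit 29) (nat_lit 5) (nat_lit 32) (nat_lit 5) (nat_lit 33) (nat_lit 5) (nat_lit 343) (nat_lit 280) (nat_lit 238)) (XT.lf (nat_lit 0) (nat_lit 7685028517) (nat_lit 336) (nat_lit 4109233305) (nat_lit 84) (nat_lit 989652820) (nat_lit 29) (nat_lit 5) (nat_lit 33) (nat_lit 5) (nat_lit 30)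 (nat_lit 5) (nat_lit 344) (nat_lit 280) (nat_lit 237))))))) (XT.nd (nat_lit 846) (nat_lit 420) (nat_lit 0) (XT.nd (nat_lit 376) (nat_lit 420) (nat_lit 0) (XT.nd (nat_lit 188) (nat_lit 84) (nat_lit 0) (XT.nd (nat_lit 94) (nat_lit 0) (nat_lit 0) (XT.lf (nat_lit 0) (nat_lit 41942073) (nat_lit 252) (nat_lit 9690363442) (nat_lit 336) (nat_lit 3337338773) (nat_lit 26) (nat_lit 5) (nat_lit 29) (nat_lit 5) (nat_lit 30) (nat_lit 5) (nat_lit 345) (nat_lit 280) (nat_lit 236)) (XT.lf (nat_lit 0) (nat_lit 4363734427) (nat_lit 252) (nat_lit 7488856731) (nat_lit 336) (nat_lit 1511485144) (nat_lit 26) (nat_lit 5) (nat_lit 29) (nat_lit 5) (nat_lit 30) (nat_lit 5) (nat_lit 346) (nat_lit 280) (nat_lit 235))) (XT.nd (nat_lit 94) (nat_lit 0) (nat_lit 0) (XT.lf (nat_lit 0) (nat_lit 330685116) (nat_lit 336) (nat_lit 4896444833) (nat_lit 84) (nat_lit 8441541064) (nat_lit 25) (nat_lit 5) (nat_lit 29) (nat_lit 5)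 (nat_lit 26) (nat_lit 5) (nat_lit 347) (nat_lit 280) (nat_lit 234)) (XT.lf (nat_lit 0) (nat_lit 2166741485) (nat_lit 336) (nat_lit 724075349) (nat_lit 84) (nat_lit 11092526927) (nat_lit 25) (nat_lit 5) (nat_lit 29) (nat_lit 5) (nat_lit 26) (nat_lit 5) (nat_lit 348) (nat_lit 280) (nat_lit 233)))) (XT.nd (nat_lit 188) (nat_lit 252) (nat_lit 0) (XT.nd (nat_lit 94) (nat_lit 0) (nat_lit 0) (XT.lf (nat_lit 0) (nat_lit 3608349993) (nat_lit 168) (nat_lit 456293702) (nat_lit 252) (nat_lit 10243099322) (nat_lit 23) (nat_lit 5) (nat_lit 25) (nat_lit 5) (nat_lit 26) (nat_lit 5) (nat_lit 349) (nat_lit 280) (nat_lit 232)) (XT.lf (nat_lit 0) (nat_lit 6018926393) (nat_lit 252) (nat_lit 6614497148) (nat_lit 84) (nat_lit 2008971882) (nat_lit 23) (nat_lit 5) (nat_lit 26) (nat_lit 5) (nat_lit 24) (nat_lit 5) (nat_lit 350) (nat_lit 280) (nat_lit 231))) (XT.nd (nat_lit 94) (nat_lit 252) (nat_lit 0) (XT.lf (nat_lit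 0) (nat_lit 8008912012) (nat_lit 252) (nat_lit 2448871108) (nat_lit 84) (nat_lit 4530527262) (nat_lit 23) (nat_lit 5) (nat_lit 26) (nat_lit 5) (nat_lit 24) (nat_lit 5) (nat_lit 351) (nat_lit 280) (nat_lit 230)) (XT.nd (nat_lit 94) (nat_lit 0) (nat_lit 0) (XT.lf (nat_lit 0) (nat_lit 1843027277) (nat_lit 252) (nat_lit 8207184720) (nat_lit 336) (nat_lit 5295171874) (nat_lit 20) (nat_lit 5) (nat_lit 23) (nat_lit 5) (nat_lit 24) (nat_lit 5) (nat_lit 352) (nat_lit 280) (nat_lit 229)) (XT.lf (nat_lit 0) (nat_lit 6280299254) (nat_lit 252) (nat_lit 5871864928) (nat_lit 336) (nat_lit 3561554048) (nat_lit 20) (nat_lit 5) (nat_lit 23) (nat_lit 5) (nat_lit 24) (nat_lit 5) (nat_lit 353) (nat_lit 280) (nat_lit 228)))))) (XT.nd (nat_lit 470) (nat_lit 168) (nat_lit 0) (XT.nd (nat_lit 188) (nat_lit 252) (nat_lit 0) (XT.nd (nat_lit 94) (nat_lit 0) (nat_lit 0) (XT.lf (nat_lit 0) (nat_lit 10816727011) (nat_lit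 252) (nat_lit 3475208176) (nat_lit 336) (nat_lit 1802490171) (nat_lit 20) (nat_lit 5) (nat_lit 23) (nat_lit 5) (nat_lit 24) (nat_lit 5) (nat_lit 354) (nat_lit 280) (nat_lit 227)) (XT.lf (nat_lit 0) (nat_lit 15456538973) (nat_lit 252) (nat_lit 1014980527) (nat_lit 336) (nat_lit 16340611) (nat_lit 20) (nat_lit 5) (nat_lit 23) (nat_lit 5) (nat_lit 24) (nat_lit 5) (nat_lit 355) (nat_lit 280) (nat_lit 226))) (XT.nd (nat_lit 94) (nat_lit 0) (nat_lit 0) (XT.lf (nat_lit 0) (nat_lit 1811163100) (nat_lit 252) (nat_lit 13548801195) (nat_lit 84) (nat_lit 1532357763) (nat_lit 17) (nat_lit 5) (nat_lit 20) (nat_lit 5) (nat_lit 18) (nat_lit 5) (nat_lit 356) (nat_lit 280) (nat_lit 225)) (XT.nd (nat_lit 94) (nat_lit 0) (nat_lit 0) (XT.lf (nat_lit 0) (nat_lit 3690469008) (nat_lit 252) (nat_lit 9480970685) (nat_lit 84) (nat_lit 4138111822) (nat_lit 17) (nat_lit 5) (nat_lit 20) (nat_lit 5) (nat_lit 18) (nat_lit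 5) (nat_lit 357) (nat_lit 280) (nat_lit 224)) (XT.lf (nat_lit 0) (nat_lit 5603041328) (nat_lit 252) (nat_lit 5323090210) (nat_lit 84) (nat_lit 6814449990) (nat_lit 17) (nat_lit 5) (nat_lit 20) (nat_lit 5) (nat_lit 18) (nat_lit 5) (nat_lit 358) (nat_lit 280) (nat_lit 223))))) (XT.nd (nat_lit 188) (nat_lit 0) (nat_lit 0) (XT.nd (nat_lit 94) (nat_lit 168) (nat_lit 0) (XT.lf (nat_lit 0) (nat_lit 7550662778) (nat_lit 252) (nat_lit 1071284190) (nat_lit 84) (nat_lit 9563866896) (nat_lit 17) (nat_lit 5) (nat_lit 20) (nat_lit 5) (nat_lit 18) (nat_lit 5) (nat_lit 359) (nat_lit 280) (nat_lit 222)) (XT.lf (nat_lit 0) (nat_lit 3345821346) (nat_lit 168) (nat_lit 6222518359) (nat_lit 252) (nat_lit 9076294899) (nat_lit 15) (nat_lit 5) (nat_lit 17) (nat_lit 5) (nat_lit 18) (nat_lit 5) (nat_lit 360) (nat_lit 280) (nat_lit 221))) (XT.nd (nat_lit 94) (nat_lit 0) (nat_lit 0) (XT.lf (nat_lit 0) (nat_lit 7888993886)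 (nat_lit 168) (nat_lit 3747614885) (nat_lit 252) (nat_lit 7481524313) (nat_lit 15) (nat_lit 5) (nat_lit 17) (nat_lit 5) (nat_lit 18) (nat_lit 5) (nat_lit 361) (nat_lit 280) (nat_lit 220)) (XT.nd (nat_lit 94) (nat_lit 0) (nat_lit 0) (XT.lf (nat_lit 0) (nat_lit 12540440341) (nat_lit 168) (nat_lit 1206111686) (nat_lit 252) (nat_lit 5860534845) (nat_lit 15) (nat_lit 5) (nat_lit 17) (nat_lit 5) (nat_lit 18) (nat_lit 5) (nat_lit 362) (nat_lit 280) (nat_lit 219)) (XT.lf (nat_lit 0) (nat_lit 15914067591) (nat_lit 252) (nat_lit 2821386806) (nat_lit 84) (nat_lit 1376065455) (nat_lit 15) (nat_lit 5) (nat_lit 18) (nat_lit 5) (nat_lit 16) (nat_lit 4) (nat_lit 363) (nat_lit 280) (nat_lit 218))))))))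
noncomputable def xc32 : XT := (XT.nd (nat_lit 49162) (nat_lit 0) (nat_lit 3108) (XT.nd (nat_lit 48316) (nat_lit 0) (nat_lit 8652) (XT.nd (nat_lit 376) (nat_lit 0) (nat_lit 0) (XT.nd (nat_lit 188) (nat_lit 84) (nat_lit 0) (XT.nd (nat_lit 94) (nat_lit 0) (nat_lit 0) (XT.lf (nat_lit 0) (nat_lit 1542955438) (nat_lit 168) (nat_lit 16612255361) (nat_lit 252) (nat_lit 2476256322) (nat_lit 13) (nat_lit 5) (nat_lit 15) (nat_lit 5) (nat_lit 16) (nat_lit 4) (nat_lit 364) (nat_lit 280) (nat_lit 217)) (XT.lf (nat_lit 0) (nat_lit 6071448850) (nat_lit 168) (nat_lit 14402953339) (nat_lit 252) (nat_lit 692938859) (nat_lit 13) (nat_lit 5) (nat_lit 15) (nat_lit 5) (nat_lit 16) (nat_lit 4) (nat_lit 365) (nat_lit 280) (nat_lit 216))) (XT.nd (nat_lit 94) (nat_lit 0) (nat_lit 0) (XT.lf (nat_lit 0) (nat_lit 1102052414) (nat_lit 252) (nat_lit 11021382939) (nat_lit 84) (nat_lit 9596745379) (nat_lit 12) (nat_lit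 5) (nat_lit 15) (nat_lit 5) (nat_lit 13) (nat_lit 5) (nat_lit 366) (nat_lit 280) (nat_lit 215)) (XT.lf (nat_lit 0) (nat_lit 2918385131) (nat_lit 252) (nat_lit 6857249790) (nat_lit 84) (nat_lit 12514988577) (nat_lit 12) (nat_lit 5) (nat_lit 15) (nat_lit 5) (nat_lit 13) (nat_lit 5) (nat_lit 367) (nat_lit 280) (nat_lit 214)))) (XT.nd (nat_lit 47658) (nat_lit 0) (nat_lit 11760) (XT.nd (nat_lit 47564) (nat_lit 0) (nat_lit 12348) (XT.lf (nat_lit 0) (nat_lit 4771713478) (nat_lit 252) (nat_lit 2592737306) (nat_lit 84) (nat_lit 15514963373) (nat_lit 12) (nat_lit 5) (nat_lit 15) (nat_lit 5) (nat_lit 13) (nat_lit 5) (nat_lit 368) (nat_lit 280) (nat_lit 213)) (XT.lf (nat_lit 0) (nat_lit 223238452) (nat_lit 420) (nat_lit 1546982952) (nat_lit 420) (nat_lit 1546982952) (nat_lit 159) (nat_lit 4) (nat_lit 164) (nat_lit 5) (nat_lit 164) (nat_lit 4) (nat_lit 299) (nat_lit 281) (nat_lit 281))) (XT.nd (nat_lit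 94) (nat_lit 588) (nat_lit 0) (XT.lf (nat_lit 0) (nat_lit 3561383671) (nat_lit 420) (nat_lit 2478929996) (nat_lit 420) (nat_lit 628745947) (nat_lit 159) (nat_lit 4) (nat_lit 164) (nat_lit 5) (nat_lit 164) (nat_lit 4) (nat_lit 300) (nat_lit 281) (nat_lit 280)) (XT.nd (nat_lit 94) (nat_lit 504) (nat_lit 0) (XT.lf (nat_lit 0) (nat_lit 1787028572) (nat_lit 504) (nat_lit 15281928) (nat_lit 84) (nat_lit 4905324041) (nat_lit 158) (nat_lit 5) (nat_lit 164) (nat_lit 5) (nat_lit 159) (nat_lit 4) (nat_lit 301) (nat_lit 281) (nat_lit 279)) (XT.lf (nat_lit 0) (nat_lit 3167934491) (nat_lit 504) (nat_lit 1043422441) (nat_lit 588) (nat_lit 2538209528) (nat_lit 152) (nat_lit 5) (nat_lit 158) (nat_lit 5) (nat_lit 159) (nat_lit 4) (nat_lit 302) (nat_lit 281) (nat_lit 278)))))) (XT.nd (nat_lit 376) (nat_lit 1764) (nat_lit 0) (XT.nd (nat_lit 188) (nat_lit 672) (nat_lit 0) (XT.nd (nat_lit 94) (nat_lit 672) (nat_lit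 0) (XT.lf (nat_lit 0) (nat_lit 6388348678) (nat_lit 504) (nat_lit 239883022) (nat_lit 588) (nat_lit 167815096) (nat_lit 152) (nat_lit 5) (nat_lit 158) (nat_lit 5) (nat_lit 159) (nat_lit 4) (nat_lit 303) (nat_lit 281) (nat_lit 277)) (XT.lf (nat_lit 0) (nat_lit 2183144060) (nat_lit 672) (nat_lit 4015196389) (nat_lit 84) (nat_lit 647033443) (nat_lit 144) (nat_lit 5) (nat_lit 152) (nat_lit 5) (nat_lit 145) (nat_lit 4) (nat_lit 304) (nat_lit 281) (nat_lit 276))) (XT.nd (nat_lit 94) (nat_lit 672) (nat_lit 0) (XT.lf (nat_lit 0) (nat_lit 4530524034) (nat_lit 672) (nat_lit 788172052) (nat_lit 84) (nat_lit 1580370497) (nat_lit 144) (nat_lit 5) (nat_lit 152) (nat_lit 5) (nat_lit 145) (nat_lit 4) (nat_lit 305) (nat_lit 281) (nat_lit 275)) (XT.lf (nat_lit 0) (nat_lit 2526821404) (nat_lit 672) (nat_lit 4371589447) (nat_lit 756) (nat_lit 58241651) (nat_lit 136) (nat_lit 5) (nat_lit 144) (nat_lit 5) (nat_lit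 145) (nat_lit 4) (nat_lit 306) (nat_lit 281) (nat_lit 274)))) (XT.nd (nat_lit 188) (nat_lit 924) (nat_lit 0) (XT.nd (nat_lit 94) (nat_lit 756) (nat_lit 0) (XT.lf (nat_lit 0) (nat_lit 2208199152) (nat_lit 756) (nat_lit 1142111550) (nat_lit 84) (nat_lit 3667699415) (nat_lit 135) (nat_lit 5) (nat_lit 144) (nat_lit 5) (nat_lit 136) (nat_lit 5) (nat_lit 307) (nat_lit 281) (nat_lit 273)) (XT.lf (nat_lit 0) (nat_lit 2229289947) (nat_lit 756) (nat_lit 2261855603) (nat_lit 840) (nat_lit 2592290041) (nat_lit 126) (nat_lit 5) (nat_lit 135) (nat_lit 5) (nat_lit 136) (nat_lit 5) (nat_lit 308) (nat_lit 281) (nat_lit 272))) (XT.nd (nat_lit 94) (nat_lit 924) (nat_lit 0) (XT.lf (nat_lit 0) (nat_lit 5667493483) (nat_lit 756) (nat_lit 1116262572) (nat_lit 840) (nat_lit 369566192) (nat_lit 126) (nat_lit 5) (nat_lit 135) (nat_lit 5) (nat_lit 136) (nat_lit 5) (nat_lit 309) (nat_lit 281) (nat_lit 271)) (XT.nd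 (nat_lit 94) (nat_lit 0) (nat_lit 0) (XT.lf (nat_lit 0) (nat_lit 1831697103) (nat_lit 924) (nat_lit 5283086629) (nat_lit 84) (nat_lit 112108170) (nat_lit 115) (nat_lit 5) (nat_lit 126) (nat_lit 5) (nat_lit 116) (nat_lit 5) (nat_lit 310) (nat_lit 281) (nat_lit 270)) (XT.lf (nat_lit 0) (nat_lit 4050185870) (nat_lit 924) (nat_lit 1870549491) (nat_lit 84) (nat_lit 1383724651) (nat_lit 115) (nat_lit 5) (nat_lit 126) (nat_lit 5) (nat_lit 116) (nat_lit 5) (nat_lit 311) (nat_lit 281) (nat_lit 269))))))) (XT.nd (nat_lit 846) (nat_lit 2268) (nat_lit 0) (XT.nd (nat_lit 376) (nat_lit 1260) (nat_lit 0) (XT.nd (nat_lit 188) (nat_lit 1008) (nat_lit 0) (XT.nd (nat_lit 94) (nat_lit 84) (nat_lit 0) (XT.lf (nat_lit 0) (nat_lit 1618118164) (nat_lit 924) (nat_lit 4667077679) (nat_lit 1008) (nat_lit 1101333445) (nat_lit 104) (nat_lit 5) (nat_lit 115) (nat_lit 5) (nat_lit 116) (nat_lit 5) (nat_lit 312) (nat_lit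 281) (nat_lit 268)) (XT.lf (nat_lit 0) (nat_lit 1047542152) (nat_lit 1008) (nat_lit 2290718090) (nat_lit 84) (nat_lit 4134483554) (nat_lit 103) (nat_lit 5) (nat_lit 115) (nat_lit 5) (nat_lit 104) (nat_lit 5) (nat_lit 313) (nat_lit 281) (nat_lit 267))) (XT.nd (nat_lit 94) (nat_lit 0) (nat_lit 0) (XT.lf (nat_lit 0) (nat_lit 1247077827) (nat_lit 1008) (nat_lit 1939495093) (nat_lit 1092) (nat_lit 4376804932) (nat_lit 91) (nat_lit 5) (nat_lit 103) (nat_lit 5) (nat_lit 104) (nat_lit 5) (nat_lit 314) (nat_lit 281) (nat_lit 266)) (XT.lf (nat_lit 0) (nat_lit 4882163362) (nat_lit 1008) (nat_lit 469085346) (nat_lit 1092) (nat_lit 2307255410) (nat_lit 91) (nat_lit 5) (nat_lit 103) (nat_lit 5) (nat_lit 104) (nat_lit 5) (nat_lit 315) (nat_lit 281) (nat_lit 265)))) (XT.nd (nat_lit 188) (nat_lit 588) (nat_lit 0) (XT.nd (nat_lit 94) (nat_lit 84) (nat_lit 0) (XT.lf (nat_lit 0) (nat_lit 817954304) (nat_lit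 588) (nat_lit 6720976048) (nat_lit 672) (nat_lit 219425273) (nat_lit 84) (nat_lit 5) (nat_lit 91) (nat_lit 5) (nat_lit 92) (nat_lit 5) (nat_lit 316) (nat_lit 281) (nat_lit 264)) (XT.lf (nat_lit 0) (nat_lit 1865916180) (nat_lit 672) (nat_lit 3364687214) (nat_lit 84) (nat_lit 2631365822) (nat_lit 83) (nat_lit 5) (nat_lit 91) (nat_lit 5) (nat_lit 84) (nat_lit 5) (nat_lit 317) (nat_lit 281) (nat_lit 263))) (XT.nd (nat_lit 94) (nat_lit 84) (nat_lit 0) (XT.lf (nat_lit 0) (nat_lit 264293620) (nat_lit 504) (nat_lit 3689211237) (nat_lit 588) (nat_lit 4017386892) (nat_lit 77) (nat_lit 5) (nat_lit 83) (nat_lit 5) (nat_lit 84) (nat_lit 5) (nat_lit 318) (nat_lit 281) (nat_lit 262)) (XT.nd (nat_lit 94) (nat_lit 84) (nat_lit 0) (XT.lf (nat_lit 0) (nat_lit 4017055468) (nat_lit 504) (nat_lit 2064633836) (nat_lit 588) (nat_lit 2002611487) (nat_lit 77) (nat_lit 5) (nat_lit 83) (nat_lit 5) (nat_lit 84) (nat_lit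 5) (nat_lit 319) (nat_lit 281) (nat_lit 261)) (XT.lf (nat_lit 0) (nat_lit 14727890) (nat_lit 588) (nat_lit 375595730) (nat_lit 84) (nat_lit 7813029809) (nat_lit 76) (nat_lit 5) (nat_lit 83) (nat_lit 5) (nat_lit 77) (nat_lit 5) (nat_lit 320) (nat_lit 281) (nat_lit 260)))))) (XT.nd (nat_lit 470) (nat_lit 840) (nat_lit 0) (XT.nd (nat_lit 188) (nat_lit 924) (nat_lit 0) (XT.nd (nat_lit 94) (nat_lit 0) (nat_lit 0) (XT.lf (nat_lit 0) (nat_lit 2044102561) (nat_lit 588) (nat_lit 4919339081) (nat_lit 84) (nat_lit 1362626624) (nat_lit 70) (nat_lit 5) (nat_lit 77) (nat_lit 5) (nat_lit 71) (nat_lit 5) (nat_lit 321) (nat_lit 281) (nat_lit 259)) (XT.lf (nat_lit 0) (nat_lit 4088820248) (nat_lit 588) (nat_lit 1201649905) (nat_lit 84) (nat_lit 3163912277) (nat_lit 70) (nat_lit 5) (nat_lit 77) (nat_lit 5) (nat_lit 71) (nat_lit 5) (nat_lit 322) (nat_lit 281) (nat_lit 258))) (XT.nd (nat_lit 94) (nat_lit 504)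 (nat_lit 0) (XT.lf (nat_lit 0) (nat_lit 2626573292) (nat_lit 420) (nat_lit 3542555960) (nat_lit 504) (nat_lit 2418717655) (nat_lit 65) (nat_lit 5) (nat_lit 70) (nat_lit 5) (nat_lit 71) (nat_lit 5) (nat_lit 323) (nat_lit 281) (nat_lit 257)) (XT.nd (nat_lit 94) (nat_lit 504) (nat_lit 0) (XT.lf (nat_lit 0) (nat_lit 6541895307) (nat_lit 420) (nat_lit 1731777662) (nat_lit 504) (nat_lit 453325297) (nat_lit 65) (nat_lit 5) (nat_lit 70) (nat_lit 5) (nat_lit 71) (nat_lit 5) (nat_lit 324) (nat_lit 281) (nat_lit 256)) (XT.lf (nat_lit 0) (nat_lit 1507466000) (nat_lit 504) (nat_lit 7203513356) (nat_lit 84) (nat_lit 160332860) (nat_lit 59) (nat_lit 5) (nat_lit 65) (nat_lit 5) (nat_lit 60) (nat_lit 5) (nat_lit 325) (nat_lit 281) (nat_lit 255))))) (XT.nd (nat_lit 188) (nat_lit 504) (nat_lit 0) (XT.nd (nat_lit 94) (nat_lit 336) (nat_lit 0) (XT.lf (nat_lit 0) (nat_lit 3509314855) (nat_lit 504) (nat_lit 3413431408)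 (nat_lit 84) (nat_lit 2097804715) (nat_lit 59) (nat_lit 5) (nat_lit 65) (nat_lit 5) (nat_lit 60) (nat_lit 5) (nat_lit 326) (nat_lit 281) (nat_lit 254)) (XT.lf (nat_lit 0) (nat_lit 446969573) (nat_lit 336) (nat_lit 5081157203) (nat_lit 420) (nat_lit 3647954203) (nat_lit 55) (nat_lit 5) (nat_lit 59) (nat_lit 5) (nat_lit 60) (nat_lit 5) (nat_lit 327) (nat_lit 281) (nat_lit 253))) (XT.nd (nat_lit 94) (nat_lit 504) (nat_lit 0) (XT.lf (nat_lit 0) (nat_lit 4443795752) (nat_lit 336) (nat_lit 3152764645) (nat_lit 420) (nat_lit 1740532705) (nat_lit 55) (nat_lit 5) (nat_lit 59) (nat_lit 5) (nat_lit 60) (nat_lit 5) (nat_lit 328) (nat_lit 281) (nat_lit 252)) (XT.nd (nat_lit 94) (nat_lit 420) (nat_lit 0) (XT.lf (nat_lit 0) (nat_lit 173607338) (nat_lit 420) (nat_lit 995980907) (nat_lit 84) (nat_lit 8335165995) (nat_lit 54) (nat_lit 5) (nat_lit 59) (nat_lit 5) (nat_lit 55) (nat_lit 5) (nat_lit 329) (nat_lit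 281) (nat_lit 251)) (XT.lf (nat_lit 0) (nat_lit 2103484715) (nat_lit 504) (nat_lit 6675388996) (nat_lit 84) (nat_lit 898654372) (nat_lit 49) (nat_lit 5) (nat_lit 55) (nat_lit 5) (nat_lit 50) (nat_lit 5) (nat_lit 330) (nat_lit 281) (nat_lit 250))))))))
noncomputable def xc33 : XT := (XT.nd (nat_lit 1692) (nat_lit 1092) (nat_lit 0) (XT.nd (nat_lit 846) (nat_lit 1008) (nat_lit 0) (XT.nd (nat_lit 376) (nat_lit 672) (nat_lit 0) (XT.nd (nat_lit 188) (nat_lit 0) (nat_lit 0) (XT.nd (nat_lit 94) (nat_lit 336) (nat_lit 0) (XT.lf (nat_lit 0) (nat_lit 4070030708) (nat_lit 504) (nat_lit 2776621869) (nat_lit 84) (nat_lit 3009952353) (nat_lit 49) (nat_lit 5) (nat_lit 55) (nat_lit 5) (nat_lit 50) (nat_lit 5) (nat_lit 331) (nat_lit 281) (nat_lit 249)) (XT.lf (nat_lit 0) (nat_lit 1214585069) (nat_lit 336) (nat_lit 4850753104) (nat_lit 420) (nat_lit 3977115468) (nat_lit 45) (nat_lit 5) (nat_lit 49) (nat_lit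 5) (nat_lit 50) (nat_lit 5) (nat_lit 332) (nat_lit 281) (nat_lit 248))) (XT.nd (nat_lit 94) (nat_lit 0) (nat_lit 0) (XT.lf (nat_lit 0) (nat_lit 5336024691) (nat_lit 336) (nat_lit 2772018549) (nat_lit 420) (nat_lit 2126684144) (nat_lit 45) (nat_lit 5) (nat_lit 49) (nat_lit 5) (nat_lit 50) (nat_lit 5) (nat_lit 333) (nat_lit 281) (nat_lit 247)) (XT.lf (nat_lit 0) (nat_lit 9534445570) (nat_lit 336) (nat_lit 637493552) (nat_lit 420) (nat_lit 262537692) (nat_lit 45) (nat_lit 5) (nat_lit 49) (nat_lit 5) (nat_lit 50) (nat_lit 5) (nat_lit 334) (nat_lit 281) (nat_lit 246)))) (XT.nd (nat_lit 188) (nat_lit 252) (nat_lit 0) (XT.nd (nat_lit 94) (nat_lit 0) (nat_lit 0) (XT.lf (nat_lit 0) (nat_lit 1632346004) (nat_lit 420) (nat_lit 7435593268) (nat_lit 84) (nat_lit 1571967751) (nat_lit 40) (nat_lit 5) (nat_lit 45) (nat_lit 5) (nat_lit 41) (nat_lit 5) (nat_lit 335) (nat_lit 281) (nat_lit 245)) (XT.lf (nat_lit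 0) (nat_lit 3555708698) (nat_lit 420) (nat_lit 3456902215) (nat_lit 84) (nat_lit 3839971270) (nat_lit 40) (nat_lit 5) (nat_lit 45) (nat_lit 5) (nat_lit 41) (nat_lit 5) (nat_lit 336) (nat_lit 281) (nat_lit 244))) (XT.nd (nat_lit 94) (nat_lit 0) (nat_lit 0) (XT.lf (nat_lit 0) (nat_lit 607751144) (nat_lit 252) (nat_lit 4897381319) (nat_lit 336) (nat_lit 5567943309) (nat_lit 37) (nat_lit 5) (nat_lit 40) (nat_lit 5) (nat_lit 41) (nat_lit 5) (nat_lit 337) (nat_lit 281) (nat_lit 243)) (XT.nd (nat_lit 94) (nat_lit 0) (nat_lit 0) (XT.lf (nat_lit 0) (nat_lit 4822573698) (nat_lit 252) (nat_lit 2689608677) (nat_lit 336) (nat_lit 3788488750) (nat_lit 37) (nat_lit 5) (nat_lit 40) (nat_lit 5) (nat_lit 41) (nat_lit 5) (nat_lit 338) (nat_lit 281) (nat_lit 242)) (XT.lf (nat_lit 0) (nat_lit 9120413104) (nat_lit 252) (nat_lit 423318080) (nat_lit 336) (nat_lit 1992934139) (nat_lit 37) (nat_lit 5) (nat_lit 40)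 (nat_lit 5) (nat_lit 41) (nat_lit 5) (nat_lit 339) (nat_lit 281) (nat_lit 241)))))) (XT.nd (nat_lit 376) (nat_lit 336) (nat_lit 0) (XT.nd (nat_lit 188) (nat_lit 252) (nat_lit 0) (XT.nd (nat_lit 94) (nat_lit 84) (nat_lit 0) (XT.lf (nat_lit 0) (nat_lit 1740173704) (nat_lit 336) (nat_lit 9897645519) (nat_lit 420) (nat_lit 142338569) (nat_lit 33) (nat_lit 5) (nat_lit 37) (nat_lit 5) (nat_lit 38) (nat_lit 5) (nat_lit 340) (nat_lit 281) (nat_lit 240)) (XT.lf (nat_lit 0) (nat_lit 1723287464) (nat_lit 420) (nat_lit 6023695743) (nat_lit 84) (nat_lit 4284040893) (nat_lit 32) (nat_lit 5) (nat_lit 37) (nat_lit 5) (nat_lit 33) (nat_lit 5) (nat_lit 341) (nat_lit 281) (nat_lit 239))) (XT.nd (nat_lit 94) (nat_lit 252) (nat_lit 0) (XT.lf (nat_lit 0) (nat_lit 3608318068) (nat_lit 420) (nat_lit 1930767995) (nat_lit 84) (nat_lit 6751789809) (nat_lit 32) (nat_lit 5) (nat_lit 37) (nat_lit 5) (nat_lit 33) (nat_lit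 5) (nat_lit 342) (nat_lit 281) (nat_lit 238)) (XT.lf (nat_lit 0) (nat_lit 2290167991) (nat_lit 252) (nat_lit 3249928854) (nat_lit 336) (nat_lit 7019197961) (nat_lit 29) (nat_lit 5) (nat_lit 32) (nat_lit 5) (nat_lit 33) (nat_lit 5) (nat_lit 343) (nat_lit 281) (nat_lit 237)))) (XT.nd (nat_lit 188) (nat_lit 336) (nat_lit 0) (XT.nd (nat_lit 94) (nat_lit 0) (nat_lit 0) (XT.lf (nat_lit 0) (nat_lit 6638325686) (nat_lit 252) (nat_lit 879774314) (nat_lit 336) (nat_lit 5318503154) (nat_lit 29) (nat_lit 5) (nat_lit 32) (nat_lit 5) (nat_lit 33) (nat_lit 5) (nat_lit 344) (nat_lit 281) (nat_lit 236)) (XT.lf (nat_lit 0) (nat_lit 9540034202) (nat_lit 336) (nat_lit 2061018138) (nat_lit 84) (nat_lit 1522135305) (nat_lit 29) (nat_lit 5) (nat_lit 33) (nat_lit 5) (nat_lit 30) (nat_lit 5) (nat_lit 345) (nat_lit 281) (nat_lit 235))) (XT.nd (nat_lit 94) (nat_lit 84) (nat_lit 0) (XT.lf (nat_lit 0) (nat_lit 2196817666)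 (nat_lit 252) (nat_lit 9426709989) (nat_lit 336) (nat_lit 1795299701) (nat_lit 26) (nat_lit 5) (nat_lit 29) (nat_lit 5) (nat_lit 30) (nat_lit 5) (nat_lit 346) (nat_lit 281) (nat_lit 234)) (XT.nd (nat_lit 94) (nat_lit 0) (nat_lit 0) (XT.lf (nat_lit 0) (nat_lit 36919628) (nat_lit 336) (nat_lit 7136611515) (nat_lit 84) (nat_lit 6550527110) (nat_lit 25) (nat_lit 5) (nat_lit 29) (nat_lit 5) (nat_lit 26) (nat_lit 5) (nat_lit 347) (nat_lit 281) (nat_lit 233)) (XT.lf (nat_lit 0) (nat_lit 1857777975) (nat_lit 336) (nat_lit 2984915495) (nat_lit 84) (nat_lit 9196569932) (nat_lit 25) (nat_lit 5) (nat_lit 29) (nat_lit 5) (nat_lit 26) (nat_lit 5) (nat_lit 348) (nat_lit 281) (nat_lit 232))))))) (XT.nd (nat_lit 846) (nat_lit 420) (nat_lit 0) (XT.nd (nat_lit 376) (nat_lit 504) (nat_lit 0) (XT.nd (nat_lit 188) (nat_lit 0) (nat_lit 0) (XT.nd (nat_lit 94) (nat_lit 0) (nat_lit 0) (XT.lf (nat_lit 0) (nat_lit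 1280558173) (nat_lit 168) (nat_lit 2437288979) (nat_lit 252) (nat_lit 10647047751) (nat_lit 23) (nat_lit 5) (nat_lit 25) (nat_lit 5) (nat_lit 26) (nat_lit 5) (nat_lit 349) (nat_lit 281) (nat_lit 231)) (XT.lf (nat_lit 0) (nat_lit 5637930296) (nat_lit 252) (nat_lit 9000091842) (nat_lit 84) (nat_lit 62642990) (nat_lit 23) (nat_lit 5) (nat_lit 26) (nat_lit 5) (nat_lit 24) (nat_lit 5) (nat_lit 350) (nat_lit 281) (nat_lit 230))) (XT.nd (nat_lit 94) (nat_lit 0) (nat_lit 0) (XT.lf (nat_lit 0) (nat_lit 7613805503) (nat_lit 252) (nat_lit 4854158049) (nat_lit 84) (nat_lit 2579109860) (nat_lit 23) (nat_lit 5) (nat_lit 26) (nat_lit 5) (nat_lit 24) (nat_lit 5) (nat_lit 351) (nat_lit 281) (nat_lit 229)) (XT.lf (nat_lit 0) (nat_lit 9623136288) (nat_lit 252) (nat_lit 618492698) (nat_lit 84) (nat_lit 5163563180) (nat_lit 23) (nat_lit 5) (nat_lit 26) (nat_lit 5) (nat_lit 24) (nat_lit 5) (nat_lit 352) (nat_lit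 281) (nat_lit 228)))) (XT.nd (nat_lit 188) (nat_lit 252) (nat_lit 0) (XT.nd (nat_lit 94) (nat_lit 0) (nat_lit 0) (XT.lf (nat_lit 0) (nat_lit 3787155029) (nat_lit 252) (nat_lit 7918209576) (nat_lit 336) (nat_lit 4068825951) (nat_lit 20) (nat_lit 5) (nat_lit 23) (nat_lit 5) (nat_lit 24) (nat_lit 5) (nat_lit 353) (nat_lit 281) (nat_lit 227)) (XT.lf (nat_lit 0) (nat_lit 8305244502) (nat_lit 252) (nat_lit 5526833701) (nat_lit 336) (nat_lit 2323275268) (nat_lit 20) (nat_lit 5) (nat_lit 23) (nat_lit 5) (nat_lit 24) (nat_lit 5) (nat_lit 354) (nat_lit 281) (nat_lit 226))) (XT.nd (nat_lit 94) (nat_lit 252) (nat_lit 0) (XT.lf (nat_lit 0) (nat_lit 12927269574) (nat_lit 252) (nat_lit 3071728145) (nat_lit 336) (nat_lit 550232588) (nat_lit 20) (nat_lit 5) (nat_lit 23) (nat_lit 5) (nat_lit 24) (nat_lit 5) (nat_lit 355) (nat_lit 281) (nat_lit 225)) (XT.nd (nat_lit 94) (nat_lit 0) (nat_lit 0) (XT.lf (nat_lit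 0) (nat_lit 703096537) (nat_lit 168) (nat_lit 530608917) (nat_lit 252) (nat_lit 15721881523) (nat_lit 17) (nat_lit 5) (nat_lit 19) (nat_lit 5) (nat_lit 20) (nat_lit 5) (nat_lit 356) (nat_lit 281) (nat_lit 224)) (XT.lf (nat_lit 0) (nat_lit 3095442353) (nat_lit 252) (nat_lit 12197147470) (nat_lit 84) (nat_lit 2080816395) (nat_lit 17) (nat_lit 5) (nat_lit 20) (nat_lit 5) (nat_lit 18) (nat_lit 5) (nat_lit 357) (nat_lit 281) (nat_lit 223)))))) (XT.nd (nat_lit 470) (nat_lit 252) (nat_lit 0) (XT.nd (nat_lit 188) (nat_lit 168) (nat_lit 0) (XT.nd (nat_lit 94) (nat_lit 0) (nat_lit 0) (XT.lf (nat_lit 0) (nat_lit 4996079364) (nat_lit 252) (nat_lit 8056484499) (nat_lit 84) (nat_lit 4752286151) (nat_lit 17) (nat_lit 5) (nat_lit 20) (nat_lit 5) (nat_lit 18) (nat_lit 5) (nat_lit 358) (nat_lit 281) (nat_lit 222)) (XT.lf (nat_lit 0) (nat_lit 6932124374) (nat_lit 252) (nat_lit 3821378289) (nat_lit 84) (nat_lit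 7496981027) (nat_lit 17) (nat_lit 5) (nat_lit 20) (nat_lit 5) (nat_lit 18) (nat_lit 5) (nat_lit 359) (nat_lit 281) (nat_lit 221))) (XT.nd (nat_lit 94) (nat_lit 0) (nat_lit 0) (XT.lf (nat_lit 0) (nat_lit 522648933) (nat_lit 168) (nat_lit 8387917789) (nat_lit 252) (nat_lit 9799995175) (nat_lit 15) (nat_lit 5) (nat_lit 17) (nat_lit 5) (nat_lit 18) (nat_lit 5) (nat_lit 360) (nat_lit 281) (nat_lit 220)) (XT.nd (nat_lit 94) (nat_lit 0) (nat_lit 0) (XT.lf (nat_lit 0) (nat_lit 5049787779) (nat_lit 168) (nat_lit 5917998206) (nat_lit 252) (nat_lit 8216656891) (nat_lit 15) (nat_lit 5) (nat_lit 17) (nat_lit 5) (nat_lit 18) (nat_lit 5) (nat_lit 361) (nat_lit 281) (nat_lit 219)) (XT.lf (nat_lit 0) (nat_lit 9685682640) (nat_lit 168) (nat_lit 3381329043) (nat_lit 252) (nat_lit 6606755980) (nat_lit 15) (nat_lit 5) (nat_lit 17) (nat_lit 5) (nat_lit 18) (nat_lit 5) (nat_lit 362) (nat_lit 281) (nat_lit 218)))))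 (XT.nd (nat_lit 188) (nat_lit 252) (nat_lit 0) (XT.nd (nat_lit 94) (nat_lit 0) (nat_lit 0) (XT.lf (nat_lit 0) (nat_lit 14434654655) (nat_lit 168) (nat_lit 775545859) (nat_lit 252) (nat_lit 4968791845) (nat_lit 15) (nat_lit 5) (nat_lit 17) (nat_lit 5) (nat_lit 18) (nat_lit 5) (nat_lit 363) (nat_lit 281) (nat_lit 217)) (XT.lf (nat_lit 0) (nat_lit 17418216050) (nat_lit 252) (nat_lit 1418323419) (nat_lit 84) (nat_lit 1863463575) (nat_lit 15) (nat_lit 5) (nat_lit 18) (nat_lit 5) (nat_lit 16) (nat_lit 4) (nat_lit 364) (nat_lit 281) (nat_lit 216))) (XT.nd (nat_lit 94) (nat_lit 84) (nat_lit 0) (XT.lf (nat_lit 0) (nat_lit 3066223193) (nat_lit 168) (nat_lit 16646855013) (nat_lit 252) (nat_lit 1523588333) (nat_lit 13) (nat_lit 5) (nat_lit 15) (nat_lit 5) (nat_lit 16) (nat_lit 4) (nat_lit 365) (nat_lit 281) (nat_lit 215)) (XT.nd (nat_lit 94) (nat_lit 0) (nat_lit 0) (XT.lf (nat_lit 0) (nat_lit 278335960)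 (nat_lit 252) (nat_lit 14102267434) (nat_lit 84) (nat_lit 7409495424) (nat_lit 12) (nat_lit 5) (nat_lit 15) (nat_lit 5) (nat_lit 13) (nat_lit 5) (nat_lit 366) (nat_lit 281) (nat_lit 214)) (XT.lf (nat_lit 0) (nat_lit 2085160709) (nat_lit 252) (nat_lit 9952269584) (nat_lit 84) (nat_lit 10323438307) (nat_lit 12) (nat_lit 5) (nat_lit 15) (nat_lit 5) (nat_lit 13) (nat_lit 5) (nat_lit 367) (nat_lit 281) (nat_lit 213))))))))
noncomputable def xc34 : XT := (XT.nd (nat_lit 48974) (nat_lit 0) (nat_lit 3108) (XT.nd (nat_lit 48128) (nat_lit 0) (nat_lit 7644) (XT.nd (nat_lit 47658) (nat_lit 0) (nat_lit 11088) (XT.nd (nat_lit 47470) (nat_lit 0) (nat_lit 12348) (XT.nd (nat_lit 47376) (nat_lit 0) (nat_lit 12768) (XT.lf (nat_lit 0) (nat_lit 3929266972) (nat_lit 252) (nat_lit 5701467380) (nat_lit 84) (nat_lit 13319242089) (nat_lit 12) (nat_lit 5) (nat_lit 15) (nat_lit 5) (nat_lit 13) (nat_lit 5) (nat_lit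 368) (nat_lit 281) (nat_lit 212)) (XT.lf (nat_lit 0) (nat_lit 257627260) (nat_lit 420) (nat_lit 2772201163) (nat_lit 0) (nat_lit 257627260) (nat_lit 164) (nat_lit 5) (nat_lit 169) (nat_lit 4) (nat_lit 164) (nat_lit 4) (nat_lit 297) (nat_lit 282) (nat_lit 282))) (XT.nd (nat_lit 94) (nat_lit 420) (nat_lit 0) (XT.lf (nat_lit 0) (nat_lit 2963721561) (nat_lit 420) (nat_lit 2583496207) (nat_lit 0) (nat_lit 1056181806) (nat_lit 164) (nat_lit 5) (nat_lit 169) (nat_lit 4) (nat_lit 164) (nat_lit 4) (nat_lit 298) (nat_lit 282) (nat_lit 281)) (XT.lf (nat_lit 0) (nat_lit 415081397) (nat_lit 420) (nat_lit 4989391251) (nat_lit 420) (nat_lit 1231667447) (nat_lit 159) (nat_lit 4) (nat_lit 164) (nat_lit 5) (nat_lit 164) (nat_lit 4) (nat_lit 299) (nat_lit 282) (nat_lit 280)))) (XT.nd (nat_lit 188) (nat_lit 1176) (nat_lit 0) (XT.nd (nat_lit 94) (nat_lit 0) (nat_lit 0) (XT.lf (nat_lit 0) (nat_lit 1165702293)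 (nat_lit 504) (nat_lit 3184735355) (nat_lit 84) (nat_lit 2321666816) (nat_lit 158) (nat_lit 5) (nat_lit 164) (nat_lit 5) (nat_lit 159) (nat_lit 4) (nat_lit 300) (nat_lit 282) (nat_lit 279)) (XT.lf (nat_lit 0) (nat_lit 3527104927) (nat_lit 504) (nat_lit 129321087) (nat_lit 84) (nat_lit 3055701940) (nat_lit 158) (nat_lit 5) (nat_lit 164) (nat_lit 5) (nat_lit 159) (nat_lit 4) (nat_lit 301) (nat_lit 282) (nat_lit 278))) (XT.nd (nat_lit 94) (nat_lit 672) (nat_lit 0) (XT.lf (nat_lit 0) (nat_lit 3021119182) (nat_lit 504) (nat_lit 2888407575) (nat_lit 588) (nat_lit 846170814) (nat_lit 152) (nat_lit 5) (nat_lit 158) (nat_lit 5) (nat_lit 159) (nat_lit 4) (nat_lit 302) (nat_lit 282) (nat_lit 277)) (XT.nd (nat_lit 94) (nat_lit 588) (nat_lit 0) (XT.lf (nat_lit 0) (nat_lit 1453261187) (nat_lit 588) (nat_lit 606427509) (nat_lit 84) (nat_lit 4743586850) (nat_lit 151) (nat_lit 5) (nat_lit 158) (nat_lit 5)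 (nat_lit 152) (nat_lit 5) (nat_lit 303) (nat_lit 282) (nat_lit 276)) (XT.lf (nat_lit 0) (nat_lit 2602064500) (nat_lit 588) (nat_lit 1150851797) (nat_lit 672) (nat_lit 3101429310) (nat_lit 144) (nat_lit 5) (nat_lit 151) (nat_lit 5) (nat_lit 152) (nat_lit 5) (nat_lit 304) (nat_lit 282) (nat_lit 275)))))) (XT.nd (nat_lit 376) (nat_lit 1932) (nat_lit 0) (XT.nd (nat_lit 188) (nat_lit 756) (nat_lit 0) (XT.nd (nat_lit 94) (nat_lit 756) (nat_lit 0) (XT.lf (nat_lit 0) (nat_lit 5863084222) (nat_lit 588) (nat_lit 189602324) (nat_lit 672) (nat_lit 857127326) (nat_lit 144) (nat_lit 5) (nat_lit 151) (nat_lit 5) (nat_lit 152) (nat_lit 5) (nat_lit 305) (nat_lit 282) (nat_lit 274)) (XT.lf (nat_lit 0) (nat_lit 1381470728) (nat_lit 756) (nat_lit 4748797487) (nat_lit 84) (nat_lit 838281775) (nat_lit 135) (nat_lit 5) (nat_lit 144) (nat_lit 5) (nat_lit 136) (nat_lit 5) (nat_lit 306) (nat_lit 282) (nat_lit 273)))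 (XT.nd (nat_lit 94) (nat_lit 756) (nat_lit 0) (XT.lf (nat_lit 0) (nat_lit 3609978326) (nat_lit 756) (nat_lit 1492456740) (nat_lit 84) (nat_lit 1928867627) (nat_lit 135) (nat_lit 5) (nat_lit 144) (nat_lit 5) (nat_lit 136) (nat_lit 5) (nat_lit 307) (nat_lit 282) (nat_lit 272)) (XT.lf (nat_lit 0) (nat_lit 1841251737) (nat_lit 756) (nat_lit 4012169121) (nat_lit 840) (nat_lit 1244797150) (nat_lit 126) (nat_lit 5) (nat_lit 135) (nat_lit 5) (nat_lit 136) (nat_lit 5) (nat_lit 308) (nat_lit 282) (nat_lit 271)))) (XT.nd (nat_lit 188) (nat_lit 1008) (nat_lit 0) (XT.nd (nat_lit 94) (nat_lit 840) (nat_lit 0) (XT.lf (nat_lit 0) (nat_lit 922739106) (nat_lit 840) (nat_lit 1928902152) (nat_lit 84) (nat_lit 4317512204) (nat_lit 125) (nat_lit 5) (nat_lit 135) (nat_lit 5) (nat_lit 126) (nat_lit 5) (nat_lit 309) (nat_lit 282) (nat_lit 270)) (XT.lf (nat_lit 0) (nat_lit 1458807743) (nat_lit 840) (nat_lit 1617373283)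 (nat_lit 924) (nat_lit 4167922092) (nat_lit 115) (nat_lit 5) (nat_lit 125) (nat_lit 5) (nat_lit 126) (nat_lit 5) (nat_lit 310) (nat_lit 282) (nat_lit 269))) (XT.nd (nat_lit 94) (nat_lit 1008) (nat_lit 0) (XT.lf (nat_lit 0) (nat_lit 4932853082) (nat_lit 840) (nat_lit 315269011) (nat_lit 924) (nat_lit 2075226847) (nat_lit 115) (nat_lit 5) (nat_lit 125) (nat_lit 5) (nat_lit 126) (nat_lit 5) (nat_lit 311) (nat_lit 282) (nat_lit 268)) (XT.nd (nat_lit 94) (nat_lit 0) (nat_lit 0) (XT.lf (nat_lit 0) (nat_lit 34222485) (nat_lit 1008) (nat_lit 6346943913) (nat_lit 84) (nat_lit 1025748445) (nat_lit 103) (nat_lit 5) (nat_lit 115) (nat_lit 5) (nat_lit 104) (nat_lit 5) (nat_lit 312) (nat_lit 282) (nat_lit 267)) (XT.lf (nat_lit 0) (nat_lit 2128435082) (nat_lit 1008) (nat_lit 2910490073) (nat_lit 84) (nat_lit 2455086380) (nat_lit 103) (nat_lit 5) (nat_lit 115) (nat_lit 5) (nat_lit 104) (nat_lit 5) (nat_lit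 313) (nat_lit 282) (nat_lit 266))))))) (XT.nd (nat_lit 846) (nat_lit 1764) (nat_lit 0) (XT.nd (nat_lit 376) (nat_lit 1092) (nat_lit 0) (XT.nd (nat_lit 188) (nat_lit 672) (nat_lit 0) (XT.nd (nat_lit 94) (nat_lit 0) (nat_lit 0) (XT.lf (nat_lit 0) (nat_lit 584555130) (nat_lit 1008) (nat_lit 3644841239) (nat_lit 1092) (nat_lit 3356637127) (nat_lit 91) (nat_lit 5) (nat_lit 103) (nat_lit 5) (nat_lit 104) (nat_lit 5) (nat_lit 314) (nat_lit 282) (nat_lit 265)) (XT.lf (nat_lit 0) (nat_lit 4190535980) (nat_lit 1008) (nat_lit 2172697334) (nat_lit 1092) (nat_lit 1319083956) (nat_lit 91) (nat_lit 5) (nat_lit 103) (nat_lit 5) (nat_lit 104) (nat_lit 5) (nat_lit 315) (nat_lit 282) (nat_lit 264))) (XT.nd (nat_lit 94) (nat_lit 0) (nat_lit 0) (XT.lf (nat_lit 0) (nat_lit 61206474) (nat_lit 588) (nat_lit 643525183) (nat_lit 672) (nat_lit 7078894585) (nat_lit 83) (nat_lit 5) (nat_lit 90) (nat_lit 5) (nat_lit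 91) (nat_lit 5) (nat_lit 316) (nat_lit 282) (nat_lit 263)) (XT.lf (nat_lit 0) (nat_lit 2749498658) (nat_lit 672) (nat_lit 4172366156) (nat_lit 84) (nat_lit 966612170) (nat_lit 83) (nat_lit 5) (nat_lit 91) (nat_lit 5) (nat_lit 84) (nat_lit 5) (nat_lit 317) (nat_lit 282) (nat_lit 262)))) (XT.nd (nat_lit 188) (nat_lit 588) (nat_lit 0) (XT.nd (nat_lit 94) (nat_lit 504) (nat_lit 0) (XT.lf (nat_lit 0) (nat_lit 4805590946) (nat_lit 672) (nat_lit 577679811) (nat_lit 84) (nat_lit 2615283488) (nat_lit 83) (nat_lit 5) (nat_lit 91) (nat_lit 5) (nat_lit 84) (nat_lit 5) (nat_lit 318) (nat_lit 282) (nat_lit 261)) (XT.lf (nat_lit 0) (nat_lit 3134527485) (nat_lit 504) (nat_lit 3765108581) (nat_lit 588) (nat_lit 1213558518) (nat_lit 77) (nat_lit 5) (nat_lit 83) (nat_lit 5) (nat_lit 84) (nat_lit 5) (nat_lit 319) (nat_lit 282) (nat_lit 260))) (XT.nd (nat_lit 94) (nat_lit 504) (nat_lit 0) (XT.lf (nat_lit 0)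 (nat_lit 759997963) (nat_lit 588) (nat_lit 1323395155) (nat_lit 84) (nat_lit 6149638625) (nat_lit 76) (nat_lit 5) (nat_lit 83) (nat_lit 5) (nat_lit 77) (nat_lit 5) (nat_lit 320) (nat_lit 282) (nat_lit 259)) (XT.nd (nat_lit 94) (nat_lit 0) (nat_lit 0) (XT.lf (nat_lit 0) (nat_lit 2425402988) (nat_lit 504) (nat_lit 313251518) (nat_lit 588) (nat_lit 5618822175) (nat_lit 70) (nat_lit 5) (nat_lit 76) (nat_lit 5) (nat_lit 77) (nat_lit 5) (nat_lit 321) (nat_lit 282) (nat_lit 258)) (XT.lf (nat_lit 0) (nat_lit 4753750242) (nat_lit 588) (nat_lit 2239654148) (nat_lit 84) (nat_lit 1493457828) (nat_lit 70) (nat_lit 5) (nat_lit 77) (nat_lit 5) (nat_lit 71) (nat_lit 5) (nat_lit 322) (nat_lit 282) (nat_lit 257)))))) (XT.nd (nat_lit 470) (nat_lit 840) (nat_lit 0) (XT.nd (nat_lit 188) (nat_lit 420) (nat_lit 0) (XT.nd (nat_lit 94) (nat_lit 84) (nat_lit 0) (XT.lf (nat_lit 0) (nat_lit 1539135721) (nat_lit 420)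 (nat_lit 5258418787) (nat_lit 504) (nat_lit 1824052323) (nat_lit 65) (nat_lit 5) (nat_lit 70) (nat_lit 5) (nat_lit 71) (nat_lit 5) (nat_lit 323) (nat_lit 282) (nat_lit 256)) (XT.lf (nat_lit 0) (nat_lit 112879105) (nat_lit 504) (nat_lit 3335614151) (nat_lit 84) (nat_lit 5313155174) (nat_lit 64) (nat_lit 5) (nat_lit 70) (nat_lit 5) (nat_lit 65) (nat_lit 5) (nat_lit 324) (nat_lit 282) (nat_lit 255))) (XT.nd (nat_lit 94) (nat_lit 0) (nat_lit 0) (XT.lf (nat_lit 0) (nat_lit 463085829) (nat_lit 420) (nat_lit 1563017243) (nat_lit 504) (nat_lit 6881046843) (nat_lit 59) (nat_lit 5) (nat_lit 64) (nat_lit 5) (nat_lit 65) (nat_lit 5) (nat_lit 325) (nat_lit 282) (nat_lit 254)) (XT.nd (nat_lit 94) (nat_lit 0) (nat_lit 0) (XT.lf (nat_lit 0) (nat_lit 3988060467) (nat_lit 504) (nat_lit 4666137547) (nat_lit 84) (nat_lit 403558719) (nat_lit 59) (nat_lit 5) (nat_lit 65) (nat_lit 5) (nat_lit 60) (nat_lit 5) (nat_lit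 326) (nat_lit 282) (nat_lit 253)) (XT.lf (nat_lit 0) (nat_lit 5978785498) (nat_lit 504) (nat_lit 841571038) (nat_lit 84) (nat_lit 2393928359) (nat_lit 59) (nat_lit 5) (nat_lit 65) (nat_lit 5) (nat_lit 60) (nat_lit 5) (nat_lit 327) (nat_lit 282) (nat_lit 252))))) (XT.nd (nat_lit 188) (nat_lit 420) (nat_lit 0) (XT.nd (nat_lit 94) (nat_lit 84) (nat_lit 0) (XT.lf (nat_lit 0) (nat_lit 3111393302) (nat_lit 336) (nat_lit 4904100510) (nat_lit 420) (nat_lit 1360910327) (nat_lit 55) (nat_lit 5) (nat_lit 59) (nat_lit 5) (nat_lit 60) (nat_lit 5) (nat_lit 328) (nat_lit 282) (nat_lit 251)) (XT.lf (nat_lit 0) (nat_lit 522726045) (nat_lit 420) (nat_lit 2397805442) (nat_lit 84) (nat_lit 6624241868) (nat_lit 54) (nat_lit 5) (nat_lit 59) (nat_lit 5) (nat_lit 55) (nat_lit 5) (nat_lit 329) (nat_lit 282) (nat_lit 250))) (XT.nd (nat_lit 94) (nat_lit 0) (nat_lit 0) (XT.lf (nat_lit 0) (nat_lit 1554791846) (nat_lit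 420) (nat_lit 852094671) (nat_lit 504) (nat_lit 7312190721) (nat_lit 49) (nat_lit 5) (nat_lit 54) (nat_lit 5) (nat_lit 55) (nat_lit 5) (nat_lit 330) (nat_lit 282) (nat_lit 249)) (XT.nd (nat_lit 94) (nat_lit 0) (nat_lit 0) (XT.lf (nat_lit 0) (nat_lit 4343192187) (nat_lit 504) (nat_lit 4283108291) (nat_lit 84) (nat_lit 1272900479) (nat_lit 49) (nat_lit 5) (nat_lit 55) (nat_lit 5) (nat_lit 50) (nat_lit 5) (nat_lit 331) (nat_lit 282) (nat_lit 248)) (XT.lf (nat_lit 0) (nat_lit 6305318484) (nat_lit 504) (nat_lit 341632390) (nat_lit 84) (nat_lit 3439233545) (nat_lit 49) (nat_lit 5) (nat_lit 55) (nat_lit 5) (nat_lit 50) (nat_lit 5) (nat_lit 332) (nat_lit 282) (nat_lit 247))))))))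
noncomputable def xc35 : XT := (XT.nd (nat_lit 1786) (nat_lit 924) (nat_lit 0) (XT.nd (nat_lit 846) (nat_lit 756) (nat_lit 0) (XT.nd (nat_lit 376) (nat_lit 672) (nat_lit 0) (XT.nd (nat_lit 188) (nat_lit 420) (nat_lit 0) (XT.nd (nat_lit 94) (nat_lit 0) (nat_lit 0) (XT.lf (nat_lit 0) (nat_lit 3747778447) (nat_lit 336) (nat_lit 4576041408) (nat_lit 420) (nat_lit 1955491564) (nat_lit 45) (nat_lit 5) (nat_lit 49) (nat_lit 5) (nat_lit 50) (nat_lit 5) (nat_lit 333) (nat_lit 282) (nat_lit 246)) (XT.lf (nat_lit 0) (nat_lit 7921947024) (nat_lit 336) (nat_lit 2445647495) (nat_lit 420) (nat_lit 112189932) (nat_lit 45) (nat_lit 5) (nat_lit 49) (nat_lit 5) (nat_lit 50) (nat_lit 5) (nat_lit 334) (nat_lit 282) (nat_lit 245))) (XT.nd (nat_lit 94) (nat_lit 0) (nat_lit 0) (XT.lf (nat_lit 0) (nat_lit 1502787303) (nat_lit 336) (nat_lit 224109690) (nat_lit 420) (nat_lit 8960001162) (nat_lit 40) (nat_lit 5) (nat_lit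 44) (nat_lit 5) (nat_lit 45) (nat_lit 5) (nat_lit 335) (nat_lit 282) (nat_lit 244)) (XT.lf (nat_lit 0) (nat_lit 3628542578) (nat_lit 420) (nat_lit 5227628877) (nat_lit 84) (nat_lit 2044166199) (nat_lit 40) (nat_lit 5) (nat_lit 45) (nat_lit 5) (nat_lit 41) (nat_lit 5) (nat_lit 336) (nat_lit 282) (nat_lit 243)))) (XT.nd (nat_lit 188) (nat_lit 420) (nat_lit 0) (XT.nd (nat_lit 94) (nat_lit 252) (nat_lit 0) (XT.lf (nat_lit 0) (nat_lit 5553029603) (nat_lit 420) (nat_lit 1198917995) (nat_lit 84) (nat_lit 4369745052) (nat_lit 40) (nat_lit 5) (nat_lit 45) (nat_lit 5) (nat_lit 41) (nat_lit 5) (nat_lit 337) (nat_lit 282) (nat_lit 242)) (XT.lf (nat_lit 0) (nat_lit 2967794617) (nat_lit 252) (nat_lit 4561574970) (nat_lit 336) (nat_lit 3820956135) (nat_lit 37) (nat_lit 5) (nat_lit 40) (nat_lit 5) (nat_lit 41) (nat_lit 5) (nat_lit 338) (nat_lit 282) (nat_lit 241))) (XT.nd (nat_lit 94) (nat_lit 420) (nat_lit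 0) (XT.lf (nat_lit 0) (nat_lit 7242881618) (nat_lit 252) (nat_lit 2300023238) (nat_lit 336) (nat_lit 2044056618) (nat_lit 37) (nat_lit 5) (nat_lit 40) (nat_lit 5) (nat_lit 41) (nat_lit 5) (nat_lit 339) (nat_lit 282) (nat_lit 240)) (XT.nd (nat_lit 94) (nat_lit 420) (nat_lit 0) (XT.lf (nat_lit 0) (nat_lit 11583595502) (nat_lit 336) (nat_lit 226742362) (nat_lit 84) (nat_lit 21852032) (nat_lit 37) (nat_lit 5) (nat_lit 41) (nat_lit 5) (nat_lit 38) (nat_lit 5) (nat_lit 340) (nat_lit 282) (nat_lit 239)) (XT.lf (nat_lit 0) (nat_lit 1599387571) (nat_lit 420) (nat_lit 8069150504) (nat_lit 84) (nat_lit 2415239997) (nat_lit 32) (nat_lit 5) (nat_lit 37) (nat_lit 5) (nat_lit 33) (nat_lit 5) (nat_lit 341) (nat_lit 282) (nat_lit 238)))))) (XT.nd (nat_lit 470) (nat_lit 504) (nat_lit 0) (XT.nd (nat_lit 188) (nat_lit 0) (nat_lit 0) (XT.nd (nat_lit 94) (nat_lit 252) (nat_lit 0) (XT.lf (nat_lit 0) (nat_lit 3467477493)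 (nat_lit 420) (nat_lit 3998386372) (nat_lit 84) (nat_lit 4878364719) (nat_lit 32) (nat_lit 5) (nat_lit 37) (nat_lit 5) (nat_lit 33) (nat_lit 5) (nat_lit 342) (nat_lit 282) (nat_lit 237)) (XT.lf (nat_lit 0) (nat_lit 158095910) (nat_lit 252) (nat_lit 5203578627) (nat_lit 336) (nat_lit 7252209379) (nat_lit 29) (nat_lit 5) (nat_lit 32) (nat_lit 5) (nat_lit 33) (nat_lit 5) (nat_lit 343) (nat_lit 282) (nat_lit 236))) (XT.nd (nat_lit 94) (nat_lit 0) (nat_lit 0) (XT.lf (nat_lit 0) (nat_lit 4484974043) (nat_lit 252) (nat_lit 2838555297) (nat_lit 336) (nat_lit 5568232743) (nat_lit 29) (nat_lit 5) (nat_lit 32) (nat_lit 5) (nat_lit 33) (nat_lit 5) (nat_lit 344) (nat_lit 282) (nat_lit 235)) (XT.nd (nat_lit 94) (nat_lit 0) (nat_lit 0) (XT.lf (nat_lit 0) (nat_lit 8904066105) (nat_lit 252) (nat_lit 410324378) (nat_lit 336) (nat_lit 3864986495) (nat_lit 29) (nat_lit 5) (nat_lit 32) (nat_lit 5) (nat_lit 33)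 (nat_lit 5) (nat_lit 345) (nat_lit 282) (nat_lit 234)) (XT.lf (nat_lit 0) (nat_lit 11356781019) (nat_lit 336) (nat_lit 78172897) (nat_lit 84) (nat_lit 2041402082) (nat_lit 29) (nat_lit 5) (nat_lit 33) (nat_lit 5) (nat_lit 30) (nat_lit 5) (nat_lit 346) (nat_lit 282) (nat_lit 233))))) (XT.nd (nat_lit 188) (nat_lit 168) (nat_lit 0) (XT.nd (nat_lit 94) (nat_lit 84) (nat_lit 0) (XT.lf (nat_lit 0) (nat_lit 4290934445) (nat_lit 252) (nat_lit 9188293206) (nat_lit 336) (nat_lit 302922996) (nat_lit 26) (nat_lit 5) (nat_lit 29) (nat_lit 5) (nat_lit 30) (nat_lit 5) (nat_lit 347) (nat_lit 282) (nat_lit 232)) (XT.lf (nat_lit 0) (nat_lit 1509297522) (nat_lit 336) (nat_lit 5356567007) (nat_lit 84) (nat_lit 7232100817) (nat_lit 25) (nat_lit 5) (nat_lit 29) (nat_lit 5) (nat_lit 26) (nat_lit 5) (nat_lit 348) (nat_lit 282) (nat_lit 231))) (XT.nd (nat_lit 94) (nat_lit 168) (nat_lit 0) (XT.lf (nat_lit 0) (nat_lit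 3342365586) (nat_lit 336) (nat_lit 1136342671) (nat_lit 84) (nat_lit 9945783258) (nat_lit 25) (nat_lit 5) (nat_lit 29) (nat_lit 5) (nat_lit 26) (nat_lit 5) (nat_lit 349) (nat_lit 282) (nat_lit 230)) (XT.nd (nat_lit 94) (nat_lit 0) (nat_lit 0) (XT.lf (nat_lit 0) (nat_lit 3241708733) (nat_lit 168) (nat_lit 1994542448) (nat_lit 252) (nat_lit 9524878585) (nat_lit 23) (nat_lit 5) (nat_lit 25) (nat_lit 5) (nat_lit 26) (nat_lit 5) (nat_lit 350) (nat_lit 282) (nat_lit 229)) (XT.lf (nat_lit 0) (nat_lit 7178654139) (nat_lit 252) (nat_lit 7372801275) (nat_lit 84) (nat_lit 557174495) (nat_lit 23) (nat_lit 5) (nat_lit 26) (nat_lit 5) (nat_lit 24) (nat_lit 5) (nat_lit 351) (nat_lit 282) (nat_lit 228))))))) (XT.nd (nat_lit 846) (nat_lit 420) (nat_lit 0) (XT.nd (nat_lit 376) (nat_lit 252) (nat_lit 0) (XT.nd (nat_lit 188) (nat_lit 0) (nat_lit 0) (XT.nd (nat_lit 94) (nat_lit 252) (nat_lit 0) (XT.lf (nat_lit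 0) (nat_lit 9174710296) (nat_lit 252) (nat_lit 3155661765) (nat_lit 84) (nat_lit 3136840706) (nat_lit 23) (nat_lit 5) (nat_lit 26) (nat_lit 5) (nat_lit 24) (nat_lit 5) (nat_lit 352) (nat_lit 282) (nat_lit 227)) (XT.lf (nat_lit 0) (nat_lit 1179478279) (nat_lit 252) (nat_lit 10038716370) (nat_lit 336) (nat_lit 4619268579) (nat_lit 20) (nat_lit 5) (nat_lit 23) (nat_lit 5) (nat_lit 24) (nat_lit 5) (nat_lit 353) (nat_lit 282) (nat_lit 226))) (XT.nd (nat_lit 94) (nat_lit 0) (nat_lit 0) (XT.lf (nat_lit 0) (nat_lit 5679780861) (nat_lit 252) (nat_lit 7652462588) (nat_lit 336) (nat_lit 2886824777) (nat_lit 20) (nat_lit 5) (nat_lit 23) (nat_lit 5) (nat_lit 24) (nat_lit 5) (nat_lit 354) (nat_lit 282) (nat_lit 225)) (XT.lf (nat_lit 0) (nat_lit 10284553858) (nat_lit 252) (nat_lit 5202325115) (nat_lit 336) (nat_lit 1126494882) (nat_lit 20) (nat_lit 5) (nat_lit 23) (nat_lit 5) (nat_lit 24) (nat_lit 5) (nat_lit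 355) (nat_lit 282) (nat_lit 224)))) (XT.nd (nat_lit 188) (nat_lit 0) (nat_lit 0) (XT.nd (nat_lit 94) (nat_lit 168) (nat_lit 0) (XT.lf (nat_lit 0) (nat_lit 649996652) (nat_lit 336) (nat_lit 2029238881) (nat_lit 84) (nat_lit 14341308115) (nat_lit 19) (nat_lit 5) (nat_lit 23) (nat_lit 5) (nat_lit 20) (nat_lit 5) (nat_lit 356) (nat_lit 282) (nat_lit 223)) (XT.lf (nat_lit 0) (nat_lit 2407062934) (nat_lit 168) (nat_lit 51173977) (nat_lit 252) (nat_lit 14981828161) (nat_lit 17) (nat_lit 5) (nat_lit 19) (nat_lit 5) (nat_lit 20) (nat_lit 5) (nat_lit 357) (nat_lit 282) (nat_lit 222))) (XT.nd (nat_lit 94) (nat_lit 0) (nat_lit 0) (XT.lf (nat_lit 0) (nat_lit 4346789831) (nat_lit 252) (nat_lit 10908531324) (nat_lit 84) (nat_lit 2616604790) (nat_lit 17) (nat_lit 5) (nat_lit 20) (nat_lit 5) (nat_lit 18) (nat_lit 5) (nat_lit 358) (nat_lit 282) (nat_lit 221)) (XT.nd (nat_lit 94) (nat_lit 0) (nat_lit 0) (XT.lf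 (nat_lit 0) (nat_lit 6271606481) (nat_lit 252) (nat_lit 6689622795) (nat_lit 84) (nat_lit 5356719618) (nat_lit 17) (nat_lit 5) (nat_lit 20) (nat_lit 5) (nat_lit 18) (nat_lit 5) (nat_lit 359) (nat_lit 282) (nat_lit 220)) (XT.lf (nat_lit 0) (nat_lit 8233973340) (nat_lit 252) (nat_lit 2371836435) (nat_lit 84) (nat_lit 8172755622) (nat_lit 17) (nat_lit 5) (nat_lit 20) (nat_lit 5) (nat_lit 18) (nat_lit 5) (nat_lit 360) (nat_lit 282) (nat_lit 219)))))) (XT.nd (nat_lit 470) (nat_lit 252) (nat_lit 0) (XT.nd (nat_lit 188) (nat_lit 0) (nat_lit 0) (XT.nd (nat_lit 94) (nat_lit 0) (nat_lit 0) (XT.lf (nat_lit 0) (nat_lit 2090980994) (nat_lit 168) (nat_lit 8165481336) (nat_lit 252) (nat_lit 8997099438) (nat_lit 15) (nat_lit 5) (nat_lit 17) (nat_lit 5) (nat_lit 18) (nat_lit 5) (nat_lit 361) (nat_lit 282) (nat_lit 218)) (XT.lf (nat_lit 0) (nat_lit 6711791863) (nat_lit 168) (nat_lit 5633500860) (nat_lit 252)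 (nat_lit 7397953675) (nat_lit 15) (nat_lit 5) (nat_lit 17) (nat_lit 5) (nat_lit 18) (nat_lit 5) (nat_lit 362) (nat_lit 282) (nat_lit 217))) (XT.nd (nat_lit 94) (nat_lit 0) (nat_lit 0) (XT.lf (nat_lit 0) (nat_lit 11446133430) (nat_lit 168) (nat_lit 3032265384) (nat_lit 252) (nat_lit 5770421303) (nat_lit 15) (nat_lit 5) (nat_lit 17) (nat_lit 5) (nat_lit 18) (nat_lit 5) (nat_lit 363) (nat_lit 282) (nat_lit 216)) (XT.nd (nat_lit 94) (nat_lit 0) (nat_lit 0) (XT.lf (nat_lit 0) (nat_lit 16298418599) (nat_lit 168) (nat_lit 359350284) (nat_lit 252) (nat_lit 4112985292) (nat_lit 15) (nat_lit 5) (nat_lit 17) (nat_lit 5) (nat_lit 18) (nat_lit 5) (nat_lit 364) (nat_lit 282) (nat_lit 215)) (XT.lf (nat_lit 0) (nat_lit 18909120964) (nat_lit 252) (nat_lit 60051497) (nat_lit 84) (nat_lit 2339628320) (nat_lit 15) (nat_lit 5) (nat_lit 18) (nat_lit 5) (nat_lit 16) (nat_lit 4) (nat_lit 365) (nat_lit 282) (nat_lit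 214))))) (XT.nd (nat_lit 188) (nat_lit 0) (nat_lit 0) (XT.nd (nat_lit 94) (nat_lit 84) (nat_lit 0) (XT.lf (nat_lit 0) (nat_lit 4549319641) (nat_lit 168) (nat_lit 16710981000) (nat_lit 252) (nat_lit 602362652) (nat_lit 13) (nat_lit 5) (nat_lit 15) (nat_lit 5) (nat_lit 16) (nat_lit 4) (nat_lit 366) (nat_lit 282) (nat_lit 213)) (XT.lf (nat_lit 0) (nat_lit 1207376277) (nat_lit 252) (nat_lit 13171080571) (nat_lit 84) (nat_lit 8055478649) (nat_lit 12) (nat_lit 5) (nat_lit 15) (nat_lit 5) (nat_lit 13) (nat_lit 5) (nat_lit 367) (nat_lit 282) (nat_lit 212))) (XT.nd (nat_lit 47188) (nat_lit 0) (nat_lit 13104) (XT.lf (nat_lit 0) (nat_lit 3042537744) (nat_lit 252) (nat_lit 8933576408) (nat_lit 84) (nat_lit 11047236831) (nat_lit 12) (nat_lit 5) (nat_lit 15) (nat_lit 5) (nat_lit 13) (nat_lit 5) (nat_lit 368) (nat_lit 282) (nat_lit 211)) (XT.nd (nat_lit 94) (nat_lit 84) (nat_lit 0) (XT.lf (nat_lit 0) (nat_lit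 873785129) (nat_lit 252) (nat_lit 1194646918) (nat_lit 252) (nat_lit 1194646918) (nat_lit 169) (nat_lit 4) (nat_lit 172) (nat_lit 5) (nat_lit 172) (nat_lit 4) (nat_lit 295) (nat_lit 283) (nat_lit 283)) (XT.lf (nat_lit 0) (nat_lit 58387547) (nat_lit 336) (nat_lit 1909055257) (nat_lit 84) (nat_lit 4582123446) (nat_lit 168) (nat_lit 5) (nat_lit 172) (nat_lit 5) (nat_lit 169) (nat_lit 4) (nat_lit 296) (nat_lit 283) (nat_lit 282))))))))
noncomputable def xc36 : XT := (XT.nd (nat_lit 1692) (nat_lit 4872) (nat_lit 0) (XT.nd (nat_lit 846) (nat_lit 3360) (nat_lit 0) (XT.nd (nat_lit 376) (nat_lit 1260) (nat_lit 0) (XT.nd (nat_lit 188) (nat_lit 504) (nat_lit 0) (XT.nd (nat_lit 94) (nat_lit 0) (nat_lit 0) (XT.lf (nat_lit 0) (nat_lit 985570045) (nat_lit 336) (nat_lit 1466366881) (nat_lit 420) (nat_lit 4124298597) (nat_lit 164) (nat_lit 5) (nat_lit 168) (nat_lit 5) (nat_lit 169) (nat_lit 4) (nat_lit 297)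 (nat_lit 283) (nat_lit 281)) (XT.lf (nat_lit 0) (nat_lit 3951717084) (nat_lit 336) (nat_lit 899868682) (nat_lit 420) (nat_lit 1755033903) (nat_lit 164) (nat_lit 5) (nat_lit 168) (nat_lit 5) (nat_lit 169) (nat_lit 4) (nat_lit 298) (nat_lit 283) (nat_lit 280))) (XT.nd (nat_lit 94) (nat_lit 0) (nat_lit 0) (XT.lf (nat_lit 0) (nat_lit 311893185) (nat_lit 420) (nat_lit 278031550) (nat_lit 504) (nat_lit 6051141335) (nat_lit 158) (nat_lit 5) (nat_lit 163) (nat_lit 5) (nat_lit 164) (nat_lit 5) (nat_lit 299) (nat_lit 283) (nat_lit 279)) (XT.lf (nat_lit 0) (nat_lit 2918016958) (nat_lit 504) (nat_lit 3333052238) (nat_lit 84) (nat_lit 427309894) (nat_lit 158) (nat_lit 5) (nat_lit 164) (nat_lit 5) (nat_lit 159) (nat_lit 4) (nat_lit 300) (nat_lit 283) (nat_lit 278)))) (XT.nd (nat_lit 188) (nat_lit 672) (nat_lit 0) (XT.nd (nat_lit 94) (nat_lit 588) (nat_lit 0) (XT.lf (nat_lit 0) (nat_lit 5238969488) (nat_lit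 504) (nat_lit 307456119) (nat_lit 84) (nat_lit 1173569522) (nat_lit 158) (nat_lit 5) (nat_lit 164) (nat_lit 5) (nat_lit 159) (nat_lit 4) (nat_lit 301) (nat_lit 283) (nat_lit 277)) (XT.lf (nat_lit 0) (nat_lit 798468654) (nat_lit 588) (nat_lit 3963453109) (nat_lit 84) (nat_lit 2003002033) (nat_lit 151) (nat_lit 5) (nat_lit 158) (nat_lit 5) (nat_lit 152) (nat_lit 5) (nat_lit 302) (nat_lit 283) (nat_lit 276))) (XT.nd (nat_lit 94) (nat_lit 672) (nat_lit 0) (XT.lf (nat_lit 0) (nat_lit 3041809794) (nat_lit 588) (nat_lit 873436875) (nat_lit 84) (nat_lit 2898514160) (nat_lit 151) (nat_lit 5) (nat_lit 158) (nat_lit 5) (nat_lit 152) (nat_lit 5) (nat_lit 303) (nat_lit 283) (nat_lit 275)) (XT.nd (nat_lit 94) (nat_lit 84) (nat_lit 0) (XT.lf (nat_lit 0) (nat_lit 2300125442) (nat_lit 588) (nat_lit 3000475705) (nat_lit 672) (nat_lit 1565796192) (nat_lit 144) (nat_lit 5) (nat_lit 151) (nat_lit 5) (nat_lit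 152) (nat_lit 5) (nat_lit 304) (nat_lit 283) (nat_lit 274)) (XT.lf (nat_lit 0) (nat_lit 627158930) (nat_lit 672) (nat_lit 1397062179) (nat_lit 84) (nat_lit 4898885731) (nat_lit 143) (nat_lit 5) (nat_lit 151) (nat_lit 5) (nat_lit 144) (nat_lit 5) (nat_lit 305) (nat_lit 283) (nat_lit 273)))))) (XT.nd (nat_lit 376) (nat_lit 1848) (nat_lit 0) (XT.nd (nat_lit 188) (nat_lit 840) (nat_lit 0) (XT.nd (nat_lit 94) (nat_lit 0) (nat_lit 0) (XT.lf (nat_lit 0) (nat_lit 1832977625) (nat_lit 672) (nat_lit 966556019) (nat_lit 756) (nat_lit 4183836750) (nat_lit 135) (nat_lit 5) (nat_lit 143) (nat_lit 5) (nat_lit 144) (nat_lit 5) (nat_lit 306) (nat_lit 283) (nat_lit 272)) (XT.lf (nat_lit 0) (nat_lit 4982798409) (nat_lit 756) (nat_lit 1914338582) (nat_lit 84) (nat_lit 150653856) (nat_lit 135) (nat_lit 5) (nat_lit 144) (nat_lit 5) (nat_lit 136) (nat_lit 5) (nat_lit 307) (nat_lit 283) (nat_lit 271))) (XT.nd (nat_lit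 94) (nat_lit 0) (nat_lit 0) (XT.lf (nat_lit 0) (nat_lit 69488193) (nat_lit 840) (nat_lit 5735757792) (nat_lit 84) (nat_lit 1310909173) (nat_lit 125) (nat_lit 5) (nat_lit 135) (nat_lit 5) (nat_lit 126) (nat_lit 5) (nat_lit 308) (nat_lit 283) (nat_lit 270)) (XT.lf (nat_lit 0) (nat_lit 2177526960) (nat_lit 840) (nat_lit 2449675198) (nat_lit 84) (nat_lit 2560814607) (nat_lit 125) (nat_lit 5) (nat_lit 135) (nat_lit 5) (nat_lit 126) (nat_lit 5) (nat_lit 309) (nat_lit 283) (nat_lit 269)))) (XT.nd (nat_lit 188) (nat_lit 1008) (nat_lit 0) (XT.nd (nat_lit 94) (nat_lit 0) (nat_lit 0) (XT.lf (nat_lit 0) (nat_lit 897993559) (nat_lit 840) (nat_lit 3394029237) (nat_lit 924) (nat_lit 2972385686) (nat_lit 115) (nat_lit 5) (nat_lit 125) (nat_lit 5) (nat_lit 126) (nat_lit 5) (nat_lit 310) (nat_lit 283) (nat_lit 268)) (XT.lf (nat_lit 0) (nat_lit 4343587903) (nat_lit 840) (nat_lit 2087714735) (nat_lit 924) (nat_lit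 913591842) (nat_lit 115) (nat_lit 5) (nat_lit 125) (nat_lit 5) (nat_lit 126) (nat_lit 5) (nat_lit 311) (nat_lit 283) (nat_lit 267))) (XT.nd (nat_lit 94) (nat_lit 0) (nat_lit 0) (XT.lf (nat_lit 0) (nat_lit 406489217) (nat_lit 924) (nat_lit 716770746) (nat_lit 1008) (nat_lit 6306582367) (nat_lit 103) (nat_lit 5) (nat_lit 114) (nat_lit 5) (nat_lit 115) (nat_lit 5) (nat_lit 312) (nat_lit 283) (nat_lit 266)) (XT.nd (nat_lit 94) (nat_lit 0) (nat_lit 0) (XT.lf (nat_lit 0) (nat_lit 3178864933) (nat_lit 1008) (nat_lit 3609191176) (nat_lit 84) (nat_lit 730287501) (nat_lit 103) (nat_lit 5) (nat_lit 115) (nat_lit 5) (nat_lit 104) (nat_lit 5) (nat_lit 313) (nat_lit 283) (nat_lit 265)) (XT.lf (nat_lit 0) (nat_lit 5243477240) (nat_lit 1008) (nat_lit 154441746) (nat_lit 84) (nat_lit 2213774906) (nat_lit 103) (nat_lit 5) (nat_lit 115) (nat_lit 5) (nat_lit 104) (nat_lit 5) (nat_lit 314) (nat_lit 283) (nat_lit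 264))))))) (XT.nd (nat_lit 846) (nat_lit 1680) (nat_lit 0) (XT.nd (nat_lit 376) (nat_lit 1512) (nat_lit 0) (XT.nd (nat_lit 188) (nat_lit 588) (nat_lit 0) (XT.nd (nat_lit 94) (nat_lit 84) (nat_lit 0) (XT.lf (nat_lit 0) (nat_lit 3420133895) (nat_lit 1008) (nat_lit 3925705123) (nat_lit 1092) (nat_lit 363309823) (nat_lit 91) (nat_lit 5) (nat_lit 103) (nat_lit 5) (nat_lit 104) (nat_lit 5) (nat_lit 315) (nat_lit 283) (nat_lit 263)) (XT.lf (nat_lit 0) (nat_lit 1611147215) (nat_lit 1092) (nat_lit 774912857) (nat_lit 84) (nat_lit 5425220844) (nat_lit 90) (nat_lit 5) (nat_lit 103) (nat_lit 5) (nat_lit 91) (nat_lit 5) (nat_lit 316) (nat_lit 283) (nat_lit 262))) (XT.nd (nat_lit 94) (nat_lit 0) (nat_lit 0) (XT.lf (nat_lit 0) (nat_lit 2846261250) (nat_lit 588) (nat_lit 763137119) (nat_lit 672) (nat_lit 4308353621) (nat_lit 83) (nat_lit 5) (nat_lit 90) (nat_lit 5) (nat_lit 91) (nat_lit 5) (nat_lit 317)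 (nat_lit 283) (nat_lit 261)) (XT.lf (nat_lit 0) (nat_lit 5629913876) (nat_lit 672) (nat_lit 1497332487) (nat_lit 84) (nat_lit 901858743) (nat_lit 83) (nat_lit 5) (nat_lit 91) (nat_lit 5) (nat_lit 84) (nat_lit 5) (nat_lit 318) (nat_lit 283) (nat_lit 260)))) (XT.nd (nat_lit 188) (nat_lit 924) (nat_lit 0) (XT.nd (nat_lit 94) (nat_lit 84) (nat_lit 0) (XT.lf (nat_lit 0) (nat_lit 2168150827) (nat_lit 504) (nat_lit 5519057320) (nat_lit 588) (nat_lit 457844353) (nat_lit 77) (nat_lit 5) (nat_lit 83) (nat_lit 5) (nat_lit 84) (nat_lit 5) (nat_lit 319) (nat_lit 283) (nat_lit 259)) (XT.lf (nat_lit 0) (nat_lit 1473439386) (nat_lit 588) (nat_lit 2356818209) (nat_lit 84) (nat_lit 4435395953) (nat_lit 76) (nat_lit 5) (nat_lit 83) (nat_lit 5) (nat_lit 77) (nat_lit 5) (nat_lit 320) (nat_lit 283) (nat_lit 258))) (XT.nd (nat_lit 94) (nat_lit 420) (nat_lit 0) (XT.lf (nat_lit 0) (nat_lit 1343319288) (nat_lit 504)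 (nat_lit 2071808690) (nat_lit 588) (nat_lit 4976269607) (nat_lit 70) (nat_lit 5) (nat_lit 76) (nat_lit 5) (nat_lit 77) (nat_lit 5) (nat_lit 321) (nat_lit 283) (nat_lit 257)) (XT.nd (nat_lit 94) (nat_lit 420) (nat_lit 0) (XT.lf (nat_lit 0) (nat_lit 5154125859) (nat_lit 504) (nat_lit 235269428) (nat_lit 588) (nat_lit 3132802005) (nat_lit 70) (nat_lit 5) (nat_lit 76) (nat_lit 5) (nat_lit 77) (nat_lit 5) (nat_lit 322) (nat_lit 283) (nat_lit 256)) (XT.lf (nat_lit 0) (nat_lit 362652523) (nat_lit 420) (nat_lit 7031598310) (nat_lit 504) (nat_lit 1264042509) (nat_lit 65) (nat_lit 5) (nat_lit 70) (nat_lit 5) (nat_lit 71) (nat_lit 5) (nat_lit 323) (nat_lit 283) (nat_lit 255)))))) (XT.nd (nat_lit 470) (nat_lit 840) (nat_lit 0) (XT.nd (nat_lit 188) (nat_lit 756) (nat_lit 0) (XT.nd (nat_lit 94) (nat_lit 0) (nat_lit 0) (XT.lf (nat_lit 0) (nat_lit 636762864) (nat_lit 504) (nat_lit 4581411569) (nat_lit 84)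 (nat_lit 3580893922) (nat_lit 64) (nat_lit 5) (nat_lit 70) (nat_lit 5) (nat_lit 65) (nat_lit 5) (nat_lit 324) (nat_lit 283) (nat_lit 254)) (XT.lf (nat_lit 0) (nat_lit 2521296837) (nat_lit 504) (nat_lit 818300069) (nat_lit 84) (nat_lit 5605993743) (nat_lit 64) (nat_lit 5) (nat_lit 70) (nat_lit 5) (nat_lit 65) (nat_lit 5) (nat_lit 325) (nat_lit 283) (nat_lit 253))) (XT.nd (nat_lit 94) (nat_lit 336) (nat_lit 0) (XT.lf (nat_lit 0) (nat_lit 3071627193) (nat_lit 420) (nat_lit 1375627361) (nat_lit 504) (nat_lit 4650186372) (nat_lit 59) (nat_lit 5) (nat_lit 64) (nat_lit 5) (nat_lit 65) (nat_lit 5) (nat_lit 326) (nat_lit 283) (nat_lit 252)) (XT.nd (nat_lit 94) (nat_lit 336) (nat_lit 0) (XT.lf (nat_lit 0) (nat_lit 6401391488) (nat_lit 504) (nat_lit 2213623170) (nat_lit 84) (nat_lit 640212296) (nat_lit 59) (nat_lit 5) (nat_lit 65) (nat_lit 5) (nat_lit 60) (nat_lit 5) (nat_lit 327) (nat_lit 283) (nat_lit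 251)) (XT.lf (nat_lit 0) (nat_lit 1685370077) (nat_lit 336) (nat_lit 6716331504) (nat_lit 420) (nat_lit 1016892881) (nat_lit 55) (nat_lit 5) (nat_lit 59) (nat_lit 5) (nat_lit 60) (nat_lit 5) (nat_lit 328) (nat_lit 283) (nat_lit 250))))) (XT.nd (nat_lit 188) (nat_lit 336) (nat_lit 0) (XT.nd (nat_lit 94) (nat_lit 420) (nat_lit 0) (XT.lf (nat_lit 0) (nat_lit 837644385) (nat_lit 420) (nat_lit 3894984691) (nat_lit 84) (nat_lit 4855028830) (nat_lit 54) (nat_lit 5) (nat_lit 59) (nat_lit 5) (nat_lit 55) (nat_lit 5) (nat_lit 329) (nat_lit 283) (nat_lit 249)) (XT.lf (nat_lit 0) (nat_lit 1533219) (nat_lit 420) (nat_lit 2683361743) (nat_lit 504) (nat_lit 7078320458) (nat_lit 49) (nat_lit 5) (nat_lit 54) (nat_lit 5) (nat_lit 55) (nat_lit 5) (nat_lit 330) (nat_lit 283) (nat_lit 248))) (XT.nd (nat_lit 94) (nat_lit 336) (nat_lit 0) (XT.lf (nat_lit 0) (nat_lit 4051586752) (nat_lit 420) (nat_lit 535628649)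 (nat_lit 504) (nat_lit 5357283411) (nat_lit 49) (nat_lit 5) (nat_lit 54) (nat_lit 5) (nat_lit 55) (nat_lit 5) (nat_lit 331) (nat_lit 283) (nat_lit 247)) (XT.nd (nat_lit 94) (nat_lit 336) (nat_lit 0) (XT.lf (nat_lit 0) (nat_lit 6523531266) (nat_lit 504) (nat_lit 1970623003) (nat_lit 84) (nat_lit 1638231072) (nat_lit 49) (nat_lit 5) (nat_lit 55) (nat_lit 5) (nat_lit 50) (nat_lit 5) (nat_lit 332) (nat_lit 283) (nat_lit 246)) (XT.lf (nat_lit 0) (nat_lit 2061040145) (nat_lit 336) (nat_lit 6444379208) (nat_lit 420) (nat_lit 1821327845) (nat_lit 45) (nat_lit 5) (nat_lit 49) (nat_lit 5) (nat_lit 50) (nat_lit 5) (nat_lit 333) (nat_lit 283) (nat_lit 245))))))))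
noncomputable def xc37 : XT := (XT.nd (nat_lit 1786) (nat_lit 924) (nat_lit 0) (XT.nd (nat_lit 846) (nat_lit 756) (nat_lit 0) (XT.nd (nat_lit 376) (nat_lit 672) (nat_lit 0) (XT.nd (nat_lit 188) (nat_lit 336) (nat_lit 0) (XT.nd (nat_lit 94) (nat_lit 0) (nat_lit 0) (XT.lf (nat_lit 0) (nat_lit 1720350) (nat_lit 420) (nat_lit 4316253858) (nat_lit 84) (nat_lit 6209947331) (nat_lit 44) (nat_lit 5) (nat_lit 49) (nat_lit 5) (nat_lit 45) (nat_lit 5) (nat_lit 334) (nat_lit 283) (nat_lit 244)) (XT.lf (nat_lit 0) (nat_lit 1804424017) (nat_lit 420) (nat_lit 310321884) (nat_lit 84) (nat_lit 8621403757) (nat_lit 44) (nat_lit 5) (nat_lit 49) (nat_lit 5) (nat_lit 45) (nat_lit 5) (nat_lit 335) (nat_lit 283) (nat_lit 243))) (XT.nd (nat_lit 94) (nat_lit 0) (nat_lit 0) (XT.lf (nat_lit 0) (nat_lit 3665232621) (nat_lit 420) (nat_lit 7101377985) (nat_lit 84) (nat_lit 184332867) (nat_lit 40) (nat_lit 5) (nat_lit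 45) (nat_lit 5) (nat_lit 41) (nat_lit 5) (nat_lit 336) (nat_lit 283) (nat_lit 242)) (XT.lf (nat_lit 0) (nat_lit 5571380390) (nat_lit 420) (nat_lit 3095652211) (nat_lit 84) (nat_lit 2505920096) (nat_lit 40) (nat_lit 5) (nat_lit 45) (nat_lit 5) (nat_lit 41) (nat_lit 5) (nat_lit 337) (nat_lit 283) (nat_lit 241)))) (XT.nd (nat_lit 188) (nat_lit 420) (nat_lit 0) (XT.nd (nat_lit 94) (nat_lit 0) (nat_lit 0) (XT.lf (nat_lit 0) (nat_lit 1009307251) (nat_lit 252) (nat_lit 6501196853) (nat_lit 336) (nat_lit 3892318505) (nat_lit 37) (nat_lit 5) (nat_lit 40) (nat_lit 5) (nat_lit 41) (nat_lit 5) (nat_lit 338) (nat_lit 283) (nat_lit 240)) (XT.lf (nat_lit 0) (nat_lit 5262325965) (nat_lit 252) (nat_lit 4244241498) (nat_lit 336) (nat_lit 2133513163) (nat_lit 37) (nat_lit 5) (nat_lit 40) (nat_lit 5) (nat_lit 41) (nat_lit 5) (nat_lit 339) (nat_lit 283) (nat_lit 239))) (XT.nd (nat_lit 94) (nat_lit 420) (nat_lit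 0) (XT.lf (nat_lit 0) (nat_lit 9603715230) (nat_lit 252) (nat_lit 1926375078) (nat_lit 336) (nat_lit 355829151) (nat_lit 37) (nat_lit 5) (nat_lit 40) (nat_lit 5) (nat_lit 41) (nat_lit 5) (nat_lit 340) (nat_lit 283) (nat_lit 238)) (XT.nd (nat_lit 94) (nat_lit 0) (nat_lit 0) (XT.lf (nat_lit 0) (nat_lit 1437240254) (nat_lit 420) (nat_lit 10223028667) (nat_lit 84) (nat_lit 479114535) (nat_lit 32) (nat_lit 5) (nat_lit 37) (nat_lit 5) (nat_lit 33) (nat_lit 5) (nat_lit 341) (nat_lit 283) (nat_lit 237)) (XT.lf (nat_lit 0) (nat_lit 3288898864) (nat_lit 420) (nat_lit 6173761736) (nat_lit 84) (nat_lit 2937754103) (nat_lit 32) (nat_lit 5) (nat_lit 37) (nat_lit 5) (nat_lit 33) (nat_lit 5) (nat_lit 342) (nat_lit 283) (nat_lit 236)))))) (XT.nd (nat_lit 470) (nat_lit 252) (nat_lit 0) (XT.nd (nat_lit 188) (nat_lit 252) (nat_lit 0) (XT.nd (nat_lit 94) (nat_lit 252) (nat_lit 0) (XT.lf (nat_lit 0) (nat_lit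 5165590322) (nat_lit 420) (nat_lit 2041315560) (nat_lit 84) (nat_lit 5463776048) (nat_lit 32) (nat_lit 5) (nat_lit 37) (nat_lit 5) (nat_lit 33) (nat_lit 5) (nat_lit 343) (nat_lit 283) (nat_lit 235)) (XT.lf (nat_lit 0) (nat_lit 2222949206) (nat_lit 252) (nat_lit 4868166624) (nat_lit 336) (nat_lit 5858637612) (nat_lit 29) (nat_lit 5) (nat_lit 32) (nat_lit 5) (nat_lit 33) (nat_lit 5) (nat_lit 344) (nat_lit 283) (nat_lit 234))) (XT.nd (nat_lit 94) (nat_lit 252) (nat_lit 0) (XT.lf (nat_lit 0) (nat_lit 6622022131) (nat_lit 252) (nat_lit 2444762984) (nat_lit 336) (nat_lit 4171119290) (nat_lit 29) (nat_lit 5) (nat_lit 32) (nat_lit 5) (nat_lit 33) (nat_lit 5) (nat_lit 345) (nat_lit 283) (nat_lit 233)) (XT.nd (nat_lit 94) (nat_lit 252) (nat_lit 0) (XT.lf (nat_lit 0) (nat_lit 11074212250) (nat_lit 336) (nat_lit 2418453121) (nat_lit 84) (nat_lit 43365081) (nat_lit 29) (nat_lit 5) (nat_lit 33) (nat_lit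 5) (nat_lit 30) (nat_lit 5) (nat_lit 346) (nat_lit 283) (nat_lit 232)) (XT.lf (nat_lit 0) (nat_lit 1882843930) (nat_lit 252) (nat_lit 11275589328) (nat_lit 336) (nat_lit 684638102) (nat_lit 26) (nat_lit 5) (nat_lit 29) (nat_lit 5) (nat_lit 30) (nat_lit 5) (nat_lit 347) (nat_lit 283) (nat_lit 231))))) (XT.nd (nat_lit 188) (nat_lit 168) (nat_lit 0) (XT.nd (nat_lit 94) (nat_lit 0) (nat_lit 0) (XT.lf (nat_lit 0) (nat_lit 1120975307) (nat_lit 336) (nat_lit 7841240512) (nat_lit 84) (nat_lit 5197288491) (nat_lit 25) (nat_lit 5) (nat_lit 29) (nat_lit 5) (nat_lit 26) (nat_lit 5) (nat_lit 348) (nat_lit 283) (nat_lit 230)) (XT.lf (nat_lit 0) (nat_lit 2940175458) (nat_lit 336) (nat_lit 3639880328) (nat_lit 84) (nat_lit 7906460499) (nat_lit 25) (nat_lit 5) (nat_lit 29) (nat_lit 5) (nat_lit 26) (nat_lit 5) (nat_lit 349) (nat_lit 283) (nat_lit 229))) (XT.nd (nat_lit 94) (nat_lit 0) (nat_lit 0) (XT.lf (nat_lit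 0) (nat_lit 668020039) (nat_lit 168) (nat_lit 4127058770) (nat_lit 252) (nat_lit 10029338397) (nat_lit 23) (nat_lit 5) (nat_lit 25) (nat_lit 5) (nat_lit 26) (nat_lit 5) (nat_lit 350) (nat_lit 283) (nat_lit 228)) (XT.nd (nat_lit 94) (nat_lit 0) (nat_lit 0) (XT.lf (nat_lit 0) (nat_lit 5149843994) (nat_lit 168) (nat_lit 1568770718) (nat_lit 252) (nat_lit 8453940105) (nat_lit 23) (nat_lit 5) (nat_lit 25) (nat_lit 5) (nat_lit 26) (nat_lit 5) (nat_lit 351) (nat_lit 283) (nat_lit 227)) (XT.lf (nat_lit 0) (nat_lit 8686232982) (nat_lit 252) (nat_lit 5807977722) (nat_lit 84) (nat_lit 1037859554) (nat_lit 23) (nat_lit 5) (nat_lit 26) (nat_lit 5) (nat_lit 24) (nat_lit 5) (nat_lit 352) (nat_lit 283) (nat_lit 226))))))) (XT.nd (nat_lit 846) (nat_lit 420) (nat_lit 0) (XT.nd (nat_lit 376) (nat_lit 168) (nat_lit 0) (XT.nd (nat_lit 188) (nat_lit 84) (nat_lit 0) (XT.nd (nat_lit 94) (nat_lit 252) (nat_lit 0)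 (XT.lf (nat_lit 0) (nat_lit 10705528415) (nat_lit 252) (nat_lit 1514030061) (nat_lit 84) (nat_lit 3683561574) (nat_lit 23) (nat_lit 5) (nat_lit 26) (nat_lit 5) (nat_lit 24) (nat_lit 5) (nat_lit 353) (nat_lit 283) (nat_lit 225)) (XT.lf (nat_lit 0) (nat_lit 2937888881) (nat_lit 252) (nat_lit 9854076146) (nat_lit 336) (nat_lit 3493663986) (nat_lit 20) (nat_lit 5) (nat_lit 23) (nat_lit 5) (nat_lit 24) (nat_lit 5) (nat_lit 354) (nat_lit 283) (nat_lit 224))) (XT.nd (nat_lit 94) (nat_lit 84) (nat_lit 0) (XT.lf (nat_lit 0) (nat_lit 7525928535) (nat_lit 252) (nat_lit 7408757376) (nat_lit 336) (nat_lit 1745664630) (nat_lit 20) (nat_lit 5) (nat_lit 23) (nat_lit 5) (nat_lit 24) (nat_lit 5) (nat_lit 355) (nat_lit 283) (nat_lit 223)) (XT.lf (nat_lit 0) (nat_lit 31582973) (nat_lit 336) (nat_lit 4865213605) (nat_lit 84) (nat_lit 12191321235) (nat_lit 19) (nat_lit 5) (nat_lit 23) (nat_lit 5) (nat_lit 20)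 (nat_lit 5) (nat_lit 356) (nat_lit 283) (nat_lit 222)))) (XT.nd (nat_lit 188) (nat_lit 0) (nat_lit 0) (XT.nd (nat_lit 94) (nat_lit 168) (nat_lit 0) (XT.lf (nat_lit 0) (nat_lit 1804578409) (nat_lit 336) (nat_lit 493427129) (nat_lit 84) (nat_lit 15210768760) (nat_lit 19) (nat_lit 5) (nat_lit 23) (nat_lit 5) (nat_lit 20) (nat_lit 5) (nat_lit 357) (nat_lit 283) (nat_lit 221)) (XT.lf (nat_lit 0) (nat_lit 3654567523) (nat_lit 252) (nat_lit 13881889092) (nat_lit 84) (nat_lit 405415230) (nat_lit 17) (nat_lit 5) (nat_lit 20) (nat_lit 5) (nat_lit 18) (nat_lit 5) (nat_lit 358) (nat_lit 283) (nat_lit 220))) (XT.nd (nat_lit 94) (nat_lit 0) (nat_lit 0) (XT.lf (nat_lit 0) (nat_lit 5568493426) (nat_lit 252) (nat_lit 9678691214) (nat_lit 84) (nat_lit 3141087722) (nat_lit 17) (nat_lit 5) (nat_lit 20) (nat_lit 5) (nat_lit 18) (nat_lit 5) (nat_lit 359) (nat_lit 283) (nat_lit 219)) (XT.nd (nat_lit 94) (nat_lit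 0) (nat_lit 0) (XT.lf (nat_lit 0) (nat_lit 7520297000) (nat_lit 252) (nat_lit 5376143118) (nat_lit 84) (nat_lit 5952814961) (nat_lit 17) (nat_lit 5) (nat_lit 20) (nat_lit 5) (nat_lit 18) (nat_lit 5) (nat_lit 360) (nat_lit 283) (nat_lit 218)) (XT.lf (nat_lit 0) (nat_lit 9511797530) (nat_lit 252) (nat_lit 970234379) (nat_lit 84) (nat_lit 8843217773) (nat_lit 17) (nat_lit 5) (nat_lit 20) (nat_lit 5) (nat_lit 18) (nat_lit 5) (nat_lit 361) (nat_lit 283) (nat_lit 217)))))) (XT.nd (nat_lit 470) (nat_lit 84) (nat_lit 0) (XT.nd (nat_lit 188) (nat_lit 168) (nat_lit 0) (XT.nd (nat_lit 94) (nat_lit 0) (nat_lit 0) (XT.lf (nat_lit 0) (nat_lit 3615996033) (nat_lit 168) (nat_lit 7964726398) (nat_lit 252) (nat_lit 8234865408) (nat_lit 15) (nat_lit 5) (nat_lit 17) (nat_lit 5) (nat_lit 18) (nat_lit 5) (nat_lit 362) (nat_lit 283) (nat_lit 216)) (XT.lf (nat_lit 0) (nat_lit 8336147060) (nat_lit 168) (nat_lit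 5367901890) (nat_lit 252) (nat_lit 6617451138) (nat_lit 15) (nat_lit 5) (nat_lit 17) (nat_lit 5) (nat_lit 18) (nat_lit 5) (nat_lit 363) (nat_lit 283) (nat_lit 215))) (XT.nd (nat_lit 94) (nat_lit 168) (nat_lit 0) (XT.lf (nat_lit 0) (nat_lit 13174668368) (nat_lit 168) (nat_lit 2699265129) (nat_lit 252) (nat_lit 4969828999) (nat_lit 15) (nat_lit 5) (nat_lit 17) (nat_lit 5) (nat_lit 18) (nat_lit 5) (nat_lit 364) (nat_lit 283) (nat_lit 214)) (XT.nd (nat_lit 94) (nat_lit 168) (nat_lit 0) (XT.lf (nat_lit 0) (nat_lit 18092831856) (nat_lit 252) (nat_lit 3247225127) (nat_lit 84) (nat_lit 42791453) (nat_lit 15) (nat_lit 5) (nat_lit 18) (nat_lit 5) (nat_lit 16) (nat_lit 4) (nat_lit 365) (nat_lit 283) (nat_lit 213)) (XT.lf (nat_lit 0) (nat_lit 1283121826) (nat_lit 168) (nat_lit 19119525014) (nat_lit 252) (nat_lit 1535378679) (nat_lit 13) (nat_lit 5) (nat_lit 15) (nat_lit 5) (nat_lit 16) (nat_lit 4) (nat_lit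 366) (nat_lit 283) (nat_lit 212))))) (XT.nd (nat_lit 47094) (nat_lit 0) (nat_lit 13188) (XT.nd (nat_lit 94) (nat_lit 0) (nat_lit 0) (XT.lf (nat_lit 0) (nat_lit 284213647) (nat_lit 252) (nat_lit 16516683019) (nat_lit 84) (nat_lit 5708995628) (nat_lit 12) (nat_lit 5) (nat_lit 15) (nat_lit 5) (nat_lit 13) (nat_lit 5) (nat_lit 367) (nat_lit 283) (nat_lit 211)) (XT.lf (nat_lit 0) (nat_lit 2110699270) (nat_lit 252) (nat_lit 12292077052) (nat_lit 84) (nat_lit 8696829852) (nat_lit 12) (nat_lit 5) (nat_lit 15) (nat_lit 5) (nat_lit 13) (nat_lit 5) (nat_lit 368) (nat_lit 283) (nat_lit 210))) (XT.nd (nat_lit 94) (nat_lit 252) (nat_lit 0) (XT.lf (nat_lit 0) (nat_lit 661650362) (nat_lit 252) (nat_lit 1921214140) (nat_lit 0) (nat_lit 661650362) (nat_lit 172) (nat_lit 5) (nat_lit 175) (nat_lit 4) (nat_lit 172) (nat_lit 4) (nat_lit 293) (nat_lit 284) (nat_lit 284)) (XT.nd (nat_lit 94) (nat_lit 252) (nat_lit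 0) (XT.lf (nat_lit 0) (nat_lit 3752014763) (nat_lit 252) (nat_lit 1093127923) (nat_lit 0) (nat_lit 1661517546) (nat_lit 172) (nat_lit 5) (nat_lit 175) (nat_lit 4) (nat_lit 172) (nat_lit 4) (nat_lit 294) (nat_lit 284) (nat_lit 283)) (XT.lf (nat_lit 0) (nat_lit 1718824132) (nat_lit 252) (nat_lit 4463641212) (nat_lit 252) (nat_lit 345503629) (nat_lit 169) (nat_lit 4) (nat_lit 172) (nat_lit 5) (nat_lit 172) (nat_lit 4) (nat_lit 295) (nat_lit 284) (nat_lit 282))))))))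
noncomputable def xc38 : XT := (XT.nd (nat_lit 1692) (nat_lit 4536) (nat_lit 0) (XT.nd (nat_lit 846) (nat_lit 3444) (nat_lit 0) (XT.nd (nat_lit 376) (nat_lit 1176) (nat_lit 0) (XT.nd (nat_lit 188) (nat_lit 504) (nat_lit 0) (XT.nd (nat_lit 94) (nat_lit 336) (nat_lit 0) (XT.lf (nat_lit 0) (nat_lit 2016610054) (nat_lit 336) (nat_lit 1989076050) (nat_lit 84) (nat_lit 2546833194) (nat_lit 168) (nat_lit 5) (nat_lit 172) (nat_lit 5) (nat_lit 169) (nat_lit 4) (nat_lit 296) (nat_lit 284) (nat_lit 281)) (XT.lf (nat_lit 0) (nat_lit 875010401) (nat_lit 336) (nat_lit 3490997095) (nat_lit 420) (nat_lit 2214932358) (nat_lit 164) (nat_lit 5) (nat_lit 168) (nat_lit 5) (nat_lit 169) (nat_lit 4) (nat_lit 297) (nat_lit 284) (nat_lit 280))) (XT.nd (nat_lit 94) (nat_lit 420) (nat_lit 0) (XT.lf (nat_lit 0) (nat_lit 108390730) (nat_lit 420) (nat_lit 2800962881) (nat_lit 84) (nat_lit 3703610638) (nat_lit 163) (nat_lit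 5) (nat_lit 168) (nat_lit 5) (nat_lit 164) (nat_lit 5) (nat_lit 298) (nat_lit 284) (nat_lit 279)) (XT.lf (nat_lit 0) (nat_lit 116092408) (nat_lit 420) (nat_lit 2258410292) (nat_lit 504) (nat_lit 4274065413) (nat_lit 158) (nat_lit 5) (nat_lit 163) (nat_lit 5) (nat_lit 164) (nat_lit 5) (nat_lit 299) (nat_lit 284) (nat_lit 278)))) (XT.nd (nat_lit 188) (nat_lit 1092) (nat_lit 0) (XT.nd (nat_lit 94) (nat_lit 84) (nat_lit 0) (XT.lf (nat_lit 0) (nat_lit 3125888314) (nat_lit 420) (nat_lit 1531806614) (nat_lit 504) (nat_lit 2029916701) (nat_lit 158) (nat_lit 5) (nat_lit 163) (nat_lit 5) (nat_lit 164) (nat_lit 5) (nat_lit 300) (nat_lit 284) (nat_lit 277)) (XT.lf (nat_lit 0) (nat_lit 196683866) (nat_lit 504) (nat_lit 559364773) (nat_lit 84) (nat_lit 5974899895) (nat_lit 157) (nat_lit 5) (nat_lit 163) (nat_lit 5) (nat_lit 158) (nat_lit 5) (nat_lit 301) (nat_lit 284) (nat_lit 276))) (XT.nd (nat_lit 94)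 (nat_lit 588) (nat_lit 0) (XT.lf (nat_lit 0) (nat_lit 2397219861) (nat_lit 588) (nat_lit 4268480293) (nat_lit 84) (nat_lit 111553245) (nat_lit 151) (nat_lit 5) (nat_lit 158) (nat_lit 5) (nat_lit 152) (nat_lit 5) (nat_lit 302) (nat_lit 284) (nat_lit 275)) (XT.nd (nat_lit 94) (nat_lit 588) (nat_lit 0) (XT.lf (nat_lit 0) (nat_lit 4602692517) (nat_lit 588) (nat_lit 1207310352) (nat_lit 84) (nat_lit 1017561159) (nat_lit 151) (nat_lit 5) (nat_lit 158) (nat_lit 5) (nat_lit 152) (nat_lit 5) (nat_lit 303) (nat_lit 284) (nat_lit 274)) (XT.lf (nat_lit 0) (nat_lit 1930832592) (nat_lit 588) (nat_lit 4890257989) (nat_lit 672) (nat_lit 60652809) (nat_lit 144) (nat_lit 5) (nat_lit 151) (nat_lit 5) (nat_lit 152) (nat_lit 5) (nat_lit 304) (nat_lit 284) (nat_lit 273)))))) (XT.nd (nat_lit 376) (nat_lit 1848) (nat_lit 0) (XT.nd (nat_lit 188) (nat_lit 840) (nat_lit 0) (XT.nd (nat_lit 94) (nat_lit 672) (nat_lit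 0) (XT.lf (nat_lit 0) (nat_lit 2065433398) (nat_lit 672) (nat_lit 1825352830) (nat_lit 84) (nat_lit 3048610093) (nat_lit 143) (nat_lit 5) (nat_lit 151) (nat_lit 5) (nat_lit 144) (nat_lit 5) (nat_lit 305) (nat_lit 284) (nat_lit 272)) (XT.lf (nat_lit 0) (nat_lit 1367450669) (nat_lit 672) (nat_lit 2830294519) (nat_lit 756) (nat_lit 2803421861) (nat_lit 135) (nat_lit 5) (nat_lit 143) (nat_lit 5) (nat_lit 144) (nat_lit 5) (nat_lit 306) (nat_lit 284) (nat_lit 271))) (XT.nd (nat_lit 94) (nat_lit 840) (nat_lit 0) (XT.lf (nat_lit 0) (nat_lit 4641922880) (nat_lit 672) (nat_lit 1702909203) (nat_lit 756) (nat_lit 722134181) (nat_lit 135) (nat_lit 5) (nat_lit 143) (nat_lit 5) (nat_lit 144) (nat_lit 5) (nat_lit 307) (nat_lit 284) (nat_lit 270)) (XT.lf (nat_lit 0) (nat_lit 829446456) (nat_lit 756) (nat_lit 504313262) (nat_lit 840) (nat_lit 5802997373) (nat_lit 125) (nat_lit 5) (nat_lit 134) (nat_lit 5)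 (nat_lit 135) (nat_lit 5) (nat_lit 308) (nat_lit 284) (nat_lit 269)))) (XT.nd (nat_lit 188) (nat_lit 1008) (nat_lit 0) (XT.nd (nat_lit 94) (nat_lit 840) (nat_lit 0) (XT.lf (nat_lit 0) (nat_lit 3403412898) (nat_lit 840) (nat_lit 3044967174) (nat_lit 84) (nat_lit 761663313) (nat_lit 125) (nat_lit 5) (nat_lit 135) (nat_lit 5) (nat_lit 126) (nat_lit 5) (nat_lit 309) (nat_lit 284) (nat_lit 268)) (XT.lf (nat_lit 0) (nat_lit 262010163) (nat_lit 840) (nat_lit 5217210548) (nat_lit 924) (nat_lit 1808641396) (nat_lit 115) (nat_lit 5) (nat_lit 125) (nat_lit 5) (nat_lit 126) (nat_lit 5) (nat_lit 310) (nat_lit 284) (nat_lit 267))) (XT.nd (nat_lit 94) (nat_lit 924) (nat_lit 0) (XT.lf (nat_lit 0) (nat_lit 212892876) (nat_lit 924) (nat_lit 3691697366) (nat_lit 84) (nat_lit 3464893931) (nat_lit 114) (nat_lit 5) (nat_lit 125) (nat_lit 5) (nat_lit 115) (nat_lit 5) (nat_lit 311) (nat_lit 284) (nat_lit 266))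 (XT.nd (nat_lit 94) (nat_lit 924) (nat_lit 0) (XT.lf (nat_lit 0) (nat_lit 2196054637) (nat_lit 924) (nat_lit 328770492) (nat_lit 84) (nat_lit 4930627473) (nat_lit 114) (nat_lit 5) (nat_lit 125) (nat_lit 5) (nat_lit 115) (nat_lit 5) (nat_lit 312) (nat_lit 284) (nat_lit 265)) (XT.lf (nat_lit 0) (nat_lit 3147418696) (nat_lit 924) (nat_lit 1062936580) (nat_lit 1008) (nat_lit 3335080544) (nat_lit 103) (nat_lit 5) (nat_lit 114) (nat_lit 5) (nat_lit 115) (nat_lit 5) (nat_lit 313) (nat_lit 284) (nat_lit 264))))))) (XT.nd (nat_lit 846) (nat_lit 1764) (nat_lit 0) (XT.nd (nat_lit 376) (nat_lit 1092) (nat_lit 0) (XT.nd (nat_lit 188) (nat_lit 588) (nat_lit 0) (XT.nd (nat_lit 94) (nat_lit 1092) (nat_lit 0) (XT.lf (nat_lit 0) (nat_lit 6234791579) (nat_lit 1008) (nat_lit 960384038) (nat_lit 84) (nat_lit 445051387) (nat_lit 103) (nat_lit 5) (nat_lit 115) (nat_lit 5) (nat_lit 104) (nat_lit 5) (nat_lit 314)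 (nat_lit 284) (nat_lit 263)) (XT.lf (nat_lit 0) (nat_lit 549655816) (nat_lit 1092) (nat_lit 5174349602) (nat_lit 84) (nat_lit 2014845916) (nat_lit 90) (nat_lit 5) (nat_lit 103) (nat_lit 5) (nat_lit 91) (nat_lit 5) (nat_lit 315) (nat_lit 284) (nat_lit 262))) (XT.nd (nat_lit 94) (nat_lit 588) (nat_lit 0) (XT.lf (nat_lit 0) (nat_lit 2488185134) (nat_lit 1092) (nat_lit 1691175649) (nat_lit 84) (nat_lit 3662576082) (nat_lit 90) (nat_lit 5) (nat_lit 103) (nat_lit 5) (nat_lit 91) (nat_lit 5) (nat_lit 316) (nat_lit 284) (nat_lit 261)) (XT.lf (nat_lit 0) (nat_lit 1884110788) (nat_lit 588) (nat_lit 2565033188) (nat_lit 672) (nat_lit 3500593002) (nat_lit 83) (nat_lit 5) (nat_lit 90) (nat_lit 5) (nat_lit 91) (nat_lit 5) (nat_lit 317) (nat_lit 284) (nat_lit 260)))) (XT.nd (nat_lit 188) (nat_lit 504) (nat_lit 0) (XT.nd (nat_lit 94) (nat_lit 588) (nat_lit 0) (XT.lf (nat_lit 0) (nat_lit 5552801547) (nat_lit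 588) (nat_lit 880553834) (nat_lit 672) (nat_lit 1629027918) (nat_lit 83) (nat_lit 5) (nat_lit 90) (nat_lit 5) (nat_lit 91) (nat_lit 5) (nat_lit 318) (nat_lit 284) (nat_lit 259)) (XT.lf (nat_lit 0) (nat_lit 259891510) (nat_lit 588) (nat_lit 7065510671) (nat_lit 84) (nat_lit 854420486) (nat_lit 76) (nat_lit 5) (nat_lit 83) (nat_lit 5) (nat_lit 77) (nat_lit 5) (nat_lit 319) (nat_lit 284) (nat_lit 258))) (XT.nd (nat_lit 94) (nat_lit 504) (nat_lit 0) (XT.lf (nat_lit 0) (nat_lit 2155717160) (nat_lit 588) (nat_lit 3476828151) (nat_lit 84) (nat_lit 2668703939) (nat_lit 76) (nat_lit 5) (nat_lit 83) (nat_lit 5) (nat_lit 77) (nat_lit 5) (nat_lit 320) (nat_lit 284) (nat_lit 257)) (XT.nd (nat_lit 94) (nat_lit 0) (nat_lit 0) (XT.lf (nat_lit 0) (nat_lit 173692497) (nat_lit 504) (nat_lit 3886665653) (nat_lit 588) (nat_lit 4367932103) (nat_lit 70) (nat_lit 5) (nat_lit 76) (nat_lit 5) (nat_lit 77) (nat_lit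 5) (nat_lit 321) (nat_lit 284) (nat_lit 256)) (XT.lf (nat_lit 0) (nat_lit 3958711340) (nat_lit 504) (nat_lit 2050978613) (nat_lit 588) (nat_lit 2550317033) (nat_lit 70) (nat_lit 5) (nat_lit 76) (nat_lit 5) (nat_lit 77) (nat_lit 5) (nat_lit 322) (nat_lit 284) (nat_lit 255)))))) (XT.nd (nat_lit 470) (nat_lit 840) (nat_lit 0) (XT.nd (nat_lit 188) (nat_lit 420) (nat_lit 0) (XT.nd (nat_lit 94) (nat_lit 504) (nat_lit 0) (XT.lf (nat_lit 0) (nat_lit 7810265695) (nat_lit 504) (nat_lit 160064094) (nat_lit 588) (nat_lit 727283628) (nat_lit 70) (nat_lit 5) (nat_lit 76) (nat_lit 5) (nat_lit 77) (nat_lit 5) (nat_lit 323) (nat_lit 284) (nat_lit 254)) (XT.lf (nat_lit 0) (nat_lit 1127947789) (nat_lit 504) (nat_lit 5919159383) (nat_lit 84) (nat_lit 1792325156) (nat_lit 64) (nat_lit 5) (nat_lit 70) (nat_lit 5) (nat_lit 65) (nat_lit 5) (nat_lit 324) (nat_lit 284) (nat_lit 253))) (XT.nd (nat_lit 94) (nat_lit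 420) (nat_lit 0) (XT.lf (nat_lit 0) (nat_lit 2989110156) (nat_lit 504) (nat_lit 2181516685) (nat_lit 84) (nat_lit 3816179770) (nat_lit 64) (nat_lit 5) (nat_lit 70) (nat_lit 5) (nat_lit 65) (nat_lit 5) (nat_lit 325) (nat_lit 284) (nat_lit 252)) (XT.nd (nat_lit 94) (nat_lit 0) (nat_lit 0) (XT.lf (nat_lit 0) (nat_lit 1655169096) (nat_lit 420) (nat_lit 3223178467) (nat_lit 504) (nat_lit 4261571290) (nat_lit 59) (nat_lit 5) (nat_lit 64) (nat_lit 5) (nat_lit 65) (nat_lit 5) (nat_lit 326) (nat_lit 284) (nat_lit 251)) (XT.lf (nat_lit 0) (nat_lit 5607375279) (nat_lit 420) (nat_lit 1196397802) (nat_lit 504) (nat_lit 2494941773) (nat_lit 59) (nat_lit 5) (nat_lit 64) (nat_lit 5) (nat_lit 65) (nat_lit 5) (nat_lit 327) (nat_lit 284) (nat_lit 250))))) (XT.nd (nat_lit 188) (nat_lit 420) (nat_lit 0) (XT.nd (nat_lit 94) (nat_lit 84) (nat_lit 0) (XT.lf (nat_lit 0) (nat_lit 164396874) (nat_lit 336) (nat_lit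 8591146816) (nat_lit 420) (nat_lit 708159708) (nat_lit 55) (nat_lit 5) (nat_lit 59) (nat_lit 5) (nat_lit 60) (nat_lit 5) (nat_lit 328) (nat_lit 284) (nat_lit 249)) (XT.lf (nat_lit 0) (nat_lit 1118655895) (nat_lit 420) (nat_lit 5488914180) (nat_lit 84) (nat_lit 3025877790) (nat_lit 54) (nat_lit 5) (nat_lit 59) (nat_lit 5) (nat_lit 55) (nat_lit 5) (nat_lit 329) (nat_lit 284) (nat_lit 248))) (XT.nd (nat_lit 94) (nat_lit 420) (nat_lit 0) (XT.lf (nat_lit 0) (nat_lit 2945036385) (nat_lit 420) (nat_lit 1616466617) (nat_lit 84) (nat_lit 5248255481) (nat_lit 54) (nat_lit 5) (nat_lit 59) (nat_lit 5) (nat_lit 55) (nat_lit 5) (nat_lit 330) (nat_lit 284) (nat_lit 247)) (XT.nd (nat_lit 94) (nat_lit 0) (nat_lit 0) (XT.lf (nat_lit 0) (nat_lit 2376552968) (nat_lit 420) (nat_lit 2433974709) (nat_lit 504) (nat_lit 5181758846) (nat_lit 49) (nat_lit 5) (nat_lit 54) (nat_lit 5) (nat_lit 55) (nat_lit 5) (nat_lit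 331) (nat_lit 284) (nat_lit 246)) (XT.lf (nat_lit 0) (nat_lit 6480747746) (nat_lit 420) (nat_lit 229661608) (nat_lit 504) (nat_lit 3470993003) (nat_lit 49) (nat_lit 5) (nat_lit 54) (nat_lit 5) (nat_lit 55) (nat_lit 5) (nat_lit 332) (nat_lit 284) (nat_lit 245))))))))
noncomputable def xc39 : XT := (XT.nd (nat_lit 1786) (nat_lit 924) (nat_lit 0) (XT.nd (nat_lit 846) (nat_lit 1092) (nat_lit 0) (XT.nd (nat_lit 376) (nat_lit 336) (nat_lit 0) (XT.nd (nat_lit 188) (nat_lit 336) (nat_lit 0) (XT.nd (nat_lit 94) (nat_lit 84) (nat_lit 0) (XT.lf (nat_lit 0) (nat_lit 274237571) (nat_lit 336) (nat_lit 8378773434) (nat_lit 420) (nat_lit 1724067934) (nat_lit 45) (nat_lit 5) (nat_lit 49) (nat_lit 5) (nat_lit 50) (nat_lit 5) (nat_lit 333) (nat_lit 284) (nat_lit 244)) (XT.lf (nat_lit 0) (nat_lit 77805644) (nat_lit 420) (nat_lit 6177655008) (nat_lit 84) (nat_lit 4323449492) (nat_lit 44) (nat_lit 5) (nat_lit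 49) (nat_lit 5) (nat_lit 45) (nat_lit 5) (nat_lit 334) (nat_lit 284) (nat_lit 243))) (XT.nd (nat_lit 94) (nat_lit 336) (nat_lit 0) (XT.lf (nat_lit 0) (nat_lit 1861872022) (nat_lit 420) (nat_lit 2194324396) (nat_lit 84) (nat_lit 6731607971) (nat_lit 44) (nat_lit 5) (nat_lit 49) (nat_lit 5) (nat_lit 45) (nat_lit 5) (nat_lit 335) (nat_lit 284) (nat_lit 242)) (XT.lf (nat_lit 0) (nat_lit 1906375533) (nat_lit 336) (nat_lit 1777066209) (nat_lit 420) (nat_lit 7320458577) (nat_lit 40) (nat_lit 5) (nat_lit 44) (nat_lit 5) (nat_lit 45) (nat_lit 5) (nat_lit 336) (nat_lit 284) (nat_lit 241)))) (XT.nd (nat_lit 188) (nat_lit 336) (nat_lit 0) (XT.nd (nat_lit 94) (nat_lit 0) (nat_lit 0) (XT.lf (nat_lit 0) (nat_lit 5554172962) (nat_lit 420) (nat_lit 5096464290) (nat_lit 84) (nat_lit 576453340) (nat_lit 40) (nat_lit 5) (nat_lit 45) (nat_lit 5) (nat_lit 41) (nat_lit 5) (nat_lit 337) (nat_lit 284) (nat_lit 240))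 (XT.lf (nat_lit 0) (nat_lit 7466031233) (nat_lit 420) (nat_lit 1033463780) (nat_lit 84) (nat_lit 2958391354) (nat_lit 40) (nat_lit 5) (nat_lit 45) (nat_lit 5) (nat_lit 41) (nat_lit 5) (nat_lit 338) (nat_lit 284) (nat_lit 239))) (XT.nd (nat_lit 94) (nat_lit 84) (nat_lit 0) (XT.lf (nat_lit 0) (nat_lit 3176900057) (nat_lit 252) (nat_lit 6257785075) (nat_lit 336) (nat_lit 2261387156) (nat_lit 37) (nat_lit 5) (nat_lit 40) (nat_lit 5) (nat_lit 41) (nat_lit 5) (nat_lit 339) (nat_lit 284) (nat_lit 238)) (XT.nd (nat_lit 94) (nat_lit 84) (nat_lit 0) (XT.lf (nat_lit 0) (nat_lit 7497528178) (nat_lit 252) (nat_lit 3944242780) (nat_lit 336) (nat_lit 500725570) (nat_lit 37) (nat_lit 5) (nat_lit 40) (nat_lit 5) (nat_lit 41) (nat_lit 5) (nat_lit 340) (nat_lit 284) (nat_lit 237)) (XT.lf (nat_lit 0) (nat_lit 1255174538) (nat_lit 336) (nat_lit 299222922) (nat_lit 84) (nat_lit 10642921738) (nat_lit 36) (nat_lit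 5) (nat_lit 40) (nat_lit 5) (nat_lit 37) (nat_lit 5) (nat_lit 341) (nat_lit 284) (nat_lit 236)))))) (XT.nd (nat_lit 470) (nat_lit 504) (nat_lit 0) (XT.nd (nat_lit 188) (nat_lit 252) (nat_lit 0) (XT.nd (nat_lit 94) (nat_lit 0) (nat_lit 0) (XT.lf (nat_lit 0) (nat_lit 3072415729) (nat_lit 420) (nat_lit 8458921766) (nat_lit 84) (nat_lit 928149109) (nat_lit 32) (nat_lit 5) (nat_lit 37) (nat_lit 5) (nat_lit 33) (nat_lit 5) (nat_lit 342) (nat_lit 284) (nat_lit 235)) (XT.lf (nat_lit 0) (nat_lit 4933649129) (nat_lit 420) (nat_lit 4346699476) (nat_lit 84) (nat_lit 3449951564) (nat_lit 32) (nat_lit 5) (nat_lit 37) (nat_lit 5) (nat_lit 33) (nat_lit 5) (nat_lit 343) (nat_lit 284) (nat_lit 234))) (XT.nd (nat_lit 94) (nat_lit 252) (nat_lit 0) (XT.lf (nat_lit 0) (nat_lit 6822129442) (nat_lit 420) (nat_lit 146837978) (nat_lit 84) (nat_lit 6041617784) (nat_lit 32) (nat_lit 5) (nat_lit 37) (nat_lit 5) (nat_lit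 33) (nat_lit 5) (nat_lit 344) (nat_lit 284) (nat_lit 233)) (XT.nd (nat_lit 94) (nat_lit 0) (nat_lit 0) (XT.lf (nat_lit 0) (nat_lit 4229798452) (nat_lit 252) (nat_lit 4551778600) (nat_lit 336) (nat_lit 4517725147) (nat_lit 29) (nat_lit 5) (nat_lit 32) (nat_lit 5) (nat_lit 33) (nat_lit 5) (nat_lit 345) (nat_lit 284) (nat_lit 232)) (XT.lf (nat_lit 0) (nat_lit 8706972925) (nat_lit 252) (nat_lit 2067300210) (nat_lit 336) (nat_lit 2823673036) (nat_lit 29) (nat_lit 5) (nat_lit 32) (nat_lit 5) (nat_lit 33) (nat_lit 5) (nat_lit 346) (nat_lit 284) (nat_lit 231))))) (XT.nd (nat_lit 188) (nat_lit 168) (nat_lit 0) (XT.nd (nat_lit 94) (nat_lit 336) (nat_lit 0) (XT.lf (nat_lit 0) (nat_lit 12805402240) (nat_lit 336) (nat_lit 625815975) (nat_lit 84) (nat_lit 475474132) (nat_lit 29) (nat_lit 5) (nat_lit 33) (nat_lit 5) (nat_lit 30) (nat_lit 5) (nat_lit 347) (nat_lit 284) (nat_lit 230)) (XT.lf (nat_lit 0)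 (nat_lit 692449373) (nat_lit 336) (nat_lit 10441251987) (nat_lit 84) (nat_lit 3090236294) (nat_lit 25) (nat_lit 5) (nat_lit 29) (nat_lit 5) (nat_lit 26) (nat_lit 5) (nat_lit 348) (nat_lit 284) (nat_lit 229))) (XT.nd (nat_lit 94) (nat_lit 168) (nat_lit 0) (XT.lf (nat_lit 0) (nat_lit 2498198590) (nat_lit 336) (nat_lit 6258188749) (nat_lit 84) (nat_lit 5795033490) (nat_lit 25) (nat_lit 5) (nat_lit 29) (nat_lit 5) (nat_lit 26) (nat_lit 5) (nat_lit 349) (nat_lit 284) (nat_lit 228)) (XT.nd (nat_lit 94) (nat_lit 168) (nat_lit 0) (XT.lf (nat_lit 0) (nat_lit 4333428607) (nat_lit 336) (nat_lit 1981494291) (nat_lit 84) (nat_lit 8575061314) (nat_lit 25) (nat_lit 5) (nat_lit 29) (nat_lit 5) (nat_lit 26) (nat_lit 5) (nat_lit 350) (nat_lit 284) (nat_lit 227)) (XT.lf (nat_lit 0) (nat_lit 2442018952) (nat_lit 168) (nat_lit 3782056229) (nat_lit 252) (nat_lit 9015117222) (nat_lit 23) (nat_lit 5) (nat_lit 25)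 (nat_lit 5) (nat_lit 26) (nat_lit 5) (nat_lit 351) (nat_lit 284) (nat_lit 226))))))) (XT.nd (nat_lit 846) (nat_lit 420) (nat_lit 0) (XT.nd (nat_lit 376) (nat_lit 252) (nat_lit 0) (XT.nd (nat_lit 188) (nat_lit 252) (nat_lit 0) (XT.nd (nat_lit 94) (nat_lit 0) (nat_lit 0) (XT.lf (nat_lit 0) (nat_lit 7010061701) (nat_lit 168) (nat_lit 1158681598) (nat_lit 252) (nat_lit 7430725473) (nat_lit 23) (nat_lit 5) (nat_lit 25) (nat_lit 5) (nat_lit 26) (nat_lit 5) (nat_lit 352) (nat_lit 284) (nat_lit 225)) (XT.lf (nat_lit 0) (nat_lit 10164431617) (nat_lit 252) (nat_lit 4300869631) (nat_lit 84) (nat_lit 1505997124) (nat_lit 23) (nat_lit 5) (nat_lit 26) (nat_lit 5) (nat_lit 24) (nat_lit 5) (nat_lit 353) (nat_lit 284) (nat_lit 224))) (XT.nd (nat_lit 94) (nat_lit 0) (nat_lit 0) (XT.lf (nat_lit 0) (nat_lit 77012832) (nat_lit 252) (nat_lit 12133726510) (nat_lit 336) (nat_lit 4144358534) (nat_lit 20) (nat_lit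 5) (nat_lit 23) (nat_lit 5) (nat_lit 24) (nat_lit 5) (nat_lit 354) (nat_lit 284) (nat_lit 223)) (XT.lf (nat_lit 0) (nat_lit 4648822280) (nat_lit 252) (nat_lit 9693081554) (nat_lit 336) (nat_lit 2408318961) (nat_lit 20) (nat_lit 5) (nat_lit 23) (nat_lit 5) (nat_lit 24) (nat_lit 5) (nat_lit 355) (nat_lit 284) (nat_lit 222)))) (XT.nd (nat_lit 188) (nat_lit 168) (nat_lit 0) (XT.nd (nat_lit 94) (nat_lit 84) (nat_lit 0) (XT.lf (nat_lit 0) (nat_lit 9330385418) (nat_lit 252) (nat_lit 7185983701) (nat_lit 336) (nat_lit 642022126) (nat_lit 20) (nat_lit 5) (nat_lit 23) (nat_lit 5) (nat_lit 24) (nat_lit 5) (nat_lit 356) (nat_lit 284) (nat_lit 221)) (XT.lf (nat_lit 0) (nat_lit 1132883929) (nat_lit 336) (nat_lit 3465387160) (nat_lit 84) (nat_lit 12981357037) (nat_lit 19) (nat_lit 5) (nat_lit 23) (nat_lit 5) (nat_lit 20) (nat_lit 5) (nat_lit 357) (nat_lit 284) (nat_lit 220))) (XT.nd (nat_lit 94) (nat_lit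 0) (nat_lit 0) (XT.lf (nat_lit 0) (nat_lit 1015765381) (nat_lit 168) (nat_lit 1922068997) (nat_lit 252) (nat_lit 15076327447) (nat_lit 17) (nat_lit 5) (nat_lit 19) (nat_lit 5) (nat_lit 20) (nat_lit 5) (nat_lit 358) (nat_lit 284) (nat_lit 219)) (XT.nd (nat_lit 94) (nat_lit 0) (nat_lit 0) (XT.lf (nat_lit 0) (nat_lit 4822129834) (nat_lit 252) (nat_lit 12791369670) (nat_lit 84) (nat_lit 848020137) (nat_lit 17) (nat_lit 5) (nat_lit 20) (nat_lit 5) (nat_lit 18) (nat_lit 5) (nat_lit 359) (nat_lit 284) (nat_lit 218)) (XT.lf (nat_lit 0) (nat_lit 6763687739) (nat_lit 252) (nat_lit 8503601657) (nat_lit 84) (nat_lit 3655568168) (nat_lit 17) (nat_lit 5) (nat_lit 20) (nat_lit 5) (nat_lit 18) (nat_lit 5) (nat_lit 360) (nat_lit 284) (nat_lit 217)))))) (XT.nd (nat_lit 470) (nat_lit 252) (nat_lit 0) (XT.nd (nat_lit 188) (nat_lit 0) (nat_lit 0) (XT.nd (nat_lit 94) (nat_lit 168) (nat_lit 0) (XT.lf (nat_lit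 0) (nat_lit 8745250665) (nat_lit 252) (nat_lit 4112028594) (nat_lit 84) (nat_lit 6541917430) (nat_lit 17) (nat_lit 5) (nat_lit 20) (nat_lit 5) (nat_lit 18) (nat_lit 5) (nat_lit 361) (nat_lit 284) (nat_lit 216)) (XT.lf (nat_lit 0) (nat_lit 395409545) (nat_lit 168) (nat_lit 10377178604) (nat_lit 252) (nat_lit 9118271270) (nat_lit 15) (nat_lit 5) (nat_lit 17) (nat_lit 5) (nat_lit 18) (nat_lit 5) (nat_lit 362) (nat_lit 284) (nat_lit 215))) (XT.nd (nat_lit 94) (nat_lit 0) (nat_lit 0) (XT.lf (nat_lit 0) (nat_lit 5101796712) (nat_lit 168) (nat_lit 7784632435) (nat_lit 252) (nat_lit 7510670872) (nat_lit 15) (nat_lit 5) (nat_lit 17) (nat_lit 5) (nat_lit 18) (nat_lit 5) (nat_lit 363) (nat_lit 284) (nat_lit 214)) (XT.nd (nat_lit 94) (nat_lit 0) (nat_lit 0) (XT.lf (nat_lit 0) (nat_lit 9926968008) (nat_lit 168) (nat_lit 5120145373) (nat_lit 252) (nat_lit 5872567522) (nat_lit 15) (nat_lit 5) (nat_lit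 17) (nat_lit 5) (nat_lit 18) (nat_lit 5) (nat_lit 364) (nat_lit 284) (nat_lit 213)) (XT.lf (nat_lit 0) (nat_lit 14875421001) (nat_lit 168) (nat_lit 2381233836) (nat_lit 252) (nat_lit 4202434337) (nat_lit 15) (nat_lit 5) (nat_lit 17) (nat_lit 5) (nat_lit 18) (nat_lit 5) (nat_lit 365) (nat_lit 284) (nat_lit 212))))) (XT.nd (nat_lit 188) (nat_lit 84) (nat_lit 0) (XT.nd (nat_lit 94) (nat_lit 168) (nat_lit 0) (XT.lf (nat_lit 0) (nat_lit 19521424871) (nat_lit 252) (nat_lit 2068371283) (nat_lit 84) (nat_lit 425897795) (nat_lit 15) (nat_lit 5) (nat_lit 18) (nat_lit 5) (nat_lit 16) (nat_lit 4) (nat_lit 366) (nat_lit 284) (nat_lit 211)) (XT.lf (nat_lit 0) (nat_lit 2589462457) (nat_lit 168) (nat_lit 19299855763) (nat_lit 252) (nat_lit 699276526) (nat_lit 13) (nat_lit 5) (nat_lit 15) (nat_lit 5) (nat_lit 16) (nat_lit 4) (nat_lit 367) (nat_lit 284) (nat_lit 210))) (XT.nd (nat_lit 46812) (nat_lit 0) (nat_lit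 13608) (XT.lf (nat_lit 0) (nat_lit 1132882979) (nat_lit 252) (nat_lit 15780099788) (nat_lit 84) (nat_lit 6265830326) (nat_lit 12) (nat_lit 5) (nat_lit 15) (nat_lit 5) (nat_lit 13) (nat_lit 5) (nat_lit 368) (nat_lit 284) (nat_lit 209)) (XT.nd (nat_lit 94) (nat_lit 84) (nat_lit 0) (XT.lf (nat_lit 0) (nat_lit 1858964895) (nat_lit 84) (nat_lit 686191891) (nat_lit 84) (nat_lit 686191891) (nat_lit 175) (nat_lit 4) (nat_lit 176) (nat_lit 5) (nat_lit 176) (nat_lit 4) (nat_lit 291) (nat_lit 285) (nat_lit 285)) (XT.lf (nat_lit 0) (nat_lit 1044696219) (nat_lit 168) (nat_lit 100338989) (nat_lit 84) (nat_lit 5330170467) (nat_lit 174) (nat_lit 5) (nat_lit 176) (nat_lit 5) (nat_lit 175) (nat_lit 4) (nat_lit 292) (nat_lit 285) (nat_lit 284))))))))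
noncomputable def xc40 : XT := (XT.nd (nat_lit 1692) (nat_lit 5964) (nat_lit 0) (XT.nd (nat_lit 846) (nat_lit 2688) (nat_lit 0) (XT.nd (nat_lit 376) (nat_lit 924) (nat_lit 0) (XT.nd (nat_lit 188) (nat_lit 336) (nat_lit 0) (XT.nd (nat_lit 94) (nat_lit 0) (nat_lit 0) (XT.lf (nat_lit 0) (nat_lit 2610931351) (nat_lit 168) (nat_lit 829911087) (nat_lit 252) (nat_lit 3049790146) (nat_lit 172) (nat_lit 5) (nat_lit 174) (nat_lit 5) (nat_lit 175) (nat_lit 4) (nat_lit 293) (nat_lit 285) (nat_lit 283)) (XT.lf (nat_lit 0) (nat_lit 5355218197) (nat_lit 168) (nat_lit 466118610) (nat_lit 252) (nat_lit 688840355) (nat_lit 172) (nat_lit 5) (nat_lit 174) (nat_lit 5) (nat_lit 175) (nat_lit 4) (nat_lit 294) (nat_lit 285) (nat_lit 282))) (XT.nd (nat_lit 94) (nat_lit 0) (nat_lit 0) (XT.lf (nat_lit 0) (nat_lit 1615268416) (nat_lit 252) (nat_lit 20934275) (nat_lit 336) (nat_lit 4896681207) (nat_lit 168) (nat_lit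 5) (nat_lit 171) (nat_lit 5) (nat_lit 172) (nat_lit 5) (nat_lit 295) (nat_lit 285) (nat_lit 281)) (XT.lf (nat_lit 0) (nat_lit 3948092405) (nat_lit 336) (nat_lit 2129077780) (nat_lit 84) (nat_lit 481881509) (nat_lit 168) (nat_lit 5) (nat_lit 172) (nat_lit 5) (nat_lit 169) (nat_lit 4) (nat_lit 296) (nat_lit 285) (nat_lit 280)))) (XT.nd (nat_lit 188) (nat_lit 504) (nat_lit 0) (XT.nd (nat_lit 94) (nat_lit 84) (nat_lit 0) (XT.lf (nat_lit 0) (nat_lit 704105254) (nat_lit 336) (nat_lit 5549928600) (nat_lit 420) (nat_lit 335156603) (nat_lit 164) (nat_lit 5) (nat_lit 168) (nat_lit 5) (nat_lit 169) (nat_lit 4) (nat_lit 297) (nat_lit 285) (nat_lit 279)) (XT.lf (nat_lit 0) (nat_lit 1908748914) (nat_lit 420) (nat_lit 3027151617) (nat_lit 84) (nat_lit 1686373209) (nat_lit 163) (nat_lit 5) (nat_lit 168) (nat_lit 5) (nat_lit 164) (nat_lit 5) (nat_lit 298) (nat_lit 285) (nat_lit 278))) (XT.nd (nat_lit 94)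 (nat_lit 504) (nat_lit 0) (XT.lf (nat_lit 0) (nat_lit 4133414103) (nat_lit 420) (nat_lit 139967218) (nat_lit 84) (nat_lit 2386119728) (nat_lit 163) (nat_lit 5) (nat_lit 168) (nat_lit 5) (nat_lit 164) (nat_lit 5) (nat_lit 299) (nat_lit 285) (nat_lit 277)) (XT.nd (nat_lit 94) (nat_lit 84) (nat_lit 0) (XT.lf (nat_lit 0) (nat_lit 2839697520) (nat_lit 420) (nat_lit 3536137874) (nat_lit 504) (nat_lit 324301485) (nat_lit 158) (nat_lit 5) (nat_lit 163) (nat_lit 5) (nat_lit 164) (nat_lit 5) (nat_lit 300) (nat_lit 285) (nat_lit 276)) (XT.lf (nat_lit 0) (nat_lit 1829061614) (nat_lit 504) (nat_lit 902542712) (nat_lit 84) (nat_lit 4012858969) (nat_lit 157) (nat_lit 5) (nat_lit 163) (nat_lit 5) (nat_lit 158) (nat_lit 5) (nat_lit 301) (nat_lit 285) (nat_lit 275)))))) (XT.nd (nat_lit 376) (nat_lit 1512) (nat_lit 0) (XT.nd (nat_lit 188) (nat_lit 672) (nat_lit 0) (XT.nd (nat_lit 94) (nat_lit 0) (nat_lit 0)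 (XT.lf (nat_lit 0) (nat_lit 2132439970) (nat_lit 504) (nat_lit 1854579149) (nat_lit 588) (nat_lit 2805368646) (nat_lit 151) (nat_lit 5) (nat_lit 157) (nat_lit 5) (nat_lit 158) (nat_lit 5) (nat_lit 302) (nat_lit 285) (nat_lit 274)) (XT.lf (nat_lit 0) (nat_lit 5226934005) (nat_lit 504) (nat_lit 919552330) (nat_lit 588) (nat_lit 697928888) (nat_lit 151) (nat_lit 5) (nat_lit 157) (nat_lit 5) (nat_lit 158) (nat_lit 5) (nat_lit 303) (nat_lit 285) (nat_lit 273))) (XT.nd (nat_lit 94) (nat_lit 0) (nat_lit 0) (XT.lf (nat_lit 0) (nat_lit 1386886557) (nat_lit 672) (nat_lit 5420597316) (nat_lit 84) (nat_lit 92478922) (nat_lit 143) (nat_lit 5) (nat_lit 151) (nat_lit 5) (nat_lit 144) (nat_lit 5) (nat_lit 304) (nat_lit 285) (nat_lit 272)) (XT.lf (nat_lit 0) (nat_lit 3476305907) (nat_lit 672) (nat_lit 2323498005) (nat_lit 84) (nat_lit 1159157175) (nat_lit 143) (nat_lit 5) (nat_lit 151) (nat_lit 5) (nat_lit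 144) (nat_lit 5) (nat_lit 305) (nat_lit 285) (nat_lit 271)))) (XT.nd (nat_lit 188) (nat_lit 756) (nat_lit 0) (XT.nd (nat_lit 94) (nat_lit 84) (nat_lit 0) (XT.lf (nat_lit 0) (nat_lit 831487660) (nat_lit 672) (nat_lit 4737434129) (nat_lit 756) (nat_lit 1453297847) (nat_lit 135) (nat_lit 5) (nat_lit 143) (nat_lit 5) (nat_lit 144) (nat_lit 5) (nat_lit 306) (nat_lit 285) (nat_lit 270)) (XT.lf (nat_lit 0) (nat_lit 581138289) (nat_lit 756) (nat_lit 3015979756) (nat_lit 84) (nat_lit 3492009863) (nat_lit 134) (nat_lit 5) (nat_lit 143) (nat_lit 5) (nat_lit 135) (nat_lit 5) (nat_lit 307) (nat_lit 285) (nat_lit 269))) (XT.nd (nat_lit 94) (nat_lit 0) (nat_lit 0) (XT.lf (nat_lit 0) (nat_lit 191637570) (nat_lit 756) (nat_lit 2391347425) (nat_lit 840) (nat_lit 4577170833) (nat_lit 125) (nat_lit 5) (nat_lit 134) (nat_lit 5) (nat_lit 135) (nat_lit 5) (nat_lit 308) (nat_lit 285) (nat_lit 268)) (XT.nd (nat_lit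 94) (nat_lit 0) (nat_lit 0) (XT.lf (nat_lit 0) (nat_lit 3508631018) (nat_lit 756) (nat_lit 1103858972) (nat_lit 840) (nat_lit 2622424401) (nat_lit 125) (nat_lit 5) (nat_lit 134) (nat_lit 5) (nat_lit 135) (nat_lit 5) (nat_lit 309) (nat_lit 285) (nat_lit 267)) (XT.lf (nat_lit 0) (nat_lit 6643342792) (nat_lit 840) (nat_lit 440674084) (nat_lit 84) (nat_lit 230330673) (nat_lit 125) (nat_lit 5) (nat_lit 135) (nat_lit 5) (nat_lit 126) (nat_lit 5) (nat_lit 310) (nat_lit 285) (nat_lit 266))))))) (XT.nd (nat_lit 846) (nat_lit 2352) (nat_lit 0) (XT.nd (nat_lit 376) (nat_lit 1764) (nat_lit 0) (XT.nd (nat_lit 188) (nat_lit 924) (nat_lit 0) (XT.nd (nat_lit 94) (nat_lit 0) (nat_lit 0) (XT.lf (nat_lit 0) (nat_lit 1291850831) (nat_lit 924) (nat_lit 4468922514) (nat_lit 84) (nat_lit 1636162663) (nat_lit 114) (nat_lit 5) (nat_lit 125) (nat_lit 5) (nat_lit 115) (nat_lit 5) (nat_lit 311) (nat_lit 285) (nat_lit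 265)) (XT.lf (nat_lit 0) (nat_lit 3244701455) (nat_lit 924) (nat_lit 1132781406) (nat_lit 84) (nat_lit 3106562725) (nat_lit 114) (nat_lit 5) (nat_lit 125) (nat_lit 5) (nat_lit 115) (nat_lit 5) (nat_lit 312) (nat_lit 285) (nat_lit 264))) (XT.nd (nat_lit 94) (nat_lit 0) (nat_lit 0) (XT.lf (nat_lit 0) (nat_lit 2300361084) (nat_lit 924) (nat_lit 2920838349) (nat_lit 1008) (nat_lit 2354196699) (nat_lit 103) (nat_lit 5) (nat_lit 114) (nat_lit 5) (nat_lit 115) (nat_lit 5) (nat_lit 313) (nat_lit 285) (nat_lit 263)) (XT.lf (nat_lit 0) (nat_lit 5811713431) (nat_lit 924) (nat_lit 1400645682) (nat_lit 1008) (nat_lit 459049345) (nat_lit 103) (nat_lit 5) (nat_lit 114) (nat_lit 5) (nat_lit 115) (nat_lit 5) (nat_lit 314) (nat_lit 285) (nat_lit 262)))) (XT.nd (nat_lit 188) (nat_lit 672) (nat_lit 0) (XT.nd (nat_lit 94) (nat_lit 0) (nat_lit 0) (XT.lf (nat_lit 0) (nat_lit 1425274073) (nat_lit 1092) (nat_lit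 6146340599) (nat_lit 84) (nat_lit 199908128) (nat_lit 90) (nat_lit 5) (nat_lit 103) (nat_lit 5) (nat_lit 91) (nat_lit 5) (nat_lit 315) (nat_lit 285) (nat_lit 261)) (XT.lf (nat_lit 0) (nat_lit 3336055732) (nat_lit 1092) (nat_lit 2689669128) (nat_lit 84) (nat_lit 1849916627) (nat_lit 90) (nat_lit 5) (nat_lit 103) (nat_lit 5) (nat_lit 91) (nat_lit 5) (nat_lit 316) (nat_lit 285) (nat_lit 260))) (XT.nd (nat_lit 94) (nat_lit 84) (nat_lit 0) (XT.lf (nat_lit 0) (nat_lit 838852068) (nat_lit 588) (nat_lit 4420880063) (nat_lit 672) (nat_lit 2725033000) (nat_lit 83) (nat_lit 5) (nat_lit 90) (nat_lit 5) (nat_lit 91) (nat_lit 5) (nat_lit 317) (nat_lit 285) (nat_lit 259)) (XT.nd (nat_lit 94) (nat_lit 84) (nat_lit 0) (XT.lf (nat_lit 0) (nat_lit 4482097464) (nat_lit 588) (nat_lit 2735489532) (nat_lit 672) (nat_lit 880804241) (nat_lit 83) (nat_lit 5) (nat_lit 90) (nat_lit 5) (nat_lit 91) (nat_lit 5) (nat_lit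 318) (nat_lit 285) (nat_lit 258)) (XT.lf (nat_lit 0) (nat_lit 947267150) (nat_lit 672) (nat_lit 38902258) (nat_lit 84) (nat_lit 7231003157) (nat_lit 82) (nat_lit 5) (nat_lit 90) (nat_lit 5) (nat_lit 83) (nat_lit 5) (nat_lit 319) (nat_lit 285) (nat_lit 257)))))) (XT.nd (nat_lit 470) (nat_lit 840) (nat_lit 0) (XT.nd (nat_lit 188) (nat_lit 1008) (nat_lit 0) (XT.nd (nat_lit 94) (nat_lit 0) (nat_lit 0) (XT.lf (nat_lit 0) (nat_lit 2807467240) (nat_lit 588) (nat_lit 4684468948) (nat_lit 84) (nat_lit 847915842) (nat_lit 76) (nat_lit 5) (nat_lit 83) (nat_lit 5) (nat_lit 77) (nat_lit 5) (nat_lit 320) (nat_lit 285) (nat_lit 256)) (XT.lf (nat_lit 0) (nat_lit 4685705490) (nat_lit 588) (nat_lit 1062715979) (nat_lit 84) (nat_lit 2719434074) (nat_lit 76) (nat_lit 5) (nat_lit 83) (nat_lit 5) (nat_lit 77) (nat_lit 5) (nat_lit 321) (nat_lit 285) (nat_lit 255))) (XT.nd (nat_lit 94) (nat_lit 504) (nat_lit 0)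 (XT.lf (nat_lit 0) (nat_lit 2675438899) (nat_lit 504) (nat_lit 3924653602) (nat_lit 588) (nat_lit 2000702759) (nat_lit 70) (nat_lit 5) (nat_lit 76) (nat_lit 5) (nat_lit 77) (nat_lit 5) (nat_lit 322) (nat_lit 285) (nat_lit 254)) (XT.nd (nat_lit 94) (nat_lit 504) (nat_lit 0) (XT.lf (nat_lit 0) (nat_lit 6502732977) (nat_lit 504) (nat_lit 2034540826) (nat_lit 588) (nat_lit 201990595) (nat_lit 70) (nat_lit 5) (nat_lit 76) (nat_lit 5) (nat_lit 77) (nat_lit 5) (nat_lit 323) (nat_lit 285) (nat_lit 253)) (XT.lf (nat_lit 0) (nat_lit 1532107530) (nat_lit 420) (nat_lit 55333096) (nat_lit 504) (nat_lit 7295320330) (nat_lit 64) (nat_lit 5) (nat_lit 69) (nat_lit 5) (nat_lit 70) (nat_lit 5) (nat_lit 324) (nat_lit 285) (nat_lit 252))))) (XT.nd (nat_lit 188) (nat_lit 420) (nat_lit 0) (XT.nd (nat_lit 94) (nat_lit 420) (nat_lit 0) (XT.lf (nat_lit 0) (nat_lit 3425385211) (nat_lit 504) (nat_lit 3637164824) (nat_lit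 84) (nat_lit 1968428590) (nat_lit 64) (nat_lit 5) (nat_lit 70) (nat_lit 5) (nat_lit 65) (nat_lit 5) (nat_lit 325) (nat_lit 285) (nat_lit 251)) (XT.lf (nat_lit 0) (nat_lit 145136932) (nat_lit 420) (nat_lit 5132518713) (nat_lit 504) (nat_lit 3907701116) (nat_lit 59) (nat_lit 5) (nat_lit 64) (nat_lit 5) (nat_lit 65) (nat_lit 5) (nat_lit 326) (nat_lit 285) (nat_lit 250))) (XT.nd (nat_lit 94) (nat_lit 420) (nat_lit 0) (XT.lf (nat_lit 0) (nat_lit 4073625451) (nat_lit 420) (nat_lit 3107894276) (nat_lit 504) (nat_lit 2163417753) (nat_lit 59) (nat_lit 5) (nat_lit 64) (nat_lit 5) (nat_lit 65) (nat_lit 5) (nat_lit 327) (nat_lit 285) (nat_lit 249)) (XT.nd (nat_lit 94) (nat_lit 420) (nat_lit 0) (XT.lf (nat_lit 0) (nat_lit 8077174924) (nat_lit 420) (nat_lit 1024754103) (nat_lit 504) (nat_lit 409082013) (nat_lit 59) (nat_lit 5) (nat_lit 64) (nat_lit 5) (nat_lit 65) (nat_lit 5) (nat_lit 328) (nat_lit 285)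 (nat_lit 248)) (XT.lf (nat_lit 0) (nat_lit 1366022506) (nat_lit 420) (nat_lit 7181079620) (nat_lit 84) (nat_lit 1135083786) (nat_lit 54) (nat_lit 5) (nat_lit 59) (nat_lit 5) (nat_lit 55) (nat_lit 5) (nat_lit 329) (nat_lit 285) (nat_lit 247))))))))
noncomputable def xc41 : XT := (XT.nd (nat_lit 1692) (nat_lit 1176) (nat_lit 0) (XT.nd (nat_lit 846) (nat_lit 924) (nat_lit 0) (XT.nd (nat_lit 376) (nat_lit 756) (nat_lit 0) (XT.nd (nat_lit 188) (nat_lit 0) (nat_lit 0) (XT.nd (nat_lit 94) (nat_lit 420) (nat_lit 0) (XT.lf (nat_lit 0) (nat_lit 3172175182) (nat_lit 420) (nat_lit 3331948697) (nat_lit 84) (nat_lit 3355102657) (nat_lit 54) (nat_lit 5) (nat_lit 59) (nat_lit 5) (nat_lit 55) (nat_lit 5) (nat_lit 330) (nat_lit 285) (nat_lit 246)) (XT.lf (nat_lit 0) (nat_lit 602716478) (nat_lit 420) (nat_lit 4397733712) (nat_lit 504) (nat_lit 5042557937) (nat_lit 49) (nat_lit 5) (nat_lit 54) (nat_lit 5) (nat_lit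 55) (nat_lit 5) (nat_lit 331) (nat_lit 285) (nat_lit 245))) (XT.nd (nat_lit 94) (nat_lit 0) (nat_lit 0) (XT.lf (nat_lit 0) (nat_lit 4684524659) (nat_lit 420) (nat_lit 2196555442) (nat_lit 504) (nat_lit 3351737508) (nat_lit 49) (nat_lit 5) (nat_lit 54) (nat_lit 5) (nat_lit 55) (nat_lit 5) (nat_lit 332) (nat_lit 285) (nat_lit 244)) (XT.lf (nat_lit 0) (nat_lit 8782746385) (nat_lit 504) (nat_lit 1581770321) (nat_lit 84) (nat_lit 65340415) (nat_lit 49) (nat_lit 5) (nat_lit 55) (nat_lit 5) (nat_lit 50) (nat_lit 5) (nat_lit 333) (nat_lit 285) (nat_lit 243)))) (XT.nd (nat_lit 188) (nat_lit 336) (nat_lit 0) (XT.nd (nat_lit 94) (nat_lit 0) (nat_lit 0) (XT.lf (nat_lit 0) (nat_lit 118397247) (nat_lit 420) (nat_lit 8142662960) (nat_lit 84) (nat_lit 2371772089) (nat_lit 44) (nat_lit 5) (nat_lit 49) (nat_lit 5) (nat_lit 45) (nat_lit 5) (nat_lit 334) (nat_lit 285) (nat_lit 242)) (XT.lf (nat_lit 0) (nat_lit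 1884386719) (nat_lit 420) (nat_lit 4181254135) (nat_lit 84) (nat_lit 4776731783) (nat_lit 44) (nat_lit 5) (nat_lit 49) (nat_lit 5) (nat_lit 45) (nat_lit 5) (nat_lit 335) (nat_lit 285) (nat_lit 241))) (XT.nd (nat_lit 94) (nat_lit 336) (nat_lit 0) (XT.lf (nat_lit 0) (nat_lit 3669511586) (nat_lit 420) (nat_lit 140226068) (nat_lit 84) (nat_lit 7249943838) (nat_lit 44) (nat_lit 5) (nat_lit 49) (nat_lit 5) (nat_lit 45) (nat_lit 5) (nat_lit 336) (nat_lit 285) (nat_lit 240)) (XT.nd (nat_lit 94) (nat_lit 0) (nat_lit 0) (XT.lf (nat_lit 0) (nat_lit 4066110976) (nat_lit 336) (nat_lit 1449661122) (nat_lit 420) (nat_lit 5767938894) (nat_lit 40) (nat_lit 5) (nat_lit 44) (nat_lit 5) (nat_lit 45) (nat_lit 5) (nat_lit 337) (nat_lit 285) (nat_lit 239)) (XT.lf (nat_lit 0) (nat_lit 7396515322) (nat_lit 420) (nat_lit 3161192172) (nat_lit 84) (nat_lit 957842050) (nat_lit 40) (nat_lit 5) (nat_lit 45) (nat_lit 5)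 (nat_lit 41) (nat_lit 5) (nat_lit 338) (nat_lit 285) (nat_lit 238)))))) (XT.nd (nat_lit 376) (nat_lit 252) (nat_lit 0) (XT.nd (nat_lit 188) (nat_lit 420) (nat_lit 0) (XT.nd (nat_lit 94) (nat_lit 0) (nat_lit 0) (XT.lf (nat_lit 0) (nat_lit 984660061) (nat_lit 252) (nat_lit 8342530801) (nat_lit 336) (nat_lit 2427797790) (nat_lit 37) (nat_lit 5) (nat_lit 40) (nat_lit 5) (nat_lit 41) (nat_lit 5) (nat_lit 339) (nat_lit 285) (nat_lit 237)) (XT.lf (nat_lit 0) (nat_lit 5285151280) (nat_lit 252) (nat_lit 6033182615) (nat_lit 336) (nat_lit 683646802) (nat_lit 37) (nat_lit 5) (nat_lit 40) (nat_lit 5) (nat_lit 41) (nat_lit 5) (nat_lit 340) (nat_lit 285) (nat_lit 236))) (XT.nd (nat_lit 94) (nat_lit 336) (nat_lit 0) (XT.lf (nat_lit 0) (nat_lit 1060247253) (nat_lit 336) (nat_lit 2589192683) (nat_lit 84) (nat_lit 8607975339) (nat_lit 36) (nat_lit 5) (nat_lit 40) (nat_lit 5) (nat_lit 37) (nat_lit 5) (nat_lit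 341) (nat_lit 285) (nat_lit 235)) (XT.lf (nat_lit 0) (nat_lit 1653474985) (nat_lit 336) (nat_lit 1176017557) (nat_lit 420) (nat_lit 9691645152) (nat_lit 32) (nat_lit 5) (nat_lit 36) (nat_lit 5) (nat_lit 37) (nat_lit 5) (nat_lit 342) (nat_lit 285) (nat_lit 234)))) (XT.nd (nat_lit 188) (nat_lit 252) (nat_lit 0) (XT.nd (nat_lit 94) (nat_lit 0) (nat_lit 0) (XT.lf (nat_lit 0) (nat_lit 4664066436) (nat_lit 420) (nat_lit 6763389976) (nat_lit 84) (nat_lit 1365386410) (nat_lit 32) (nat_lit 5) (nat_lit 37) (nat_lit 5) (nat_lit 33) (nat_lit 5) (nat_lit 343) (nat_lit 285) (nat_lit 233)) (XT.lf (nat_lit 0) (nat_lit 6538004299) (nat_lit 420) (nat_lit 2582554468) (nat_lit 84) (nat_lit 3953083068) (nat_lit 32) (nat_lit 5) (nat_lit 37) (nat_lit 5) (nat_lit 33) (nat_lit 5) (nat_lit 344) (nat_lit 285) (nat_lit 232))) (XT.nd (nat_lit 94) (nat_lit 0) (nat_lit 0) (XT.lf (nat_lit 0) (nat_lit 1725165265) (nat_lit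 252) (nat_lit 6733335183) (nat_lit 336) (nat_lit 4905127140) (nat_lit 29) (nat_lit 5) (nat_lit 32) (nat_lit 5) (nat_lit 33) (nat_lit 5) (nat_lit 345) (nat_lit 285) (nat_lit 231)) (XT.nd (nat_lit 94) (nat_lit 0) (nat_lit 0) (XT.lf (nat_lit 0) (nat_lit 6184072648) (nat_lit 252) (nat_lit 4253261596) (nat_lit 336) (nat_lit 3225426468) (nat_lit 29) (nat_lit 5) (nat_lit 32) (nat_lit 5) (nat_lit 33) (nat_lit 5) (nat_lit 346) (nat_lit 285) (nat_lit 230)) (XT.lf (nat_lit 0) (nat_lit 10745221234) (nat_lit 252) (nat_lit 1704982888) (nat_lit 336) (nat_lit 1521926436) (nat_lit 29) (nat_lit 5) (nat_lit 32) (nat_lit 5) (nat_lit 33) (nat_lit 5) (nat_lit 347) (nat_lit 285) (nat_lit 229))))))) (XT.nd (nat_lit 846) (nat_lit 420) (nat_lit 0) (XT.nd (nat_lit 376) (nat_lit 420) (nat_lit 0) (XT.nd (nat_lit 188) (nat_lit 0) (nat_lit 0) (XT.nd (nat_lit 94) (nat_lit 0) (nat_lit 0) (XT.lf (nat_lit 0) (nat_lit 223320288)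 (nat_lit 336) (nat_lit 13159024915) (nat_lit 84) (nat_lit 908980234) (nat_lit 25) (nat_lit 5) (nat_lit 29) (nat_lit 5) (nat_lit 26) (nat_lit 5) (nat_lit 348) (nat_lit 285) (nat_lit 228)) (XT.lf (nat_lit 0) (nat_lit 2016023013) (nat_lit 336) (nat_lit 8993708472) (nat_lit 84) (nat_lit 3609534158) (nat_lit 25) (nat_lit 5) (nat_lit 29) (nat_lit 5) (nat_lit 26) (nat_lit 5) (nat_lit 349) (nat_lit 285) (nat_lit 227))) (XT.nd (nat_lit 94) (nat_lit 0) (nat_lit 0) (XT.lf (nat_lit 0) (nat_lit 3838598818) (nat_lit 336) (nat_lit 4734227201) (nat_lit 84) (nat_lit 6385446297) (nat_lit 25) (nat_lit 5) (nat_lit 29) (nat_lit 5) (nat_lit 26) (nat_lit 5) (nat_lit 350) (nat_lit 285) (nat_lit 226)) (XT.lf (nat_lit 0) (nat_lit 5692746535) (nat_lit 336) (nat_lit 376610819) (nat_lit 84) (nat_lit 9239304092) (nat_lit 25) (nat_lit 5) (nat_lit 29) (nat_lit 5) (nat_lit 26) (nat_lit 5) (nat_lit 351) (nat_lit 285) (nat_lit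 225)))) (XT.nd (nat_lit 188) (nat_lit 252) (nat_lit 0) (XT.nd (nat_lit 94) (nat_lit 0) (nat_lit 0) (XT.lf (nat_lit 0) (nat_lit 4167161445) (nat_lit 168) (nat_lit 3454371735) (nat_lit 252) (nat_lit 8047944949) (nat_lit 23) (nat_lit 5) (nat_lit 25) (nat_lit 5) (nat_lit 26) (nat_lit 5) (nat_lit 352) (nat_lit 285) (nat_lit 224)) (XT.lf (nat_lit 0) (nat_lit 8827218333) (nat_lit 168) (nat_lit 763050547) (nat_lit 252) (nat_lit 6451920924) (nat_lit 23) (nat_lit 5) (nat_lit 25) (nat_lit 5) (nat_lit 26) (nat_lit 5) (nat_lit 353) (nat_lit 285) (nat_lit 223))) (XT.nd (nat_lit 94) (nat_lit 252) (nat_lit 0) (XT.lf (nat_lit 0) (nat_lit 11616847687) (nat_lit 252) (nat_lit 2846974292) (nat_lit 84) (nat_lit 1962824070) (nat_lit 23) (nat_lit 5) (nat_lit 26) (nat_lit 5) (nat_lit 24) (nat_lit 5) (nat_lit 354) (nat_lit 285) (nat_lit 222)) (XT.nd (nat_lit 94) (nat_lit 0) (nat_lit 0) (XT.lf (nat_lit 0) (nat_lit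 1650553327) (nat_lit 252) (nat_lit 12057426878) (nat_lit 336) (nat_lit 3115075541) (nat_lit 20) (nat_lit 5) (nat_lit 23) (nat_lit 5) (nat_lit 24) (nat_lit 5) (nat_lit 355) (nat_lit 285) (nat_lit 221)) (XT.lf (nat_lit 0) (nat_lit 6316847602) (nat_lit 252) (nat_lit 9554726002) (nat_lit 336) (nat_lit 1360030091) (nat_lit 20) (nat_lit 5) (nat_lit 23) (nat_lit 5) (nat_lit 24) (nat_lit 5) (nat_lit 356) (nat_lit 285) (nat_lit 220)))))) (XT.nd (nat_lit 470) (nat_lit 168) (nat_lit 0) (XT.nd (nat_lit 188) (nat_lit 168) (nat_lit 0) (XT.nd (nat_lit 94) (nat_lit 0) (nat_lit 0) (XT.lf (nat_lit 0) (nat_lit 418649017) (nat_lit 336) (nat_lit 6560084289) (nat_lit 84) (nat_lit 10674699520) (nat_lit 19) (nat_lit 5) (nat_lit 23) (nat_lit 5) (nat_lit 20) (nat_lit 5) (nat_lit 357) (nat_lit 285) (nat_lit 219)) (XT.lf (nat_lit 0) (nat_lit 2203151265) (nat_lit 336) (nat_lit 2114013635) (nat_lit 84) (nat_lit 13771474274)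 (nat_lit 19) (nat_lit 5) (nat_lit 23) (nat_lit 5) (nat_lit 20) (nat_lit 5) (nat_lit 358) (nat_lit 285) (nat_lit 218))) (XT.nd (nat_lit 94) (nat_lit 0) (nat_lit 0) (XT.lf (nat_lit 0) (nat_lit 2491285589) (nat_lit 168) (nat_lit 1555969840) (nat_lit 252) (nat_lit 14490025078) (nat_lit 17) (nat_lit 5) (nat_lit 19) (nat_lit 5) (nat_lit 20) (nat_lit 5) (nat_lit 359) (nat_lit 285) (nat_lit 217)) (XT.nd (nat_lit 94) (nat_lit 0) (nat_lit 0) (XT.lf (nat_lit 0) (nat_lit 5963440317) (nat_lit 252) (nat_lit 11757127168) (nat_lit 84) (nat_lit 1278873966) (nat_lit 17) (nat_lit 5) (nat_lit 20) (nat_lit 5) (nat_lit 18) (nat_lit 5) (nat_lit 360) (nat_lit 285) (nat_lit 216)) (XT.lf (nat_lit 0) (nat_lit 7935364443) (nat_lit 252) (nat_lit 7379458738) (nat_lit 84) (nat_lit 4161291562) (nat_lit 17) (nat_lit 5) (nat_lit 20) (nat_lit 5) (nat_lit 18) (nat_lit 5) (nat_lit 361) (nat_lit 285) (nat_lit 215))))) (XT.nd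 (nat_lit 188) (nat_lit 0) (nat_lit 0) (XT.nd (nat_lit 94) (nat_lit 168) (nat_lit 0) (XT.lf (nat_lit 0) (nat_lit 9949430434) (nat_lit 252) (nat_lit 2893473769) (nat_lit 84) (nat_lit 7125318986) (nat_lit 17) (nat_lit 5) (nat_lit 20) (nat_lit 5) (nat_lit 18) (nat_lit 5) (nat_lit 362) (nat_lit 285) (nat_lit 214)) (XT.lf (nat_lit 0) (nat_lit 1740067630) (nat_lit 168) (nat_lit 10284709665) (nat_lit 252) (nat_lit 8450913078) (nat_lit 15) (nat_lit 5) (nat_lit 17) (nat_lit 5) (nat_lit 18) (nat_lit 5) (nat_lit 363) (nat_lit 285) (nat_lit 213))) (XT.nd (nat_lit 94) (nat_lit 0) (nat_lit 0) (XT.lf (nat_lit 0) (nat_lit 6552290323) (nat_lit 168) (nat_lit 7624247528) (nat_lit 252) (nat_lit 6822042308) (nat_lit 15) (nat_lit 5) (nat_lit 17) (nat_lit 5) (nat_lit 18) (nat_lit 5) (nat_lit 364) (nat_lit 285) (nat_lit 212)) (XT.nd (nat_lit 94) (nat_lit 0) (nat_lit 0) (XT.lf (nat_lit 0) (nat_lit 11488184049) (nat_lit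 168) (nat_lit 4889239896) (nat_lit 252) (nat_lit 5160864098) (nat_lit 15) (nat_lit 5) (nat_lit 17) (nat_lit 5) (nat_lit 18) (nat_lit 5) (nat_lit 365) (nat_lit 285) (nat_lit 211)) (XT.lf (nat_lit 0) (nat_lit 16552349578) (nat_lit 168) (nat_lit 2077137455) (nat_lit 252) (nat_lit 3465830056) (nat_lit 15) (nat_lit 5) (nat_lit 17) (nat_lit 5) (nat_lit 18) (nat_lit 5) (nat_lit 366) (nat_lit 285) (nat_lit 210))))))))
noncomputable def xc42 : XT := (XT.nd (nat_lit 48222) (nat_lit 0) (nat_lit 4788) (XT.nd (nat_lit 47376) (nat_lit 0) (nat_lit 11004) (XT.nd (nat_lit 46906) (nat_lit 0) (nat_lit 13104) (XT.nd (nat_lit 46718) (nat_lit 0) (nat_lit 13692) (XT.nd (nat_lit 94) (nat_lit 252) (nat_lit 0) (XT.lf (nat_lit 0) (nat_lit 20942908011) (nat_lit 252) (nat_lit 928761001) (nat_lit 84) (nat_lit 798266962) (nat_lit 15) (nat_lit 5) (nat_lit 18) (nat_lit 5) (nat_lit 16) (nat_lit 4) (nat_lit 367) (nat_lit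 285) (nat_lit 209)) (XT.lf (nat_lit 0) (nat_lit 108177444) (nat_lit 252) (nat_lit 19400895819) (nat_lit 84) (nat_lit 3751972307) (nat_lit 12) (nat_lit 5) (nat_lit 15) (nat_lit 5) (nat_lit 13) (nat_lit 5) (nat_lit 368) (nat_lit 285) (nat_lit 208))) (XT.nd (nat_lit 94) (nat_lit 84) (nat_lit 0) (XT.lf (nat_lit 0) (nat_lit 1242916127) (nat_lit 84) (nat_lit 737654411) (nat_lit 0) (nat_lit 1242916127) (nat_lit 176) (nat_lit 5) (nat_lit 177) (nat_lit 0) (nat_lit 176) (nat_lit 4) (nat_lit 289) (nat_lit 286) (nat_lit 286)) (XT.lf (nat_lit 0) (nat_lit 1079396543) (nat_lit 84) (nat_lit 3832796411) (nat_lit 84) (nat_lit 1541793771) (nat_lit 175) (nat_lit 4) (nat_lit 176) (nat_lit 5) (nat_lit 176) (nat_lit 4) (nat_lit 290) (nat_lit 286) (nat_lit 285)))) (XT.nd (nat_lit 188) (nat_lit 504) (nat_lit 0) (XT.nd (nat_lit 94) (nat_lit 0) (nat_lit 0) (XT.lf (nat_lit 0) (nat_lit 852770835) (nat_lit 168) (nat_lit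 2781142085) (nat_lit 84) (nat_lit 2830415140) (nat_lit 174) (nat_lit 5) (nat_lit 176) (nat_lit 5) (nat_lit 175) (nat_lit 4) (nat_lit 291) (nat_lit 286) (nat_lit 284)) (XT.lf (nat_lit 0) (nat_lit 3196283875) (nat_lit 168) (nat_lit 176769730) (nat_lit 84) (nat_lit 3105216409) (nat_lit 174) (nat_lit 5) (nat_lit 176) (nat_lit 5) (nat_lit 175) (nat_lit 4) (nat_lit 292) (nat_lit 286) (nat_lit 283))) (XT.nd (nat_lit 94) (nat_lit 336) (nat_lit 0) (XT.lf (nat_lit 0) (nat_lit 2506754734) (nat_lit 168) (nat_lit 3040106040) (nat_lit 252) (nat_lit 948668066) (nat_lit 172) (nat_lit 5) (nat_lit 174) (nat_lit 5) (nat_lit 175) (nat_lit 4) (nat_lit 293) (nat_lit 286) (nat_lit 282)) (XT.nd (nat_lit 94) (nat_lit 252) (nat_lit 0) (XT.lf (nat_lit 0) (nat_lit 1339535929) (nat_lit 252) (nat_lit 1304734301) (nat_lit 84) (nat_lit 3872136347) (nat_lit 171) (nat_lit 5) (nat_lit 174) (nat_lit 5) (nat_lit 172) (nat_lit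 5) (nat_lit 294) (nat_lit 286) (nat_lit 281)) (XT.lf (nat_lit 0) (nat_lit 1429017286) (nat_lit 252) (nat_lit 2176875744) (nat_lit 336) (nat_lit 2934780049) (nat_lit 168) (nat_lit 5) (nat_lit 171) (nat_lit 5) (nat_lit 172) (nat_lit 5) (nat_lit 295) (nat_lit 286) (nat_lit 280)))))) (XT.nd (nat_lit 376) (nat_lit 1680) (nat_lit 0) (XT.nd (nat_lit 188) (nat_lit 0) (nat_lit 0) (XT.nd (nat_lit 94) (nat_lit 420) (nat_lit 0) (XT.lf (nat_lit 0) (nat_lit 4223124883) (nat_lit 252) (nat_lit 1647857007) (nat_lit 336) (nat_lit 697680882) (nat_lit 168) (nat_lit 5) (nat_lit 171) (nat_lit 5) (nat_lit 172) (nat_lit 5) (nat_lit 296) (nat_lit 286) (nat_lit 279)) (XT.lf (nat_lit 0) (nat_lit 446441147) (nat_lit 336) (nat_lit 1050198010) (nat_lit 420) (nat_lit 5103566457) (nat_lit 163) (nat_lit 5) (nat_lit 167) (nat_lit 5) (nat_lit 168) (nat_lit 5) (nat_lit 297) (nat_lit 286) (nat_lit 278))) (XT.nd (nat_lit 94)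 (nat_lit 0) (nat_lit 0) (XT.lf (nat_lit 0) (nat_lit 3315025023) (nat_lit 336) (nat_lit 371741491) (nat_lit 420) (nat_lit 2948215700) (nat_lit 163) (nat_lit 5) (nat_lit 167) (nat_lit 5) (nat_lit 168) (nat_lit 5) (nat_lit 298) (nat_lit 286) (nat_lit 277)) (XT.lf (nat_lit 0) (nat_lit 5868660441) (nat_lit 420) (nat_lit 455789135) (nat_lit 84) (nat_lit 349414270) (nat_lit 163) (nat_lit 5) (nat_lit 168) (nat_lit 5) (nat_lit 164) (nat_lit 5) (nat_lit 299) (nat_lit 286) (nat_lit 276)))) (XT.nd (nat_lit 188) (nat_lit 1176) (nat_lit 0) (XT.nd (nat_lit 94) (nat_lit 0) (nat_lit 0) (XT.lf (nat_lit 0) (nat_lit 1326340801) (nat_lit 504) (nat_lit 4238580684) (nat_lit 84) (nat_lit 1150762870) (nat_lit 157) (nat_lit 5) (nat_lit 163) (nat_lit 5) (nat_lit 158) (nat_lit 5) (nat_lit 300) (nat_lit 286) (nat_lit 275)) (XT.lf (nat_lit 0) (nat_lit 3435465658) (nat_lit 504) (nat_lit 1310614999) (nat_lit 84) (nat_lit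 2015298888) (nat_lit 157) (nat_lit 5) (nat_lit 163) (nat_lit 5) (nat_lit 158) (nat_lit 5) (nat_lit 301) (nat_lit 286) (nat_lit 274))) (XT.nd (nat_lit 94) (nat_lit 672) (nat_lit 0) (XT.lf (nat_lit 0) (nat_lit 1689533481) (nat_lit 504) (nat_lit 3862925393) (nat_lit 588) (nat_lit 1258405695) (nat_lit 151) (nat_lit 5) (nat_lit 157) (nat_lit 5) (nat_lit 158) (nat_lit 5) (nat_lit 302) (nat_lit 286) (nat_lit 273)) (XT.nd (nat_lit 94) (nat_lit 588) (nat_lit 0) (XT.lf (nat_lit 0) (nat_lit 795560854) (nat_lit 588) (nat_lit 2113956561) (nat_lit 84) (nat_lit 3954514338) (nat_lit 150) (nat_lit 5) (nat_lit 157) (nat_lit 5) (nat_lit 151) (nat_lit 5) (nat_lit 303) (nat_lit 286) (nat_lit 272)) (XT.lf (nat_lit 0) (nat_lit 940181450) (nat_lit 588) (nat_lit 1884564941) (nat_lit 672) (nat_lit 4096172142) (nat_lit 143) (nat_lit 5) (nat_lit 150) (nat_lit 5) (nat_lit 151) (nat_lit 5) (nat_lit 304) (nat_lit 286)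 (nat_lit 271))))))) (XT.nd (nat_lit 846) (nat_lit 2856) (nat_lit 0) (XT.nd (nat_lit 376) (nat_lit 2604) (nat_lit 0) (XT.nd (nat_lit 188) (nat_lit 84) (nat_lit 0) (XT.nd (nat_lit 94) (nat_lit 672) (nat_lit 0) (XT.lf (nat_lit 0) (nat_lit 4081807242) (nat_lit 588) (nat_lit 787092347) (nat_lit 672) (nat_lit 2112677734) (nat_lit 143) (nat_lit 5) (nat_lit 150) (nat_lit 5) (nat_lit 151) (nat_lit 5) (nat_lit 305) (nat_lit 286) (nat_lit 270)) (XT.lf (nat_lit 0) (nat_lit 224589024) (nat_lit 672) (nat_lit 6689752504) (nat_lit 756) (nat_lit 132206250) (nat_lit 135) (nat_lit 5) (nat_lit 143) (nat_lit 5) (nat_lit 144) (nat_lit 5) (nat_lit 306) (nat_lit 286) (nat_lit 269))) (XT.nd (nat_lit 94) (nat_lit 0) (nat_lit 0) (XT.lf (nat_lit 0) (nat_lit 1842442177) (nat_lit 756) (nat_lit 3687170353) (nat_lit 84) (nat_lit 1584700278) (nat_lit 134) (nat_lit 5) (nat_lit 143) (nat_lit 5) (nat_lit 135) (nat_lit 5) (nat_lit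 307) (nat_lit 286) (nat_lit 268)) (XT.lf (nat_lit 0) (nat_lit 3810214529) (nat_lit 756) (nat_lit 509464947) (nat_lit 84) (nat_lit 2866945232) (nat_lit 134) (nat_lit 5) (nat_lit 143) (nat_lit 5) (nat_lit 135) (nat_lit 5) (nat_lit 308) (nat_lit 286) (nat_lit 267)))) (XT.nd (nat_lit 188) (nat_lit 1764) (nat_lit 0) (XT.nd (nat_lit 94) (nat_lit 84) (nat_lit 0) (XT.lf (nat_lit 0) (nat_lit 2771265747) (nat_lit 756) (nat_lit 3031834189) (nat_lit 840) (nat_lit 1459639374) (nat_lit 125) (nat_lit 5) (nat_lit 134) (nat_lit 5) (nat_lit 135) (nat_lit 5) (nat_lit 309) (nat_lit 286) (nat_lit 266)) (XT.lf (nat_lit 0) (nat_lit 448478546) (nat_lit 840) (nat_lit 1234244748) (nat_lit 84) (nat_lit 5660540886) (nat_lit 124) (nat_lit 5) (nat_lit 134) (nat_lit 5) (nat_lit 125) (nat_lit 5) (nat_lit 310) (nat_lit 286) (nat_lit 265))) (XT.nd (nat_lit 94) (nat_lit 924) (nat_lit 0) (XT.lf (nat_lit 0) (nat_lit 2100410164)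 (nat_lit 840) (nat_lit 244711972) (nat_lit 924) (nat_lit 5082359133) (nat_lit 114) (nat_lit 5) (nat_lit 124) (nat_lit 5) (nat_lit 125) (nat_lit 5) (nat_lit 311) (nat_lit 286) (nat_lit 264)) (XT.nd (nat_lit 94) (nat_lit 924) (nat_lit 0) (XT.lf (nat_lit 0) (nat_lit 4266145442) (nat_lit 924) (nat_lit 2014482799) (nat_lit 84) (nat_lit 1235144697) (nat_lit 114) (nat_lit 5) (nat_lit 125) (nat_lit 5) (nat_lit 115) (nat_lit 5) (nat_lit 312) (nat_lit 286) (nat_lit 263)) (XT.lf (nat_lit 0) (nat_lit 1374812755) (nat_lit 924) (nat_lit 4830133354) (nat_lit 1008) (nat_lit 1403535560) (nat_lit 103) (nat_lit 5) (nat_lit 114) (nat_lit 5) (nat_lit 115) (nat_lit 5) (nat_lit 313) (nat_lit 286) (nat_lit 262)))))) (XT.nd (nat_lit 470) (nat_lit 1176) (nat_lit 0) (XT.nd (nat_lit 188) (nat_lit 588) (nat_lit 0) (XT.nd (nat_lit 94) (nat_lit 1008) (nat_lit 0) (XT.lf (nat_lit 0) (nat_lit 453335540) (nat_lit 1008) (nat_lit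 2848911538) (nat_lit 84) (nat_lit 4403153588) (nat_lit 102) (nat_lit 5) (nat_lit 114) (nat_lit 5) (nat_lit 103) (nat_lit 5) (nat_lit 314) (nat_lit 286) (nat_lit 261)) (XT.lf (nat_lit 0) (nat_lit 587618995) (nat_lit 1008) (nat_lit 1700935494) (nat_lit 1092) (nat_lit 5518227853) (nat_lit 90) (nat_lit 5) (nat_lit 102) (nat_lit 5) (nat_lit 103) (nat_lit 5) (nat_lit 315) (nat_lit 286) (nat_lit 260))) (XT.nd (nat_lit 94) (nat_lit 588) (nat_lit 0) (XT.lf (nat_lit 0) (nat_lit 4140951406) (nat_lit 1008) (nat_lit 14744169) (nat_lit 1092) (nat_lit 3756726088) (nat_lit 90) (nat_lit 5) (nat_lit 102) (nat_lit 5) (nat_lit 103) (nat_lit 5) (nat_lit 316) (nat_lit 286) (nat_lit 259)) (XT.nd (nat_lit 94) (nat_lit 588) (nat_lit 0) (XT.lf (nat_lit 0) (nat_lit 6044800076) (nat_lit 1092) (nat_lit 284636491) (nat_lit 84) (nat_lit 1693343201) (nat_lit 90) (nat_lit 5) (nat_lit 103) (nat_lit 5) (nat_lit 91) (nat_lit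 5) (nat_lit 317) (nat_lit 286) (nat_lit 258)) (XT.lf (nat_lit 0) (nat_lit 3328075921) (nat_lit 588) (nat_lit 4646133277) (nat_lit 672) (nat_lit 163236333) (nat_lit 83) (nat_lit 5) (nat_lit 90) (nat_lit 5) (nat_lit 91) (nat_lit 5) (nat_lit 318) (nat_lit 286) (nat_lit 257))))) (XT.nd (nat_lit 188) (nat_lit 588) (nat_lit 0) (XT.nd (nat_lit 94) (nat_lit 504) (nat_lit 0) (XT.lf (nat_lit 0) (nat_lit 1625178660) (nat_lit 672) (nat_lit 1263701280) (nat_lit 84) (nat_lit 5368055909) (nat_lit 82) (nat_lit 5) (nat_lit 90) (nat_lit 5) (nat_lit 83) (nat_lit 5) (nat_lit 319) (nat_lit 286) (nat_lit 256)) (XT.lf (nat_lit 0) (nat_lit 2389894463) (nat_lit 504) (nat_lit 1049816975) (nat_lit 588) (nat_lit 4941463587) (nat_lit 76) (nat_lit 5) (nat_lit 82) (nat_lit 5) (nat_lit 83) (nat_lit 5) (nat_lit 320) (nat_lit 286) (nat_lit 255))) (XT.nd (nat_lit 94) (nat_lit 588) (nat_lit 0) (XT.lf (nat_lit 0) (nat_lit 5283597753)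 (nat_lit 588) (nat_lit 2383621681) (nat_lit 84) (nat_lit 843163709) (nat_lit 76) (nat_lit 5) (nat_lit 83) (nat_lit 5) (nat_lit 77) (nat_lit 5) (nat_lit 321) (nat_lit 286) (nat_lit 254)) (XT.nd (nat_lit 94) (nat_lit 84) (nat_lit 0) (XT.lf (nat_lit 0) (nat_lit 1303112390) (nat_lit 504) (nat_lit 5858040856) (nat_lit 588) (nat_lit 1483446884) (nat_lit 70) (nat_lit 5) (nat_lit 76) (nat_lit 5) (nat_lit 77) (nat_lit 5) (nat_lit 322) (nat_lit 286) (nat_lit 253)) (XT.lf (nat_lit 0) (nat_lit 285798717) (nat_lit 588) (nat_lit 3679923846) (nat_lit 84) (nat_lit 4818093778) (nat_lit 69) (nat_lit 5) (nat_lit 76) (nat_lit 5) (nat_lit 70) (nat_lit 5) (nat_lit 323) (nat_lit 286) (nat_lit 252))))))))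
noncomputable def xc43 : XT := (XT.nd (nat_lit 1786) (nat_lit 1596) (nat_lit 0) (XT.nd (nat_lit 846) (nat_lit 1092) (nat_lit 0) (XT.nd (nat_lit 376) (nat_lit 840) (nat_lit 0) (XT.nd (nat_lit 188) (nat_lit 420) (nat_lit 0) (XT.nd (nat_lit 94) (nat_lit 0) (nat_lit 0) (XT.lf (nat_lit 0) (nat_lit 33101780) (nat_lit 420) (nat_lit 2000768517) (nat_lit 504) (nat_lit 6894660109) (nat_lit 64) (nat_lit 5) (nat_lit 69) (nat_lit 5) (nat_lit 70) (nat_lit 5) (nat_lit 324) (nat_lit 286) (nat_lit 251)) (XT.lf (nat_lit 0) (nat_lit 3830528657) (nat_lit 504) (nat_lit 5186601305) (nat_lit 84) (nat_lit 61017906) (nat_lit 64) (nat_lit 5) (nat_lit 70) (nat_lit 5) (nat_lit 65) (nat_lit 5) (nat_lit 325) (nat_lit 286) (nat_lit 250))) (XT.nd (nat_lit 94) (nat_lit 420) (nat_lit 0) (XT.lf (nat_lit 0) (nat_lit 5660033160) (nat_lit 504) (nat_lit 1430463540) (nat_lit 84) (nat_lit 2142851360) (nat_lit 64) (nat_lit 5) (nat_lit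 70) (nat_lit 5) (nat_lit 65) (nat_lit 5) (nat_lit 326) (nat_lit 286) (nat_lit 249)) (XT.lf (nat_lit 0) (nat_lit 2445607189) (nat_lit 420) (nat_lit 5082894764) (nat_lit 504) (nat_lit 1865636895) (nat_lit 59) (nat_lit 5) (nat_lit 64) (nat_lit 5) (nat_lit 65) (nat_lit 5) (nat_lit 327) (nat_lit 286) (nat_lit 248)))) (XT.nd (nat_lit 188) (nat_lit 420) (nat_lit 0) (XT.nd (nat_lit 94) (nat_lit 420) (nat_lit 0) (XT.lf (nat_lit 0) (nat_lit 6426843835) (nat_lit 420) (nat_lit 3001783101) (nat_lit 504) (nat_lit 132323708) (nat_lit 59) (nat_lit 5) (nat_lit 64) (nat_lit 5) (nat_lit 65) (nat_lit 5) (nat_lit 328) (nat_lit 286) (nat_lit 247)) (XT.lf (nat_lit 0) (nat_lit 752309307) (nat_lit 336) (nat_lit 835958294) (nat_lit 420) (nat_lit 8145392800) (nat_lit 54) (nat_lit 5) (nat_lit 58) (nat_lit 5) (nat_lit 59) (nat_lit 5) (nat_lit 329) (nat_lit 286) (nat_lit 246))) (XT.nd (nat_lit 94) (nat_lit 420) (nat_lit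 0) (XT.lf (nat_lit 0) (nat_lit 3366507860) (nat_lit 420) (nat_lit 5146542921) (nat_lit 84) (nat_lit 1398615375) (nat_lit 54) (nat_lit 5) (nat_lit 59) (nat_lit 5) (nat_lit 55) (nat_lit 5) (nat_lit 330) (nat_lit 286) (nat_lit 245)) (XT.nd (nat_lit 94) (nat_lit 420) (nat_lit 0) (XT.lf (nat_lit 0) (nat_lit 5169774160) (nat_lit 420) (nat_lit 1245956694) (nat_lit 84) (nat_lit 3680589007) (nat_lit 54) (nat_lit 5) (nat_lit 59) (nat_lit 5) (nat_lit 55) (nat_lit 5) (nat_lit 331) (nat_lit 286) (nat_lit 244)) (XT.lf (nat_lit 0) (nat_lit 2788518583) (nat_lit 420) (nat_lit 4230598391) (nat_lit 504) (nat_lit 3268076202) (nat_lit 49) (nat_lit 5) (nat_lit 54) (nat_lit 5) (nat_lit 55) (nat_lit 5) (nat_lit 332) (nat_lit 286) (nat_lit 243)))))) (XT.nd (nat_lit 470) (nat_lit 336) (nat_lit 0) (XT.nd (nat_lit 188) (nat_lit 336) (nat_lit 0) (XT.nd (nat_lit 94) (nat_lit 420) (nat_lit 0) (XT.lf (nat_lit 0) (nat_lit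 6931702144) (nat_lit 420) (nat_lit 1970308151) (nat_lit 504) (nat_lit 1582895463) (nat_lit 49) (nat_lit 5) (nat_lit 54) (nat_lit 5) (nat_lit 55) (nat_lit 5) (nat_lit 333) (nat_lit 286) (nat_lit 242)) (XT.lf (nat_lit 0) (nat_lit 123532993) (nat_lit 420) (nat_lit 10213109308) (nat_lit 84) (nat_lit 353095955) (nat_lit 44) (nat_lit 5) (nat_lit 49) (nat_lit 5) (nat_lit 45) (nat_lit 5) (nat_lit 334) (nat_lit 286) (nat_lit 241))) (XT.nd (nat_lit 94) (nat_lit 336) (nat_lit 0) (XT.lf (nat_lit 0) (nat_lit 1871989093) (nat_lit 420) (nat_lit 6272963127) (nat_lit 84) (nat_lit 2754953044) (nat_lit 44) (nat_lit 5) (nat_lit 49) (nat_lit 5) (nat_lit 45) (nat_lit 5) (nat_lit 335) (nat_lit 286) (nat_lit 240)) (XT.nd (nat_lit 94) (nat_lit 336) (nat_lit 0) (XT.lf (nat_lit 0) (nat_lit 3640107781) (nat_lit 420) (nat_lit 2252558382) (nat_lit 84) (nat_lit 5225155783) (nat_lit 44) (nat_lit 5) (nat_lit 49) (nat_lit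 5) (nat_lit 45) (nat_lit 5) (nat_lit 336) (nat_lit 286) (nat_lit 239)) (XT.lf (nat_lit 0) (nat_lit 1889930248) (nat_lit 336) (nat_lit 3558355223) (nat_lit 420) (nat_lit 5894824754) (nat_lit 40) (nat_lit 5) (nat_lit 44) (nat_lit 5) (nat_lit 45) (nat_lit 5) (nat_lit 337) (nat_lit 286) (nat_lit 238))))) (XT.nd (nat_lit 188) (nat_lit 336) (nat_lit 0) (XT.nd (nat_lit 94) (nat_lit 0) (nat_lit 0) (XT.lf (nat_lit 0) (nat_lit 6168373843) (nat_lit 336) (nat_lit 1134762260) (nat_lit 420) (nat_lit 4272691202) (nat_lit 40) (nat_lit 5) (nat_lit 44) (nat_lit 5) (nat_lit 45) (nat_lit 5) (nat_lit 338) (nat_lit 286) (nat_lit 237)) (XT.lf (nat_lit 0) (nat_lit 9197043681) (nat_lit 420) (nat_lit 1289914140) (nat_lit 84) (nat_lit 1329521978) (nat_lit 40) (nat_lit 5) (nat_lit 45) (nat_lit 5) (nat_lit 41) (nat_lit 5) (nat_lit 339) (nat_lit 286) (nat_lit 236))) (XT.nd (nat_lit 94) (nat_lit 84) (nat_lit 0) (XT.lf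 (nat_lit 0) (nat_lit 2964522371) (nat_lit 252) (nat_lit 8195141694) (nat_lit 336) (nat_lit 904763347) (nat_lit 37) (nat_lit 5) (nat_lit 40) (nat_lit 5) (nat_lit 41) (nat_lit 5) (nat_lit 340) (nat_lit 286) (nat_lit 235)) (XT.nd (nat_lit 94) (nat_lit 0) (nat_lit 0) (XT.lf (nat_lit 0) (nat_lit 828366016) (nat_lit 336) (nat_lit 4989399048) (nat_lit 84) (nat_lit 6502703874) (nat_lit 36) (nat_lit 5) (nat_lit 40) (nat_lit 5) (nat_lit 37) (nat_lit 5) (nat_lit 341) (nat_lit 286) (nat_lit 234)) (XT.lf (nat_lit 0) (nat_lit 2566446554) (nat_lit 336) (nat_lit 798788421) (nat_lit 84) (nat_lit 9219987608) (nat_lit 36) (nat_lit 5) (nat_lit 40) (nat_lit 5) (nat_lit 37) (nat_lit 5) (nat_lit 342) (nat_lit 286) (nat_lit 233))))))) (XT.nd (nat_lit 846) (nat_lit 672) (nat_lit 0) (XT.nd (nat_lit 376) (nat_lit 336) (nat_lit 0) (XT.nd (nat_lit 188) (nat_lit 252) (nat_lit 0) (XT.nd (nat_lit 94) (nat_lit 0) (nat_lit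 0) (XT.lf (nat_lit 0) (nat_lit 3556463099) (nat_lit 336) (nat_lit 808144761) (nat_lit 420) (nat_lit 8493511804) (nat_lit 32) (nat_lit 5) (nat_lit 36) (nat_lit 5) (nat_lit 37) (nat_lit 5) (nat_lit 343) (nat_lit 286) (nat_lit 232)) (XT.lf (nat_lit 0) (nat_lit 6216423637) (nat_lit 420) (nat_lit 5131258080) (nat_lit 84) (nat_lit 1791984005) (nat_lit 32) (nat_lit 5) (nat_lit 37) (nat_lit 5) (nat_lit 33) (nat_lit 5) (nat_lit 344) (nat_lit 286) (nat_lit 231))) (XT.nd (nat_lit 94) (nat_lit 252) (nat_lit 0) (XT.lf (nat_lit 0) (nat_lit 8106124858) (nat_lit 420) (nat_lit 876195631) (nat_lit 84) (nat_lit 4448345050) (nat_lit 32) (nat_lit 5) (nat_lit 37) (nat_lit 5) (nat_lit 33) (nat_lit 5) (nat_lit 345) (nat_lit 286) (nat_lit 230)) (XT.lf (nat_lit 0) (nat_lit 3546977536) (nat_lit 252) (nat_lit 6515664946) (nat_lit 336) (nat_lit 3667905617) (nat_lit 29) (nat_lit 5) (nat_lit 32) (nat_lit 5) (nat_lit 33)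 (nat_lit 5) (nat_lit 346) (nat_lit 286) (nat_lit 229)))) (XT.nd (nat_lit 188) (nat_lit 336) (nat_lit 0) (XT.nd (nat_lit 94) (nat_lit 0) (nat_lit 0) (XT.lf (nat_lit 0) (nat_lit 8090941022) (nat_lit 252) (nat_lit 3971530137) (nat_lit 336) (nat_lit 1977906963) (nat_lit 29) (nat_lit 5) (nat_lit 32) (nat_lit 5) (nat_lit 33) (nat_lit 5) (nat_lit 347) (nat_lit 286) (nat_lit 228)) (XT.lf (nat_lit 0) (nat_lit 12741913899) (nat_lit 252) (nat_lit 1356690347) (nat_lit 336) (nat_lit 262115151) (nat_lit 29) (nat_lit 5) (nat_lit 32) (nat_lit 5) (nat_lit 33) (nat_lit 5) (nat_lit 348) (nat_lit 286) (nat_lit 227))) (XT.nd (nat_lit 94) (nat_lit 0) (nat_lit 0) (XT.lf (nat_lit 0) (nat_lit 1493199288) (nat_lit 336) (nat_lit 11848989288) (nat_lit 84) (nat_lit 1347925391) (nat_lit 25) (nat_lit 5) (nat_lit 29) (nat_lit 5) (nat_lit 26) (nat_lit 5) (nat_lit 349) (nat_lit 286) (nat_lit 226)) (XT.nd (nat_lit 94) (nat_lit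 0) (nat_lit 0) (XT.lf (nat_lit 0) (nat_lit 3303501367) (nat_lit 336) (nat_lit 7606203639) (nat_lit 84) (nat_lit 4119845594) (nat_lit 25) (nat_lit 5) (nat_lit 29) (nat_lit 5) (nat_lit 26) (nat_lit 5) (nat_lit 350) (nat_lit 286) (nat_lit 225)) (XT.lf (nat_lit 0) (nat_lit 5145744402) (nat_lit 336) (nat_lit 3264780877) (nat_lit 84) (nat_lit 6969831483) (nat_lit 25) (nat_lit 5) (nat_lit 29) (nat_lit 5) (nat_lit 26) (nat_lit 5) (nat_lit 351) (nat_lit 286) (nat_lit 224)))))) (XT.nd (nat_lit 470) (nat_lit 252) (nat_lit 0) (XT.nd (nat_lit 188) (nat_lit 252) (nat_lit 0) (XT.nd (nat_lit 94) (nat_lit 0) (nat_lit 0) (XT.lf (nat_lit 0) (nat_lit 1203575013) (nat_lit 168) (nat_lit 5830010158) (nat_lit 252) (nat_lit 8708904141) (nat_lit 23) (nat_lit 5) (nat_lit 25) (nat_lit 5) (nat_lit 26) (nat_lit 5) (nat_lit 352) (nat_lit 286) (nat_lit 223)) (XT.lf (nat_lit 0) (nat_lit 5848084205) (nat_lit 168) (nat_lit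 3142882883) (nat_lit 252) (nat_lit 7124631010) (nat_lit 23) (nat_lit 5) (nat_lit 25) (nat_lit 5) (nat_lit 26) (nat_lit 5) (nat_lit 353) (nat_lit 286) (nat_lit 222))) (XT.nd (nat_lit 94) (nat_lit 252) (nat_lit 0) (XT.lf (nat_lit 0) (nat_lit 10605945279) (nat_lit 168) (nat_lit 380716389) (nat_lit 252) (nat_lit 5514393875) (nat_lit 23) (nat_lit 5) (nat_lit 25) (nat_lit 5) (nat_lit 26) (nat_lit 5) (nat_lit 354) (nat_lit 286) (nat_lit 221)) (XT.nd (nat_lit 94) (nat_lit 252) (nat_lit 0) (XT.lf (nat_lit 0) (nat_lit 13046923322) (nat_lit 252) (nat_lit 1442022091) (nat_lit 84) (nat_lit 2409519295) (nat_lit 23) (nat_lit 5) (nat_lit 26) (nat_lit 5) (nat_lit 24) (nat_lit 5) (nat_lit 355) (nat_lit 286) (nat_lit 220)) (XT.lf (nat_lit 0) (nat_lit 3179811490) (nat_lit 252) (nat_lit 12005561059) (nat_lit 336) (nat_lit 2122460771) (nat_lit 20) (nat_lit 5) (nat_lit 23) (nat_lit 5) (nat_lit 24) (nat_lit 5)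 (nat_lit 356) (nat_lit 286) (nat_lit 219))))) (XT.nd (nat_lit 188) (nat_lit 168) (nat_lit 0) (XT.nd (nat_lit 94) (nat_lit 84) (nat_lit 0) (XT.lf (nat_lit 0) (nat_lit 7946317801) (nat_lit 252) (nat_lit 9438074737) (nat_lit 336) (nat_lit 345758326) (nat_lit 20) (nat_lit 5) (nat_lit 23) (nat_lit 5) (nat_lit 24) (nat_lit 5) (nat_lit 357) (nat_lit 286) (nat_lit 218)) (XT.lf (nat_lit 0) (nat_lit 1435650351) (nat_lit 336) (nat_lit 5348509436) (nat_lit 84) (nat_lit 11381653196) (nat_lit 19) (nat_lit 5) (nat_lit 23) (nat_lit 5) (nat_lit 20) (nat_lit 5) (nat_lit 358) (nat_lit 286) (nat_lit 217))) (XT.nd (nat_lit 94) (nat_lit 168) (nat_lit 0) (XT.lf (nat_lit 0) (nat_lit 3245283304) (nat_lit 336) (nat_lit 807154784) (nat_lit 84) (nat_lit 14563121296) (nat_lit 19) (nat_lit 5) (nat_lit 23) (nat_lit 5) (nat_lit 20) (nat_lit 5) (nat_lit 359) (nat_lit 286) (nat_lit 216)) (XT.nd (nat_lit 94) (nat_lit 0) (nat_lit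 0) (XT.lf (nat_lit 0) (nat_lit 3927014467) (nat_lit 168) (nat_lit 1203735560) (nat_lit 252) (nat_lit 13947957926) (nat_lit 17) (nat_lit 5) (nat_lit 19) (nat_lit 5) (nat_lit 20) (nat_lit 5) (nat_lit 360) (nat_lit 286) (nat_lit 215)) (XT.lf (nat_lit 0) (nat_lit 7081383965) (nat_lit 252) (nat_lit 10775570400) (nat_lit 84) (nat_lit 1699121174) (nat_lit 17) (nat_lit 5) (nat_lit 20) (nat_lit 5) (nat_lit 18) (nat_lit 5) (nat_lit 361) (nat_lit 286) (nat_lit 214))))))))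
noncomputable def xc44 : XT := (XT.nd (nat_lit 48034) (nat_lit 0) (nat_lit 6468) (XT.nd (nat_lit 47188) (nat_lit 0) (nat_lit 12600) (XT.nd (nat_lit 376) (nat_lit 168) (nat_lit 0) (XT.nd (nat_lit 188) (nat_lit 168) (nat_lit 0) (XT.nd (nat_lit 94) (nat_lit 0) (nat_lit 0) (XT.lf (nat_lit 0) (nat_lit 9086382077) (nat_lit 252) (nat_lit 6302666469) (nat_lit 84) (nat_lit 4659449811) (nat_lit 17) (nat_lit 5) (nat_lit 20) (nat_lit 5) (nat_lit 18) (nat_lit 5) (nat_lit 362) (nat_lit 286) (nat_lit 213)) (XT.lf (nat_lit 0) (nat_lit 11135672026) (nat_lit 252) (nat_lit 1716871271) (nat_lit 84) (nat_lit 7704262275) (nat_lit 17) (nat_lit 5) (nat_lit 20) (nat_lit 5) (nat_lit 18) (nat_lit 5) (nat_lit 363) (nat_lit 286) (nat_lit 212))) (XT.nd (nat_lit 94) (nat_lit 0) (nat_lit 0) (XT.lf (nat_lit 0) (nat_lit 3047489760) (nat_lit 168) (nat_lit 10213905681) (nat_lit 252) (nat_lit 7819138366) (nat_lit 15) (nat_lit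 5) (nat_lit 17) (nat_lit 5) (nat_lit 18) (nat_lit 5) (nat_lit 364) (nat_lit 286) (nat_lit 211)) (XT.lf (nat_lit 0) (nat_lit 7971201850) (nat_lit 168) (nat_lit 7482684572) (nat_lit 252) (nat_lit 6166645874) (nat_lit 15) (nat_lit 5) (nat_lit 17) (nat_lit 5) (nat_lit 18) (nat_lit 5) (nat_lit 365) (nat_lit 286) (nat_lit 210)))) (XT.nd (nat_lit 188) (nat_lit 168) (nat_lit 0) (XT.nd (nat_lit 94) (nat_lit 0) (nat_lit 0) (XT.lf (nat_lit 0) (nat_lit 13023552019) (nat_lit 168) (nat_lit 4674254801) (nat_lit 252) (nat_lit 4480036388) (nat_lit 15) (nat_lit 5) (nat_lit 17) (nat_lit 5) (nat_lit 18) (nat_lit 5) (nat_lit 366) (nat_lit 286) (nat_lit 209)) (XT.lf (nat_lit 0) (nat_lit 18209249587) (nat_lit 168) (nat_lit 1785998618) (nat_lit 252) (nat_lit 2757737813) (nat_lit 15) (nat_lit 5) (nat_lit 17) (nat_lit 5) (nat_lit 18) (nat_lit 5) (nat_lit 367) (nat_lit 286) (nat_lit 208))) (XT.nd (nat_lit 46436) (nat_lit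 0) (nat_lit 13692) (XT.lf (nat_lit 0) (nat_lit 178474077) (nat_lit 168) (nat_lit 22183401566) (nat_lit 252) (nat_lit 984201943) (nat_lit 13) (nat_lit 5) (nat_lit 15) (nat_lit 5) (nat_lit 16) (nat_lit 4) (nat_lit 368) (nat_lit 286) (nat_lit 207)) (XT.nd (nat_lit 94) (nat_lit 84) (nat_lit 0) (XT.lf (nat_lit 0) (nat_lit 1073741823) (nat_lit 0) (nat_lit 0) (nat_lit 0) (nat_lit 0) (nat_lit 177) (nat_lit 0) (nat_lit 1) (nat_lit 0) (nat_lit 1) (nat_lit 0) (nat_lit 287) (nat_lit 287) (nat_lit 287)) (XT.lf (nat_lit 0) (nat_lit 2411088510) (nat_lit 84) (nat_lit 3983534950) (nat_lit 0) (nat_lit 49064789) (nat_lit 176) (nat_lit 5) (nat_lit 177) (nat_lit 0) (nat_lit 176) (nat_lit 4) (nat_lit 288) (nat_lit 287) (nat_lit 286)))))) (XT.nd (nat_lit 376) (nat_lit 924) (nat_lit 0) (XT.nd (nat_lit 188) (nat_lit 0) (nat_lit 0) (XT.nd (nat_lit 94) (nat_lit 168) (nat_lit 0) (XT.lf (nat_lit 0) (nat_lit 4800266461)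 (nat_lit 84) (nat_lit 1501415768) (nat_lit 0) (nat_lit 147240100) (nat_lit 176) (nat_lit 5) (nat_lit 177) (nat_lit 0) (nat_lit 176) (nat_lit 4) (nat_lit 289) (nat_lit 287) (nat_lit 285)) (XT.lf (nat_lit 0) (nat_lit 707556810) (nat_lit 168) (nat_lit 5438095492) (nat_lit 84) (nat_lit 311967897) (nat_lit 174) (nat_lit 5) (nat_lit 176) (nat_lit 5) (nat_lit 175) (nat_lit 4) (nat_lit 290) (nat_lit 287) (nat_lit 284))) (XT.nd (nat_lit 94) (nat_lit 0) (nat_lit 0) (XT.lf (nat_lit 0) (nat_lit 3025141221) (nat_lit 168) (nat_lit 2886384183) (nat_lit 84) (nat_lit 557817665) (nat_lit 174) (nat_lit 5) (nat_lit 176) (nat_lit 5) (nat_lit 175) (nat_lit 4) (nat_lit 291) (nat_lit 287) (nat_lit 283)) (XT.lf (nat_lit 0) (nat_lit 5324118386) (nat_lit 168) (nat_lit 307658778) (nat_lit 84) (nat_lit 853307741) (nat_lit 174) (nat_lit 5) (nat_lit 176) (nat_lit 5) (nat_lit 175) (nat_lit 4) (nat_lit 292) (nat_lit 287)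 (nat_lit 282)))) (XT.nd (nat_lit 188) (nat_lit 672) (nat_lit 0) (XT.nd (nat_lit 94) (nat_lit 0) (nat_lit 0) (XT.lf (nat_lit 0) (nat_lit 1103101131) (nat_lit 252) (nat_lit 4167519242) (nat_lit 84) (nat_lit 1233171798) (nat_lit 171) (nat_lit 5) (nat_lit 174) (nat_lit 5) (nat_lit 172) (nat_lit 5) (nat_lit 293) (nat_lit 287) (nat_lit 281)) (XT.lf (nat_lit 0) (nat_lit 3329231865) (nat_lit 252) (nat_lit 1518780210) (nat_lit 84) (nat_lit 1678080420) (nat_lit 171) (nat_lit 5) (nat_lit 174) (nat_lit 5) (nat_lit 172) (nat_lit 5) (nat_lit 294) (nat_lit 287) (nat_lit 280))) (XT.nd (nat_lit 94) (nat_lit 420) (nat_lit 0) (XT.lf (nat_lit 0) (nat_lit 1184942399) (nat_lit 252) (nat_lit 4366557309) (nat_lit 336) (nat_lit 1000597128) (nat_lit 168) (nat_lit 5) (nat_lit 171) (nat_lit 5) (nat_lit 172) (nat_lit 5) (nat_lit 295) (nat_lit 287) (nat_lit 279)) (XT.nd (nat_lit 94) (nat_lit 336) (nat_lit 0) (XT.lf (nat_lit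 0) (nat_lit 1170159019) (nat_lit 336) (nat_lit 2639360952) (nat_lit 84) (nat_lit 2771819732) (nat_lit 167) (nat_lit 5) (nat_lit 171) (nat_lit 5) (nat_lit 168) (nat_lit 5) (nat_lit 296) (nat_lit 287) (nat_lit 278)) (XT.lf (nat_lit 0) (nat_lit 113718737) (nat_lit 336) (nat_lit 3193218422) (nat_lit 420) (nat_lit 3307417468) (nat_lit 163) (nat_lit 5) (nat_lit 167) (nat_lit 5) (nat_lit 168) (nat_lit 5) (nat_lit 297) (nat_lit 287) (nat_lit 277))))))) (XT.nd (nat_lit 846) (nat_lit 4368) (nat_lit 0) (XT.nd (nat_lit 376) (nat_lit 1260) (nat_lit 0) (XT.nd (nat_lit 188) (nat_lit 420) (nat_lit 0) (XT.nd (nat_lit 94) (nat_lit 84) (nat_lit 0) (XT.lf (nat_lit 0) (nat_lit 2957283845) (nat_lit 336) (nat_lit 2500556209) (nat_lit 420) (nat_lit 1192835546) (nat_lit 163) (nat_lit 5) (nat_lit 167) (nat_lit 5) (nat_lit 168) (nat_lit 5) (nat_lit 298) (nat_lit 287) (nat_lit 276)) (XT.lf (nat_lit 0) (nat_lit 888712819)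 (nat_lit 420) (nat_lit 860448055) (nat_lit 84) (nat_lit 4941725037) (nat_lit 162) (nat_lit 5) (nat_lit 167) (nat_lit 5) (nat_lit 163) (nat_lit 5) (nat_lit 299) (nat_lit 287) (nat_lit 275))) (XT.nd (nat_lit 94) (nat_lit 0) (nat_lit 0) (XT.lf (nat_lit 0) (nat_lit 2039221306) (nat_lit 420) (nat_lit 914691628) (nat_lit 504) (nat_lit 3780399290) (nat_lit 157) (nat_lit 5) (nat_lit 162) (nat_lit 5) (nat_lit 163) (nat_lit 5) (nat_lit 300) (nat_lit 287) (nat_lit 274)) (XT.lf (nat_lit 0) (nat_lit 4997546028) (nat_lit 420) (nat_lit 20046168) (nat_lit 504) (nat_lit 1764114694) (nat_lit 157) (nat_lit 5) (nat_lit 162) (nat_lit 5) (nat_lit 163) (nat_lit 5) (nat_lit 301) (nat_lit 287) (nat_lit 273)))) (XT.nd (nat_lit 188) (nat_lit 672) (nat_lit 0) (XT.nd (nat_lit 94) (nat_lit 0) (nat_lit 0) (XT.lf (nat_lit 0) (nat_lit 255871611) (nat_lit 588) (nat_lit 5654521325) (nat_lit 84) (nat_lit 922262807) (nat_lit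 150) (nat_lit 5) (nat_lit 157) (nat_lit 5) (nat_lit 151) (nat_lit 5) (nat_lit 302) (nat_lit 287) (nat_lit 272)) (XT.lf (nat_lit 0) (nat_lit 2249210508) (nat_lit 588) (nat_lit 2685497968) (nat_lit 84) (nat_lit 1952086164) (nat_lit 150) (nat_lit 5) (nat_lit 157) (nat_lit 5) (nat_lit 151) (nat_lit 5) (nat_lit 303) (nat_lit 287) (nat_lit 271))) (XT.nd (nat_lit 94) (nat_lit 84) (nat_lit 0) (XT.lf (nat_lit 0) (nat_lit 331282235) (nat_lit 588) (nat_lit 3906860474) (nat_lit 672) (nat_lit 2707043813) (nat_lit 143) (nat_lit 5) (nat_lit 150) (nat_lit 5) (nat_lit 151) (nat_lit 5) (nat_lit 304) (nat_lit 287) (nat_lit 270)) (XT.nd (nat_lit 94) (nat_lit 84) (nat_lit 0) (XT.lf (nat_lit 0) (nat_lit 3448072195) (nat_lit 588) (nat_lit 2800793070) (nat_lit 672) (nat_lit 758265911) (nat_lit 143) (nat_lit 5) (nat_lit 150) (nat_lit 5) (nat_lit 151) (nat_lit 5) (nat_lit 305) (nat_lit 287) (nat_lit 269)) (XT.lf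 (nat_lit 0) (nat_lit 1158709502) (nat_lit 672) (nat_lit 472702332) (nat_lit 84) (nat_lit 5441753686) (nat_lit 142) (nat_lit 5) (nat_lit 150) (nat_lit 5) (nat_lit 143) (nat_lit 5) (nat_lit 306) (nat_lit 287) (nat_lit 268)))))) (XT.nd (nat_lit 470) (nat_lit 2016) (nat_lit 0) (XT.nd (nat_lit 188) (nat_lit 1680) (nat_lit 0) (XT.nd (nat_lit 94) (nat_lit 0) (nat_lit 0) (XT.lf (nat_lit 0) (nat_lit 2706860599) (nat_lit 672) (nat_lit 374355598) (nat_lit 756) (nat_lit 4061435192) (nat_lit 134) (nat_lit 5) (nat_lit 142) (nat_lit 5) (nat_lit 143) (nat_lit 5) (nat_lit 307) (nat_lit 287) (nat_lit 267)) (XT.lf (nat_lit 0) (nat_lit 5014068993) (nat_lit 756) (nat_lit 1279639287) (nat_lit 84) (nat_lit 922558346) (nat_lit 134) (nat_lit 5) (nat_lit 143) (nat_lit 5) (nat_lit 135) (nat_lit 5) (nat_lit 308) (nat_lit 287) (nat_lit 266))) (XT.nd (nat_lit 94) (nat_lit 924) (nat_lit 0) (XT.lf (nat_lit 0) (nat_lit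 1960243298) (nat_lit 756) (nat_lit 5008398052) (nat_lit 840) (nat_lit 325141772) (nat_lit 125) (nat_lit 5) (nat_lit 134) (nat_lit 5) (nat_lit 135) (nat_lit 5) (nat_lit 309) (nat_lit 287) (nat_lit 265)) (XT.nd (nat_lit 94) (nat_lit 840) (nat_lit 0) (XT.lf (nat_lit 0) (nat_lit 1530014083) (nat_lit 840) (nat_lit 2112645575) (nat_lit 84) (nat_lit 3732434194) (nat_lit 124) (nat_lit 5) (nat_lit 134) (nat_lit 5) (nat_lit 125) (nat_lit 5) (nat_lit 310) (nat_lit 287) (nat_lit 264)) (XT.lf (nat_lit 0) (nat_lit 1179121322) (nat_lit 840) (nat_lit 2209197762) (nat_lit 924) (nat_lit 4072375796) (nat_lit 114) (nat_lit 5) (nat_lit 124) (nat_lit 5) (nat_lit 125) (nat_lit 5) (nat_lit 311) (nat_lit 287) (nat_lit 263))))) (XT.nd (nat_lit 188) (nat_lit 1092) (nat_lit 0) (XT.nd (nat_lit 94) (nat_lit 924) (nat_lit 0) (XT.lf (nat_lit 0) (nat_lit 4568813856) (nat_lit 840) (nat_lit 699463600) (nat_lit 924) (nat_lit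 2282171675) (nat_lit 114) (nat_lit 5) (nat_lit 124) (nat_lit 5) (nat_lit 125) (nat_lit 5) (nat_lit 312) (nat_lit 287) (nat_lit 262)) (XT.lf (nat_lit 0) (nat_lit 369911001) (nat_lit 924) (nat_lit 6792601260) (nat_lit 1008) (nat_lit 482211011) (nat_lit 103) (nat_lit 5) (nat_lit 114) (nat_lit 5) (nat_lit 115) (nat_lit 5) (nat_lit 313) (nat_lit 287) (nat_lit 261))) (XT.nd (nat_lit 94) (nat_lit 1008) (nat_lit 0) (XT.lf (nat_lit 0) (nat_lit 1328579149) (nat_lit 1008) (nat_lit 3924127423) (nat_lit 84) (nat_lit 2489678413) (nat_lit 102) (nat_lit 5) (nat_lit 114) (nat_lit 5) (nat_lit 103) (nat_lit 5) (nat_lit 314) (nat_lit 287) (nat_lit 260)) (XT.nd (nat_lit 94) (nat_lit 1008) (nat_lit 0) (XT.lf (nat_lit 0) (nat_lit 3131277960) (nat_lit 1008) (nat_lit 523619298) (nat_lit 84) (nat_lit 4190045304) (nat_lit 102) (nat_lit 5) (nat_lit 114) (nat_lit 5) (nat_lit 103) (nat_lit 5) (nat_lit 315) (nat_lit 287)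 (nat_lit 259)) (XT.lf (nat_lit 0) (nat_lit 2995008063) (nat_lit 1008) (nat_lit 1971983988) (nat_lit 1092) (nat_lit 2984726800) (nat_lit 90) (nat_lit 5) (nat_lit 102) (nat_lit 5) (nat_lit 103) (nat_lit 5) (nat_lit 316) (nat_lit 287) (nat_lit 258))))))))
noncomputable def xc45 : XT := (XT.nd (nat_lit 1786) (nat_lit 1764) (nat_lit 0) (XT.nd (nat_lit 846) (nat_lit 1680) (nat_lit 0) (XT.nd (nat_lit 376) (nat_lit 1008) (nat_lit 0) (XT.nd (nat_lit 188) (nat_lit 504) (nat_lit 0) (XT.nd (nat_lit 94) (nat_lit 672) (nat_lit 0) (XT.lf (nat_lit 0) (nat_lit 6586656379) (nat_lit 1008) (nat_lit 226956324) (nat_lit 1092) (nat_lit 1249939091) (nat_lit 90) (nat_lit 5) (nat_lit 102) (nat_lit 5) (nat_lit 103) (nat_lit 5) (nat_lit 317) (nat_lit 287) (nat_lit 257)) (XT.lf (nat_lit 0) (nat_lit 513780277) (nat_lit 672) (nat_lit 6095122899) (nat_lit 84) (nat_lit 1570518158) (nat_lit 82) (nat_lit 5) (nat_lit 90) (nat_lit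 5) (nat_lit 83) (nat_lit 5) (nat_lit 318) (nat_lit 287) (nat_lit 256))) (XT.nd (nat_lit 94) (nat_lit 504) (nat_lit 0) (XT.lf (nat_lit 0) (nat_lit 2274465100) (nat_lit 672) (nat_lit 2574938900) (nat_lit 84) (nat_lit 3450359158) (nat_lit 82) (nat_lit 5) (nat_lit 90) (nat_lit 5) (nat_lit 83) (nat_lit 5) (nat_lit 319) (nat_lit 287) (nat_lit 255)) (XT.lf (nat_lit 0) (nat_lit 1028071712) (nat_lit 504) (nat_lit 3023710292) (nat_lit 588) (nat_lit 4373513717) (nat_lit 76) (nat_lit 5) (nat_lit 82) (nat_lit 5) (nat_lit 83) (nat_lit 5) (nat_lit 320) (nat_lit 287) (nat_lit 254)))) (XT.nd (nat_lit 188) (nat_lit 1008) (nat_lit 0) (XT.nd (nat_lit 94) (nat_lit 0) (nat_lit 0) (XT.lf (nat_lit 0) (nat_lit 4750826522) (nat_lit 504) (nat_lit 1113084599) (nat_lit 588) (nat_lit 2691712685) (nat_lit 76) (nat_lit 5) (nat_lit 82) (nat_lit 5) (nat_lit 83) (nat_lit 5) (nat_lit 321) (nat_lit 287) (nat_lit 253)) (XT.lf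 (nat_lit 0) (nat_lit 7694977885) (nat_lit 588) (nat_lit 156332814) (nat_lit 84) (nat_lit 840102665) (nat_lit 76) (nat_lit 5) (nat_lit 83) (nat_lit 5) (nat_lit 77) (nat_lit 5) (nat_lit 322) (nat_lit 287) (nat_lit 252))) (XT.nd (nat_lit 94) (nat_lit 420) (nat_lit 0) (XT.lf (nat_lit 0) (nat_lit 738979351) (nat_lit 588) (nat_lit 5217668827) (nat_lit 84) (nat_lit 2874699840) (nat_lit 69) (nat_lit 5) (nat_lit 76) (nat_lit 5) (nat_lit 70) (nat_lit 5) (nat_lit 323) (nat_lit 287) (nat_lit 251)) (XT.nd (nat_lit 94) (nat_lit 420) (nat_lit 0) (XT.lf (nat_lit 0) (nat_lit 2464977011) (nat_lit 588) (nat_lit 1528014229) (nat_lit 84) (nat_lit 4983875054) (nat_lit 69) (nat_lit 5) (nat_lit 76) (nat_lit 5) (nat_lit 70) (nat_lit 5) (nat_lit 324) (nat_lit 287) (nat_lit 250)) (XT.lf (nat_lit 0) (nat_lit 2277174105) (nat_lit 420) (nat_lit 1947059090) (nat_lit 504) (nat_lit 4903526341) (nat_lit 64) (nat_lit 5) (nat_lit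 69) (nat_lit 5) (nat_lit 70) (nat_lit 5) (nat_lit 325) (nat_lit 287) (nat_lit 249)))))) (XT.nd (nat_lit 470) (nat_lit 840) (nat_lit 0) (XT.nd (nat_lit 188) (nat_lit 420) (nat_lit 0) (XT.nd (nat_lit 94) (nat_lit 420) (nat_lit 0) (XT.lf (nat_lit 0) (nat_lit 6013737710) (nat_lit 504) (nat_lit 3097673633) (nat_lit 84) (nat_lit 172901200) (nat_lit 64) (nat_lit 5) (nat_lit 70) (nat_lit 5) (nat_lit 65) (nat_lit 5) (nat_lit 326) (nat_lit 287) (nat_lit 248)) (XT.lf (nat_lit 0) (nat_lit 721803010) (nat_lit 420) (nat_lit 7123240171) (nat_lit 504) (nat_lit 1601321637) (nat_lit 59) (nat_lit 5) (nat_lit 64) (nat_lit 5) (nat_lit 65) (nat_lit 5) (nat_lit 327) (nat_lit 287) (nat_lit 247))) (XT.nd (nat_lit 94) (nat_lit 336) (nat_lit 0) (XT.lf (nat_lit 0) (nat_lit 109352587) (nat_lit 504) (nat_lit 4933602023) (nat_lit 84) (nat_lit 4570903725) (nat_lit 58) (nat_lit 5) (nat_lit 64) (nat_lit 5) (nat_lit 59) (nat_lit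 5) (nat_lit 328) (nat_lit 287) (nat_lit 246)) (XT.nd (nat_lit 94) (nat_lit 336) (nat_lit 0) (XT.lf (nat_lit 0) (nat_lit 1800435986) (nat_lit 504) (nat_lit 1085145444) (nat_lit 84) (nat_lit 6901877913) (nat_lit 58) (nat_lit 5) (nat_lit 64) (nat_lit 5) (nat_lit 59) (nat_lit 5) (nat_lit 329) (nat_lit 287) (nat_lit 245)) (XT.lf (nat_lit 0) (nat_lit 2898682389) (nat_lit 336) (nat_lit 635840787) (nat_lit 420) (nat_lit 6432407511) (nat_lit 54) (nat_lit 5) (nat_lit 58) (nat_lit 5) (nat_lit 59) (nat_lit 5) (nat_lit 330) (nat_lit 287) (nat_lit 244))))) (XT.nd (nat_lit 188) (nat_lit 420) (nat_lit 0) (XT.nd (nat_lit 94) (nat_lit 420) (nat_lit 0) (XT.lf (nat_lit 0) (nat_lit 5313024354) (nat_lit 420) (nat_lit 3182630453) (nat_lit 84) (nat_lit 1656791238) (nat_lit 54) (nat_lit 5) (nat_lit 59) (nat_lit 5) (nat_lit 55) (nat_lit 5) (nat_lit 331) (nat_lit 287) (nat_lit 243)) (XT.lf (nat_lit 0) (nat_lit 790962240)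 (nat_lit 420) (nat_lit 6333686396) (nat_lit 504) (nat_lit 3219931106) (nat_lit 49) (nat_lit 5) (nat_lit 54) (nat_lit 5) (nat_lit 55) (nat_lit 5) (nat_lit 332) (nat_lit 287) (nat_lit 242))) (XT.nd (nat_lit 94) (nat_lit 420) (nat_lit 0) (XT.lf (nat_lit 0) (nat_lit 4913718450) (nat_lit 420) (nat_lit 4076256631) (nat_lit 504) (nat_lit 1552950185) (nat_lit 49) (nat_lit 5) (nat_lit 54) (nat_lit 5) (nat_lit 55) (nat_lit 5) (nat_lit 333) (nat_lit 287) (nat_lit 241)) (XT.nd (nat_lit 94) (nat_lit 336) (nat_lit 0) (XT.lf (nat_lit 0) (nat_lit 127238454) (nat_lit 504) (nat_lit 1625914923) (nat_lit 84) (nat_lit 8995473044) (nat_lit 48) (nat_lit 5) (nat_lit 54) (nat_lit 5) (nat_lit 49) (nat_lit 5) (nat_lit 334) (nat_lit 287) (nat_lit 240)) (XT.lf (nat_lit 0) (nat_lit 1824667590) (nat_lit 420) (nat_lit 8471401065) (nat_lit 84) (nat_lit 664387244) (nat_lit 44) (nat_lit 5) (nat_lit 49) (nat_lit 5) (nat_lit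 45) (nat_lit 5) (nat_lit 335) (nat_lit 287) (nat_lit 239))))))) (XT.nd (nat_lit 846) (nat_lit 756) (nat_lit 0) (XT.nd (nat_lit 376) (nat_lit 672) (nat_lit 0) (XT.nd (nat_lit 188) (nat_lit 336) (nat_lit 0) (XT.nd (nat_lit 94) (nat_lit 0) (nat_lit 0) (XT.lf (nat_lit 0) (nat_lit 3576291439) (nat_lit 420) (nat_lit 4470999542) (nat_lit 84) (nat_lit 3131671152) (nat_lit 44) (nat_lit 5) (nat_lit 49) (nat_lit 5) (nat_lit 45) (nat_lit 5) (nat_lit 336) (nat_lit 287) (nat_lit 238)) (XT.lf (nat_lit 0) (nat_lit 5349721912) (nat_lit 420) (nat_lit 385990561) (nat_lit 84) (nat_lit 5669690960) (nat_lit 44) (nat_lit 5) (nat_lit 49) (nat_lit 5) (nat_lit 45) (nat_lit 5) (nat_lit 337) (nat_lit 287) (nat_lit 237))) (XT.nd (nat_lit 94) (nat_lit 0) (nat_lit 0) (XT.lf (nat_lit 0) (nat_lit 3865310934) (nat_lit 336) (nat_lit 3319645460) (nat_lit 420) (nat_lit 4453845798) (nat_lit 40) (nat_lit 5) (nat_lit 44) (nat_lit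 5) (nat_lit 45) (nat_lit 5) (nat_lit 338) (nat_lit 287) (nat_lit 236)) (XT.lf (nat_lit 0) (nat_lit 8218752355) (nat_lit 336) (nat_lit 831415375) (nat_lit 420) (nat_lit 2830247904) (nat_lit 40) (nat_lit 5) (nat_lit 44) (nat_lit 5) (nat_lit 45) (nat_lit 5) (nat_lit 339) (nat_lit 287) (nat_lit 235)))) (XT.nd (nat_lit 188) (nat_lit 336) (nat_lit 0) (XT.nd (nat_lit 94) (nat_lit 84) (nat_lit 0) (XT.lf (nat_lit 0) (nat_lit 533478380) (nat_lit 252) (nat_lit 10432135188) (nat_lit 336) (nat_lit 1164281309) (nat_lit 37) (nat_lit 5) (nat_lit 40) (nat_lit 5) (nat_lit 41) (nat_lit 5) (nat_lit 340) (nat_lit 287) (nat_lit 234)) (XT.lf (nat_lit 0) (nat_lit 559314688) (nat_lit 336) (nat_lit 7502079261) (nat_lit 84) (nat_lit 4325145008) (nat_lit 36) (nat_lit 5) (nat_lit 40) (nat_lit 5) (nat_lit 37) (nat_lit 5) (nat_lit 341) (nat_lit 287) (nat_lit 233))) (XT.nd (nat_lit 94) (nat_lit 336) (nat_lit 0) (XT.lf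 (nat_lit 0) (nat_lit 2283077017) (nat_lit 336) (nat_lit 3329648270) (nat_lit 84) (nat_lit 7039074341) (nat_lit 36) (nat_lit 5) (nat_lit 40) (nat_lit 5) (nat_lit 37) (nat_lit 5) (nat_lit 342) (nat_lit 287) (nat_lit 232)) (XT.nd (nat_lit 94) (nat_lit 0) (nat_lit 0) (XT.lf (nat_lit 0) (nat_lit 955567997) (nat_lit 336) (nat_lit 3085981433) (nat_lit 420) (nat_lit 8884438896) (nat_lit 32) (nat_lit 5) (nat_lit 36) (nat_lit 5) (nat_lit 37) (nat_lit 5) (nat_lit 343) (nat_lit 287) (nat_lit 231)) (XT.lf (nat_lit 0) (nat_lit 5408762684) (nat_lit 336) (nat_lit 452817027) (nat_lit 420) (nat_lit 7346999446) (nat_lit 32) (nat_lit 5) (nat_lit 36) (nat_lit 5) (nat_lit 37) (nat_lit 5) (nat_lit 344) (nat_lit 287) (nat_lit 230)))))) (XT.nd (nat_lit 470) (nat_lit 420) (nat_lit 0) (XT.nd (nat_lit 188) (nat_lit 84) (nat_lit 0) (XT.nd (nat_lit 94) (nat_lit 252) (nat_lit 0) (XT.lf (nat_lit 0) (nat_lit 7733519216)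 (nat_lit 420) (nat_lit 3557622885) (nat_lit 84) (nat_lit 2209045119) (nat_lit 32) (nat_lit 5) (nat_lit 37) (nat_lit 5) (nat_lit 33) (nat_lit 5) (nat_lit 345) (nat_lit 287) (nat_lit 229)) (XT.lf (nat_lit 0) (nat_lit 793229539) (nat_lit 252) (nat_lit 8856619057) (nat_lit 336) (nat_lit 4151522919) (nat_lit 29) (nat_lit 5) (nat_lit 32) (nat_lit 5) (nat_lit 33) (nat_lit 5) (nat_lit 346) (nat_lit 287) (nat_lit 228))) (XT.nd (nat_lit 94) (nat_lit 84) (nat_lit 0) (XT.lf (nat_lit 0) (nat_lit 5320524647) (nat_lit 252) (nat_lit 6316503548) (nat_lit 336) (nat_lit 2474619687) (nat_lit 29) (nat_lit 5) (nat_lit 32) (nat_lit 5) (nat_lit 33) (nat_lit 5) (nat_lit 347) (nat_lit 287) (nat_lit 227)) (XT.nd (nat_lit 94) (nat_lit 84) (nat_lit 0) (XT.lf (nat_lit 0) (nat_lit 9955330327) (nat_lit 252) (nat_lit 3705562206) (nat_lit 336) (nat_lit 771529544) (nat_lit 29) (nat_lit 5) (nat_lit 32) (nat_lit 5) (nat_lit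 33) (nat_lit 5) (nat_lit 348) (nat_lit 287) (nat_lit 226)) (XT.lf (nat_lit 0) (nat_lit 940006505) (nat_lit 336) (nat_lit 71543115) (nat_lit 84) (nat_lit 13752148460) (nat_lit 28) (nat_lit 5) (nat_lit 32) (nat_lit 5) (nat_lit 29) (nat_lit 5) (nat_lit 349) (nat_lit 287) (nat_lit 225))))) (XT.nd (nat_lit 188) (nat_lit 168) (nat_lit 0) (XT.nd (nat_lit 94) (nat_lit 0) (nat_lit 0) (XT.lf (nat_lit 0) (nat_lit 2727637487) (nat_lit 336) (nat_lit 10600100589) (nat_lit 84) (nat_lit 1776147428) (nat_lit 25) (nat_lit 5) (nat_lit 29) (nat_lit 5) (nat_lit 26) (nat_lit 5) (nat_lit 350) (nat_lit 287) (nat_lit 224)) (XT.lf (nat_lit 0) (nat_lit 4558333790) (nat_lit 336) (nat_lit 6274384538) (nat_lit 84) (nat_lit 4622377830) (nat_lit 25) (nat_lit 5) (nat_lit 29) (nat_lit 5) (nat_lit 26) (nat_lit 5) (nat_lit 351) (nat_lit 287) (nat_lit 223))) (XT.nd (nat_lit 94) (nat_lit 168) (nat_lit 0) (XT.lf (nat_lit 0) (nat_lit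 6423035399) (nat_lit 336) (nat_lit 1845512446) (nat_lit 84) (nat_lit 7549443322) (nat_lit 25) (nat_lit 5) (nat_lit 29) (nat_lit 5) (nat_lit 26) (nat_lit 5) (nat_lit 352) (nat_lit 287) (nat_lit 222)) (XT.nd (nat_lit 94) (nat_lit 0) (nat_lit 0) (XT.lf (nat_lit 0) (nat_lit 2745969016) (nat_lit 168) (nat_lit 5604751748) (nat_lit 252) (nat_lit 7841343572) (nat_lit 23) (nat_lit 5) (nat_lit 25) (nat_lit 5) (nat_lit 26) (nat_lit 5) (nat_lit 353) (nat_lit 287) (nat_lit 221)) (XT.lf (nat_lit 0) (nat_lit 7489203310) (nat_lit 168) (nat_lit 2846530754) (nat_lit 252) (nat_lit 6242161305) (nat_lit 23) (nat_lit 5) (nat_lit 25) (nat_lit 5) (nat_lit 26) (nat_lit 5) (nat_lit 354) (nat_lit 287) (nat_lit 220))))))))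
noncomputable def xc46 : XT := (XT.nd (nat_lit 48128) (nat_lit 0) (nat_lit 9156) (XT.nd (nat_lit 846) (nat_lit 168) (nat_lit 0) (XT.nd (nat_lit 376) (nat_lit 168) (nat_lit 0) (XT.nd (nat_lit 188) (nat_lit 336) (nat_lit 0) (XT.nd (nat_lit 94) (nat_lit 0) (nat_lit 0) (XT.lf (nat_lit 0) (nat_lit 12350664106) (nat_lit 168) (nat_lit 10577279) (nat_lit 252) (nat_lit 4615181728) (nat_lit 23) (nat_lit 5) (nat_lit 25) (nat_lit 5) (nat_lit 26) (nat_lit 5) (nat_lit 355) (nat_lit 287) (nat_lit 219)) (XT.lf (nat_lit 0) (nat_lit 14457956133) (nat_lit 252) (nat_lit 81961663) (nat_lit 84) (nat_lit 2847207653) (nat_lit 23) (nat_lit 5) (nat_lit 26) (nat_lit 5) (nat_lit 24) (nat_lit 5) (nat_lit 356) (nat_lit 287) (nat_lit 218))) (XT.nd (nat_lit 94) (nat_lit 84) (nat_lit 0) (XT.lf (nat_lit 0) (nat_lit 4668926794) (nat_lit 252) (nat_lit 11977299144) (nat_lit 336) (nat_lit 1163589064) (nat_lit 20) (nat_lit 5)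 (nat_lit 23) (nat_lit 5) (nat_lit 24) (nat_lit 5) (nat_lit 357) (nat_lit 287) (nat_lit 217)) (XT.lf (nat_lit 0) (nat_lit 624539729) (nat_lit 336) (nat_lit 8711202320) (nat_lit 84) (nat_lit 8910325512) (nat_lit 19) (nat_lit 5) (nat_lit 23) (nat_lit 5) (nat_lit 20) (nat_lit 5) (nat_lit 358) (nat_lit 287) (nat_lit 216)))) (XT.nd (nat_lit 188) (nat_lit 0) (nat_lit 0) (XT.nd (nat_lit 94) (nat_lit 168) (nat_lit 0) (XT.lf (nat_lit 0) (nat_lit 2424708713) (nat_lit 336) (nat_lit 4183184932) (nat_lit 84) (nat_lit 12088249061) (nat_lit 19) (nat_lit 5) (nat_lit 23) (nat_lit 5) (nat_lit 20) (nat_lit 5) (nat_lit 359) (nat_lit 287) (nat_lit 215)) (XT.lf (nat_lit 0) (nat_lit 468363978) (nat_lit 168) (nat_lit 3798321810) (nat_lit 252) (nat_lit 14893987966) (nat_lit 17) (nat_lit 5) (nat_lit 19) (nat_lit 5) (nat_lit 20) (nat_lit 5) (nat_lit 360) (nat_lit 287) (nat_lit 214))) (XT.nd (nat_lit 94) (nat_lit 0)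 (nat_lit 0) (XT.lf (nat_lit 0) (nat_lit 5326784717) (nat_lit 168) (nat_lit 864302501) (nat_lit 252) (nat_lit 13447800597) (nat_lit 17) (nat_lit 5) (nat_lit 19) (nat_lit 5) (nat_lit 20) (nat_lit 5) (nat_lit 361) (nat_lit 287) (nat_lit 213)) (XT.nd (nat_lit 94) (nat_lit 0) (nat_lit 0) (XT.lf (nat_lit 0) (nat_lit 8178716117) (nat_lit 252) (nat_lit 9843312898) (nat_lit 84) (nat_lit 2109852331) (nat_lit 17) (nat_lit 5) (nat_lit 20) (nat_lit 5) (nat_lit 18) (nat_lit 5) (nat_lit 362) (nat_lit 287) (nat_lit 212)) (XT.lf (nat_lit 0) (nat_lit 10219475294) (nat_lit 252) (nat_lit 5269823926) (nat_lit 84) (nat_lit 5151185093) (nat_lit 17) (nat_lit 5) (nat_lit 20) (nat_lit 5) (nat_lit 18) (nat_lit 5) (nat_lit 363) (nat_lit 287) (nat_lit 211)))))) (XT.nd (nat_lit 376) (nat_lit 0) (nat_lit 0) (XT.nd (nat_lit 188) (nat_lit 0) (nat_lit 0) (XT.nd (nat_lit 94) (nat_lit 168) (nat_lit 0) (XT.lf (nat_lit 0) (nat_lit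 12306692964) (nat_lit 252) (nat_lit 578799224) (nat_lit 84) (nat_lit 8279944394) (nat_lit 17) (nat_lit 5) (nat_lit 20) (nat_lit 5) (nat_lit 18) (nat_lit 5) (nat_lit 364) (nat_lit 287) (nat_lit 210)) (XT.lf (nat_lit 0) (nat_lit 4321196206) (nat_lit 168) (nat_lit 10163985226) (nat_lit 252) (nat_lit 7220717159) (nat_lit 15) (nat_lit 5) (nat_lit 17) (nat_lit 5) (nat_lit 18) (nat_lit 5) (nat_lit 365) (nat_lit 287) (nat_lit 209))) (XT.nd (nat_lit 94) (nat_lit 0) (nat_lit 0) (XT.lf (nat_lit 0) (nat_lit 9362086279) (nat_lit 168) (nat_lit 7359117695) (nat_lit 252) (nat_lit 5542278922) (nat_lit 15) (nat_lit 5) (nat_lit 17) (nat_lit 5) (nat_lit 18) (nat_lit 5) (nat_lit 366) (nat_lit 287) (nat_lit 208)) (XT.lf (nat_lit 0) (nat_lit 14536668331) (nat_lit 168) (nat_lit 4474316643) (nat_lit 252) (nat_lit 3827905902) (nat_lit 15) (nat_lit 5) (nat_lit 17) (nat_lit 5) (nat_lit 18) (nat_lit 5) (nat_lit 367)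 (nat_lit 287) (nat_lit 207)))) (XT.nd (nat_lit 46624) (nat_lit 0) (nat_lit 13272) (XT.nd (nat_lit 46530) (nat_lit 0) (nat_lit 13524) (XT.lf (nat_lit 0) (nat_lit 19849765616) (nat_lit 168) (nat_lit 1506893133) (nat_lit 252) (nat_lit 2076000126) (nat_lit 15) (nat_lit 5) (nat_lit 17) (nat_lit 5) (nat_lit 18) (nat_lit 5) (nat_lit 368) (nat_lit 287) (nat_lit 206)) (XT.lf (nat_lit 0) (nat_lit 1193339202) (nat_lit 0) (nat_lit 1193339202) (nat_lit 84) (nat_lit 836777948) (nat_lit 176) (nat_lit 5) (nat_lit 176) (nat_lit 3) (nat_lit 177) (nat_lit 0) (nat_lit 288) (nat_lit 288) (nat_lit 285))) (XT.nd (nat_lit 94) (nat_lit 0) (nat_lit 0) (XT.lf (nat_lit 0) (nat_lit 647757777) (nat_lit 252) (nat_lit 1608771023) (nat_lit 252) (nat_lit 4197343031) (nat_lit 173) (nat_lit 3) (nat_lit 176) (nat_lit 3) (nat_lit 176) (nat_lit 5) (nat_lit 289) (nat_lit 288) (nat_lit 284)) (XT.nd (nat_lit 94) (nat_lit 0) (nat_lit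 0) (XT.lf (nat_lit 84) (nat_lit 870626583) (nat_lit 0) (nat_lit 2051074520) (nat_lit 252) (nat_lit 3542314492) (nat_lit 174) (nat_lit 5) (nat_lit 173) (nat_lit 3) (nat_lit 176) (nat_lit 5) (nat_lit 290) (nat_lit 288) (nat_lit 283)) (XT.lf (nat_lit 84) (nat_lit 3412995809) (nat_lit 0) (nat_lit 1779055366) (nat_lit 252) (nat_lit 1285570823) (nat_lit 174) (nat_lit 5) (nat_lit 173) (nat_lit 3) (nat_lit 176) (nat_lit 5) (nat_lit 291) (nat_lit 288) (nat_lit 282))))))) (XT.nd (nat_lit 846) (nat_lit 2772) (nat_lit 0) (XT.nd (nat_lit 376) (nat_lit 756) (nat_lit 0) (XT.nd (nat_lit 188) (nat_lit 336) (nat_lit 0) (XT.nd (nat_lit 94) (nat_lit 0) (nat_lit 0) (XT.lf (nat_lit 0) (nat_lit 930299341) (nat_lit 252) (nat_lit 517000299) (nat_lit 336) (nat_lit 5047617018) (nat_lit 170) (nat_lit 5) (nat_lit 173) (nat_lit 3) (nat_lit 174) (nat_lit 5) (nat_lit 292) (nat_lit 288) (nat_lit 281)) (XT.lf (nat_lit 84)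 (nat_lit 2090858701) (nat_lit 0) (nat_lit 1030885740) (nat_lit 336) (nat_lit 3393431215) (nat_lit 171) (nat_lit 5) (nat_lit 170) (nat_lit 5) (nat_lit 174) (nat_lit 5) (nat_lit 293) (nat_lit 288) (nat_lit 280))) (XT.nd (nat_lit 94) (nat_lit 336) (nat_lit 0) (XT.lf (nat_lit 84) (nat_lit 4743283529) (nat_lit 0) (nat_lit 558234886) (nat_lit 336) (nat_lit 1237765696) (nat_lit 171) (nat_lit 5) (nat_lit 170) (nat_lit 5) (nat_lit 174) (nat_lit 5) (nat_lit 294) (nat_lit 288) (nat_lit 279)) (XT.lf (nat_lit 84) (nat_lit 873367476) (nat_lit 0) (nat_lit 16175871) (nat_lit 420) (nat_lit 5677338362) (nat_lit 167) (nat_lit 5) (nat_lit 166) (nat_lit 5) (nat_lit 171) (nat_lit 5) (nat_lit 295) (nat_lit 288) (nat_lit 278)))) (XT.nd (nat_lit 188) (nat_lit 840) (nat_lit 0) (XT.nd (nat_lit 94) (nat_lit 0) (nat_lit 0) (XT.lf (nat_lit 0) (nat_lit 2999794689) (nat_lit 336) (nat_lit 3000760981) (nat_lit 84) (nat_lit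 596850490) (nat_lit 167) (nat_lit 5) (nat_lit 171) (nat_lit 5) (nat_lit 168) (nat_lit 5) (nat_lit 296) (nat_lit 288) (nat_lit 277)) (XT.lf (nat_lit 0) (nat_lit 5096468452) (nat_lit 336) (nat_lit 274487165) (nat_lit 84) (nat_lit 1261037116) (nat_lit 167) (nat_lit 5) (nat_lit 171) (nat_lit 5) (nat_lit 168) (nat_lit 5) (nat_lit 297) (nat_lit 288) (nat_lit 276))) (XT.nd (nat_lit 94) (nat_lit 420) (nat_lit 0) (XT.lf (nat_lit 0) (nat_lit 525837261) (nat_lit 420) (nat_lit 4136054005) (nat_lit 84) (nat_lit 2007841491) (nat_lit 162) (nat_lit 5) (nat_lit 167) (nat_lit 5) (nat_lit 163) (nat_lit 5) (nat_lit 298) (nat_lit 288) (nat_lit 275)) (XT.nd (nat_lit 94) (nat_lit 420) (nat_lit 0) (XT.lf (nat_lit 0) (nat_lit 2545771371) (nat_lit 420) (nat_lit 1339552665) (nat_lit 84) (nat_lit 2825716899) (nat_lit 162) (nat_lit 5) (nat_lit 167) (nat_lit 5) (nat_lit 163) (nat_lit 5) (nat_lit 299) (nat_lit 288) (nat_lit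 274)) (XT.lf (nat_lit 0) (nat_lit 1525905187) (nat_lit 420) (nat_lit 3043522851) (nat_lit 504) (nat_lit 2186617718) (nat_lit 157) (nat_lit 5) (nat_lit 162) (nat_lit 5) (nat_lit 163) (nat_lit 5) (nat_lit 300) (nat_lit 288) (nat_lit 273)))))) (XT.nd (nat_lit 470) (nat_lit 1512) (nat_lit 0) (XT.nd (nat_lit 188) (nat_lit 672) (nat_lit 0) (XT.nd (nat_lit 94) (nat_lit 588) (nat_lit 0) (XT.lf (nat_lit 0) (nat_lit 4460602229) (nat_lit 420) (nat_lit 2136915405) (nat_lit 504) (nat_lit 207307988) (nat_lit 157) (nat_lit 5) (nat_lit 162) (nat_lit 5) (nat_lit 163) (nat_lit 5) (nat_lit 301) (nat_lit 288) (nat_lit 272)) (XT.lf (nat_lit 0) (nat_lit 576024549) (nat_lit 504) (nat_lit 1154741449) (nat_lit 588) (nat_lit 5126361875) (nat_lit 150) (nat_lit 5) (nat_lit 156) (nat_lit 5) (nat_lit 157) (nat_lit 5) (nat_lit 302) (nat_lit 288) (nat_lit 271))) (XT.nd (nat_lit 94) (nat_lit 672) (nat_lit 0) (XT.lf (nat_lit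 0) (nat_lit 3586273036) (nat_lit 504) (nat_lit 93087138) (nat_lit 588) (nat_lit 3233550932) (nat_lit 150) (nat_lit 5) (nat_lit 156) (nat_lit 5) (nat_lit 157) (nat_lit 5) (nat_lit 303) (nat_lit 288) (nat_lit 270)) (XT.nd (nat_lit 94) (nat_lit 672) (nat_lit 0) (XT.lf (nat_lit 0) (nat_lit 5630898311) (nat_lit 588) (nat_lit 339944475) (nat_lit 84) (nat_lit 1001868930) (nat_lit 150) (nat_lit 5) (nat_lit 157) (nat_lit 5) (nat_lit 151) (nat_lit 5) (nat_lit 304) (nat_lit 288) (nat_lit 269)) (XT.lf (nat_lit 0) (nat_lit 558264456) (nat_lit 672) (nat_lit 4295895731) (nat_lit 84) (nat_lit 2181674864) (nat_lit 142) (nat_lit 5) (nat_lit 150) (nat_lit 5) (nat_lit 143) (nat_lit 5) (nat_lit 305) (nat_lit 288) (nat_lit 268))))) (XT.nd (nat_lit 188) (nat_lit 840) (nat_lit 0) (XT.nd (nat_lit 94) (nat_lit 672) (nat_lit 0) (XT.lf (nat_lit 0) (nat_lit 2427960344) (nat_lit 672) (nat_lit 1241311644) (nat_lit 84)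 (nat_lit 3433583965) (nat_lit 142) (nat_lit 5) (nat_lit 150) (nat_lit 5) (nat_lit 143) (nat_lit 5) (nat_lit 306) (nat_lit 288) (nat_lit 267)) (XT.lf (nat_lit 0) (nat_lit 1898442147) (nat_lit 672) (nat_lit 2412965361) (nat_lit 756) (nat_lit 2862365991) (nat_lit 134) (nat_lit 5) (nat_lit 142) (nat_lit 5) (nat_lit 143) (nat_lit 5) (nat_lit 307) (nat_lit 288) (nat_lit 266))) (XT.nd (nat_lit 94) (nat_lit 840) (nat_lit 0) (XT.lf (nat_lit 0) (nat_lit 5114555327) (nat_lit 672) (nat_lit 1090027315) (nat_lit 756) (nat_lit 1044250292) (nat_lit 134) (nat_lit 5) (nat_lit 142) (nat_lit 5) (nat_lit 143) (nat_lit 5) (nat_lit 308) (nat_lit 288) (nat_lit 265)) (XT.nd (nat_lit 94) (nat_lit 0) (nat_lit 0) (XT.lf (nat_lit 0) (nat_lit 766367780) (nat_lit 840) (nat_lit 6261025838) (nat_lit 84) (nat_lit 300440626) (nat_lit 124) (nat_lit 5) (nat_lit 134) (nat_lit 5) (nat_lit 125) (nat_lit 5) (nat_lit 309) (nat_lit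 288) (nat_lit 264)) (XT.lf (nat_lit 0) (nat_lit 2585773465) (nat_lit 840) (nat_lit 3067683133) (nat_lit 84) (nat_lit 1756689008) (nat_lit 124) (nat_lit 5) (nat_lit 134) (nat_lit 5) (nat_lit 125) (nat_lit 5) (nat_lit 310) (nat_lit 288) (nat_lit 263))))))))
noncomputable def xc47 : XT := (XT.nd (nat_lit 1786) (nat_lit 2436) (nat_lit 0) (XT.nd (nat_lit 846) (nat_lit 2016) (nat_lit 0) (XT.nd (nat_lit 376) (nat_lit 1680) (nat_lit 0) (XT.nd (nat_lit 188) (nat_lit 1008) (nat_lit 0) (XT.nd (nat_lit 94) (nat_lit 0) (nat_lit 0) (XT.lf (nat_lit 0) (nat_lit 180366413) (nat_lit 840) (nat_lit 4225482953) (nat_lit 924) (nat_lit 3091271940) (nat_lit 114) (nat_lit 5) (nat_lit 124) (nat_lit 5) (nat_lit 125) (nat_lit 5) (nat_lit 311) (nat_lit 288) (nat_lit 262)) (XT.lf (nat_lit 0) (nat_lit 3546703159) (nat_lit 840) (nat_lit 2711403122) (nat_lit 924) (nat_lit 1329811889) (nat_lit 114) (nat_lit 5) (nat_lit 124)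 (nat_lit 5) (nat_lit 125) (nat_lit 5) (nat_lit 312) (nat_lit 288) (nat_lit 261))) (XT.nd (nat_lit 94) (nat_lit 924) (nat_lit 0) (XT.lf (nat_lit 0) (nat_lit 420973476) (nat_lit 924) (nat_lit 716458571) (nat_lit 84) (nat_lit 6546019449) (nat_lit 113) (nat_lit 5) (nat_lit 124) (nat_lit 5) (nat_lit 114) (nat_lit 5) (nat_lit 313) (nat_lit 288) (nat_lit 260)) (XT.lf (nat_lit 0) (nat_lit 2176746122) (nat_lit 1008) (nat_lit 5081791070) (nat_lit 84) (nat_lit 523999865) (nat_lit 102) (nat_lit 5) (nat_lit 114) (nat_lit 5) (nat_lit 103) (nat_lit 5) (nat_lit 314) (nat_lit 288) (nat_lit 259)))) (XT.nd (nat_lit 188) (nat_lit 672) (nat_lit 0) (XT.nd (nat_lit 94) (nat_lit 1008) (nat_lit 0) (XT.lf (nat_lit 0) (nat_lit 3953556585) (nat_lit 1008) (nat_lit 1704739003) (nat_lit 84) (nat_lit 2227764316) (nat_lit 102) (nat_lit 5) (nat_lit 114) (nat_lit 5) (nat_lit 103) (nat_lit 5) (nat_lit 315) (nat_lit 288) (nat_lit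 258)) (XT.lf (nat_lit 0) (nat_lit 1766383529) (nat_lit 1008) (nat_lit 3985589102) (nat_lit 1092) (nat_lit 2242177641) (nat_lit 90) (nat_lit 5) (nat_lit 102) (nat_lit 5) (nat_lit 103) (nat_lit 5) (nat_lit 316) (nat_lit 288) (nat_lit 257))) (XT.nd (nat_lit 94) (nat_lit 672) (nat_lit 0) (XT.lf (nat_lit 0) (nat_lit 5335511392) (nat_lit 1008) (nat_lit 2238503548) (nat_lit 1092) (nat_lit 532883296) (nat_lit 90) (nat_lit 5) (nat_lit 102) (nat_lit 5) (nat_lit 103) (nat_lit 5) (nat_lit 317) (nat_lit 288) (nat_lit 256)) (XT.nd (nat_lit 94) (nat_lit 0) (nat_lit 0) (XT.lf (nat_lit 0) (nat_lit 749375177) (nat_lit 588) (nat_lit 413479867) (nat_lit 672) (nat_lit 7061495797) (nat_lit 82) (nat_lit 5) (nat_lit 89) (nat_lit 5) (nat_lit 90) (nat_lit 5) (nat_lit 318) (nat_lit 288) (nat_lit 255)) (XT.lf (nat_lit 0) (nat_lit 2895731673) (nat_lit 672) (nat_lit 3973837331) (nat_lit 84) (nat_lit 1476125410) (nat_lit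 82) (nat_lit 5) (nat_lit 90) (nat_lit 5) (nat_lit 83) (nat_lit 5) (nat_lit 319) (nat_lit 288) (nat_lit 254)))))) (XT.nd (nat_lit 470) (nat_lit 924) (nat_lit 0) (XT.nd (nat_lit 188) (nat_lit 588) (nat_lit 0) (XT.nd (nat_lit 94) (nat_lit 504) (nat_lit 0) (XT.lf (nat_lit 0) (nat_lit 4639856357) (nat_lit 672) (nat_lit 413991513) (nat_lit 84) (nat_lit 3418543560) (nat_lit 82) (nat_lit 5) (nat_lit 90) (nat_lit 5) (nat_lit 83) (nat_lit 5) (nat_lit 320) (nat_lit 288) (nat_lit 253)) (XT.lf (nat_lit 0) (nat_lit 3278026640) (nat_lit 504) (nat_lit 3147244823) (nat_lit 588) (nat_lit 2178407606) (nat_lit 76) (nat_lit 5) (nat_lit 82) (nat_lit 5) (nat_lit 83) (nat_lit 5) (nat_lit 321) (nat_lit 288) (nat_lit 252))) (XT.nd (nat_lit 94) (nat_lit 588) (nat_lit 0) (XT.lf (nat_lit 0) (nat_lit 7049493710) (nat_lit 504) (nat_lit 1176493726) (nat_lit 588) (nat_lit 514549535) (nat_lit 76) (nat_lit 5) (nat_lit 82)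 (nat_lit 5) (nat_lit 83) (nat_lit 5) (nat_lit 322) (nat_lit 288) (nat_lit 251)) (XT.nd (nat_lit 94) (nat_lit 0) (nat_lit 0) (XT.lf (nat_lit 0) (nat_lit 1162043380) (nat_lit 588) (nat_lit 6849195934) (nat_lit 84) (nat_lit 870726542) (nat_lit 69) (nat_lit 5) (nat_lit 76) (nat_lit 5) (nat_lit 70) (nat_lit 5) (nat_lit 323) (nat_lit 288) (nat_lit 250)) (XT.lf (nat_lit 0) (nat_lit 2866949335) (nat_lit 588) (nat_lit 3181562773) (nat_lit 84) (nat_lit 2979742178) (nat_lit 69) (nat_lit 5) (nat_lit 76) (nat_lit 5) (nat_lit 70) (nat_lit 5) (nat_lit 324) (nat_lit 288) (nat_lit 249))))) (XT.nd (nat_lit 188) (nat_lit 504) (nat_lit 0) (XT.nd (nat_lit 94) (nat_lit 0) (nat_lit 0) (XT.lf (nat_lit 0) (nat_lit 567826723) (nat_lit 420) (nat_lit 4020964338) (nat_lit 504) (nat_lit 4591629131) (nat_lit 64) (nat_lit 5) (nat_lit 69) (nat_lit 5) (nat_lit 70) (nat_lit 5) (nat_lit 325) (nat_lit 288) (nat_lit 248)) (XT.lf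 (nat_lit 0) (nat_lit 4457953207) (nat_lit 420) (nat_lit 1898539750) (nat_lit 504) (nat_lit 2981265546) (nat_lit 64) (nat_lit 5) (nat_lit 69) (nat_lit 5) (nat_lit 70) (nat_lit 5) (nat_lit 326) (nat_lit 288) (nat_lit 247))) (XT.nd (nat_lit 94) (nat_lit 504) (nat_lit 0) (XT.lf (nat_lit 0) (nat_lit 8142344586) (nat_lit 504) (nat_lit 1077243516) (nat_lit 84) (nat_lit 281737878) (nat_lit 64) (nat_lit 5) (nat_lit 70) (nat_lit 5) (nat_lit 65) (nat_lit 5) (nat_lit 327) (nat_lit 288) (nat_lit 246)) (XT.nd (nat_lit 94) (nat_lit 0) (nat_lit 0) (XT.lf (nat_lit 0) (nat_lit 316413664) (nat_lit 504) (nat_lit 6833880154) (nat_lit 84) (nat_lit 2519493293) (nat_lit 58) (nat_lit 5) (nat_lit 64) (nat_lit 5) (nat_lit 59) (nat_lit 5) (nat_lit 328) (nat_lit 288) (nat_lit 245)) (XT.lf (nat_lit 0) (nat_lit 1988700864) (nat_lit 504) (nat_lit 3006266947) (nat_lit 84) (nat_lit 4849099835) (nat_lit 58) (nat_lit 5) (nat_lit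 64) (nat_lit 5) (nat_lit 59) (nat_lit 5) (nat_lit 329) (nat_lit 288) (nat_lit 244))))))) (XT.nd (nat_lit 846) (nat_lit 924) (nat_lit 0) (XT.nd (nat_lit 376) (nat_lit 756) (nat_lit 0) (XT.nd (nat_lit 188) (nat_lit 420) (nat_lit 0) (XT.nd (nat_lit 94) (nat_lit 0) (nat_lit 0) (XT.lf (nat_lit 0) (nat_lit 917426337) (nat_lit 336) (nat_lit 2767476374) (nat_lit 420) (nat_lit 6339904657) (nat_lit 54) (nat_lit 5) (nat_lit 58) (nat_lit 5) (nat_lit 59) (nat_lit 5) (nat_lit 330) (nat_lit 288) (nat_lit 243)) (XT.lf (nat_lit 0) (nat_lit 4985841063) (nat_lit 336) (nat_lit 442907912) (nat_lit 420) (nat_lit 4782739162) (nat_lit 54) (nat_lit 5) (nat_lit 58) (nat_lit 5) (nat_lit 59) (nat_lit 5) (nat_lit 331) (nat_lit 288) (nat_lit 242))) (XT.nd (nat_lit 94) (nat_lit 420) (nat_lit 0) (XT.lf (nat_lit 0) (nat_lit 7210768879) (nat_lit 420) (nat_lit 1283612592) (nat_lit 84) (nat_lit 1910246468) (nat_lit 54) (nat_lit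 5) (nat_lit 59) (nat_lit 5) (nat_lit 55) (nat_lit 5) (nat_lit 332) (nat_lit 288) (nat_lit 241)) (XT.lf (nat_lit 0) (nat_lit 2792936765) (nat_lit 420) (nat_lit 6253124456) (nat_lit 504) (nat_lit 1557929010) (nat_lit 49) (nat_lit 5) (nat_lit 54) (nat_lit 5) (nat_lit 55) (nat_lit 5) (nat_lit 333) (nat_lit 288) (nat_lit 240)))) (XT.nd (nat_lit 188) (nat_lit 336) (nat_lit 0) (XT.nd (nat_lit 94) (nat_lit 336) (nat_lit 0) (XT.lf (nat_lit 0) (nat_lit 105583096) (nat_lit 504) (nat_lit 3827355188) (nat_lit 84) (nat_lit 6877355350) (nat_lit 48) (nat_lit 5) (nat_lit 54) (nat_lit 5) (nat_lit 49) (nat_lit 5) (nat_lit 334) (nat_lit 288) (nat_lit 239)) (XT.lf (nat_lit 0) (nat_lit 229839145) (nat_lit 336) (nat_lit 1527693868) (nat_lit 420) (nat_lit 9266078167) (nat_lit 44) (nat_lit 5) (nat_lit 48) (nat_lit 5) (nat_lit 49) (nat_lit 5) (nat_lit 335) (nat_lit 288) (nat_lit 238))) (XT.nd (nat_lit 94) (nat_lit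 336) (nat_lit 0) (XT.lf (nat_lit 0) (nat_lit 3478003075) (nat_lit 420) (nat_lit 6797617368) (nat_lit 84) (nat_lit 967538597) (nat_lit 44) (nat_lit 5) (nat_lit 49) (nat_lit 5) (nat_lit 45) (nat_lit 5) (nat_lit 336) (nat_lit 288) (nat_lit 237)) (XT.nd (nat_lit 94) (nat_lit 336) (nat_lit 0) (XT.lf (nat_lit 0) (nat_lit 5235915725) (nat_lit 420) (nat_lit 2731426783) (nat_lit 84) (nat_lit 3502812461) (nat_lit 44) (nat_lit 5) (nat_lit 49) (nat_lit 5) (nat_lit 45) (nat_lit 5) (nat_lit 337) (nat_lit 288) (nat_lit 236)) (XT.lf (nat_lit 0) (nat_lit 1453019856) (nat_lit 336) (nat_lit 5579148893) (nat_lit 420) (nat_lit 4672664772) (nat_lit 40) (nat_lit 5) (nat_lit 44) (nat_lit 5) (nat_lit 45) (nat_lit 5) (nat_lit 338) (nat_lit 288) (nat_lit 235)))))) (XT.nd (nat_lit 470) (nat_lit 588) (nat_lit 0) (XT.nd (nat_lit 188) (nat_lit 336) (nat_lit 0) (XT.nd (nat_lit 94) (nat_lit 0) (nat_lit 0) (XT.lf (nat_lit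 0) (nat_lit 5788393500) (nat_lit 336) (nat_lit 3094208675) (nat_lit 420) (nat_lit 3064372122) (nat_lit 40) (nat_lit 5) (nat_lit 44) (nat_lit 5) (nat_lit 45) (nat_lit 5) (nat_lit 339) (nat_lit 288) (nat_lit 234)) (XT.lf (nat_lit 0) (nat_lit 10222571434) (nat_lit 336) (nat_lit 538716124) (nat_lit 420) (nat_lit 1436372694) (nat_lit 40) (nat_lit 5) (nat_lit 44) (nat_lit 5) (nat_lit 45) (nat_lit 5) (nat_lit 340) (nat_lit 288) (nat_lit 233))) (XT.nd (nat_lit 94) (nat_lit 0) (nat_lit 0) (XT.lf (nat_lit 0) (nat_lit 252842485) (nat_lit 336) (nat_lit 10129575401) (nat_lit 84) (nat_lit 2073269028) (nat_lit 36) (nat_lit 5) (nat_lit 40) (nat_lit 5) (nat_lit 37) (nat_lit 5) (nat_lit 341) (nat_lit 288) (nat_lit 232)) (XT.nd (nat_lit 94) (nat_lit 0) (nat_lit 0) (XT.lf (nat_lit 0) (nat_lit 1962717124) (nat_lit 336) (nat_lit 5974777424) (nat_lit 84) (nat_lit 4783944820) (nat_lit 36) (nat_lit 5) (nat_lit 40)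 (nat_lit 5) (nat_lit 37) (nat_lit 5) (nat_lit 342) (nat_lit 288) (nat_lit 231)) (XT.lf (nat_lit 0) (nat_lit 3698240067) (nat_lit 336) (nat_lit 1725916547) (nat_lit 84) (nat_lit 7572242306) (nat_lit 36) (nat_lit 5) (nat_lit 40) (nat_lit 5) (nat_lit 37) (nat_lit 5) (nat_lit 343) (nat_lit 288) (nat_lit 230))))) (XT.nd (nat_lit 188) (nat_lit 252) (nat_lit 0) (XT.nd (nat_lit 94) (nat_lit 0) (nat_lit 0) (XT.lf (nat_lit 0) (nat_lit 2674860080) (nat_lit 336) (nat_lit 2812703869) (nat_lit 420) (nat_lit 7792435335) (nat_lit 32) (nat_lit 5) (nat_lit 36) (nat_lit 5) (nat_lit 37) (nat_lit 5) (nat_lit 344) (nat_lit 288) (nat_lit 229)) (XT.lf (nat_lit 0) (nat_lit 7215298997) (nat_lit 336) (nat_lit 109004705) (nat_lit 420) (nat_lit 6248450738) (nat_lit 32) (nat_lit 5) (nat_lit 36) (nat_lit 5) (nat_lit 37) (nat_lit 5) (nat_lit 345) (nat_lit 288) (nat_lit 228))) (XT.nd (nat_lit 94) (nat_lit 252) (nat_lit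 0) (XT.lf (nat_lit 0) (nat_lit 9219199081) (nat_lit 420) (nat_lit 2037836034) (nat_lit 84) (nat_lit 2617622294) (nat_lit 32) (nat_lit 5) (nat_lit 37) (nat_lit 5) (nat_lit 33) (nat_lit 5) (nat_lit 346) (nat_lit 288) (nat_lit 227)) (XT.nd (nat_lit 94) (nat_lit 0) (nat_lit 0) (XT.lf (nat_lit 0) (nat_lit 2431389788) (nat_lit 252) (nat_lit 8742088883) (nat_lit 336) (nat_lit 3012527595) (nat_lit 29) (nat_lit 5) (nat_lit 32) (nat_lit 5) (nat_lit 33) (nat_lit 5) (nat_lit 347) (nat_lit 288) (nat_lit 226)) (XT.lf (nat_lit 0) (nat_lit 7050514386) (nat_lit 252) (nat_lit 6134928771) (nat_lit 336) (nat_lit 1321757208) (nat_lit 29) (nat_lit 5) (nat_lit 32) (nat_lit 5) (nat_lit 33) (nat_lit 5) (nat_lit 348) (nat_lit 288) (nat_lit 225))))))))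
noncomputable def xc48 : XT := (XT.nd (nat_lit 1692) (nat_lit 0) (nat_lit 0) (XT.nd (nat_lit 846) (nat_lit 420) (nat_lit 0) (XT.nd (nat_lit 376) (nat_lit 420) (nat_lit 0) (XT.nd (nat_lit 188) (nat_lit 0) (nat_lit 0) (XT.nd (nat_lit 94) (nat_lit 252) (nat_lit 0) (XT.lf (nat_lit 0) (nat_lit 389156127) (nat_lit 336) (nat_lit 3061177343) (nat_lit 84) (nat_lit 11388723059) (nat_lit 28) (nat_lit 5) (nat_lit 32) (nat_lit 5) (nat_lit 29) (nat_lit 5) (nat_lit 349) (nat_lit 288) (nat_lit 224)) (XT.lf (nat_lit 0) (nat_lit 1455875595) (nat_lit 252) (nat_lit 661153543) (nat_lit 336) (nat_lit 13064113857) (nat_lit 25) (nat_lit 5) (nat_lit 28) (nat_lit 5) (nat_lit 29) (nat_lit 5) (nat_lit 350) (nat_lit 288) (nat_lit 223))) (XT.nd (nat_lit 94) (nat_lit 0) (nat_lit 0) (XT.lf (nat_lit 0) (nat_lit 3929967169) (nat_lit 336) (nat_lit 9408227069) (nat_lit 84) (nat_lit 2194755062) (nat_lit 25) (nat_lit 5) (nat_lit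 29) (nat_lit 5) (nat_lit 26) (nat_lit 5) (nat_lit 351) (nat_lit 288) (nat_lit 222)) (XT.lf (nat_lit 0) (nat_lit 5783805978) (nat_lit 336) (nat_lit 4994131354) (nat_lit 84) (nat_lit 5118287512) (nat_lit 25) (nat_lit 5) (nat_lit 29) (nat_lit 5) (nat_lit 26) (nat_lit 5) (nat_lit 352) (nat_lit 288) (nat_lit 221)))) (XT.nd (nat_lit 188) (nat_lit 252) (nat_lit 0) (XT.nd (nat_lit 94) (nat_lit 168) (nat_lit 0) (XT.lf (nat_lit 0) (nat_lit 7673714812) (nat_lit 336) (nat_lit 472307129) (nat_lit 84) (nat_lit 8125489614) (nat_lit 25) (nat_lit 5) (nat_lit 29) (nat_lit 5) (nat_lit 26) (nat_lit 5) (nat_lit 353) (nat_lit 288) (nat_lit 220)) (XT.lf (nat_lit 0) (nat_lit 4247028579) (nat_lit 168) (nat_lit 5396557734) (nat_lit 252) (nat_lit 7014266866) (nat_lit 23) (nat_lit 5) (nat_lit 25) (nat_lit 5) (nat_lit 26) (nat_lit 5) (nat_lit 354) (nat_lit 288) (nat_lit 219))) (XT.nd (nat_lit 94) (nat_lit 252) (nat_lit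 0) (XT.lf (nat_lit 0) (nat_lit 9094728965) (nat_lit 168) (nat_lit 2564316062) (nat_lit 252) (nat_lit 5397687358) (nat_lit 23) (nat_lit 5) (nat_lit 25) (nat_lit 5) (nat_lit 26) (nat_lit 5) (nat_lit 355) (nat_lit 288) (nat_lit 218)) (XT.nd (nat_lit 94) (nat_lit 252) (nat_lit 0) (XT.lf (nat_lit 0) (nat_lit 13720644188) (nat_lit 252) (nat_lit 3406524514) (nat_lit 84) (nat_lit 341393356) (nat_lit 23) (nat_lit 5) (nat_lit 26) (nat_lit 5) (nat_lit 24) (nat_lit 5) (nat_lit 356) (nat_lit 288) (nat_lit 217)) (XT.lf (nat_lit 0) (nat_lit 1262490483) (nat_lit 252) (nat_lit 14603143190) (nat_lit 336) (nat_lit 2026997217) (nat_lit 20) (nat_lit 5) (nat_lit 23) (nat_lit 5) (nat_lit 24) (nat_lit 5) (nat_lit 357) (nat_lit 288) (nat_lit 216)))))) (XT.nd (nat_lit 376) (nat_lit 168) (nat_lit 0) (XT.nd (nat_lit 188) (nat_lit 168) (nat_lit 0) (XT.nd (nat_lit 94) (nat_lit 84) (nat_lit 0) (XT.lf (nat_lit 0) (nat_lit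 6121840540) (nat_lit 252) (nat_lit 11971879520) (nat_lit 336) (nat_lit 235685173) (nat_lit 20) (nat_lit 5) (nat_lit 23) (nat_lit 5) (nat_lit 24) (nat_lit 5) (nat_lit 358) (nat_lit 288) (nat_lit 215)) (XT.lf (nat_lit 0) (nat_lit 1560052934) (nat_lit 336) (nat_lit 7690145521) (nat_lit 84) (nat_lit 9529673262) (nat_lit 19) (nat_lit 5) (nat_lit 23) (nat_lit 5) (nat_lit 20) (nat_lit 5) (nat_lit 359) (nat_lit 288) (nat_lit 214))) (XT.nd (nat_lit 94) (nat_lit 168) (nat_lit 0) (XT.lf (nat_lit 0) (nat_lit 3388480380) (nat_lit 336) (nat_lit 3060580376) (nat_lit 84) (nat_lit 12795795315) (nat_lit 19) (nat_lit 5) (nat_lit 23) (nat_lit 5) (nat_lit 20) (nat_lit 5) (nat_lit 360) (nat_lit 288) (nat_lit 213)) (XT.lf (nat_lit 0) (nat_lit 1722488306) (nat_lit 168) (nat_lit 3550648971) (nat_lit 252) (nat_lit 14451197203) (nat_lit 17) (nat_lit 5) (nat_lit 19) (nat_lit 5) (nat_lit 20) (nat_lit 5) (nat_lit 361)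 (nat_lit 288) (nat_lit 212)))) (XT.nd (nat_lit 188) (nat_lit 168) (nat_lit 0) (XT.nd (nat_lit 94) (nat_lit 0) (nat_lit 0) (XT.lf (nat_lit 0) (nat_lit 6694247774) (nat_lit 168) (nat_lit 536662498) (nat_lit 252) (nat_lit 12987374569) (nat_lit 17) (nat_lit 5) (nat_lit 19) (nat_lit 5) (nat_lit 20) (nat_lit 5) (nat_lit 362) (nat_lit 288) (nat_lit 211)) (XT.lf (nat_lit 0) (nat_lit 9258071421) (nat_lit 252) (nat_lit 8957160541) (nat_lit 84) (nat_lit 2512107741) (nat_lit 17) (nat_lit 5) (nat_lit 20) (nat_lit 5) (nat_lit 18) (nat_lit 5) (nat_lit 363) (nat_lit 288) (nat_lit 210))) (XT.nd (nat_lit 94) (nat_lit 168) (nat_lit 0) (XT.lf (nat_lit 0) (nat_lit 11337263611) (nat_lit 252) (nat_lit 4277713146) (nat_lit 84) (nat_lit 5637593449) (nat_lit 17) (nat_lit 5) (nat_lit 20) (nat_lit 5) (nat_lit 18) (nat_lit 5) (nat_lit 364) (nat_lit 288) (nat_lit 209)) (XT.nd (nat_lit 94) (nat_lit 0) (nat_lit 0) (XT.lf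 (nat_lit 0) (nat_lit 534764932) (nat_lit 168) (nat_lit 12935641110) (nat_lit 252) (nat_lit 8324060459) (nat_lit 15) (nat_lit 5) (nat_lit 17) (nat_lit 5) (nat_lit 18) (nat_lit 5) (nat_lit 365) (nat_lit 288) (nat_lit 208)) (XT.lf (nat_lit 0) (nat_lit 5564539488) (nat_lit 168) (nat_lit 10134228711) (nat_lit 252) (nat_lit 6653547777) (nat_lit 15) (nat_lit 5) (nat_lit 17) (nat_lit 5) (nat_lit 18) (nat_lit 5) (nat_lit 366) (nat_lit 288) (nat_lit 207))))))) (XT.nd (nat_lit 47376) (nat_lit 0) (nat_lit 10668) (XT.nd (nat_lit 46906) (nat_lit 0) (nat_lit 12684) (XT.nd (nat_lit 46718) (nat_lit 0) (nat_lit 13272) (XT.nd (nat_lit 94) (nat_lit 0) (nat_lit 0) (XT.lf (nat_lit 0) (nat_lit 10728340245) (nat_lit 168) (nat_lit 7252778902) (nat_lit 252) (nat_lit 4946862009) (nat_lit 15) (nat_lit 5) (nat_lit 17) (nat_lit 5) (nat_lit 18) (nat_lit 5) (nat_lit 367) (nat_lit 288) (nat_lit 206)) (XT.lf (nat_lit 0)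 (nat_lit 16030980405) (nat_lit 168) (nat_lit 4288605869) (nat_lit 252) (nat_lit 3202412344) (nat_lit 15) (nat_lit 5) (nat_lit 17) (nat_lit 5) (nat_lit 18) (nat_lit 5) (nat_lit 368) (nat_lit 288) (nat_lit 205))) (XT.nd (nat_lit 94) (nat_lit 0) (nat_lit 0) (XT.lf (nat_lit 0) (nat_lit 1444731142) (nat_lit 252) (nat_lit 893177222) (nat_lit 252) (nat_lit 893177222) (nat_lit 173) (nat_lit 3) (nat_lit 176) (nat_lit 3) (nat_lit 176) (nat_lit 5) (nat_lit 289) (nat_lit 289) (nat_lit 283)) (XT.lf (nat_lit 84) (nat_lit 665760560) (nat_lit 0) (nat_lit 4451101848) (nat_lit 252) (nat_lit 1357314639) (nat_lit 174) (nat_lit 5) (nat_lit 173) (nat_lit 3) (nat_lit 176) (nat_lit 5) (nat_lit 290) (nat_lit 289) (nat_lit 282)))) (XT.nd (nat_lit 188) (nat_lit 336) (nat_lit 0) (XT.nd (nat_lit 94) (nat_lit 0) (nat_lit 0) (XT.lf (nat_lit 0) (nat_lit 837065259) (nat_lit 252) (nat_lit 3312800839) (nat_lit 336) (nat_lit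 2339406699) (nat_lit 170) (nat_lit 5) (nat_lit 173) (nat_lit 3) (nat_lit 174) (nat_lit 5) (nat_lit 291) (nat_lit 289) (nat_lit 281)) (XT.lf (nat_lit 0) (nat_lit 2984122030) (nat_lit 252) (nat_lit 801424312) (nat_lit 336) (nat_lit 2722338619) (nat_lit 170) (nat_lit 5) (nat_lit 173) (nat_lit 3) (nat_lit 174) (nat_lit 5) (nat_lit 292) (nat_lit 289) (nat_lit 280))) (XT.nd (nat_lit 94) (nat_lit 336) (nat_lit 0) (XT.lf (nat_lit 84) (nat_lit 1777327884) (nat_lit 0) (nat_lit 3353507247) (nat_lit 336) (nat_lit 1399066590) (nat_lit 171) (nat_lit 5) (nat_lit 170) (nat_lit 5) (nat_lit 174) (nat_lit 5) (nat_lit 293) (nat_lit 289) (nat_lit 279)) (XT.nd (nat_lit 94) (nat_lit 0) (nat_lit 0) (XT.lf (nat_lit 0) (nat_lit 699993258) (nat_lit 336) (nat_lit 2155521724) (nat_lit 420) (nat_lit 3699893830) (nat_lit 166) (nat_lit 5) (nat_lit 170) (nat_lit 5) (nat_lit 171) (nat_lit 5) (nat_lit 294) (nat_lit 289) (nat_lit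 278)) (XT.lf (nat_lit 84) (nat_lit 470404406) (nat_lit 0) (nat_lit 2287844009) (nat_lit 420) (nat_lit 3826083535) (nat_lit 167) (nat_lit 5) (nat_lit 166) (nat_lit 5) (nat_lit 171) (nat_lit 5) (nat_lit 295) (nat_lit 289) (nat_lit 277)))))) (XT.nd (nat_lit 470) (nat_lit 1260) (nat_lit 0) (XT.nd (nat_lit 188) (nat_lit 336) (nat_lit 0) (XT.nd (nat_lit 94) (nat_lit 420) (nat_lit 0) (XT.lf (nat_lit 84) (nat_lit 3177100976) (nat_lit 0) (nat_lit 1646217964) (nat_lit 420) (nat_lit 1793266480) (nat_lit 167) (nat_lit 5) (nat_lit 166) (nat_lit 5) (nat_lit 171) (nat_lit 5) (nat_lit 296) (nat_lit 289) (nat_lit 276)) (XT.lf (nat_lit 0) (nat_lit 217949689) (nat_lit 420) (nat_lit 732313373) (nat_lit 504) (nat_lit 5702544326) (nat_lit 161) (nat_lit 5) (nat_lit 166) (nat_lit 5) (nat_lit 167) (nat_lit 5) (nat_lit 297) (nat_lit 289) (nat_lit 275))) (XT.nd (nat_lit 94) (nat_lit 336) (nat_lit 0) (XT.lf (nat_lit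 84) (nat_lit 2035694098) (nat_lit 0) (nat_lit 162602286) (nat_lit 504) (nat_lit 4493630889) (nat_lit 162) (nat_lit 5) (nat_lit 161) (nat_lit 5) (nat_lit 167) (nat_lit 5) (nat_lit 298) (nat_lit 289) (nat_lit 274)) (XT.nd (nat_lit 94) (nat_lit 420) (nat_lit 0) (XT.lf (nat_lit 0) (nat_lit 4180166170) (nat_lit 420) (nat_lit 1881988136) (nat_lit 84) (nat_lit 672551800) (nat_lit 162) (nat_lit 5) (nat_lit 167) (nat_lit 5) (nat_lit 163) (nat_lit 5) (nat_lit 299) (nat_lit 289) (nat_lit 273)) (XT.lf (nat_lit 0) (nat_lit 948688451) (nat_lit 420) (nat_lit 5214053049) (nat_lit 504) (nat_lit 618524870) (nat_lit 157) (nat_lit 5) (nat_lit 162) (nat_lit 5) (nat_lit 163) (nat_lit 5) (nat_lit 300) (nat_lit 289) (nat_lit 272))))) (XT.nd (nat_lit 188) (nat_lit 1176) (nat_lit 0) (XT.nd (nat_lit 94) (nat_lit 0) (nat_lit 0) (XT.lf (nat_lit 0) (nat_lit 1298227528) (nat_lit 504) (nat_lit 2984064927) (nat_lit 84)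 (nat_lit 2548689888) (nat_lit 156) (nat_lit 5) (nat_lit 162) (nat_lit 5) (nat_lit 157) (nat_lit 5) (nat_lit 301) (nat_lit 289) (nat_lit 271)) (XT.lf (nat_lit 0) (nat_lit 3192326542) (nat_lit 504) (nat_lit 100665370) (nat_lit 84) (nat_lit 3591719922) (nat_lit 156) (nat_lit 5) (nat_lit 162) (nat_lit 5) (nat_lit 157) (nat_lit 5) (nat_lit 302) (nat_lit 289) (nat_lit 270))) (XT.nd (nat_lit 94) (nat_lit 672) (nat_lit 0) (XT.lf (nat_lit 0) (nat_lit 2884561714) (nat_lit 504) (nat_lit 2222053061) (nat_lit 588) (nat_lit 1835193289) (nat_lit 150) (nat_lit 5) (nat_lit 156) (nat_lit 5) (nat_lit 157) (nat_lit 5) (nat_lit 303) (nat_lit 289) (nat_lit 269)) (XT.nd (nat_lit 94) (nat_lit 588) (nat_lit 0) (XT.lf (nat_lit 0) (nat_lit 12304958) (nat_lit 588) (nat_lit 1084038595) (nat_lit 84) (nat_lit 5906818569) (nat_lit 149) (nat_lit 5) (nat_lit 156) (nat_lit 5) (nat_lit 150) (nat_lit 5) (nat_lit 304) (nat_lit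 289) (nat_lit 268)) (XT.lf (nat_lit 0) (nat_lit 1834859917) (nat_lit 672) (nat_lit 5112582403) (nat_lit 84) (nat_lit 120223312) (nat_lit 142) (nat_lit 5) (nat_lit 150) (nat_lit 5) (nat_lit 143) (nat_lit 5) (nat_lit 305) (nat_lit 289) (nat_lit 267))))))))
noncomputable def xc49 : XT := (XT.nd (nat_lit 1692) (nat_lit 2772) (nat_lit 0) (XT.nd (nat_lit 846) (nat_lit 2772) (nat_lit 0) (XT.nd (nat_lit 376) (nat_lit 1848) (nat_lit 0) (XT.nd (nat_lit 188) (nat_lit 840) (nat_lit 0) (XT.nd (nat_lit 94) (nat_lit 672) (nat_lit 0) (XT.lf (nat_lit 0) (nat_lit 3673515885) (nat_lit 672) (nat_lit 2081519625) (nat_lit 84) (nat_lit 1380834091) (nat_lit 142) (nat_lit 5) (nat_lit 150) (nat_lit 5) (nat_lit 143) (nat_lit 5) (nat_lit 306) (nat_lit 289) (nat_lit 266)) (XT.lf (nat_lit 0) (nat_lit 1017674589) (nat_lit 672) (nat_lit 4500444522) (nat_lit 756) (nat_lit 1690086389) (nat_lit 134) (nat_lit 5) (nat_lit 142)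 (nat_lit 5) (nat_lit 143) (nat_lit 5) (nat_lit 307) (nat_lit 289) (nat_lit 265))) (XT.nd (nat_lit 94) (nat_lit 756) (nat_lit 0) (XT.lf (nat_lit 0) (nat_lit 95519887) (nat_lit 756) (nat_lit 3074147259) (nat_lit 84) (nat_lit 4114687749) (nat_lit 133) (nat_lit 5) (nat_lit 142) (nat_lit 5) (nat_lit 134) (nat_lit 5) (nat_lit 308) (nat_lit 289) (nat_lit 264)) (XT.lf (nat_lit 0) (nat_lit 77013873) (nat_lit 756) (nat_lit 1766163097) (nat_lit 840) (nat_lit 5521353119) (nat_lit 124) (nat_lit 5) (nat_lit 133) (nat_lit 5) (nat_lit 134) (nat_lit 5) (nat_lit 309) (nat_lit 289) (nat_lit 263)))) (XT.nd (nat_lit 188) (nat_lit 1848) (nat_lit 0) (XT.nd (nat_lit 94) (nat_lit 0) (nat_lit 0) (XT.lf (nat_lit 0) (nat_lit 3345401532) (nat_lit 756) (nat_lit 274057928) (nat_lit 840) (nat_lit 3828908379) (nat_lit 124) (nat_lit 5) (nat_lit 133) (nat_lit 5) (nat_lit 134) (nat_lit 5) (nat_lit 310) (nat_lit 289) (nat_lit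 262)) (XT.lf (nat_lit 0) (nat_lit 5407557651) (nat_lit 840) (nat_lit 878717275) (nat_lit 84) (nat_lit 1250243790) (nat_lit 124) (nat_lit 5) (nat_lit 134) (nat_lit 5) (nat_lit 125) (nat_lit 5) (nat_lit 311) (nat_lit 289) (nat_lit 261))) (XT.nd (nat_lit 94) (nat_lit 1008) (nat_lit 0) (XT.lf (nat_lit 0) (nat_lit 2446897710) (nat_lit 840) (nat_lit 4777152099) (nat_lit 924) (nat_lit 404552818) (nat_lit 114) (nat_lit 5) (nat_lit 124) (nat_lit 5) (nat_lit 125) (nat_lit 5) (nat_lit 312) (nat_lit 289) (nat_lit 260)) (XT.nd (nat_lit 94) (nat_lit 924) (nat_lit 0) (XT.lf (nat_lit 0) (nat_lit 1301093954) (nat_lit 924) (nat_lit 1888812150) (nat_lit 84) (nat_lit 4534934483) (nat_lit 113) (nat_lit 5) (nat_lit 124) (nat_lit 5) (nat_lit 114) (nat_lit 5) (nat_lit 313) (nat_lit 289) (nat_lit 259)) (XT.lf (nat_lit 0) (nat_lit 1487300574) (nat_lit 924) (nat_lit 1526469226) (nat_lit 1008) (nat_lit 4811655080)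 (nat_lit 102) (nat_lit 5) (nat_lit 113) (nat_lit 5) (nat_lit 114) (nat_lit 5) (nat_lit 314) (nat_lit 289) (nat_lit 258)))))) (XT.nd (nat_lit 376) (nat_lit 1680) (nat_lit 0) (XT.nd (nat_lit 188) (nat_lit 84) (nat_lit 0) (XT.nd (nat_lit 94) (nat_lit 1008) (nat_lit 0) (XT.lf (nat_lit 0) (nat_lit 4750327562) (nat_lit 1008) (nat_lit 2968680259) (nat_lit 84) (nat_lit 211345579) (nat_lit 102) (nat_lit 5) (nat_lit 114) (nat_lit 5) (nat_lit 103) (nat_lit 5) (nat_lit 315) (nat_lit 289) (nat_lit 257)) (XT.lf (nat_lit 0) (nat_lit 453932595) (nat_lit 1008) (nat_lit 6057436400) (nat_lit 1092) (nat_lit 1528386479) (nat_lit 90) (nat_lit 5) (nat_lit 102) (nat_lit 5) (nat_lit 103) (nat_lit 5) (nat_lit 316) (nat_lit 289) (nat_lit 256))) (XT.nd (nat_lit 94) (nat_lit 0) (nat_lit 0) (XT.lf (nat_lit 0) (nat_lit 153034334) (nat_lit 1092) (nat_lit 4153723134) (nat_lit 84) (nat_lit 3846585450) (nat_lit 89) (nat_lit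 5) (nat_lit 102) (nat_lit 5) (nat_lit 90) (nat_lit 5) (nat_lit 317) (nat_lit 289) (nat_lit 255)) (XT.lf (nat_lit 0) (nat_lit 1807102234) (nat_lit 1092) (nat_lit 675155052) (nat_lit 84) (nat_lit 5789473012) (nat_lit 89) (nat_lit 5) (nat_lit 102) (nat_lit 5) (nat_lit 90) (nat_lit 5) (nat_lit 318) (nat_lit 289) (nat_lit 254)))) (XT.nd (nat_lit 188) (nat_lit 1092) (nat_lit 0) (XT.nd (nat_lit 94) (nat_lit 0) (nat_lit 0) (XT.lf (nat_lit 0) (nat_lit 2927263371) (nat_lit 588) (nat_lit 567928009) (nat_lit 672) (nat_lit 4899406397) (nat_lit 82) (nat_lit 5) (nat_lit 89) (nat_lit 5) (nat_lit 90) (nat_lit 5) (nat_lit 319) (nat_lit 289) (nat_lit 253)) (XT.lf (nat_lit 0) (nat_lit 5211379897) (nat_lit 672) (nat_lit 1923631047) (nat_lit 84) (nat_lit 1387281291) (nat_lit 82) (nat_lit 5) (nat_lit 90) (nat_lit 5) (nat_lit 83) (nat_lit 5) (nat_lit 320) (nat_lit 289) (nat_lit 252))) (XT.nd (nat_lit 94) (nat_lit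 588) (nat_lit 0) (XT.lf (nat_lit 0) (nat_lit 1715789913) (nat_lit 504) (nat_lit 5243875839) (nat_lit 588) (nat_lit 1695192597) (nat_lit 76) (nat_lit 5) (nat_lit 82) (nat_lit 5) (nat_lit 83) (nat_lit 5) (nat_lit 321) (nat_lit 289) (nat_lit 251)) (XT.nd (nat_lit 94) (nat_lit 588) (nat_lit 0) (XT.lf (nat_lit 0) (nat_lit 5466349216) (nat_lit 504) (nat_lit 3272843849) (nat_lit 588) (nat_lit 53303670) (nat_lit 76) (nat_lit 5) (nat_lit 82) (nat_lit 5) (nat_lit 83) (nat_lit 5) (nat_lit 322) (nat_lit 289) (nat_lit 250)) (XT.lf (nat_lit 0) (nat_lit 347210518) (nat_lit 504) (nat_lit 1220279951) (nat_lit 588) (nat_lit 7367851296) (nat_lit 69) (nat_lit 5) (nat_lit 75) (nat_lit 5) (nat_lit 76) (nat_lit 5) (nat_lit 323) (nat_lit 289) (nat_lit 249))))))) (XT.nd (nat_lit 846) (nat_lit 1512) (nat_lit 0) (XT.nd (nat_lit 376) (nat_lit 840) (nat_lit 0) (XT.nd (nat_lit 188) (nat_lit 420) (nat_lit 0) (XT.nd (nat_lit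 94) (nat_lit 0) (nat_lit 0) (XT.lf (nat_lit 0) (nat_lit 3239833576) (nat_lit 588) (nat_lit 4929752057) (nat_lit 84) (nat_lit 913166827) (nat_lit 69) (nat_lit 5) (nat_lit 76) (nat_lit 5) (nat_lit 70) (nat_lit 5) (nat_lit 324) (nat_lit 289) (nat_lit 248)) (XT.lf (nat_lit 0) (nat_lit 4936199984) (nat_lit 588) (nat_lit 1212520073) (nat_lit 84) (nat_lit 3087097466) (nat_lit 69) (nat_lit 5) (nat_lit 76) (nat_lit 5) (nat_lit 70) (nat_lit 5) (nat_lit 325) (nat_lit 289) (nat_lit 247))) (XT.nd (nat_lit 94) (nat_lit 0) (nat_lit 0) (XT.lf (nat_lit 0) (nat_lit 2632167183) (nat_lit 420) (nat_lit 4040009798) (nat_lit 504) (nat_lit 2722068459) (nat_lit 64) (nat_lit 5) (nat_lit 69) (nat_lit 5) (nat_lit 70) (nat_lit 5) (nat_lit 326) (nat_lit 289) (nat_lit 246)) (XT.lf (nat_lit 0) (nat_lit 6581346490) (nat_lit 420) (nat_lit 1854965351) (nat_lit 504) (nat_lit 1122277237) (nat_lit 64) (nat_lit 5) (nat_lit 69)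 (nat_lit 5) (nat_lit 70) (nat_lit 5) (nat_lit 327) (nat_lit 289) (nat_lit 245)))) (XT.nd (nat_lit 188) (nat_lit 336) (nat_lit 0) (XT.nd (nat_lit 94) (nat_lit 0) (nat_lit 0) (XT.lf (nat_lit 0) (nat_lit 491718554) (nat_lit 504) (nat_lit 8835399796) (nat_lit 84) (nat_lit 401711449) (nat_lit 58) (nat_lit 5) (nat_lit 64) (nat_lit 5) (nat_lit 59) (nat_lit 5) (nat_lit 328) (nat_lit 289) (nat_lit 244)) (XT.lf (nat_lit 0) (nat_lit 2145774715) (nat_lit 504) (nat_lit 5028003244) (nat_lit 84) (nat_lit 2729991468) (nat_lit 58) (nat_lit 5) (nat_lit 64) (nat_lit 5) (nat_lit 59) (nat_lit 5) (nat_lit 329) (nat_lit 289) (nat_lit 243))) (XT.nd (nat_lit 94) (nat_lit 336) (nat_lit 0) (XT.lf (nat_lit 0) (nat_lit 3815192712) (nat_lit 504) (nat_lit 1142402838) (nat_lit 84) (nat_lit 5127835008) (nat_lit 58) (nat_lit 5) (nat_lit 64) (nat_lit 5) (nat_lit 59) (nat_lit 5) (nat_lit 330) (nat_lit 289) (nat_lit 242)) (XT.nd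 (nat_lit 94) (nat_lit 0) (nat_lit 0) (XT.lf (nat_lit 0) (nat_lit 2883111480) (nat_lit 336) (nat_lit 2647017959) (nat_lit 420) (nat_lit 4742966452) (nat_lit 54) (nat_lit 5) (nat_lit 58) (nat_lit 5) (nat_lit 59) (nat_lit 5) (nat_lit 331) (nat_lit 289) (nat_lit 241)) (XT.lf (nat_lit 0) (nat_lit 7019398184) (nat_lit 336) (nat_lit 256589384) (nat_lit 420) (nat_lit 3191454852) (nat_lit 54) (nat_lit 5) (nat_lit 58) (nat_lit 5) (nat_lit 59) (nat_lit 5) (nat_lit 332) (nat_lit 289) (nat_lit 240)))))) (XT.nd (nat_lit 470) (nat_lit 672) (nat_lit 0) (XT.nd (nat_lit 188) (nat_lit 336) (nat_lit 0) (XT.nd (nat_lit 94) (nat_lit 84) (nat_lit 0) (XT.lf (nat_lit 0) (nat_lit 567380299) (nat_lit 420) (nat_lit 8502940696) (nat_lit 504) (nat_lit 1597836578) (nat_lit 49) (nat_lit 5) (nat_lit 54) (nat_lit 5) (nat_lit 55) (nat_lit 5) (nat_lit 333) (nat_lit 289) (nat_lit 239)) (XT.lf (nat_lit 0) (nat_lit 50207175)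 (nat_lit 504) (nat_lit 6135735490) (nat_lit 84) (nat_lit 4689113237) (nat_lit 48) (nat_lit 5) (nat_lit 54) (nat_lit 5) (nat_lit 49) (nat_lit 5) (nat_lit 334) (nat_lit 289) (nat_lit 238))) (XT.nd (nat_lit 94) (nat_lit 336) (nat_lit 0) (XT.lf (nat_lit 0) (nat_lit 1684093936) (nat_lit 504) (nat_lit 2101651420) (nat_lit 84) (nat_lit 7303263910) (nat_lit 48) (nat_lit 5) (nat_lit 54) (nat_lit 5) (nat_lit 49) (nat_lit 5) (nat_lit 335) (nat_lit 289) (nat_lit 237)) (XT.nd (nat_lit 94) (nat_lit 0) (nat_lit 0) (XT.lf (nat_lit 0) (nat_lit 2062643533) (nat_lit 336) (nat_lit 1295357649) (nat_lit 420) (nat_lit 7952072968) (nat_lit 44) (nat_lit 5) (nat_lit 48) (nat_lit 5) (nat_lit 49) (nat_lit 5) (nat_lit 336) (nat_lit 289) (nat_lit 236)) (XT.lf (nat_lit 0) (nat_lit 5088012491) (nat_lit 420) (nat_lit 5186642492) (nat_lit 84) (nat_lit 1263351404) (nat_lit 44) (nat_lit 5) (nat_lit 49) (nat_lit 5) (nat_lit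 45) (nat_lit 5) (nat_lit 337) (nat_lit 289) (nat_lit 235))))) (XT.nd (nat_lit 188) (nat_lit 336) (nat_lit 0) (XT.nd (nat_lit 94) (nat_lit 336) (nat_lit 0) (XT.lf (nat_lit 0) (nat_lit 6855252703) (nat_lit 420) (nat_lit 1049174715) (nat_lit 84) (nat_lit 3869226137) (nat_lit 44) (nat_lit 5) (nat_lit 49) (nat_lit 5) (nat_lit 45) (nat_lit 5) (nat_lit 338) (nat_lit 289) (nat_lit 234)) (XT.lf (nat_lit 0) (nat_lit 3247101227) (nat_lit 336) (nat_lit 5433629380) (nat_lit 420) (nat_lit 3335904484) (nat_lit 40) (nat_lit 5) (nat_lit 44) (nat_lit 5) (nat_lit 45) (nat_lit 5) (nat_lit 339) (nat_lit 289) (nat_lit 233))) (XT.nd (nat_lit 94) (nat_lit 336) (nat_lit 0) (XT.lf (nat_lit 0) (nat_lit 7664281571) (nat_lit 336) (nat_lit 2881231832) (nat_lit 420) (nat_lit 1722303744) (nat_lit 40) (nat_lit 5) (nat_lit 44) (nat_lit 5) (nat_lit 45) (nat_lit 5) (nat_lit 340) (nat_lit 289) (nat_lit 232)) (XT.nd (nat_lit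 94) (nat_lit 336) (nat_lit 0) (XT.lf (nat_lit 0) (nat_lit 12184910404) (nat_lit 336) (nat_lit 255806904) (nat_lit 420) (nat_lit 87045821) (nat_lit 40) (nat_lit 5) (nat_lit 44) (nat_lit 5) (nat_lit 45) (nat_lit 5) (nat_lit 341) (nat_lit 289) (nat_lit 231)) (XT.lf (nat_lit 0) (nat_lit 1605068266) (nat_lit 336) (nat_lit 8736641420) (nat_lit 84) (nat_lit 2452497029) (nat_lit 36) (nat_lit 5) (nat_lit 40) (nat_lit 5) (nat_lit 37) (nat_lit 5) (nat_lit 342) (nat_lit 289) (nat_lit 230))))))))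
noncomputable def xc50 : XT := (XT.nd (nat_lit 1692) (nat_lit 336) (nat_lit 0) (XT.nd (nat_lit 846) (nat_lit 504) (nat_lit 0) (XT.nd (nat_lit 376) (nat_lit 588) (nat_lit 0) (XT.nd (nat_lit 188) (nat_lit 336) (nat_lit 0) (XT.nd (nat_lit 94) (nat_lit 0) (nat_lit 0) (XT.lf (nat_lit 0) (nat_lit 3327526110) (nat_lit 336) (nat_lit 4504369123) (nat_lit 84) (nat_lit 5237733687) (nat_lit 36) (nat_lit 5) (nat_lit 40) (nat_lit 5) (nat_lit 37) (nat_lit 5) (nat_lit 343) (nat_lit 289) (nat_lit 229)) (XT.lf (nat_lit 0) (nat_lit 5077642789) (nat_lit 336) (nat_lit 173574761) (nat_lit 84) (nat_lit 8103283056) (nat_lit 36) (nat_lit 5) (nat_lit 40) (nat_lit 5) (nat_lit 37) (nat_lit 5) (nat_lit 344) (nat_lit 289) (nat_lit 228))) (XT.nd (nat_lit 94) (nat_lit 0) (nat_lit 0) (XT.lf (nat_lit 0) (nat_lit 4347368201) (nat_lit 336) (nat_lit 2552807825) (nat_lit 420) (nat_lit 6747574360) (nat_lit 32) (nat_lit 5) (nat_lit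 36) (nat_lit 5) (nat_lit 37) (nat_lit 5) (nat_lit 345) (nat_lit 289) (nat_lit 227)) (XT.lf (nat_lit 0) (nat_lit 8758720208) (nat_lit 420) (nat_lit 4972361410) (nat_lit 84) (nat_lit 219751215) (nat_lit 32) (nat_lit 5) (nat_lit 37) (nat_lit 5) (nat_lit 33) (nat_lit 5) (nat_lit 346) (nat_lit 289) (nat_lit 226)))) (XT.nd (nat_lit 188) (nat_lit 336) (nat_lit 0) (XT.nd (nat_lit 94) (nat_lit 252) (nat_lit 0) (XT.lf (nat_lit 0) (nat_lit 10677135817) (nat_lit 420) (nat_lit 567487816) (nat_lit 84) (nat_lit 3018720848) (nat_lit 32) (nat_lit 5) (nat_lit 37) (nat_lit 5) (nat_lit 33) (nat_lit 5) (nat_lit 347) (nat_lit 289) (nat_lit 225)) (XT.lf (nat_lit 0) (nat_lit 4024758483) (nat_lit 252) (nat_lit 8647054466) (nat_lit 336) (nat_lit 1913311014) (nat_lit 29) (nat_lit 5) (nat_lit 32) (nat_lit 5) (nat_lit 33) (nat_lit 5) (nat_lit 348) (nat_lit 289) (nat_lit 224))) (XT.nd (nat_lit 94) (nat_lit 336) (nat_lit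 0) (XT.lf (nat_lit 0) (nat_lit 8741433010) (nat_lit 252) (nat_lit 5970078418) (nat_lit 336) (nat_lit 205985866) (nat_lit 29) (nat_lit 5) (nat_lit 32) (nat_lit 5) (nat_lit 33) (nat_lit 5) (nat_lit 349) (nat_lit 289) (nat_lit 223)) (XT.nd (nat_lit 94) (nat_lit 252) (nat_lit 0) (XT.lf (nat_lit 0) (nat_lit 1500579778) (nat_lit 336) (nat_lit 1700880922) (nat_lit 84) (nat_lit 12059020734) (nat_lit 28) (nat_lit 5) (nat_lit 32) (nat_lit 5) (nat_lit 29) (nat_lit 5) (nat_lit 350) (nat_lit 289) (nat_lit 222)) (XT.lf (nat_lit 0) (nat_lit 2941468135) (nat_lit 252) (nat_lit 321782827) (nat_lit 336) (nat_lit 12350638837) (nat_lit 25) (nat_lit 5) (nat_lit 28) (nat_lit 5) (nat_lit 29) (nat_lit 5) (nat_lit 351) (nat_lit 289) (nat_lit 221)))))) (XT.nd (nat_lit 376) (nat_lit 336) (nat_lit 0) (XT.nd (nat_lit 188) (nat_lit 168) (nat_lit 0) (XT.nd (nat_lit 94) (nat_lit 0) (nat_lit 0) (XT.lf (nat_lit 0) (nat_lit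 5103361468) (nat_lit 336) (nat_lit 8269465905) (nat_lit 84) (nat_lit 2604806018) (nat_lit 25) (nat_lit 5) (nat_lit 29) (nat_lit 5) (nat_lit 26) (nat_lit 5) (nat_lit 352) (nat_lit 289) (nat_lit 220)) (XT.lf (nat_lit 0) (nat_lit 6983050924) (nat_lit 336) (nat_lit 3761542827) (nat_lit 84) (nat_lit 5608684345) (nat_lit 25) (nat_lit 5) (nat_lit 29) (nat_lit 5) (nat_lit 26) (nat_lit 5) (nat_lit 353) (nat_lit 289) (nat_lit 219))) (XT.nd (nat_lit 94) (nat_lit 0) (nat_lit 0) (XT.lf (nat_lit 0) (nat_lit 876399039) (nat_lit 168) (nat_lit 8033174221) (nat_lit 252) (nat_lit 7831430240) (nat_lit 23) (nat_lit 5) (nat_lit 25) (nat_lit 5) (nat_lit 26) (nat_lit 5) (nat_lit 354) (nat_lit 289) (nat_lit 218)) (XT.lf (nat_lit 0) (nat_lit 5710752762) (nat_lit 168) (nat_lit 5204532744) (nat_lit 252) (nat_lit 6224938093) (nat_lit 23) (nat_lit 5) (nat_lit 25) (nat_lit 5) (nat_lit 26) (nat_lit 5) (nat_lit 355) (nat_lit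 289) (nat_lit 217)))) (XT.nd (nat_lit 188) (nat_lit 336) (nat_lit 0) (XT.nd (nat_lit 94) (nat_lit 0) (nat_lit 0) (XT.lf (nat_lit 0) (nat_lit 10668679431) (nat_lit 168) (nat_lit 2295295524) (nat_lit 252) (nat_lit 4588516107) (nat_lit 23) (nat_lit 5) (nat_lit 25) (nat_lit 5) (nat_lit 26) (nat_lit 5) (nat_lit 356) (nat_lit 289) (nat_lit 216)) (XT.lf (nat_lit 0) (nat_lit 15064467997) (nat_lit 252) (nat_lit 2230306610) (nat_lit 84) (nat_lit 683201136) (nat_lit 23) (nat_lit 5) (nat_lit 26) (nat_lit 5) (nat_lit 24) (nat_lit 5) (nat_lit 357) (nat_lit 289) (nat_lit 215))) (XT.nd (nat_lit 94) (nat_lit 84) (nat_lit 0) (XT.lf (nat_lit 0) (nat_lit 2570470573) (nat_lit 252) (nat_lit 14690451785) (nat_lit 336) (nat_lit 1154843683) (nat_lit 20) (nat_lit 5) (nat_lit 23) (nat_lit 5) (nat_lit 24) (nat_lit 5) (nat_lit 358) (nat_lit 289) (nat_lit 214)) (XT.nd (nat_lit 94) (nat_lit 0) (nat_lit 0) (XT.lf (nat_lit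 0) (nat_lit 650510018) (nat_lit 336) (nat_lit 11331305405) (nat_lit 84) (nat_lit 6885009038) (nat_lit 19) (nat_lit 5) (nat_lit 23) (nat_lit 5) (nat_lit 20) (nat_lit 5) (nat_lit 359) (nat_lit 289) (nat_lit 213)) (XT.lf (nat_lit 0) (nat_lit 2470301769) (nat_lit 336) (nat_lit 6713910266) (nat_lit 84) (nat_lit 10147896754) (nat_lit 19) (nat_lit 5) (nat_lit 23) (nat_lit 5) (nat_lit 20) (nat_lit 5) (nat_lit 360) (nat_lit 289) (nat_lit 212))))))) (XT.nd (nat_lit 47470) (nat_lit 0) (nat_lit 11760) (XT.nd (nat_lit 376) (nat_lit 168) (nat_lit 0) (XT.nd (nat_lit 188) (nat_lit 0) (nat_lit 0) (XT.nd (nat_lit 94) (nat_lit 168) (nat_lit 0) (XT.lf (nat_lit 0) (nat_lit 4329495332) (nat_lit 336) (nat_lit 1977349963) (nat_lit 84) (nat_lit 13505562565) (nat_lit 19) (nat_lit 5) (nat_lit 23) (nat_lit 5) (nat_lit 20) (nat_lit 5) (nat_lit 361) (nat_lit 289) (nat_lit 211)) (XT.lf (nat_lit 0) (nat_lit 2942066560)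 (nat_lit 168) (nat_lit 3316942774) (nat_lit 252) (nat_lit 14048255271) (nat_lit 17) (nat_lit 5) (nat_lit 19) (nat_lit 5) (nat_lit 20) (nat_lit 5) (nat_lit 362) (nat_lit 289) (nat_lit 210))) (XT.nd (nat_lit 94) (nat_lit 0) (nat_lit 0) (XT.lf (nat_lit 0) (nat_lit 8032885959) (nat_lit 168) (nat_lit 219859351) (nat_lit 252) (nat_lit 12564639781) (nat_lit 17) (nat_lit 5) (nat_lit 19) (nat_lit 5) (nat_lit 20) (nat_lit 5) (nat_lit 363) (nat_lit 289) (nat_lit 209)) (XT.lf (nat_lit 0) (nat_lit 10321972297) (nat_lit 252) (nat_lit 8114099907) (nat_lit 84) (nat_lit 2906880868) (nat_lit 17) (nat_lit 5) (nat_lit 20) (nat_lit 5) (nat_lit 18) (nat_lit 5) (nat_lit 364) (nat_lit 289) (nat_lit 208)))) (XT.nd (nat_lit 188) (nat_lit 0) (nat_lit 0) (XT.nd (nat_lit 94) (nat_lit 168) (nat_lit 0) (XT.lf (nat_lit 0) (nat_lit 12442259677) (nat_lit 252) (nat_lit 3323287713) (nat_lit 84) (nat_lit 6119728183) (nat_lit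 17) (nat_lit 5) (nat_lit 20) (nat_lit 5) (nat_lit 18) (nat_lit 5) (nat_lit 365) (nat_lit 289) (nat_lit 207)) (XT.lf (nat_lit 0) (nat_lit 1627371936) (nat_lit 168) (nat_lit 13002174542) (nat_lit 252) (nat_lit 7814878773) (nat_lit 15) (nat_lit 5) (nat_lit 17) (nat_lit 5) (nat_lit 18) (nat_lit 5) (nat_lit 366) (nat_lit 289) (nat_lit 206))) (XT.nd (nat_lit 94) (nat_lit 0) (nat_lit 0) (XT.lf (nat_lit 0) (nat_lit 6780715568) (nat_lit 168) (nat_lit 10123975211) (nat_lit 252) (nat_lit 6115649116) (nat_lit 15) (nat_lit 5) (nat_lit 17) (nat_lit 5) (nat_lit 18) (nat_lit 5) (nat_lit 367) (nat_lit 289) (nat_lit 205)) (XT.nd (nat_lit 46718) (nat_lit 0) (nat_lit 13020) (XT.lf (nat_lit 0) (nat_lit 12073213027) (nat_lit 168) (nat_lit 7162954921) (nat_lit 252) (nat_lit 4378431373) (nat_lit 15) (nat_lit 5) (nat_lit 17) (nat_lit 5) (nat_lit 18) (nat_lit 5) (nat_lit 368) (nat_lit 289) (nat_lit 204)) (XT.lf (nat_lit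 0) (nat_lit 197862263) (nat_lit 0) (nat_lit 197862263) (nat_lit 252) (nat_lit 2848197012) (nat_lit 170) (nat_lit 5) (nat_lit 170) (nat_lit 3) (nat_lit 173) (nat_lit 3) (nat_lit 290) (nat_lit 290) (nat_lit 281)))))) (XT.nd (nat_lit 470) (nat_lit 924) (nat_lit 0) (XT.nd (nat_lit 188) (nat_lit 336) (nat_lit 0) (XT.nd (nat_lit 94) (nat_lit 0) (nat_lit 0) (XT.lf (nat_lit 0) (nat_lit 2874433228) (nat_lit 0) (nat_lit 37584053) (nat_lit 252) (nat_lit 3592327123) (nat_lit 170) (nat_lit 5) (nat_lit 170) (nat_lit 3) (nat_lit 173) (nat_lit 3) (nat_lit 291) (nat_lit 290) (nat_lit 280)) (XT.lf (nat_lit 0) (nat_lit 5017079480) (nat_lit 252) (nat_lit 1140951668) (nat_lit 336) (nat_lit 366598322) (nat_lit 170) (nat_lit 5) (nat_lit 173) (nat_lit 3) (nat_lit 174) (nat_lit 5) (nat_lit 292) (nat_lit 290) (nat_lit 279))) (XT.nd (nat_lit 94) (nat_lit 0) (nat_lit 0) (XT.lf (nat_lit 0) (nat_lit 559877772) (nat_lit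 336) (nat_lit 5145779358) (nat_lit 420) (nat_lit 842538273) (nat_lit 166) (nat_lit 5) (nat_lit 170) (nat_lit 5) (nat_lit 171) (nat_lit 5) (nat_lit 293) (nat_lit 290) (nat_lit 278)) (XT.nd (nat_lit 94) (nat_lit 0) (nat_lit 0) (XT.lf (nat_lit 0) (nat_lit 2590631323) (nat_lit 336) (nat_lit 2585650490) (nat_lit 420) (nat_lit 1398572695) (nat_lit 166) (nat_lit 5) (nat_lit 170) (nat_lit 5) (nat_lit 171) (nat_lit 5) (nat_lit 294) (nat_lit 290) (nat_lit 277)) (XT.lf (nat_lit 84) (nat_lit 8620282) (nat_lit 0) (nat_lit 4596773289) (nat_lit 420) (nat_lit 2000060768) (nat_lit 167) (nat_lit 5) (nat_lit 166) (nat_lit 5) (nat_lit 171) (nat_lit 5) (nat_lit 295) (nat_lit 290) (nat_lit 276))))) (XT.nd (nat_lit 188) (nat_lit 504) (nat_lit 0) (XT.nd (nat_lit 94) (nat_lit 420) (nat_lit 0) (XT.lf (nat_lit 84) (nat_lit 2693191703) (nat_lit 0) (nat_lit 3939310956) (nat_lit 420) (nat_lit 6700494) (nat_lit 167) (nat_lit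 5) (nat_lit 166) (nat_lit 5) (nat_lit 171) (nat_lit 5) (nat_lit 296) (nat_lit 290) (nat_lit 275)) (XT.lf (nat_lit 0) (nat_lit 1931021017) (nat_lit 420) (nat_lit 1279093962) (nat_lit 504) (nat_lit 3466222881) (nat_lit 161) (nat_lit 5) (nat_lit 166) (nat_lit 5) (nat_lit 167) (nat_lit 5) (nat_lit 297) (nat_lit 290) (nat_lit 274))) (XT.nd (nat_lit 94) (nat_lit 504) (nat_lit 0) (XT.lf (nat_lit 84) (nat_lit 1455368053) (nat_lit 0) (nat_lit 2413870943) (nat_lit 504) (nat_lit 2847815401) (nat_lit 162) (nat_lit 5) (nat_lit 161) (nat_lit 5) (nat_lit 167) (nat_lit 5) (nat_lit 298) (nat_lit 290) (nat_lit 273)) (XT.nd (nat_lit 94) (nat_lit 504) (nat_lit 0) (XT.lf (nat_lit 84) (nat_lit 4257780053) (nat_lit 0) (nat_lit 1551026969) (nat_lit 504) (nat_lit 952619484) (nat_lit 162) (nat_lit 5) (nat_lit 161) (nat_lit 5) (nat_lit 167) (nat_lit 5) (nat_lit 299) (nat_lit 290) (nat_lit 272)) (XT.lf (nat_lit 84)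 (nat_lit 291210963) (nat_lit 0) (nat_lit 621653235) (nat_lit 588) (nat_lit 5896657640) (nat_lit 156) (nat_lit 5) (nat_lit 155) (nat_lit 5) (nat_lit 162) (nat_lit 5) (nat_lit 300) (nat_lit 290) (nat_lit 271))))))))
noncomputable def xc51 : XT := (XT.nd (nat_lit 1786) (nat_lit 3192) (nat_lit 0) (XT.nd (nat_lit 846) (nat_lit 4284) (nat_lit 0) (XT.nd (nat_lit 376) (nat_lit 1344) (nat_lit 0) (XT.nd (nat_lit 188) (nat_lit 588) (nat_lit 0) (XT.nd (nat_lit 94) (nat_lit 0) (nat_lit 0) (XT.lf (nat_lit 0) (nat_lit 2776903878) (nat_lit 504) (nat_lit 3692953105) (nat_lit 84) (nat_lit 390695641) (nat_lit 156) (nat_lit 5) (nat_lit 162) (nat_lit 5) (nat_lit 157) (nat_lit 5) (nat_lit 301) (nat_lit 290) (nat_lit 270)) (XT.lf (nat_lit 0) (nat_lit 4637943778) (nat_lit 504) (nat_lit 832042641) (nat_lit 84) (nat_lit 1445570041) (nat_lit 156) (nat_lit 5) (nat_lit 162) (nat_lit 5) (nat_lit 157) (nat_lit 5) (nat_lit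 302) (nat_lit 290) (nat_lit 269))) (XT.nd (nat_lit 94) (nat_lit 84) (nat_lit 0) (XT.lf (nat_lit 0) (nat_lit 2115884415) (nat_lit 504) (nat_lit 4396657127) (nat_lit 588) (nat_lit 461583564) (nat_lit 150) (nat_lit 5) (nat_lit 156) (nat_lit 5) (nat_lit 157) (nat_lit 5) (nat_lit 303) (nat_lit 290) (nat_lit 268)) (XT.lf (nat_lit 0) (nat_lit 1326374061) (nat_lit 588) (nat_lit 1921134268) (nat_lit 84) (nat_lit 3788763922) (nat_lit 149) (nat_lit 5) (nat_lit 156) (nat_lit 5) (nat_lit 150) (nat_lit 5) (nat_lit 304) (nat_lit 290) (nat_lit 267)))) (XT.nd (nat_lit 188) (nat_lit 756) (nat_lit 0) (XT.nd (nat_lit 94) (nat_lit 0) (nat_lit 0) (XT.lf (nat_lit 0) (nat_lit 1079782623) (nat_lit 588) (nat_lit 2028326385) (nat_lit 672) (nat_lit 3994153004) (nat_lit 142) (nat_lit 5) (nat_lit 149) (nat_lit 5) (nat_lit 150) (nat_lit 5) (nat_lit 305) (nat_lit 290) (nat_lit 266)) (XT.lf (nat_lit 0) (nat_lit 4170629081)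 (nat_lit 588) (nat_lit 733181281) (nat_lit 672) (nat_lit 2268201405) (nat_lit 142) (nat_lit 5) (nat_lit 149) (nat_lit 5) (nat_lit 150) (nat_lit 5) (nat_lit 306) (nat_lit 290) (nat_lit 265))) (XT.nd (nat_lit 94) (nat_lit 84) (nat_lit 0) (XT.lf (nat_lit 0) (nat_lit 63736957) (nat_lit 672) (nat_lit 6638738829) (nat_lit 756) (nat_lit 543503700) (nat_lit 134) (nat_lit 5) (nat_lit 142) (nat_lit 5) (nat_lit 143) (nat_lit 5) (nat_lit 307) (nat_lit 290) (nat_lit 264)) (XT.nd (nat_lit 94) (nat_lit 0) (nat_lit 0) (XT.lf (nat_lit 0) (nat_lit 1189971502) (nat_lit 756) (nat_lit 4099929556) (nat_lit 84) (nat_lit 2032970596) (nat_lit 133) (nat_lit 5) (nat_lit 142) (nat_lit 5) (nat_lit 134) (nat_lit 5) (nat_lit 308) (nat_lit 290) (nat_lit 263)) (XT.lf (nat_lit 0) (nat_lit 2908707483) (nat_lit 756) (nat_lit 972334082) (nat_lit 84) (nat_lit 3523091406) (nat_lit 133) (nat_lit 5) (nat_lit 142) (nat_lit 5) (nat_lit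 134) (nat_lit 5) (nat_lit 309) (nat_lit 290) (nat_lit 262)))))) (XT.nd (nat_lit 470) (nat_lit 1680) (nat_lit 0) (XT.nd (nat_lit 188) (nat_lit 1848) (nat_lit 0) (XT.nd (nat_lit 94) (nat_lit 0) (nat_lit 0) (XT.lf (nat_lit 0) (nat_lit 2254269262) (nat_lit 756) (nat_lit 2393350038) (nat_lit 840) (nat_lit 2841693780) (nat_lit 124) (nat_lit 5) (nat_lit 133) (nat_lit 5) (nat_lit 134) (nat_lit 5) (nat_lit 310) (nat_lit 290) (nat_lit 261)) (XT.lf (nat_lit 0) (nat_lit 5558583236) (nat_lit 756) (nat_lit 837777666) (nat_lit 840) (nat_lit 1182501449) (nat_lit 124) (nat_lit 5) (nat_lit 133) (nat_lit 5) (nat_lit 134) (nat_lit 5) (nat_lit 311) (nat_lit 290) (nat_lit 260))) (XT.nd (nat_lit 94) (nat_lit 924) (nat_lit 0) (XT.lf (nat_lit 0) (nat_lit 484505548) (nat_lit 924) (nat_lit 6409073233) (nat_lit 84) (nat_lit 778809585) (nat_lit 113) (nat_lit 5) (nat_lit 124) (nat_lit 5) (nat_lit 114) (nat_lit 5) (nat_lit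 312) (nat_lit 290) (nat_lit 259)) (XT.nd (nat_lit 94) (nat_lit 924) (nat_lit 0) (XT.lf (nat_lit 0) (nat_lit 2156301499) (nat_lit 924) (nat_lit 3142196577) (nat_lit 84) (nat_lit 2470963270) (nat_lit 113) (nat_lit 5) (nat_lit 124) (nat_lit 5) (nat_lit 114) (nat_lit 5) (nat_lit 313) (nat_lit 290) (nat_lit 258)) (XT.lf (nat_lit 0) (nat_lit 186363853) (nat_lit 924) (nat_lit 3644780798) (nat_lit 1008) (nat_lit 4040231640) (nat_lit 102) (nat_lit 5) (nat_lit 113) (nat_lit 5) (nat_lit 114) (nat_lit 5) (nat_lit 314) (nat_lit 290) (nat_lit 257))))) (XT.nd (nat_lit 188) (nat_lit 1680) (nat_lit 0) (XT.nd (nat_lit 94) (nat_lit 0) (nat_lit 0) (XT.lf (nat_lit 0) (nat_lit 3641817179) (nat_lit 924) (nat_lit 1899358254) (nat_lit 1008) (nat_lit 2436104808) (nat_lit 102) (nat_lit 5) (nat_lit 113) (nat_lit 5) (nat_lit 114) (nat_lit 5) (nat_lit 315) (nat_lit 290) (nat_lit 256)) (XT.lf (nat_lit 0) (nat_lit 7162774237)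 (nat_lit 924) (nat_lit 93401614) (nat_lit 1008) (nat_lit 832082225) (nat_lit 102) (nat_lit 5) (nat_lit 113) (nat_lit 5) (nat_lit 114) (nat_lit 5) (nat_lit 316) (nat_lit 290) (nat_lit 255))) (XT.nd (nat_lit 94) (nat_lit 588) (nat_lit 0) (XT.lf (nat_lit 0) (nat_lit 801417395) (nat_lit 1092) (nat_lit 5628656948) (nat_lit 84) (nat_lit 1772747399) (nat_lit 89) (nat_lit 5) (nat_lit 102) (nat_lit 5) (nat_lit 90) (nat_lit 5) (nat_lit 317) (nat_lit 290) (nat_lit 254)) (XT.nd (nat_lit 94) (nat_lit 588) (nat_lit 0) (XT.lf (nat_lit 0) (nat_lit 2432691758) (nat_lit 1092) (nat_lit 2171242536) (nat_lit 84) (nat_lit 3718116923) (nat_lit 89) (nat_lit 5) (nat_lit 102) (nat_lit 5) (nat_lit 90) (nat_lit 5) (nat_lit 318) (nat_lit 290) (nat_lit 253)) (XT.lf (nat_lit 0) (nat_lit 1379473753) (nat_lit 588) (nat_lit 2703844703) (nat_lit 672) (nat_lit 4362892995) (nat_lit 82) (nat_lit 5) (nat_lit 89) (nat_lit 5) (nat_lit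 90) (nat_lit 5) (nat_lit 319) (nat_lit 290) (nat_lit 252))))))) (XT.nd (nat_lit 846) (nat_lit 1596) (nat_lit 0) (XT.nd (nat_lit 376) (nat_lit 1008) (nat_lit 0) (XT.nd (nat_lit 188) (nat_lit 84) (nat_lit 0) (XT.nd (nat_lit 94) (nat_lit 504) (nat_lit 0) (XT.lf (nat_lit 0) (nat_lit 5045042042) (nat_lit 588) (nat_lit 718775040) (nat_lit 672) (nat_lit 2811322682) (nat_lit 82) (nat_lit 5) (nat_lit 89) (nat_lit 5) (nat_lit 90) (nat_lit 5) (nat_lit 320) (nat_lit 290) (nat_lit 251)) (XT.lf (nat_lit 0) (nat_lit 62660172) (nat_lit 504) (nat_lit 7404931925) (nat_lit 588) (nat_lit 1241617253) (nat_lit 76) (nat_lit 5) (nat_lit 82) (nat_lit 5) (nat_lit 83) (nat_lit 5) (nat_lit 321) (nat_lit 290) (nat_lit 250))) (XT.nd (nat_lit 94) (nat_lit 0) (nat_lit 0) (XT.lf (nat_lit 0) (nat_lit 371327834) (nat_lit 588) (nat_lit 5058423754) (nat_lit 84) (nat_lit 3417736624) (nat_lit 75) (nat_lit 5) (nat_lit 82) (nat_lit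 5) (nat_lit 76) (nat_lit 5) (nat_lit 322) (nat_lit 290) (nat_lit 249)) (XT.lf (nat_lit 0) (nat_lit 1967352192) (nat_lit 588) (nat_lit 1412788604) (nat_lit 84) (nat_lit 5611023441) (nat_lit 75) (nat_lit 5) (nat_lit 82) (nat_lit 5) (nat_lit 76) (nat_lit 5) (nat_lit 323) (nat_lit 290) (nat_lit 248)))) (XT.nd (nat_lit 188) (nat_lit 504) (nat_lit 0) (XT.nd (nat_lit 94) (nat_lit 0) (nat_lit 0) (XT.lf (nat_lit 0) (nat_lit 2353488939) (nat_lit 504) (nat_lit 1242817262) (nat_lit 588) (nat_lit 5543723215) (nat_lit 69) (nat_lit 5) (nat_lit 75) (nat_lit 5) (nat_lit 76) (nat_lit 5) (nat_lit 324) (nat_lit 290) (nat_lit 247)) (XT.lf (nat_lit 0) (nat_lit 5261097921) (nat_lit 588) (nat_lit 3077073744) (nat_lit 84) (nat_lit 956007763) (nat_lit 69) (nat_lit 5) (nat_lit 76) (nat_lit 5) (nat_lit 70) (nat_lit 5) (nat_lit 325) (nat_lit 290) (nat_lit 246))) (XT.nd (nat_lit 94) (nat_lit 84) (nat_lit 0) (XT.lf (nat_lit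 0) (nat_lit 709383749) (nat_lit 420) (nat_lit 6249949813) (nat_lit 504) (nat_lit 2494546708) (nat_lit 64) (nat_lit 5) (nat_lit 69) (nat_lit 5) (nat_lit 70) (nat_lit 5) (nat_lit 326) (nat_lit 290) (nat_lit 245)) (XT.nd (nat_lit 94) (nat_lit 84) (nat_lit 0) (XT.lf (nat_lit 0) (nat_lit 4639270412) (nat_lit 420) (nat_lit 4065900798) (nat_lit 504) (nat_lit 913719758) (nat_lit 64) (nat_lit 5) (nat_lit 69) (nat_lit 5) (nat_lit 70) (nat_lit 5) (nat_lit 327) (nat_lit 290) (nat_lit 244)) (XT.lf (nat_lit 0) (nat_lit 665079108) (nat_lit 504) (nat_lit 1144086027) (nat_lit 84) (nat_lit 7980957193) (nat_lit 63) (nat_lit 5) (nat_lit 69) (nat_lit 5) (nat_lit 64) (nat_lit 5) (nat_lit 328) (nat_lit 290) (nat_lit 243)))))) (XT.nd (nat_lit 470) (nat_lit 840) (nat_lit 0) (XT.nd (nat_lit 188) (nat_lit 336) (nat_lit 0) (XT.nd (nat_lit 94) (nat_lit 0) (nat_lit 0) (XT.lf (nat_lit 0) (nat_lit 2271803950) (nat_lit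 504) (nat_lit 7152238804) (nat_lit 84) (nat_lit 542577582) (nat_lit 58) (nat_lit 5) (nat_lit 64) (nat_lit 5) (nat_lit 59) (nat_lit 5) (nat_lit 329) (nat_lit 290) (nat_lit 242)) (XT.lf (nat_lit 0) (nat_lit 3924070765) (nat_lit 504) (nat_lit 3285657586) (nat_lit 84) (nat_lit 2939173171) (nat_lit 58) (nat_lit 5) (nat_lit 64) (nat_lit 5) (nat_lit 59) (nat_lit 5) (nat_lit 330) (nat_lit 290) (nat_lit 241))) (XT.nd (nat_lit 94) (nat_lit 0) (nat_lit 0) (XT.lf (nat_lit 0) (nat_lit 676960382) (nat_lit 336) (nat_lit 4923526336) (nat_lit 420) (nat_lit 4737359994) (nat_lit 54) (nat_lit 5) (nat_lit 58) (nat_lit 5) (nat_lit 59) (nat_lit 5) (nat_lit 331) (nat_lit 290) (nat_lit 240)) (XT.nd (nat_lit 94) (nat_lit 0) (nat_lit 0) (XT.lf (nat_lit 0) (nat_lit 4794986528) (nat_lit 336) (nat_lit 2535041884) (nat_lit 420) (nat_lit 3202753773) (nat_lit 54) (nat_lit 5) (nat_lit 58) (nat_lit 5) (nat_lit 59) (nat_lit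 5) (nat_lit 332) (nat_lit 290) (nat_lit 239)) (XT.lf (nat_lit 0) (nat_lit 9004699424) (nat_lit 336) (nat_lit 76344206) (nat_lit 420) (nat_lit 1653877208) (nat_lit 54) (nat_lit 5) (nat_lit 58) (nat_lit 5) (nat_lit 59) (nat_lit 5) (nat_lit 333) (nat_lit 290) (nat_lit 238))))) (XT.nd (nat_lit 188) (nat_lit 336) (nat_lit 0) (XT.nd (nat_lit 94) (nat_lit 84) (nat_lit 0) (XT.lf (nat_lit 0) (nat_lit 2389359649) (nat_lit 420) (nat_lit 8513860094) (nat_lit 504) (nat_lit 39741628) (nat_lit 49) (nat_lit 5) (nat_lit 54) (nat_lit 5) (nat_lit 55) (nat_lit 5) (nat_lit 334) (nat_lit 290) (nat_lit 237)) (XT.lf (nat_lit 0) (nat_lit 1579637278) (nat_lit 504) (nat_lit 4537047287) (nat_lit 84) (nat_lit 5040790534) (nat_lit 48) (nat_lit 5) (nat_lit 54) (nat_lit 5) (nat_lit 49) (nat_lit 5) (nat_lit 335) (nat_lit 290) (nat_lit 236))) (XT.nd (nat_lit 94) (nat_lit 336) (nat_lit 0) (XT.lf (nat_lit 0) (nat_lit 3218234583)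 (nat_lit 504) (nat_lit 431694948) (nat_lit 84) (nat_lit 7729776426) (nat_lit 48) (nat_lit 5) (nat_lit 54) (nat_lit 5) (nat_lit 49) (nat_lit 5) (nat_lit 336) (nat_lit 290) (nat_lit 235)) (XT.nd (nat_lit 94) (nat_lit 0) (nat_lit 0) (XT.lf (nat_lit 0) (nat_lit 3844126741) (nat_lit 336) (nat_lit 1072385806) (nat_lit 420) (nat_lit 6692178601) (nat_lit 44) (nat_lit 5) (nat_lit 48) (nat_lit 5) (nat_lit 49) (nat_lit 5) (nat_lit 337) (nat_lit 290) (nat_lit 234)) (XT.lf (nat_lit 0) (nat_lit 6658954835) (nat_lit 420) (nat_lit 3633629866) (nat_lit 84) (nat_lit 1552589487) (nat_lit 44) (nat_lit 5) (nat_lit 49) (nat_lit 5) (nat_lit 45) (nat_lit 5) (nat_lit 338) (nat_lit 290) (nat_lit 233))))))))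
noncomputable def xc52 : XT := (XT.nd (nat_lit 1692) (nat_lit 672) (nat_lit 0) (XT.nd (nat_lit 846) (nat_lit 756) (nat_lit 0) (XT.nd (nat_lit 376) (nat_lit 336) (nat_lit 0) (XT.nd (nat_lit 188) (nat_lit 336) (nat_lit 0) (XT.nd (nat_lit 94) (nat_lit 0) (nat_lit 0) (XT.lf (nat_lit 0) (nat_lit 592506787) (nat_lit 336) (nat_lit 7851858078) (nat_lit 420) (nat_lit 3645098085) (nat_lit 40) (nat_lit 5) (nat_lit 44) (nat_lit 5) (nat_lit 45) (nat_lit 5) (nat_lit 339) (nat_lit 290) (nat_lit 232)) (XT.lf (nat_lit 0) (nat_lit 4993200621) (nat_lit 336) (nat_lit 5302462472) (nat_lit 420) (nat_lit 2045463096) (nat_lit 40) (nat_lit 5) (nat_lit 44) (nat_lit 5) (nat_lit 45) (nat_lit 5) (nat_lit 340) (nat_lit 290) (nat_lit 231))) (XT.nd (nat_lit 94) (nat_lit 336) (nat_lit 0) (XT.lf (nat_lit 0) (nat_lit 9497838660) (nat_lit 336) (nat_lit 2679949224) (nat_lit 420) (nat_lit 423751002) (nat_lit 40) (nat_lit 5)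 (nat_lit 44) (nat_lit 5) (nat_lit 45) (nat_lit 5) (nat_lit 341) (nat_lit 290) (nat_lit 230)) (XT.lf (nat_lit 0) (nat_lit 1209797076) (nat_lit 336) (nat_lit 11617814606) (nat_lit 84) (nat_lit 42557814) (nat_lit 36) (nat_lit 5) (nat_lit 40) (nat_lit 5) (nat_lit 37) (nat_lit 5) (nat_lit 342) (nat_lit 290) (nat_lit 229)))) (XT.nd (nat_lit 188) (nat_lit 336) (nat_lit 0) (XT.nd (nat_lit 94) (nat_lit 0) (nat_lit 0) (XT.lf (nat_lit 0) (nat_lit 2919582662) (nat_lit 336) (nat_lit 7401632105) (nat_lit 84) (nat_lit 2824825676) (nat_lit 36) (nat_lit 5) (nat_lit 40) (nat_lit 5) (nat_lit 37) (nat_lit 5) (nat_lit 343) (nat_lit 290) (nat_lit 228)) (XT.lf (nat_lit 0) (nat_lit 4657408110) (nat_lit 336) (nat_lit 3086443752) (nat_lit 84) (nat_lit 5687495515) (nat_lit 36) (nat_lit 5) (nat_lit 40) (nat_lit 5) (nat_lit 37) (nat_lit 5) (nat_lit 344) (nat_lit 290) (nat_lit 227))) (XT.nd (nat_lit 94) (nat_lit 0) (nat_lit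 0) (XT.lf (nat_lit 0) (nat_lit 1359156636) (nat_lit 336) (nat_lit 5079219622) (nat_lit 420) (nat_lit 7287562005) (nat_lit 32) (nat_lit 5) (nat_lit 36) (nat_lit 5) (nat_lit 37) (nat_lit 5) (nat_lit 345) (nat_lit 290) (nat_lit 226)) (XT.nd (nat_lit 94) (nat_lit 0) (nat_lit 0) (XT.lf (nat_lit 0) (nat_lit 5977570087) (nat_lit 336) (nat_lit 2305413731) (nat_lit 420) (nat_lit 5746519937) (nat_lit 32) (nat_lit 5) (nat_lit 36) (nat_lit 5) (nat_lit 37) (nat_lit 5) (nat_lit 346) (nat_lit 290) (nat_lit 225)) (XT.lf (nat_lit 0) (nat_lit 10167138269) (nat_lit 420) (nat_lit 3639093231) (nat_lit 84) (nat_lit 536895473) (nat_lit 32) (nat_lit 5) (nat_lit 37) (nat_lit 5) (nat_lit 33) (nat_lit 5) (nat_lit 347) (nat_lit 290) (nat_lit 224)))))) (XT.nd (nat_lit 376) (nat_lit 420) (nat_lit 0) (XT.nd (nat_lit 188) (nat_lit 84) (nat_lit 0) (XT.nd (nat_lit 94) (nat_lit 0) (nat_lit 0) (XT.lf (nat_lit 0) (nat_lit 875242296)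 (nat_lit 252) (nat_lit 11244280855) (nat_lit 336) (nat_lit 2546742352) (nat_lit 29) (nat_lit 5) (nat_lit 32) (nat_lit 5) (nat_lit 33) (nat_lit 5) (nat_lit 348) (nat_lit 290) (nat_lit 223)) (XT.lf (nat_lit 0) (nat_lit 5577608128) (nat_lit 252) (nat_lit 8570755109) (nat_lit 336) (nat_lit 850658752) (nat_lit 29) (nat_lit 5) (nat_lit 32) (nat_lit 5) (nat_lit 33) (nat_lit 5) (nat_lit 349) (nat_lit 290) (nat_lit 222))) (XT.nd (nat_lit 94) (nat_lit 0) (nat_lit 0) (XT.lf (nat_lit 0) (nat_lit 858211758) (nat_lit 336) (nat_lit 4953977197) (nat_lit 84) (nat_lit 9530390413) (nat_lit 28) (nat_lit 5) (nat_lit 32) (nat_lit 5) (nat_lit 29) (nat_lit 5) (nat_lit 350) (nat_lit 290) (nat_lit 221)) (XT.lf (nat_lit 0) (nat_lit 2581340598) (nat_lit 336) (nat_lit 384608881) (nat_lit 84) (nat_lit 12731306538) (nat_lit 28) (nat_lit 5) (nat_lit 32) (nat_lit 5) (nat_lit 29) (nat_lit 5) (nat_lit 351) (nat_lit 290) (nat_lit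 220)))) (XT.nd (nat_lit 188) (nat_lit 168) (nat_lit 0) (XT.nd (nat_lit 94) (nat_lit 0) (nat_lit 0) (XT.lf (nat_lit 0) (nat_lit 4381067621) (nat_lit 336) (nat_lit 11674569056) (nat_lit 84) (nat_lit 6656012) (nat_lit 25) (nat_lit 5) (nat_lit 29) (nat_lit 5) (nat_lit 26) (nat_lit 5) (nat_lit 352) (nat_lit 290) (nat_lit 219)) (XT.lf (nat_lit 0) (nat_lit 6250844975) (nat_lit 336) (nat_lit 7180129146) (nat_lit 84) (nat_lit 3007310505) (nat_lit 25) (nat_lit 5) (nat_lit 29) (nat_lit 5) (nat_lit 26) (nat_lit 5) (nat_lit 353) (nat_lit 290) (nat_lit 218))) (XT.nd (nat_lit 94) (nat_lit 168) (nat_lit 0) (XT.lf (nat_lit 0) (nat_lit 8159059258) (nat_lit 336) (nat_lit 2572922524) (nat_lit 84) (nat_lit 6094634550) (nat_lit 25) (nat_lit 5) (nat_lit 29) (nat_lit 5) (nat_lit 26) (nat_lit 5) (nat_lit 354) (nat_lit 290) (nat_lit 217)) (XT.nd (nat_lit 94) (nat_lit 0) (nat_lit 0) (XT.lf (nat_lit 0) (nat_lit 2195581277)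 (nat_lit 168) (nat_lit 7933688287) (nat_lit 252) (nat_lit 7097705018) (nat_lit 23) (nat_lit 5) (nat_lit 25) (nat_lit 5) (nat_lit 26) (nat_lit 5) (nat_lit 355) (nat_lit 290) (nat_lit 216)) (XT.lf (nat_lit 0) (nat_lit 7140951828) (nat_lit 168) (nat_lit 5027838017) (nat_lit 252) (nat_lit 5470772902) (nat_lit 23) (nat_lit 5) (nat_lit 25) (nat_lit 5) (nat_lit 26) (nat_lit 5) (nat_lit 356) (nat_lit 290) (nat_lit 215))))))) (XT.nd (nat_lit 846) (nat_lit 168) (nat_lit 0) (XT.nd (nat_lit 376) (nat_lit 168) (nat_lit 0) (XT.nd (nat_lit 188) (nat_lit 336) (nat_lit 0) (XT.nd (nat_lit 94) (nat_lit 0) (nat_lit 0) (XT.lf (nat_lit 0) (nat_lit 12214894168) (nat_lit 168) (nat_lit 2038578451) (nat_lit 252) (nat_lit 3812100288) (nat_lit 23) (nat_lit 5) (nat_lit 25) (nat_lit 5) (nat_lit 26) (nat_lit 5) (nat_lit 357) (nat_lit 290) (nat_lit 214)) (XT.lf (nat_lit 0) (nat_lit 16395546974) (nat_lit 252) (nat_lit 1093550354)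 (nat_lit 84) (nat_lit 1015985957) (nat_lit 23) (nat_lit 5) (nat_lit 26) (nat_lit 5) (nat_lit 24) (nat_lit 5) (nat_lit 358) (nat_lit 290) (nat_lit 213))) (XT.nd (nat_lit 94) (nat_lit 84) (nat_lit 0) (XT.lf (nat_lit 0) (nat_lit 3843842310) (nat_lit 252) (nat_lit 14802109553) (nat_lit 336) (nat_lit 311034475) (nat_lit 20) (nat_lit 5) (nat_lit 23) (nat_lit 5) (nat_lit 24) (nat_lit 5) (nat_lit 359) (nat_lit 290) (nat_lit 212)) (XT.lf (nat_lit 0) (nat_lit 1506647889) (nat_lit 336) (nat_lit 10504467468) (nat_lit 84) (nat_lit 7411541913) (nat_lit 19) (nat_lit 5) (nat_lit 23) (nat_lit 5) (nat_lit 20) (nat_lit 5) (nat_lit 360) (nat_lit 290) (nat_lit 211)))) (XT.nd (nat_lit 188) (nat_lit 168) (nat_lit 0) (XT.nd (nat_lit 94) (nat_lit 0) (nat_lit 0) (XT.lf (nat_lit 0) (nat_lit 3357717264) (nat_lit 336) (nat_lit 5779356319) (nat_lit 84) (nat_lit 10766164963) (nat_lit 19) (nat_lit 5) (nat_lit 23) (nat_lit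 5) (nat_lit 20) (nat_lit 5) (nat_lit 361) (nat_lit 290) (nat_lit 210)) (XT.lf (nat_lit 0) (nat_lit 5250165691) (nat_lit 336) (nat_lit 930320784) (nat_lit 84) (nat_lit 14218787292) (nat_lit 19) (nat_lit 5) (nat_lit 23) (nat_lit 5) (nat_lit 20) (nat_lit 5) (nat_lit 362) (nat_lit 290) (nat_lit 209))) (XT.nd (nat_lit 94) (nat_lit 0) (nat_lit 0) (XT.lf (nat_lit 0) (nat_lit 4130376834) (nat_lit 168) (nat_lit 3096354145) (nat_lit 252) (nat_lit 13683224123) (nat_lit 17) (nat_lit 5) (nat_lit 19) (nat_lit 5) (nat_lit 20) (nat_lit 5) (nat_lit 363) (nat_lit 290) (nat_lit 208)) (XT.nd (nat_lit 94) (nat_lit 0) (nat_lit 0) (XT.lf (nat_lit 0) (nat_lit 9259872665) (nat_lit 252) (nat_lit 12091535421) (nat_lit 84) (nat_lit 85261341) (nat_lit 17) (nat_lit 5) (nat_lit 20) (nat_lit 5) (nat_lit 18) (nat_lit 5) (nat_lit 364) (nat_lit 290) (nat_lit 207)) (XT.lf (nat_lit 0) (nat_lit 11372836944) (nat_lit 252) (nat_lit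 7311287304) (nat_lit 84) (nat_lit 3295121563) (nat_lit 17) (nat_lit 5) (nat_lit 20) (nat_lit 5) (nat_lit 18) (nat_lit 5) (nat_lit 365) (nat_lit 290) (nat_lit 206)))))) (XT.nd (nat_lit 47188) (nat_lit 0) (nat_lit 12264) (XT.nd (nat_lit 188) (nat_lit 0) (nat_lit 0) (XT.nd (nat_lit 94) (nat_lit 168) (nat_lit 0) (XT.lf (nat_lit 0) (nat_lit 13536877104) (nat_lit 252) (nat_lit 2403662009) (nat_lit 84) (nat_lit 6598603082) (nat_lit 17) (nat_lit 5) (nat_lit 20) (nat_lit 5) (nat_lit 18) (nat_lit 5) (nat_lit 366) (nat_lit 290) (nat_lit 205)) (XT.lf (nat_lit 0) (nat_lit 2690114700) (nat_lit 168) (nat_lit 13090581827) (nat_lit 252) (nat_lit 7335356658) (nat_lit 15) (nat_lit 5) (nat_lit 17) (nat_lit 5) (nat_lit 18) (nat_lit 5) (nat_lit 367) (nat_lit 290) (nat_lit 204))) (XT.nd (nat_lit 46812) (nat_lit 0) (nat_lit 12600) (XT.lf (nat_lit 0) (nat_lit 7972774428) (nat_lit 168) (nat_lit 10132619484) (nat_lit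 252) (nat_lit 5605153388) (nat_lit 15) (nat_lit 5) (nat_lit 17) (nat_lit 5) (nat_lit 18) (nat_lit 5) (nat_lit 368) (nat_lit 290) (nat_lit 203)) (XT.nd (nat_lit 94) (nat_lit 420) (nat_lit 0) (XT.lf (nat_lit 0) (nat_lit 1247689075) (nat_lit 0) (nat_lit 1247689075) (nat_lit 252) (nat_lit 765878603) (nat_lit 170) (nat_lit 5) (nat_lit 170) (nat_lit 3) (nat_lit 173) (nat_lit 3) (nat_lit 291) (nat_lit 291) (nat_lit 279)) (XT.lf (nat_lit 0) (nat_lit 496789261) (nat_lit 420) (nat_lit 1561397291) (nat_lit 420) (nat_lit 4486188791) (nat_lit 165) (nat_lit 3) (nat_lit 170) (nat_lit 3) (nat_lit 170) (nat_lit 5) (nat_lit 292) (nat_lit 291) (nat_lit 278))))) (XT.nd (nat_lit 188) (nat_lit 336) (nat_lit 0) (XT.nd (nat_lit 94) (nat_lit 0) (nat_lit 0) (XT.lf (nat_lit 84) (nat_lit 941763105) (nat_lit 0) (nat_lit 1542546541) (nat_lit 420) (nat_lit 4085042159) (nat_lit 166) (nat_lit 5) (nat_lit 165) (nat_lit 3)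 (nat_lit 170) (nat_lit 5) (nat_lit 293) (nat_lit 291) (nat_lit 277)) (XT.lf (nat_lit 84) (nat_lit 3513727061) (nat_lit 0) (nat_lit 956611636) (nat_lit 420) (nat_lit 2127387087) (nat_lit 166) (nat_lit 5) (nat_lit 165) (nat_lit 3) (nat_lit 170) (nat_lit 5) (nat_lit 294) (nat_lit 291) (nat_lit 276))) (XT.nd (nat_lit 94) (nat_lit 336) (nat_lit 0) (XT.lf (nat_lit 84) (nat_lit 6124786385) (nat_lit 0) (nat_lit 316133471) (nat_lit 420) (nat_lit 189093912) (nat_lit 166) (nat_lit 5) (nat_lit 165) (nat_lit 3) (nat_lit 170) (nat_lit 5) (nat_lit 295) (nat_lit 291) (nat_lit 275)) (XT.nd (nat_lit 94) (nat_lit 0) (nat_lit 0) (XT.lf (nat_lit 0) (nat_lit 1722111709) (nat_lit 420) (nat_lit 4532206395) (nat_lit 504) (nat_lit 410609177) (nat_lit 161) (nat_lit 5) (nat_lit 166) (nat_lit 5) (nat_lit 167) (nat_lit 5) (nat_lit 296) (nat_lit 291) (nat_lit 274)) (XT.lf (nat_lit 0) (nat_lit 3623326412) (nat_lit 420)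 (nat_lit 1887208556) (nat_lit 504) (nat_lit 1192943149) (nat_lit 161) (nat_lit 5) (nat_lit 166) (nat_lit 5) (nat_lit 167) (nat_lit 5) (nat_lit 297) (nat_lit 291) (nat_lit 273))))))))
noncomputable def xc53 : XT := (XT.nd (nat_lit 1786) (nat_lit 4536) (nat_lit 0) (XT.nd (nat_lit 846) (nat_lit 3360) (nat_lit 0) (XT.nd (nat_lit 376) (nat_lit 1092) (nat_lit 0) (XT.nd (nat_lit 188) (nat_lit 0) (nat_lit 0) (XT.nd (nat_lit 94) (nat_lit 504) (nat_lit 0) (XT.lf (nat_lit 84) (nat_lit 813117442) (nat_lit 0) (nat_lit 4706777559) (nat_lit 504) (nat_lit 1225872706) (nat_lit 162) (nat_lit 5) (nat_lit 161) (nat_lit 5) (nat_lit 167) (nat_lit 5) (nat_lit 298) (nat_lit 291) (nat_lit 272)) (XT.lf (nat_lit 0) (nat_lit 620792227) (nat_lit 504) (nat_lit 3203217483) (nat_lit 588) (nat_lit 2967275908) (nat_lit 155) (nat_lit 5) (nat_lit 161) (nat_lit 5) (nat_lit 162) (nat_lit 5) (nat_lit 299) (nat_lit 291) (nat_lit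 271))) (XT.nd (nat_lit 94) (nat_lit 0) (nat_lit 0) (XT.lf (nat_lit 0) (nat_lit 2430202039) (nat_lit 504) (nat_lit 444984250) (nat_lit 588) (nat_lit 3965302260) (nat_lit 155) (nat_lit 5) (nat_lit 161) (nat_lit 5) (nat_lit 162) (nat_lit 5) (nat_lit 300) (nat_lit 291) (nat_lit 270)) (XT.lf (nat_lit 84) (nat_lit 2405241462) (nat_lit 0) (nat_lit 1847360720) (nat_lit 588) (nat_lit 2640457491) (nat_lit 156) (nat_lit 5) (nat_lit 155) (nat_lit 5) (nat_lit 162) (nat_lit 5) (nat_lit 301) (nat_lit 291) (nat_lit 269)))) (XT.nd (nat_lit 188) (nat_lit 588) (nat_lit 0) (XT.nd (nat_lit 94) (nat_lit 504) (nat_lit 0) (XT.lf (nat_lit 84) (nat_lit 5311709537) (nat_lit 0) (nat_lit 759071487) (nat_lit 588) (nat_lit 878853190) (nat_lit 156) (nat_lit 5) (nat_lit 155) (nat_lit 5) (nat_lit 162) (nat_lit 5) (nat_lit 302) (nat_lit 291) (nat_lit 268)) (XT.lf (nat_lit 0) (nat_lit 870656114) (nat_lit 588) (nat_lit 5739182317)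 (nat_lit 84) (nat_lit 399780672) (nat_lit 149) (nat_lit 5) (nat_lit 156) (nat_lit 5) (nat_lit 150) (nat_lit 5) (nat_lit 303) (nat_lit 291) (nat_lit 267))) (XT.nd (nat_lit 94) (nat_lit 588) (nat_lit 0) (XT.lf (nat_lit 0) (nat_lit 2618406540) (nat_lit 588) (nat_lit 2828454038) (nat_lit 84) (nat_lit 1625942680) (nat_lit 149) (nat_lit 5) (nat_lit 156) (nat_lit 5) (nat_lit 150) (nat_lit 5) (nat_lit 304) (nat_lit 291) (nat_lit 266)) (XT.nd (nat_lit 94) (nat_lit 0) (nat_lit 0) (XT.lf (nat_lit 0) (nat_lit 132228017) (nat_lit 588) (nat_lit 4228535610) (nat_lit 672) (nat_lit 2779464296) (nat_lit 142) (nat_lit 5) (nat_lit 149) (nat_lit 5) (nat_lit 150) (nat_lit 5) (nat_lit 305) (nat_lit 291) (nat_lit 265)) (XT.lf (nat_lit 0) (nat_lit 3202144813) (nat_lit 588) (nat_lit 2925035916) (nat_lit 672) (nat_lit 1083912510) (nat_lit 142) (nat_lit 5) (nat_lit 149) (nat_lit 5) (nat_lit 150) (nat_lit 5) (nat_lit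 306) (nat_lit 291) (nat_lit 264)))))) (XT.nd (nat_lit 470) (nat_lit 1848) (nat_lit 0) (XT.nd (nat_lit 188) (nat_lit 756) (nat_lit 0) (XT.nd (nat_lit 94) (nat_lit 672) (nat_lit 0) (XT.lf (nat_lit 0) (nat_lit 592140195) (nat_lit 672) (nat_lit 966348833) (nat_lit 84) (nat_lit 5727678092) (nat_lit 141) (nat_lit 5) (nat_lit 149) (nat_lit 5) (nat_lit 142) (nat_lit 5) (nat_lit 307) (nat_lit 291) (nat_lit 263)) (XT.lf (nat_lit 0) (nat_lit 2161489051) (nat_lit 672) (nat_lit 100673658) (nat_lit 756) (nat_lit 5102546579) (nat_lit 133) (nat_lit 5) (nat_lit 141) (nat_lit 5) (nat_lit 142) (nat_lit 5) (nat_lit 308) (nat_lit 291) (nat_lit 262))) (XT.nd (nat_lit 94) (nat_lit 756) (nat_lit 0) (XT.lf (nat_lit 0) (nat_lit 3952589503) (nat_lit 756) (nat_lit 2095978156) (nat_lit 84) (nat_lit 1398464399) (nat_lit 133) (nat_lit 5) (nat_lit 142) (nat_lit 5) (nat_lit 134) (nat_lit 5) (nat_lit 309) (nat_lit 291) (nat_lit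 261)) (XT.nd (nat_lit 94) (nat_lit 0) (nat_lit 0) (XT.lf (nat_lit 0) (nat_lit 1086384845) (nat_lit 756) (nat_lit 4567041595) (nat_lit 840) (nat_lit 1880144388) (nat_lit 124) (nat_lit 5) (nat_lit 133) (nat_lit 5) (nat_lit 134) (nat_lit 5) (nat_lit 310) (nat_lit 291) (nat_lit 260)) (XT.lf (nat_lit 0) (nat_lit 4370198415) (nat_lit 756) (nat_lit 3006073416) (nat_lit 840) (nat_lit 247824028) (nat_lit 124) (nat_lit 5) (nat_lit 133) (nat_lit 5) (nat_lit 134) (nat_lit 5) (nat_lit 311) (nat_lit 291) (nat_lit 259))))) (XT.nd (nat_lit 188) (nat_lit 924) (nat_lit 0) (XT.nd (nat_lit 94) (nat_lit 840) (nat_lit 0) (XT.lf (nat_lit 0) (nat_lit 1354314814) (nat_lit 840) (nat_lit 17634768) (nat_lit 84) (nat_lit 6346974718) (nat_lit 123) (nat_lit 5) (nat_lit 133) (nat_lit 5) (nat_lit 124) (nat_lit 5) (nat_lit 312) (nat_lit 291) (nat_lit 258)) (XT.lf (nat_lit 0) (nat_lit 2987393252) (nat_lit 924) (nat_lit 4477780138)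 (nat_lit 84) (nat_lit 352181972) (nat_lit 113) (nat_lit 5) (nat_lit 124) (nat_lit 5) (nat_lit 114) (nat_lit 5) (nat_lit 313) (nat_lit 291) (nat_lit 257))) (XT.nd (nat_lit 94) (nat_lit 924) (nat_lit 0) (XT.lf (nat_lit 0) (nat_lit 4636209923) (nat_lit 924) (nat_lit 1173674153) (nat_lit 84) (nat_lit 2110346147) (nat_lit 113) (nat_lit 5) (nat_lit 124) (nat_lit 5) (nat_lit 114) (nat_lit 5) (nat_lit 314) (nat_lit 291) (nat_lit 256)) (XT.nd (nat_lit 94) (nat_lit 0) (nat_lit 0) (XT.lf (nat_lit 0) (nat_lit 2237155960) (nat_lit 924) (nat_lit 4073548325) (nat_lit 1008) (nat_lit 1716680005) (nat_lit 102) (nat_lit 5) (nat_lit 113) (nat_lit 5) (nat_lit 114) (nat_lit 5) (nat_lit 315) (nat_lit 291) (nat_lit 255)) (XT.lf (nat_lit 0) (nat_lit 5738239047) (nat_lit 924) (nat_lit 2264522862) (nat_lit 1008) (nat_lit 136455467) (nat_lit 102) (nat_lit 5) (nat_lit 113) (nat_lit 5) (nat_lit 114) (nat_lit 5) (nat_lit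 316) (nat_lit 291) (nat_lit 254))))))) (XT.nd (nat_lit 846) (nat_lit 1764) (nat_lit 0) (XT.nd (nat_lit 376) (nat_lit 1092) (nat_lit 0) (XT.nd (nat_lit 188) (nat_lit 588) (nat_lit 0) (XT.nd (nat_lit 94) (nat_lit 0) (nat_lit 0) (XT.lf (nat_lit 0) (nat_lit 1059506693) (nat_lit 1008) (nat_lit 367748070) (nat_lit 1092) (nat_lit 6828176849) (nat_lit 89) (nat_lit 5) (nat_lit 101) (nat_lit 5) (nat_lit 102) (nat_lit 5) (nat_lit 317) (nat_lit 291) (nat_lit 253)) (XT.lf (nat_lit 0) (nat_lit 3032772837) (nat_lit 1092) (nat_lit 3755380023) (nat_lit 84) (nat_lit 1587438091) (nat_lit 89) (nat_lit 5) (nat_lit 102) (nat_lit 5) (nat_lit 90) (nat_lit 5) (nat_lit 318) (nat_lit 291) (nat_lit 252))) (XT.nd (nat_lit 94) (nat_lit 588) (nat_lit 0) (XT.lf (nat_lit 0) (nat_lit 4648271549) (nat_lit 1092) (nat_lit 252357755) (nat_lit 84) (nat_lit 3600338318) (nat_lit 89) (nat_lit 5) (nat_lit 102) (nat_lit 5) (nat_lit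 90) (nat_lit 5) (nat_lit 319) (nat_lit 291) (nat_lit 251)) (XT.lf (nat_lit 0) (nat_lit 3388322315) (nat_lit 588) (nat_lit 2916898867) (nat_lit 672) (nat_lit 2325528407) (nat_lit 82) (nat_lit 5) (nat_lit 89) (nat_lit 5) (nat_lit 90) (nat_lit 5) (nat_lit 320) (nat_lit 291) (nat_lit 250)))) (XT.nd (nat_lit 188) (nat_lit 504) (nat_lit 0) (XT.nd (nat_lit 94) (nat_lit 588) (nat_lit 0) (XT.lf (nat_lit 0) (nat_lit 7108407187) (nat_lit 588) (nat_lit 866406221) (nat_lit 672) (nat_lit 791185353) (nat_lit 82) (nat_lit 5) (nat_lit 89) (nat_lit 5) (nat_lit 90) (nat_lit 5) (nat_lit 321) (nat_lit 291) (nat_lit 249)) (XT.lf (nat_lit 0) (nat_lit 766884955) (nat_lit 588) (nat_lit 6885969062) (nat_lit 84) (nat_lit 1252817690) (nat_lit 75) (nat_lit 5) (nat_lit 82) (nat_lit 5) (nat_lit 76) (nat_lit 5) (nat_lit 322) (nat_lit 291) (nat_lit 248))) (XT.nd (nat_lit 94) (nat_lit 504) (nat_lit 0) (XT.lf (nat_lit 0)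 (nat_lit 2343266770) (nat_lit 588) (nat_lit 3259925174) (nat_lit 84) (nat_lit 3446874129) (nat_lit 75) (nat_lit 5) (nat_lit 82) (nat_lit 5) (nat_lit 76) (nat_lit 5) (nat_lit 323) (nat_lit 291) (nat_lit 247)) (XT.nd (nat_lit 94) (nat_lit 0) (nat_lit 0) (XT.lf (nat_lit 0) (nat_lit 448978534) (nat_lit 504) (nat_lit 3485297333) (nat_lit 588) (nat_lit 5265937810) (nat_lit 69) (nat_lit 5) (nat_lit 75) (nat_lit 5) (nat_lit 76) (nat_lit 5) (nat_lit 324) (nat_lit 291) (nat_lit 246)) (XT.lf (nat_lit 0) (nat_lit 4303764227) (nat_lit 504) (nat_lit 1266958964) (nat_lit 588) (nat_lit 3784622118) (nat_lit 69) (nat_lit 5) (nat_lit 75) (nat_lit 5) (nat_lit 76) (nat_lit 5) (nat_lit 325) (nat_lit 291) (nat_lit 245)))))) (XT.nd (nat_lit 470) (nat_lit 840) (nat_lit 0) (XT.nd (nat_lit 188) (nat_lit 504) (nat_lit 0) (XT.nd (nat_lit 94) (nat_lit 420) (nat_lit 0) (XT.lf (nat_lit 0) (nat_lit 7231247441) (nat_lit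 588) (nat_lit 1285751640) (nat_lit 84) (nat_lit 999315968) (nat_lit 69) (nat_lit 5) (nat_lit 76) (nat_lit 5) (nat_lit 70) (nat_lit 5) (nat_lit 326) (nat_lit 291) (nat_lit 244)) (XT.lf (nat_lit 0) (nat_lit 2598984777) (nat_lit 420) (nat_lit 6347336179) (nat_lit 504) (nat_lit 736055325) (nat_lit 64) (nat_lit 5) (nat_lit 69) (nat_lit 5) (nat_lit 70) (nat_lit 5) (nat_lit 327) (nat_lit 291) (nat_lit 243))) (XT.nd (nat_lit 94) (nat_lit 420) (nat_lit 0) (XT.lf (nat_lit 0) (nat_lit 821682469) (nat_lit 504) (nat_lit 3268219899) (nat_lit 84) (nat_lit 5764283671) (nat_lit 63) (nat_lit 5) (nat_lit 69) (nat_lit 5) (nat_lit 64) (nat_lit 5) (nat_lit 328) (nat_lit 291) (nat_lit 242)) (XT.nd (nat_lit 94) (nat_lit 0) (nat_lit 0) (XT.lf (nat_lit 0) (nat_lit 633822350) (nat_lit 420) (nat_lit 1750448355) (nat_lit 504) (nat_lit 7647869947) (nat_lit 58) (nat_lit 5) (nat_lit 63) (nat_lit 5) (nat_lit 64) (nat_lit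 5) (nat_lit 329) (nat_lit 291) (nat_lit 241)) (XT.lf (nat_lit 0) (nat_lit 4002537374) (nat_lit 504) (nat_lit 5532819741) (nat_lit 84) (nat_lit 680204439) (nat_lit 58) (nat_lit 5) (nat_lit 64) (nat_lit 5) (nat_lit 59) (nat_lit 5) (nat_lit 330) (nat_lit 291) (nat_lit 240))))) (XT.nd (nat_lit 188) (nat_lit 504) (nat_lit 0) (XT.nd (nat_lit 94) (nat_lit 336) (nat_lit 0) (XT.lf (nat_lit 0) (nat_lit 5656102508) (nat_lit 504) (nat_lit 1601733664) (nat_lit 84) (nat_lit 3147462081) (nat_lit 58) (nat_lit 5) (nat_lit 64) (nat_lit 5) (nat_lit 59) (nat_lit 5) (nat_lit 331) (nat_lit 291) (nat_lit 239)) (XT.lf (nat_lit 0) (nat_lit 2465646049) (nat_lit 336) (nat_lit 4887956203) (nat_lit 420) (nat_lit 3247705409) (nat_lit 54) (nat_lit 5) (nat_lit 58) (nat_lit 5) (nat_lit 59) (nat_lit 5) (nat_lit 332) (nat_lit 291) (nat_lit 238))) (XT.nd (nat_lit 94) (nat_lit 504) (nat_lit 0) (XT.lf (nat_lit 0) (nat_lit 6658179991)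 (nat_lit 336) (nat_lit 2431087495) (nat_lit 420) (nat_lit 1714732889) (nat_lit 54) (nat_lit 5) (nat_lit 58) (nat_lit 5) (nat_lit 59) (nat_lit 5) (nat_lit 333) (nat_lit 291) (nat_lit 237)) (XT.nd (nat_lit 94) (nat_lit 504) (nat_lit 0) (XT.lf (nat_lit 0) (nat_lit 10849475470) (nat_lit 420) (nat_lit 68202469) (nat_lit 84) (nat_lit 96359840) (nat_lit 54) (nat_lit 5) (nat_lit 59) (nat_lit 5) (nat_lit 55) (nat_lit 5) (nat_lit 334) (nat_lit 291) (nat_lit 236)) (XT.lf (nat_lit 0) (nat_lit 1441785642) (nat_lit 504) (nat_lit 7083249247) (nat_lit 84) (nat_lit 2704108289) (nat_lit 48) (nat_lit 5) (nat_lit 54) (nat_lit 5) (nat_lit 49) (nat_lit 5) (nat_lit 335) (nat_lit 291) (nat_lit 235))))))))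
noncomputable def xc54 : XT := (XT.nd (nat_lit 1692) (nat_lit 840) (nat_lit 0) (XT.nd (nat_lit 846) (nat_lit 924) (nat_lit 0) (XT.nd (nat_lit 376) (nat_lit 672) (nat_lit 0) (XT.nd (nat_lit 188) (nat_lit 0) (nat_lit 0) (XT.nd (nat_lit 94) (nat_lit 336) (nat_lit 0) (XT.lf (nat_lit 0) (nat_lit 3065981140) (nat_lit 504) (nat_lit 2994759122) (nat_lit 84) (nat_lit 5391149449) (nat_lit 48) (nat_lit 5) (nat_lit 54) (nat_lit 5) (nat_lit 49) (nat_lit 5) (nat_lit 336) (nat_lit 291) (nat_lit 234)) (XT.lf (nat_lit 0) (nat_lit 1211669210) (nat_lit 336) (nat_lit 3512506815) (nat_lit 420) (nat_lit 6958008591) (nat_lit 44) (nat_lit 5) (nat_lit 48) (nat_lit 5) (nat_lit 49) (nat_lit 5) (nat_lit 337) (nat_lit 291) (nat_lit 233))) (XT.nd (nat_lit 94) (nat_lit 0) (nat_lit 0) (XT.lf (nat_lit 0) (nat_lit 5579103020) (nat_lit 336) (nat_lit 858087352) (nat_lit 420) (nat_lit 5482454671) (nat_lit 44) (nat_lit 5) (nat_lit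 48) (nat_lit 5) (nat_lit 49) (nat_lit 5) (nat_lit 338) (nat_lit 291) (nat_lit 232)) (XT.lf (nat_lit 0) (nat_lit 8194889310) (nat_lit 420) (nat_lit 2133985071) (nat_lit 84) (nat_lit 1835981629) (nat_lit 44) (nat_lit 5) (nat_lit 49) (nat_lit 5) (nat_lit 45) (nat_lit 5) (nat_lit 339) (nat_lit 291) (nat_lit 231)))) (XT.nd (nat_lit 188) (nat_lit 336) (nat_lit 0) (XT.nd (nat_lit 94) (nat_lit 0) (nat_lit 0) (XT.lf (nat_lit 0) (nat_lit 2206838857) (nat_lit 336) (nat_lit 7804664883) (nat_lit 420) (nat_lit 2406151968) (nat_lit 40) (nat_lit 5) (nat_lit 44) (nat_lit 5) (nat_lit 45) (nat_lit 5) (nat_lit 340) (nat_lit 291) (nat_lit 230)) (XT.lf (nat_lit 0) (nat_lit 6695966911) (nat_lit 336) (nat_lit 5184975768) (nat_lit 420) (nat_lit 797578409) (nat_lit 40) (nat_lit 5) (nat_lit 44) (nat_lit 5) (nat_lit 45) (nat_lit 5) (nat_lit 341) (nat_lit 291) (nat_lit 229))) (XT.nd (nat_lit 94) (nat_lit 252) (nat_lit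 0) (XT.lf (nat_lit 0) (nat_lit 818155942) (nat_lit 420) (nat_lit 1662943825) (nat_lit 84) (nat_lit 10467008504) (nat_lit 39) (nat_lit 5) (nat_lit 44) (nat_lit 5) (nat_lit 40) (nat_lit 5) (nat_lit 342) (nat_lit 291) (nat_lit 228)) (XT.nd (nat_lit 94) (nat_lit 0) (nat_lit 0) (XT.lf (nat_lit 0) (nat_lit 2474029476) (nat_lit 336) (nat_lit 10420406045) (nat_lit 84) (nat_lit 331269190) (nat_lit 36) (nat_lit 5) (nat_lit 40) (nat_lit 5) (nat_lit 37) (nat_lit 5) (nat_lit 343) (nat_lit 291) (nat_lit 227)) (XT.lf (nat_lit 0) (nat_lit 4199933265) (nat_lit 336) (nat_lit 6120354462) (nat_lit 84) (nat_lit 3191146080) (nat_lit 36) (nat_lit 5) (nat_lit 40) (nat_lit 5) (nat_lit 37) (nat_lit 5) (nat_lit 344) (nat_lit 291) (nat_lit 226)))))) (XT.nd (nat_lit 376) (nat_lit 588) (nat_lit 0) (XT.nd (nat_lit 188) (nat_lit 0) (nat_lit 0) (XT.nd (nat_lit 94) (nat_lit 336) (nat_lit 0) (XT.lf (nat_lit 0) (nat_lit 5955855211)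 (nat_lit 336) (nat_lit 1716819688) (nat_lit 84) (nat_lit 6134177235) (nat_lit 36) (nat_lit 5) (nat_lit 40) (nat_lit 5) (nat_lit 37) (nat_lit 5) (nat_lit 345) (nat_lit 291) (nat_lit 225)) (XT.lf (nat_lit 0) (nat_lit 2851759427) (nat_lit 336) (nat_lit 4919962397) (nat_lit 420) (nat_lit 6339636245) (nat_lit 32) (nat_lit 5) (nat_lit 36) (nat_lit 5) (nat_lit 37) (nat_lit 5) (nat_lit 346) (nat_lit 291) (nat_lit 224))) (XT.nd (nat_lit 94) (nat_lit 0) (nat_lit 0) (XT.lf (nat_lit 0) (nat_lit 7569731147) (nat_lit 336) (nat_lit 2069691418) (nat_lit 420) (nat_lit 4786116776) (nat_lit 32) (nat_lit 5) (nat_lit 36) (nat_lit 5) (nat_lit 37) (nat_lit 5) (nat_lit 347) (nat_lit 291) (nat_lit 223)) (XT.lf (nat_lit 0) (nat_lit 11551876891) (nat_lit 420) (nat_lit 2352595661) (nat_lit 84) (nat_lit 845489710) (nat_lit 32) (nat_lit 5) (nat_lit 37) (nat_lit 5) (nat_lit 33) (nat_lit 5) (nat_lit 348) (nat_lit 291)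 (nat_lit 222)))) (XT.nd (nat_lit 188) (nat_lit 252) (nat_lit 0) (XT.nd (nat_lit 94) (nat_lit 84) (nat_lit 0) (XT.lf (nat_lit 0) (nat_lit 2287517515) (nat_lit 252) (nat_lit 11258849638) (nat_lit 336) (nat_lit 1537461584) (nat_lit 29) (nat_lit 5) (nat_lit 32) (nat_lit 5) (nat_lit 33) (nat_lit 5) (nat_lit 349) (nat_lit 291) (nat_lit 221)) (XT.lf (nat_lit 0) (nat_lit 174883856) (nat_lit 336) (nat_lit 8335778103) (nat_lit 84) (nat_lit 6917299077) (nat_lit 28) (nat_lit 5) (nat_lit 32) (nat_lit 5) (nat_lit 29) (nat_lit 5) (nat_lit 350) (nat_lit 291) (nat_lit 220))) (XT.nd (nat_lit 94) (nat_lit 252) (nat_lit 0) (XT.lf (nat_lit 0) (nat_lit 1887961664) (nat_lit 336) (nat_lit 3779714069) (nat_lit 84) (nat_lit 10115314728) (nat_lit 28) (nat_lit 5) (nat_lit 32) (nat_lit 5) (nat_lit 29) (nat_lit 5) (nat_lit 351) (nat_lit 291) (nat_lit 219)) (XT.nd (nat_lit 94) (nat_lit 0) (nat_lit 0) (XT.lf (nat_lit 0)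 (nat_lit 909708007) (nat_lit 252) (nat_lit 2733661438) (nat_lit 336) (nat_lit 12506071541) (nat_lit 25) (nat_lit 5) (nat_lit 28) (nat_lit 5) (nat_lit 29) (nat_lit 5) (nat_lit 352) (nat_lit 291) (nat_lit 218)) (XT.lf (nat_lit 0) (nat_lit 5476414473) (nat_lit 336) (nat_lit 10731252567) (nat_lit 84) (nat_lit 318943338) (nat_lit 25) (nat_lit 5) (nat_lit 29) (nat_lit 5) (nat_lit 26) (nat_lit 5) (nat_lit 353) (nat_lit 291) (nat_lit 217))))))) (XT.nd (nat_lit 846) (nat_lit 336) (nat_lit 0) (XT.nd (nat_lit 376) (nat_lit 336) (nat_lit 0) (XT.nd (nat_lit 188) (nat_lit 168) (nat_lit 0) (XT.nd (nat_lit 94) (nat_lit 0) (nat_lit 0) (XT.lf (nat_lit 0) (nat_lit 7375303765) (nat_lit 336) (nat_lit 6136730482) (nat_lit 84) (nat_lit 3403234501) (nat_lit 25) (nat_lit 5) (nat_lit 29) (nat_lit 5) (nat_lit 26) (nat_lit 5) (nat_lit 354) (nat_lit 291) (nat_lit 216)) (XT.lf (nat_lit 0) (nat_lit 9314689024) (nat_lit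 336) (nat_lit 1424765889) (nat_lit 84) (nat_lit 6577164119) (nat_lit 25) (nat_lit 5) (nat_lit 29) (nat_lit 5) (nat_lit 26) (nat_lit 5) (nat_lit 355) (nat_lit 291) (nat_lit 215))) (XT.nd (nat_lit 94) (nat_lit 0) (nat_lit 0) (XT.lf (nat_lit 0) (nat_lit 3479129971) (nat_lit 168) (nat_lit 7851761389) (nat_lit 252) (nat_lit 6399074055) (nat_lit 23) (nat_lit 5) (nat_lit 25) (nat_lit 5) (nat_lit 26) (nat_lit 5) (nat_lit 356) (nat_lit 291) (nat_lit 214)) (XT.lf (nat_lit 0) (nat_lit 8541259913) (nat_lit 168) (nat_lit 4865688159) (nat_lit 252) (nat_lit 4749329211) (nat_lit 23) (nat_lit 5) (nat_lit 25) (nat_lit 5) (nat_lit 26) (nat_lit 5) (nat_lit 357) (nat_lit 291) (nat_lit 213)))) (XT.nd (nat_lit 188) (nat_lit 84) (nat_lit 0) (XT.nd (nat_lit 94) (nat_lit 252) (nat_lit 0) (XT.lf (nat_lit 0) (nat_lit 13737046263) (nat_lit 168) (nat_lit 1793323524) (nat_lit 252) (nat_lit 3066029373) (nat_lit 23) (nat_lit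 5) (nat_lit 25) (nat_lit 5) (nat_lit 26) (nat_lit 5) (nat_lit 358) (nat_lit 291) (nat_lit 212)) (XT.lf (nat_lit 0) (nat_lit 7162380) (nat_lit 252) (nat_lit 17709617104) (nat_lit 336) (nat_lit 1333538847) (nat_lit 20) (nat_lit 5) (nat_lit 23) (nat_lit 5) (nat_lit 24) (nat_lit 5) (nat_lit 359) (nat_lit 291) (nat_lit 211))) (XT.nd (nat_lit 94) (nat_lit 0) (nat_lit 0) (XT.lf (nat_lit 0) (nat_lit 496620513) (nat_lit 336) (nat_lit 14435785177) (nat_lit 84) (nat_lit 4584180224) (nat_lit 19) (nat_lit 5) (nat_lit 23) (nat_lit 5) (nat_lit 20) (nat_lit 5) (nat_lit 360) (nat_lit 291) (nat_lit 210)) (XT.nd (nat_lit 94) (nat_lit 0) (nat_lit 0) (XT.lf (nat_lit 0) (nat_lit 2339809977) (nat_lit 336) (nat_lit 9721778932) (nat_lit 84) (nat_lit 7935852001) (nat_lit 19) (nat_lit 5) (nat_lit 23) (nat_lit 5) (nat_lit 20) (nat_lit 5) (nat_lit 361) (nat_lit 291) (nat_lit 209)) (XT.lf (nat_lit 0) (nat_lit 4224615426)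 (nat_lit 336) (nat_lit 4883514399) (nat_lit 84) (nat_lit 11385611797) (nat_lit 19) (nat_lit 5) (nat_lit 23) (nat_lit 5) (nat_lit 20) (nat_lit 5) (nat_lit 362) (nat_lit 291) (nat_lit 208)))))) (XT.nd (nat_lit 470) (nat_lit 168) (nat_lit 0) (XT.nd (nat_lit 188) (nat_lit 0) (nat_lit 0) (XT.nd (nat_lit 94) (nat_lit 0) (nat_lit 0) (XT.lf (nat_lit 0) (nat_lit 85235496) (nat_lit 168) (nat_lit 6068403746) (nat_lit 252) (nat_lit 14852285201) (nat_lit 17) (nat_lit 5) (nat_lit 19) (nat_lit 5) (nat_lit 20) (nat_lit 5) (nat_lit 363) (nat_lit 291) (nat_lit 207)) (XT.lf (nat_lit 0) (nat_lit 5290541249) (nat_lit 168) (nat_lit 2888083625) (nat_lit 252) (nat_lit 13354293599) (nat_lit 17) (nat_lit 5) (nat_lit 19) (nat_lit 5) (nat_lit 20) (nat_lit 5) (nat_lit 364) (nat_lit 291) (nat_lit 206))) (XT.nd (nat_lit 94) (nat_lit 0) (nat_lit 0) (XT.lf (nat_lit 0) (nat_lit 10255836095) (nat_lit 252) (nat_lit 11443725396)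 (nat_lit 84) (nat_lit 377067768) (nat_lit 17) (nat_lit 5) (nat_lit 20) (nat_lit 5) (nat_lit 18) (nat_lit 5) (nat_lit 365) (nat_lit 291) (nat_lit 205)) (XT.nd (nat_lit 94) (nat_lit 0) (nat_lit 0) (XT.lf (nat_lit 0) (nat_lit 12412986913) (nat_lit 252) (nat_lit 6546038449) (nat_lit 84) (nat_lit 3677739124) (nat_lit 17) (nat_lit 5) (nat_lit 20) (nat_lit 5) (nat_lit 18) (nat_lit 5) (nat_lit 366) (nat_lit 291) (nat_lit 204)) (XT.lf (nat_lit 0) (nat_lit 14623437873) (nat_lit 252) (nat_lit 1516101078) (nat_lit 84) (nat_lit 7075195463) (nat_lit 17) (nat_lit 5) (nat_lit 20) (nat_lit 5) (nat_lit 18) (nat_lit 5) (nat_lit 367) (nat_lit 291) (nat_lit 203))))) (XT.nd (nat_lit 47000) (nat_lit 0) (nat_lit 12180) (XT.nd (nat_lit 46906) (nat_lit 0) (nat_lit 12600) (XT.lf (nat_lit 0) (nat_lit 3725842570) (nat_lit 168) (nat_lit 13200367595) (nat_lit 252) (nat_lit 6883721820) (nat_lit 15) (nat_lit 5) (nat_lit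 17) (nat_lit 5) (nat_lit 18) (nat_lit 5) (nat_lit 368) (nat_lit 291) (nat_lit 202)) (XT.lf (nat_lit 0) (nat_lit 1227189055) (nat_lit 420) (nat_lit 1028242397) (nat_lit 420) (nat_lit 1028242397) (nat_lit 165) (nat_lit 3) (nat_lit 170) (nat_lit 3) (nat_lit 170) (nat_lit 5) (nat_lit 292) (nat_lit 292) (nat_lit 277))) (XT.nd (nat_lit 94) (nat_lit 420) (nat_lit 0) (XT.lf (nat_lit 84) (nat_lit 415867711) (nat_lit 0) (nat_lit 3981923317) (nat_lit 420) (nat_lit 2196228880) (nat_lit 166) (nat_lit 5) (nat_lit 165) (nat_lit 3) (nat_lit 170) (nat_lit 5) (nat_lit 293) (nat_lit 292) (nat_lit 276)) (XT.nd (nat_lit 94) (nat_lit 420) (nat_lit 0) (XT.lf (nat_lit 84) (nat_lit 2967824028) (nat_lit 0) (nat_lit 3378076409) (nat_lit 420) (nat_lit 277987498) (nat_lit 166) (nat_lit 5) (nat_lit 165) (nat_lit 3) (nat_lit 170) (nat_lit 5) (nat_lit 294) (nat_lit 292) (nat_lit 275)) (XT.lf (nat_lit 0) (nat_lit 1589395835)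 (nat_lit 420) (nat_lit 1114238950) (nat_lit 504) (nat_lit 3953491433) (nat_lit 160) (nat_lit 5) (nat_lit 165) (nat_lit 3) (nat_lit 166) (nat_lit 5) (nat_lit 295) (nat_lit 292) (nat_lit 274))))))))
noncomputable def xc55 : XT := (XT.nd (nat_lit 1786) (nat_lit 4956) (nat_lit 0) (XT.nd (nat_lit 846) (nat_lit 2940) (nat_lit 0) (XT.nd (nat_lit 376) (nat_lit 504) (nat_lit 0) (XT.nd (nat_lit 188) (nat_lit 504) (nat_lit 0) (XT.nd (nat_lit 94) (nat_lit 0) (nat_lit 0) (XT.lf (nat_lit 84) (nat_lit 1493289662) (nat_lit 0) (nat_lit 1956627083) (nat_lit 504) (nat_lit 3243808619) (nat_lit 161) (nat_lit 5) (nat_lit 160) (nat_lit 5) (nat_lit 166) (nat_lit 5) (nat_lit 296) (nat_lit 292) (nat_lit 273)) (XT.lf (nat_lit 84) (nat_lit 4165345090) (nat_lit 0) (nat_lit 1142431249) (nat_lit 504) (nat_lit 1426125790) (nat_lit 161) (nat_lit 5) (nat_lit 160) (nat_lit 5) (nat_lit 166) (nat_lit 5) (nat_lit 297) (nat_lit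 292) (nat_lit 272))) (XT.nd (nat_lit 94) (nat_lit 0) (nat_lit 84) (XT.lf (nat_lit 84) (nat_lit 101790280) (nat_lit 0) (nat_lit 267038385) (nat_lit 588) (nat_lit 6409068252) (nat_lit 155) (nat_lit 5) (nat_lit 154) (nat_lit 5) (nat_lit 161) (nat_lit 5) (nat_lit 298) (nat_lit 292) (nat_lit 271)) (XT.lf (nat_lit 0) (nat_lit 2154154079) (nat_lit 504) (nat_lit 3977492441) (nat_lit 588) (nat_lit 692784442) (nat_lit 155) (nat_lit 5) (nat_lit 161) (nat_lit 5) (nat_lit 162) (nat_lit 5) (nat_lit 299) (nat_lit 292) (nat_lit 270)))) (XT.nd (nat_lit 188) (nat_lit 588) (nat_lit 0) (XT.nd (nat_lit 94) (nat_lit 0) (nat_lit 0) (XT.lf (nat_lit 0) (nat_lit 3930594090) (nat_lit 504) (nat_lit 1239925385) (nat_lit 588) (nat_lit 1704385994) (nat_lit 155) (nat_lit 5) (nat_lit 161) (nat_lit 5) (nat_lit 162) (nat_lit 5) (nat_lit 300) (nat_lit 292) (nat_lit 269)) (XT.lf (nat_lit 84) (nat_lit 1573497756) (nat_lit 0)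 (nat_lit 4139267009) (nat_lit 588) (nat_lit 1216200953) (nat_lit 156) (nat_lit 5) (nat_lit 155) (nat_lit 5) (nat_lit 162) (nat_lit 5) (nat_lit 301) (nat_lit 292) (nat_lit 268))) (XT.nd (nat_lit 94) (nat_lit 0) (nat_lit 0) (XT.lf (nat_lit 0) (nat_lit 502651660) (nat_lit 588) (nat_lit 2531707540) (nat_lit 672) (nat_lit 3952225664) (nat_lit 148) (nat_lit 5) (nat_lit 155) (nat_lit 5) (nat_lit 156) (nat_lit 5) (nat_lit 302) (nat_lit 292) (nat_lit 267)) (XT.nd (nat_lit 94) (nat_lit 0) (nat_lit 0) (XT.lf (nat_lit 84) (nat_lit 333038361) (nat_lit 0) (nat_lit 1857219768) (nat_lit 672) (nat_lit 4857632260) (nat_lit 149) (nat_lit 5) (nat_lit 148) (nat_lit 5) (nat_lit 156) (nat_lit 5) (nat_lit 303) (nat_lit 292) (nat_lit 266)) (XT.lf (nat_lit 84) (nat_lit 3299853346) (nat_lit 0) (nat_lit 595662404) (nat_lit 672) (nat_lit 3217090262) (nat_lit 149) (nat_lit 5) (nat_lit 148) (nat_lit 5) (nat_lit 156) (nat_lit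 5) (nat_lit 304) (nat_lit 292) (nat_lit 265)))))) (XT.nd (nat_lit 470) (nat_lit 1680) (nat_lit 0) (XT.nd (nat_lit 188) (nat_lit 672) (nat_lit 0) (XT.nd (nat_lit 94) (nat_lit 672) (nat_lit 0) (XT.lf (nat_lit 0) (nat_lit 5601575448) (nat_lit 588) (nat_lit 869333641) (nat_lit 84) (nat_lit 710454557) (nat_lit 149) (nat_lit 5) (nat_lit 156) (nat_lit 5) (nat_lit 150) (nat_lit 5) (nat_lit 305) (nat_lit 292) (nat_lit 264)) (XT.lf (nat_lit 0) (nat_lit 75648287) (nat_lit 672) (nat_lit 5091942171) (nat_lit 84) (nat_lit 2085969619) (nat_lit 141) (nat_lit 5) (nat_lit 149) (nat_lit 5) (nat_lit 142) (nat_lit 5) (nat_lit 306) (nat_lit 292) (nat_lit 263))) (XT.nd (nat_lit 94) (nat_lit 672) (nat_lit 0) (XT.lf (nat_lit 0) (nat_lit 1701839602) (nat_lit 672) (nat_lit 2080550863) (nat_lit 84) (nat_lit 3546968445) (nat_lit 141) (nat_lit 5) (nat_lit 149) (nat_lit 5) (nat_lit 142) (nat_lit 5) (nat_lit 307) (nat_lit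 292) (nat_lit 262)) (XT.nd (nat_lit 94) (nat_lit 0) (nat_lit 0) (XT.lf (nat_lit 0) (nat_lit 1004128098) (nat_lit 672) (nat_lit 2329072475) (nat_lit 756) (nat_lit 4076082881) (nat_lit 133) (nat_lit 5) (nat_lit 141) (nat_lit 5) (nat_lit 142) (nat_lit 5) (nat_lit 308) (nat_lit 292) (nat_lit 261)) (XT.lf (nat_lit 0) (nat_lit 4188650240) (nat_lit 672) (nat_lit 794260979) (nat_lit 756) (nat_lit 2510135545) (nat_lit 133) (nat_lit 5) (nat_lit 141) (nat_lit 5) (nat_lit 142) (nat_lit 5) (nat_lit 309) (nat_lit 292) (nat_lit 260))))) (XT.nd (nat_lit 188) (nat_lit 840) (nat_lit 0) (XT.nd (nat_lit 94) (nat_lit 840) (nat_lit 0) (XT.lf (nat_lit 0) (nat_lit 6639399073) (nat_lit 756) (nat_lit 156129956) (nat_lit 84) (nat_lit 785604304) (nat_lit 133) (nat_lit 5) (nat_lit 142) (nat_lit 5) (nat_lit 134) (nat_lit 5) (nat_lit 310) (nat_lit 292) (nat_lit 259)) (XT.lf (nat_lit 0) (nat_lit 649536629) (nat_lit 840)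 (nat_lit 4574640502) (nat_lit 84) (nat_lit 2448272801) (nat_lit 123) (nat_lit 5) (nat_lit 133) (nat_lit 5) (nat_lit 124) (nat_lit 5) (nat_lit 311) (nat_lit 292) (nat_lit 258))) (XT.nd (nat_lit 94) (nat_lit 840) (nat_lit 0) (XT.lf (nat_lit 0) (nat_lit 2221911413) (nat_lit 840) (nat_lit 1360789581) (nat_lit 84) (nat_lit 4185426905) (nat_lit 123) (nat_lit 5) (nat_lit 133) (nat_lit 5) (nat_lit 124) (nat_lit 5) (nat_lit 312) (nat_lit 292) (nat_lit 257)) (XT.nd (nat_lit 94) (nat_lit 0) (nat_lit 0) (XT.lf (nat_lit 0) (nat_lit 1952727150) (nat_lit 840) (nat_lit 1860876858) (nat_lit 924) (nat_lit 4054391007) (nat_lit 113) (nat_lit 5) (nat_lit 123) (nat_lit 5) (nat_lit 124) (nat_lit 5) (nat_lit 313) (nat_lit 292) (nat_lit 256)) (XT.lf (nat_lit 0) (nat_lit 5358902203) (nat_lit 840) (nat_lit 62224868) (nat_lit 924) (nat_lit 2551171396) (nat_lit 113) (nat_lit 5) (nat_lit 123) (nat_lit 5) (nat_lit 124)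 (nat_lit 5) (nat_lit 314) (nat_lit 292) (nat_lit 255))))))) (XT.nd (nat_lit 846) (nat_lit 1764) (nat_lit 0) (XT.nd (nat_lit 376) (nat_lit 1176) (nat_lit 0) (XT.nd (nat_lit 188) (nat_lit 1008) (nat_lit 0) (XT.nd (nat_lit 94) (nat_lit 84) (nat_lit 0) (XT.lf (nat_lit 0) (nat_lit 748586208) (nat_lit 924) (nat_lit 6308905509) (nat_lit 1008) (nat_lit 1023286864) (nat_lit 102) (nat_lit 5) (nat_lit 113) (nat_lit 5) (nat_lit 114) (nat_lit 5) (nat_lit 315) (nat_lit 292) (nat_lit 254)) (XT.lf (nat_lit 0) (nat_lit 523099192) (nat_lit 1008) (nat_lit 3968344221) (nat_lit 84) (nat_lit 3701833618) (nat_lit 101) (nat_lit 5) (nat_lit 113) (nat_lit 5) (nat_lit 102) (nat_lit 5) (nat_lit 316) (nat_lit 292) (nat_lit 253))) (XT.nd (nat_lit 94) (nat_lit 1008) (nat_lit 0) (XT.lf (nat_lit 0) (nat_lit 2051612343) (nat_lit 1008) (nat_lit 549838850) (nat_lit 84) (nat_lit 5709135411) (nat_lit 101) (nat_lit 5) (nat_lit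 113) (nat_lit 5) (nat_lit 102) (nat_lit 5) (nat_lit 317) (nat_lit 292) (nat_lit 252)) (XT.lf (nat_lit 0) (nat_lit 2997045055) (nat_lit 1008) (nat_lit 616980276) (nat_lit 1092) (nat_lit 4818184340) (nat_lit 89) (nat_lit 5) (nat_lit 101) (nat_lit 5) (nat_lit 102) (nat_lit 5) (nat_lit 318) (nat_lit 292) (nat_lit 251)))) (XT.nd (nat_lit 188) (nat_lit 588) (nat_lit 0) (XT.nd (nat_lit 94) (nat_lit 588) (nat_lit 0) (XT.lf (nat_lit 0) (nat_lit 5202604844) (nat_lit 1092) (nat_lit 1945324157) (nat_lit 84) (nat_lit 1410615471) (nat_lit 89) (nat_lit 5) (nat_lit 102) (nat_lit 5) (nat_lit 90) (nat_lit 5) (nat_lit 319) (nat_lit 292) (nat_lit 250)) (XT.lf (nat_lit 0) (nat_lit 1641438143) (nat_lit 588) (nat_lit 5180613722) (nat_lit 672) (nat_lit 1867557074) (nat_lit 82) (nat_lit 5) (nat_lit 89) (nat_lit 5) (nat_lit 90) (nat_lit 5) (nat_lit 320) (nat_lit 292) (nat_lit 249))) (XT.nd (nat_lit 94) (nat_lit 588)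 (nat_lit 0) (XT.lf (nat_lit 0) (nat_lit 5342990609) (nat_lit 588) (nat_lit 3128902901) (nat_lit 672) (nat_lit 353693180) (nat_lit 82) (nat_lit 5) (nat_lit 89) (nat_lit 5) (nat_lit 90) (nat_lit 5) (nat_lit 321) (nat_lit 292) (nat_lit 248)) (XT.nd (nat_lit 94) (nat_lit 0) (nat_lit 0) (XT.lf (nat_lit 0) (nat_lit 146955047) (nat_lit 504) (nat_lit 997753130) (nat_lit 588) (nat_lit 7822102832) (nat_lit 75) (nat_lit 5) (nat_lit 81) (nat_lit 5) (nat_lit 82) (nat_lit 5) (nat_lit 322) (nat_lit 292) (nat_lit 247)) (XT.lf (nat_lit 0) (nat_lit 2692140224) (nat_lit 588) (nat_lit 5202916434) (nat_lit 84) (nat_lit 1217152293) (nat_lit 75) (nat_lit 5) (nat_lit 82) (nat_lit 5) (nat_lit 76) (nat_lit 5) (nat_lit 323) (nat_lit 292) (nat_lit 246)))))) (XT.nd (nat_lit 470) (nat_lit 756) (nat_lit 0) (XT.nd (nat_lit 188) (nat_lit 504) (nat_lit 0) (XT.nd (nat_lit 94) (nat_lit 504) (nat_lit 0) (XT.lf (nat_lit 0) (nat_lit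 4260216318) (nat_lit 588) (nat_lit 1521489480) (nat_lit 84) (nat_lit 3481464623) (nat_lit 75) (nat_lit 5) (nat_lit 82) (nat_lit 5) (nat_lit 76) (nat_lit 5) (nat_lit 324) (nat_lit 292) (nat_lit 245)) (XT.lf (nat_lit 0) (nat_lit 2283767025) (nat_lit 504) (nat_lit 3579388462) (nat_lit 588) (nat_lit 3556285164) (nat_lit 69) (nat_lit 5) (nat_lit 75) (nat_lit 5) (nat_lit 76) (nat_lit 5) (nat_lit 325) (nat_lit 292) (nat_lit 244))) (XT.nd (nat_lit 94) (nat_lit 504) (nat_lit 0) (XT.lf (nat_lit 0) (nat_lit 6203301340) (nat_lit 504) (nat_lit 1292701144) (nat_lit 588) (nat_lit 2085362747) (nat_lit 69) (nat_lit 5) (nat_lit 75) (nat_lit 5) (nat_lit 76) (nat_lit 5) (nat_lit 326) (nat_lit 292) (nat_lit 243)) (XT.nd (nat_lit 94) (nat_lit 84) (nat_lit 0) (XT.lf (nat_lit 0) (nat_lit 458587825) (nat_lit 420) (nat_lit 8701398029) (nat_lit 504) (nat_lit 589118336) (nat_lit 64) (nat_lit 5) (nat_lit 69) (nat_lit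 5) (nat_lit 70) (nat_lit 5) (nat_lit 327) (nat_lit 292) (nat_lit 242)) (XT.lf (nat_lit 0) (nat_lit 948703109) (nat_lit 504) (nat_lit 5494843588) (nat_lit 84) (nat_lit 3477936067) (nat_lit 63) (nat_lit 5) (nat_lit 69) (nat_lit 5) (nat_lit 64) (nat_lit 5) (nat_lit 328) (nat_lit 292) (nat_lit 241))))) (XT.nd (nat_lit 188) (nat_lit 336) (nat_lit 0) (XT.nd (nat_lit 94) (nat_lit 420) (nat_lit 0) (XT.lf (nat_lit 0) (nat_lit 2488557680) (nat_lit 504) (nat_lit 1623070179) (nat_lit 84) (nat_lit 5988599972) (nat_lit 63) (nat_lit 5) (nat_lit 69) (nat_lit 5) (nat_lit 64) (nat_lit 5) (nat_lit 329) (nat_lit 292) (nat_lit 240)) (XT.lf (nat_lit 0) (nat_lit 2382253995) (nat_lit 420) (nat_lit 1685128364) (nat_lit 504) (nat_lit 6217572211) (nat_lit 58) (nat_lit 5) (nat_lit 63) (nat_lit 5) (nat_lit 64) (nat_lit 5) (nat_lit 330) (nat_lit 292) (nat_lit 239))) (XT.nd (nat_lit 94) (nat_lit 336) (nat_lit 0) (XT.lf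 (nat_lit 0) (nat_lit 5688580678) (nat_lit 504) (nat_lit 3972252471) (nat_lit 84) (nat_lit 814942126) (nat_lit 58) (nat_lit 5) (nat_lit 64) (nat_lit 5) (nat_lit 59) (nat_lit 5) (nat_lit 331) (nat_lit 292) (nat_lit 238)) (XT.nd (nat_lit 94) (nat_lit 0) (nat_lit 0) (XT.lf (nat_lit 0) (nat_lit 29205559) (nat_lit 336) (nat_lit 7317525504) (nat_lit 420) (nat_lit 3326351660) (nat_lit 54) (nat_lit 5) (nat_lit 58) (nat_lit 5) (nat_lit 59) (nat_lit 5) (nat_lit 332) (nat_lit 292) (nat_lit 237)) (XT.lf (nat_lit 0) (nat_lit 4205077081) (nat_lit 336) (nat_lit 4862430773) (nat_lit 420) (nat_lit 1808804984) (nat_lit 54) (nat_lit 5) (nat_lit 58) (nat_lit 5) (nat_lit 59) (nat_lit 5) (nat_lit 333) (nat_lit 292) (nat_lit 236))))))))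
noncomputable def xc56 : XT := (XT.nd (nat_lit 1692) (nat_lit 924) (nat_lit 0) (XT.nd (nat_lit 846) (nat_lit 924) (nat_lit 0) (XT.nd (nat_lit 376) (nat_lit 756) (nat_lit 0) (XT.nd (nat_lit 188) (nat_lit 0) (nat_lit 0) (XT.nd (nat_lit 94) (nat_lit 504) (nat_lit 0) (XT.lf (nat_lit 0) (nat_lit 8477576785) (nat_lit 336) (nat_lit 2334722717) (nat_lit 420) (nat_lit 274602224) (nat_lit 54) (nat_lit 5) (nat_lit 58) (nat_lit 5) (nat_lit 59) (nat_lit 5) (nat_lit 334) (nat_lit 292) (nat_lit 235)) (XT.lf (nat_lit 0) (nat_lit 1270410536) (nat_lit 504) (nat_lit 9742630626) (nat_lit 84) (nat_lit 291039143) (nat_lit 48) (nat_lit 5) (nat_lit 54) (nat_lit 5) (nat_lit 49) (nat_lit 5) (nat_lit 335) (nat_lit 292) (nat_lit 234))) (XT.nd (nat_lit 94) (nat_lit 0) (nat_lit 0) (XT.lf (nat_lit 0) (nat_lit 2880637259) (nat_lit 504) (nat_lit 5670495705) (nat_lit 84) (nat_lit 2976194044) (nat_lit 48) (nat_lit 5) (nat_lit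 54) (nat_lit 5) (nat_lit 49) (nat_lit 5) (nat_lit 336) (nat_lit 292) (nat_lit 233)) (XT.lf (nat_lit 0) (nat_lit 4513263473) (nat_lit 504) (nat_lit 1504343243) (nat_lit 84) (nat_lit 5740872946) (nat_lit 48) (nat_lit 5) (nat_lit 54) (nat_lit 5) (nat_lit 49) (nat_lit 5) (nat_lit 337) (nat_lit 292) (nat_lit 232)))) (XT.nd (nat_lit 188) (nat_lit 420) (nat_lit 0) (XT.nd (nat_lit 94) (nat_lit 0) (nat_lit 0) (XT.lf (nat_lit 0) (nat_lit 2816455349) (nat_lit 336) (nat_lit 3381295192) (nat_lit 420) (nat_lit 5799137055) (nat_lit 44) (nat_lit 5) (nat_lit 48) (nat_lit 5) (nat_lit 49) (nat_lit 5) (nat_lit 338) (nat_lit 292) (nat_lit 231)) (XT.lf (nat_lit 0) (nat_lit 7272156468) (nat_lit 336) (nat_lit 651808008) (nat_lit 420) (nat_lit 4319171384) (nat_lit 44) (nat_lit 5) (nat_lit 48) (nat_lit 5) (nat_lit 49) (nat_lit 5) (nat_lit 339) (nat_lit 292) (nat_lit 230))) (XT.nd (nat_lit 94) (nat_lit 420) (nat_lit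 0) (XT.lf (nat_lit 0) (nat_lit 9699688785) (nat_lit 420) (nat_lit 683349826) (nat_lit 84) (nat_lit 2114223963) (nat_lit 44) (nat_lit 5) (nat_lit 49) (nat_lit 5) (nat_lit 45) (nat_lit 5) (nat_lit 340) (nat_lit 292) (nat_lit 229)) (XT.nd (nat_lit 94) (nat_lit 84) (nat_lit 0) (XT.lf (nat_lit 0) (nat_lit 3776683521) (nat_lit 336) (nat_lit 7773221483) (nat_lit 420) (nat_lit 1208876488) (nat_lit 40) (nat_lit 5) (nat_lit 44) (nat_lit 5) (nat_lit 45) (nat_lit 5) (nat_lit 341) (nat_lit 292) (nat_lit 228)) (XT.lf (nat_lit 0) (nat_lit 403033319) (nat_lit 420) (nat_lit 4673302046) (nat_lit 84) (nat_lit 7952589463) (nat_lit 39) (nat_lit 5) (nat_lit 44) (nat_lit 5) (nat_lit 40) (nat_lit 5) (nat_lit 342) (nat_lit 292) (nat_lit 227)))))) (XT.nd (nat_lit 376) (nat_lit 672) (nat_lit 0) (XT.nd (nat_lit 188) (nat_lit 0) (nat_lit 0) (XT.nd (nat_lit 94) (nat_lit 252) (nat_lit 0) (XT.lf (nat_lit 0) (nat_lit 2015942715)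 (nat_lit 420) (nat_lit 272638672) (nat_lit 84) (nat_lit 11019324360) (nat_lit 39) (nat_lit 5) (nat_lit 44) (nat_lit 5) (nat_lit 40) (nat_lit 5) (nat_lit 343) (nat_lit 292) (nat_lit 226)) (XT.lf (nat_lit 0) (nat_lit 3704791840) (nat_lit 336) (nat_lit 9278134812) (nat_lit 84) (nat_lit 611907894) (nat_lit 36) (nat_lit 5) (nat_lit 40) (nat_lit 5) (nat_lit 37) (nat_lit 5) (nat_lit 344) (nat_lit 292) (nat_lit 225))) (XT.nd (nat_lit 94) (nat_lit 0) (nat_lit 0) (XT.lf (nat_lit 0) (nat_lit 5449498267) (nat_lit 336) (nat_lit 4888840232) (nat_lit 84) (nat_lit 3552311530) (nat_lit 36) (nat_lit 5) (nat_lit 40) (nat_lit 5) (nat_lit 37) (nat_lit 5) (nat_lit 345) (nat_lit 292) (nat_lit 224)) (XT.lf (nat_lit 0) (nat_lit 7226196782) (nat_lit 336) (nat_lit 391529733) (nat_lit 84) (nat_lit 6578691648) (nat_lit 36) (nat_lit 5) (nat_lit 40) (nat_lit 5) (nat_lit 37) (nat_lit 5) (nat_lit 346) (nat_lit 292) (nat_lit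 223)))) (XT.nd (nat_lit 188) (nat_lit 336) (nat_lit 0) (XT.nd (nat_lit 94) (nat_lit 0) (nat_lit 0) (XT.lf (nat_lit 0) (nat_lit 4304719146) (nat_lit 336) (nat_lit 4774527654) (nat_lit 420) (nat_lit 5431853350) (nat_lit 32) (nat_lit 5) (nat_lit 36) (nat_lit 5) (nat_lit 37) (nat_lit 5) (nat_lit 347) (nat_lit 292) (nat_lit 222)) (XT.lf (nat_lit 0) (nat_lit 9127918687) (nat_lit 336) (nat_lit 1844857111) (nat_lit 420) (nat_lit 3863379104) (nat_lit 32) (nat_lit 5) (nat_lit 36) (nat_lit 5) (nat_lit 37) (nat_lit 5) (nat_lit 348) (nat_lit 292) (nat_lit 221))) (XT.nd (nat_lit 94) (nat_lit 336) (nat_lit 0) (XT.lf (nat_lit 0) (nat_lit 12916190697) (nat_lit 420) (nat_lit 1109100162) (nat_lit 84) (nat_lit 1146357642) (nat_lit 32) (nat_lit 5) (nat_lit 37) (nat_lit 5) (nat_lit 33) (nat_lit 5) (nat_lit 349) (nat_lit 292) (nat_lit 220)) (XT.nd (nat_lit 94) (nat_lit 84) (nat_lit 0) (XT.lf (nat_lit 0) (nat_lit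 3661528892) (nat_lit 252) (nat_lit 11293653677) (nat_lit 336) (nat_lit 561350826) (nat_lit 29) (nat_lit 5) (nat_lit 32) (nat_lit 5) (nat_lit 33) (nat_lit 5) (nat_lit 350) (nat_lit 292) (nat_lit 219)) (XT.lf (nat_lit 0) (nat_lit 1153288128) (nat_lit 336) (nat_lit 7306276050) (nat_lit 84) (nat_lit 7412513440) (nat_lit 28) (nat_lit 5) (nat_lit 32) (nat_lit 5) (nat_lit 29) (nat_lit 5) (nat_lit 351) (nat_lit 292) (nat_lit 218))))))) (XT.nd (nat_lit 846) (nat_lit 252) (nat_lit 0) (XT.nd (nat_lit 376) (nat_lit 420) (nat_lit 0) (XT.nd (nat_lit 188) (nat_lit 0) (nat_lit 0) (XT.nd (nat_lit 94) (nat_lit 252) (nat_lit 0) (XT.lf (nat_lit 0) (nat_lit 2890215801) (nat_lit 336) (nat_lit 2647698808) (nat_lit 84) (nat_lit 10701225170) (nat_lit 28) (nat_lit 5) (nat_lit 32) (nat_lit 5) (nat_lit 29) (nat_lit 5) (nat_lit 352) (nat_lit 292) (nat_lit 217)) (XT.lf (nat_lit 0) (nat_lit 2174448461) (nat_lit 252) (nat_lit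 2509483493) (nat_lit 336) (nat_lit 11933634002) (nat_lit 25) (nat_lit 5) (nat_lit 28) (nat_lit 5) (nat_lit 29) (nat_lit 5) (nat_lit 353) (nat_lit 292) (nat_lit 216))) (XT.nd (nat_lit 94) (nat_lit 0) (nat_lit 0) (XT.lf (nat_lit 0) (nat_lit 6548882250) (nat_lit 336) (nat_lit 9836004163) (nat_lit 84) (nat_lit 622426480) (nat_lit 25) (nat_lit 5) (nat_lit 29) (nat_lit 5) (nat_lit 26) (nat_lit 5) (nat_lit 354) (nat_lit 292) (nat_lit 215)) (XT.lf (nat_lit 0) (nat_lit 8479494853) (nat_lit 336) (nat_lit 5135972780) (nat_lit 84) (nat_lit 3793502859) (nat_lit 25) (nat_lit 5) (nat_lit 29) (nat_lit 5) (nat_lit 26) (nat_lit 5) (nat_lit 355) (nat_lit 292) (nat_lit 214)))) (XT.nd (nat_lit 188) (nat_lit 252) (nat_lit 0) (XT.nd (nat_lit 94) (nat_lit 168) (nat_lit 0) (XT.lf (nat_lit 0) (nat_lit 10452674909) (nat_lit 336) (nat_lit 313748038) (nat_lit 84) (nat_lit 7057261918) (nat_lit 25) (nat_lit 5) (nat_lit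 29) (nat_lit 5) (nat_lit 26) (nat_lit 5) (nat_lit 356) (nat_lit 292) (nat_lit 213)) (XT.lf (nat_lit 0) (nat_lit 4730473377) (nat_lit 168) (nat_lit 7786715133) (nat_lit 252) (nat_lit 5733199327) (nat_lit 23) (nat_lit 5) (nat_lit 25) (nat_lit 5) (nat_lit 26) (nat_lit 5) (nat_lit 357) (nat_lit 292) (nat_lit 212))) (XT.nd (nat_lit 94) (nat_lit 252) (nat_lit 0) (XT.lf (nat_lit 0) (nat_lit 9915146998) (nat_lit 168) (nat_lit 4717348101) (nat_lit 252) (nat_lit 4058298451) (nat_lit 23) (nat_lit 5) (nat_lit 25) (nat_lit 5) (nat_lit 26) (nat_lit 5) (nat_lit 358) (nat_lit 292) (nat_lit 211)) (XT.nd (nat_lit 94) (nat_lit 252) (nat_lit 0) (XT.lf (nat_lit 0) (nat_lit 15238654181) (nat_lit 168) (nat_lit 1558735766) (nat_lit 252) (nat_lit 2348021031) (nat_lit 23) (nat_lit 5) (nat_lit 25) (nat_lit 5) (nat_lit 26) (nat_lit 5) (nat_lit 359) (nat_lit 292) (nat_lit 210)) (XT.lf (nat_lit 0) (nat_lit 1096601693)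 (nat_lit 252) (nat_lit 17944953198) (nat_lit 336) (nat_lit 572251399) (nat_lit 20) (nat_lit 5) (nat_lit 23) (nat_lit 5) (nat_lit 24) (nat_lit 5) (nat_lit 360) (nat_lit 292) (nat_lit 209)))))) (XT.nd (nat_lit 470) (nat_lit 0) (nat_lit 0) (XT.nd (nat_lit 188) (nat_lit 168) (nat_lit 0) (XT.nd (nat_lit 94) (nat_lit 0) (nat_lit 0) (XT.lf (nat_lit 0) (nat_lit 1274824676) (nat_lit 336) (nat_lit 13808292551) (nat_lit 84) (nat_lit 5011985532) (nat_lit 19) (nat_lit 5) (nat_lit 23) (nat_lit 5) (nat_lit 20) (nat_lit 5) (nat_lit 361) (nat_lit 292) (nat_lit 208)) (XT.lf (nat_lit 0) (nat_lit 3152216955) (nat_lit 336) (nat_lit 8980475159) (nat_lit 84) (nat_lit 8458968865) (nat_lit 19) (nat_lit 5) (nat_lit 23) (nat_lit 5) (nat_lit 20) (nat_lit 5) (nat_lit 362) (nat_lit 292) (nat_lit 207))) (XT.nd (nat_lit 94) (nat_lit 168) (nat_lit 0) (XT.lf (nat_lit 0) (nat_lit 5073204952) (nat_lit 336) (nat_lit 4023575586)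 (nat_lit 84) (nat_lit 12007339237) (nat_lit 19) (nat_lit 5) (nat_lit 23) (nat_lit 5) (nat_lit 20) (nat_lit 5) (nat_lit 363) (nat_lit 292) (nat_lit 206)) (XT.nd (nat_lit 94) (nat_lit 0) (nat_lit 0) (XT.lf (nat_lit 0) (nat_lit 1088966770) (nat_lit 168) (nat_lit 5961415146) (nat_lit 252) (nat_lit 14582240016) (nat_lit 17) (nat_lit 5) (nat_lit 19) (nat_lit 5) (nat_lit 20) (nat_lit 5) (nat_lit 364) (nat_lit 292) (nat_lit 205)) (XT.lf (nat_lit 0) (nat_lit 6425536363) (nat_lit 168) (nat_lit 2691378411) (nat_lit 252) (nat_lit 13059774250) (nat_lit 17) (nat_lit 5) (nat_lit 19) (nat_lit 5) (nat_lit 20) (nat_lit 5) (nat_lit 365) (nat_lit 292) (nat_lit 204))))) (XT.nd (nat_lit 188) (nat_lit 0) (nat_lit 0) (XT.nd (nat_lit 94) (nat_lit 0) (nat_lit 0) (XT.lf (nat_lit 0) (nat_lit 11240684593) (nat_lit 252) (nat_lit 10836406430) (nat_lit 84) (nat_lit 660792555) (nat_lit 17) (nat_lit 5) (nat_lit 20) (nat_lit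 5) (nat_lit 18) (nat_lit 5) (nat_lit 366) (nat_lit 292) (nat_lit 203)) (XT.lf (nat_lit 0) (nat_lit 13444654279) (nat_lit 252) (nat_lit 5815818742) (nat_lit 84) (nat_lit 4055605183) (nat_lit 17) (nat_lit 5) (nat_lit 20) (nat_lit 5) (nat_lit 18) (nat_lit 5) (nat_lit 367) (nat_lit 292) (nat_lit 202))) (XT.nd (nat_lit 47000) (nat_lit 0) (nat_lit 12012) (XT.lf (nat_lit 0) (nat_lit 15704179356) (nat_lit 252) (nat_lit 658011075) (nat_lit 84) (nat_lit 7550449070) (nat_lit 17) (nat_lit 5) (nat_lit 20) (nat_lit 5) (nat_lit 18) (nat_lit 5) (nat_lit 368) (nat_lit 292) (nat_lit 201)) (XT.nd (nat_lit 94) (nat_lit 420) (nat_lit 0) (XT.lf (nat_lit 0) (nat_lit 3147615932) (nat_lit 420) (nat_lit 81800981) (nat_lit 420) (nat_lit 81800981) (nat_lit 165) (nat_lit 3) (nat_lit 170) (nat_lit 3) (nat_lit 170) (nat_lit 5) (nat_lit 293) (nat_lit 293) (nat_lit 275)) (XT.lf (nat_lit 0) (nat_lit 1519849952) (nat_lit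 420) (nat_lit 4303607092) (nat_lit 504) (nat_lit 829870242) (nat_lit 160) (nat_lit 5) (nat_lit 165) (nat_lit 3) (nat_lit 166) (nat_lit 5) (nat_lit 294) (nat_lit 293) (nat_lit 274))))))))
noncomputable def xc57 : XT := (XT.nd (nat_lit 1786) (nat_lit 4620) (nat_lit 0) (XT.nd (nat_lit 846) (nat_lit 2940) (nat_lit 0) (XT.nd (nat_lit 376) (nat_lit 504) (nat_lit 0) (XT.nd (nat_lit 188) (nat_lit 504) (nat_lit 0) (XT.nd (nat_lit 94) (nat_lit 0) (nat_lit 0) (XT.lf (nat_lit 0) (nat_lit 3345300369) (nat_lit 420) (nat_lit 1784400080) (nat_lit 504) (nat_lit 1558196587) (nat_lit 160) (nat_lit 5) (nat_lit 165) (nat_lit 3) (nat_lit 166) (nat_lit 5) (nat_lit 295) (nat_lit 293) (nat_lit 273)) (XT.lf (nat_lit 84) (nat_lit 789689436) (nat_lit 0) (nat_lit 4373912384) (nat_lit 504) (nat_lit 1562485088) (nat_lit 161) (nat_lit 5) (nat_lit 160) (nat_lit 5) (nat_lit 166) (nat_lit 5) (nat_lit 296) (nat_lit 293) (nat_lit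 272))) (XT.nd (nat_lit 94) (nat_lit 0) (nat_lit 0) (XT.lf (nat_lit 0) (nat_lit 215067389) (nat_lit 504) (nat_lit 3327103162) (nat_lit 588) (nat_lit 3225364515) (nat_lit 154) (nat_lit 5) (nat_lit 160) (nat_lit 5) (nat_lit 161) (nat_lit 5) (nat_lit 297) (nat_lit 293) (nat_lit 271)) (XT.lf (nat_lit 0) (nat_lit 1946342167) (nat_lit 504) (nat_lit 692403849) (nat_lit 588) (nat_lit 4173685859) (nat_lit 154) (nat_lit 5) (nat_lit 160) (nat_lit 5) (nat_lit 161) (nat_lit 5) (nat_lit 298) (nat_lit 293) (nat_lit 270)))) (XT.nd (nat_lit 188) (nat_lit 504) (nat_lit 0) (XT.nd (nat_lit 94) (nat_lit 0) (nat_lit 0) (XT.lf (nat_lit 84) (nat_lit 2026485494) (nat_lit 0) (nat_lit 1658051061) (nat_lit 588) (nat_lit 3176139939) (nat_lit 155) (nat_lit 5) (nat_lit 154) (nat_lit 5) (nat_lit 161) (nat_lit 5) (nat_lit 299) (nat_lit 293) (nat_lit 269)) (XT.lf (nat_lit 84) (nat_lit 4806412094) (nat_lit 0) (nat_lit 612211143)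 (nat_lit 588) (nat_lit 1494082729) (nat_lit 155) (nat_lit 5) (nat_lit 154) (nat_lit 5) (nat_lit 161) (nat_lit 5) (nat_lit 300) (nat_lit 293) (nat_lit 268))) (XT.nd (nat_lit 94) (nat_lit 0) (nat_lit 0) (XT.lf (nat_lit 0) (nat_lit 182615414) (nat_lit 588) (nat_lit 6294604474) (nat_lit 672) (nat_lit 491149645) (nat_lit 148) (nat_lit 5) (nat_lit 155) (nat_lit 5) (nat_lit 156) (nat_lit 5) (nat_lit 301) (nat_lit 293) (nat_lit 267)) (XT.nd (nat_lit 94) (nat_lit 0) (nat_lit 0) (XT.lf (nat_lit 0) (nat_lit 1846156312) (nat_lit 588) (nat_lit 3503008472) (nat_lit 672) (nat_lit 1677625763) (nat_lit 148) (nat_lit 5) (nat_lit 155) (nat_lit 5) (nat_lit 156) (nat_lit 5) (nat_lit 302) (nat_lit 293) (nat_lit 266)) (XT.lf (nat_lit 0) (nat_lit 3500577354) (nat_lit 588) (nat_lit 664467755) (nat_lit 672) (nat_lit 2924293902) (nat_lit 148) (nat_lit 5) (nat_lit 155) (nat_lit 5) (nat_lit 156) (nat_lit 5) (nat_lit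 303) (nat_lit 293) (nat_lit 265)))))) (XT.nd (nat_lit 470) (nat_lit 2268) (nat_lit 0) (XT.nd (nat_lit 188) (nat_lit 672) (nat_lit 0) (XT.nd (nat_lit 94) (nat_lit 0) (nat_lit 0) (XT.lf (nat_lit 84) (nat_lit 2269386575) (nat_lit 0) (nat_lit 2900546654) (nat_lit 672) (nat_lit 1985442108) (nat_lit 149) (nat_lit 5) (nat_lit 148) (nat_lit 5) (nat_lit 156) (nat_lit 5) (nat_lit 304) (nat_lit 293) (nat_lit 264)) (XT.lf (nat_lit 84) (nat_lit 5270261335) (nat_lit 0) (nat_lit 1570241492) (nat_lit 672) (nat_lit 384931842) (nat_lit 149) (nat_lit 5) (nat_lit 148) (nat_lit 5) (nat_lit 156) (nat_lit 5) (nat_lit 305) (nat_lit 293) (nat_lit 263))) (XT.nd (nat_lit 94) (nat_lit 0) (nat_lit 84) (XT.lf (nat_lit 84) (nat_lit 1036404405) (nat_lit 0) (nat_lit 156877242) (nat_lit 756) (nat_lit 6105819204) (nat_lit 141) (nat_lit 5) (nat_lit 140) (nat_lit 5) (nat_lit 149) (nat_lit 5) (nat_lit 306) (nat_lit 293) (nat_lit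 262)) (XT.nd (nat_lit 94) (nat_lit 0) (nat_lit 0) (XT.lf (nat_lit 0) (nat_lit 2790736341) (nat_lit 672) (nat_lit 3269589576) (nat_lit 84) (nat_lit 1315648470) (nat_lit 141) (nat_lit 5) (nat_lit 149) (nat_lit 5) (nat_lit 142) (nat_lit 5) (nat_lit 307) (nat_lit 293) (nat_lit 261)) (XT.lf (nat_lit 0) (nat_lit 4385773115) (nat_lit 672) (nat_lit 224385668) (nat_lit 84) (nat_lit 2847044536) (nat_lit 141) (nat_lit 5) (nat_lit 149) (nat_lit 5) (nat_lit 142) (nat_lit 5) (nat_lit 308) (nat_lit 293) (nat_lit 260))))) (XT.nd (nat_lit 188) (nat_lit 1680) (nat_lit 0) (XT.nd (nat_lit 94) (nat_lit 0) (nat_lit 0) (XT.lf (nat_lit 0) (nat_lit 2936473361) (nat_lit 672) (nat_lit 3070979287) (nat_lit 756) (nat_lit 1534555924) (nat_lit 133) (nat_lit 5) (nat_lit 141) (nat_lit 5) (nat_lit 142) (nat_lit 5) (nat_lit 309) (nat_lit 293) (nat_lit 259)) (XT.lf (nat_lit 0) (nat_lit 6162550087) (nat_lit 672) (nat_lit 1468451999)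 (nat_lit 756) (nat_lit 281923) (nat_lit 133) (nat_lit 5) (nat_lit 141) (nat_lit 5) (nat_lit 142) (nat_lit 5) (nat_lit 310) (nat_lit 293) (nat_lit 258))) (XT.nd (nat_lit 94) (nat_lit 840) (nat_lit 0) (XT.lf (nat_lit 0) (nat_lit 1519257767) (nat_lit 840) (nat_lit 5979386425) (nat_lit 84) (nat_lit 225460389) (nat_lit 123) (nat_lit 5) (nat_lit 133) (nat_lit 5) (nat_lit 124) (nat_lit 5) (nat_lit 311) (nat_lit 293) (nat_lit 257)) (XT.nd (nat_lit 94) (nat_lit 840) (nat_lit 0) (XT.lf (nat_lit 0) (nat_lit 3067606405) (nat_lit 840) (nat_lit 2784888861) (nat_lit 84) (nat_lit 1968185186) (nat_lit 123) (nat_lit 5) (nat_lit 133) (nat_lit 5) (nat_lit 124) (nat_lit 5) (nat_lit 312) (nat_lit 293) (nat_lit 256)) (XT.lf (nat_lit 0) (nat_lit 480188047) (nat_lit 840) (nat_lit 4141199452) (nat_lit 924) (nat_lit 3300483815) (nat_lit 113) (nat_lit 5) (nat_lit 123) (nat_lit 5) (nat_lit 124) (nat_lit 5) (nat_lit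 313) (nat_lit 293) (nat_lit 255))))))) (XT.nd (nat_lit 846) (nat_lit 1932) (nat_lit 0) (XT.nd (nat_lit 376) (nat_lit 1680) (nat_lit 0) (XT.nd (nat_lit 188) (nat_lit 1008) (nat_lit 0) (XT.nd (nat_lit 94) (nat_lit 0) (nat_lit 0) (XT.lf (nat_lit 0) (nat_lit 3867781702) (nat_lit 840) (nat_lit 2338341494) (nat_lit 924) (nat_lit 1820902003) (nat_lit 113) (nat_lit 5) (nat_lit 123) (nat_lit 5) (nat_lit 124) (nat_lit 5) (nat_lit 314) (nat_lit 293) (nat_lit 254)) (XT.lf (nat_lit 0) (nat_lit 7323786668) (nat_lit 840) (nat_lit 471309468) (nat_lit 924) (nat_lit 342018015) (nat_lit 113) (nat_lit 5) (nat_lit 123) (nat_lit 5) (nat_lit 124) (nat_lit 5) (nat_lit 315) (nat_lit 293) (nat_lit 253))) (XT.nd (nat_lit 94) (nat_lit 0) (nat_lit 0) (XT.lf (nat_lit 0) (nat_lit 1155710747) (nat_lit 1008) (nat_lit 5624850330) (nat_lit 84) (nat_lit 1470056305) (nat_lit 101) (nat_lit 5) (nat_lit 113) (nat_lit 5) (nat_lit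 102) (nat_lit 5) (nat_lit 316) (nat_lit 293) (nat_lit 252)) (XT.lf (nat_lit 0) (nat_lit 2662946139) (nat_lit 1008) (nat_lit 2225044571) (nat_lit 84) (nat_lit 3480723326) (nat_lit 101) (nat_lit 5) (nat_lit 113) (nat_lit 5) (nat_lit 102) (nat_lit 5) (nat_lit 317) (nat_lit 293) (nat_lit 251)))) (XT.nd (nat_lit 188) (nat_lit 672) (nat_lit 0) (XT.nd (nat_lit 94) (nat_lit 0) (nat_lit 0) (XT.lf (nat_lit 0) (nat_lit 1268883374) (nat_lit 1008) (nat_lit 2918694192) (nat_lit 1092) (nat_lit 4304054399) (nat_lit 89) (nat_lit 5) (nat_lit 101) (nat_lit 5) (nat_lit 102) (nat_lit 5) (nat_lit 318) (nat_lit 293) (nat_lit 250)) (XT.lf (nat_lit 0) (nat_lit 4881828839) (nat_lit 1008) (nat_lit 859851482) (nat_lit 1092) (nat_lit 2877475144) (nat_lit 89) (nat_lit 5) (nat_lit 101) (nat_lit 5) (nat_lit 102) (nat_lit 5) (nat_lit 319) (nat_lit 293) (nat_lit 249))) (XT.nd (nat_lit 94) (nat_lit 672) (nat_lit 0) (XT.lf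 (nat_lit 0) (nat_lit 7316747504) (nat_lit 1092) (nat_lit 193264832) (nat_lit 84) (nat_lit 1241699684) (nat_lit 89) (nat_lit 5) (nat_lit 102) (nat_lit 5) (nat_lit 90) (nat_lit 5) (nat_lit 320) (nat_lit 293) (nat_lit 248)) (XT.nd (nat_lit 94) (nat_lit 0) (nat_lit 0) (XT.lf (nat_lit 0) (nat_lit 55869893) (nat_lit 672) (nat_lit 5402684196) (nat_lit 84) (nat_lit 3429885477) (nat_lit 81) (nat_lit 5) (nat_lit 89) (nat_lit 5) (nat_lit 82) (nat_lit 5) (nat_lit 321) (nat_lit 293) (nat_lit 247)) (XT.lf (nat_lit 0) (nat_lit 1526809334) (nat_lit 672) (nat_lit 1797531566) (nat_lit 84) (nat_lit 5705950758) (nat_lit 81) (nat_lit 5) (nat_lit 89) (nat_lit 5) (nat_lit 82) (nat_lit 5) (nat_lit 322) (nat_lit 293) (nat_lit 246)))))) (XT.nd (nat_lit 470) (nat_lit 924) (nat_lit 0) (XT.nd (nat_lit 188) (nat_lit 504) (nat_lit 0) (XT.nd (nat_lit 94) (nat_lit 0) (nat_lit 0) (XT.lf (nat_lit 0) (nat_lit 1922802054) (nat_lit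 504) (nat_lit 1102431949) (nat_lit 588) (nat_lit 6152077768) (nat_lit 75) (nat_lit 5) (nat_lit 81) (nat_lit 5) (nat_lit 82) (nat_lit 5) (nat_lit 323) (nat_lit 293) (nat_lit 245)) (XT.lf (nat_lit 0) (nat_lit 4564450382) (nat_lit 588) (nat_lit 3580023163) (nat_lit 84) (nat_lit 1184794194) (nat_lit 75) (nat_lit 5) (nat_lit 82) (nat_lit 5) (nat_lit 76) (nat_lit 5) (nat_lit 324) (nat_lit 293) (nat_lit 244))) (XT.nd (nat_lit 94) (nat_lit 0) (nat_lit 0) (XT.lf (nat_lit 0) (nat_lit 165209991) (nat_lit 504) (nat_lit 5963778678) (nat_lit 588) (nat_lit 3357836571) (nat_lit 69) (nat_lit 5) (nat_lit 75) (nat_lit 5) (nat_lit 76) (nat_lit 5) (nat_lit 325) (nat_lit 293) (nat_lit 243)) (XT.nd (nat_lit 94) (nat_lit 0) (nat_lit 0) (XT.lf (nat_lit 0) (nat_lit 4067580701) (nat_lit 504) (nat_lit 3677222882) (nat_lit 588) (nat_lit 1904568165) (nat_lit 69) (nat_lit 5) (nat_lit 75) (nat_lit 5) (nat_lit 76) (nat_lit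 5) (nat_lit 326) (nat_lit 293) (nat_lit 242)) (XT.lf (nat_lit 0) (nat_lit 8057113768) (nat_lit 504) (nat_lit 1320042946) (nat_lit 588) (nat_lit 441025637) (nat_lit 69) (nat_lit 5) (nat_lit 75) (nat_lit 5) (nat_lit 76) (nat_lit 5) (nat_lit 327) (nat_lit 293) (nat_lit 241))))) (XT.nd (nat_lit 188) (nat_lit 420) (nat_lit 0) (XT.nd (nat_lit 94) (nat_lit 0) (nat_lit 0) (XT.lf (nat_lit 0) (nat_lit 1046259423) (nat_lit 504) (nat_lit 7826032540) (nat_lit 84) (nat_lit 1119783265) (nat_lit 63) (nat_lit 5) (nat_lit 69) (nat_lit 5) (nat_lit 64) (nat_lit 5) (nat_lit 328) (nat_lit 293) (nat_lit 240)) (XT.lf (nat_lit 0) (nat_lit 2570162424) (nat_lit 504) (nat_lit 3971231715) (nat_lit 84) (nat_lit 3630003790) (nat_lit 63) (nat_lit 5) (nat_lit 69) (nat_lit 5) (nat_lit 64) (nat_lit 5) (nat_lit 329) (nat_lit 293) (nat_lit 239))) (XT.nd (nat_lit 94) (nat_lit 420) (nat_lit 0) (XT.lf (nat_lit 0) (nat_lit 4109882909)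 (nat_lit 504) (nat_lit 30366903) (nat_lit 84) (nat_lit 6217167721) (nat_lit 63) (nat_lit 5) (nat_lit 69) (nat_lit 5) (nat_lit 64) (nat_lit 5) (nat_lit 330) (nat_lit 293) (nat_lit 238)) (XT.nd (nat_lit 94) (nat_lit 0) (nat_lit 0) (XT.lf (nat_lit 0) (nat_lit 4082488235) (nat_lit 420) (nat_lit 1624866612) (nat_lit 504) (nat_lit 4841697119) (nat_lit 58) (nat_lit 5) (nat_lit 63) (nat_lit 5) (nat_lit 64) (nat_lit 5) (nat_lit 331) (nat_lit 293) (nat_lit 237)) (XT.lf (nat_lit 0) (nat_lit 7334373484) (nat_lit 504) (nat_lit 2465901957) (nat_lit 84) (nat_lit 947124917) (nat_lit 58) (nat_lit 5) (nat_lit 64) (nat_lit 5) (nat_lit 59) (nat_lit 5) (nat_lit 332) (nat_lit 293) (nat_lit 236))))))))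
noncomputable def xc58 : XT := (XT.nd (nat_lit 1692) (nat_lit 1008) (nat_lit 0) (XT.nd (nat_lit 846) (nat_lit 924) (nat_lit 0) (XT.nd (nat_lit 376) (nat_lit 672) (nat_lit 0) (XT.nd (nat_lit 188) (nat_lit 504) (nat_lit 0) (XT.nd (nat_lit 94) (nat_lit 0) (nat_lit 0) (XT.lf (nat_lit 0) (nat_lit 1643104146) (nat_lit 336) (nat_lit 7372640305) (nat_lit 420) (nat_lit 1936181178) (nat_lit 54) (nat_lit 5) (nat_lit 58) (nat_lit 5) (nat_lit 59) (nat_lit 5) (nat_lit 333) (nat_lit 293) (nat_lit 235)) (XT.lf (nat_lit 0) (nat_lit 5899928374) (nat_lit 336) (nat_lit 4846601151) (nat_lit 420) (nat_lit 416490563) (nat_lit 54) (nat_lit 5) (nat_lit 58) (nat_lit 5) (nat_lit 59) (nat_lit 5) (nat_lit 334) (nat_lit 293) (nat_lit 234))) (XT.nd (nat_lit 94) (nat_lit 420) (nat_lit 0) (XT.lf (nat_lit 0) (nat_lit 1099122312) (nat_lit 420) (nat_lit 1134947509) (nat_lit 84) (nat_lit 9147239635) (nat_lit 53) (nat_lit 5)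 (nat_lit 58) (nat_lit 5) (nat_lit 54) (nat_lit 5) (nat_lit 335) (nat_lit 293) (nat_lit 233)) (XT.lf (nat_lit 0) (nat_lit 2662030180) (nat_lit 504) (nat_lit 8461398763) (nat_lit 84) (nat_lit 482659221) (nat_lit 48) (nat_lit 5) (nat_lit 54) (nat_lit 5) (nat_lit 49) (nat_lit 5) (nat_lit 336) (nat_lit 293) (nat_lit 232)))) (XT.nd (nat_lit 188) (nat_lit 672) (nat_lit 0) (XT.nd (nat_lit 94) (nat_lit 0) (nat_lit 0) (XT.lf (nat_lit 0) (nat_lit 4281515014) (nat_lit 504) (nat_lit 4310632758) (nat_lit 84) (nat_lit 3245563591) (nat_lit 48) (nat_lit 5) (nat_lit 54) (nat_lit 5) (nat_lit 49) (nat_lit 5) (nat_lit 337) (nat_lit 293) (nat_lit 231)) (XT.lf (nat_lit 0) (nat_lit 5925316250) (nat_lit 504) (nat_lit 61503282) (nat_lit 84) (nat_lit 6090622288) (nat_lit 48) (nat_lit 5) (nat_lit 54) (nat_lit 5) (nat_lit 49) (nat_lit 5) (nat_lit 338) (nat_lit 293) (nat_lit 230))) (XT.nd (nat_lit 94) (nat_lit 336) (nat_lit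 0) (XT.lf (nat_lit 0) (nat_lit 4378160474) (nat_lit 336) (nat_lit 3260237504) (nat_lit 420) (nat_lit 4685758624) (nat_lit 44) (nat_lit 5) (nat_lit 48) (nat_lit 5) (nat_lit 49) (nat_lit 5) (nat_lit 339) (nat_lit 293) (nat_lit 229)) (XT.nd (nat_lit 94) (nat_lit 336) (nat_lit 0) (XT.lf (nat_lit 0) (nat_lit 8927656373) (nat_lit 336) (nat_lit 452927889) (nat_lit 420) (nat_lit 3198796366) (nat_lit 44) (nat_lit 5) (nat_lit 48) (nat_lit 5) (nat_lit 49) (nat_lit 5) (nat_lit 340) (nat_lit 293) (nat_lit 228)) (XT.lf (nat_lit 0) (nat_lit 737267410) (nat_lit 336) (nat_lit 10447098885) (nat_lit 420) (nat_lit 1658028612) (nat_lit 40) (nat_lit 5) (nat_lit 44) (nat_lit 5) (nat_lit 45) (nat_lit 5) (nat_lit 341) (nat_lit 293) (nat_lit 227)))))) (XT.nd (nat_lit 376) (nat_lit 588) (nat_lit 0) (XT.nd (nat_lit 188) (nat_lit 252) (nat_lit 0) (XT.nd (nat_lit 94) (nat_lit 84) (nat_lit 0) (XT.lf (nat_lit 0) (nat_lit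 5306260941) (nat_lit 336) (nat_lit 7756996576) (nat_lit 420) (nat_lit 49820281) (nat_lit 40) (nat_lit 5) (nat_lit 44) (nat_lit 5) (nat_lit 45) (nat_lit 5) (nat_lit 342) (nat_lit 293) (nat_lit 226)) (XT.lf (nat_lit 0) (nat_lit 1552698970) (nat_lit 420) (nat_lit 3419671585) (nat_lit 84) (nat_lit 8420107702) (nat_lit 39) (nat_lit 5) (nat_lit 44) (nat_lit 5) (nat_lit 40) (nat_lit 5) (nat_lit 343) (nat_lit 293) (nat_lit 225))) (XT.nd (nat_lit 94) (nat_lit 0) (nat_lit 0) (XT.lf (nat_lit 0) (nat_lit 1097473970) (nat_lit 252) (nat_lit 2094829306) (nat_lit 336) (nat_lit 10488679844) (nat_lit 36) (nat_lit 5) (nat_lit 39) (nat_lit 5) (nat_lit 40) (nat_lit 5) (nat_lit 344) (nat_lit 293) (nat_lit 224)) (XT.lf (nat_lit 0) (nat_lit 4905350446) (nat_lit 336) (nat_lit 8187245625) (nat_lit 84) (nat_lit 885231957) (nat_lit 36) (nat_lit 5) (nat_lit 40) (nat_lit 5) (nat_lit 37) (nat_lit 5) (nat_lit 345) (nat_lit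 293) (nat_lit 223)))) (XT.nd (nat_lit 188) (nat_lit 252) (nat_lit 0) (XT.nd (nat_lit 94) (nat_lit 336) (nat_lit 0) (XT.lf (nat_lit 0) (nat_lit 6671497756) (nat_lit 336) (nat_lit 3703331848) (nat_lit 84) (nat_lit 3909140189) (nat_lit 36) (nat_lit 5) (nat_lit 40) (nat_lit 5) (nat_lit 37) (nat_lit 5) (nat_lit 346) (nat_lit 293) (nat_lit 222)) (XT.lf (nat_lit 0) (nat_lit 911558494) (nat_lit 336) (nat_lit 7569094753) (nat_lit 420) (nat_lit 6119404408) (nat_lit 32) (nat_lit 5) (nat_lit 36) (nat_lit 5) (nat_lit 37) (nat_lit 5) (nat_lit 347) (nat_lit 293) (nat_lit 221))) (XT.nd (nat_lit 94) (nat_lit 252) (nat_lit 0) (XT.lf (nat_lit 0) (nat_lit 5721895676) (nat_lit 336) (nat_lit 4642232734) (nat_lit 420) (nat_lit 4561339453) (nat_lit 32) (nat_lit 5) (nat_lit 36) (nat_lit 5) (nat_lit 37) (nat_lit 5) (nat_lit 348) (nat_lit 293) (nat_lit 220)) (XT.nd (nat_lit 94) (nat_lit 252) (nat_lit 0) (XT.lf (nat_lit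 0) (nat_lit 10656015337) (nat_lit 336) (nat_lit 1630170594) (nat_lit 420) (nat_lit 2975480082) (nat_lit 32) (nat_lit 5) (nat_lit 36) (nat_lit 5) (nat_lit 37) (nat_lit 5) (nat_lit 349) (nat_lit 293) (nat_lit 219)) (XT.lf (nat_lit 0) (nat_lit 96922301) (nat_lit 252) (nat_lit 14167238129) (nat_lit 336) (nat_lit 1344323210) (nat_lit 29) (nat_lit 5) (nat_lit 32) (nat_lit 5) (nat_lit 33) (nat_lit 5) (nat_lit 350) (nat_lit 293) (nat_lit 218))))))) (XT.nd (nat_lit 846) (nat_lit 504) (nat_lit 0) (XT.nd (nat_lit 376) (nat_lit 168) (nat_lit 0) (XT.nd (nat_lit 188) (nat_lit 252) (nat_lit 0) (XT.nd (nat_lit 94) (nat_lit 0) (nat_lit 0) (XT.lf (nat_lit 0) (nat_lit 376635200) (nat_lit 336) (nat_lit 10967581949) (nat_lit 84) (nat_lit 4620383377) (nat_lit 28) (nat_lit 5) (nat_lit 32) (nat_lit 5) (nat_lit 29) (nat_lit 5) (nat_lit 351) (nat_lit 293) (nat_lit 217)) (XT.lf (nat_lit 0) (nat_lit 2104391492) (nat_lit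 336) (nat_lit 6321144616) (nat_lit 84) (nat_lit 7906448481) (nat_lit 28) (nat_lit 5) (nat_lit 32) (nat_lit 5) (nat_lit 29) (nat_lit 5) (nat_lit 352) (nat_lit 293) (nat_lit 216))) (XT.nd (nat_lit 94) (nat_lit 252) (nat_lit 0) (XT.lf (nat_lit 0) (nat_lit 3867641231) (nat_lit 336) (nat_lit 1554582524) (nat_lit 84) (nat_lit 11289167927) (nat_lit 28) (nat_lit 5) (nat_lit 32) (nat_lit 5) (nat_lit 29) (nat_lit 5) (nat_lit 353) (nat_lit 293) (nat_lit 215)) (XT.lf (nat_lit 0) (nat_lit 3405153518) (nat_lit 252) (nat_lit 2296653977) (nat_lit 336) (nat_lit 11400320792) (nat_lit 25) (nat_lit 5) (nat_lit 28) (nat_lit 5) (nat_lit 29) (nat_lit 5) (nat_lit 354) (nat_lit 293) (nat_lit 214)))) (XT.nd (nat_lit 188) (nat_lit 168) (nat_lit 0) (XT.nd (nat_lit 94) (nat_lit 0) (nat_lit 0) (XT.lf (nat_lit 0) (nat_lit 7601128125) (nat_lit 336) (nat_lit 8985734699) (nat_lit 84) (nat_lit 917927411) (nat_lit 25) (nat_lit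 5) (nat_lit 29) (nat_lit 5) (nat_lit 26) (nat_lit 5) (nat_lit 355) (nat_lit 293) (nat_lit 213)) (XT.lf (nat_lit 0) (nat_lit 9566055144) (nat_lit 336) (nat_lit 4174736342) (nat_lit 84) (nat_lit 4179002234) (nat_lit 25) (nat_lit 5) (nat_lit 29) (nat_lit 5) (nat_lit 26) (nat_lit 5) (nat_lit 356) (nat_lit 293) (nat_lit 212))) (XT.nd (nat_lit 94) (nat_lit 0) (nat_lit 0) (XT.lf (nat_lit 0) (nat_lit 778982506) (nat_lit 168) (nat_lit 10804382075) (nat_lit 252) (nat_lit 6764627708) (nat_lit 23) (nat_lit 5) (nat_lit 25) (nat_lit 5) (nat_lit 26) (nat_lit 5) (nat_lit 357) (nat_lit 293) (nat_lit 211)) (XT.nd (nat_lit 94) (nat_lit 0) (nat_lit 0) (XT.lf (nat_lit 0) (nat_lit 5952877535) (nat_lit 168) (nat_lit 7737922515) (nat_lit 252) (nat_lit 5097873254) (nat_lit 23) (nat_lit 5) (nat_lit 25) (nat_lit 5) (nat_lit 26) (nat_lit 5) (nat_lit 358) (nat_lit 293) (nat_lit 210)) (XT.lf (nat_lit 0) (nat_lit 11265930216)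 (nat_lit 168) (nat_lit 4582130230) (nat_lit 252) (nat_lit 3395497310) (nat_lit 23) (nat_lit 5) (nat_lit 25) (nat_lit 5) (nat_lit 26) (nat_lit 5) (nat_lit 359) (nat_lit 293) (nat_lit 209)))))) (XT.nd (nat_lit 470) (nat_lit 168) (nat_lit 0) (XT.nd (nat_lit 188) (nat_lit 0) (nat_lit 0) (XT.nd (nat_lit 94) (nat_lit 336) (nat_lit 0) (XT.lf (nat_lit 0) (nat_lit 16723092869) (nat_lit 168) (nat_lit 1334063692) (nat_lit 252) (nat_lit 1655913085) (nat_lit 23) (nat_lit 5) (nat_lit 25) (nat_lit 5) (nat_lit 26) (nat_lit 5) (nat_lit 360) (nat_lit 293) (nat_lit 208)) (XT.lf (nat_lit 0) (nat_lit 161768682) (nat_lit 336) (nat_lit 18042706235) (nat_lit 84) (nat_lit 1991840206) (nat_lit 19) (nat_lit 5) (nat_lit 23) (nat_lit 5) (nat_lit 20) (nat_lit 5) (nat_lit 361) (nat_lit 293) (nat_lit 207))) (XT.nd (nat_lit 94) (nat_lit 0) (nat_lit 0) (XT.lf (nat_lit 0) (nat_lit 2031970689) (nat_lit 336) (nat_lit 13225021861)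 (nat_lit 84) (nat_lit 5436130558) (nat_lit 19) (nat_lit 5) (nat_lit 23) (nat_lit 5) (nat_lit 20) (nat_lit 5) (nat_lit 362) (nat_lit 293) (nat_lit 206)) (XT.nd (nat_lit 94) (nat_lit 0) (nat_lit 0) (XT.lf (nat_lit 0) (nat_lit 3945984612) (nat_lit 336) (nat_lit 8277950627) (nat_lit 84) (nat_lit 8981888921) (nat_lit 19) (nat_lit 5) (nat_lit 23) (nat_lit 5) (nat_lit 20) (nat_lit 5) (nat_lit 363) (nat_lit 293) (nat_lit 205)) (XT.lf (nat_lit 0) (nat_lit 5905594511) (nat_lit 336) (nat_lit 3196881345) (nat_lit 84) (nat_lit 12632420315) (nat_lit 19) (nat_lit 5) (nat_lit 23) (nat_lit 5) (nat_lit 20) (nat_lit 5) (nat_lit 364) (nat_lit 293) (nat_lit 204))))) (XT.nd (nat_lit 188) (nat_lit 0) (nat_lit 0) (XT.nd (nat_lit 94) (nat_lit 0) (nat_lit 0) (XT.lf (nat_lit 0) (nat_lit 2064517500) (nat_lit 168) (nat_lit 5868589718) (nat_lit 252) (nat_lit 14347090184) (nat_lit 17) (nat_lit 5) (nat_lit 19) (nat_lit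 5) (nat_lit 20) (nat_lit 5) (nat_lit 365) (nat_lit 293) (nat_lit 203)) (XT.lf (nat_lit 0) (nat_lit 7538203024) (nat_lit 168) (nat_lit 2505529572) (nat_lit 252) (nat_lit 12798090615) (nat_lit 17) (nat_lit 5) (nat_lit 19) (nat_lit 5) (nat_lit 20) (nat_lit 5) (nat_lit 366) (nat_lit 293) (nat_lit 202))) (XT.nd (nat_lit 94) (nat_lit 0) (nat_lit 0) (XT.lf (nat_lit 0) (nat_lit 12216560724) (nat_lit 252) (nat_lit 10267245893) (nat_lit 84) (nat_lit 937199671) (nat_lit 17) (nat_lit 5) (nat_lit 20) (nat_lit 5) (nat_lit 18) (nat_lit 5) (nat_lit 367) (nat_lit 293) (nat_lit 201)) (XT.nd (nat_lit 47094) (nat_lit 0) (nat_lit 12012) (XT.lf (nat_lit 0) (nat_lit 14469988425) (nat_lit 252) (nat_lit 5118234112) (nat_lit 84) (nat_lit 4429556438) (nat_lit 17) (nat_lit 5) (nat_lit 20) (nat_lit 5) (nat_lit 18) (nat_lit 5) (nat_lit 368) (nat_lit 293) (nat_lit 200)) (XT.lf (nat_lit 0) (nat_lit 827568651) (nat_lit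 0) (nat_lit 827568651) (nat_lit 420) (nat_lit 1687842678) (nat_lit 160) (nat_lit 5) (nat_lit 160) (nat_lit 3) (nat_lit 165) (nat_lit 3) (nat_lit 294) (nat_lit 294) (nat_lit 273))))))))
noncomputable def xc59 : XT := (XT.nd (nat_lit 1786) (nat_lit 5460) (nat_lit 0) (XT.nd (nat_lit 846) (nat_lit 2016) (nat_lit 0) (XT.nd (nat_lit 376) (nat_lit 504) (nat_lit 0) (XT.nd (nat_lit 188) (nat_lit 0) (nat_lit 84) (XT.nd (nat_lit 94) (nat_lit 588) (nat_lit 0) (XT.lf (nat_lit 0) (nat_lit 4198808638) (nat_lit 0) (nat_lit 894127414) (nat_lit 420) (nat_lit 1629202041) (nat_lit 160) (nat_lit 5) (nat_lit 160) (nat_lit 3) (nat_lit 165) (nat_lit 3) (nat_lit 295) (nat_lit 294) (nat_lit 272)) (XT.lf (nat_lit 84) (nat_lit 23792938) (nat_lit 0) (nat_lit 73388078) (nat_lit 588) (nat_lit 6664937092) (nat_lit 154) (nat_lit 5) (nat_lit 153) (nat_lit 3) (nat_lit 160) (nat_lit 5) (nat_lit 296) (nat_lit 294) (nat_lit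 271))) (XT.nd (nat_lit 94) (nat_lit 0) (nat_lit 0) (XT.lf (nat_lit 0) (nat_lit 1808588234) (nat_lit 504) (nat_lit 4163252701) (nat_lit 588) (nat_lit 832576682) (nat_lit 154) (nat_lit 5) (nat_lit 160) (nat_lit 5) (nat_lit 161) (nat_lit 5) (nat_lit 297) (nat_lit 294) (nat_lit 270)) (XT.lf (nat_lit 0) (nat_lit 3506946767) (nat_lit 504) (nat_lit 1547418388) (nat_lit 588) (nat_lit 1796219189) (nat_lit 154) (nat_lit 5) (nat_lit 160) (nat_lit 5) (nat_lit 161) (nat_lit 5) (nat_lit 298) (nat_lit 294) (nat_lit 269)))) (XT.nd (nat_lit 188) (nat_lit 588) (nat_lit 0) (XT.nd (nat_lit 94) (nat_lit 0) (nat_lit 0) (XT.lf (nat_lit 84) (nat_lit 1135216094) (nat_lit 0) (nat_lit 4069157034) (nat_lit 588) (nat_lit 1695961655) (nat_lit 155) (nat_lit 5) (nat_lit 154) (nat_lit 5) (nat_lit 161) (nat_lit 5) (nat_lit 299) (nat_lit 294) (nat_lit 268)) (XT.lf (nat_lit 84) (nat_lit 3897030173) (nat_lit 0) (nat_lit 3010283398)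 (nat_lit 588) (nat_lit 46250951) (nat_lit 155) (nat_lit 5) (nat_lit 154) (nat_lit 5) (nat_lit 161) (nat_lit 5) (nat_lit 300) (nat_lit 294) (nat_lit 267))) (XT.nd (nat_lit 94) (nat_lit 0) (nat_lit 0) (XT.lf (nat_lit 0) (nat_lit 1558827669) (nat_lit 588) (nat_lit 317810506) (nat_lit 672) (nat_lit 5133681419) (nat_lit 147) (nat_lit 5) (nat_lit 154) (nat_lit 5) (nat_lit 155) (nat_lit 5) (nat_lit 301) (nat_lit 294) (nat_lit 266)) (XT.nd (nat_lit 94) (nat_lit 0) (nat_lit 84) (XT.lf (nat_lit 84) (nat_lit 2519821684) (nat_lit 0) (nat_lit 657318985) (nat_lit 672) (nat_lit 3893216194) (nat_lit 148) (nat_lit 5) (nat_lit 147) (nat_lit 5) (nat_lit 155) (nat_lit 5) (nat_lit 302) (nat_lit 294) (nat_lit 265)) (XT.lf (nat_lit 0) (nat_lit 4796057858) (nat_lit 588) (nat_lit 1724382802) (nat_lit 672) (nat_lit 613773037) (nat_lit 148) (nat_lit 5) (nat_lit 155) (nat_lit 5) (nat_lit 156) (nat_lit 5) (nat_lit 303)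 (nat_lit 294) (nat_lit 264)))))) (XT.nd (nat_lit 470) (nat_lit 1428) (nat_lit 0) (XT.nd (nat_lit 188) (nat_lit 0) (nat_lit 0) (XT.nd (nat_lit 94) (nat_lit 672) (nat_lit 0) (XT.lf (nat_lit 84) (nat_lit 1168959912) (nat_lit 0) (nat_lit 5257425747) (nat_lit 672) (nat_lit 775275738) (nat_lit 149) (nat_lit 5) (nat_lit 148) (nat_lit 5) (nat_lit 156) (nat_lit 5) (nat_lit 304) (nat_lit 294) (nat_lit 263)) (XT.lf (nat_lit 0) (nat_lit 780689126) (nat_lit 672) (nat_lit 3128990912) (nat_lit 756) (nat_lit 3362841962) (nat_lit 140) (nat_lit 5) (nat_lit 148) (nat_lit 5) (nat_lit 149) (nat_lit 5) (nat_lit 305) (nat_lit 294) (nat_lit 262))) (XT.nd (nat_lit 94) (nat_lit 0) (nat_lit 0) (XT.lf (nat_lit 0) (nat_lit 2313786532) (nat_lit 672) (nat_lit 180462570) (nat_lit 756) (nat_lit 4853162749) (nat_lit 140) (nat_lit 5) (nat_lit 148) (nat_lit 5) (nat_lit 149) (nat_lit 5) (nat_lit 306) (nat_lit 294) (nat_lit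 261)) (XT.nd (nat_lit 94) (nat_lit 0) (nat_lit 84) (XT.lf (nat_lit 84) (nat_lit 2881376011) (nat_lit 0) (nat_lit 988273159) (nat_lit 756) (nat_lit 3556103911) (nat_lit 141) (nat_lit 5) (nat_lit 140) (nat_lit 5) (nat_lit 149) (nat_lit 5) (nat_lit 307) (nat_lit 294) (nat_lit 260)) (XT.lf (nat_lit 0) (nat_lit 5429311714) (nat_lit 672) (nat_lit 1508034852) (nat_lit 84) (nat_lit 570905027) (nat_lit 141) (nat_lit 5) (nat_lit 149) (nat_lit 5) (nat_lit 142) (nat_lit 5) (nat_lit 308) (nat_lit 294) (nat_lit 259))))) (XT.nd (nat_lit 188) (nat_lit 756) (nat_lit 0) (XT.nd (nat_lit 94) (nat_lit 84) (nat_lit 0) (XT.lf (nat_lit 0) (nat_lit 1607953207) (nat_lit 672) (nat_lit 5405057367) (nat_lit 756) (nat_lit 581391450) (nat_lit 133) (nat_lit 5) (nat_lit 141) (nat_lit 5) (nat_lit 142) (nat_lit 5) (nat_lit 309) (nat_lit 294) (nat_lit 258)) (XT.lf (nat_lit 0) (nat_lit 909043148) (nat_lit 756) (nat_lit 2877685709)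 (nat_lit 84) (nat_lit 3897577277) (nat_lit 132) (nat_lit 5) (nat_lit 141) (nat_lit 5) (nat_lit 133) (nat_lit 5) (nat_lit 310) (nat_lit 294) (nat_lit 257))) (XT.nd (nat_lit 94) (nat_lit 0) (nat_lit 0) (XT.lf (nat_lit 0) (nat_lit 290748616) (nat_lit 756) (nat_lit 2097199016) (nat_lit 840) (nat_lit 5390591596) (nat_lit 123) (nat_lit 5) (nat_lit 132) (nat_lit 5) (nat_lit 133) (nat_lit 5) (nat_lit 311) (nat_lit 294) (nat_lit 256)) (XT.nd (nat_lit 94) (nat_lit 0) (nat_lit 0) (XT.lf (nat_lit 0) (nat_lit 3582168385) (nat_lit 756) (nat_lit 313125928) (nat_lit 840) (nat_lit 3981240335) (nat_lit 123) (nat_lit 5) (nat_lit 132) (nat_lit 5) (nat_lit 133) (nat_lit 5) (nat_lit 312) (nat_lit 294) (nat_lit 255)) (XT.lf (nat_lit 0) (nat_lit 5418602600) (nat_lit 840) (nat_lit 1054064850) (nat_lit 84) (nat_lit 1506146743) (nat_lit 123) (nat_lit 5) (nat_lit 133) (nat_lit 5) (nat_lit 124) (nat_lit 5) (nat_lit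 313) (nat_lit 294) (nat_lit 254))))))) (XT.nd (nat_lit 846) (nat_lit 1932) (nat_lit 0) (XT.nd (nat_lit 376) (nat_lit 1680) (nat_lit 0) (XT.nd (nat_lit 188) (nat_lit 924) (nat_lit 0) (XT.nd (nat_lit 94) (nat_lit 84) (nat_lit 0) (XT.lf (nat_lit 0) (nat_lit 2293832374) (nat_lit 840) (nat_lit 4676732264) (nat_lit 924) (nat_lit 1114559118) (nat_lit 113) (nat_lit 5) (nat_lit 123) (nat_lit 5) (nat_lit 124) (nat_lit 5) (nat_lit 314) (nat_lit 294) (nat_lit 253)) (XT.lf (nat_lit 0) (nat_lit 335194883) (nat_lit 924) (nat_lit 2467049766) (nat_lit 84) (nat_lit 5393662919) (nat_lit 112) (nat_lit 5) (nat_lit 123) (nat_lit 5) (nat_lit 113) (nat_lit 5) (nat_lit 315) (nat_lit 294) (nat_lit 252))) (XT.nd (nat_lit 94) (nat_lit 0) (nat_lit 0) (XT.lf (nat_lit 0) (nat_lit 932045190) (nat_lit 924) (nat_lit 841015923) (nat_lit 1008) (nat_lit 6538014097) (nat_lit 101) (nat_lit 5) (nat_lit 112) (nat_lit 5) (nat_lit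 113) (nat_lit 5) (nat_lit 316) (nat_lit 294) (nat_lit 251)) (XT.lf (nat_lit 0) (nat_lit 3251315542) (nat_lit 1008) (nat_lit 3989018633) (nat_lit 84) (nat_lit 1189859735) (nat_lit 101) (nat_lit 5) (nat_lit 113) (nat_lit 5) (nat_lit 102) (nat_lit 5) (nat_lit 317) (nat_lit 294) (nat_lit 250)))) (XT.nd (nat_lit 188) (nat_lit 672) (nat_lit 0) (XT.nd (nat_lit 94) (nat_lit 1008) (nat_lit 0) (XT.lf (nat_lit 0) (nat_lit 4743342049) (nat_lit 1008) (nat_lit 538247860) (nat_lit 84) (nat_lit 3272652601) (nat_lit 101) (nat_lit 5) (nat_lit 113) (nat_lit 5) (nat_lit 102) (nat_lit 5) (nat_lit 318) (nat_lit 294) (nat_lit 249)) (XT.lf (nat_lit 0) (nat_lit 3046216225) (nat_lit 1008) (nat_lit 3226190994) (nat_lit 1092) (nat_lit 2410251268) (nat_lit 89) (nat_lit 5) (nat_lit 101) (nat_lit 5) (nat_lit 102) (nat_lit 5) (nat_lit 319) (nat_lit 294) (nat_lit 248))) (XT.nd (nat_lit 94) (nat_lit 672) (nat_lit 0) (XT.lf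 (nat_lit 0) (nat_lit 6718905074) (nat_lit 1008) (nat_lit 1096998907) (nat_lit 1092) (nat_lit 1000402560) (nat_lit 89) (nat_lit 5) (nat_lit 101) (nat_lit 5) (nat_lit 102) (nat_lit 5) (nat_lit 320) (nat_lit 294) (nat_lit 247)) (XT.nd (nat_lit 94) (nat_lit 0) (nat_lit 0) (XT.lf (nat_lit 0) (nat_lit 432441215) (nat_lit 672) (nat_lit 7422326295) (nat_lit 84) (nat_lit 1099765362) (nat_lit 81) (nat_lit 5) (nat_lit 89) (nat_lit 5) (nat_lit 82) (nat_lit 5) (nat_lit 321) (nat_lit 294) (nat_lit 246)) (XT.lf (nat_lit 0) (nat_lit 1885070302) (nat_lit 672) (nat_lit 3834563580) (nat_lit 84) (nat_lit 3377421645) (nat_lit 81) (nat_lit 5) (nat_lit 89) (nat_lit 5) (nat_lit 82) (nat_lit 5) (nat_lit 322) (nat_lit 294) (nat_lit 245)))))) (XT.nd (nat_lit 470) (nat_lit 924) (nat_lit 0) (XT.nd (nat_lit 188) (nat_lit 504) (nat_lit 0) (XT.nd (nat_lit 94) (nat_lit 504) (nat_lit 0) (XT.lf (nat_lit 0) (nat_lit 3346660737)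 (nat_lit 672) (nat_lit 169837172) (nat_lit 84) (nat_lit 5728819439) (nat_lit 81) (nat_lit 5) (nat_lit 89) (nat_lit 5) (nat_lit 82) (nat_lit 5) (nat_lit 323) (nat_lit 294) (nat_lit 244)) (XT.lf (nat_lit 0) (nat_lit 3648783696) (nat_lit 504) (nat_lit 1205987563) (nat_lit 588) (nat_lit 4543563183) (nat_lit 75) (nat_lit 5) (nat_lit 81) (nat_lit 5) (nat_lit 82) (nat_lit 5) (nat_lit 324) (nat_lit 294) (nat_lit 243))) (XT.nd (nat_lit 94) (nat_lit 504) (nat_lit 0) (XT.lf (nat_lit 0) (nat_lit 6388845280) (nat_lit 588) (nat_lit 2012500455) (nat_lit 84) (nat_lit 1155584533) (nat_lit 75) (nat_lit 5) (nat_lit 82) (nat_lit 5) (nat_lit 76) (nat_lit 5) (nat_lit 325) (nat_lit 294) (nat_lit 242)) (XT.nd (nat_lit 94) (nat_lit 0) (nat_lit 0) (XT.lf (nat_lit 0) (nat_lit 1831841587) (nat_lit 504) (nat_lit 6135923885) (nat_lit 588) (nat_lit 1752946150) (nat_lit 69) (nat_lit 5) (nat_lit 75) (nat_lit 5) (nat_lit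 76) (nat_lit 5) (nat_lit 326) (nat_lit 294) (nat_lit 241)) (XT.lf (nat_lit 0) (nat_lit 5805227678) (nat_lit 504) (nat_lit 3778867681) (nat_lit 588) (nat_lit 306011955) (nat_lit 69) (nat_lit 5) (nat_lit 75) (nat_lit 5) (nat_lit 76) (nat_lit 5) (nat_lit 327) (nat_lit 294) (nat_lit 240))))) (XT.nd (nat_lit 188) (nat_lit 420) (nat_lit 0) (XT.nd (nat_lit 94) (nat_lit 420) (nat_lit 0) (XT.lf (nat_lit 0) (nat_lit 1129828325) (nat_lit 588) (nat_lit 207365064) (nat_lit 84) (nat_lit 8728358878) (nat_lit 68) (nat_lit 5) (nat_lit 75) (nat_lit 5) (nat_lit 69) (nat_lit 5) (nat_lit 328) (nat_lit 294) (nat_lit 239)) (XT.lf (nat_lit 0) (nat_lit 2622873406) (nat_lit 504) (nat_lit 6425621097) (nat_lit 84) (nat_lit 1197417696) (nat_lit 63) (nat_lit 5) (nat_lit 69) (nat_lit 5) (nat_lit 64) (nat_lit 5) (nat_lit 329) (nat_lit 294) (nat_lit 238))) (XT.nd (nat_lit 94) (nat_lit 420) (nat_lit 0) (XT.lf (nat_lit 0)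 (nat_lit 4147587160) (nat_lit 504) (nat_lit 2500723553) (nat_lit 84) (nat_lit 3784164508) (nat_lit 63) (nat_lit 5) (nat_lit 69) (nat_lit 5) (nat_lit 64) (nat_lit 5) (nat_lit 330) (nat_lit 294) (nat_lit 237)) (XT.nd (nat_lit 94) (nat_lit 0) (nat_lit 0) (XT.lf (nat_lit 0) (nat_lit 1545530371) (nat_lit 420) (nat_lit 4159806280) (nat_lit 504) (nat_lit 4920080257) (nat_lit 58) (nat_lit 5) (nat_lit 63) (nat_lit 5) (nat_lit 64) (nat_lit 5) (nat_lit 331) (nat_lit 294) (nat_lit 236)) (XT.lf (nat_lit 0) (nat_lit 5739096206) (nat_lit 420) (nat_lit 1569400356) (nat_lit 504) (nat_lit 3516081937) (nat_lit 58) (nat_lit 5) (nat_lit 63) (nat_lit 5) (nat_lit 64) (nat_lit 5) (nat_lit 332) (nat_lit 294) (nat_lit 235))))))))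
noncomputable def xc60 : XT := (XT.nd (nat_lit 1692) (nat_lit 1260) (nat_lit 0) (XT.nd (nat_lit 846) (nat_lit 1008) (nat_lit 0) (XT.nd (nat_lit 376) (nat_lit 336) (nat_lit 0) (XT.nd (nat_lit 188) (nat_lit 504) (nat_lit 0) (XT.nd (nat_lit 94) (nat_lit 336) (nat_lit 0) (XT.lf (nat_lit 0) (nat_lit 8944148016) (nat_lit 504) (nat_lit 1009372080) (nat_lit 84) (nat_lit 1077072345) (nat_lit 58) (nat_lit 5) (nat_lit 64) (nat_lit 5) (nat_lit 59) (nat_lit 5) (nat_lit 333) (nat_lit 294) (nat_lit 234)) (XT.lf (nat_lit 0) (nat_lit 3211493240) (nat_lit 336) (nat_lit 7439635437) (nat_lit 420) (nat_lit 591365379) (nat_lit 54) (nat_lit 5) (nat_lit 58) (nat_lit 5) (nat_lit 59) (nat_lit 5) (nat_lit 334) (nat_lit 294) (nat_lit 233))) (XT.nd (nat_lit 94) (nat_lit 420) (nat_lit 0) (XT.lf (nat_lit 0) (nat_lit 914393337) (nat_lit 420) (nat_lit 3916209011) (nat_lit 84) (nat_lit 6630714676) (nat_lit 53) (nat_lit 5)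 (nat_lit 58) (nat_lit 5) (nat_lit 54) (nat_lit 5) (nat_lit 335) (nat_lit 294) (nat_lit 232)) (XT.lf (nat_lit 0) (nat_lit 296342996) (nat_lit 420) (nat_lit 2134790528) (nat_lit 504) (nat_lit 9256456568) (nat_lit 48) (nat_lit 5) (nat_lit 53) (nat_lit 5) (nat_lit 54) (nat_lit 5) (nat_lit 336) (nat_lit 294) (nat_lit 231)))) (XT.nd (nat_lit 188) (nat_lit 336) (nat_lit 0) (XT.nd (nat_lit 94) (nat_lit 0) (nat_lit 0) (XT.lf (nat_lit 0) (nat_lit 4016694725) (nat_lit 504) (nat_lit 7234227523) (nat_lit 84) (nat_lit 669403937) (nat_lit 48) (nat_lit 5) (nat_lit 54) (nat_lit 5) (nat_lit 49) (nat_lit 5) (nat_lit 337) (nat_lit 294) (nat_lit 230)) (XT.lf (nat_lit 0) (nat_lit 5648132968) (nat_lit 504) (nat_lit 2999573138) (nat_lit 84) (nat_lit 3512793210) (nat_lit 48) (nat_lit 5) (nat_lit 54) (nat_lit 5) (nat_lit 49) (nat_lit 5) (nat_lit 338) (nat_lit 294) (nat_lit 229))) (XT.nd (nat_lit 94) (nat_lit 0) (nat_lit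 0) (XT.lf (nat_lit 0) (nat_lit 1365349333) (nat_lit 336) (nat_lit 5953986639) (nat_lit 420) (nat_lit 5089234001) (nat_lit 44) (nat_lit 5) (nat_lit 48) (nat_lit 5) (nat_lit 49) (nat_lit 5) (nat_lit 339) (nat_lit 294) (nat_lit 228)) (XT.nd (nat_lit 94) (nat_lit 0) (nat_lit 0) (XT.lf (nat_lit 0) (nat_lit 5900947518) (nat_lit 336) (nat_lit 3148806159) (nat_lit 420) (nat_lit 3614461050) (nat_lit 44) (nat_lit 5) (nat_lit 48) (nat_lit 5) (nat_lit 49) (nat_lit 5) (nat_lit 340) (nat_lit 294) (nat_lit 227)) (XT.lf (nat_lit 0) (nat_lit 10549771692) (nat_lit 336) (nat_lit 260859334) (nat_lit 420) (nat_lit 2117982243) (nat_lit 44) (nat_lit 5) (nat_lit 48) (nat_lit 5) (nat_lit 49) (nat_lit 5) (nat_lit 341) (nat_lit 294) (nat_lit 226)))))) (XT.nd (nat_lit 376) (nat_lit 336) (nat_lit 0) (XT.nd (nat_lit 188) (nat_lit 252) (nat_lit 0) (XT.nd (nat_lit 94) (nat_lit 84) (nat_lit 0) (XT.lf (nat_lit 0) (nat_lit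 2130152023) (nat_lit 336) (nat_lit 10521497483) (nat_lit 420) (nat_lit 548873300) (nat_lit 40) (nat_lit 5) (nat_lit 44) (nat_lit 5) (nat_lit 45) (nat_lit 5) (nat_lit 342) (nat_lit 294) (nat_lit 225)) (XT.lf (nat_lit 0) (nat_lit 1052649435) (nat_lit 420) (nat_lit 6691865848) (nat_lit 84) (nat_lit 5735953518) (nat_lit 39) (nat_lit 5) (nat_lit 44) (nat_lit 5) (nat_lit 40) (nat_lit 5) (nat_lit 343) (nat_lit 294) (nat_lit 224))) (XT.nd (nat_lit 94) (nat_lit 252) (nat_lit 0) (XT.lf (nat_lit 0) (nat_lit 2670647633) (nat_lit 420) (nat_lit 2210014298) (nat_lit 84) (nat_lit 8889029511) (nat_lit 39) (nat_lit 5) (nat_lit 44) (nat_lit 5) (nat_lit 40) (nat_lit 5) (nat_lit 344) (nat_lit 294) (nat_lit 223)) (XT.lf (nat_lit 0) (nat_lit 2433842823) (nat_lit 252) (nat_lit 1907989211) (nat_lit 336) (nat_lit 9726048605) (nat_lit 36) (nat_lit 5) (nat_lit 39) (nat_lit 5) (nat_lit 40) (nat_lit 5) (nat_lit 345)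 (nat_lit 294) (nat_lit 222)))) (XT.nd (nat_lit 188) (nat_lit 336) (nat_lit 0) (XT.nd (nat_lit 94) (nat_lit 0) (nat_lit 0) (XT.lf (nat_lit 0) (nat_lit 6078817903) (nat_lit 336) (nat_lit 7144190462) (nat_lit 84) (nat_lit 1151963189) (nat_lit 36) (nat_lit 5) (nat_lit 40) (nat_lit 5) (nat_lit 37) (nat_lit 5) (nat_lit 346) (nat_lit 294) (nat_lit 221)) (XT.lf (nat_lit 0) (nat_lit 7869004383) (nat_lit 336) (nat_lit 2560269202) (nat_lit 84) (nat_lit 4262417659) (nat_lit 36) (nat_lit 5) (nat_lit 40) (nat_lit 5) (nat_lit 37) (nat_lit 5) (nat_lit 347) (nat_lit 294) (nat_lit 220))) (XT.nd (nat_lit 94) (nat_lit 0) (nat_lit 0) (XT.lf (nat_lit 0) (nat_lit 2184947978) (nat_lit 336) (nat_lit 7531859603) (nat_lit 420) (nat_lit 5301442172) (nat_lit 32) (nat_lit 5) (nat_lit 36) (nat_lit 5) (nat_lit 37) (nat_lit 5) (nat_lit 348) (nat_lit 294) (nat_lit 219)) (XT.nd (nat_lit 94) (nat_lit 0) (nat_lit 0) (XT.lf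 (nat_lit 0) (nat_lit 7106967139) (nat_lit 336) (nat_lit 4522439633) (nat_lit 420) (nat_lit 3725375532) (nat_lit 32) (nat_lit 5) (nat_lit 36) (nat_lit 5) (nat_lit 37) (nat_lit 5) (nat_lit 349) (nat_lit 294) (nat_lit 218)) (XT.lf (nat_lit 0) (nat_lit 12157731732) (nat_lit 336) (nat_lit 1424932540) (nat_lit 420) (nat_lit 2119741842) (nat_lit 32) (nat_lit 5) (nat_lit 36) (nat_lit 5) (nat_lit 37) (nat_lit 5) (nat_lit 350) (nat_lit 294) (nat_lit 217))))))) (XT.nd (nat_lit 846) (nat_lit 504) (nat_lit 0) (XT.nd (nat_lit 376) (nat_lit 420) (nat_lit 0) (XT.nd (nat_lit 188) (nat_lit 0) (nat_lit 0) (XT.nd (nat_lit 94) (nat_lit 84) (nat_lit 0) (XT.lf (nat_lit 0) (nat_lit 1288979840) (nat_lit 252) (nat_lit 14319702343) (nat_lit 336) (nat_lit 451824295) (nat_lit 29) (nat_lit 5) (nat_lit 32) (nat_lit 5) (nat_lit 33) (nat_lit 5) (nat_lit 351) (nat_lit 294) (nat_lit 216)) (XT.lf (nat_lit 0) (nat_lit 1276139631)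 (nat_lit 336) (nat_lit 10132382042) (nat_lit 84) (nat_lit 5019820038) (nat_lit 28) (nat_lit 5) (nat_lit 32) (nat_lit 5) (nat_lit 29) (nat_lit 5) (nat_lit 352) (nat_lit 294) (nat_lit 215))) (XT.nd (nat_lit 94) (nat_lit 0) (nat_lit 0) (XT.lf (nat_lit 0) (nat_lit 3030761226) (nat_lit 336) (nat_lit 5377240791) (nat_lit 84) (nat_lit 8400049622) (nat_lit 28) (nat_lit 5) (nat_lit 32) (nat_lit 5) (nat_lit 29) (nat_lit 5) (nat_lit 353) (nat_lit 294) (nat_lit 214)) (XT.lf (nat_lit 0) (nat_lit 4822779233) (nat_lit 336) (nat_lit 497188444) (nat_lit 84) (nat_lit 11880161462) (nat_lit 28) (nat_lit 5) (nat_lit 32) (nat_lit 5) (nat_lit 29) (nat_lit 5) (nat_lit 354) (nat_lit 294) (nat_lit 213)))) (XT.nd (nat_lit 188) (nat_lit 168) (nat_lit 0) (XT.nd (nat_lit 94) (nat_lit 0) (nat_lit 0) (XT.lf (nat_lit 0) (nat_lit 4605106349) (nat_lit 252) (nat_lit 2094440875) (nat_lit 336) (nat_lit 10903976263) (nat_lit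 25) (nat_lit 5) (nat_lit 28) (nat_lit 5) (nat_lit 29) (nat_lit 5) (nat_lit 355) (nat_lit 294) (nat_lit 212)) (XT.lf (nat_lit 0) (nat_lit 8635692245) (nat_lit 336) (nat_lit 8177530502) (nat_lit 84) (nat_lit 1206228735) (nat_lit 25) (nat_lit 5) (nat_lit 29) (nat_lit 5) (nat_lit 26) (nat_lit 5) (nat_lit 356) (nat_lit 294) (nat_lit 211))) (XT.nd (nat_lit 94) (nat_lit 168) (nat_lit 0) (XT.lf (nat_lit 0) (nat_lit 10637509883) (nat_lit 336) (nat_lit 3250067842) (nat_lit 84) (nat_lit 4560583867) (nat_lit 25) (nat_lit 5) (nat_lit 29) (nat_lit 5) (nat_lit 26) (nat_lit 5) (nat_lit 357) (nat_lit 294) (nat_lit 210)) (XT.nd (nat_lit 94) (nat_lit 0) (nat_lit 0) (XT.lf (nat_lit 0) (nat_lit 1846544624) (nat_lit 168) (nat_lit 10857862258) (nat_lit 252) (nat_lit 6185722774) (nat_lit 23) (nat_lit 5) (nat_lit 25) (nat_lit 5) (nat_lit 26) (nat_lit 5) (nat_lit 358) (nat_lit 294) (nat_lit 209)) (XT.lf (nat_lit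 0) (nat_lit 7149457146) (nat_lit 168) (nat_lit 7704805230) (nat_lit 252) (nat_lit 4491010727) (nat_lit 23) (nat_lit 5) (nat_lit 25) (nat_lit 5) (nat_lit 26) (nat_lit 5) (nat_lit 359) (nat_lit 294) (nat_lit 208)))))) (XT.nd (nat_lit 470) (nat_lit 168) (nat_lit 0) (XT.nd (nat_lit 188) (nat_lit 336) (nat_lit 0) (XT.nd (nat_lit 94) (nat_lit 0) (nat_lit 0) (XT.lf (nat_lit 0) (nat_lit 12596784535) (nat_lit 168) (nat_lit 4459391706) (nat_lit 252) (nat_lit 2758859960) (nat_lit 23) (nat_lit 5) (nat_lit 25) (nat_lit 5) (nat_lit 26) (nat_lit 5) (nat_lit 360) (nat_lit 294) (nat_lit 207)) (XT.lf (nat_lit 0) (nat_lit 18193604269) (nat_lit 168) (nat_lit 1118596620) (nat_lit 252) (nat_lit 987655928) (nat_lit 23) (nat_lit 5) (nat_lit 25) (nat_lit 5) (nat_lit 26) (nat_lit 5) (nat_lit 361) (nat_lit 294) (nat_lit 206))) (XT.nd (nat_lit 94) (nat_lit 0) (nat_lit 0) (XT.lf (nat_lit 0) (nat_lit 862832443) (nat_lit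 336) (nat_lit 17621110866) (nat_lit 84) (nat_lit 2314279273) (nat_lit 19) (nat_lit 5) (nat_lit 23) (nat_lit 5) (nat_lit 20) (nat_lit 5) (nat_lit 362) (nat_lit 294) (nat_lit 205)) (XT.nd (nat_lit 94) (nat_lit 0) (nat_lit 0) (XT.lf (nat_lit 0) (nat_lit 2770081986) (nat_lit 336) (nat_lit 12683572454) (nat_lit 84) (nat_lit 5857504166) (nat_lit 19) (nat_lit 5) (nat_lit 23) (nat_lit 5) (nat_lit 20) (nat_lit 5) (nat_lit 363) (nat_lit 294) (nat_lit 204)) (XT.lf (nat_lit 0) (nat_lit 4723130896) (nat_lit 336) (nat_lit 7611749361) (nat_lit 84) (nat_lit 9505578265) (nat_lit 19) (nat_lit 5) (nat_lit 23) (nat_lit 5) (nat_lit 20) (nat_lit 5) (nat_lit 364) (nat_lit 294) (nat_lit 203))))) (XT.nd (nat_lit 188) (nat_lit 0) (nat_lit 0) (XT.nd (nat_lit 94) (nat_lit 168) (nat_lit 0) (XT.lf (nat_lit 0) (nat_lit 6723799620) (nat_lit 336) (nat_lit 2400914118) (nat_lit 84) (nat_lit 13261901956) (nat_lit 19) (nat_lit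 5) (nat_lit 23) (nat_lit 5) (nat_lit 20) (nat_lit 5) (nat_lit 365) (nat_lit 294) (nat_lit 202)) (XT.lf (nat_lit 0) (nat_lit 3014526305) (nat_lit 168) (nat_lit 5789331160) (nat_lit 252) (nat_lit 14145354697) (nat_lit 17) (nat_lit 5) (nat_lit 19) (nat_lit 5) (nat_lit 20) (nat_lit 5) (nat_lit 366) (nat_lit 294) (nat_lit 201))) (XT.nd (nat_lit 94) (nat_lit 0) (nat_lit 0) (XT.lf (nat_lit 0) (nat_lit 8631255662) (nat_lit 168) (nat_lit 2329869428) (nat_lit 252) (nat_lit 12567774894) (nat_lit 17) (nat_lit 5) (nat_lit 19) (nat_lit 5) (nat_lit 20) (nat_lit 5) (nat_lit 367) (nat_lit 294) (nat_lit 200)) (XT.nd (nat_lit 47188) (nat_lit 0) (nat_lit 11424) (XT.lf (nat_lit 0) (nat_lit 13185526157) (nat_lit 252) (nat_lit 9734051359) (nat_lit 84) (nat_lit 1207016677) (nat_lit 17) (nat_lit 5) (nat_lit 20) (nat_lit 5) (nat_lit 18) (nat_lit 5) (nat_lit 368) (nat_lit 294) (nat_lit 199)) (XT.lf (nat_lit 0) (nat_lit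 39974301) (nat_lit 588) (nat_lit 1669920209) (nat_lit 588) (nat_lit 1669920209) (nat_lit 153) (nat_lit 3) (nat_lit 160) (nat_lit 3) (nat_lit 160) (nat_lit 5) (nat_lit 295) (nat_lit 295) (nat_lit 271))))))))
noncomputable def xc61 : XT := (XT.nd (nat_lit 1786) (nat_lit 4620) (nat_lit 0) (XT.nd (nat_lit 846) (nat_lit 2184) (nat_lit 0) (XT.nd (nat_lit 376) (nat_lit 1176) (nat_lit 0) (XT.nd (nat_lit 188) (nat_lit 0) (nat_lit 0) (XT.nd (nat_lit 94) (nat_lit 0) (nat_lit 0) (XT.lf (nat_lit 0) (nat_lit 1739352591) (nat_lit 588) (nat_lit 826972768) (nat_lit 588) (nat_lit 4234099110) (nat_lit 153) (nat_lit 3) (nat_lit 160) (nat_lit 3) (nat_lit 160) (nat_lit 5) (nat_lit 296) (nat_lit 295) (nat_lit 270)) (XT.lf (nat_lit 84) (nat_lit 1764650185) (nat_lit 0) (nat_lit 1636236816) (nat_lit 588) (nat_lit 3443632546) (nat_lit 154) (nat_lit 5) (nat_lit 153) (nat_lit 3) (nat_lit 160) (nat_lit 5) (nat_lit 297)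 (nat_lit 295) (nat_lit 269))) (XT.nd (nat_lit 94) (nat_lit 0) (nat_lit 84) (XT.lf (nat_lit 84) (nat_lit 4419798754) (nat_lit 0) (nat_lit 637613793) (nat_lit 588) (nat_lit 1834812561) (nat_lit 154) (nat_lit 5) (nat_lit 153) (nat_lit 3) (nat_lit 160) (nat_lit 5) (nat_lit 298) (nat_lit 295) (nat_lit 268)) (XT.lf (nat_lit 84) (nat_lit 179530813) (nat_lit 0) (nat_lit 6528535812) (nat_lit 588) (nat_lit 235593598) (nat_lit 155) (nat_lit 5) (nat_lit 154) (nat_lit 5) (nat_lit 161) (nat_lit 5) (nat_lit 299) (nat_lit 295) (nat_lit 267)))) (XT.nd (nat_lit 188) (nat_lit 672) (nat_lit 0) (XT.nd (nat_lit 94) (nat_lit 0) (nat_lit 0) (XT.lf (nat_lit 0) (nat_lit 1354883996) (nat_lit 588) (nat_lit 4087994147) (nat_lit 672) (nat_lit 1554750769) (nat_lit 147) (nat_lit 5) (nat_lit 154) (nat_lit 5) (nat_lit 155) (nat_lit 5) (nat_lit 300) (nat_lit 295) (nat_lit 266)) (XT.lf (nat_lit 0) (nat_lit 2929213304) (nat_lit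 588) (nat_lit 1367596103) (nat_lit 672) (nat_lit 2758698887) (nat_lit 147) (nat_lit 5) (nat_lit 154) (nat_lit 5) (nat_lit 155) (nat_lit 5) (nat_lit 301) (nat_lit 295) (nat_lit 265))) (XT.nd (nat_lit 94) (nat_lit 672) (nat_lit 0) (XT.lf (nat_lit 84) (nat_lit 1430764246) (nat_lit 0) (nat_lit 3077037563) (nat_lit 672) (nat_lit 2609182963) (nat_lit 148) (nat_lit 5) (nat_lit 147) (nat_lit 5) (nat_lit 155) (nat_lit 5) (nat_lit 302) (nat_lit 295) (nat_lit 264)) (XT.nd (nat_lit 94) (nat_lit 672) (nat_lit 0) (XT.lf (nat_lit 84) (nat_lit 4310025676) (nat_lit 0) (nat_lit 1782257927) (nat_lit 672) (nat_lit 1089827004) (nat_lit 148) (nat_lit 5) (nat_lit 147) (nat_lit 5) (nat_lit 155) (nat_lit 5) (nat_lit 303) (nat_lit 295) (nat_lit 263)) (XT.lf (nat_lit 0) (nat_lit 410474001) (nat_lit 672) (nat_lit 10780021) (nat_lit 756) (nat_lit 6829992869) (nat_lit 139) (nat_lit 5) (nat_lit 147) (nat_lit 5) (nat_lit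 148) (nat_lit 5) (nat_lit 304) (nat_lit 295) (nat_lit 262)))))) (XT.nd (nat_lit 470) (nat_lit 1512) (nat_lit 0) (XT.nd (nat_lit 188) (nat_lit 756) (nat_lit 0) (XT.nd (nat_lit 94) (nat_lit 0) (nat_lit 0) (XT.lf (nat_lit 0) (nat_lit 1919450336) (nat_lit 672) (nat_lit 4380401795) (nat_lit 756) (nat_lit 1023173239) (nat_lit 140) (nat_lit 5) (nat_lit 148) (nat_lit 5) (nat_lit 149) (nat_lit 5) (nat_lit 305) (nat_lit 295) (nat_lit 261)) (XT.lf (nat_lit 0) (nat_lit 3426282654) (nat_lit 672) (nat_lit 1449671308) (nat_lit 756) (nat_lit 2522953817) (nat_lit 140) (nat_lit 5) (nat_lit 148) (nat_lit 5) (nat_lit 149) (nat_lit 5) (nat_lit 306) (nat_lit 295) (nat_lit 260))) (XT.nd (nat_lit 94) (nat_lit 756) (nat_lit 0) (XT.lf (nat_lit 84) (nat_lit 1568452072) (nat_lit 0) (nat_lit 3375193501) (nat_lit 756) (nat_lit 2534969905) (nat_lit 141) (nat_lit 5) (nat_lit 140) (nat_lit 5) (nat_lit 149) (nat_lit 5) (nat_lit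 307) (nat_lit 295) (nat_lit 259)) (XT.nd (nat_lit 94) (nat_lit 756) (nat_lit 0) (XT.lf (nat_lit 84) (nat_lit 4676163939) (nat_lit 0) (nat_lit 1796485401) (nat_lit 756) (nat_lit 1089582849) (nat_lit 141) (nat_lit 5) (nat_lit 140) (nat_lit 5) (nat_lit 149) (nat_lit 5) (nat_lit 308) (nat_lit 295) (nat_lit 258)) (XT.lf (nat_lit 84) (nat_lit 196756589) (nat_lit 0) (nat_lit 147900243) (nat_lit 840) (nat_lit 7305465930) (nat_lit 132) (nat_lit 5) (nat_lit 131) (nat_lit 5) (nat_lit 141) (nat_lit 5) (nat_lit 309) (nat_lit 295) (nat_lit 257))))) (XT.nd (nat_lit 188) (nat_lit 1596) (nat_lit 0) (XT.nd (nat_lit 94) (nat_lit 0) (nat_lit 0) (XT.lf (nat_lit 0) (nat_lit 1798010460) (nat_lit 756) (nat_lit 4366929993) (nat_lit 84) (nat_lit 1575847105) (nat_lit 132) (nat_lit 5) (nat_lit 141) (nat_lit 5) (nat_lit 133) (nat_lit 5) (nat_lit 310) (nat_lit 295) (nat_lit 256)) (XT.lf (nat_lit 0) (nat_lit 3250849264)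 (nat_lit 756) (nat_lit 1221838223) (nat_lit 84) (nat_lit 3363289690) (nat_lit 132) (nat_lit 5) (nat_lit 141) (nat_lit 5) (nat_lit 133) (nat_lit 5) (nat_lit 311) (nat_lit 295) (nat_lit 255))) (XT.nd (nat_lit 94) (nat_lit 840) (nat_lit 0) (XT.lf (nat_lit 0) (nat_lit 2027150443) (nat_lit 756) (nat_lit 2696019394) (nat_lit 840) (nat_lit 3212032595) (nat_lit 123) (nat_lit 5) (nat_lit 132) (nat_lit 5) (nat_lit 133) (nat_lit 5) (nat_lit 312) (nat_lit 295) (nat_lit 254)) (XT.nd (nat_lit 94) (nat_lit 840) (nat_lit 0) (XT.lf (nat_lit 0) (nat_lit 5368665285) (nat_lit 756) (nat_lit 840589582) (nat_lit 840) (nat_lit 1829520725) (nat_lit 123) (nat_lit 5) (nat_lit 132) (nat_lit 5) (nat_lit 133) (nat_lit 5) (nat_lit 313) (nat_lit 295) (nat_lit 253)) (XT.lf (nat_lit 0) (nat_lit 635587132) (nat_lit 840) (nat_lit 7079576803) (nat_lit 924) (nat_lit 431484356) (nat_lit 113) (nat_lit 5) (nat_lit 123) (nat_lit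 5) (nat_lit 124) (nat_lit 5) (nat_lit 314) (nat_lit 295) (nat_lit 252))))))) (XT.nd (nat_lit 846) (nat_lit 1932) (nat_lit 0) (XT.nd (nat_lit 376) (nat_lit 1680) (nat_lit 0) (XT.nd (nat_lit 188) (nat_lit 924) (nat_lit 0) (XT.nd (nat_lit 94) (nat_lit 0) (nat_lit 0) (XT.lf (nat_lit 0) (nat_lit 983372728) (nat_lit 924) (nat_lit 4211112945) (nat_lit 84) (nat_lit 3063519006) (nat_lit 112) (nat_lit 5) (nat_lit 123) (nat_lit 5) (nat_lit 113) (nat_lit 5) (nat_lit 315) (nat_lit 295) (nat_lit 251)) (XT.lf (nat_lit 0) (nat_lit 2391493941) (nat_lit 924) (nat_lit 847787132) (nat_lit 84) (nat_lit 5134936979) (nat_lit 112) (nat_lit 5) (nat_lit 123) (nat_lit 5) (nat_lit 113) (nat_lit 5) (nat_lit 316) (nat_lit 295) (nat_lit 250))) (XT.nd (nat_lit 94) (nat_lit 0) (nat_lit 0) (XT.lf (nat_lit 0) (nat_lit 2639511910) (nat_lit 924) (nat_lit 1189557621) (nat_lit 1008) (nat_lit 4665648182) (nat_lit 101) (nat_lit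 5) (nat_lit 112) (nat_lit 5) (nat_lit 113) (nat_lit 5) (nat_lit 317) (nat_lit 295) (nat_lit 249)) (XT.lf (nat_lit 0) (nat_lit 5289879921) (nat_lit 1008) (nat_lit 2409697520) (nat_lit 84) (nat_lit 920272886) (nat_lit 101) (nat_lit 5) (nat_lit 113) (nat_lit 5) (nat_lit 102) (nat_lit 5) (nat_lit 318) (nat_lit 295) (nat_lit 248)))) (XT.nd (nat_lit 188) (nat_lit 672) (nat_lit 0) (XT.nd (nat_lit 94) (nat_lit 0) (nat_lit 0) (XT.lf (nat_lit 0) (nat_lit 1119395424) (nat_lit 1008) (nat_lit 5661603594) (nat_lit 1092) (nat_lit 1968556431) (nat_lit 89) (nat_lit 5) (nat_lit 101) (nat_lit 5) (nat_lit 102) (nat_lit 5) (nat_lit 319) (nat_lit 295) (nat_lit 247)) (XT.lf (nat_lit 0) (nat_lit 4775701829) (nat_lit 1008) (nat_lit 3530365891) (nat_lit 1092) (nat_lit 577816474) (nat_lit 89) (nat_lit 5) (nat_lit 101) (nat_lit 5) (nat_lit 102) (nat_lit 5) (nat_lit 320) (nat_lit 295) (nat_lit 246))) (XT.nd (nat_lit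 94) (nat_lit 588) (nat_lit 0) (XT.lf (nat_lit 0) (nat_lit 801904674) (nat_lit 1092) (nat_lit 518755184) (nat_lit 84) (nat_lit 7702806518) (nat_lit 88) (nat_lit 5) (nat_lit 101) (nat_lit 5) (nat_lit 89) (nat_lit 5) (nat_lit 321) (nat_lit 295) (nat_lit 245)) (XT.nd (nat_lit 94) (nat_lit 0) (nat_lit 0) (XT.lf (nat_lit 0) (nat_lit 2218367206) (nat_lit 672) (nat_lit 5969000538) (nat_lit 84) (nat_lit 979842296) (nat_lit 81) (nat_lit 5) (nat_lit 89) (nat_lit 5) (nat_lit 82) (nat_lit 5) (nat_lit 322) (nat_lit 295) (nat_lit 244)) (XT.lf (nat_lit 0) (nat_lit 3662731840) (nat_lit 672) (nat_lit 2320634011) (nat_lit 84) (nat_lit 3332736855) (nat_lit 81) (nat_lit 5) (nat_lit 89) (nat_lit 5) (nat_lit 82) (nat_lit 5) (nat_lit 323) (nat_lit 295) (nat_lit 243)))))) (XT.nd (nat_lit 470) (nat_lit 840) (nat_lit 0) (XT.nd (nat_lit 188) (nat_lit 588) (nat_lit 0) (XT.nd (nat_lit 94) (nat_lit 0) (nat_lit 0) (XT.lf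 (nat_lit 0) (nat_lit 1437567812) (nat_lit 504) (nat_lit 3694631158) (nat_lit 588) (nat_lit 4338212707) (nat_lit 75) (nat_lit 5) (nat_lit 81) (nat_lit 5) (nat_lit 82) (nat_lit 5) (nat_lit 324) (nat_lit 295) (nat_lit 242)) (XT.lf (nat_lit 0) (nat_lit 5329568538) (nat_lit 504) (nat_lit 1308643892) (nat_lit 588) (nat_lit 2991756060) (nat_lit 75) (nat_lit 5) (nat_lit 81) (nat_lit 5) (nat_lit 82) (nat_lit 5) (nat_lit 325) (nat_lit 295) (nat_lit 241))) (XT.nd (nat_lit 94) (nat_lit 588) (nat_lit 0) (XT.lf (nat_lit 0) (nat_lit 8170115554) (nat_lit 588) (nat_lit 495805175) (nat_lit 84) (nat_lit 1129375011) (nat_lit 75) (nat_lit 5) (nat_lit 82) (nat_lit 5) (nat_lit 76) (nat_lit 5) (nat_lit 326) (nat_lit 295) (nat_lit 240)) (XT.nd (nat_lit 94) (nat_lit 84) (nat_lit 0) (XT.lf (nat_lit 0) (nat_lit 3451724675) (nat_lit 504) (nat_lit 6314159727) (nat_lit 588) (nat_lit 199530135) (nat_lit 69) (nat_lit 5)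 (nat_lit 75) (nat_lit 5) (nat_lit 76) (nat_lit 5) (nat_lit 327) (nat_lit 295) (nat_lit 239)) (XT.lf (nat_lit 0) (nat_lit 1218854981) (nat_lit 588) (nat_lit 2652817600) (nat_lit 84) (nat_lit 6269709401) (nat_lit 68) (nat_lit 5) (nat_lit 75) (nat_lit 5) (nat_lit 69) (nat_lit 5) (nat_lit 328) (nat_lit 295) (nat_lit 238))))) (XT.nd (nat_lit 188) (nat_lit 420) (nat_lit 0) (XT.nd (nat_lit 94) (nat_lit 0) (nat_lit 0) (XT.lf (nat_lit 0) (nat_lit 1321625427) (nat_lit 420) (nat_lit 1338391337) (nat_lit 504) (nat_lit 7663411742) (nat_lit 63) (nat_lit 5) (nat_lit 68) (nat_lit 5) (nat_lit 69) (nat_lit 5) (nat_lit 329) (nat_lit 295) (nat_lit 237)) (XT.lf (nat_lit 0) (nat_lit 4156898001) (nat_lit 504) (nat_lit 5079115695) (nat_lit 84) (nat_lit 1274916500) (nat_lit 63) (nat_lit 5) (nat_lit 69) (nat_lit 5) (nat_lit 64) (nat_lit 5) (nat_lit 330) (nat_lit 295) (nat_lit 236))) (XT.nd (nat_lit 94) (nat_lit 420)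 (nat_lit 0) (XT.lf (nat_lit 0) (nat_lit 5685197783) (nat_lit 504) (nat_lit 1079022262) (nat_lit 84) (nat_lit 3940638356) (nat_lit 63) (nat_lit 5) (nat_lit 69) (nat_lit 5) (nat_lit 64) (nat_lit 5) (nat_lit 331) (nat_lit 295) (nat_lit 235)) (XT.nd (nat_lit 94) (nat_lit 0) (nat_lit 0) (XT.lf (nat_lit 0) (nat_lit 3077487240) (nat_lit 420) (nat_lit 4186105454) (nat_lit 504) (nat_lit 3641266380) (nat_lit 58) (nat_lit 5) (nat_lit 63) (nat_lit 5) (nat_lit 64) (nat_lit 5) (nat_lit 332) (nat_lit 295) (nat_lit 234)) (XT.lf (nat_lit 0) (nat_lit 7356431493) (nat_lit 420) (nat_lit 1518483561) (nat_lit 504) (nat_lit 2236781383) (nat_lit 58) (nat_lit 5) (nat_lit 63) (nat_lit 5) (nat_lit 64) (nat_lit 5) (nat_lit 333) (nat_lit 295) (nat_lit 233))))))))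
noncomputable def xc62 : XT := (XT.nd (nat_lit 1692) (nat_lit 1260) (nat_lit 0) (XT.nd (nat_lit 846) (nat_lit 1008) (nat_lit 0) (XT.nd (nat_lit 376) (nat_lit 336) (nat_lit 0) (XT.nd (nat_lit 188) (nat_lit 420) (nat_lit 0) (XT.nd (nat_lit 94) (nat_lit 84) (nat_lit 0) (XT.lf (nat_lit 0) (nat_lit 409765478) (nat_lit 336) (nat_lit 10116242556) (nat_lit 420) (nat_lit 799389674) (nat_lit 54) (nat_lit 5) (nat_lit 58) (nat_lit 5) (nat_lit 59) (nat_lit 5) (nat_lit 334) (nat_lit 295) (nat_lit 232)) (XT.lf (nat_lit 0) (nat_lit 697585005) (nat_lit 420) (nat_lit 6813410337) (nat_lit 84) (nat_lit 4033754702) (nat_lit 53) (nat_lit 5) (nat_lit 58) (nat_lit 5) (nat_lit 54) (nat_lit 5) (nat_lit 335) (nat_lit 295) (nat_lit 231))) (XT.nd (nat_lit 94) (nat_lit 420) (nat_lit 0) (XT.lf (nat_lit 0) (nat_lit 2198800308) (nat_lit 420) (nat_lit 2621022520) (nat_lit 84) (nat_lit 6951742817) (nat_lit 53) (nat_lit 5)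 (nat_lit 58) (nat_lit 5) (nat_lit 54) (nat_lit 5) (nat_lit 336) (nat_lit 295) (nat_lit 230)) (XT.lf (nat_lit 0) (nat_lit 1707776908) (nat_lit 420) (nat_lit 2030925895) (nat_lit 504) (nat_lit 8267073776) (nat_lit 48) (nat_lit 5) (nat_lit 53) (nat_lit 5) (nat_lit 54) (nat_lit 5) (nat_lit 337) (nat_lit 295) (nat_lit 229)))) (XT.nd (nat_lit 188) (nat_lit 336) (nat_lit 0) (XT.nd (nat_lit 94) (nat_lit 0) (nat_lit 0) (XT.lf (nat_lit 0) (nat_lit 5338002746) (nat_lit 504) (nat_lit 6057238105) (nat_lit 84) (nat_lit 851762780) (nat_lit 48) (nat_lit 5) (nat_lit 54) (nat_lit 5) (nat_lit 49) (nat_lit 5) (nat_lit 338) (nat_lit 295) (nat_lit 228)) (XT.lf (nat_lit 0) (nat_lit 6984030603) (nat_lit 504) (nat_lit 1733442086) (nat_lit 84) (nat_lit 3778437929) (nat_lit 48) (nat_lit 5) (nat_lit 54) (nat_lit 5) (nat_lit 49) (nat_lit 5) (nat_lit 339) (nat_lit 295) (nat_lit 227))) (XT.nd (nat_lit 94) (nat_lit 0)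 (nat_lit 0) (XT.lf (nat_lit 0) (nat_lit 2753033134) (nat_lit 336) (nat_lit 5932450906) (nat_lit 420) (nat_lit 4067023445) (nat_lit 44) (nat_lit 5) (nat_lit 48) (nat_lit 5) (nat_lit 49) (nat_lit 5) (nat_lit 340) (nat_lit 295) (nat_lit 226)) (XT.nd (nat_lit 94) (nat_lit 0) (nat_lit 0) (XT.lf (nat_lit 0) (nat_lit 7388782779) (nat_lit 336) (nat_lit 3046507104) (nat_lit 420) (nat_lit 2582011951) (nat_lit 44) (nat_lit 5) (nat_lit 48) (nat_lit 5) (nat_lit 49) (nat_lit 5) (nat_lit 341) (nat_lit 295) (nat_lit 225)) (XT.lf (nat_lit 0) (nat_lit 12142484730) (nat_lit 336) (nat_lit 75044862) (nat_lit 420) (nat_lit 1073554929) (nat_lit 44) (nat_lit 5) (nat_lit 48) (nat_lit 5) (nat_lit 49) (nat_lit 5) (nat_lit 342) (nat_lit 295) (nat_lit 224)))))) (XT.nd (nat_lit 376) (nat_lit 336) (nat_lit 0) (XT.nd (nat_lit 188) (nat_lit 252) (nat_lit 0) (XT.nd (nat_lit 94) (nat_lit 0) (nat_lit 0) (XT.lf (nat_lit 0)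 (nat_lit 515328012) (nat_lit 420) (nat_lit 10092271489) (nat_lit 84) (nat_lit 2964359895) (nat_lit 39) (nat_lit 5) (nat_lit 44) (nat_lit 5) (nat_lit 40) (nat_lit 5) (nat_lit 343) (nat_lit 295) (nat_lit 223)) (XT.lf (nat_lit 0) (nat_lit 2122929478) (nat_lit 420) (nat_lit 5623205923) (nat_lit 84) (nat_lit 6115415478) (nat_lit 39) (nat_lit 5) (nat_lit 44) (nat_lit 5) (nat_lit 40) (nat_lit 5) (nat_lit 344) (nat_lit 295) (nat_lit 222))) (XT.nd (nat_lit 94) (nat_lit 252) (nat_lit 0) (XT.lf (nat_lit 0) (nat_lit 3759885732) (nat_lit 420) (nat_lit 1040786849) (nat_lit 84) (nat_lit 9360173713) (nat_lit 39) (nat_lit 5) (nat_lit 44) (nat_lit 5) (nat_lit 40) (nat_lit 5) (nat_lit 345) (nat_lit 295) (nat_lit 221)) (XT.lf (nat_lit 0) (nat_lit 3734498857) (nat_lit 252) (nat_lit 1730270422) (nat_lit 336) (nat_lit 9004206889) (nat_lit 36) (nat_lit 5) (nat_lit 39) (nat_lit 5) (nat_lit 40) (nat_lit 5) (nat_lit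 346) (nat_lit 295) (nat_lit 220)))) (XT.nd (nat_lit 188) (nat_lit 336) (nat_lit 0) (XT.nd (nat_lit 94) (nat_lit 0) (nat_lit 0) (XT.lf (nat_lit 0) (nat_lit 7228163486) (nat_lit 336) (nat_lit 6145615814) (nat_lit 84) (nat_lit 1412789590) (nat_lit 36) (nat_lit 5) (nat_lit 40) (nat_lit 5) (nat_lit 37) (nat_lit 5) (nat_lit 347) (nat_lit 295) (nat_lit 219)) (XT.lf (nat_lit 0) (nat_lit 9044953439) (nat_lit 336) (nat_lit 1456277166) (nat_lit 84) (nat_lit 4612899397) (nat_lit 36) (nat_lit 5) (nat_lit 40) (nat_lit 5) (nat_lit 37) (nat_lit 5) (nat_lit 348) (nat_lit 295) (nat_lit 218))) (XT.nd (nat_lit 94) (nat_lit 0) (nat_lit 0) (XT.lf (nat_lit 0) (nat_lit 3424061285) (nat_lit 336) (nat_lit 7509573909) (nat_lit 420) (nat_lit 4517808756) (nat_lit 32) (nat_lit 5) (nat_lit 36) (nat_lit 5) (nat_lit 37) (nat_lit 5) (nat_lit 349) (nat_lit 295) (nat_lit 217)) (XT.nd (nat_lit 94) (nat_lit 0) (nat_lit 0) (XT.lf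 (nat_lit 0) (nat_lit 8463442111) (nat_lit 336) (nat_lit 4414552486) (nat_lit 420) (nat_lit 2921387757) (nat_lit 32) (nat_lit 5) (nat_lit 36) (nat_lit 5) (nat_lit 37) (nat_lit 5) (nat_lit 350) (nat_lit 295) (nat_lit 216)) (XT.lf (nat_lit 0) (nat_lit 13636618497) (nat_lit 336) (nat_lit 1228482000) (nat_lit 420) (nat_lit 1293626083) (nat_lit 32) (nat_lit 5) (nat_lit 36) (nat_lit 5) (nat_lit 37) (nat_lit 5) (nat_lit 351) (nat_lit 295) (nat_lit 215))))))) (XT.nd (nat_lit 846) (nat_lit 504) (nat_lit 0) (XT.nd (nat_lit 376) (nat_lit 168) (nat_lit 0) (XT.nd (nat_lit 188) (nat_lit 252) (nat_lit 0) (XT.nd (nat_lit 94) (nat_lit 0) (nat_lit 0) (XT.lf (nat_lit 0) (nat_lit 404688203) (nat_lit 336) (nat_lit 14084963556) (nat_lit 84) (nat_lit 2038649202) (nat_lit 28) (nat_lit 5) (nat_lit 32) (nat_lit 5) (nat_lit 29) (nat_lit 5) (nat_lit 352) (nat_lit 295) (nat_lit 214)) (XT.lf (nat_lit 0) (nat_lit 2150941084)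 (nat_lit 336) (nat_lit 9340899746) (nat_lit 84) (nat_lit 5416463788) (nat_lit 28) (nat_lit 5) (nat_lit 32) (nat_lit 5) (nat_lit 29) (nat_lit 5) (nat_lit 353) (nat_lit 295) (nat_lit 213))) (XT.nd (nat_lit 94) (nat_lit 252) (nat_lit 0) (XT.lf (nat_lit 0) (nat_lit 3934842006) (nat_lit 336) (nat_lit 4471591765) (nat_lit 84) (nat_lit 8894233244) (nat_lit 28) (nat_lit 5) (nat_lit 32) (nat_lit 5) (nat_lit 29) (nat_lit 5) (nat_lit 354) (nat_lit 295) (nat_lit 212)) (XT.lf (nat_lit 0) (nat_lit 538345555) (nat_lit 252) (nat_lit 5225048650) (nat_lit 336) (nat_lit 11942194115) (nat_lit 25) (nat_lit 5) (nat_lit 28) (nat_lit 5) (nat_lit 29) (nat_lit 5) (nat_lit 355) (nat_lit 295) (nat_lit 211)))) (XT.nd (nat_lit 188) (nat_lit 168) (nat_lit 0) (XT.nd (nat_lit 94) (nat_lit 0) (nat_lit 0) (XT.lf (nat_lit 0) (nat_lit 5777434942) (nat_lit 252) (nat_lit 1902153672) (nat_lit 336) (nat_lit 10442577467) (nat_lit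 25) (nat_lit 5) (nat_lit 28) (nat_lit 5) (nat_lit 29) (nat_lit 5) (nat_lit 356) (nat_lit 295) (nat_lit 210)) (XT.lf (nat_lit 0) (nat_lit 9655005910) (nat_lit 336) (nat_lit 7408642747) (nat_lit 84) (nat_lit 1488076301) (nat_lit 25) (nat_lit 5) (nat_lit 29) (nat_lit 5) (nat_lit 26) (nat_lit 5) (nat_lit 357) (nat_lit 295) (nat_lit 209))) (XT.nd (nat_lit 94) (nat_lit 168) (nat_lit 0) (XT.lf (nat_lit 0) (nat_lit 11696280649) (nat_lit 336) (nat_lit 2359169896) (nat_lit 84) (nat_lit 4939066211) (nat_lit 25) (nat_lit 5) (nat_lit 29) (nat_lit 5) (nat_lit 26) (nat_lit 5) (nat_lit 358) (nat_lit 295) (nat_lit 208)) (XT.nd (nat_lit 94) (nat_lit 0) (nat_lit 0) (XT.lf (nat_lit 0) (nat_lit 2885397990) (nat_lit 168) (nat_lit 10929671427) (nat_lit 252) (nat_lit 5635582413) (nat_lit 23) (nat_lit 5) (nat_lit 25) (nat_lit 5) (nat_lit 26) (nat_lit 5) (nat_lit 359) (nat_lit 295) (nat_lit 207)) (XT.lf (nat_lit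 0) (nat_lit 8323185839) (nat_lit 168) (nat_lit 7686831146) (nat_lit 252) (nat_lit 3910641597) (nat_lit 23) (nat_lit 5) (nat_lit 25) (nat_lit 5) (nat_lit 26) (nat_lit 5) (nat_lit 360) (nat_lit 295) (nat_lit 206)))))) (XT.nd (nat_lit 470) (nat_lit 168) (nat_lit 0) (XT.nd (nat_lit 188) (nat_lit 336) (nat_lit 0) (XT.nd (nat_lit 94) (nat_lit 0) (nat_lit 0) (XT.lf (nat_lit 0) (nat_lit 13910752869) (nat_lit 168) (nat_lit 4348531931) (nat_lit 252) (nat_lit 2146430727) (nat_lit 23) (nat_lit 5) (nat_lit 25) (nat_lit 5) (nat_lit 26) (nat_lit 5) (nat_lit 361) (nat_lit 295) (nat_lit 205)) (XT.lf (nat_lit 0) (nat_lit 19653307275) (nat_lit 168) (nat_lit 911662138) (nat_lit 252) (nat_lit 341305375) (nat_lit 23) (nat_lit 5) (nat_lit 25) (nat_lit 5) (nat_lit 26) (nat_lit 5) (nat_lit 362) (nat_lit 295) (nat_lit 204))) (XT.nd (nat_lit 94) (nat_lit 0) (nat_lit 0) (XT.lf (nat_lit 0) (nat_lit 1544401010) (nat_lit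 336) (nat_lit 17244547568) (nat_lit 84) (nat_lit 2631272718) (nat_lit 19) (nat_lit 5) (nat_lit 23) (nat_lit 5) (nat_lit 20) (nat_lit 5) (nat_lit 363) (nat_lit 295) (nat_lit 203)) (XT.nd (nat_lit 94) (nat_lit 0) (nat_lit 0) (XT.lf (nat_lit 0) (nat_lit 3491086207) (nat_lit 336) (nat_lit 12181692652) (nat_lit 84) (nat_lit 6276963407) (nat_lit 19) (nat_lit 5) (nat_lit 23) (nat_lit 5) (nat_lit 20) (nat_lit 5) (nat_lit 364) (nat_lit 295) (nat_lit 202)) (XT.lf (nat_lit 0) (nat_lit 5485582560) (nat_lit 336) (nat_lit 6979555931) (nat_lit 84) (nat_lit 10030975354) (nat_lit 19) (nat_lit 5) (nat_lit 23) (nat_lit 5) (nat_lit 20) (nat_lit 5) (nat_lit 365) (nat_lit 295) (nat_lit 201))))) (XT.nd (nat_lit 188) (nat_lit 0) (nat_lit 0) (XT.nd (nat_lit 94) (nat_lit 168) (nat_lit 0) (XT.lf (nat_lit 0) (nat_lit 7529749151) (nat_lit 336) (nat_lit 1633288469) (nat_lit 84) (nat_lit 13896807690) (nat_lit 19) (nat_lit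 5) (nat_lit 23) (nat_lit 5) (nat_lit 20) (nat_lit 5) (nat_lit 366) (nat_lit 295) (nat_lit 200)) (XT.lf (nat_lit 0) (nat_lit 3941505567) (nat_lit 168) (nat_lit 5723086012) (nat_lit 252) (nat_lit 13975658432) (nat_lit 17) (nat_lit 5) (nat_lit 19) (nat_lit 5) (nat_lit 20) (nat_lit 5) (nat_lit 367) (nat_lit 295) (nat_lit 199))) (XT.nd (nat_lit 47282) (nat_lit 0) (nat_lit 11424) (XT.lf (nat_lit 0) (nat_lit 9707291073) (nat_lit 168) (nat_lit 2163769082) (nat_lit 252) (nat_lit 12367461017) (nat_lit 17) (nat_lit 5) (nat_lit 19) (nat_lit 5) (nat_lit 20) (nat_lit 5) (nat_lit 368) (nat_lit 295) (nat_lit 198)) (XT.nd (nat_lit 94) (nat_lit 0) (nat_lit 0) (XT.lf (nat_lit 0) (nat_lit 1682929090) (nat_lit 588) (nat_lit 869157670) (nat_lit 588) (nat_lit 869157670) (nat_lit 153) (nat_lit 3) (nat_lit 160) (nat_lit 3) (nat_lit 160) (nat_lit 5) (nat_lit 296) (nat_lit 296) (nat_lit 269)) (XT.lf (nat_lit 84) (nat_lit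 817657617) (nat_lit 0) (nat_lit 4168431475) (nat_lit 588) (nat_lit 1902017266) (nat_lit 154) (nat_lit 5) (nat_lit 153) (nat_lit 3) (nat_lit 160) (nat_lit 5) (nat_lit 297) (nat_lit 296) (nat_lit 268))))))))
noncomputable def xc63 : XT := (XT.nd (nat_lit 1786) (nat_lit 4956) (nat_lit 0) (XT.nd (nat_lit 846) (nat_lit 2268) (nat_lit 0) (XT.nd (nat_lit 376) (nat_lit 588) (nat_lit 0) (XT.nd (nat_lit 188) (nat_lit 0) (nat_lit 0) (XT.nd (nat_lit 94) (nat_lit 588) (nat_lit 0) (XT.lf (nat_lit 84) (nat_lit 3456403739) (nat_lit 0) (nat_lit 3155098413) (nat_lit 588) (nat_lit 325508988) (nat_lit 154) (nat_lit 5) (nat_lit 153) (nat_lit 3) (nat_lit 160) (nat_lit 5) (nat_lit 298) (nat_lit 296) (nat_lit 267)) (XT.lf (nat_lit 0) (nat_lit 1211312115) (nat_lit 588) (nat_lit 857418518) (nat_lit 672) (nat_lit 4920683554) (nat_lit 146) (nat_lit 5) (nat_lit 153) (nat_lit 3) (nat_lit 154) (nat_lit 5) (nat_lit 299)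 (nat_lit 296) (nat_lit 266))) (XT.nd (nat_lit 94) (nat_lit 0) (nat_lit 84) (XT.lf (nat_lit 84) (nat_lit 1847973510) (nat_lit 0) (nat_lit 898877594) (nat_lit 672) (nat_lit 4298229464) (nat_lit 147) (nat_lit 5) (nat_lit 146) (nat_lit 5) (nat_lit 154) (nat_lit 5) (nat_lit 300) (nat_lit 296) (nat_lit 265)) (XT.lf (nat_lit 0) (nat_lit 4283342524) (nat_lit 588) (nat_lit 2485121798) (nat_lit 672) (nat_lit 335876352) (nat_lit 147) (nat_lit 5) (nat_lit 154) (nat_lit 5) (nat_lit 155) (nat_lit 5) (nat_lit 301) (nat_lit 296) (nat_lit 264)))) (XT.nd (nat_lit 188) (nat_lit 0) (nat_lit 0) (XT.nd (nat_lit 94) (nat_lit 672) (nat_lit 0) (XT.lf (nat_lit 84) (nat_lit 273105618) (nat_lit 0) (nat_lit 5549289973) (nat_lit 672) (nat_lit 1344848663) (nat_lit 148) (nat_lit 5) (nat_lit 147) (nat_lit 5) (nat_lit 155) (nat_lit 5) (nat_lit 302) (nat_lit 296) (nat_lit 263)) (XT.lf (nat_lit 0) (nat_lit 143146963) (nat_lit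 672) (nat_lit 4099134800) (nat_lit 756) (nat_lit 2991087405) (nat_lit 139) (nat_lit 5) (nat_lit 147) (nat_lit 5) (nat_lit 148) (nat_lit 5) (nat_lit 303) (nat_lit 296) (nat_lit 262))) (XT.nd (nat_lit 94) (nat_lit 0) (nat_lit 0) (XT.lf (nat_lit 0) (nat_lit 1594483206) (nat_lit 672) (nat_lit 1265518534) (nat_lit 756) (nat_lit 4443189657) (nat_lit 139) (nat_lit 5) (nat_lit 147) (nat_lit 5) (nat_lit 148) (nat_lit 5) (nat_lit 304) (nat_lit 296) (nat_lit 261)) (XT.nd (nat_lit 94) (nat_lit 0) (nat_lit 84) (XT.lf (nat_lit 84) (nat_lit 1656058340) (nat_lit 0) (nat_lit 1397978531) (nat_lit 756) (nat_lit 4322643446) (nat_lit 140) (nat_lit 5) (nat_lit 139) (nat_lit 5) (nat_lit 148) (nat_lit 5) (nat_lit 305) (nat_lit 296) (nat_lit 260)) (XT.lf (nat_lit 0) (nat_lit 4521525716) (nat_lit 672) (nat_lit 2793286081) (nat_lit 756) (nat_lit 139143553) (nat_lit 140) (nat_lit 5) (nat_lit 148) (nat_lit 5) (nat_lit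 149) (nat_lit 5) (nat_lit 306) (nat_lit 296) (nat_lit 259)))))) (XT.nd (nat_lit 470) (nat_lit 1596) (nat_lit 0) (XT.nd (nat_lit 188) (nat_lit 756) (nat_lit 0) (XT.nd (nat_lit 94) (nat_lit 0) (nat_lit 0) (XT.lf (nat_lit 84) (nat_lit 180121882) (nat_lit 0) (nat_lit 5820284984) (nat_lit 756) (nat_lit 1534616895) (nat_lit 141) (nat_lit 5) (nat_lit 140) (nat_lit 5) (nat_lit 149) (nat_lit 5) (nat_lit 307) (nat_lit 296) (nat_lit 258)) (XT.lf (nat_lit 84) (nat_lit 3271259606) (nat_lit 0) (nat_lit 4234020206) (nat_lit 756) (nat_lit 114271447) (nat_lit 141) (nat_lit 5) (nat_lit 140) (nat_lit 5) (nat_lit 149) (nat_lit 5) (nat_lit 308) (nat_lit 296) (nat_lit 257))) (XT.nd (nat_lit 94) (nat_lit 0) (nat_lit 0) (XT.lf (nat_lit 0) (nat_lit 1274566736) (nat_lit 756) (nat_lit 1295824479) (nat_lit 840) (nat_lit 5137702064) (nat_lit 131) (nat_lit 5) (nat_lit 140) (nat_lit 5) (nat_lit 141) (nat_lit 5) (nat_lit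 309) (nat_lit 296) (nat_lit 256)) (XT.nd (nat_lit 94) (nat_lit 0) (nat_lit 84) (XT.lf (nat_lit 84) (nat_lit 1854531308) (nat_lit 0) (nat_lit 821068089) (nat_lit 840) (nat_lit 5124929118) (nat_lit 132) (nat_lit 5) (nat_lit 131) (nat_lit 5) (nat_lit 141) (nat_lit 5) (nat_lit 310) (nat_lit 296) (nat_lit 255)) (XT.lf (nat_lit 0) (nat_lit 4097808705) (nat_lit 756) (nat_lit 2809719233) (nat_lit 84) (nat_lit 989283736) (nat_lit 132) (nat_lit 5) (nat_lit 141) (nat_lit 5) (nat_lit 133) (nat_lit 5) (nat_lit 311) (nat_lit 296) (nat_lit 254))))) (XT.nd (nat_lit 188) (nat_lit 924) (nat_lit 0) (XT.nd (nat_lit 94) (nat_lit 0) (nat_lit 0) (XT.lf (nat_lit 0) (nat_lit 389832143) (nat_lit 756) (nat_lit 5142246392) (nat_lit 840) (nat_lit 2465277661) (nat_lit 123) (nat_lit 5) (nat_lit 132) (nat_lit 5) (nat_lit 133) (nat_lit 5) (nat_lit 312) (nat_lit 296) (nat_lit 253)) (XT.lf (nat_lit 0) (nat_lit 3715064542)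 (nat_lit 756) (nat_lit 3281784889) (nat_lit 840) (nat_lit 1104876158) (nat_lit 123) (nat_lit 5) (nat_lit 132) (nat_lit 5) (nat_lit 133) (nat_lit 5) (nat_lit 313) (nat_lit 296) (nat_lit 252))) (XT.nd (nat_lit 94) (nat_lit 840) (nat_lit 0) (XT.lf (nat_lit 0) (nat_lit 249021477) (nat_lit 840) (nat_lit 1102116239) (nat_lit 84) (nat_lit 6859683086) (nat_lit 122) (nat_lit 5) (nat_lit 132) (nat_lit 5) (nat_lit 123) (nat_lit 5) (nat_lit 314) (nat_lit 296) (nat_lit 251)) (XT.nd (nat_lit 94) (nat_lit 0) (nat_lit 0) (XT.lf (nat_lit 0) (nat_lit 1610010590) (nat_lit 924) (nat_lit 6043749809) (nat_lit 84) (nat_lit 669808144) (nat_lit 112) (nat_lit 5) (nat_lit 123) (nat_lit 5) (nat_lit 113) (nat_lit 5) (nat_lit 315) (nat_lit 296) (nat_lit 250)) (XT.lf (nat_lit 0) (nat_lit 2998249152) (nat_lit 924) (nat_lit 2696903638) (nat_lit 84) (nat_lit 2745365408) (nat_lit 112) (nat_lit 5) (nat_lit 123) (nat_lit 5)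 (nat_lit 113) (nat_lit 5) (nat_lit 316) (nat_lit 296) (nat_lit 249))))))) (XT.nd (nat_lit 846) (nat_lit 1848) (nat_lit 0) (XT.nd (nat_lit 376) (nat_lit 1176) (nat_lit 0) (XT.nd (nat_lit 188) (nat_lit 1008) (nat_lit 0) (XT.nd (nat_lit 94) (nat_lit 0) (nat_lit 0) (XT.lf (nat_lit 0) (nat_lit 736060977) (nat_lit 924) (nat_lit 3661596475) (nat_lit 1008) (nat_lit 4164659906) (nat_lit 101) (nat_lit 5) (nat_lit 112) (nat_lit 5) (nat_lit 113) (nat_lit 5) (nat_lit 317) (nat_lit 296) (nat_lit 248)) (XT.lf (nat_lit 0) (nat_lit 4300485327) (nat_lit 924) (nat_lit 1529803650) (nat_lit 1008) (nat_lit 2858147354) (nat_lit 101) (nat_lit 5) (nat_lit 112) (nat_lit 5) (nat_lit 113) (nat_lit 5) (nat_lit 318) (nat_lit 296) (nat_lit 247))) (XT.nd (nat_lit 94) (nat_lit 1008) (nat_lit 0) (XT.lf (nat_lit 0) (nat_lit 7276862149) (nat_lit 1008) (nat_lit 882287914) (nat_lit 84) (nat_lit 660481735) (nat_lit 101) (nat_lit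 5) (nat_lit 113) (nat_lit 5) (nat_lit 102) (nat_lit 5) (nat_lit 319) (nat_lit 296) (nat_lit 246)) (XT.lf (nat_lit 0) (nat_lit 2739986983) (nat_lit 1008) (nat_lit 6035137531) (nat_lit 1092) (nat_lit 179773161) (nat_lit 89) (nat_lit 5) (nat_lit 101) (nat_lit 5) (nat_lit 102) (nat_lit 5) (nat_lit 320) (nat_lit 296) (nat_lit 245)))) (XT.nd (nat_lit 188) (nat_lit 504) (nat_lit 0) (XT.nd (nat_lit 94) (nat_lit 588) (nat_lit 0) (XT.lf (nat_lit 0) (nat_lit 1174313589) (nat_lit 1092) (nat_lit 2645306273) (nat_lit 84) (nat_lit 5275383489) (nat_lit 88) (nat_lit 5) (nat_lit 101) (nat_lit 5) (nat_lit 89) (nat_lit 5) (nat_lit 321) (nat_lit 296) (nat_lit 244)) (XT.lf (nat_lit 0) (nat_lit 1022446292) (nat_lit 588) (nat_lit 1519639431) (nat_lit 672) (nat_lit 6698267539) (nat_lit 81) (nat_lit 5) (nat_lit 88) (nat_lit 5) (nat_lit 89) (nat_lit 5) (nat_lit 322) (nat_lit 296) (nat_lit 243))) (XT.nd (nat_lit 94)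 (nat_lit 504) (nat_lit 0) (XT.lf (nat_lit 0) (nat_lit 3954667490) (nat_lit 672) (nat_lit 4570333405) (nat_lit 84) (nat_lit 865324234) (nat_lit 81) (nat_lit 5) (nat_lit 89) (nat_lit 5) (nat_lit 82) (nat_lit 5) (nat_lit 323) (nat_lit 296) (nat_lit 242)) (XT.nd (nat_lit 94) (nat_lit 504) (nat_lit 0) (XT.lf (nat_lit 0) (nat_lit 5393668283) (nat_lit 672) (nat_lit 856486226) (nat_lit 84) (nat_lit 3295515157) (nat_lit 81) (nat_lit 5) (nat_lit 89) (nat_lit 5) (nat_lit 82) (nat_lit 5) (nat_lit 324) (nat_lit 296) (nat_lit 241)) (XT.lf (nat_lit 0) (nat_lit 3002668347) (nat_lit 504) (nat_lit 3872472885) (nat_lit 588) (nat_lit 2830934370) (nat_lit 75) (nat_lit 5) (nat_lit 81) (nat_lit 5) (nat_lit 82) (nat_lit 5) (nat_lit 325) (nat_lit 296) (nat_lit 240)))))) (XT.nd (nat_lit 470) (nat_lit 840) (nat_lit 0) (XT.nd (nat_lit 188) (nat_lit 504) (nat_lit 0) (XT.nd (nat_lit 94) (nat_lit 504) (nat_lit 0) (XT.lf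 (nat_lit 0) (nat_lit 6969601781) (nat_lit 504) (nat_lit 1410616470) (nat_lit 588) (nat_lit 1492101923) (nat_lit 75) (nat_lit 5) (nat_lit 81) (nat_lit 5) (nat_lit 82) (nat_lit 5) (nat_lit 326) (nat_lit 296) (nat_lit 239)) (XT.lf (nat_lit 0) (nat_lit 994411047) (nat_lit 504) (nat_lit 8928282241) (nat_lit 588) (nat_lit 121480927) (nat_lit 69) (nat_lit 5) (nat_lit 75) (nat_lit 5) (nat_lit 76) (nat_lit 5) (nat_lit 327) (nat_lit 296) (nat_lit 238))) (XT.nd (nat_lit 94) (nat_lit 420) (nat_lit 0) (XT.lf (nat_lit 0) (nat_lit 1280482214) (nat_lit 588) (nat_lit 5204782523) (nat_lit 84) (nat_lit 3735391464) (nat_lit 68) (nat_lit 5) (nat_lit 75) (nat_lit 5) (nat_lit 69) (nat_lit 5) (nat_lit 328) (nat_lit 296) (nat_lit 237)) (XT.nd (nat_lit 94) (nat_lit 420) (nat_lit 0) (XT.lf (nat_lit 0) (nat_lit 2694130343) (nat_lit 588) (nat_lit 1271630114) (nat_lit 84) (nat_lit 6437871050) (nat_lit 68) (nat_lit 5)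 (nat_lit 75) (nat_lit 5) (nat_lit 69) (nat_lit 5) (nat_lit 329) (nat_lit 296) (nat_lit 236)) (XT.lf (nat_lit 0) (nat_lit 2811204785) (nat_lit 420) (nat_lit 1339911412) (nat_lit 504) (nat_lit 6441327334) (nat_lit 63) (nat_lit 5) (nat_lit 68) (nat_lit 5) (nat_lit 69) (nat_lit 5) (nat_lit 330) (nat_lit 296) (nat_lit 235))))) (XT.nd (nat_lit 188) (nat_lit 420) (nat_lit 0) (XT.nd (nat_lit 94) (nat_lit 420) (nat_lit 0) (XT.lf (nat_lit 0) (nat_lit 5652430530) (nat_lit 504) (nat_lit 3782423062) (nat_lit 84) (nat_lit 1352426059) (nat_lit 63) (nat_lit 5) (nat_lit 69) (nat_lit 5) (nat_lit 64) (nat_lit 5) (nat_lit 331) (nat_lit 296) (nat_lit 234)) (XT.lf (nat_lit 0) (nat_lit 304076646) (nat_lit 420) (nat_lit 6885954586) (nat_lit 504) (nat_lit 3798582931) (nat_lit 58) (nat_lit 5) (nat_lit 63) (nat_lit 5) (nat_lit 64) (nat_lit 5) (nat_lit 332) (nat_lit 296) (nat_lit 233))) (XT.nd (nat_lit 94) (nat_lit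 420) (nat_lit 0) (XT.lf (nat_lit 0) (nat_lit 4569032220) (nat_lit 420) (nat_lit 4219300323) (nat_lit 504) (nat_lit 2407589775) (nat_lit 58) (nat_lit 5) (nat_lit 63) (nat_lit 5) (nat_lit 64) (nat_lit 5) (nat_lit 333) (nat_lit 296) (nat_lit 232)) (XT.nd (nat_lit 94) (nat_lit 420) (nat_lit 0) (XT.lf (nat_lit 0) (nat_lit 8938644667) (nat_lit 420) (nat_lit 1471885940) (nat_lit 504) (nat_lit 1000053845) (nat_lit 58) (nat_lit 5) (nat_lit 63) (nat_lit 5) (nat_lit 64) (nat_lit 5) (nat_lit 334) (nat_lit 296) (nat_lit 231)) (XT.lf (nat_lit 0) (nat_lit 448495226) (nat_lit 420) (nat_lit 9829251984) (nat_lit 84) (nat_lit 1353939073) (nat_lit 53) (nat_lit 5) (nat_lit 58) (nat_lit 5) (nat_lit 54) (nat_lit 5) (nat_lit 335) (nat_lit 296) (nat_lit 230))))))))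
noncomputable def xc64 : XT := (XT.nd (nat_lit 1692) (nat_lit 924) (nat_lit 0) (XT.nd (nat_lit 846) (nat_lit 924) (nat_lit 0) (XT.nd (nat_lit 376) (nat_lit 756) (nat_lit 0) (XT.nd (nat_lit 188) (nat_lit 420) (nat_lit 0) (XT.nd (nat_lit 94) (nat_lit 0) (nat_lit 0) (XT.lf (nat_lit 0) (nat_lit 1937503813) (nat_lit 420) (nat_lit 5650630937) (nat_lit 84) (nat_lit 4270804964) (nat_lit 53) (nat_lit 5) (nat_lit 58) (nat_lit 5) (nat_lit 54) (nat_lit 5) (nat_lit 336) (nat_lit 296) (nat_lit 229)) (XT.lf (nat_lit 0) (nat_lit 3448625265) (nat_lit 420) (nat_lit 1369592238) (nat_lit 84) (nat_lit 7275882991) (nat_lit 53) (nat_lit 5) (nat_lit 58) (nat_lit 5) (nat_lit 54) (nat_lit 5) (nat_lit 337) (nat_lit 296) (nat_lit 228))) (XT.nd (nat_lit 94) (nat_lit 0) (nat_lit 0) (XT.lf (nat_lit 0) (nat_lit 3079907764) (nat_lit 420) (nat_lit 1933913405) (nat_lit 504) (nat_lit 7322619503) (nat_lit 48) (nat_lit 5) (nat_lit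 53) (nat_lit 5) (nat_lit 54) (nat_lit 5) (nat_lit 338) (nat_lit 296) (nat_lit 227)) (XT.lf (nat_lit 0) (nat_lit 6629383366) (nat_lit 504) (nat_lit 4926760480) (nat_lit 84) (nat_lit 1030202470) (nat_lit 48) (nat_lit 5) (nat_lit 54) (nat_lit 5) (nat_lit 49) (nat_lit 5) (nat_lit 339) (nat_lit 296) (nat_lit 226)))) (XT.nd (nat_lit 188) (nat_lit 420) (nat_lit 0) (XT.nd (nat_lit 94) (nat_lit 336) (nat_lit 0) (XT.lf (nat_lit 0) (nat_lit 8292584567) (nat_lit 504) (nat_lit 508563848) (nat_lit 84) (nat_lit 4043033175) (nat_lit 48) (nat_lit 5) (nat_lit 54) (nat_lit 5) (nat_lit 49) (nat_lit 5) (nat_lit 340) (nat_lit 296) (nat_lit 225)) (XT.lf (nat_lit 0) (nat_lit 4104047276) (nat_lit 336) (nat_lit 5922455773) (nat_lit 420) (nat_lit 3083016408) (nat_lit 44) (nat_lit 5) (nat_lit 48) (nat_lit 5) (nat_lit 49) (nat_lit 5) (nat_lit 341) (nat_lit 296) (nat_lit 224))) (XT.nd (nat_lit 94) (nat_lit 420) (nat_lit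 0) (XT.lf (nat_lit 0) (nat_lit 8845449124) (nat_lit 336) (nat_lit 2952877911) (nat_lit 420) (nat_lit 1585347470) (nat_lit 44) (nat_lit 5) (nat_lit 48) (nat_lit 5) (nat_lit 49) (nat_lit 5) (nat_lit 342) (nat_lit 296) (nat_lit 223)) (XT.nd (nat_lit 94) (nat_lit 84) (nat_lit 0) (XT.lf (nat_lit 0) (nat_lit 42353443) (nat_lit 336) (nat_lit 13563668066) (nat_lit 420) (nat_lit 60995052) (nat_lit 40) (nat_lit 5) (nat_lit 44) (nat_lit 5) (nat_lit 45) (nat_lit 5) (nat_lit 343) (nat_lit 296) (nat_lit 222)) (XT.lf (nat_lit 0) (nat_lit 1537751202) (nat_lit 420) (nat_lit 9167394013) (nat_lit 84) (nat_lit 3251839339) (nat_lit 39) (nat_lit 5) (nat_lit 44) (nat_lit 5) (nat_lit 40) (nat_lit 5) (nat_lit 344) (nat_lit 296) (nat_lit 221)))))) (XT.nd (nat_lit 376) (nat_lit 672) (nat_lit 0) (XT.nd (nat_lit 188) (nat_lit 0) (nat_lit 0) (XT.nd (nat_lit 94) (nat_lit 252) (nat_lit 0) (XT.lf (nat_lit 0) (nat_lit 3164926540)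 (nat_lit 420) (nat_lit 4597003589) (nat_lit 84) (nat_lit 6494696837) (nat_lit 39) (nat_lit 5) (nat_lit 44) (nat_lit 5) (nat_lit 40) (nat_lit 5) (nat_lit 345) (nat_lit 296) (nat_lit 220)) (XT.lf (nat_lit 0) (nat_lit 93252138) (nat_lit 252) (nat_lit 4730949507) (nat_lit 336) (nat_lit 9742011528) (nat_lit 36) (nat_lit 5) (nat_lit 39) (nat_lit 5) (nat_lit 40) (nat_lit 5) (nat_lit 346) (nat_lit 296) (nat_lit 219))) (XT.nd (nat_lit 94) (nat_lit 0) (nat_lit 0) (XT.lf (nat_lit 0) (nat_lit 5002904126) (nat_lit 252) (nat_lit 1561072356) (nat_lit 336) (nat_lit 8320602805) (nat_lit 36) (nat_lit 5) (nat_lit 39) (nat_lit 5) (nat_lit 40) (nat_lit 5) (nat_lit 347) (nat_lit 296) (nat_lit 218)) (XT.lf (nat_lit 0) (nat_lit 8356222898) (nat_lit 336) (nat_lit 5188350679) (nat_lit 84) (nat_lit 1668367630) (nat_lit 36) (nat_lit 5) (nat_lit 40) (nat_lit 5) (nat_lit 37) (nat_lit 5) (nat_lit 348) (nat_lit 296) (nat_lit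 217)))) (XT.nd (nat_lit 188) (nat_lit 336) (nat_lit 0) (XT.nd (nat_lit 94) (nat_lit 336) (nat_lit 0) (XT.lf (nat_lit 0) (nat_lit 10202152373) (nat_lit 336) (nat_lit 388153839) (nat_lit 84) (nat_lit 4961313016) (nat_lit 36) (nat_lit 5) (nat_lit 40) (nat_lit 5) (nat_lit 37) (nat_lit 5) (nat_lit 349) (nat_lit 296) (nat_lit 216)) (XT.lf (nat_lit 0) (nat_lit 4632204266) (nat_lit 336) (nat_lit 7501747251) (nat_lit 420) (nat_lit 3766033072) (nat_lit 32) (nat_lit 5) (nat_lit 36) (nat_lit 5) (nat_lit 37) (nat_lit 5) (nat_lit 350) (nat_lit 296) (nat_lit 215))) (XT.nd (nat_lit 94) (nat_lit 336) (nat_lit 0) (XT.lf (nat_lit 0) (nat_lit 9794671165) (nat_lit 336) (nat_lit 4318015205) (nat_lit 420) (nat_lit 2146938405) (nat_lit 32) (nat_lit 5) (nat_lit 36) (nat_lit 5) (nat_lit 37) (nat_lit 5) (nat_lit 351) (nat_lit 296) (nat_lit 214)) (XT.nd (nat_lit 94) (nat_lit 336) (nat_lit 0) (XT.lf (nat_lit 0) (nat_lit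 15096077578) (nat_lit 336) (nat_lit 1040194032) (nat_lit 420) (nat_lit 494725221) (nat_lit 32) (nat_lit 5) (nat_lit 36) (nat_lit 5) (nat_lit 37) (nat_lit 5) (nat_lit 352) (nat_lit 296) (nat_lit 213)) (XT.lf (nat_lit 0) (nat_lit 1227360718) (nat_lit 336) (nat_lit 13449253936) (nat_lit 84) (nat_lit 2335629412) (nat_lit 28) (nat_lit 5) (nat_lit 32) (nat_lit 5) (nat_lit 29) (nat_lit 5) (nat_lit 353) (nat_lit 296) (nat_lit 212))))))) (XT.nd (nat_lit 846) (nat_lit 504) (nat_lit 0) (XT.nd (nat_lit 376) (nat_lit 168) (nat_lit 0) (XT.nd (nat_lit 188) (nat_lit 252) (nat_lit 0) (XT.nd (nat_lit 94) (nat_lit 0) (nat_lit 0) (XT.lf (nat_lit 0) (nat_lit 3003388619) (nat_lit 336) (nat_lit 8590367260) (nat_lit 84) (nat_lit 5811126915) (nat_lit 28) (nat_lit 5) (nat_lit 32) (nat_lit 5) (nat_lit 29) (nat_lit 5) (nat_lit 354) (nat_lit 296) (nat_lit 211)) (XT.lf (nat_lit 0) (nat_lit 4818964069) (nat_lit 336) (nat_lit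 3601384360) (nat_lit 84) (nat_lit 9389889246) (nat_lit 28) (nat_lit 5) (nat_lit 32) (nat_lit 5) (nat_lit 29) (nat_lit 5) (nat_lit 355) (nat_lit 296) (nat_lit 210))) (XT.nd (nat_lit 94) (nat_lit 0) (nat_lit 0) (XT.lf (nat_lit 0) (nat_lit 1553647552) (nat_lit 252) (nat_lit 5137544197) (nat_lit 336) (nat_lit 11537017011) (nat_lit 25) (nat_lit 5) (nat_lit 28) (nat_lit 5) (nat_lit 29) (nat_lit 5) (nat_lit 356) (nat_lit 296) (nat_lit 209)) (XT.lf (nat_lit 0) (nat_lit 6925122510) (nat_lit 252) (nat_lit 1719140842) (nat_lit 336) (nat_lit 10014226445) (nat_lit 25) (nat_lit 5) (nat_lit 28) (nat_lit 5) (nat_lit 29) (nat_lit 5) (nat_lit 357) (nat_lit 296) (nat_lit 208)))) (XT.nd (nat_lit 188) (nat_lit 168) (nat_lit 0) (XT.nd (nat_lit 94) (nat_lit 0) (nat_lit 0) (XT.lf (nat_lit 0) (nat_lit 10661399318) (nat_lit 336) (nat_lit 6676477453) (nat_lit 84) (nat_lit 1764181684) (nat_lit 25) (nat_lit 5) (nat_lit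 29) (nat_lit 5) (nat_lit 26) (nat_lit 5) (nat_lit 358) (nat_lit 296) (nat_lit 207)) (XT.lf (nat_lit 0) (nat_lit 12744692918) (nat_lit 336) (nat_lit 1499391244) (nat_lit 84) (nat_lit 5315237416) (nat_lit 25) (nat_lit 5) (nat_lit 29) (nat_lit 5) (nat_lit 26) (nat_lit 5) (nat_lit 359) (nat_lit 296) (nat_lit 206))) (XT.nd (nat_lit 94) (nat_lit 0) (nat_lit 0) (XT.lf (nat_lit 0) (nat_lit 3898313340) (nat_lit 168) (nat_lit 11019390323) (nat_lit 252) (nat_lit 5112331576) (nat_lit 23) (nat_lit 5) (nat_lit 25) (nat_lit 5) (nat_lit 26) (nat_lit 5) (nat_lit 360) (nat_lit 296) (nat_lit 205)) (XT.nd (nat_lit 94) (nat_lit 0) (nat_lit 0) (XT.lf (nat_lit 0) (nat_lit 9476905874) (nat_lit 168) (nat_lit 7683511934) (nat_lit 252) (nat_lit 3354903599) (nat_lit 23) (nat_lit 5) (nat_lit 25) (nat_lit 5) (nat_lit 26) (nat_lit 5) (nat_lit 361) (nat_lit 296) (nat_lit 204)) (XT.lf (nat_lit 0) (nat_lit 15210755629) (nat_lit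 168) (nat_lit 4248990177) (nat_lit 252) (nat_lit 1556357191) (nat_lit 23) (nat_lit 5) (nat_lit 25) (nat_lit 5) (nat_lit 26) (nat_lit 5) (nat_lit 362) (nat_lit 296) (nat_lit 203)))))) (XT.nd (nat_lit 470) (nat_lit 168) (nat_lit 0) (XT.nd (nat_lit 188) (nat_lit 0) (nat_lit 0) (XT.nd (nat_lit 94) (nat_lit 252) (nat_lit 0) (XT.lf (nat_lit 0) (nat_lit 279242284) (nat_lit 252) (nat_lit 430466717) (nat_lit 84) (nat_lit 20823050153) (nat_lit 22) (nat_lit 5) (nat_lit 25) (nat_lit 5) (nat_lit 23) (nat_lit 5) (nat_lit 363) (nat_lit 296) (nat_lit 202)) (XT.lf (nat_lit 0) (nat_lit 2208312048) (nat_lit 336) (nat_lit 16910970883) (nat_lit 84) (nat_lit 2943566335) (nat_lit 19) (nat_lit 5) (nat_lit 23) (nat_lit 5) (nat_lit 20) (nat_lit 5) (nat_lit 364) (nat_lit 296) (nat_lit 201))) (XT.nd (nat_lit 94) (nat_lit 0) (nat_lit 0) (XT.lf (nat_lit 0) (nat_lit 4196821621) (nat_lit 336) (nat_lit 11717271137) (nat_lit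 84) (nat_lit 6695336046) (nat_lit 19) (nat_lit 5) (nat_lit 23) (nat_lit 5) (nat_lit 20) (nat_lit 5) (nat_lit 365) (nat_lit 296) (nat_lit 200)) (XT.nd (nat_lit 94) (nat_lit 0) (nat_lit 0) (XT.lf (nat_lit 0) (nat_lit 6235181442) (nat_lit 336) (nat_lit 6379186969) (nat_lit 84) (nat_lit 10558993565) (nat_lit 19) (nat_lit 5) (nat_lit 23) (nat_lit 5) (nat_lit 20) (nat_lit 5) (nat_lit 366) (nat_lit 296) (nat_lit 199)) (XT.lf (nat_lit 0) (nat_lit 8325291474) (nat_lit 336) (nat_lit 891742725) (nat_lit 84) (nat_lit 14538140227) (nat_lit 19) (nat_lit 5) (nat_lit 23) (nat_lit 5) (nat_lit 20) (nat_lit 5) (nat_lit 367) (nat_lit 296) (nat_lit 198))))) (XT.nd (nat_lit 47470) (nat_lit 0) (nat_lit 10836) (XT.nd (nat_lit 47376) (nat_lit 0) (nat_lit 11424) (XT.lf (nat_lit 0) (nat_lit 4847849839) (nat_lit 168) (nat_lit 5669341349) (nat_lit 252) (nat_lit 13836726444) (nat_lit 17) (nat_lit 5) (nat_lit 19) (nat_lit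 5) (nat_lit 20) (nat_lit 5) (nat_lit 368) (nat_lit 296) (nat_lit 197)) (XT.lf (nat_lit 0) (nat_lit 3279573852) (nat_lit 588) (nat_lit 94068307) (nat_lit 588) (nat_lit 94068307) (nat_lit 153) (nat_lit 3) (nat_lit 160) (nat_lit 3) (nat_lit 160) (nat_lit 5) (nat_lit 297) (nat_lit 297) (nat_lit 267))) (XT.nd (nat_lit 94) (nat_lit 0) (nat_lit 0) (XT.lf (nat_lit 0) (nat_lit 1143420065) (nat_lit 588) (nat_lit 4566292253) (nat_lit 672) (nat_lit 1275476747) (nat_lit 146) (nat_lit 5) (nat_lit 153) (nat_lit 3) (nat_lit 154) (nat_lit 5) (nat_lit 298) (nat_lit 297) (nat_lit 266)) (XT.nd (nat_lit 94) (nat_lit 0) (nat_lit 0) (XT.lf (nat_lit 0) (nat_lit 2643897507) (nat_lit 588) (nat_lit 1962590000) (nat_lit 672) (nat_lit 2432142040) (nat_lit 146) (nat_lit 5) (nat_lit 153) (nat_lit 3) (nat_lit 154) (nat_lit 5) (nat_lit 299) (nat_lit 297) (nat_lit 265)) (XT.lf (nat_lit 84) (nat_lit 703984487) (nat_lit 0)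 (nat_lit 3435213699) (nat_lit 672) (nat_lit 2956552879) (nat_lit 147) (nat_lit 5) (nat_lit 146) (nat_lit 5) (nat_lit 154) (nat_lit 5) (nat_lit 300) (nat_lit 297) (nat_lit 264))))))))
noncomputable def xc65 : XT := (XT.nd (nat_lit 1692) (nat_lit 4032) (nat_lit 0) (XT.nd (nat_lit 846) (nat_lit 2520) (nat_lit 0) (XT.nd (nat_lit 376) (nat_lit 672) (nat_lit 0) (XT.nd (nat_lit 188) (nat_lit 588) (nat_lit 0) (XT.nd (nat_lit 94) (nat_lit 0) (nat_lit 0) (XT.lf (nat_lit 84) (nat_lit 3463126646) (nat_lit 0) (nat_lit 2180986528) (nat_lit 672) (nat_lit 1512078370) (nat_lit 147) (nat_lit 5) (nat_lit 146) (nat_lit 5) (nat_lit 154) (nat_lit 5) (nat_lit 301) (nat_lit 297) (nat_lit 263)) (XT.lf (nat_lit 84) (nat_lit 6277053410) (nat_lit 0) (nat_lit 863122338) (nat_lit 672) (nat_lit 80447527) (nat_lit 147) (nat_lit 5) (nat_lit 146) (nat_lit 5) (nat_lit 154) (nat_lit 5) (nat_lit 302) (nat_lit 297) (nat_lit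 262))) (XT.nd (nat_lit 94) (nat_lit 0) (nat_lit 0) (XT.lf (nat_lit 0) (nat_lit 1336853276) (nat_lit 672) (nat_lit 5409647632) (nat_lit 756) (nat_lit 541444136) (nat_lit 139) (nat_lit 5) (nat_lit 147) (nat_lit 5) (nat_lit 148) (nat_lit 5) (nat_lit 303) (nat_lit 297) (nat_lit 261)) (XT.lf (nat_lit 0) (nat_lit 2761994390) (nat_lit 672) (nat_lit 2592401322) (nat_lit 756) (nat_lit 2004361949) (nat_lit 139) (nat_lit 5) (nat_lit 147) (nat_lit 5) (nat_lit 148) (nat_lit 5) (nat_lit 304) (nat_lit 297) (nat_lit 260)))) (XT.nd (nat_lit 188) (nat_lit 672) (nat_lit 0) (XT.nd (nat_lit 94) (nat_lit 0) (nat_lit 0) (XT.lf (nat_lit 84) (nat_lit 285687895) (nat_lit 0) (nat_lit 3896858419) (nat_lit 756) (nat_lit 3251082298) (nat_lit 140) (nat_lit 5) (nat_lit 139) (nat_lit 5) (nat_lit 148) (nat_lit 5) (nat_lit 305) (nat_lit 297) (nat_lit 259)) (XT.lf (nat_lit 84) (nat_lit 3276034201) (nat_lit 0) (nat_lit 2347792794)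 (nat_lit 756) (nat_lit 1888056881) (nat_lit 140) (nat_lit 5) (nat_lit 139) (nat_lit 5) (nat_lit 148) (nat_lit 5) (nat_lit 306) (nat_lit 297) (nat_lit 258))) (XT.nd (nat_lit 94) (nat_lit 672) (nat_lit 0) (XT.lf (nat_lit 84) (nat_lit 6328119823) (nat_lit 0) (nat_lit 732814301) (nat_lit 756) (nat_lit 533475888) (nat_lit 140) (nat_lit 5) (nat_lit 139) (nat_lit 5) (nat_lit 148) (nat_lit 5) (nat_lit 307) (nat_lit 297) (nat_lit 257)) (XT.nd (nat_lit 94) (nat_lit 0) (nat_lit 0) (XT.lf (nat_lit 0) (nat_lit 824981038) (nat_lit 756) (nat_lit 5898640300) (nat_lit 840) (nat_lit 956561154) (nat_lit 131) (nat_lit 5) (nat_lit 140) (nat_lit 5) (nat_lit 141) (nat_lit 5) (nat_lit 308) (nat_lit 297) (nat_lit 256)) (XT.lf (nat_lit 0) (nat_lit 2188433205) (nat_lit 756) (nat_lit 2863522278) (nat_lit 840) (nat_lit 2717597974) (nat_lit 131) (nat_lit 5) (nat_lit 140) (nat_lit 5) (nat_lit 141) (nat_lit 5) (nat_lit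 309) (nat_lit 297) (nat_lit 255)))))) (XT.nd (nat_lit 376) (nat_lit 1848) (nat_lit 0) (XT.nd (nat_lit 188) (nat_lit 672) (nat_lit 0) (XT.nd (nat_lit 94) (nat_lit 0) (nat_lit 0) (XT.lf (nat_lit 84) (nat_lit 238547029) (nat_lit 0) (nat_lit 3312498448) (nat_lit 840) (nat_lit 4312278271) (nat_lit 132) (nat_lit 5) (nat_lit 131) (nat_lit 5) (nat_lit 141) (nat_lit 5) (nat_lit 310) (nat_lit 297) (nat_lit 254)) (XT.lf (nat_lit 84) (nat_lit 3465865490) (nat_lit 0) (nat_lit 1475502826) (nat_lit 840) (nat_lit 3019366766) (nat_lit 132) (nat_lit 5) (nat_lit 131) (nat_lit 5) (nat_lit 141) (nat_lit 5) (nat_lit 311) (nat_lit 297) (nat_lit 253))) (XT.nd (nat_lit 94) (nat_lit 756) (nat_lit 0) (XT.lf (nat_lit 0) (nat_lit 6335981184) (nat_lit 756) (nat_lit 1304489682) (nat_lit 84) (nat_lit 422173599) (nat_lit 132) (nat_lit 5) (nat_lit 141) (nat_lit 5) (nat_lit 133) (nat_lit 5) (nat_lit 312) (nat_lit 297) (nat_lit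 252)) (XT.lf (nat_lit 0) (nat_lit 1978126867) (nat_lit 756) (nat_lit 5788745162) (nat_lit 840) (nat_lit 401323531) (nat_lit 123) (nat_lit 5) (nat_lit 132) (nat_lit 5) (nat_lit 133) (nat_lit 5) (nat_lit 313) (nat_lit 297) (nat_lit 251)))) (XT.nd (nat_lit 188) (nat_lit 924) (nat_lit 0) (XT.nd (nat_lit 94) (nat_lit 840) (nat_lit 0) (XT.lf (nat_lit 0) (nat_lit 918017443) (nat_lit 840) (nat_lit 2928363944) (nat_lit 84) (nat_lit 4431448492) (nat_lit 122) (nat_lit 5) (nat_lit 132) (nat_lit 5) (nat_lit 123) (nat_lit 5) (nat_lit 314) (nat_lit 297) (nat_lit 250)) (XT.lf (nat_lit 0) (nat_lit 407310899) (nat_lit 840) (nat_lit 1826500775) (nat_lit 924) (nat_lit 6158286907) (nat_lit 112) (nat_lit 5) (nat_lit 122) (nat_lit 5) (nat_lit 123) (nat_lit 5) (nat_lit 315) (nat_lit 297) (nat_lit 249))) (XT.nd (nat_lit 94) (nat_lit 924) (nat_lit 0) (XT.lf (nat_lit 0) (nat_lit 3584646301) (nat_lit 924) (nat_lit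 4635806531) (nat_lit 84) (nat_lit 289871239) (nat_lit 112) (nat_lit 5) (nat_lit 123) (nat_lit 5) (nat_lit 113) (nat_lit 5) (nat_lit 316) (nat_lit 297) (nat_lit 248)) (XT.nd (nat_lit 94) (nat_lit 924) (nat_lit 0) (XT.lf (nat_lit 0) (nat_lit 4958047816) (nat_lit 924) (nat_lit 1233175427) (nat_lit 84) (nat_lit 2441819012) (nat_lit 112) (nat_lit 5) (nat_lit 123) (nat_lit 5) (nat_lit 113) (nat_lit 5) (nat_lit 317) (nat_lit 297) (nat_lit 247)) (XT.lf (nat_lit 0) (nat_lit 2290545742) (nat_lit 924) (nat_lit 4069354018) (nat_lit 1008) (nat_lit 2400325060) (nat_lit 101) (nat_lit 5) (nat_lit 112) (nat_lit 5) (nat_lit 113) (nat_lit 5) (nat_lit 318) (nat_lit 297) (nat_lit 246))))))) (XT.nd (nat_lit 846) (nat_lit 1848) (nat_lit 0) (XT.nd (nat_lit 376) (nat_lit 1092) (nat_lit 0) (XT.nd (nat_lit 188) (nat_lit 0) (nat_lit 0) (XT.nd (nat_lit 94) (nat_lit 1092) (nat_lit 0) (XT.lf (nat_lit 0) (nat_lit 5919413248)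 (nat_lit 924) (nat_lit 1862628196) (nat_lit 1008) (nat_lit 1110242353) (nat_lit 101) (nat_lit 5) (nat_lit 112) (nat_lit 5) (nat_lit 113) (nat_lit 5) (nat_lit 319) (nat_lit 297) (nat_lit 245)) (XT.lf (nat_lit 0) (nat_lit 190187746) (nat_lit 1092) (nat_lit 8421475617) (nat_lit 84) (nat_lit 417690120) (nat_lit 88) (nat_lit 5) (nat_lit 101) (nat_lit 5) (nat_lit 89) (nat_lit 5) (nat_lit 320) (nat_lit 297) (nat_lit 244))) (XT.nd (nat_lit 94) (nat_lit 0) (nat_lit 0) (XT.lf (nat_lit 0) (nat_lit 1523567393) (nat_lit 1092) (nat_lit 4869051393) (nat_lit 84) (nat_lit 2777411571) (nat_lit 88) (nat_lit 5) (nat_lit 101) (nat_lit 5) (nat_lit 89) (nat_lit 5) (nat_lit 321) (nat_lit 297) (nat_lit 243)) (XT.lf (nat_lit 0) (nat_lit 2864625372) (nat_lit 1092) (nat_lit 1236832714) (nat_lit 84) (nat_lit 5214844255) (nat_lit 88) (nat_lit 5) (nat_lit 101) (nat_lit 5) (nat_lit 89) (nat_lit 5) (nat_lit 322) (nat_lit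 297) (nat_lit 242)))) (XT.nd (nat_lit 188) (nat_lit 504) (nat_lit 0) (XT.nd (nat_lit 94) (nat_lit 0) (nat_lit 0) (XT.lf (nat_lit 0) (nat_lit 2529530430) (nat_lit 588) (nat_lit 1710174513) (nat_lit 672) (nat_lit 5227822940) (nat_lit 81) (nat_lit 5) (nat_lit 88) (nat_lit 5) (nat_lit 89) (nat_lit 5) (nat_lit 323) (nat_lit 297) (nat_lit 241)) (XT.lf (nat_lit 0) (nat_lit 5646022372) (nat_lit 672) (nat_lit 3222113218) (nat_lit 84) (nat_lit 755838383) (nat_lit 81) (nat_lit 5) (nat_lit 89) (nat_lit 5) (nat_lit 82) (nat_lit 5) (nat_lit 324) (nat_lit 297) (nat_lit 240))) (XT.nd (nat_lit 94) (nat_lit 0) (nat_lit 0) (XT.lf (nat_lit 0) (nat_lit 573622260) (nat_lit 504) (nat_lit 6514531015) (nat_lit 588) (nat_lit 2697531950) (nat_lit 75) (nat_lit 5) (nat_lit 81) (nat_lit 5) (nat_lit 82) (nat_lit 5) (nat_lit 325) (nat_lit 297) (nat_lit 239)) (XT.nd (nat_lit 94) (nat_lit 0) (nat_lit 0) (XT.lf (nat_lit 0)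 (nat_lit 4526223053) (nat_lit 504) (nat_lit 4052077855) (nat_lit 588) (nat_lit 1374174834) (nat_lit 75) (nat_lit 5) (nat_lit 81) (nat_lit 5) (nat_lit 82) (nat_lit 5) (nat_lit 326) (nat_lit 297) (nat_lit 238)) (XT.lf (nat_lit 0) (nat_lit 8573120141) (nat_lit 504) (nat_lit 1512113098) (nat_lit 588) (nat_lit 40279002) (nat_lit 75) (nat_lit 5) (nat_lit 81) (nat_lit 5) (nat_lit 82) (nat_lit 5) (nat_lit 327) (nat_lit 297) (nat_lit 237)))))) (XT.nd (nat_lit 470) (nat_lit 840) (nat_lit 0) (XT.nd (nat_lit 188) (nat_lit 420) (nat_lit 0) (XT.nd (nat_lit 94) (nat_lit 0) (nat_lit 0) (XT.lf (nat_lit 0) (nat_lit 1314767466) (nat_lit 588) (nat_lit 7865638530) (nat_lit 84) (nat_lit 1123042819) (nat_lit 68) (nat_lit 5) (nat_lit 75) (nat_lit 5) (nat_lit 69) (nat_lit 5) (nat_lit 328) (nat_lit 297) (nat_lit 236)) (XT.lf (nat_lit 0) (nat_lit 2714445695) (nat_lit 588) (nat_lit 3946708054) (nat_lit 84) (nat_lit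 3825777016) (nat_lit 68) (nat_lit 5) (nat_lit 75) (nat_lit 5) (nat_lit 69) (nat_lit 5) (nat_lit 329) (nat_lit 297) (nat_lit 235))) (XT.nd (nat_lit 94) (nat_lit 0) (nat_lit 0) (XT.lf (nat_lit 0) (nat_lit 67043808) (nat_lit 420) (nat_lit 4063615471) (nat_lit 504) (nat_lit 6546418817) (nat_lit 63) (nat_lit 5) (nat_lit 68) (nat_lit 5) (nat_lit 69) (nat_lit 5) (nat_lit 330) (nat_lit 297) (nat_lit 234)) (XT.nd (nat_lit 94) (nat_lit 0) (nat_lit 0) (XT.lf (nat_lit 0) (nat_lit 4261157513) (nat_lit 420) (nat_lit 1343846105) (nat_lit 504) (nat_lit 5267815888) (nat_lit 63) (nat_lit 5) (nat_lit 68) (nat_lit 5) (nat_lit 69) (nat_lit 5) (nat_lit 331) (nat_lit 297) (nat_lit 233)) (XT.lf (nat_lit 0) (nat_lit 7113374442) (nat_lit 504) (nat_lit 2531664469) (nat_lit 84) (nat_lit 1430088370) (nat_lit 63) (nat_lit 5) (nat_lit 69) (nat_lit 5) (nat_lit 64) (nat_lit 5) (nat_lit 332) (nat_lit 297) (nat_lit 232)))))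 (XT.nd (nat_lit 188) (nat_lit 420) (nat_lit 0) (XT.nd (nat_lit 94) (nat_lit 0) (nat_lit 0) (XT.lf (nat_lit 0) (nat_lit 1667666820) (nat_lit 420) (nat_lit 7005748567) (nat_lit 504) (nat_lit 2610271240) (nat_lit 58) (nat_lit 5) (nat_lit 63) (nat_lit 5) (nat_lit 64) (nat_lit 5) (nat_lit 333) (nat_lit 297) (nat_lit 231)) (XT.lf (nat_lit 0) (nat_lit 6024119161) (nat_lit 420) (nat_lit 4259244499) (nat_lit 504) (nat_lit 1215428006) (nat_lit 58) (nat_lit 5) (nat_lit 63) (nat_lit 5) (nat_lit 64) (nat_lit 5) (nat_lit 334) (nat_lit 297) (nat_lit 230))) (XT.nd (nat_lit 94) (nat_lit 336) (nat_lit 0) (XT.lf (nat_lit 0) (nat_lit 193669377) (nat_lit 504) (nat_lit 1233701175) (nat_lit 84) (nat_lit 10294006120) (nat_lit 57) (nat_lit 5) (nat_lit 63) (nat_lit 5) (nat_lit 58) (nat_lit 5) (nat_lit 335) (nat_lit 297) (nat_lit 229)) (XT.nd (nat_lit 94) (nat_lit 0) (nat_lit 0) (XT.lf (nat_lit 0) (nat_lit 1644060725)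 (nat_lit 420) (nat_lit 8801276816) (nat_lit 84) (nat_lit 1504547330) (nat_lit 53) (nat_lit 5) (nat_lit 58) (nat_lit 5) (nat_lit 54) (nat_lit 5) (nat_lit 336) (nat_lit 297) (nat_lit 228)) (XT.lf (nat_lit 0) (nat_lit 3143698485) (nat_lit 420) (nat_lit 4533189458) (nat_lit 84) (nat_lit 4508569603) (nat_lit 53) (nat_lit 5) (nat_lit 58) (nat_lit 5) (nat_lit 54) (nat_lit 5) (nat_lit 337) (nat_lit 297) (nat_lit 227))))))))
noncomputable def xc66 : XT := (XT.nd (nat_lit 1692) (nat_lit 756) (nat_lit 0) (XT.nd (nat_lit 846) (nat_lit 924) (nat_lit 0) (XT.nd (nat_lit 376) (nat_lit 420) (nat_lit 0) (XT.nd (nat_lit 188) (nat_lit 336) (nat_lit 0) (XT.nd (nat_lit 94) (nat_lit 420) (nat_lit 0) (XT.lf (nat_lit 0) (nat_lit 4667202923) (nat_lit 420) (nat_lit 158304653) (nat_lit 84) (nat_lit 7603636804) (nat_lit 53) (nat_lit 5) (nat_lit 58) (nat_lit 5) (nat_lit 54) (nat_lit 5) (nat_lit 338) (nat_lit 297) (nat_lit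 226)) (XT.lf (nat_lit 0) (nat_lit 4416436808) (nat_lit 420) (nat_lit 1843368896) (nat_lit 504) (nat_lit 6420008652) (nat_lit 48) (nat_lit 5) (nat_lit 53) (nat_lit 5) (nat_lit 54) (nat_lit 5) (nat_lit 339) (nat_lit 297) (nat_lit 225))) (XT.nd (nat_lit 94) (nat_lit 336) (nat_lit 0) (XT.lf (nat_lit 0) (nat_lit 7894107650) (nat_lit 504) (nat_lit 3839320372) (nat_lit 84) (nat_lit 1205168494) (nat_lit 48) (nat_lit 5) (nat_lit 54) (nat_lit 5) (nat_lit 49) (nat_lit 5) (nat_lit 340) (nat_lit 297) (nat_lit 224)) (XT.lf (nat_lit 0) (nat_lit 692503464) (nat_lit 336) (nat_lit 8891386026) (nat_lit 420) (nat_lit 3621462602) (nat_lit 44) (nat_lit 5) (nat_lit 48) (nat_lit 5) (nat_lit 49) (nat_lit 5) (nat_lit 341) (nat_lit 297) (nat_lit 223)))) (XT.nd (nat_lit 188) (nat_lit 420) (nat_lit 0) (XT.nd (nat_lit 94) (nat_lit 0) (nat_lit 0) (XT.lf (nat_lit 0) (nat_lit 5421975049) (nat_lit 336) (nat_lit 5923635885)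 (nat_lit 420) (nat_lit 2134257374) (nat_lit 44) (nat_lit 5) (nat_lit 48) (nat_lit 5) (nat_lit 49) (nat_lit 5) (nat_lit 342) (nat_lit 297) (nat_lit 222)) (XT.lf (nat_lit 0) (nat_lit 10274558442) (nat_lit 336) (nat_lit 2867485976) (nat_lit 420) (nat_lit 621561581) (nat_lit 44) (nat_lit 5) (nat_lit 48) (nat_lit 5) (nat_lit 49) (nat_lit 5) (nat_lit 343) (nat_lit 297) (nat_lit 221))) (XT.nd (nat_lit 94) (nat_lit 0) (nat_lit 0) (XT.lf (nat_lit 0) (nat_lit 914567359) (nat_lit 420) (nat_lit 12845882121) (nat_lit 84) (nat_lit 295631943) (nat_lit 39) (nat_lit 5) (nat_lit 44) (nat_lit 5) (nat_lit 40) (nat_lit 5) (nat_lit 344) (nat_lit 297) (nat_lit 220)) (XT.nd (nat_lit 94) (nat_lit 0) (nat_lit 0) (XT.lf (nat_lit 0) (nat_lit 2532255872) (nat_lit 420) (nat_lit 8287158670) (nat_lit 84) (nat_lit 3536645854) (nat_lit 39) (nat_lit 5) (nat_lit 44) (nat_lit 5) (nat_lit 40) (nat_lit 5) (nat_lit 345) (nat_lit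 297) (nat_lit 219)) (XT.lf (nat_lit 0) (nat_lit 4181404328) (nat_lit 420) (nat_lit 3610097938) (nat_lit 84) (nat_lit 6874499457) (nat_lit 39) (nat_lit 5) (nat_lit 44) (nat_lit 5) (nat_lit 40) (nat_lit 5) (nat_lit 346) (nat_lit 297) (nat_lit 218)))))) (XT.nd (nat_lit 376) (nat_lit 336) (nat_lit 0) (XT.nd (nat_lit 188) (nat_lit 336) (nat_lit 0) (XT.nd (nat_lit 94) (nat_lit 0) (nat_lit 0) (XT.lf (nat_lit 0) (nat_lit 1214121425) (nat_lit 252) (nat_lit 4661472716) (nat_lit 336) (nat_lit 9110226788) (nat_lit 36) (nat_lit 5) (nat_lit 39) (nat_lit 5) (nat_lit 40) (nat_lit 5) (nat_lit 347) (nat_lit 297) (nat_lit 217)) (XT.lf (nat_lit 0) (nat_lit 6242357366) (nat_lit 252) (nat_lit 1399828135) (nat_lit 336) (nat_lit 7672831408) (nat_lit 36) (nat_lit 5) (nat_lit 39) (nat_lit 5) (nat_lit 40) (nat_lit 5) (nat_lit 348) (nat_lit 297) (nat_lit 216))) (XT.nd (nat_lit 94) (nat_lit 336) (nat_lit 0) (XT.lf (nat_lit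 0) (nat_lit 9465707492) (nat_lit 336) (nat_lit 4269395254) (nat_lit 84) (nat_lit 1919324405) (nat_lit 36) (nat_lit 5) (nat_lit 40) (nat_lit 5) (nat_lit 37) (nat_lit 5) (nat_lit 349) (nat_lit 297) (nat_lit 215)) (XT.lf (nat_lit 0) (nat_lit 660447082) (nat_lit 336) (nat_lit 10689394425) (nat_lit 420) (nat_lit 4654465083) (nat_lit 32) (nat_lit 5) (nat_lit 36) (nat_lit 5) (nat_lit 37) (nat_lit 5) (nat_lit 350) (nat_lit 297) (nat_lit 214)))) (XT.nd (nat_lit 188) (nat_lit 336) (nat_lit 0) (XT.nd (nat_lit 94) (nat_lit 0) (nat_lit 0) (XT.lf (nat_lit 0) (nat_lit 5812526506) (nat_lit 336) (nat_lit 7507930506) (nat_lit 420) (nat_lit 3043776826) (nat_lit 32) (nat_lit 5) (nat_lit 36) (nat_lit 5) (nat_lit 37) (nat_lit 5) (nat_lit 351) (nat_lit 297) (nat_lit 213)) (XT.lf (nat_lit 0) (nat_lit 11103857773) (nat_lit 336) (nat_lit 4232309263) (nat_lit 420) (nat_lit 1399717288) (nat_lit 32) (nat_lit 5) (nat_lit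 36) (nat_lit 5) (nat_lit 37) (nat_lit 5) (nat_lit 352) (nat_lit 297) (nat_lit 212))) (XT.nd (nat_lit 94) (nat_lit 252) (nat_lit 0) (XT.lf (nat_lit 0) (nat_lit 273619783) (nat_lit 420) (nat_lit 583001661) (nat_lit 84) (nat_lit 16262897145) (nat_lit 31) (nat_lit 5) (nat_lit 36) (nat_lit 5) (nat_lit 32) (nat_lit 5) (nat_lit 353) (nat_lit 297) (nat_lit 211)) (XT.nd (nat_lit 94) (nat_lit 0) (nat_lit 0) (XT.lf (nat_lit 0) (nat_lit 2027550862) (nat_lit 336) (nat_lit 12857354059) (nat_lit 84) (nat_lit 2627968695) (nat_lit 28) (nat_lit 5) (nat_lit 32) (nat_lit 5) (nat_lit 29) (nat_lit 5) (nat_lit 354) (nat_lit 297) (nat_lit 210)) (XT.lf (nat_lit 0) (nat_lit 3835719623) (nat_lit 336) (nat_lit 7878175193) (nat_lit 84) (nat_lit 6204593644) (nat_lit 28) (nat_lit 5) (nat_lit 32) (nat_lit 5) (nat_lit 29) (nat_lit 5) (nat_lit 355) (nat_lit 297) (nat_lit 209))))))) (XT.nd (nat_lit 846) (nat_lit 0) (nat_lit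 0) (XT.nd (nat_lit 376) (nat_lit 504) (nat_lit 0) (XT.nd (nat_lit 188) (nat_lit 0) (nat_lit 0) (XT.nd (nat_lit 94) (nat_lit 252) (nat_lit 0) (XT.lf (nat_lit 0) (nat_lit 5685350943) (nat_lit 336) (nat_lit 2763955062) (nat_lit 84) (nat_lit 9887883471) (nat_lit 28) (nat_lit 5) (nat_lit 32) (nat_lit 5) (nat_lit 29) (nat_lit 5) (nat_lit 356) (nat_lit 297) (nat_lit 208)) (XT.lf (nat_lit 0) (nat_lit 2541274336) (nat_lit 252) (nat_lit 5062104291) (nat_lit 336) (nat_lit 11165206805) (nat_lit 25) (nat_lit 5) (nat_lit 28) (nat_lit 5) (nat_lit 29) (nat_lit 5) (nat_lit 357) (nat_lit 297) (nat_lit 207))) (XT.nd (nat_lit 94) (nat_lit 0) (nat_lit 0) (XT.lf (nat_lit 0) (nat_lit 8051017321) (nat_lit 252) (nat_lit 1544787481) (nat_lit 336) (nat_lit 9617142991) (nat_lit 25) (nat_lit 5) (nat_lit 28) (nat_lit 5) (nat_lit 29) (nat_lit 5) (nat_lit 358) (nat_lit 297) (nat_lit 206)) (XT.lf (nat_lit 0) (nat_lit 11657108874)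 (nat_lit 336) (nat_lit 5978586063) (nat_lit 84) (nat_lit 2035224521) (nat_lit 25) (nat_lit 5) (nat_lit 29) (nat_lit 5) (nat_lit 26) (nat_lit 5) (nat_lit 359) (nat_lit 297) (nat_lit 205)))) (XT.nd (nat_lit 188) (nat_lit 336) (nat_lit 0) (XT.nd (nat_lit 94) (nat_lit 168) (nat_lit 0) (XT.lf (nat_lit 0) (nat_lit 13784983227) (nat_lit 336) (nat_lit 668217484) (nat_lit 84) (nat_lit 5689857695) (nat_lit 25) (nat_lit 5) (nat_lit 29) (nat_lit 5) (nat_lit 26) (nat_lit 5) (nat_lit 360) (nat_lit 297) (nat_lit 204)) (XT.lf (nat_lit 0) (nat_lit 4887930476) (nat_lit 168) (nat_lit 11126645179) (nat_lit 252) (nat_lit 4614200967) (nat_lit 23) (nat_lit 5) (nat_lit 25) (nat_lit 5) (nat_lit 26) (nat_lit 5) (nat_lit 361) (nat_lit 297) (nat_lit 203))) (XT.nd (nat_lit 94) (nat_lit 336) (nat_lit 0) (XT.lf (nat_lit 0) (nat_lit 10613337310) (nat_lit 168) (nat_lit 7694400858) (nat_lit 252) (nat_lit 2822035690) (nat_lit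 23) (nat_lit 5) (nat_lit 25) (nat_lit 5) (nat_lit 26) (nat_lit 5) (nat_lit 362) (nat_lit 297) (nat_lit 202)) (XT.nd (nat_lit 94) (nat_lit 336) (nat_lit 0) (XT.lf (nat_lit 0) (nat_lit 16499599775) (nat_lit 168) (nat_lit 4160243358) (nat_lit 252) (nat_lit 986883682) (nat_lit 23) (nat_lit 5) (nat_lit 25) (nat_lit 5) (nat_lit 26) (nat_lit 5) (nat_lit 363) (nat_lit 297) (nat_lit 201)) (XT.lf (nat_lit 0) (nat_lit 370697536) (nat_lit 252) (nat_lit 507954171) (nat_lit 336) (nat_lit 21301077033) (nat_lit 19) (nat_lit 5) (nat_lit 22) (nat_lit 5) (nat_lit 23) (nat_lit 5) (nat_lit 364) (nat_lit 297) (nat_lit 200)))))) (XT.nd (nat_lit 47846) (nat_lit 0) (nat_lit 9996) (XT.nd (nat_lit 188) (nat_lit 0) (nat_lit 0) (XT.nd (nat_lit 94) (nat_lit 0) (nat_lit 0) (XT.lf (nat_lit 0) (nat_lit 2856315543) (nat_lit 336) (nat_lit 16618475784) (nat_lit 84) (nat_lit 3251874867) (nat_lit 19) (nat_lit 5) (nat_lit 23)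 (nat_lit 5) (nat_lit 20) (nat_lit 5) (nat_lit 365) (nat_lit 297) (nat_lit 199)) (XT.lf (nat_lit 0) (nat_lit 4889043191) (nat_lit 336) (nat_lit 11288328855) (nat_lit 84) (nat_lit 7113422962) (nat_lit 19) (nat_lit 5) (nat_lit 23) (nat_lit 5) (nat_lit 20) (nat_lit 5) (nat_lit 366) (nat_lit 297) (nat_lit 198))) (XT.nd (nat_lit 94) (nat_lit 0) (nat_lit 0) (XT.lf (nat_lit 0) (nat_lit 6973690397) (nat_lit 336) (nat_lit 5808583194) (nat_lit 84) (nat_lit 11090523626) (nat_lit 19) (nat_lit 5) (nat_lit 23) (nat_lit 5) (nat_lit 20) (nat_lit 5) (nat_lit 367) (nat_lit 297) (nat_lit 197)) (XT.nd (nat_lit 47470) (nat_lit 0) (nat_lit 10668) (XT.lf (nat_lit 0) (nat_lit 9112200272) (nat_lit 336) (nat_lit 174131102) (nat_lit 84) (nat_lit 15186883932) (nat_lit 19) (nat_lit 5) (nat_lit 23) (nat_lit 5) (nat_lit 20) (nat_lit 5) (nat_lit 368) (nat_lit 297) (nat_lit 196)) (XT.lf (nat_lit 0) (nat_lit 650885990) (nat_lit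 0) (nat_lit 650885990) (nat_lit 588) (nat_lit 2216561675) (nat_lit 146) (nat_lit 5) (nat_lit 146) (nat_lit 3) (nat_lit 153) (nat_lit 3) (nat_lit 298) (nat_lit 298) (nat_lit 265))))) (XT.nd (nat_lit 188) (nat_lit 672) (nat_lit 0) (XT.nd (nat_lit 94) (nat_lit 0) (nat_lit 0) (XT.lf (nat_lit 0) (nat_lit 3956471027) (nat_lit 0) (nat_lit 106806374) (nat_lit 588) (nat_lit 3028301209) (nat_lit 146) (nat_lit 5) (nat_lit 146) (nat_lit 3) (nat_lit 153) (nat_lit 3) (nat_lit 299) (nat_lit 298) (nat_lit 264)) (XT.lf (nat_lit 0) (nat_lit 5522513793) (nat_lit 588) (nat_lit 496951860) (nat_lit 672) (nat_lit 1130553971) (nat_lit 146) (nat_lit 5) (nat_lit 153) (nat_lit 3) (nat_lit 154) (nat_lit 5) (nat_lit 300) (nat_lit 298) (nat_lit 263))) (XT.nd (nat_lit 94) (nat_lit 672) (nat_lit 0) (XT.lf (nat_lit 84) (nat_lit 2236832214) (nat_lit 0) (nat_lit 4758236583) (nat_lit 672) (nat_lit 216589911) (nat_lit 147)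 (nat_lit 5) (nat_lit 146) (nat_lit 5) (nat_lit 154) (nat_lit 5) (nat_lit 301) (nat_lit 298) (nat_lit 262)) (XT.nd (nat_lit 94) (nat_lit 0) (nat_lit 0) (XT.lf (nat_lit 0) (nat_lit 1163596637) (nat_lit 672) (nat_lit 2252807635) (nat_lit 756) (nat_lit 3860332262) (nat_lit 138) (nat_lit 5) (nat_lit 146) (nat_lit 5) (nat_lit 147) (nat_lit 5) (nat_lit 302) (nat_lit 298) (nat_lit 261)) (XT.lf (nat_lit 84) (nat_lit 531709460) (nat_lit 0) (nat_lit 2002517943) (nat_lit 756) (nat_lit 4811381025) (nat_lit 139) (nat_lit 5) (nat_lit 138) (nat_lit 5) (nat_lit 147) (nat_lit 5) (nat_lit 303) (nat_lit 298) (nat_lit 260))))))))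
noncomputable def xc67 : XT := (XT.nd (nat_lit 1786) (nat_lit 3360) (nat_lit 0) (XT.nd (nat_lit 846) (nat_lit 3528) (nat_lit 0) (XT.nd (nat_lit 376) (nat_lit 0) (nat_lit 0) (XT.nd (nat_lit 188) (nat_lit 672) (nat_lit 0) (XT.nd (nat_lit 94) (nat_lit 0) (nat_lit 84) (XT.lf (nat_lit 84) (nat_lit 3420230611) (nat_lit 0) (nat_lit 498813476) (nat_lit 756) (nat_lit 3498799993) (nat_lit 139) (nat_lit 5) (nat_lit 138) (nat_lit 5) (nat_lit 147) (nat_lit 5) (nat_lit 304) (nat_lit 298) (nat_lit 259)) (XT.lf (nat_lit 0) (nat_lit 5307170115) (nat_lit 672) (nat_lit 1135732271) (nat_lit 756) (nat_lit 1050985625) (nat_lit 139) (nat_lit 5) (nat_lit 147) (nat_lit 5) (nat_lit 148) (nat_lit 5) (nat_lit 305) (nat_lit 298) (nat_lit 258))) (XT.nd (nat_lit 94) (nat_lit 756) (nat_lit 0) (XT.lf (nat_lit 84) (nat_lit 1816016628) (nat_lit 0) (nat_lit 4896882105) (nat_lit 756) (nat_lit 860509387) (nat_lit 140) (nat_lit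 5) (nat_lit 139) (nat_lit 5) (nat_lit 148) (nat_lit 5) (nat_lit 306) (nat_lit 298) (nat_lit 257)) (XT.lf (nat_lit 0) (nat_lit 460393341) (nat_lit 756) (nat_lit 2808160216) (nat_lit 840) (nat_lit 4388117293) (nat_lit 130) (nat_lit 5) (nat_lit 139) (nat_lit 5) (nat_lit 140) (nat_lit 5) (nat_lit 307) (nat_lit 298) (nat_lit 256)))) (XT.nd (nat_lit 188) (nat_lit 0) (nat_lit 84) (XT.nd (nat_lit 94) (nat_lit 0) (nat_lit 84) (XT.lf (nat_lit 84) (nat_lit 197280956) (nat_lit 0) (nat_lit 1562311027) (nat_lit 840) (nat_lit 5984339587) (nat_lit 131) (nat_lit 5) (nat_lit 130) (nat_lit 5) (nat_lit 140) (nat_lit 5) (nat_lit 308) (nat_lit 298) (nat_lit 255)) (XT.lf (nat_lit 0) (nat_lit 3085156207) (nat_lit 756) (nat_lit 4511762272) (nat_lit 840) (nat_lit 237702606) (nat_lit 131) (nat_lit 5) (nat_lit 140) (nat_lit 5) (nat_lit 141) (nat_lit 5) (nat_lit 309) (nat_lit 298) (nat_lit 254))) (XT.nd (nat_lit 94)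 (nat_lit 0) (nat_lit 0) (XT.lf (nat_lit 0) (nat_lit 4423685650) (nat_lit 756) (nat_lit 1429754245) (nat_lit 840) (nat_lit 2075837746) (nat_lit 131) (nat_lit 5) (nat_lit 140) (nat_lit 5) (nat_lit 141) (nat_lit 5) (nat_lit 310) (nat_lit 298) (nat_lit 253)) (XT.nd (nat_lit 94) (nat_lit 0) (nat_lit 0) (XT.lf (nat_lit 84) (nat_lit 1753064888) (nat_lit 0) (nat_lit 4025255373) (nat_lit 840) (nat_lit 2249610542) (nat_lit 132) (nat_lit 5) (nat_lit 131) (nat_lit 5) (nat_lit 141) (nat_lit 5) (nat_lit 311) (nat_lit 298) (nat_lit 252)) (XT.lf (nat_lit 84) (nat_lit 5035114207) (nat_lit 0) (nat_lit 2112969382) (nat_lit 840) (nat_lit 982658353) (nat_lit 132) (nat_lit 5) (nat_lit 131) (nat_lit 5) (nat_lit 141) (nat_lit 5) (nat_lit 312) (nat_lit 298) (nat_lit 251)))))) (XT.nd (nat_lit 470) (nat_lit 2016) (nat_lit 0) (XT.nd (nat_lit 188) (nat_lit 756) (nat_lit 0) (XT.nd (nat_lit 94) (nat_lit 0) (nat_lit 84)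 (XT.lf (nat_lit 84) (nat_lit 152069767) (nat_lit 0) (nat_lit 125288551) (nat_lit 924) (nat_lit 7960763955) (nat_lit 122) (nat_lit 5) (nat_lit 121) (nat_lit 5) (nat_lit 132) (nat_lit 5) (nat_lit 313) (nat_lit 298) (nat_lit 250)) (XT.lf (nat_lit 0) (nat_lit 1567601830) (nat_lit 840) (nat_lit 4842469891) (nat_lit 84) (nat_lit 1938332736) (nat_lit 122) (nat_lit 5) (nat_lit 132) (nat_lit 5) (nat_lit 123) (nat_lit 5) (nat_lit 314) (nat_lit 298) (nat_lit 249))) (XT.nd (nat_lit 94) (nat_lit 840) (nat_lit 0) (XT.lf (nat_lit 0) (nat_lit 2860181083) (nat_lit 840) (nat_lit 1529922726) (nat_lit 84) (nat_lit 4073405327) (nat_lit 122) (nat_lit 5) (nat_lit 132) (nat_lit 5) (nat_lit 123) (nat_lit 5) (nat_lit 315) (nat_lit 298) (nat_lit 248)) (XT.nd (nat_lit 94) (nat_lit 0) (nat_lit 0) (XT.lf (nat_lit 0) (nat_lit 1894081017) (nat_lit 840) (nat_lit 2279766519) (nat_lit 924) (nat_lit 4409152117) (nat_lit 112)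 (nat_lit 5) (nat_lit 122) (nat_lit 5) (nat_lit 123) (nat_lit 5) (nat_lit 316) (nat_lit 298) (nat_lit 247)) (XT.lf (nat_lit 0) (nat_lit 5427566129) (nat_lit 840) (nat_lit 79715597) (nat_lit 924) (nat_lit 3199784523) (nat_lit 112) (nat_lit 5) (nat_lit 122) (nat_lit 5) (nat_lit 123) (nat_lit 5) (nat_lit 317) (nat_lit 298) (nat_lit 246))))) (XT.nd (nat_lit 188) (nat_lit 1092) (nat_lit 0) (XT.nd (nat_lit 94) (nat_lit 0) (nat_lit 0) (XT.lf (nat_lit 0) (nat_lit 188066338) (nat_lit 924) (nat_lit 6681822646) (nat_lit 1008) (nat_lit 1965682547) (nat_lit 101) (nat_lit 5) (nat_lit 112) (nat_lit 5) (nat_lit 113) (nat_lit 5) (nat_lit 318) (nat_lit 298) (nat_lit 245)) (XT.lf (nat_lit 0) (nat_lit 3802496283) (nat_lit 924) (nat_lit 4472323229) (nat_lit 1008) (nat_lit 693447485) (nat_lit 101) (nat_lit 5) (nat_lit 112) (nat_lit 5) (nat_lit 113) (nat_lit 5) (nat_lit 319) (nat_lit 298) (nat_lit 244))) (XT.nd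 (nat_lit 94) (nat_lit 1008) (nat_lit 0) (XT.lf (nat_lit 0) (nat_lit 571320690) (nat_lit 1008) (nat_lit 1611581428) (nat_lit 84) (nat_lit 6923248434) (nat_lit 100) (nat_lit 5) (nat_lit 112) (nat_lit 5) (nat_lit 101) (nat_lit 5) (nat_lit 320) (nat_lit 298) (nat_lit 243)) (XT.nd (nat_lit 94) (nat_lit 0) (nat_lit 0) (XT.lf (nat_lit 0) (nat_lit 1849991628) (nat_lit 1092) (nat_lit 7192063308) (nat_lit 84) (nat_lit 206562392) (nat_lit 88) (nat_lit 5) (nat_lit 101) (nat_lit 5) (nat_lit 89) (nat_lit 5) (nat_lit 321) (nat_lit 298) (nat_lit 242)) (XT.lf (nat_lit 0) (nat_lit 3174976510) (nat_lit 1092) (nat_lit 3574329471) (nat_lit 84) (nat_lit 2646172704) (nat_lit 88) (nat_lit 5) (nat_lit 101) (nat_lit 5) (nat_lit 89) (nat_lit 5) (nat_lit 322) (nat_lit 298) (nat_lit 241))))))) (XT.nd (nat_lit 846) (nat_lit 1260) (nat_lit 0) (XT.nd (nat_lit 376) (nat_lit 1008) (nat_lit 0) (XT.nd (nat_lit 188) (nat_lit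 504) (nat_lit 0) (XT.nd (nat_lit 94) (nat_lit 0) (nat_lit 0) (XT.lf (nat_lit 0) (nat_lit 129631749) (nat_lit 588) (nat_lit 4381027228) (nat_lit 672) (nat_lit 5037354930) (nat_lit 81) (nat_lit 5) (nat_lit 88) (nat_lit 5) (nat_lit 89) (nat_lit 5) (nat_lit 323) (nat_lit 298) (nat_lit 240)) (XT.lf (nat_lit 0) (nat_lit 3995944400) (nat_lit 588) (nat_lit 1898120800) (nat_lit 672) (nat_lit 3811190756) (nat_lit 81) (nat_lit 5) (nat_lit 88) (nat_lit 5) (nat_lit 89) (nat_lit 5) (nat_lit 324) (nat_lit 298) (nat_lit 239))) (XT.nd (nat_lit 94) (nat_lit 504) (nat_lit 0) (XT.lf (nat_lit 0) (nat_lit 7296888903) (nat_lit 672) (nat_lit 1920347564) (nat_lit 84) (nat_lit 651032399) (nat_lit 81) (nat_lit 5) (nat_lit 89) (nat_lit 5) (nat_lit 82) (nat_lit 5) (nat_lit 325) (nat_lit 298) (nat_lit 238)) (XT.lf (nat_lit 0) (nat_lit 1978865255) (nat_lit 504) (nat_lit 6774248994) (nat_lit 588) (nat_lit 1283077360) (nat_lit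 75) (nat_lit 5) (nat_lit 81) (nat_lit 5) (nat_lit 82) (nat_lit 5) (nat_lit 326) (nat_lit 298) (nat_lit 237)))) (XT.nd (nat_lit 188) (nat_lit 924) (nat_lit 0) (XT.nd (nat_lit 94) (nat_lit 0) (nat_lit 0) (XT.lf (nat_lit 0) (nat_lit 35529217) (nat_lit 588) (nat_lit 4197822769) (nat_lit 84) (nat_lit 5976378579) (nat_lit 74) (nat_lit 5) (nat_lit 81) (nat_lit 5) (nat_lit 75) (nat_lit 5) (nat_lit 327) (nat_lit 298) (nat_lit 236)) (XT.lf (nat_lit 0) (nat_lit 1340258241) (nat_lit 588) (nat_lit 259086664) (nat_lit 84) (nat_lit 8789918108) (nat_lit 74) (nat_lit 5) (nat_lit 81) (nat_lit 5) (nat_lit 75) (nat_lit 5) (nat_lit 328) (nat_lit 298) (nat_lit 235))) (XT.nd (nat_lit 94) (nat_lit 420) (nat_lit 0) (XT.lf (nat_lit 0) (nat_lit 2707871070) (nat_lit 588) (nat_lit 6732729651) (nat_lit 84) (nat_lit 1133209636) (nat_lit 68) (nat_lit 5) (nat_lit 75) (nat_lit 5) (nat_lit 69) (nat_lit 5) (nat_lit 329) (nat_lit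 298) (nat_lit 234)) (XT.nd (nat_lit 94) (nat_lit 420) (nat_lit 0) (XT.lf (nat_lit 0) (nat_lit 4110277133) (nat_lit 588) (nat_lit 2733708115) (nat_lit 84) (nat_lit 3920469692) (nat_lit 68) (nat_lit 5) (nat_lit 75) (nat_lit 5) (nat_lit 69) (nat_lit 5) (nat_lit 330) (nat_lit 298) (nat_lit 233)) (XT.lf (nat_lit 0) (nat_lit 1390950857) (nat_lit 420) (nat_lit 4153115619) (nat_lit 504) (nat_lit 5417454218) (nat_lit 63) (nat_lit 5) (nat_lit 68) (nat_lit 5) (nat_lit 69) (nat_lit 5) (nat_lit 331) (nat_lit 298) (nat_lit 232)))))) (XT.nd (nat_lit 470) (nat_lit 756) (nat_lit 0) (XT.nd (nat_lit 188) (nat_lit 504) (nat_lit 0) (XT.nd (nat_lit 94) (nat_lit 0) (nat_lit 0) (XT.lf (nat_lit 0) (nat_lit 5675337480) (nat_lit 420) (nat_lit 1350130037) (nat_lit 504) (nat_lit 4139262135) (nat_lit 63) (nat_lit 5) (nat_lit 68) (nat_lit 5) (nat_lit 69) (nat_lit 5) (nat_lit 332) (nat_lit 298) (nat_lit 231)) (XT.lf (nat_lit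 0) (nat_lit 8543452303) (nat_lit 504) (nat_lit 1323162154) (nat_lit 84) (nat_lit 1508041443) (nat_lit 63) (nat_lit 5) (nat_lit 69) (nat_lit 5) (nat_lit 64) (nat_lit 5) (nat_lit 333) (nat_lit 298) (nat_lit 230))) (XT.nd (nat_lit 94) (nat_lit 84) (nat_lit 0) (XT.lf (nat_lit 0) (nat_lit 2993318849) (nat_lit 420) (nat_lit 7134804432) (nat_lit 504) (nat_lit 1462482517) (nat_lit 58) (nat_lit 5) (nat_lit 63) (nat_lit 5) (nat_lit 64) (nat_lit 5) (nat_lit 334) (nat_lit 298) (nat_lit 229)) (XT.nd (nat_lit 94) (nat_lit 84) (nat_lit 0) (XT.lf (nat_lit 0) (nat_lit 7446516086) (nat_lit 420) (nat_lit 4305808392) (nat_lit 504) (nat_lit 61343780) (nat_lit 58) (nat_lit 5) (nat_lit 63) (nat_lit 5) (nat_lit 64) (nat_lit 5) (nat_lit 335) (nat_lit 298) (nat_lit 228)) (XT.lf (nat_lit 0) (nat_lit 1332312445) (nat_lit 504) (nat_lit 44581459) (nat_lit 84) (nat_lit 10667154421) (nat_lit 57) (nat_lit 5) (nat_lit 63)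 (nat_lit 5) (nat_lit 58) (nat_lit 5) (nat_lit 336) (nat_lit 298) (nat_lit 227))))) (XT.nd (nat_lit 188) (nat_lit 420) (nat_lit 0) (XT.nd (nat_lit 94) (nat_lit 0) (nat_lit 0) (XT.lf (nat_lit 0) (nat_lit 2806696882) (nat_lit 420) (nat_lit 7820371453) (nat_lit 84) (nat_lit 1653389739) (nat_lit 53) (nat_lit 5) (nat_lit 58) (nat_lit 5) (nat_lit 54) (nat_lit 5) (nat_lit 337) (nat_lit 298) (nat_lit 226)) (XT.lf (nat_lit 0) (nat_lit 4319397827) (nat_lit 420) (nat_lit 3457670858) (nat_lit 84) (nat_lit 4747463720) (nat_lit 53) (nat_lit 5) (nat_lit 58) (nat_lit 5) (nat_lit 54) (nat_lit 5) (nat_lit 338) (nat_lit 298) (nat_lit 225))) (XT.nd (nat_lit 94) (nat_lit 0) (nat_lit 0) (XT.lf (nat_lit 0) (nat_lit 1037168010) (nat_lit 420) (nat_lit 4830831179) (nat_lit 504) (nat_lit 6908618244) (nat_lit 48) (nat_lit 5) (nat_lit 53) (nat_lit 5) (nat_lit 54) (nat_lit 5) (nat_lit 339) (nat_lit 298) (nat_lit 224))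 (XT.nd (nat_lit 94) (nat_lit 0) (nat_lit 0) (XT.lf (nat_lit 0) (nat_lit 5720888622) (nat_lit 420) (nat_lit 1758931632) (nat_lit 504) (nat_lit 5556325721) (nat_lit 48) (nat_lit 5) (nat_lit 53) (nat_lit 5) (nat_lit 54) (nat_lit 5) (nat_lit 340) (nat_lit 298) (nat_lit 223)) (XT.lf (nat_lit 0) (nat_lit 9135299363) (nat_lit 504) (nat_lit 2791626994) (nat_lit 84) (nat_lit 1377086567) (nat_lit 48) (nat_lit 5) (nat_lit 54) (nat_lit 5) (nat_lit 49) (nat_lit 5) (nat_lit 341) (nat_lit 298) (nat_lit 222))))))))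
noncomputable def xc68 : XT := (XT.nd (nat_lit 1692) (nat_lit 504) (nat_lit 0) (XT.nd (nat_lit 846) (nat_lit 924) (nat_lit 0) (XT.nd (nat_lit 376) (nat_lit 252) (nat_lit 0) (XT.nd (nat_lit 188) (nat_lit 420) (nat_lit 0) (XT.nd (nat_lit 94) (nat_lit 0) (nat_lit 0) (XT.lf (nat_lit 0) (nat_lit 1868871467) (nat_lit 336) (nat_lit 8990087842) (nat_lit 420) (nat_lit 2720796282) (nat_lit 44) (nat_lit 5) (nat_lit 48) (nat_lit 5) (nat_lit 49) (nat_lit 5) (nat_lit 342) (nat_lit 298) (nat_lit 221)) (XT.lf (nat_lit 0) (nat_lit 6710231246) (nat_lit 336) (nat_lit 5935657394) (nat_lit 420) (nat_lit 1217944415) (nat_lit 44) (nat_lit 5) (nat_lit 48) (nat_lit 5) (nat_lit 49) (nat_lit 5) (nat_lit 343) (nat_lit 298) (nat_lit 220))) (XT.nd (nat_lit 94) (nat_lit 336) (nat_lit 0) (XT.lf (nat_lit 0) (nat_lit 305815794) (nat_lit 420) (nat_lit 2480918941) (nat_lit 84) (nat_lit 11370555537) (nat_lit 43) (nat_lit 5)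 (nat_lit 48) (nat_lit 5) (nat_lit 44) (nat_lit 5) (nat_lit 344) (nat_lit 298) (nat_lit 219)) (XT.lf (nat_lit 0) (nat_lit 1861284012) (nat_lit 420) (nat_lit 12114691705) (nat_lit 84) (nat_lit 483263551) (nat_lit 39) (nat_lit 5) (nat_lit 44) (nat_lit 5) (nat_lit 40) (nat_lit 5) (nat_lit 345) (nat_lit 298) (nat_lit 218)))) (XT.nd (nat_lit 188) (nat_lit 252) (nat_lit 0) (XT.nd (nat_lit 94) (nat_lit 0) (nat_lit 0) (XT.lf (nat_lit 0) (nat_lit 3501507565) (nat_lit 420) (nat_lit 7448606892) (nat_lit 84) (nat_lit 3819382766) (nat_lit 39) (nat_lit 5) (nat_lit 44) (nat_lit 5) (nat_lit 40) (nat_lit 5) (nat_lit 346) (nat_lit 298) (nat_lit 217)) (XT.lf (nat_lit 0) (nat_lit 5174996592) (nat_lit 420) (nat_lit 2659495264) (nat_lit 84) (nat_lit 7255505050) (nat_lit 39) (nat_lit 5) (nat_lit 44) (nat_lit 5) (nat_lit 40) (nat_lit 5) (nat_lit 347) (nat_lit 298) (nat_lit 216))) (XT.nd (nat_lit 94) (nat_lit 0)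 (nat_lit 0) (XT.lf (nat_lit 0) (nat_lit 2303517882) (nat_lit 252) (nat_lit 4602644262) (nat_lit 336) (nat_lit 8514166531) (nat_lit 36) (nat_lit 5) (nat_lit 39) (nat_lit 5) (nat_lit 40) (nat_lit 5) (nat_lit 348) (nat_lit 298) (nat_lit 215)) (XT.nd (nat_lit 94) (nat_lit 0) (nat_lit 0) (XT.lf (nat_lit 0) (nat_lit 7456004967) (nat_lit 252) (nat_lit 1246002528) (nat_lit 336) (nat_lit 7058625857) (nat_lit 36) (nat_lit 5) (nat_lit 39) (nat_lit 5) (nat_lit 40) (nat_lit 5) (nat_lit 349) (nat_lit 298) (nat_lit 214)) (XT.lf (nat_lit 0) (nat_lit 10559212992) (nat_lit 336) (nat_lit 3385910276) (nat_lit 84) (nat_lit 2166259668) (nat_lit 36) (nat_lit 5) (nat_lit 40) (nat_lit 5) (nat_lit 37) (nat_lit 5) (nat_lit 350) (nat_lit 298) (nat_lit 213)))))) (XT.nd (nat_lit 376) (nat_lit 252) (nat_lit 0) (XT.nd (nat_lit 188) (nat_lit 336) (nat_lit 0) (XT.nd (nat_lit 94) (nat_lit 0) (nat_lit 0) (XT.lf (nat_lit 0)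 (nat_lit 1686472743) (nat_lit 336) (nat_lit 10801201239) (nat_lit 420) (nat_lit 3984977293) (nat_lit 32) (nat_lit 5) (nat_lit 36) (nat_lit 5) (nat_lit 37) (nat_lit 5) (nat_lit 351) (nat_lit 298) (nat_lit 212)) (XT.lf (nat_lit 0) (nat_lit 6968031803) (nat_lit 336) (nat_lit 7527713778) (nat_lit 420) (nat_lit 2348826237) (nat_lit 32) (nat_lit 5) (nat_lit 36) (nat_lit 5) (nat_lit 37) (nat_lit 5) (nat_lit 352) (nat_lit 298) (nat_lit 211))) (XT.nd (nat_lit 94) (nat_lit 336) (nat_lit 0) (XT.lf (nat_lit 0) (nat_lit 12394068611) (nat_lit 336) (nat_lit 4156951613) (nat_lit 420) (nat_lit 677533674) (nat_lit 32) (nat_lit 5) (nat_lit 36) (nat_lit 5) (nat_lit 37) (nat_lit 5) (nat_lit 353) (nat_lit 298) (nat_lit 210)) (XT.lf (nat_lit 0) (nat_lit 341340352) (nat_lit 252) (nat_lit 671742567) (nat_lit 336) (nat_lit 16611450642) (nat_lit 28) (nat_lit 5) (nat_lit 31) (nat_lit 5) (nat_lit 32) (nat_lit 5) (nat_lit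 354) (nat_lit 298) (nat_lit 209)))) (XT.nd (nat_lit 188) (nat_lit 252) (nat_lit 0) (XT.nd (nat_lit 94) (nat_lit 0) (nat_lit 0) (XT.lf (nat_lit 0) (nat_lit 2807403926) (nat_lit 336) (nat_lit 12306859821) (nat_lit 84) (nat_lit 2916343382) (nat_lit 28) (nat_lit 5) (nat_lit 32) (nat_lit 5) (nat_lit 29) (nat_lit 5) (nat_lit 355) (nat_lit 298) (nat_lit 208)) (XT.lf (nat_lit 0) (nat_lit 4650067269) (nat_lit 336) (nat_lit 7201863014) (nat_lit 84) (nat_lit 6597622428) (nat_lit 28) (nat_lit 5) (nat_lit 32) (nat_lit 5) (nat_lit 29) (nat_lit 5) (nat_lit 356) (nat_lit 298) (nat_lit 207))) (XT.nd (nat_lit 94) (nat_lit 252) (nat_lit 0) (XT.lf (nat_lit 0) (nat_lit 6536126733) (nat_lit 336) (nat_lit 1956780627) (nat_lit 84) (nat_lit 10389060022) (nat_lit 28) (nat_lit 5) (nat_lit 32) (nat_lit 5) (nat_lit 29) (nat_lit 5) (nat_lit 357) (nat_lit 298) (nat_lit 206)) (XT.nd (nat_lit 94) (nat_lit 0) (nat_lit 0)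 (XT.lf (nat_lit 0) (nat_lit 3503871506) (nat_lit 252) (nat_lit 4998227655) (nat_lit 336) (nat_lit 10825077513) (nat_lit 25) (nat_lit 5) (nat_lit 28) (nat_lit 5) (nat_lit 29) (nat_lit 5) (nat_lit 358) (nat_lit 298) (nat_lit 205)) (XT.lf (nat_lit 0) (nat_lit 9157841987) (nat_lit 252) (nat_lit 1378513070) (nat_lit 336) (nat_lit 9249657835) (nat_lit 25) (nat_lit 5) (nat_lit 28) (nat_lit 5) (nat_lit 29) (nat_lit 5) (nat_lit 359) (nat_lit 298) (nat_lit 204))))))) (XT.nd (nat_lit 48316) (nat_lit 0) (nat_lit 9324) (XT.nd (nat_lit 376) (nat_lit 336) (nat_lit 0) (XT.nd (nat_lit 188) (nat_lit 0) (nat_lit 0) (XT.nd (nat_lit 94) (nat_lit 168) (nat_lit 0) (XT.lf (nat_lit 0) (nat_lit 12644284127) (nat_lit 336) (nat_lit 5312656578) (nat_lit 84) (nat_lit 2301854714) (nat_lit 25) (nat_lit 5) (nat_lit 29) (nat_lit 5) (nat_lit 26) (nat_lit 5) (nat_lit 360) (nat_lit 298) (nat_lit 203)) (XT.lf (nat_lit 0) (nat_lit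 139549267) (nat_lit 168) (nat_lit 14681141027) (nat_lit 252) (nat_lit 5925496629) (nat_lit 23) (nat_lit 5) (nat_lit 25) (nat_lit 5) (nat_lit 26) (nat_lit 5) (nat_lit 361) (nat_lit 298) (nat_lit 202))) (XT.nd (nat_lit 94) (nat_lit 0) (nat_lit 0) (XT.lf (nat_lit 0) (nat_lit 5856767042) (nat_lit 168) (nat_lit 11251105665) (nat_lit 252) (nat_lit 4139520614) (nat_lit 23) (nat_lit 5) (nat_lit 25) (nat_lit 5) (nat_lit 26) (nat_lit 5) (nat_lit 362) (nat_lit 298) (nat_lit 201)) (XT.lf (nat_lit 0) (nat_lit 11735086674) (nat_lit 168) (nat_lit 7719090704) (nat_lit 252) (nat_lit 2310371772) (nat_lit 23) (nat_lit 5) (nat_lit 25) (nat_lit 5) (nat_lit 26) (nat_lit 5) (nat_lit 363) (nat_lit 298) (nat_lit 200)))) (XT.nd (nat_lit 188) (nat_lit 0) (nat_lit 0) (XT.nd (nat_lit 94) (nat_lit 336) (nat_lit 0) (XT.lf (nat_lit 0) (nat_lit 17779987376) (nat_lit 168) (nat_lit 4081803937) (nat_lit 252) (nat_lit 436345142)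 (nat_lit 23) (nat_lit 5) (nat_lit 25) (nat_lit 5) (nat_lit 26) (nat_lit 5) (nat_lit 364) (nat_lit 298) (nat_lit 199)) (XT.lf (nat_lit 0) (nat_lit 1157038275) (nat_lit 252) (nat_lit 308840292) (nat_lit 336) (nat_lit 21381961750) (nat_lit 19) (nat_lit 5) (nat_lit 22) (nat_lit 5) (nat_lit 23) (nat_lit 5) (nat_lit 365) (nat_lit 298) (nat_lit 198))) (XT.nd (nat_lit 94) (nat_lit 0) (nat_lit 0) (XT.lf (nat_lit 0) (nat_lit 3490079656) (nat_lit 336) (nat_lit 16365289962) (nat_lit 84) (nat_lit 3556884248) (nat_lit 19) (nat_lit 5) (nat_lit 23) (nat_lit 5) (nat_lit 20) (nat_lit 5) (nat_lit 366) (nat_lit 298) (nat_lit 197)) (XT.nd (nat_lit 94) (nat_lit 0) (nat_lit 0) (XT.lf (nat_lit 0) (nat_lit 5569428293) (nat_lit 336) (nat_lit 10893011403) (nat_lit 84) (nat_lit 7532000432) (nat_lit 19) (nat_lit 5) (nat_lit 23) (nat_lit 5) (nat_lit 20) (nat_lit 5) (nat_lit 367) (nat_lit 298) (nat_lit 196)) (XT.lf (nat_lit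 0) (nat_lit 7702798915) (nat_lit 336) (nat_lit 5265801895) (nat_lit 84) (nat_lit 11626435928) (nat_lit 19) (nat_lit 5) (nat_lit 23) (nat_lit 5) (nat_lit 20) (nat_lit 5) (nat_lit 368) (nat_lit 298) (nat_lit 195)))))) (XT.nd (nat_lit 470) (nat_lit 588) (nat_lit 0) (XT.nd (nat_lit 188) (nat_lit 756) (nat_lit 0) (XT.nd (nat_lit 94) (nat_lit 0) (nat_lit 0) (XT.lf (nat_lit 0) (nat_lit 1373712504) (nat_lit 0) (nat_lit 1373712504) (nat_lit 588) (nat_lit 826357188) (nat_lit 146) (nat_lit 5) (nat_lit 146) (nat_lit 3) (nat_lit 153) (nat_lit 3) (nat_lit 299) (nat_lit 299) (nat_lit 263)) (XT.lf (nat_lit 0) (nat_lit 5442165370) (nat_lit 0) (nat_lit 1473161113) (nat_lit 588) (nat_lit 292075931) (nat_lit 146) (nat_lit 5) (nat_lit 146) (nat_lit 3) (nat_lit 153) (nat_lit 3) (nat_lit 300) (nat_lit 299) (nat_lit 262))) (XT.nd (nat_lit 94) (nat_lit 0) (nat_lit 84) (XT.lf (nat_lit 84) (nat_lit 930677308) (nat_lit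 0) (nat_lit 112183985) (nat_lit 756) (nat_lit 6227676536) (nat_lit 138) (nat_lit 5) (nat_lit 137) (nat_lit 3) (nat_lit 146) (nat_lit 5) (nat_lit 301) (nat_lit 299) (nat_lit 261)) (XT.nd (nat_lit 94) (nat_lit 0) (nat_lit 0) (XT.lf (nat_lit 0) (nat_lit 2391417980) (nat_lit 672) (nat_lit 3633836468) (nat_lit 756) (nat_lit 1311318189) (nat_lit 138) (nat_lit 5) (nat_lit 146) (nat_lit 5) (nat_lit 147) (nat_lit 5) (nat_lit 302) (nat_lit 299) (nat_lit 260)) (XT.lf (nat_lit 0) (nat_lit 3731407315) (nat_lit 672) (nat_lit 874541430) (nat_lit 756) (nat_lit 2800618648) (nat_lit 138) (nat_lit 5) (nat_lit 146) (nat_lit 5) (nat_lit 147) (nat_lit 5) (nat_lit 303) (nat_lit 299) (nat_lit 259))))) (XT.nd (nat_lit 188) (nat_lit 672) (nat_lit 0) (XT.nd (nat_lit 94) (nat_lit 0) (nat_lit 0) (XT.lf (nat_lit 84) (nat_lit 1981634951) (nat_lit 0) (nat_lit 3100988543) (nat_lit 756) (nat_lit 2397388943) (nat_lit 139)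 (nat_lit 5) (nat_lit 138) (nat_lit 5) (nat_lit 147) (nat_lit 5) (nat_lit 304) (nat_lit 299) (nat_lit 258)) (XT.lf (nat_lit 84) (nat_lit 4916599658) (nat_lit 0) (nat_lit 1519507095) (nat_lit 756) (nat_lit 1121186272) (nat_lit 139) (nat_lit 5) (nat_lit 138) (nat_lit 5) (nat_lit 147) (nat_lit 5) (nat_lit 305) (nat_lit 299) (nat_lit 257))) (XT.nd (nat_lit 94) (nat_lit 0) (nat_lit 0) (XT.lf (nat_lit 0) (nat_lit 146701764) (nat_lit 756) (nat_lit 7359406291) (nat_lit 840) (nat_lit 132475006) (nat_lit 130) (nat_lit 5) (nat_lit 139) (nat_lit 5) (nat_lit 140) (nat_lit 5) (nat_lit 306) (nat_lit 299) (nat_lit 256)) (XT.nd (nat_lit 94) (nat_lit 0) (nat_lit 0) (XT.lf (nat_lit 0) (nat_lit 1427256650) (nat_lit 756) (nat_lit 4433674474) (nat_lit 840) (nat_lit 1861511853) (nat_lit 130) (nat_lit 5) (nat_lit 139) (nat_lit 5) (nat_lit 140) (nat_lit 5) (nat_lit 307) (nat_lit 299) (nat_lit 255)) (XT.lf (nat_lit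 0) (nat_lit 2702179623) (nat_lit 756) (nat_lit 1446721264) (nat_lit 840) (nat_lit 3661699382) (nat_lit 130) (nat_lit 5) (nat_lit 139) (nat_lit 5) (nat_lit 140) (nat_lit 5) (nat_lit 308) (nat_lit 299) (nat_lit 254))))))))
noncomputable def xc69 : XT := (XT.nd (nat_lit 1786) (nat_lit 2940) (nat_lit 0) (XT.nd (nat_lit 846) (nat_lit 3192) (nat_lit 0) (XT.nd (nat_lit 376) (nat_lit 1512) (nat_lit 0) (XT.nd (nat_lit 188) (nat_lit 0) (nat_lit 84) (XT.nd (nat_lit 94) (nat_lit 0) (nat_lit 0) (XT.lf (nat_lit 84) (nat_lit 1637223905) (nat_lit 0) (nat_lit 2351676601) (nat_lit 840) (nat_lit 3913733115) (nat_lit 131) (nat_lit 5) (nat_lit 130) (nat_lit 5) (nat_lit 140) (nat_lit 5) (nat_lit 309) (nat_lit 299) (nat_lit 253)) (XT.lf (nat_lit 84) (nat_lit 4819140552) (nat_lit 0) (nat_lit 468545050) (nat_lit 840) (nat_lit 2710972143) (nat_lit 131) (nat_lit 5) (nat_lit 130) (nat_lit 5) (nat_lit 140) (nat_lit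 5) (nat_lit 310) (nat_lit 299) (nat_lit 252))) (XT.nd (nat_lit 94) (nat_lit 0) (nat_lit 0) (XT.lf (nat_lit 0) (nat_lit 6599851455) (nat_lit 756) (nat_lit 41721890) (nat_lit 840) (nat_lit 1457185515) (nat_lit 131) (nat_lit 5) (nat_lit 140) (nat_lit 5) (nat_lit 141) (nat_lit 5) (nat_lit 311) (nat_lit 299) (nat_lit 251)) (XT.lf (nat_lit 84) (nat_lit 3225263331) (nat_lit 0) (nat_lit 4723972303) (nat_lit 840) (nat_lit 253093587) (nat_lit 132) (nat_lit 5) (nat_lit 131) (nat_lit 5) (nat_lit 141) (nat_lit 5) (nat_lit 312) (nat_lit 299) (nat_lit 250)))) (XT.nd (nat_lit 188) (nat_lit 756) (nat_lit 0) (XT.nd (nat_lit 94) (nat_lit 0) (nat_lit 0) (XT.lf (nat_lit 0) (nat_lit 971039617) (nat_lit 840) (nat_lit 1753973179) (nat_lit 924) (nat_lit 5585249031) (nat_lit 121) (nat_lit 5) (nat_lit 131) (nat_lit 5) (nat_lit 132) (nat_lit 5) (nat_lit 313) (nat_lit 299) (nat_lit 249)) (XT.lf (nat_lit 84) (nat_lit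 1569899811) (nat_lit 0) (nat_lit 634777377) (nat_lit 924) (nat_lit 6217737920) (nat_lit 122) (nat_lit 5) (nat_lit 121) (nat_lit 5) (nat_lit 132) (nat_lit 5) (nat_lit 314) (nat_lit 299) (nat_lit 248))) (XT.nd (nat_lit 94) (nat_lit 840) (nat_lit 0) (XT.lf (nat_lit 0) (nat_lit 3472361501) (nat_lit 840) (nat_lit 3548143683) (nat_lit 84) (nat_lit 1517899161) (nat_lit 122) (nat_lit 5) (nat_lit 132) (nat_lit 5) (nat_lit 123) (nat_lit 5) (nat_lit 315) (nat_lit 299) (nat_lit 247)) (XT.nd (nat_lit 94) (nat_lit 840) (nat_lit 0) (XT.lf (nat_lit 0) (nat_lit 4749199766) (nat_lit 840) (nat_lit 176338910) (nat_lit 84) (nat_lit 3733607283) (nat_lit 122) (nat_lit 5) (nat_lit 132) (nat_lit 5) (nat_lit 123) (nat_lit 5) (nat_lit 316) (nat_lit 299) (nat_lit 246)) (XT.lf (nat_lit 0) (nat_lit 3339624967) (nat_lit 840) (nat_lit 2723589585) (nat_lit 924) (nat_lit 2720706138) (nat_lit 112) (nat_lit 5) (nat_lit 122)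 (nat_lit 5) (nat_lit 123) (nat_lit 5) (nat_lit 317) (nat_lit 299) (nat_lit 245)))))) (XT.nd (nat_lit 470) (nat_lit 1176) (nat_lit 0) (XT.nd (nat_lit 188) (nat_lit 1092) (nat_lit 0) (XT.nd (nat_lit 94) (nat_lit 924) (nat_lit 0) (XT.lf (nat_lit 0) (nat_lit 6940949134) (nat_lit 840) (nat_lit 444117241) (nat_lit 924) (nat_lit 1528725958) (nat_lit 112) (nat_lit 5) (nat_lit 122) (nat_lit 5) (nat_lit 123) (nat_lit 5) (nat_lit 318) (nat_lit 299) (nat_lit 244)) (XT.lf (nat_lit 0) (nat_lit 1591513876) (nat_lit 924) (nat_lit 7157455013) (nat_lit 1008) (nat_lit 298890625) (nat_lit 101) (nat_lit 5) (nat_lit 112) (nat_lit 5) (nat_lit 113) (nat_lit 5) (nat_lit 319) (nat_lit 299) (nat_lit 243))) (XT.nd (nat_lit 94) (nat_lit 1008) (nat_lit 0) (XT.lf (nat_lit 0) (nat_lit 941475901) (nat_lit 1008) (nat_lit 3920085029) (nat_lit 84) (nat_lit 4324664754) (nat_lit 100) (nat_lit 5) (nat_lit 112) (nat_lit 5) (nat_lit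 101) (nat_lit 5) (nat_lit 320) (nat_lit 299) (nat_lit 242)) (XT.nd (nat_lit 94) (nat_lit 1008) (nat_lit 0) (XT.lf (nat_lit 0) (nat_lit 2181675398) (nat_lit 1008) (nat_lit 304865146) (nat_lit 84) (nat_lit 6843435639) (nat_lit 100) (nat_lit 5) (nat_lit 112) (nat_lit 5) (nat_lit 101) (nat_lit 5) (nat_lit 321) (nat_lit 299) (nat_lit 241)) (XT.lf (nat_lit 0) (nat_lit 3463285624) (nat_lit 1092) (nat_lit 6012822783) (nat_lit 84) (nat_lit 2162116) (nat_lit 88) (nat_lit 5) (nat_lit 101) (nat_lit 5) (nat_lit 89) (nat_lit 5) (nat_lit 322) (nat_lit 299) (nat_lit 240))))) (XT.nd (nat_lit 188) (nat_lit 588) (nat_lit 0) (XT.nd (nat_lit 94) (nat_lit 588) (nat_lit 0) (XT.lf (nat_lit 0) (nat_lit 4782561068) (nat_lit 1092) (nat_lit 2325100234) (nat_lit 84) (nat_lit 2523738772) (nat_lit 88) (nat_lit 5) (nat_lit 101) (nat_lit 5) (nat_lit 89) (nat_lit 5) (nat_lit 323) (nat_lit 299) (nat_lit 239)) (XT.lf (nat_lit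 0) (nat_lit 1479914666) (nat_lit 588) (nat_lit 4647712861) (nat_lit 672) (nat_lit 3662286264) (nat_lit 81) (nat_lit 5) (nat_lit 88) (nat_lit 5) (nat_lit 89) (nat_lit 5) (nat_lit 324) (nat_lit 299) (nat_lit 238))) (XT.nd (nat_lit 94) (nat_lit 588) (nat_lit 0) (XT.lf (nat_lit 0) (nat_lit 5425603674) (nat_lit 588) (nat_lit 2083901235) (nat_lit 672) (nat_lit 2444151763) (nat_lit 81) (nat_lit 5) (nat_lit 88) (nat_lit 5) (nat_lit 89) (nat_lit 5) (nat_lit 325) (nat_lit 299) (nat_lit 237)) (XT.nd (nat_lit 94) (nat_lit 588) (nat_lit 0) (XT.lf (nat_lit 0) (nat_lit 8911515776) (nat_lit 672) (nat_lit 661249373) (nat_lit 84) (nat_lit 550573125) (nat_lit 81) (nat_lit 5) (nat_lit 89) (nat_lit 5) (nat_lit 82) (nat_lit 5) (nat_lit 326) (nat_lit 299) (nat_lit 236)) (XT.lf (nat_lit 0) (nat_lit 84748980) (nat_lit 588) (nat_lit 6952962976) (nat_lit 84) (nat_lit 3259855523) (nat_lit 74) (nat_lit 5) (nat_lit 81)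 (nat_lit 5) (nat_lit 75) (nat_lit 5) (nat_lit 327) (nat_lit 299) (nat_lit 235))))))) (XT.nd (nat_lit 846) (nat_lit 1512) (nat_lit 0) (XT.nd (nat_lit 376) (nat_lit 924) (nat_lit 0) (XT.nd (nat_lit 188) (nat_lit 0) (nat_lit 0) (XT.nd (nat_lit 94) (nat_lit 504) (nat_lit 0) (XT.lf (nat_lit 0) (nat_lit 1376057590) (nat_lit 588) (nat_lit 3027259220) (nat_lit 84) (nat_lit 6074270516) (nat_lit 74) (nat_lit 5) (nat_lit 81) (nat_lit 5) (nat_lit 75) (nat_lit 5) (nat_lit 328) (nat_lit 299) (nat_lit 234)) (XT.lf (nat_lit 0) (nat_lit 1014916822) (nat_lit 504) (nat_lit 1676110742) (nat_lit 588) (nat_lit 7972808254) (nat_lit 68) (nat_lit 5) (nat_lit 74) (nat_lit 5) (nat_lit 75) (nat_lit 5) (nat_lit 329) (nat_lit 299) (nat_lit 233))) (XT.nd (nat_lit 94) (nat_lit 0) (nat_lit 0) (XT.lf (nat_lit 0) (nat_lit 4064059128) (nat_lit 588) (nat_lit 5646247482) (nat_lit 84) (nat_lit 1145151538) (nat_lit 68) (nat_lit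 5) (nat_lit 75) (nat_lit 5) (nat_lit 69) (nat_lit 5) (nat_lit 330) (nat_lit 299) (nat_lit 232)) (XT.lf (nat_lit 0) (nat_lit 5471686078) (nat_lit 588) (nat_lit 1562200120) (nat_lit 84) (nat_lit 4019513859) (nat_lit 68) (nat_lit 5) (nat_lit 75) (nat_lit 5) (nat_lit 69) (nat_lit 5) (nat_lit 331) (nat_lit 299) (nat_lit 231)))) (XT.nd (nat_lit 188) (nat_lit 504) (nat_lit 0) (XT.nd (nat_lit 94) (nat_lit 0) (nat_lit 0) (XT.lf (nat_lit 0) (nat_lit 2677604847) (nat_lit 420) (nat_lit 4247550567) (nat_lit 504) (nat_lit 4332382646) (nat_lit 63) (nat_lit 5) (nat_lit 68) (nat_lit 5) (nat_lit 69) (nat_lit 5) (nat_lit 332) (nat_lit 299) (nat_lit 230)) (XT.lf (nat_lit 0) (nat_lit 7057416991) (nat_lit 420) (nat_lit 1358704110) (nat_lit 504) (nat_lit 3052242062) (nat_lit 63) (nat_lit 5) (nat_lit 68) (nat_lit 5) (nat_lit 69) (nat_lit 5) (nat_lit 333) (nat_lit 299) (nat_lit 229))) (XT.nd (nat_lit 94) (nat_lit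 504) (nat_lit 0) (XT.lf (nat_lit 0) (nat_lit 9946218075) (nat_lit 504) (nat_lit 153426528) (nat_lit 84) (nat_lit 1586419672) (nat_lit 63) (nat_lit 5) (nat_lit 69) (nat_lit 5) (nat_lit 64) (nat_lit 5) (nat_lit 334) (nat_lit 299) (nat_lit 228)) (XT.nd (nat_lit 94) (nat_lit 84) (nat_lit 0) (XT.lf (nat_lit 0) (nat_lit 4284607593) (nat_lit 420) (nat_lit 7273080666) (nat_lit 504) (nat_lit 351890771) (nat_lit 58) (nat_lit 5) (nat_lit 63) (nat_lit 5) (nat_lit 64) (nat_lit 5) (nat_lit 335) (nat_lit 299) (nat_lit 227)) (XT.lf (nat_lit 0) (nat_lit 1036612053) (nat_lit 504) (nat_lit 3311446300) (nat_lit 84) (nat_lit 7792385539) (nat_lit 57) (nat_lit 5) (nat_lit 63) (nat_lit 5) (nat_lit 58) (nat_lit 5) (nat_lit 336) (nat_lit 299) (nat_lit 226)))))) (XT.nd (nat_lit 470) (nat_lit 756) (nat_lit 0) (XT.nd (nat_lit 188) (nat_lit 420) (nat_lit 0) (XT.nd (nat_lit 94) (nat_lit 0) (nat_lit 0) (XT.lf (nat_lit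 0) (nat_lit 1131499257) (nat_lit 336) (nat_lit 1318890637) (nat_lit 420) (nat_lit 9928395141) (nat_lit 53) (nat_lit 5) (nat_lit 57) (nat_lit 5) (nat_lit 58) (nat_lit 5) (nat_lit 337) (nat_lit 299) (nat_lit 225)) (XT.lf (nat_lit 0) (nat_lit 3939528627) (nat_lit 420) (nat_lit 6883319483) (nat_lit 84) (nat_lit 1800792695) (nat_lit 53) (nat_lit 5) (nat_lit 58) (nat_lit 5) (nat_lit 54) (nat_lit 5) (nat_lit 338) (nat_lit 299) (nat_lit 224))) (XT.nd (nat_lit 94) (nat_lit 420) (nat_lit 0) (XT.lf (nat_lit 0) (nat_lit 5467677570) (nat_lit 420) (nat_lit 2420839756) (nat_lit 84) (nat_lit 4987892006) (nat_lit 53) (nat_lit 5) (nat_lit 58) (nat_lit 5) (nat_lit 54) (nat_lit 5) (nat_lit 339) (nat_lit 299) (nat_lit 223)) (XT.nd (nat_lit 94) (nat_lit 0) (nat_lit 0) (XT.lf (nat_lit 0) (nat_lit 2201756954) (nat_lit 420) (nat_lit 4843262309) (nat_lit 504) (nat_lit 6092035459) (nat_lit 48) (nat_lit 5) (nat_lit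 53) (nat_lit 5) (nat_lit 54) (nat_lit 5) (nat_lit 340) (nat_lit 299) (nat_lit 222)) (XT.lf (nat_lit 0) (nat_lit 6996622915) (nat_lit 420) (nat_lit 1680262940) (nat_lit 504) (nat_lit 4728814349) (nat_lit 48) (nat_lit 5) (nat_lit 53) (nat_lit 5) (nat_lit 54) (nat_lit 5) (nat_lit 341) (nat_lit 299) (nat_lit 221))))) (XT.nd (nat_lit 188) (nat_lit 420) (nat_lit 0) (XT.nd (nat_lit 94) (nat_lit 336) (nat_lit 0) (XT.lf (nat_lit 0) (nat_lit 10355945137) (nat_lit 504) (nat_lit 1780561489) (nat_lit 84) (nat_lit 1546364010) (nat_lit 48) (nat_lit 5) (nat_lit 54) (nat_lit 5) (nat_lit 49) (nat_lit 5) (nat_lit 342) (nat_lit 299) (nat_lit 220)) (XT.lf (nat_lit 0) (nat_lit 3013300150) (nat_lit 336) (nat_lit 9102329350) (nat_lit 420) (nat_lit 1852206982) (nat_lit 44) (nat_lit 5) (nat_lit 48) (nat_lit 5) (nat_lit 49) (nat_lit 5) (nat_lit 343) (nat_lit 299) (nat_lit 219))) (XT.nd (nat_lit 94) (nat_lit 420) (nat_lit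 0) (XT.lf (nat_lit 0) (nat_lit 7972073504) (nat_lit 336) (nat_lit 5958216396) (nat_lit 420) (nat_lit 331419426) (nat_lit 44) (nat_lit 5) (nat_lit 48) (nat_lit 5) (nat_lit 49) (nat_lit 5) (nat_lit 344) (nat_lit 299) (nat_lit 218)) (XT.nd (nat_lit 94) (nat_lit 336) (nat_lit 0) (XT.lf (nat_lit 0) (nat_lit 1193723879) (nat_lit 420) (nat_lit 1513638623) (nat_lit 84) (nat_lit 11857584766) (nat_lit 43) (nat_lit 5) (nat_lit 48) (nat_lit 5) (nat_lit 44) (nat_lit 5) (nat_lit 345) (nat_lit 299) (nat_lit 217)) (XT.lf (nat_lit 0) (nat_lit 2782952547) (nat_lit 420) (nat_lit 11427731438) (nat_lit 84) (nat_lit 666140832) (nat_lit 39) (nat_lit 5) (nat_lit 44) (nat_lit 5) (nat_lit 40) (nat_lit 5) (nat_lit 346) (nat_lit 299) (nat_lit 216))))))))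
noncomputable def xc70 : XT := (XT.nd (nat_lit 1692) (nat_lit 336) (nat_lit 0) (XT.nd (nat_lit 846) (nat_lit 420) (nat_lit 0) (XT.nd (nat_lit 376) (nat_lit 672) (nat_lit 0) (XT.nd (nat_lit 188) (nat_lit 252) (nat_lit 0) (XT.nd (nat_lit 94) (nat_lit 0) (nat_lit 0) (XT.lf (nat_lit 0) (nat_lit 4448045308) (nat_lit 420) (nat_lit 6648945607) (nat_lit 84) (nat_lit 4100631459) (nat_lit 39) (nat_lit 5) (nat_lit 44) (nat_lit 5) (nat_lit 40) (nat_lit 5) (nat_lit 347) (nat_lit 299) (nat_lit 215)) (XT.lf (nat_lit 0) (nat_lit 6148215870) (nat_lit 420) (nat_lit 1742358532) (nat_lit 84) (nat_lit 7638377044) (nat_lit 39) (nat_lit 5) (nat_lit 44) (nat_lit 5) (nat_lit 40) (nat_lit 5) (nat_lit 348) (nat_lit 299) (nat_lit 214))) (XT.nd (nat_lit 94) (nat_lit 0) (nat_lit 0) (XT.lf (nat_lit 0) (nat_lit 3364388161) (nat_lit 252) (nat_lit 4554035955) (nat_lit 336) (nat_lit 7951662119) (nat_lit 36) (nat_lit 5) (nat_lit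 39) (nat_lit 5) (nat_lit 40) (nat_lit 5) (nat_lit 349) (nat_lit 299) (nat_lit 213)) (XT.lf (nat_lit 0) (nat_lit 8646851329) (nat_lit 252) (nat_lit 1099090023) (nat_lit 336) (nat_lit 6475849103) (nat_lit 36) (nat_lit 5) (nat_lit 39) (nat_lit 5) (nat_lit 40) (nat_lit 5) (nat_lit 350) (nat_lit 299) (nat_lit 212)))) (XT.nd (nat_lit 188) (nat_lit 336) (nat_lit 0) (XT.nd (nat_lit 94) (nat_lit 336) (nat_lit 0) (XT.lf (nat_lit 0) (nat_lit 11639227732) (nat_lit 336) (nat_lit 2535206983) (nat_lit 84) (nat_lit 2409747758) (nat_lit 36) (nat_lit 5) (nat_lit 40) (nat_lit 5) (nat_lit 37) (nat_lit 5) (nat_lit 351) (nat_lit 299) (nat_lit 211)) (XT.lf (nat_lit 0) (nat_lit 2684744644) (nat_lit 336) (nat_lit 10929479240) (nat_lit 420) (nat_lit 3342936739) (nat_lit 32) (nat_lit 5) (nat_lit 36) (nat_lit 5) (nat_lit 37) (nat_lit 5) (nat_lit 352) (nat_lit 299) (nat_lit 210))) (XT.nd (nat_lit 94) (nat_lit 336) (nat_lit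 0) (XT.lf (nat_lit 0) (nat_lit 8101588070) (nat_lit 336) (nat_lit 7560724469) (nat_lit 420) (nat_lit 1679084225) (nat_lit 32) (nat_lit 5) (nat_lit 36) (nat_lit 5) (nat_lit 37) (nat_lit 5) (nat_lit 353) (nat_lit 299) (nat_lit 209)) (XT.nd (nat_lit 94) (nat_lit 252) (nat_lit 0) (XT.lf (nat_lit 0) (nat_lit 21254291) (nat_lit 420) (nat_lit 4070016590) (nat_lit 84) (nat_lit 13646767161) (nat_lit 31) (nat_lit 5) (nat_lit 36) (nat_lit 5) (nat_lit 32) (nat_lit 5) (nat_lit 354) (nat_lit 299) (nat_lit 208)) (XT.lf (nat_lit 0) (nat_lit 1250143375) (nat_lit 252) (nat_lit 487753683) (nat_lit 336) (nat_lit 16408651137) (nat_lit 28) (nat_lit 5) (nat_lit 31) (nat_lit 5) (nat_lit 32) (nat_lit 5) (nat_lit 355) (nat_lit 299) (nat_lit 207)))))) (XT.nd (nat_lit 376) (nat_lit 168) (nat_lit 0) (XT.nd (nat_lit 188) (nat_lit 252) (nat_lit 0) (XT.nd (nat_lit 94) (nat_lit 0) (nat_lit 0) (XT.lf (nat_lit 0) (nat_lit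 3568963358) (nat_lit 336) (nat_lit 11795515434) (nat_lit 84) (nat_lit 3201402191) (nat_lit 28) (nat_lit 5) (nat_lit 32) (nat_lit 5) (nat_lit 29) (nat_lit 5) (nat_lit 356) (nat_lit 299) (nat_lit 206)) (XT.lf (nat_lit 0) (nat_lit 5448467570) (nat_lit 336) (nat_lit 6559110058) (nat_lit 84) (nat_lit 6990948105) (nat_lit 28) (nat_lit 5) (nat_lit 32) (nat_lit 5) (nat_lit 29) (nat_lit 5) (nat_lit 357) (nat_lit 299) (nat_lit 205))) (XT.nd (nat_lit 94) (nat_lit 252) (nat_lit 0) (XT.lf (nat_lit 0) (nat_lit 7373323010) (nat_lit 336) (nat_lit 1177469236) (nat_lit 84) (nat_lit 10894243465) (nat_lit 28) (nat_lit 5) (nat_lit 32) (nat_lit 5) (nat_lit 29) (nat_lit 5) (nat_lit 358) (nat_lit 299) (nat_lit 204)) (XT.lf (nat_lit 0) (nat_lit 4443959155) (nat_lit 252) (nat_lit 4945449315) (nat_lit 336) (nat_lit 10515052017) (nat_lit 25) (nat_lit 5) (nat_lit 28) (nat_lit 5) (nat_lit 29) (nat_lit 5) (nat_lit 359)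 (nat_lit 299) (nat_lit 203)))) (XT.nd (nat_lit 188) (nat_lit 168) (nat_lit 0) (XT.nd (nat_lit 94) (nat_lit 0) (nat_lit 0) (XT.lf (nat_lit 0) (nat_lit 10248202239) (nat_lit 252) (nat_lit 1219769384) (nat_lit 336) (nat_lit 8910206249) (nat_lit 25) (nat_lit 5) (nat_lit 28) (nat_lit 5) (nat_lit 29) (nat_lit 5) (nat_lit 360) (nat_lit 299) (nat_lit 202)) (XT.lf (nat_lit 0) (nat_lit 13624994318) (nat_lit 336) (nat_lit 4676505200) (nat_lit 84) (nat_lit 2564694526) (nat_lit 25) (nat_lit 5) (nat_lit 29) (nat_lit 5) (nat_lit 26) (nat_lit 5) (nat_lit 361) (nat_lit 299) (nat_lit 201))) (XT.nd (nat_lit 94) (nat_lit 0) (nat_lit 0) (XT.lf (nat_lit 0) (nat_lit 936611203) (nat_lit 168) (nat_lit 14922419818) (nat_lit 252) (nat_lit 5510040000) (nat_lit 23) (nat_lit 5) (nat_lit 25) (nat_lit 5) (nat_lit 26) (nat_lit 5) (nat_lit 362) (nat_lit 299) (nat_lit 200)) (XT.nd (nat_lit 94) (nat_lit 0) (nat_lit 0) (XT.lf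 (nat_lit 0) (nat_lit 6807226828) (nat_lit 168) (nat_lit 11392482975) (nat_lit 252) (nat_lit 3686713819) (nat_lit 23) (nat_lit 5) (nat_lit 25) (nat_lit 5) (nat_lit 26) (nat_lit 5) (nat_lit 363) (nat_lit 299) (nat_lit 199)) (XT.lf (nat_lit 0) (nat_lit 12844655164) (nat_lit 168) (nat_lit 7757211842) (nat_lit 252) (nat_lit 1818334776) (nat_lit 23) (nat_lit 5) (nat_lit 25) (nat_lit 5) (nat_lit 26) (nat_lit 5) (nat_lit 364) (nat_lit 299) (nat_lit 198))))))) (XT.nd (nat_lit 48504) (nat_lit 0) (nat_lit 8568) (XT.nd (nat_lit 48034) (nat_lit 0) (nat_lit 9912) (XT.nd (nat_lit 188) (nat_lit 0) (nat_lit 0) (XT.nd (nat_lit 94) (nat_lit 252) (nat_lit 0) (XT.lf (nat_lit 0) (nat_lit 94887570) (nat_lit 252) (nat_lit 3917339961) (nat_lit 84) (nat_lit 18958645726) (nat_lit 22) (nat_lit 5) (nat_lit 25) (nat_lit 5) (nat_lit 23) (nat_lit 5) (nat_lit 365) (nat_lit 299) (nat_lit 197)) (XT.lf (nat_lit 0) (nat_lit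 1921859937) (nat_lit 252) (nat_lit 116280435) (nat_lit 336) (nat_lit 21499675629) (nat_lit 19) (nat_lit 5) (nat_lit 22) (nat_lit 5) (nat_lit 23) (nat_lit 5) (nat_lit 366) (nat_lit 299) (nat_lit 196))) (XT.nd (nat_lit 47752) (nat_lit 0) (nat_lit 9912) (XT.lf (nat_lit 0) (nat_lit 4111196240) (nat_lit 336) (nat_lit 16149766573) (nat_lit 84) (nat_lit 3859253729) (nat_lit 19) (nat_lit 5) (nat_lit 23) (nat_lit 5) (nat_lit 20) (nat_lit 5) (nat_lit 367) (nat_lit 299) (nat_lit 195)) (XT.lf (nat_lit 0) (nat_lit 510041923) (nat_lit 756) (nat_lit 1561961820) (nat_lit 756) (nat_lit 1561961820) (nat_lit 137) (nat_lit 3) (nat_lit 146) (nat_lit 3) (nat_lit 146) (nat_lit 5) (nat_lit 300) (nat_lit 300) (nat_lit 261)))) (XT.nd (nat_lit 188) (nat_lit 0) (nat_lit 84) (XT.nd (nat_lit 94) (nat_lit 0) (nat_lit 0) (XT.lf (nat_lit 0) (nat_lit 2313764757) (nat_lit 756) (nat_lit 463221718) (nat_lit 756) (nat_lit 4555265106)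 (nat_lit 137) (nat_lit 3) (nat_lit 146) (nat_lit 3) (nat_lit 146) (nat_lit 5) (nat_lit 301) (nat_lit 300) (nat_lit 260)) (XT.lf (nat_lit 84) (nat_lit 2299573222) (nat_lit 0) (nat_lit 1319296155) (nat_lit 756) (nat_lit 3780937003) (nat_lit 138) (nat_lit 5) (nat_lit 137) (nat_lit 3) (nat_lit 146) (nat_lit 5) (nat_lit 302) (nat_lit 300) (nat_lit 259))) (XT.nd (nat_lit 94) (nat_lit 0) (nat_lit 0) (XT.lf (nat_lit 0) (nat_lit 4921167051) (nat_lit 672) (nat_lit 2341923573) (nat_lit 756) (nat_lit 208046730) (nat_lit 138) (nat_lit 5) (nat_lit 146) (nat_lit 5) (nat_lit 147) (nat_lit 5) (nat_lit 303) (nat_lit 300) (nat_lit 258)) (XT.nd (nat_lit 94) (nat_lit 0) (nat_lit 0) (XT.lf (nat_lit 84) (nat_lit 470149864) (nat_lit 0) (nat_lit 5763374957) (nat_lit 756) (nat_lit 1312424919) (nat_lit 139) (nat_lit 5) (nat_lit 138) (nat_lit 5) (nat_lit 147) (nat_lit 5) (nat_lit 304) (nat_lit 300) (nat_lit 257)) (XT.lf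 (nat_lit 84) (nat_lit 3391602878) (nat_lit 0) (nat_lit 4172124427) (nat_lit 756) (nat_lit 60382568) (nat_lit 139) (nat_lit 5) (nat_lit 138) (nat_lit 5) (nat_lit 147) (nat_lit 5) (nat_lit 305) (nat_lit 300) (nat_lit 256)))))) (XT.nd (nat_lit 470) (nat_lit 672) (nat_lit 0) (XT.nd (nat_lit 188) (nat_lit 0) (nat_lit 84) (XT.nd (nat_lit 94) (nat_lit 0) (nat_lit 0) (XT.lf (nat_lit 0) (nat_lit 1159046531) (nat_lit 756) (nat_lit 1341156099) (nat_lit 840) (nat_lit 5205859215) (nat_lit 129) (nat_lit 5) (nat_lit 138) (nat_lit 5) (nat_lit 139) (nat_lit 5) (nat_lit 306) (nat_lit 300) (nat_lit 255)) (XT.lf (nat_lit 84) (nat_lit 1645319221) (nat_lit 0) (nat_lit 740793145) (nat_lit 840) (nat_lit 5405611581) (nat_lit 130) (nat_lit 5) (nat_lit 129) (nat_lit 5) (nat_lit 139) (nat_lit 5) (nat_lit 307) (nat_lit 300) (nat_lit 254))) (XT.nd (nat_lit 94) (nat_lit 0) (nat_lit 0) (XT.lf (nat_lit 0) (nat_lit 3632039034)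 (nat_lit 756) (nat_lit 3166179567) (nat_lit 840) (nat_lit 1082701217) (nat_lit 130) (nat_lit 5) (nat_lit 139) (nat_lit 5) (nat_lit 140) (nat_lit 5) (nat_lit 308) (nat_lit 300) (nat_lit 253)) (XT.nd (nat_lit 94) (nat_lit 0) (nat_lit 0) (XT.lf (nat_lit 0) (nat_lit 4881521806) (nat_lit 756) (nat_lit 128874361) (nat_lit 840) (nat_lit 2963846880) (nat_lit 130) (nat_lit 5) (nat_lit 139) (nat_lit 5) (nat_lit 140) (nat_lit 5) (nat_lit 309) (nat_lit 300) (nat_lit 252)) (XT.lf (nat_lit 84) (nat_lit 3036877043) (nat_lit 0) (nat_lit 3121625723) (nat_lit 840) (nat_lit 1912571752) (nat_lit 131) (nat_lit 5) (nat_lit 130) (nat_lit 5) (nat_lit 140) (nat_lit 5) (nat_lit 310) (nat_lit 300) (nat_lit 251))))) (XT.nd (nat_lit 188) (nat_lit 0) (nat_lit 0) (XT.nd (nat_lit 94) (nat_lit 756) (nat_lit 0) (XT.lf (nat_lit 84) (nat_lit 6276874547) (nat_lit 0) (nat_lit 1159158353) (nat_lit 840) (nat_lit 736343909) (nat_lit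 131) (nat_lit 5) (nat_lit 130) (nat_lit 5) (nat_lit 140) (nat_lit 5) (nat_lit 311) (nat_lit 300) (nat_lit 250)) (XT.lf (nat_lit 0) (nat_lit 449070606) (nat_lit 840) (nat_lit 6950830154) (nat_lit 924) (nat_lit 877563828) (nat_lit 121) (nat_lit 5) (nat_lit 131) (nat_lit 5) (nat_lit 132) (nat_lit 5) (nat_lit 312) (nat_lit 300) (nat_lit 249))) (XT.nd (nat_lit 94) (nat_lit 0) (nat_lit 0) (XT.lf (nat_lit 0) (nat_lit 1649020337) (nat_lit 840) (nat_lit 3744121635) (nat_lit 924) (nat_lit 2992885311) (nat_lit 121) (nat_lit 5) (nat_lit 131) (nat_lit 5) (nat_lit 132) (nat_lit 5) (nat_lit 313) (nat_lit 300) (nat_lit 248)) (XT.nd (nat_lit 94) (nat_lit 0) (nat_lit 0) (XT.lf (nat_lit 0) (nat_lit 2848573928) (nat_lit 840) (nat_lit 465334954) (nat_lit 924) (nat_lit 5185441101) (nat_lit 121) (nat_lit 5) (nat_lit 131) (nat_lit 5) (nat_lit 132) (nat_lit 5) (nat_lit 314) (nat_lit 300) (nat_lit 247)) (XT.lf (nat_lit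 84) (nat_lit 2947981314) (nat_lit 0) (nat_lit 1130112513) (nat_lit 924) (nat_lit 4538537914) (nat_lit 122) (nat_lit 5) (nat_lit 121) (nat_lit 5) (nat_lit 132) (nat_lit 5) (nat_lit 315) (nat_lit 300) (nat_lit 246))))))))
noncomputable def xc71 : XT := (XT.nd (nat_lit 1786) (nat_lit 2604) (nat_lit 0) (XT.nd (nat_lit 846) (nat_lit 2100) (nat_lit 0) (XT.nd (nat_lit 376) (nat_lit 1932) (nat_lit 0) (XT.nd (nat_lit 188) (nat_lit 84) (nat_lit 0) (XT.nd (nat_lit 94) (nat_lit 840) (nat_lit 0) (XT.lf (nat_lit 0) (nat_lit 5326224950) (nat_lit 840) (nat_lit 2299250182) (nat_lit 84) (nat_lit 1112894279) (nat_lit 122) (nat_lit 5) (nat_lit 132) (nat_lit 5) (nat_lit 123) (nat_lit 5) (nat_lit 316) (nat_lit 300) (nat_lit 245)) (XT.lf (nat_lit 0) (nat_lit 1159584746) (nat_lit 840) (nat_lit 5442058512) (nat_lit 924) (nat_lit 2262800317) (nat_lit 112) (nat_lit 5) (nat_lit 122) (nat_lit 5) (nat_lit 123) (nat_lit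 5) (nat_lit 317) (nat_lit 300) (nat_lit 244))) (XT.nd (nat_lit 94) (nat_lit 84) (nat_lit 0) (XT.lf (nat_lit 0) (nat_lit 4747836615) (nat_lit 840) (nat_lit 3159068835) (nat_lit 924) (nat_lit 1088023891) (nat_lit 112) (nat_lit 5) (nat_lit 122) (nat_lit 5) (nat_lit 123) (nat_lit 5) (nat_lit 318) (nat_lit 300) (nat_lit 243)) (XT.lf (nat_lit 0) (nat_lit 87481571) (nat_lit 924) (nat_lit 709982875) (nat_lit 84) (nat_lit 8333178052) (nat_lit 111) (nat_lit 5) (nat_lit 122) (nat_lit 5) (nat_lit 112) (nat_lit 5) (nat_lit 319) (nat_lit 300) (nat_lit 242)))) (XT.nd (nat_lit 188) (nat_lit 1008) (nat_lit 0) (XT.nd (nat_lit 94) (nat_lit 0) (nat_lit 0) (XT.lf (nat_lit 0) (nat_lit 1290696193) (nat_lit 1008) (nat_lit 6327760098) (nat_lit 84) (nat_lit 1651516596) (nat_lit 100) (nat_lit 5) (nat_lit 112) (nat_lit 5) (nat_lit 101) (nat_lit 5) (nat_lit 320) (nat_lit 300) (nat_lit 241)) (XT.lf (nat_lit 0) (nat_lit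 2515417975) (nat_lit 1008) (nat_lit 2725724729) (nat_lit 84) (nat_lit 4173148861) (nat_lit 100) (nat_lit 5) (nat_lit 112) (nat_lit 5) (nat_lit 101) (nat_lit 5) (nat_lit 321) (nat_lit 300) (nat_lit 240))) (XT.nd (nat_lit 94) (nat_lit 0) (nat_lit 0) (XT.lf (nat_lit 0) (nat_lit 981781855) (nat_lit 1008) (nat_lit 2775573627) (nat_lit 1092) (nat_lit 5806545990) (nat_lit 88) (nat_lit 5) (nat_lit 100) (nat_lit 5) (nat_lit 101) (nat_lit 5) (nat_lit 322) (nat_lit 300) (nat_lit 239)) (XT.nd (nat_lit 94) (nat_lit 0) (nat_lit 0) (XT.lf (nat_lit 0) (nat_lit 4836295429) (nat_lit 1008) (nat_lit 200120280) (nat_lit 1092) (nat_lit 4681945121) (nat_lit 88) (nat_lit 5) (nat_lit 100) (nat_lit 5) (nat_lit 101) (nat_lit 5) (nat_lit 323) (nat_lit 300) (nat_lit 238)) (XT.lf (nat_lit 0) (nat_lit 6350590600) (nat_lit 1092) (nat_lit 1117702002) (nat_lit 84) (nat_lit 2409620217) (nat_lit 88) (nat_lit 5) (nat_lit 101)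 (nat_lit 5) (nat_lit 89) (nat_lit 5) (nat_lit 324) (nat_lit 300) (nat_lit 237)))))) (XT.nd (nat_lit 470) (nat_lit 924) (nat_lit 0) (XT.nd (nat_lit 188) (nat_lit 588) (nat_lit 0) (XT.nd (nat_lit 94) (nat_lit 0) (nat_lit 0) (XT.lf (nat_lit 0) (nat_lit 2792314812) (nat_lit 588) (nat_lit 4914913870) (nat_lit 672) (nat_lit 2335287647) (nat_lit 81) (nat_lit 5) (nat_lit 88) (nat_lit 5) (nat_lit 89) (nat_lit 5) (nat_lit 325) (nat_lit 300) (nat_lit 236)) (XT.lf (nat_lit 0) (nat_lit 6822238505) (nat_lit 588) (nat_lit 2267922067) (nat_lit 672) (nat_lit 1122704666) (nat_lit 81) (nat_lit 5) (nat_lit 88) (nat_lit 5) (nat_lit 89) (nat_lit 5) (nat_lit 326) (nat_lit 300) (nat_lit 235))) (XT.nd (nat_lit 94) (nat_lit 0) (nat_lit 0) (XT.lf (nat_lit 0) (nat_lit 108237695) (nat_lit 588) (nat_lit 9819981230) (nat_lit 84) (nat_lit 460898319) (nat_lit 74) (nat_lit 5) (nat_lit 81) (nat_lit 5) (nat_lit 75) (nat_lit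 5) (nat_lit 327) (nat_lit 300) (nat_lit 234)) (XT.nd (nat_lit 94) (nat_lit 0) (nat_lit 0) (XT.lf (nat_lit 0) (nat_lit 1386529416) (nat_lit 588) (nat_lit 5906917967) (nat_lit 84) (nat_lit 3276162452) (nat_lit 74) (nat_lit 5) (nat_lit 81) (nat_lit 5) (nat_lit 75) (nat_lit 5) (nat_lit 328) (nat_lit 300) (nat_lit 233)) (XT.lf (nat_lit 0) (nat_lit 2678805790) (nat_lit 588) (nat_lit 1897450656) (nat_lit 84) (nat_lit 6180372520) (nat_lit 74) (nat_lit 5) (nat_lit 81) (nat_lit 5) (nat_lit 75) (nat_lit 5) (nat_lit 329) (nat_lit 300) (nat_lit 232))))) (XT.nd (nat_lit 188) (nat_lit 420) (nat_lit 0) (XT.nd (nat_lit 94) (nat_lit 0) (nat_lit 0) (XT.lf (nat_lit 0) (nat_lit 2257644450) (nat_lit 504) (nat_lit 1751023018) (nat_lit 588) (nat_lit 6940987215) (nat_lit 68) (nat_lit 5) (nat_lit 74) (nat_lit 5) (nat_lit 75) (nat_lit 5) (nat_lit 330) (nat_lit 300) (nat_lit 231)) (XT.lf (nat_lit 0) (nat_lit 5386931822)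 (nat_lit 588) (nat_lit 4602801089) (nat_lit 84) (nat_lit 1158837081) (nat_lit 68) (nat_lit 5) (nat_lit 75) (nat_lit 5) (nat_lit 69) (nat_lit 5) (nat_lit 331) (nat_lit 300) (nat_lit 230))) (XT.nd (nat_lit 94) (nat_lit 420) (nat_lit 0) (XT.lf (nat_lit 0) (nat_lit 6802207338) (nat_lit 588) (nat_lit 428785389) (nat_lit 84) (nat_lit 4122960539) (nat_lit 68) (nat_lit 5) (nat_lit 75) (nat_lit 5) (nat_lit 69) (nat_lit 5) (nat_lit 332) (nat_lit 300) (nat_lit 229)) (XT.nd (nat_lit 94) (nat_lit 0) (nat_lit 0) (XT.lf (nat_lit 0) (nat_lit 3930488433) (nat_lit 420) (nat_lit 4346945335) (nat_lit 504) (nat_lit 3287891940) (nat_lit 63) (nat_lit 5) (nat_lit 68) (nat_lit 5) (nat_lit 69) (nat_lit 5) (nat_lit 333) (nat_lit 300) (nat_lit 228)) (XT.lf (nat_lit 0) (nat_lit 8410898989) (nat_lit 420) (nat_lit 1369515208) (nat_lit 504) (nat_lit 2003510869) (nat_lit 63) (nat_lit 5) (nat_lit 68) (nat_lit 5) (nat_lit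 69) (nat_lit 5) (nat_lit 334) (nat_lit 300) (nat_lit 227))))))) (XT.nd (nat_lit 846) (nat_lit 1344) (nat_lit 0) (XT.nd (nat_lit 376) (nat_lit 420) (nat_lit 0) (XT.nd (nat_lit 188) (nat_lit 336) (nat_lit 0) (XT.nd (nat_lit 94) (nat_lit 84) (nat_lit 0) (XT.lf (nat_lit 0) (nat_lit 1001024299) (nat_lit 420) (nat_lit 10333974696) (nat_lit 504) (nat_lit 674260175) (nat_lit 58) (nat_lit 5) (nat_lit 63) (nat_lit 5) (nat_lit 64) (nat_lit 5) (nat_lit 335) (nat_lit 300) (nat_lit 226)) (XT.lf (nat_lit 0) (nat_lit 710061365) (nat_lit 504) (nat_lit 6703080983) (nat_lit 84) (nat_lit 4827464377) (nat_lit 57) (nat_lit 5) (nat_lit 63) (nat_lit 5) (nat_lit 58) (nat_lit 5) (nat_lit 336) (nat_lit 300) (nat_lit 225))) (XT.nd (nat_lit 94) (nat_lit 336) (nat_lit 0) (XT.lf (nat_lit 0) (nat_lit 2102259298) (nat_lit 504) (nat_lit 2294153945) (nat_lit 84) (nat_lit 8083254610) (nat_lit 57) (nat_lit 5) (nat_lit 63) (nat_lit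 5) (nat_lit 58) (nat_lit 5) (nat_lit 337) (nat_lit 300) (nat_lit 224)) (XT.lf (nat_lit 0) (nat_lit 2275184466) (nat_lit 336) (nat_lit 1264601783) (nat_lit 420) (nat_lit 9186386813) (nat_lit 53) (nat_lit 5) (nat_lit 57) (nat_lit 5) (nat_lit 58) (nat_lit 5) (nat_lit 338) (nat_lit 300) (nat_lit 223)))) (XT.nd (nat_lit 188) (nat_lit 420) (nat_lit 0) (XT.nd (nat_lit 94) (nat_lit 0) (nat_lit 0) (XT.lf (nat_lit 0) (nat_lit 5045532201) (nat_lit 420) (nat_lit 5987081729) (nat_lit 84) (nat_lit 1947070140) (nat_lit 53) (nat_lit 5) (nat_lit 58) (nat_lit 5) (nat_lit 54) (nat_lit 5) (nat_lit 339) (nat_lit 300) (nat_lit 222)) (XT.lf (nat_lit 0) (nat_lit 6591470615) (nat_lit 420) (nat_lit 1419629088) (nat_lit 84) (nat_lit 5230249802) (nat_lit 53) (nat_lit 5) (nat_lit 58) (nat_lit 5) (nat_lit 54) (nat_lit 5) (nat_lit 340) (nat_lit 300) (nat_lit 221))) (XT.nd (nat_lit 94) (nat_lit 0) (nat_lit 0) (XT.lf (nat_lit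 0) (nat_lit 3335371987) (nat_lit 420) (nat_lit 4864212779) (nat_lit 504) (nat_lit 5311191692) (nat_lit 48) (nat_lit 5) (nat_lit 53) (nat_lit 5) (nat_lit 54) (nat_lit 5) (nat_lit 341) (nat_lit 300) (nat_lit 220)) (XT.nd (nat_lit 94) (nat_lit 0) (nat_lit 0) (XT.lf (nat_lit 0) (nat_lit 8246845644) (nat_lit 420) (nat_lit 1607044920) (nat_lit 504) (nat_lit 3934867471) (nat_lit 48) (nat_lit 5) (nat_lit 53) (nat_lit 5) (nat_lit 54) (nat_lit 5) (nat_lit 342) (nat_lit 300) (nat_lit 219)) (XT.lf (nat_lit 0) (nat_lit 11558904072) (nat_lit 504) (nat_lit 803166033) (nat_lit 84) (nat_lit 1713391043) (nat_lit 48) (nat_lit 5) (nat_lit 54) (nat_lit 5) (nat_lit 49) (nat_lit 5) (nat_lit 343) (nat_lit 300) (nat_lit 218)))))) (XT.nd (nat_lit 470) (nat_lit 588) (nat_lit 0) (XT.nd (nat_lit 188) (nat_lit 336) (nat_lit 0) (XT.nd (nat_lit 94) (nat_lit 84) (nat_lit 0) (XT.lf (nat_lit 0) (nat_lit 4128851241) (nat_lit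 336) (nat_lit 9227909534) (nat_lit 420) (nat_lit 1013135326) (nat_lit 44) (nat_lit 5) (nat_lit 48) (nat_lit 5) (nat_lit 49) (nat_lit 5) (nat_lit 344) (nat_lit 300) (nat_lit 217)) (XT.lf (nat_lit 0) (nat_lit 517206253) (nat_lit 420) (nat_lit 5468432646) (nat_lit 84) (nat_lit 8688008182) (nat_lit 43) (nat_lit 5) (nat_lit 48) (nat_lit 5) (nat_lit 44) (nat_lit 5) (nat_lit 345) (nat_lit 300) (nat_lit 216))) (XT.nd (nat_lit 94) (nat_lit 336) (nat_lit 0) (XT.lf (nat_lit 0) (nat_lit 2057126333) (nat_lit 420) (nat_lit 578221705) (nat_lit 84) (nat_lit 12351742746) (nat_lit 43) (nat_lit 5) (nat_lit 48) (nat_lit 5) (nat_lit 44) (nat_lit 5) (nat_lit 346) (nat_lit 300) (nat_lit 215)) (XT.nd (nat_lit 94) (nat_lit 0) (nat_lit 0) (XT.lf (nat_lit 0) (nat_lit 3682018459) (nat_lit 420) (nat_lit 10782410028) (nat_lit 84) (nat_lit 844742534) (nat_lit 39) (nat_lit 5) (nat_lit 44) (nat_lit 5) (nat_lit 40) (nat_lit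 5) (nat_lit 347) (nat_lit 300) (nat_lit 214)) (XT.lf (nat_lit 0) (nat_lit 5374290079) (nat_lit 420) (nat_lit 5885537135) (nat_lit 84) (nat_lit 4380953107) (nat_lit 39) (nat_lit 5) (nat_lit 44) (nat_lit 5) (nat_lit 40) (nat_lit 5) (nat_lit 348) (nat_lit 300) (nat_lit 213))))) (XT.nd (nat_lit 188) (nat_lit 336) (nat_lit 0) (XT.nd (nat_lit 94) (nat_lit 252) (nat_lit 0) (XT.lf (nat_lit 0) (nat_lit 7103461742) (nat_lit 420) (nat_lit 855997461) (nat_lit 84) (nat_lit 8023762340) (nat_lit 39) (nat_lit 5) (nat_lit 44) (nat_lit 5) (nat_lit 40) (nat_lit 5) (nat_lit 349) (nat_lit 300) (nat_lit 212)) (XT.lf (nat_lit 0) (nat_lit 4399537936) (nat_lit 252) (nat_lit 4515251240) (nat_lit 336) (nat_lit 7420671738) (nat_lit 36) (nat_lit 5) (nat_lit 39) (nat_lit 5) (nat_lit 40) (nat_lit 5) (nat_lit 350) (nat_lit 300) (nat_lit 211))) (XT.nd (nat_lit 94) (nat_lit 336) (nat_lit 0) (XT.lf (nat_lit 0) (nat_lit 9817768649)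 (nat_lit 252) (nat_lit 958612997) (nat_lit 336) (nat_lit 5922486064) (nat_lit 36) (nat_lit 5) (nat_lit 39) (nat_lit 5) (nat_lit 40) (nat_lit 5) (nat_lit 351) (nat_lit 300) (nat_lit 210)) (XT.nd (nat_lit 94) (nat_lit 336) (nat_lit 0) (XT.lf (nat_lit 0) (nat_lit 12708140454) (nat_lit 336) (nat_lit 1714737651) (nat_lit 84) (nat_lit 2650339411) (nat_lit 36) (nat_lit 5) (nat_lit 40) (nat_lit 5) (nat_lit 37) (nat_lit 5) (nat_lit 352) (nat_lit 300) (nat_lit 209)) (XT.lf (nat_lit 0) (nat_lit 3657930294) (nat_lit 336) (nat_lit 11073968716) (nat_lit 420) (nat_lit 2726339236) (nat_lit 32) (nat_lit 5) (nat_lit 36) (nat_lit 5) (nat_lit 37) (nat_lit 5) (nat_lit 353) (nat_lit 300) (nat_lit 208))))))))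
noncomputable def xc72 : XT := (XT.nd (nat_lit 49444) (nat_lit 0) (nat_lit 5796) (XT.nd (nat_lit 846) (nat_lit 504) (nat_lit 0) (XT.nd (nat_lit 376) (nat_lit 252) (nat_lit 0) (XT.nd (nat_lit 188) (nat_lit 252) (nat_lit 0) (XT.nd (nat_lit 94) (nat_lit 84) (nat_lit 0) (XT.lf (nat_lit 0) (nat_lit 9215936685) (nat_lit 336) (nat_lit 7606625473) (nat_lit 420) (nat_lit 1032563051) (nat_lit 32) (nat_lit 5) (nat_lit 36) (nat_lit 5) (nat_lit 37) (nat_lit 5) (nat_lit 354) (nat_lit 300) (nat_lit 207)) (XT.lf (nat_lit 0) (nat_lit 685829856) (nat_lit 420) (nat_lit 3342526279) (nat_lit 84) (nat_lit 14236215127) (nat_lit 31) (nat_lit 5) (nat_lit 36) (nat_lit 5) (nat_lit 32) (nat_lit 5) (nat_lit 355) (nat_lit 300) (nat_lit 206))) (XT.nd (nat_lit 94) (nat_lit 0) (nat_lit 0) (XT.lf (nat_lit 0) (nat_lit 2133916095) (nat_lit 252) (nat_lit 310192562) (nat_lit 336) (nat_lit 16242078673) (nat_lit 28) (nat_lit 5)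 (nat_lit 31) (nat_lit 5) (nat_lit 32) (nat_lit 5) (nat_lit 356) (nat_lit 300) (nat_lit 205)) (XT.lf (nat_lit 0) (nat_lit 4314177571) (nat_lit 336) (nat_lit 11321204822) (nat_lit 84) (nat_lit 3483768241) (nat_lit 28) (nat_lit 5) (nat_lit 32) (nat_lit 5) (nat_lit 29) (nat_lit 5) (nat_lit 357) (nat_lit 300) (nat_lit 204)))) (XT.nd (nat_lit 188) (nat_lit 252) (nat_lit 0) (XT.nd (nat_lit 94) (nat_lit 0) (nat_lit 0) (XT.lf (nat_lit 0) (nat_lit 6232866038) (nat_lit 336) (nat_lit 5947727057) (nat_lit 84) (nat_lit 7385283968) (nat_lit 28) (nat_lit 5) (nat_lit 32) (nat_lit 5) (nat_lit 29) (nat_lit 5) (nat_lit 358) (nat_lit 300) (nat_lit 203)) (XT.lf (nat_lit 0) (nat_lit 8198885328) (nat_lit 336) (nat_lit 423752148) (nat_lit 84) (nat_lit 11404240930) (nat_lit 28) (nat_lit 5) (nat_lit 32) (nat_lit 5) (nat_lit 29) (nat_lit 5) (nat_lit 359) (nat_lit 300) (nat_lit 202))) (XT.nd (nat_lit 94) (nat_lit 0)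 (nat_lit 0) (XT.lf (nat_lit 0) (nat_lit 5363940270) (nat_lit 252) (nat_lit 4903338659) (nat_lit 336) (nat_lit 10233655896) (nat_lit 25) (nat_lit 5) (nat_lit 28) (nat_lit 5) (nat_lit 29) (nat_lit 5) (nat_lit 360) (nat_lit 300) (nat_lit 201)) (XT.nd (nat_lit 94) (nat_lit 0) (nat_lit 0) (XT.lf (nat_lit 0) (nat_lit 11324595229) (nat_lit 252) (nat_lit 1068038506) (nat_lit 336) (nat_lit 8597322028) (nat_lit 25) (nat_lit 5) (nat_lit 28) (nat_lit 5) (nat_lit 29) (nat_lit 5) (nat_lit 361) (nat_lit 300) (nat_lit 200)) (XT.lf (nat_lit 0) (nat_lit 14601234601) (nat_lit 336) (nat_lit 4068068475) (nat_lit 84) (nat_lit 2824340546) (nat_lit 25) (nat_lit 5) (nat_lit 29) (nat_lit 5) (nat_lit 26) (nat_lit 5) (nat_lit 362) (nat_lit 300) (nat_lit 199)))))) (XT.nd (nat_lit 376) (nat_lit 252) (nat_lit 0) (XT.nd (nat_lit 188) (nat_lit 84) (nat_lit 0) (XT.nd (nat_lit 94) (nat_lit 0) (nat_lit 0) (XT.lf (nat_lit 0)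 (nat_lit 1711426953) (nat_lit 168) (nat_lit 15183844158) (nat_lit 252) (nat_lit 5117192719) (nat_lit 23) (nat_lit 5) (nat_lit 25) (nat_lit 5) (nat_lit 26) (nat_lit 5) (nat_lit 363) (nat_lit 300) (nat_lit 198)) (XT.lf (nat_lit 0) (nat_lit 7741607603) (nat_lit 168) (nat_lit 11550528052) (nat_lit 252) (nat_lit 3254291452) (nat_lit 23) (nat_lit 5) (nat_lit 25) (nat_lit 5) (nat_lit 26) (nat_lit 5) (nat_lit 364) (nat_lit 300) (nat_lit 197))) (XT.nd (nat_lit 94) (nat_lit 84) (nat_lit 0) (XT.lf (nat_lit 0) (nat_lit 13944446404) (nat_lit 168) (nat_lit 7808430418) (nat_lit 252) (nat_lit 1344431093) (nat_lit 23) (nat_lit 5) (nat_lit 25) (nat_lit 5) (nat_lit 26) (nat_lit 5) (nat_lit 365) (nat_lit 300) (nat_lit 196)) (XT.lf (nat_lit 0) (nat_lit 601794420) (nat_lit 252) (nat_lit 3345987309) (nat_lit 84) (nat_lit 19717649129) (nat_lit 22) (nat_lit 5) (nat_lit 25) (nat_lit 5) (nat_lit 23) (nat_lit 5) (nat_lit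 366) (nat_lit 300) (nat_lit 195)))) (XT.nd (nat_lit 47940) (nat_lit 0) (nat_lit 9912) (XT.nd (nat_lit 47846) (nat_lit 0) (nat_lit 9912) (XT.lf (nat_lit 0) (nat_lit 2597635016) (nat_lit 336) (nat_lit 21583748549) (nat_lit 84) (nat_lit 68860133) (nat_lit 19) (nat_lit 5) (nat_lit 23) (nat_lit 5) (nat_lit 20) (nat_lit 5) (nat_lit 367) (nat_lit 300) (nat_lit 194)) (XT.lf (nat_lit 0) (nat_lit 1791046209) (nat_lit 756) (nat_lit 953859636) (nat_lit 756) (nat_lit 953859636) (nat_lit 137) (nat_lit 3) (nat_lit 146) (nat_lit 3) (nat_lit 146) (nat_lit 5) (nat_lit 301) (nat_lit 301) (nat_lit 259))) (XT.nd (nat_lit 94) (nat_lit 0) (nat_lit 0) (XT.lf (nat_lit 84) (nat_lit 812350939) (nat_lit 0) (nat_lit 4035501740) (nat_lit 756) (nat_lit 2618620537) (nat_lit 138) (nat_lit 5) (nat_lit 137) (nat_lit 3) (nat_lit 146) (nat_lit 5) (nat_lit 302) (nat_lit 301) (nat_lit 258)) (XT.nd (nat_lit 94) (nat_lit 0) (nat_lit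 0) (XT.lf (nat_lit 84) (nat_lit 3631531755) (nat_lit 0) (nat_lit 2492535473) (nat_lit 756) (nat_lit 1414708270) (nat_lit 138) (nat_lit 5) (nat_lit 137) (nat_lit 3) (nat_lit 146) (nat_lit 5) (nat_lit 303) (nat_lit 301) (nat_lit 257)) (XT.lf (nat_lit 84) (nat_lit 6513224326) (nat_lit 0) (nat_lit 879387361) (nat_lit 756) (nat_lit 222492251) (nat_lit 138) (nat_lit 5) (nat_lit 137) (nat_lit 3) (nat_lit 146) (nat_lit 5) (nat_lit 304) (nat_lit 301) (nat_lit 256))))))) (XT.nd (nat_lit 846) (nat_lit 2688) (nat_lit 0) (XT.nd (nat_lit 376) (nat_lit 756) (nat_lit 0) (XT.nd (nat_lit 188) (nat_lit 0) (nat_lit 0) (XT.nd (nat_lit 94) (nat_lit 0) (nat_lit 0) (XT.lf (nat_lit 0) (nat_lit 965851962) (nat_lit 756) (nat_lit 5911794988) (nat_lit 840) (nat_lit 816780602) (nat_lit 129) (nat_lit 5) (nat_lit 138) (nat_lit 5) (nat_lit 139) (nat_lit 5) (nat_lit 305) (nat_lit 301) (nat_lit 255)) (XT.lf (nat_lit 0) (nat_lit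 2161793169) (nat_lit 756) (nat_lit 3034356437) (nat_lit 840) (nat_lit 2581045785) (nat_lit 129) (nat_lit 5) (nat_lit 138) (nat_lit 5) (nat_lit 139) (nat_lit 5) (nat_lit 306) (nat_lit 301) (nat_lit 254))) (XT.nd (nat_lit 94) (nat_lit 0) (nat_lit 0) (XT.lf (nat_lit 0) (nat_lit 3350935566) (nat_lit 756) (nat_lit 93943670) (nat_lit 840) (nat_lit 4419293577) (nat_lit 129) (nat_lit 5) (nat_lit 138) (nat_lit 5) (nat_lit 139) (nat_lit 5) (nat_lit 307) (nat_lit 301) (nat_lit 253)) (XT.lf (nat_lit 84) (nat_lit 2972064560) (nat_lit 0) (nat_lit 1591806248) (nat_lit 840) (nat_lit 3390656106) (nat_lit 130) (nat_lit 5) (nat_lit 129) (nat_lit 5) (nat_lit 139) (nat_lit 5) (nat_lit 308) (nat_lit 301) (nat_lit 252)))) (XT.nd (nat_lit 188) (nat_lit 840) (nat_lit 0) (XT.nd (nat_lit 94) (nat_lit 0) (nat_lit 0) (XT.lf (nat_lit 0) (nat_lit 5777197341) (nat_lit 756) (nat_lit 1942609250) (nat_lit 840) (nat_lit 329295815)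 (nat_lit 130) (nat_lit 5) (nat_lit 139) (nat_lit 5) (nat_lit 140) (nat_lit 5) (nat_lit 309) (nat_lit 301) (nat_lit 251)) (XT.lf (nat_lit 84) (nat_lit 1172739102) (nat_lit 0) (nat_lit 5843193740) (nat_lit 840) (nat_lit 1131314114) (nat_lit 131) (nat_lit 5) (nat_lit 130) (nat_lit 5) (nat_lit 140) (nat_lit 5) (nat_lit 310) (nat_lit 301) (nat_lit 250))) (XT.nd (nat_lit 94) (nat_lit 0) (nat_lit 0) (XT.lf (nat_lit 0) (nat_lit 24405246) (nat_lit 840) (nat_lit 3849495985) (nat_lit 924) (nat_lit 4375361833) (nat_lit 120) (nat_lit 5) (nat_lit 130) (nat_lit 5) (nat_lit 131) (nat_lit 5) (nat_lit 311) (nat_lit 301) (nat_lit 249)) (XT.nd (nat_lit 94) (nat_lit 0) (nat_lit 84) (XT.lf (nat_lit 0) (nat_lit 1153834150) (nat_lit 840) (nat_lit 665256983) (nat_lit 924) (nat_lit 6536425226) (nat_lit 120) (nat_lit 5) (nat_lit 130) (nat_lit 5) (nat_lit 131) (nat_lit 5) (nat_lit 312) (nat_lit 301) (nat_lit 248))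 (XT.lf (nat_lit 0) (nat_lit 2310423878) (nat_lit 840) (nat_lit 5823294496) (nat_lit 924) (nat_lit 331817657) (nat_lit 121) (nat_lit 5) (nat_lit 131) (nat_lit 5) (nat_lit 132) (nat_lit 5) (nat_lit 313) (nat_lit 301) (nat_lit 247)))))) (XT.nd (nat_lit 470) (nat_lit 2016) (nat_lit 0) (XT.nd (nat_lit 188) (nat_lit 756) (nat_lit 0) (XT.nd (nat_lit 94) (nat_lit 0) (nat_lit 0) (XT.lf (nat_lit 0) (nat_lit 3492023657) (nat_lit 840) (nat_lit 2557559539) (nat_lit 924) (nat_lit 2529941526) (nat_lit 121) (nat_lit 5) (nat_lit 131) (nat_lit 5) (nat_lit 132) (nat_lit 5) (nat_lit 314) (nat_lit 301) (nat_lit 246)) (XT.lf (nat_lit 84) (nat_lit 799816714) (nat_lit 0) (nat_lit 3883002804) (nat_lit 924) (nat_lit 4015293539) (nat_lit 122) (nat_lit 5) (nat_lit 121) (nat_lit 5) (nat_lit 132) (nat_lit 5) (nat_lit 315) (nat_lit 301) (nat_lit 245))) (XT.nd (nat_lit 94) (nat_lit 756) (nat_lit 0) (XT.lf (nat_lit 84)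 (nat_lit 4290039840) (nat_lit 0) (nat_lit 1612629058) (nat_lit 924) (nat_lit 2918161505) (nat_lit 122) (nat_lit 5) (nat_lit 121) (nat_lit 5) (nat_lit 132) (nat_lit 5) (nat_lit 316) (nat_lit 301) (nat_lit 244)) (XT.nd (nat_lit 94) (nat_lit 840) (nat_lit 0) (XT.lf (nat_lit 0) (nat_lit 7134126551) (nat_lit 840) (nat_lit 1092130124) (nat_lit 84) (nat_lit 722110519) (nat_lit 122) (nat_lit 5) (nat_lit 132) (nat_lit 5) (nat_lit 123) (nat_lit 5) (nat_lit 317) (nat_lit 301) (nat_lit 243)) (XT.lf (nat_lit 0) (nat_lit 2460986067) (nat_lit 840) (nat_lit 5951255024) (nat_lit 924) (nat_lit 667550291) (nat_lit 112) (nat_lit 5) (nat_lit 122) (nat_lit 5) (nat_lit 123) (nat_lit 5) (nat_lit 318) (nat_lit 301) (nat_lit 242))))) (XT.nd (nat_lit 188) (nat_lit 1008) (nat_lit 0) (XT.nd (nat_lit 94) (nat_lit 924) (nat_lit 0) (XT.lf (nat_lit 0) (nat_lit 483624905) (nat_lit 924) (nat_lit 3098581812) (nat_lit 84) (nat_lit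 5633751243) (nat_lit 111) (nat_lit 5) (nat_lit 122) (nat_lit 5) (nat_lit 112) (nat_lit 5) (nat_lit 319) (nat_lit 301) (nat_lit 241)) (XT.lf (nat_lit 0) (nat_lit 509151337) (nat_lit 924) (nat_lit 1121278964) (nat_lit 1008) (nat_lit 7726695104) (nat_lit 100) (nat_lit 5) (nat_lit 111) (nat_lit 5) (nat_lit 112) (nat_lit 5) (nat_lit 320) (nat_lit 301) (nat_lit 240))) (XT.nd (nat_lit 94) (nat_lit 1008) (nat_lit 0) (XT.lf (nat_lit 0) (nat_lit 2829016525) (nat_lit 1008) (nat_lit 5247603556) (nat_lit 84) (nat_lit 1425719915) (nat_lit 100) (nat_lit 5) (nat_lit 112) (nat_lit 5) (nat_lit 101) (nat_lit 5) (nat_lit 321) (nat_lit 301) (nat_lit 239)) (XT.nd (nat_lit 94) (nat_lit 1008) (nat_lit 0) (XT.lf (nat_lit 0) (nat_lit 4046653691) (nat_lit 1008) (nat_lit 1572281260) (nat_lit 84) (nat_lit 4033851397) (nat_lit 100) (nat_lit 5) (nat_lit 112) (nat_lit 5) (nat_lit 101) (nat_lit 5) (nat_lit 322) (nat_lit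 301) (nat_lit 238)) (XT.lf (nat_lit 0) (nat_lit 2237624988) (nat_lit 1008) (nat_lit 3057926068) (nat_lit 1092) (nat_lit 4512710333) (nat_lit 88) (nat_lit 5) (nat_lit 100) (nat_lit 5) (nat_lit 101) (nat_lit 5) (nat_lit 323) (nat_lit 301) (nat_lit 237))))))))
noncomputable def xc73 : XT := (XT.nd (nat_lit 1692) (nat_lit 2352) (nat_lit 0) (XT.nd (nat_lit 846) (nat_lit 1260) (nat_lit 0) (XT.nd (nat_lit 376) (nat_lit 1008) (nat_lit 0) (XT.nd (nat_lit 188) (nat_lit 84) (nat_lit 0) (XT.nd (nat_lit 94) (nat_lit 588) (nat_lit 0) (XT.lf (nat_lit 0) (nat_lit 6174783047) (nat_lit 1008) (nat_lit 396731049) (nat_lit 1092) (nat_lit 3397562061) (nat_lit 88) (nat_lit 5) (nat_lit 100) (nat_lit 5) (nat_lit 101) (nat_lit 5) (nat_lit 324) (nat_lit 301) (nat_lit 236)) (XT.lf (nat_lit 0) (nat_lit 52395657) (nat_lit 588) (nat_lit 7831257745) (nat_lit 672) (nat_lit 2251481585) (nat_lit 81) (nat_lit 5) (nat_lit 88)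 (nat_lit 5) (nat_lit 89) (nat_lit 5) (nat_lit 325) (nat_lit 301) (nat_lit 235))) (XT.nd (nat_lit 94) (nat_lit 84) (nat_lit 0) (XT.lf (nat_lit 0) (nat_lit 4070381049) (nat_lit 588) (nat_lit 5183105389) (nat_lit 672) (nat_lit 1052477101) (nat_lit 81) (nat_lit 5) (nat_lit 88) (nat_lit 5) (nat_lit 89) (nat_lit 5) (nat_lit 326) (nat_lit 301) (nat_lit 234)) (XT.lf (nat_lit 0) (nat_lit 153785657) (nat_lit 672) (nat_lit 2295183236) (nat_lit 84) (nat_lit 8034015480) (nat_lit 80) (nat_lit 5) (nat_lit 88) (nat_lit 5) (nat_lit 81) (nat_lit 5) (nat_lit 327) (nat_lit 301) (nat_lit 233)))) (XT.nd (nat_lit 188) (nat_lit 504) (nat_lit 0) (XT.nd (nat_lit 94) (nat_lit 0) (nat_lit 0) (XT.lf (nat_lit 0) (nat_lit 1371683478) (nat_lit 588) (nat_lit 8900747048) (nat_lit 84) (nat_lit 392985786) (nat_lit 74) (nat_lit 5) (nat_lit 81) (nat_lit 5) (nat_lit 75) (nat_lit 5) (nat_lit 328) (nat_lit 301) (nat_lit 232)) (XT.lf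 (nat_lit 0) (nat_lit 2651713976) (nat_lit 588) (nat_lit 4903171512) (nat_lit 84) (nat_lit 3297994699) (nat_lit 74) (nat_lit 5) (nat_lit 81) (nat_lit 5) (nat_lit 75) (nat_lit 5) (nat_lit 329) (nat_lit 301) (nat_lit 231))) (XT.nd (nat_lit 94) (nat_lit 504) (nat_lit 0) (XT.lf (nat_lit 0) (nat_lit 3947301872) (nat_lit 588) (nat_lit 805097124) (nat_lit 84) (nat_lit 6294632557) (nat_lit 74) (nat_lit 5) (nat_lit 81) (nat_lit 5) (nat_lit 75) (nat_lit 5) (nat_lit 330) (nat_lit 301) (nat_lit 230)) (XT.nd (nat_lit 94) (nat_lit 0) (nat_lit 0) (XT.lf (nat_lit 0) (nat_lit 3467151322) (nat_lit 504) (nat_lit 1826898037) (nat_lit 588) (nat_lit 5952935787) (nat_lit 68) (nat_lit 5) (nat_lit 74) (nat_lit 5) (nat_lit 75) (nat_lit 5) (nat_lit 331) (nat_lit 301) (nat_lit 229)) (XT.lf (nat_lit 0) (nat_lit 6679919912) (nat_lit 588) (nat_lit 3599180519) (nat_lit 84) (nat_lit 1174238965) (nat_lit 68) (nat_lit 5) (nat_lit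 75) (nat_lit 5) (nat_lit 69) (nat_lit 5) (nat_lit 332) (nat_lit 301) (nat_lit 228)))))) (XT.nd (nat_lit 376) (nat_lit 336) (nat_lit 0) (XT.nd (nat_lit 188) (nat_lit 504) (nat_lit 0) (XT.nd (nat_lit 94) (nat_lit 0) (nat_lit 0) (XT.lf (nat_lit 0) (nat_lit 683534309) (nat_lit 420) (nat_lit 7428459159) (nat_lit 504) (nat_lit 3554113741) (nat_lit 63) (nat_lit 5) (nat_lit 68) (nat_lit 5) (nat_lit 69) (nat_lit 5) (nat_lit 333) (nat_lit 301) (nat_lit 227)) (XT.lf (nat_lit 0) (nat_lit 5152917543) (nat_lit 420) (nat_lit 4451333298) (nat_lit 504) (nat_lit 2280844042) (nat_lit 63) (nat_lit 5) (nat_lit 68) (nat_lit 5) (nat_lit 69) (nat_lit 5) (nat_lit 334) (nat_lit 301) (nat_lit 226))) (XT.nd (nat_lit 94) (nat_lit 504) (nat_lit 0) (XT.lf (nat_lit 0) (nat_lit 9739128583) (nat_lit 420) (nat_lit 1382515920) (nat_lit 504) (nat_lit 989991629) (nat_lit 63) (nat_lit 5) (nat_lit 68) (nat_lit 5) (nat_lit 69)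 (nat_lit 5) (nat_lit 335) (nat_lit 301) (nat_lit 225)) (XT.lf (nat_lit 0) (nat_lit 352356000) (nat_lit 504) (nat_lit 10222646866) (nat_lit 84) (nat_lit 1769627316) (nat_lit 57) (nat_lit 5) (nat_lit 63) (nat_lit 5) (nat_lit 58) (nat_lit 5) (nat_lit 336) (nat_lit 301) (nat_lit 224)))) (XT.nd (nat_lit 188) (nat_lit 336) (nat_lit 0) (XT.nd (nat_lit 94) (nat_lit 0) (nat_lit 0) (XT.lf (nat_lit 0) (nat_lit 1734509999) (nat_lit 504) (nat_lit 5824603757) (nat_lit 84) (nat_lit 5024938391) (nat_lit 57) (nat_lit 5) (nat_lit 63) (nat_lit 5) (nat_lit 58) (nat_lit 5) (nat_lit 337) (nat_lit 301) (nat_lit 223)) (XT.lf (nat_lit 0) (nat_lit 3139724905) (nat_lit 504) (nat_lit 1311661915) (nat_lit 84) (nat_lit 8380220196) (nat_lit 57) (nat_lit 5) (nat_lit 63) (nat_lit 5) (nat_lit 58) (nat_lit 5) (nat_lit 338) (nat_lit 301) (nat_lit 222))) (XT.nd (nat_lit 94) (nat_lit 0) (nat_lit 0) (XT.lf (nat_lit 0) (nat_lit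 3388659123) (nat_lit 336) (nat_lit 1214267321) (nat_lit 420) (nat_lit 8483557002) (nat_lit 53) (nat_lit 5) (nat_lit 57) (nat_lit 5) (nat_lit 58) (nat_lit 5) (nat_lit 339) (nat_lit 301) (nat_lit 221)) (XT.nd (nat_lit 94) (nat_lit 0) (nat_lit 0) (XT.lf (nat_lit 0) (nat_lit 6127545096) (nat_lit 420) (nat_lit 5128785335) (nat_lit 84) (nat_lit 2092524508) (nat_lit 53) (nat_lit 5) (nat_lit 58) (nat_lit 5) (nat_lit 54) (nat_lit 5) (nat_lit 340) (nat_lit 301) (nat_lit 220)) (XT.lf (nat_lit 0) (nat_lit 7693576716) (nat_lit 420) (nat_lit 451129416) (nat_lit 84) (nat_lit 5474924106) (nat_lit 53) (nat_lit 5) (nat_lit 58) (nat_lit 5) (nat_lit 54) (nat_lit 5) (nat_lit 341) (nat_lit 301) (nat_lit 219))))))) (XT.nd (nat_lit 846) (nat_lit 924) (nat_lit 0) (XT.nd (nat_lit 376) (nat_lit 672) (nat_lit 0) (XT.nd (nat_lit 188) (nat_lit 336) (nat_lit 0) (XT.nd (nat_lit 94) (nat_lit 0) (nat_lit 0) (XT.lf (nat_lit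 0) (nat_lit 4441025957) (nat_lit 420) (nat_lit 4893464896) (nat_lit 504) (nat_lit 4563578573) (nat_lit 48) (nat_lit 5) (nat_lit 53) (nat_lit 5) (nat_lit 54) (nat_lit 5) (nat_lit 342) (nat_lit 301) (nat_lit 218)) (XT.lf (nat_lit 0) (nat_lit 9474619525) (nat_lit 420) (nat_lit 1538979240) (nat_lit 504) (nat_lit 3172018041) (nat_lit 48) (nat_lit 5) (nat_lit 53) (nat_lit 5) (nat_lit 54) (nat_lit 5) (nat_lit 343) (nat_lit 301) (nat_lit 217))) (XT.nd (nat_lit 94) (nat_lit 0) (nat_lit 0) (XT.lf (nat_lit 0) (nat_lit 146314346) (nat_lit 336) (nat_lit 12602053938) (nat_lit 420) (nat_lit 1733679134) (nat_lit 44) (nat_lit 5) (nat_lit 48) (nat_lit 5) (nat_lit 49) (nat_lit 5) (nat_lit 344) (nat_lit 301) (nat_lit 216)) (XT.lf (nat_lit 0) (nat_lit 5218441386) (nat_lit 336) (nat_lit 9366657918) (nat_lit 420) (nat_lit 201153090) (nat_lit 44) (nat_lit 5) (nat_lit 48) (nat_lit 5) (nat_lit 49) (nat_lit 5) (nat_lit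 345) (nat_lit 301) (nat_lit 215)))) (XT.nd (nat_lit 188) (nat_lit 252) (nat_lit 0) (XT.nd (nat_lit 94) (nat_lit 336) (nat_lit 0) (XT.lf (nat_lit 0) (nat_lit 1334788641) (nat_lit 420) (nat_lit 4685151230) (nat_lit 84) (nat_lit 9080103510) (nat_lit 43) (nat_lit 5) (nat_lit 48) (nat_lit 5) (nat_lit 44) (nat_lit 5) (nat_lit 346) (nat_lit 301) (nat_lit 214)) (XT.lf (nat_lit 0) (nat_lit 334751979) (nat_lit 336) (nat_lit 2566914155) (nat_lit 420) (nat_lit 12522291300) (nat_lit 39) (nat_lit 5) (nat_lit 43) (nat_lit 5) (nat_lit 44) (nat_lit 5) (nat_lit 347) (nat_lit 301) (nat_lit 213))) (XT.nd (nat_lit 94) (nat_lit 252) (nat_lit 0) (XT.lf (nat_lit 0) (nat_lit 4560812211) (nat_lit 420) (nat_lit 10176290552) (nat_lit 84) (nat_lit 1019525161) (nat_lit 39) (nat_lit 5) (nat_lit 44) (nat_lit 5) (nat_lit 40) (nat_lit 5) (nat_lit 348) (nat_lit 301) (nat_lit 212)) (XT.nd (nat_lit 94) (nat_lit 252) (nat_lit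 0) (XT.lf (nat_lit 0) (nat_lit 6282552800) (nat_lit 420) (nat_lit 5155889672) (nat_lit 84) (nat_lit 4660890304) (nat_lit 39) (nat_lit 5) (nat_lit 44) (nat_lit 5) (nat_lit 40) (nat_lit 5) (nat_lit 349) (nat_lit 301) (nat_lit 211)) (XT.lf (nat_lit 0) (nat_lit 2184850) (nat_lit 252) (nat_lit 8040865461) (nat_lit 336) (nat_lit 8410129833) (nat_lit 36) (nat_lit 5) (nat_lit 39) (nat_lit 5) (nat_lit 40) (nat_lit 5) (nat_lit 350) (nat_lit 301) (nat_lit 210)))))) (XT.nd (nat_lit 470) (nat_lit 588) (nat_lit 0) (XT.nd (nat_lit 188) (nat_lit 336) (nat_lit 0) (XT.nd (nat_lit 94) (nat_lit 0) (nat_lit 0) (XT.lf (nat_lit 0) (nat_lit 5411641293) (nat_lit 252) (nat_lit 4485923528) (nat_lit 336) (nat_lit 6919272832) (nat_lit 36) (nat_lit 5) (nat_lit 39) (nat_lit 5) (nat_lit 40) (nat_lit 5) (nat_lit 351) (nat_lit 301) (nat_lit 209)) (XT.lf (nat_lit 0) (nat_lit 10971506171) (nat_lit 252) (nat_lit 824120010)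 (nat_lit 336) (nat_lit 5396636255) (nat_lit 36) (nat_lit 5) (nat_lit 39) (nat_lit 5) (nat_lit 40) (nat_lit 5) (nat_lit 352) (nat_lit 301) (nat_lit 208))) (XT.nd (nat_lit 94) (nat_lit 336) (nat_lit 0) (XT.lf (nat_lit 0) (nat_lit 13768247693) (nat_lit 336) (nat_lit 922086678) (nat_lit 84) (nat_lit 2888563488) (nat_lit 36) (nat_lit 5) (nat_lit 40) (nat_lit 5) (nat_lit 37) (nat_lit 5) (nat_lit 353) (nat_lit 301) (nat_lit 207)) (XT.nd (nat_lit 94) (nat_lit 0) (nat_lit 0) (XT.lf (nat_lit 0) (nat_lit 4608570929) (nat_lit 336) (nat_lit 11234447532) (nat_lit 420) (nat_lit 2133287581) (nat_lit 32) (nat_lit 5) (nat_lit 36) (nat_lit 5) (nat_lit 37) (nat_lit 5) (nat_lit 354) (nat_lit 301) (nat_lit 206)) (XT.lf (nat_lit 0) (nat_lit 10313701329) (nat_lit 336) (nat_lit 7665113487) (nat_lit 420) (nat_lit 407377383) (nat_lit 32) (nat_lit 5) (nat_lit 36) (nat_lit 5) (nat_lit 37) (nat_lit 5) (nat_lit 355) (nat_lit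 301) (nat_lit 205))))) (XT.nd (nat_lit 188) (nat_lit 252) (nat_lit 0) (XT.nd (nat_lit 94) (nat_lit 252) (nat_lit 0) (XT.lf (nat_lit 0) (nat_lit 1331682343) (nat_lit 420) (nat_lit 2643047561) (nat_lit 84) (nat_lit 14834079932) (nat_lit 31) (nat_lit 5) (nat_lit 36) (nat_lit 5) (nat_lit 32) (nat_lit 5) (nat_lit 356) (nat_lit 301) (nat_lit 204)) (XT.lf (nat_lit 0) (nat_lit 2995033891) (nat_lit 252) (nat_lit 138539901) (nat_lit 336) (nat_lit 16110338123) (nat_lit 28) (nat_lit 5) (nat_lit 31) (nat_lit 5) (nat_lit 32) (nat_lit 5) (nat_lit 357) (nat_lit 301) (nat_lit 203))) (XT.nd (nat_lit 94) (nat_lit 252) (nat_lit 0) (XT.lf (nat_lit 0) (nat_lit 5044906381) (nat_lit 336) (nat_lit 10881943537) (nat_lit 84) (nat_lit 3764040974) (nat_lit 28) (nat_lit 5) (nat_lit 32) (nat_lit 5) (nat_lit 29) (nat_lit 5) (nat_lit 358) (nat_lit 301) (nat_lit 202)) (XT.nd (nat_lit 94) (nat_lit 252) (nat_lit 0) (XT.lf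 (nat_lit 0) (nat_lit 7005123978) (nat_lit 336) (nat_lit 5365648172) (nat_lit 84) (nat_lit 7781323715) (nat_lit 28) (nat_lit 5) (nat_lit 32) (nat_lit 5) (nat_lit 29) (nat_lit 5) (nat_lit 359) (nat_lit 301) (nat_lit 201)) (XT.lf (nat_lit 0) (nat_lit 312826932) (nat_lit 252) (nat_lit 8704955729) (nat_lit 336) (nat_lit 11610120469) (nat_lit 25) (nat_lit 5) (nat_lit 28) (nat_lit 5) (nat_lit 29) (nat_lit 5) (nat_lit 360) (nat_lit 301) (nat_lit 200))))))))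
noncomputable def xc74 : XT := (XT.nd (nat_lit 49538) (nat_lit 0) (nat_lit 3864) (XT.nd (nat_lit 48692) (nat_lit 0) (nat_lit 8232) (XT.nd (nat_lit 376) (nat_lit 84) (nat_lit 0) (XT.nd (nat_lit 188) (nat_lit 168) (nat_lit 0) (XT.nd (nat_lit 94) (nat_lit 0) (nat_lit 0) (XT.lf (nat_lit 0) (nat_lit 6266108665) (nat_lit 252) (nat_lit 4871497610) (nat_lit 336) (nat_lit 9979511630) (nat_lit 25) (nat_lit 5) (nat_lit 28) (nat_lit 5) (nat_lit 29) (nat_lit 5) (nat_lit 361) (nat_lit 301) (nat_lit 199)) (XT.lf (nat_lit 0) (nat_lit 12389417378) (nat_lit 252) (nat_lit 922830971) (nat_lit 336) (nat_lit 8309631835) (nat_lit 25) (nat_lit 5) (nat_lit 28) (nat_lit 5) (nat_lit 29) (nat_lit 5) (nat_lit 362) (nat_lit 301) (nat_lit 198))) (XT.nd (nat_lit 94) (nat_lit 168) (nat_lit 0) (XT.lf (nat_lit 0) (nat_lit 15574931934) (nat_lit 336) (nat_lit 3485395880) (nat_lit 84) (nat_lit 3081365563) (nat_lit 25) (nat_lit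 5) (nat_lit 29) (nat_lit 5) (nat_lit 26) (nat_lit 5) (nat_lit 363) (nat_lit 301) (nat_lit 197)) (XT.lf (nat_lit 0) (nat_lit 2466088118) (nat_lit 168) (nat_lit 15465288337) (nat_lit 252) (nat_lit 4745553632) (nat_lit 23) (nat_lit 5) (nat_lit 25) (nat_lit 5) (nat_lit 26) (nat_lit 5) (nat_lit 364) (nat_lit 301) (nat_lit 196)))) (XT.nd (nat_lit 188) (nat_lit 84) (nat_lit 0) (XT.nd (nat_lit 94) (nat_lit 0) (nat_lit 0) (XT.lf (nat_lit 0) (nat_lit 8662108525) (nat_lit 168) (nat_lit 11725029930) (nat_lit 252) (nat_lit 2840846591) (nat_lit 23) (nat_lit 5) (nat_lit 25) (nat_lit 5) (nat_lit 26) (nat_lit 5) (nat_lit 365) (nat_lit 301) (nat_lit 195)) (XT.lf (nat_lit 0) (nat_lit 15036773792) (nat_lit 168) (nat_lit 7872446668) (nat_lit 252) (nat_lit 887245317) (nat_lit 23) (nat_lit 5) (nat_lit 25) (nat_lit 5) (nat_lit 26) (nat_lit 5) (nat_lit 366) (nat_lit 301) (nat_lit 194))) (XT.nd (nat_lit 47940) (nat_lit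 0) (nat_lit 9660) (XT.lf (nat_lit 0) (nat_lit 1094564653) (nat_lit 252) (nat_lit 2797957873) (nat_lit 84) (nat_lit 20490036111) (nat_lit 22) (nat_lit 5) (nat_lit 25) (nat_lit 5) (nat_lit 23) (nat_lit 5) (nat_lit 367) (nat_lit 301) (nat_lit 193)) (XT.nd (nat_lit 94) (nat_lit 0) (nat_lit 0) (XT.lf (nat_lit 0) (nat_lit 3036822082) (nat_lit 756) (nat_lit 365793267) (nat_lit 756) (nat_lit 365793267) (nat_lit 137) (nat_lit 3) (nat_lit 146) (nat_lit 3) (nat_lit 146) (nat_lit 5) (nat_lit 302) (nat_lit 302) (nat_lit 257)) (XT.lf (nat_lit 84) (nat_lit 2060299835) (nat_lit 0) (nat_lit 5258896316) (nat_lit 756) (nat_lit 291031740) (nat_lit 138) (nat_lit 5) (nat_lit 137) (nat_lit 3) (nat_lit 146) (nat_lit 5) (nat_lit 303) (nat_lit 302) (nat_lit 256)))))) (XT.nd (nat_lit 376) (nat_lit 672) (nat_lit 0) (XT.nd (nat_lit 188) (nat_lit 0) (nat_lit 0) (XT.nd (nat_lit 94) (nat_lit 0) (nat_lit 0) (XT.lf (nat_lit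 0) (nat_lit 860090065) (nat_lit 756) (nat_lit 2766007063) (nat_lit 840) (nat_lit 4061041614) (nat_lit 128) (nat_lit 5) (nat_lit 137) (nat_lit 3) (nat_lit 138) (nat_lit 5) (nat_lit 304) (nat_lit 302) (nat_lit 255)) (XT.lf (nat_lit 84) (nat_lit 78183525) (nat_lit 0) (nat_lit 1918258260) (nat_lit 840) (nat_lit 5771568979) (nat_lit 129) (nat_lit 5) (nat_lit 128) (nat_lit 5) (nat_lit 138) (nat_lit 5) (nat_lit 305) (nat_lit 302) (nat_lit 254))) (XT.nd (nat_lit 94) (nat_lit 0) (nat_lit 84) (XT.lf (nat_lit 84) (nat_lit 3044800673) (nat_lit 0) (nat_lit 108022893) (nat_lit 840) (nat_lit 4699321073) (nat_lit 129) (nat_lit 5) (nat_lit 128) (nat_lit 5) (nat_lit 138) (nat_lit 5) (nat_lit 306) (nat_lit 302) (nat_lit 253)) (XT.lf (nat_lit 0) (nat_lit 4319942212) (nat_lit 756) (nat_lit 1878384370) (nat_lit 840) (nat_lit 1741613711) (nat_lit 129) (nat_lit 5) (nat_lit 138) (nat_lit 5) (nat_lit 139) (nat_lit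 5) (nat_lit 307) (nat_lit 302) (nat_lit 252)))) (XT.nd (nat_lit 188) (nat_lit 756) (nat_lit 0) (XT.nd (nat_lit 94) (nat_lit 0) (nat_lit 0) (XT.lf (nat_lit 84) (nat_lit 1138534132) (nat_lit 0) (nat_lit 4355832310) (nat_lit 840) (nat_lit 2537253212) (nat_lit 130) (nat_lit 5) (nat_lit 129) (nat_lit 5) (nat_lit 139) (nat_lit 5) (nat_lit 308) (nat_lit 302) (nat_lit 251)) (XT.lf (nat_lit 84) (nat_lit 4264374714) (nat_lit 0) (nat_lit 2420154026) (nat_lit 840) (nat_lit 1442511966) (nat_lit 130) (nat_lit 5) (nat_lit 129) (nat_lit 5) (nat_lit 139) (nat_lit 5) (nat_lit 309) (nat_lit 302) (nat_lit 250))) (XT.nd (nat_lit 94) (nat_lit 756) (nat_lit 0) (XT.lf (nat_lit 84) (nat_lit 7463427552) (nat_lit 0) (nat_lit 409093956) (nat_lit 840) (nat_lit 354360409) (nat_lit 130) (nat_lit 5) (nat_lit 129) (nat_lit 5) (nat_lit 139) (nat_lit 5) (nat_lit 310) (nat_lit 302) (nat_lit 249)) (XT.nd (nat_lit 94) (nat_lit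 0) (nat_lit 0) (XT.lf (nat_lit 0) (nat_lit 754824329) (nat_lit 840) (nat_lit 5897672131) (nat_lit 924) (nat_lit 1677236248) (nat_lit 120) (nat_lit 5) (nat_lit 130) (nat_lit 5) (nat_lit 131) (nat_lit 5) (nat_lit 311) (nat_lit 302) (nat_lit 248)) (XT.lf (nat_lit 0) (nat_lit 1865810815) (nat_lit 840) (nat_lit 2725886825) (nat_lit 924) (nat_lit 3844972893) (nat_lit 120) (nat_lit 5) (nat_lit 130) (nat_lit 5) (nat_lit 131) (nat_lit 5) (nat_lit 312) (nat_lit 302) (nat_lit 247))))))) (XT.nd (nat_lit 846) (nat_lit 2688) (nat_lit 0) (XT.nd (nat_lit 376) (nat_lit 1680) (nat_lit 0) (XT.nd (nat_lit 188) (nat_lit 0) (nat_lit 84) (XT.nd (nat_lit 94) (nat_lit 0) (nat_lit 0) (XT.lf (nat_lit 84) (nat_lit 530376799) (nat_lit 0) (nat_lit 2449792177) (nat_lit 924) (nat_lit 5567939830) (nat_lit 121) (nat_lit 5) (nat_lit 120) (nat_lit 5) (nat_lit 131) (nat_lit 5) (nat_lit 313) (nat_lit 302) (nat_lit 246)) (XT.lf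 (nat_lit 84) (nat_lit 3921087404) (nat_lit 0) (nat_lit 200958666) (nat_lit 924) (nat_lit 4541388965) (nat_lit 121) (nat_lit 5) (nat_lit 120) (nat_lit 5) (nat_lit 131) (nat_lit 5) (nat_lit 314) (nat_lit 302) (nat_lit 245))) (XT.nd (nat_lit 94) (nat_lit 0) (nat_lit 0) (XT.lf (nat_lit 0) (nat_lit 5286023740) (nat_lit 840) (nat_lit 1411371015) (nat_lit 924) (nat_lit 2085562922) (nat_lit 121) (nat_lit 5) (nat_lit 131) (nat_lit 5) (nat_lit 132) (nat_lit 5) (nat_lit 315) (nat_lit 302) (nat_lit 244)) (XT.lf (nat_lit 84) (nat_lit 2037677089) (nat_lit 0) (nat_lit 4437404074) (nat_lit 924) (nat_lit 2431648255) (nat_lit 122) (nat_lit 5) (nat_lit 121) (nat_lit 5) (nat_lit 132) (nat_lit 5) (nat_lit 316) (nat_lit 302) (nat_lit 243)))) (XT.nd (nat_lit 188) (nat_lit 1008) (nat_lit 0) (XT.nd (nat_lit 94) (nat_lit 756) (nat_lit 0) (XT.lf (nat_lit 84) (nat_lit 5599622790) (nat_lit 0) (nat_lit 2083598428) (nat_lit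 924) (nat_lit 1351864682) (nat_lit 122) (nat_lit 5) (nat_lit 121) (nat_lit 5) (nat_lit 132) (nat_lit 5) (nat_lit 317) (nat_lit 302) (nat_lit 242)) (XT.lf (nat_lit 0) (nat_lit 78265907) (nat_lit 840) (nat_lit 8823278418) (nat_lit 924) (nat_lit 266913231) (nat_lit 112) (nat_lit 5) (nat_lit 122) (nat_lit 5) (nat_lit 123) (nat_lit 5) (nat_lit 318) (nat_lit 302) (nat_lit 241))) (XT.nd (nat_lit 94) (nat_lit 924) (nat_lit 0) (XT.lf (nat_lit 0) (nat_lit 860808196) (nat_lit 924) (nat_lit 5586275395) (nat_lit 84) (nat_lit 2857982542) (nat_lit 111) (nat_lit 5) (nat_lit 122) (nat_lit 5) (nat_lit 112) (nat_lit 5) (nat_lit 319) (nat_lit 302) (nat_lit 240)) (XT.nd (nat_lit 94) (nat_lit 924) (nat_lit 0) (XT.lf (nat_lit 0) (nat_lit 1987643424) (nat_lit 924) (nat_lit 2000762565) (nat_lit 84) (nat_lit 5458532377) (nat_lit 111) (nat_lit 5) (nat_lit 122) (nat_lit 5) (nat_lit 112) (nat_lit 5) (nat_lit 320) (nat_lit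 302) (nat_lit 239)) (XT.lf (nat_lit 0) (nat_lit 1706723396) (nat_lit 924) (nat_lit 1430227996) (nat_lit 1008) (nat_lit 6456812325) (nat_lit 100) (nat_lit 5) (nat_lit 111) (nat_lit 5) (nat_lit 112) (nat_lit 5) (nat_lit 321) (nat_lit 302) (nat_lit 238)))))) (XT.nd (nat_lit 470) (nat_lit 1092) (nat_lit 0) (XT.nd (nat_lit 188) (nat_lit 1596) (nat_lit 0) (XT.nd (nat_lit 94) (nat_lit 0) (nat_lit 0) (XT.lf (nat_lit 0) (nat_lit 4326277394) (nat_lit 1008) (nat_lit 4209560609) (nat_lit 84) (nat_lit 1209330347) (nat_lit 100) (nat_lit 5) (nat_lit 112) (nat_lit 5) (nat_lit 101) (nat_lit 5) (nat_lit 322) (nat_lit 302) (nat_lit 237)) (XT.lf (nat_lit 0) (nat_lit 5539278769) (nat_lit 1008) (nat_lit 456406404) (nat_lit 84) (nat_lit 3906149204) (nat_lit 100) (nat_lit 5) (nat_lit 112) (nat_lit 5) (nat_lit 101) (nat_lit 5) (nat_lit 323) (nat_lit 302) (nat_lit 236))) (XT.nd (nat_lit 94) (nat_lit 588) (nat_lit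 0) (XT.lf (nat_lit 0) (nat_lit 3459816251) (nat_lit 1008) (nat_lit 3337403678) (nat_lit 1092) (nat_lit 3266063753) (nat_lit 88) (nat_lit 5) (nat_lit 100) (nat_lit 5) (nat_lit 101) (nat_lit 5) (nat_lit 324) (nat_lit 302) (nat_lit 235)) (XT.nd (nat_lit 94) (nat_lit 588) (nat_lit 0) (XT.lf (nat_lit 0) (nat_lit 7484363191) (nat_lit 1008) (nat_lit 588158618) (nat_lit 1092) (nat_lit 2158036242) (nat_lit 88) (nat_lit 5) (nat_lit 100) (nat_lit 5) (nat_lit 101) (nat_lit 5) (nat_lit 325) (nat_lit 302) (nat_lit 234)) (XT.lf (nat_lit 0) (nat_lit 1209698368) (nat_lit 588) (nat_lit 8186373185) (nat_lit 672) (nat_lit 1006821197) (nat_lit 81) (nat_lit 5) (nat_lit 88) (nat_lit 5) (nat_lit 89) (nat_lit 5) (nat_lit 326) (nat_lit 302) (nat_lit 233))))) (XT.nd (nat_lit 188) (nat_lit 1008) (nat_lit 0) (XT.nd (nat_lit 94) (nat_lit 0) (nat_lit 0) (XT.lf (nat_lit 0) (nat_lit 186004850) (nat_lit 672) (nat_lit 5264803725)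 (nat_lit 84) (nat_lit 5129546129) (nat_lit 80) (nat_lit 5) (nat_lit 88) (nat_lit 5) (nat_lit 81) (nat_lit 5) (nat_lit 327) (nat_lit 302) (nat_lit 232)) (XT.lf (nat_lit 0) (nat_lit 1370237121) (nat_lit 672) (nat_lit 1247694287) (nat_lit 84) (nat_lit 8145963987) (nat_lit 80) (nat_lit 5) (nat_lit 88) (nat_lit 5) (nat_lit 81) (nat_lit 5) (nat_lit 328) (nat_lit 302) (nat_lit 231))) (XT.nd (nat_lit 94) (nat_lit 504) (nat_lit 0) (XT.lf (nat_lit 0) (nat_lit 2599658768) (nat_lit 588) (nat_lit 8025495704) (nat_lit 84) (nat_lit 327836834) (nat_lit 74) (nat_lit 5) (nat_lit 81) (nat_lit 5) (nat_lit 75) (nat_lit 5) (nat_lit 329) (nat_lit 302) (nat_lit 230)) (XT.nd (nat_lit 94) (nat_lit 504) (nat_lit 0) (XT.lf (nat_lit 0) (nat_lit 3883726131) (nat_lit 588) (nat_lit 3938608721) (nat_lit 84) (nat_lit 3325226218) (nat_lit 74) (nat_lit 5) (nat_lit 81) (nat_lit 5) (nat_lit 75) (nat_lit 5) (nat_lit 330) (nat_lit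 302) (nat_lit 229)) (XT.lf (nat_lit 0) (nat_lit 258134158) (nat_lit 504) (nat_lit 4929331479) (nat_lit 588) (nat_lit 6161441696) (nat_lit 68) (nat_lit 5) (nat_lit 74) (nat_lit 5) (nat_lit 75) (nat_lit 5) (nat_lit 331) (nat_lit 302) (nat_lit 228))))))))
noncomputable def xc75 : XT := (XT.nd (nat_lit 1786) (nat_lit 1344) (nat_lit 0) (XT.nd (nat_lit 846) (nat_lit 1176) (nat_lit 0) (XT.nd (nat_lit 376) (nat_lit 840) (nat_lit 0) (XT.nd (nat_lit 188) (nat_lit 420) (nat_lit 0) (XT.nd (nat_lit 94) (nat_lit 0) (nat_lit 0) (XT.lf (nat_lit 0) (nat_lit 4646657193) (nat_lit 504) (nat_lit 1903846174) (nat_lit 588) (nat_lit 5005523666) (nat_lit 68) (nat_lit 5) (nat_lit 74) (nat_lit 5) (nat_lit 75) (nat_lit 5) (nat_lit 332) (nat_lit 302) (nat_lit 227)) (XT.lf (nat_lit 0) (nat_lit 7946296127) (nat_lit 588) (nat_lit 2632345461) (nat_lit 84) (nat_lit 1191333865) (nat_lit 68) (nat_lit 5) (nat_lit 75) (nat_lit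 5) (nat_lit 69) (nat_lit 5) (nat_lit 333) (nat_lit 302) (nat_lit 226))) (XT.nd (nat_lit 94) (nat_lit 0) (nat_lit 0) (XT.lf (nat_lit 0) (nat_lit 1772215598) (nat_lit 420) (nat_lit 7629287133) (nat_lit 504) (nat_lit 2588663190) (nat_lit 63) (nat_lit 5) (nat_lit 68) (nat_lit 5) (nat_lit 69) (nat_lit 5) (nat_lit 334) (nat_lit 302) (nat_lit 225)) (XT.lf (nat_lit 0) (nat_lit 6348052483) (nat_lit 420) (nat_lit 4560755999) (nat_lit 504) (nat_lit 1308264003) (nat_lit 63) (nat_lit 5) (nat_lit 68) (nat_lit 5) (nat_lit 69) (nat_lit 5) (nat_lit 335) (nat_lit 302) (nat_lit 224)))) (XT.nd (nat_lit 188) (nat_lit 336) (nat_lit 0) (XT.nd (nat_lit 94) (nat_lit 504) (nat_lit 0) (XT.lf (nat_lit 0) (nat_lit 11045303931) (nat_lit 420) (nat_lit 1397664281) (nat_lit 504) (nat_lit 8764585) (nat_lit 63) (nat_lit 5) (nat_lit 68) (nat_lit 5) (nat_lit 69) (nat_lit 5) (nat_lit 336) (nat_lit 302) (nat_lit 223)) (XT.lf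 (nat_lit 0) (nat_lit 1335574605) (nat_lit 504) (nat_lit 9485938117) (nat_lit 84) (nat_lit 1870870456) (nat_lit 57) (nat_lit 5) (nat_lit 63) (nat_lit 5) (nat_lit 58) (nat_lit 5) (nat_lit 337) (nat_lit 302) (nat_lit 222))) (XT.nd (nat_lit 94) (nat_lit 336) (nat_lit 0) (XT.lf (nat_lit 0) (nat_lit 2731340497) (nat_lit 504) (nat_lit 4983235532) (nat_lit 84) (nat_lit 5225701483) (nat_lit 57) (nat_lit 5) (nat_lit 63) (nat_lit 5) (nat_lit 58) (nat_lit 5) (nat_lit 338) (nat_lit 302) (nat_lit 221)) (XT.nd (nat_lit 94) (nat_lit 336) (nat_lit 0) (XT.lf (nat_lit 0) (nat_lit 4151761215) (nat_lit 504) (nat_lit 361119805) (nat_lit 84) (nat_lit 8683644270) (nat_lit 57) (nat_lit 5) (nat_lit 63) (nat_lit 5) (nat_lit 58) (nat_lit 5) (nat_lit 339) (nat_lit 302) (nat_lit 220)) (XT.lf (nat_lit 0) (nat_lit 4474876139) (nat_lit 336) (nat_lit 1167675927) (nat_lit 420) (nat_lit 7817437167) (nat_lit 53) (nat_lit 5)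 (nat_lit 57) (nat_lit 5) (nat_lit 58) (nat_lit 5) (nat_lit 340) (nat_lit 302) (nat_lit 219)))))) (XT.nd (nat_lit 470) (nat_lit 420) (nat_lit 0) (XT.nd (nat_lit 188) (nat_lit 336) (nat_lit 0) (XT.nd (nat_lit 94) (nat_lit 420) (nat_lit 0) (XT.lf (nat_lit 0) (nat_lit 7188275435) (nat_lit 420) (nat_lit 4305713497) (nat_lit 84) (nat_lit 2237447626) (nat_lit 53) (nat_lit 5) (nat_lit 58) (nat_lit 5) (nat_lit 54) (nat_lit 5) (nat_lit 341) (nat_lit 302) (nat_lit 218)) (XT.lf (nat_lit 0) (nat_lit 497443531) (nat_lit 420) (nat_lit 8284162791) (nat_lit 504) (nat_lit 5229785701) (nat_lit 48) (nat_lit 5) (nat_lit 53) (nat_lit 5) (nat_lit 54) (nat_lit 5) (nat_lit 342) (nat_lit 302) (nat_lit 217))) (XT.nd (nat_lit 94) (nat_lit 336) (nat_lit 0) (XT.lf (nat_lit 0) (nat_lit 5521589775) (nat_lit 420) (nat_lit 4930822762) (nat_lit 504) (nat_lit 3846824174) (nat_lit 48) (nat_lit 5) (nat_lit 53) (nat_lit 5) (nat_lit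 54) (nat_lit 5) (nat_lit 343) (nat_lit 302) (nat_lit 216)) (XT.nd (nat_lit 94) (nat_lit 336) (nat_lit 0) (XT.lf (nat_lit 0) (nat_lit 10682873966) (nat_lit 420) (nat_lit 1475786000) (nat_lit 504) (nat_lit 2437930295) (nat_lit 48) (nat_lit 5) (nat_lit 53) (nat_lit 5) (nat_lit 54) (nat_lit 5) (nat_lit 344) (nat_lit 302) (nat_lit 215)) (XT.lf (nat_lit 0) (nat_lit 1083532687) (nat_lit 336) (nat_lit 12849830305) (nat_lit 420) (nat_lit 969392701) (nat_lit 44) (nat_lit 5) (nat_lit 48) (nat_lit 5) (nat_lit 49) (nat_lit 5) (nat_lit 345) (nat_lit 302) (nat_lit 214))))) (XT.nd (nat_lit 188) (nat_lit 336) (nat_lit 0) (XT.nd (nat_lit 94) (nat_lit 0) (nat_lit 0) (XT.lf (nat_lit 0) (nat_lit 574237690) (nat_lit 420) (nat_lit 8938201775) (nat_lit 84) (nat_lit 5704620309) (nat_lit 43) (nat_lit 5) (nat_lit 48) (nat_lit 5) (nat_lit 44) (nat_lit 5) (nat_lit 346) (nat_lit 302) (nat_lit 213)) (XT.lf (nat_lit 0)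 (nat_lit 2130238964) (nat_lit 420) (nat_lit 3934024234) (nat_lit 84) (nat_lit 9477082089) (nat_lit 43) (nat_lit 5) (nat_lit 48) (nat_lit 5) (nat_lit 44) (nat_lit 5) (nat_lit 347) (nat_lit 302) (nat_lit 212))) (XT.nd (nat_lit 94) (nat_lit 0) (nat_lit 0) (XT.lf (nat_lit 0) (nat_lit 1232421067) (nat_lit 336) (nat_lit 2499397282) (nat_lit 420) (nat_lit 12144015265) (nat_lit 39) (nat_lit 5) (nat_lit 43) (nat_lit 5) (nat_lit 44) (nat_lit 5) (nat_lit 348) (nat_lit 302) (nat_lit 211)) (XT.nd (nat_lit 94) (nat_lit 0) (nat_lit 0) (XT.lf (nat_lit 0) (nat_lit 5421556971) (nat_lit 420) (nat_lit 9607081347) (nat_lit 84) (nat_lit 1190924477) (nat_lit 39) (nat_lit 5) (nat_lit 44) (nat_lit 5) (nat_lit 40) (nat_lit 5) (nat_lit 349) (nat_lit 302) (nat_lit 210)) (XT.lf (nat_lit 0) (nat_lit 7175041890) (nat_lit 420) (nat_lit 4457648331) (nat_lit 84) (nat_lit 4940968628) (nat_lit 39) (nat_lit 5) (nat_lit 44)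 (nat_lit 5) (nat_lit 40) (nat_lit 5) (nat_lit 350) (nat_lit 302) (nat_lit 209))))))) (XT.nd (nat_lit 846) (nat_lit 420) (nat_lit 0) (XT.nd (nat_lit 376) (nat_lit 672) (nat_lit 0) (XT.nd (nat_lit 188) (nat_lit 0) (nat_lit 0) (XT.nd (nat_lit 94) (nat_lit 0) (nat_lit 0) (XT.lf (nat_lit 0) (nat_lit 851639274) (nat_lit 252) (nat_lit 8125922300) (nat_lit 336) (nat_lit 7961396981) (nat_lit 36) (nat_lit 5) (nat_lit 39) (nat_lit 5) (nat_lit 40) (nat_lit 5) (nat_lit 351) (nat_lit 302) (nat_lit 208)) (XT.lf (nat_lit 0) (nat_lit 6403249597) (nat_lit 252) (nat_lit 4465714616) (nat_lit 336) (nat_lit 6445654988) (nat_lit 36) (nat_lit 5) (nat_lit 39) (nat_lit 5) (nat_lit 40) (nat_lit 5) (nat_lit 352) (nat_lit 302) (nat_lit 207))) (XT.nd (nat_lit 94) (nat_lit 0) (nat_lit 0) (XT.lf (nat_lit 0) (nat_lit 12110698928) (nat_lit 252) (nat_lit 695184178) (nat_lit 336) (nat_lit 4896506856) (nat_lit 36) (nat_lit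 5) (nat_lit 39) (nat_lit 5) (nat_lit 40) (nat_lit 5) (nat_lit 353) (nat_lit 302) (nat_lit 206)) (XT.lf (nat_lit 0) (nat_lit 14821760762) (nat_lit 336) (nat_lit 154962171) (nat_lit 84) (nat_lit 3124928599) (nat_lit 36) (nat_lit 5) (nat_lit 40) (nat_lit 5) (nat_lit 37) (nat_lit 5) (nat_lit 354) (nat_lit 302) (nat_lit 205)))) (XT.nd (nat_lit 188) (nat_lit 252) (nat_lit 0) (XT.nd (nat_lit 94) (nat_lit 84) (nat_lit 0) (XT.lf (nat_lit 0) (nat_lit 5539089981) (nat_lit 336) (nat_lit 11410729590) (nat_lit 420) (nat_lit 1561984848) (nat_lit 32) (nat_lit 5) (nat_lit 36) (nat_lit 5) (nat_lit 37) (nat_lit 5) (nat_lit 355) (nat_lit 302) (nat_lit 204)) (XT.lf (nat_lit 0) (nat_lit 194267705) (nat_lit 420) (nat_lit 7539621980) (nat_lit 84) (nat_lit 11201100883) (nat_lit 31) (nat_lit 5) (nat_lit 36) (nat_lit 5) (nat_lit 32) (nat_lit 5) (nat_lit 356) (nat_lit 302) (nat_lit 203))) (XT.nd (nat_lit 94) (nat_lit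 252) (nat_lit 0) (XT.lf (nat_lit 0) (nat_lit 1960560617) (nat_lit 420) (nat_lit 1969453814) (nat_lit 84) (nat_lit 15441206286) (nat_lit 31) (nat_lit 5) (nat_lit 36) (nat_lit 5) (nat_lit 32) (nat_lit 5) (nat_lit 357) (nat_lit 302) (nat_lit 202)) (XT.nd (nat_lit 94) (nat_lit 0) (nat_lit 0) (XT.lf (nat_lit 0) (nat_lit 3808336736) (nat_lit 336) (nat_lit 15984717882) (nat_lit 84) (nat_lit 27139105) (nat_lit 28) (nat_lit 5) (nat_lit 32) (nat_lit 5) (nat_lit 29) (nat_lit 5) (nat_lit 358) (nat_lit 302) (nat_lit 201)) (XT.lf (nat_lit 0) (nat_lit 5762927085) (nat_lit 336) (nat_lit 10475871154) (nat_lit 84) (nat_lit 4042797965) (nat_lit 28) (nat_lit 5) (nat_lit 32) (nat_lit 5) (nat_lit 29) (nat_lit 5) (nat_lit 359) (nat_lit 302) (nat_lit 200)))))) (XT.nd (nat_lit 470) (nat_lit 168) (nat_lit 0) (XT.nd (nat_lit 188) (nat_lit 0) (nat_lit 0) (XT.nd (nat_lit 94) (nat_lit 252) (nat_lit 0) (XT.lf (nat_lit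 0) (nat_lit 7767024438) (nat_lit 336) (nat_lit 4810923486) (nat_lit 84) (nat_lit 8179743316) (nat_lit 28) (nat_lit 5) (nat_lit 32) (nat_lit 5) (nat_lit 29) (nat_lit 5) (nat_lit 360) (nat_lit 302) (nat_lit 199)) (XT.lf (nat_lit 0) (nat_lit 1036284263) (nat_lit 252) (nat_lit 8796492628) (nat_lit 336) (nat_lit 11415827027) (nat_lit 25) (nat_lit 5) (nat_lit 28) (nat_lit 5) (nat_lit 29) (nat_lit 5) (nat_lit 361) (nat_lit 302) (nat_lit 198))) (XT.nd (nat_lit 94) (nat_lit 0) (nat_lit 0) (XT.lf (nat_lit 0) (nat_lit 7152656478) (nat_lit 252) (nat_lit 4849558915) (nat_lit 336) (nat_lit 9751333157) (nat_lit 25) (nat_lit 5) (nat_lit 28) (nat_lit 5) (nat_lit 29) (nat_lit 5) (nat_lit 362) (nat_lit 302) (nat_lit 197)) (XT.nd (nat_lit 94) (nat_lit 0) (nat_lit 0) (XT.lf (nat_lit 0) (nat_lit 13444971804) (nat_lit 252) (nat_lit 783684007) (nat_lit 336) (nat_lit 8045849885) (nat_lit 25) (nat_lit 5) (nat_lit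 28) (nat_lit 5) (nat_lit 29) (nat_lit 5) (nat_lit 363) (nat_lit 302) (nat_lit 196)) (XT.lf (nat_lit 0) (nat_lit 16547950664) (nat_lit 336) (nat_lit 2926642849) (nat_lit 84) (nat_lit 3336320330) (nat_lit 25) (nat_lit 5) (nat_lit 29) (nat_lit 5) (nat_lit 26) (nat_lit 5) (nat_lit 364) (nat_lit 302) (nat_lit 195))))) (XT.nd (nat_lit 188) (nat_lit 0) (nat_lit 0) (XT.nd (nat_lit 94) (nat_lit 0) (nat_lit 0) (XT.lf (nat_lit 0) (nat_lit 3202586399) (nat_lit 168) (nat_lit 15766667182) (nat_lit 252) (nat_lit 4393802656) (nat_lit 23) (nat_lit 5) (nat_lit 25) (nat_lit 5) (nat_lit 26) (nat_lit 5) (nat_lit 365) (nat_lit 302) (nat_lit 194)) (XT.lf (nat_lit 0) (nat_lit 9570837137) (nat_lit 168) (nat_lit 11915814206) (nat_lit 252) (nat_lit 2445049460) (nat_lit 23) (nat_lit 5) (nat_lit 25) (nat_lit 5) (nat_lit 26) (nat_lit 5) (nat_lit 366) (nat_lit 302) (nat_lit 193))) (XT.nd (nat_lit 48034) (nat_lit 0) (nat_lit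 8820) (XT.lf (nat_lit 0) (nat_lit 16123867464) (nat_lit 168) (nat_lit 7948993337) (nat_lit 252) (nat_lit 445435301) (nat_lit 23) (nat_lit 5) (nat_lit 25) (nat_lit 5) (nat_lit 26) (nat_lit 5) (nat_lit 367) (nat_lit 302) (nat_lit 192)) (XT.nd (nat_lit 94) (nat_lit 0) (nat_lit 0) (XT.lf (nat_lit 0) (nat_lit 201855019) (nat_lit 0) (nat_lit 201855019) (nat_lit 756) (nat_lit 3438915027) (nat_lit 128) (nat_lit 5) (nat_lit 128) (nat_lit 3) (nat_lit 137) (nat_lit 3) (nat_lit 303) (nat_lit 303) (nat_lit 255)) (XT.lf (nat_lit 0) (nat_lit 1926425708) (nat_lit 756) (nat_lit 4508628647) (nat_lit 840) (nat_lit 1327974980) (nat_lit 128) (nat_lit 5) (nat_lit 137) (nat_lit 3) (nat_lit 138) (nat_lit 5) (nat_lit 304) (nat_lit 303) (nat_lit 254))))))))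
noncomputable def xc76 : XT := (XT.nd (nat_lit 1692) (nat_lit 3948) (nat_lit 0) (XT.nd (nat_lit 846) (nat_lit 1596) (nat_lit 0) (XT.nd (nat_lit 376) (nat_lit 756) (nat_lit 0) (XT.nd (nat_lit 188) (nat_lit 0) (nat_lit 0) (XT.nd (nat_lit 94) (nat_lit 0) (nat_lit 0) (XT.lf (nat_lit 0) (nat_lit 3040423099) (nat_lit 756) (nat_lit 1677775969) (nat_lit 840) (nat_lit 3126534967) (nat_lit 128) (nat_lit 5) (nat_lit 137) (nat_lit 3) (nat_lit 138) (nat_lit 5) (nat_lit 305) (nat_lit 303) (nat_lit 253)) (XT.lf (nat_lit 84) (nat_lit 1242699062) (nat_lit 0) (nat_lit 2916074424) (nat_lit 840) (nat_lit 3771408892) (nat_lit 129) (nat_lit 5) (nat_lit 128) (nat_lit 5) (nat_lit 138) (nat_lit 5) (nat_lit 306) (nat_lit 303) (nat_lit 252))) (XT.nd (nat_lit 94) (nat_lit 0) (nat_lit 84) (XT.lf (nat_lit 84) (nat_lit 4266339685) (nat_lit 0) (nat_lit 1021507546) (nat_lit 840) (nat_lit 2731441612) (nat_lit 129) (nat_lit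 5) (nat_lit 128) (nat_lit 5) (nat_lit 138) (nat_lit 5) (nat_lit 307) (nat_lit 303) (nat_lit 251)) (XT.lf (nat_lit 0) (nat_lit 6421132462) (nat_lit 756) (nat_lit 760619007) (nat_lit 840) (nat_lit 930619513) (nat_lit 129) (nat_lit 5) (nat_lit 138) (nat_lit 5) (nat_lit 139) (nat_lit 5) (nat_lit 308) (nat_lit 303) (nat_lit 250)))) (XT.nd (nat_lit 188) (nat_lit 0) (nat_lit 0) (XT.nd (nat_lit 94) (nat_lit 840) (nat_lit 0) (XT.lf (nat_lit 84) (nat_lit 2337918072) (nat_lit 0) (nat_lit 5246441952) (nat_lit 840) (nat_lit 624390624) (nat_lit 130) (nat_lit 5) (nat_lit 129) (nat_lit 5) (nat_lit 139) (nat_lit 5) (nat_lit 309) (nat_lit 303) (nat_lit 249)) (XT.lf (nat_lit 0) (nat_lit 435453055) (nat_lit 840) (nat_lit 2788040683) (nat_lit 924) (nat_lit 5085659703) (nat_lit 119) (nat_lit 5) (nat_lit 129) (nat_lit 5) (nat_lit 130) (nat_lit 5) (nat_lit 310) (nat_lit 303) (nat_lit 248))) (XT.nd (nat_lit 94)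 (nat_lit 0) (nat_lit 84) (XT.lf (nat_lit 84) (nat_lit 368064427) (nat_lit 0) (nat_lit 1113410597) (nat_lit 924) (nat_lit 6932269768) (nat_lit 120) (nat_lit 5) (nat_lit 119) (nat_lit 5) (nat_lit 130) (nat_lit 5) (nat_lit 311) (nat_lit 303) (nat_lit 247)) (XT.nd (nat_lit 94) (nat_lit 0) (nat_lit 0) (XT.lf (nat_lit 0) (nat_lit 2563528448) (nat_lit 840) (nat_lit 4874929128) (nat_lit 924) (nat_lit 1083231390) (nat_lit 120) (nat_lit 5) (nat_lit 130) (nat_lit 5) (nat_lit 131) (nat_lit 5) (nat_lit 312) (nat_lit 303) (nat_lit 246)) (XT.lf (nat_lit 0) (nat_lit 3655275165) (nat_lit 840) (nat_lit 1641067455) (nat_lit 924) (nat_lit 3337591707) (nat_lit 120) (nat_lit 5) (nat_lit 130) (nat_lit 5) (nat_lit 131) (nat_lit 5) (nat_lit 313) (nat_lit 303) (nat_lit 245)))))) (XT.nd (nat_lit 376) (nat_lit 1680) (nat_lit 0) (XT.nd (nat_lit 188) (nat_lit 0) (nat_lit 84) (XT.nd (nat_lit 94) (nat_lit 0) (nat_lit 0)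 (XT.lf (nat_lit 84) (nat_lit 1704302008) (nat_lit 0) (nat_lit 3059292506) (nat_lit 924) (nat_lit 3986809273) (nat_lit 121) (nat_lit 5) (nat_lit 120) (nat_lit 5) (nat_lit 131) (nat_lit 5) (nat_lit 314) (nat_lit 303) (nat_lit 244)) (XT.lf (nat_lit 84) (nat_lit 5165321548) (nat_lit 0) (nat_lit 724702227) (nat_lit 924) (nat_lit 2981166502) (nat_lit 121) (nat_lit 5) (nat_lit 120) (nat_lit 5) (nat_lit 131) (nat_lit 5) (nat_lit 315) (nat_lit 303) (nat_lit 243))) (XT.nd (nat_lit 94) (nat_lit 0) (nat_lit 0) (XT.lf (nat_lit 0) (nat_lit 7035788124) (nat_lit 840) (nat_lit 302237503) (nat_lit 924) (nat_lit 1658375322) (nat_lit 121) (nat_lit 5) (nat_lit 131) (nat_lit 5) (nat_lit 132) (nat_lit 5) (nat_lit 316) (nat_lit 303) (nat_lit 242)) (XT.lf (nat_lit 84) (nat_lit 3242059157) (nat_lit 0) (nat_lit 4983283551) (nat_lit 924) (nat_lit 900084803) (nat_lit 122) (nat_lit 5) (nat_lit 121) (nat_lit 5) (nat_lit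 132) (nat_lit 5) (nat_lit 317) (nat_lit 303) (nat_lit 241)))) (XT.nd (nat_lit 188) (nat_lit 840) (nat_lit 0) (XT.nd (nat_lit 94) (nat_lit 0) (nat_lit 84) (XT.lf (nat_lit 0) (nat_lit 161533166) (nat_lit 924) (nat_lit 2381013367) (nat_lit 1008) (nat_lit 6716892027) (nat_lit 110) (nat_lit 5) (nat_lit 121) (nat_lit 5) (nat_lit 122) (nat_lit 5) (nat_lit 318) (nat_lit 303) (nat_lit 240)) (XT.lf (nat_lit 0) (nat_lit 1219383020) (nat_lit 924) (nat_lit 8175382414) (nat_lit 84) (nat_lit 3284643) (nat_lit 111) (nat_lit 5) (nat_lit 122) (nat_lit 5) (nat_lit 112) (nat_lit 5) (nat_lit 319) (nat_lit 303) (nat_lit 239))) (XT.nd (nat_lit 94) (nat_lit 924) (nat_lit 0) (XT.lf (nat_lit 0) (nat_lit 2331747515) (nat_lit 924) (nat_lit 4601471966) (nat_lit 84) (nat_lit 2607234555) (nat_lit 111) (nat_lit 5) (nat_lit 122) (nat_lit 5) (nat_lit 112) (nat_lit 5) (nat_lit 320) (nat_lit 303) (nat_lit 238)) (XT.nd (nat_lit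 94) (nat_lit 924) (nat_lit 0) (XT.lf (nat_lit 0) (nat_lit 3450088948) (nat_lit 924) (nat_lit 939626199) (nat_lit 84) (nat_lit 5298604838) (nat_lit 111) (nat_lit 5) (nat_lit 122) (nat_lit 5) (nat_lit 112) (nat_lit 5) (nat_lit 321) (nat_lit 303) (nat_lit 237)) (XT.lf (nat_lit 0) (nat_lit 2871420841) (nat_lit 924) (nat_lit 1732513741) (nat_lit 1008) (nat_lit 5236968138) (nat_lit 100) (nat_lit 5) (nat_lit 111) (nat_lit 5) (nat_lit 112) (nat_lit 5) (nat_lit 322) (nat_lit 303) (nat_lit 236))))))) (XT.nd (nat_lit 846) (nat_lit 1764) (nat_lit 0) (XT.nd (nat_lit 376) (nat_lit 1176) (nat_lit 0) (XT.nd (nat_lit 188) (nat_lit 0) (nat_lit 0) (XT.nd (nat_lit 94) (nat_lit 1008) (nat_lit 0) (XT.lf (nat_lit 0) (nat_lit 5786462617) (nat_lit 1008) (nat_lit 3210458952) (nat_lit 84) (nat_lit 1001667710) (nat_lit 100) (nat_lit 5) (nat_lit 112) (nat_lit 5) (nat_lit 101) (nat_lit 5) (nat_lit 323) (nat_lit 303)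 (nat_lit 235)) (XT.lf (nat_lit 0) (nat_lit 637931290) (nat_lit 1008) (nat_lit 6365591949) (nat_lit 1092) (nat_lit 3157856219) (nat_lit 88) (nat_lit 5) (nat_lit 100) (nat_lit 5) (nat_lit 101) (nat_lit 5) (nat_lit 324) (nat_lit 303) (nat_lit 234))) (XT.nd (nat_lit 94) (nat_lit 0) (nat_lit 0) (XT.lf (nat_lit 0) (nat_lit 4651611651) (nat_lit 1008) (nat_lit 3614606069) (nat_lit 1092) (nat_lit 2062898303) (nat_lit 88) (nat_lit 5) (nat_lit 100) (nat_lit 5) (nat_lit 101) (nat_lit 5) (nat_lit 325) (nat_lit 303) (nat_lit 233)) (XT.lf (nat_lit 0) (nat_lit 8768309678) (nat_lit 1008) (nat_lit 774910329) (nat_lit 1092) (nat_lit 959742905) (nat_lit 88) (nat_lit 5) (nat_lit 100) (nat_lit 5) (nat_lit 101) (nat_lit 5) (nat_lit 326) (nat_lit 303) (nat_lit 232)))) (XT.nd (nat_lit 188) (nat_lit 504) (nat_lit 0) (XT.nd (nat_lit 94) (nat_lit 0) (nat_lit 0) (XT.lf (nat_lit 0) (nat_lit 194565499) (nat_lit 672) (nat_lit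 8349246366) (nat_lit 84) (nat_lit 2137828287) (nat_lit 80) (nat_lit 5) (nat_lit 88) (nat_lit 5) (nat_lit 81) (nat_lit 5) (nat_lit 327) (nat_lit 303) (nat_lit 231)) (XT.lf (nat_lit 0) (nat_lit 1367022318) (nat_lit 672) (nat_lit 4343008151) (nat_lit 84) (nat_lit 5155578574) (nat_lit 80) (nat_lit 5) (nat_lit 88) (nat_lit 5) (nat_lit 81) (nat_lit 5) (nat_lit 328) (nat_lit 303) (nat_lit 230))) (XT.nd (nat_lit 94) (nat_lit 504) (nat_lit 0) (XT.lf (nat_lit 0) (nat_lit 2552628457) (nat_lit 672) (nat_lit 233992121) (nat_lit 84) (nat_lit 8269503919) (nat_lit 80) (nat_lit 5) (nat_lit 88) (nat_lit 5) (nat_lit 81) (nat_lit 5) (nat_lit 329) (nat_lit 303) (nat_lit 229)) (XT.nd (nat_lit 94) (nat_lit 0) (nat_lit 0) (XT.lf (nat_lit 0) (nat_lit 3795484875) (nat_lit 588) (nat_lit 7191297605) (nat_lit 84) (nat_lit 265248741) (nat_lit 74) (nat_lit 5) (nat_lit 81) (nat_lit 5) (nat_lit 75) (nat_lit 5) (nat_lit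 330) (nat_lit 303) (nat_lit 228)) (XT.lf (nat_lit 0) (nat_lit 5085825506) (nat_lit 588) (nat_lit 3010280309) (nat_lit 84) (nat_lit 3357744668) (nat_lit 74) (nat_lit 5) (nat_lit 81) (nat_lit 5) (nat_lit 75) (nat_lit 5) (nat_lit 331) (nat_lit 303) (nat_lit 227)))))) (XT.nd (nat_lit 470) (nat_lit 840) (nat_lit 0) (XT.nd (nat_lit 188) (nat_lit 420) (nat_lit 0) (XT.nd (nat_lit 94) (nat_lit 0) (nat_lit 0) (XT.lf (nat_lit 0) (nat_lit 1305926986) (nat_lit 504) (nat_lit 5101844244) (nat_lit 588) (nat_lit 5254528706) (nat_lit 68) (nat_lit 5) (nat_lit 74) (nat_lit 5) (nat_lit 75) (nat_lit 5) (nat_lit 332) (nat_lit 303) (nat_lit 226)) (XT.lf (nat_lit 0) (nat_lit 5799229919) (nat_lit 504) (nat_lit 1981976453) (nat_lit 588) (nat_lit 4095789290) (nat_lit 68) (nat_lit 5) (nat_lit 74) (nat_lit 5) (nat_lit 75) (nat_lit 5) (nat_lit 333) (nat_lit 303) (nat_lit 225))) (XT.nd (nat_lit 94) (nat_lit 420) (nat_lit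 0) (XT.lf (nat_lit 0) (nat_lit 9189185929) (nat_lit 588) (nat_lit 1699414566) (nat_lit 84) (nat_lit 1210102264) (nat_lit 68) (nat_lit 5) (nat_lit 75) (nat_lit 5) (nat_lit 69) (nat_lit 5) (nat_lit 334) (nat_lit 303) (nat_lit 224)) (XT.nd (nat_lit 94) (nat_lit 0) (nat_lit 0) (XT.lf (nat_lit 0) (nat_lit 2831416644) (nat_lit 420) (nat_lit 7838085401) (nat_lit 504) (nat_lit 1656994965) (nat_lit 63) (nat_lit 5) (nat_lit 68) (nat_lit 5) (nat_lit 69) (nat_lit 5) (nat_lit 335) (nat_lit 303) (nat_lit 223)) (XT.lf (nat_lit 0) (nat_lit 7518908417) (nat_lit 420) (nat_lit 4675262972) (nat_lit 504) (nat_lit 367329610) (nat_lit 63) (nat_lit 5) (nat_lit 68) (nat_lit 5) (nat_lit 69) (nat_lit 5) (nat_lit 336) (nat_lit 303) (nat_lit 222))))) (XT.nd (nat_lit 188) (nat_lit 336) (nat_lit 0) (XT.nd (nat_lit 94) (nat_lit 420) (nat_lit 0) (XT.lf (nat_lit 0) (nat_lit 923944734) (nat_lit 504) (nat_lit 481334707) (nat_lit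 84) (nat_lit 11398897714) (nat_lit 62) (nat_lit 5) (nat_lit 68) (nat_lit 5) (nat_lit 63) (nat_lit 5) (nat_lit 337) (nat_lit 303) (nat_lit 221)) (XT.lf (nat_lit 0) (nat_lit 2291682256) (nat_lit 504) (nat_lit 8788798569) (nat_lit 84) (nat_lit 1972504688) (nat_lit 57) (nat_lit 5) (nat_lit 63) (nat_lit 5) (nat_lit 58) (nat_lit 5) (nat_lit 338) (nat_lit 303) (nat_lit 220))) (XT.nd (nat_lit 94) (nat_lit 336) (nat_lit 0) (XT.lf (nat_lit 0) (nat_lit 3703213641) (nat_lit 504) (nat_lit 4176315610) (nat_lit 84) (nat_lit 5430023397) (nat_lit 57) (nat_lit 5) (nat_lit 63) (nat_lit 5) (nat_lit 58) (nat_lit 5) (nat_lit 339) (nat_lit 303) (nat_lit 219)) (XT.nd (nat_lit 94) (nat_lit 0) (nat_lit 0) (XT.lf (nat_lit 0) (nat_lit 571696839) (nat_lit 336) (nat_lit 4574965582) (nat_lit 420) (nat_lit 8427864246) (nat_lit 53) (nat_lit 5) (nat_lit 57) (nat_lit 5) (nat_lit 58) (nat_lit 5) (nat_lit 340) (nat_lit 303)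 (nat_lit 218)) (XT.lf (nat_lit 0) (nat_lit 5536649587) (nat_lit 336) (nat_lit 1124629506) (nat_lit 420) (nat_lit 7185700400) (nat_lit 53) (nat_lit 5) (nat_lit 57) (nat_lit 5) (nat_lit 58) (nat_lit 5) (nat_lit 341) (nat_lit 303) (nat_lit 217))))))))
noncomputable def xc77 : XT := (XT.nd (nat_lit 1786) (nat_lit 420) (nat_lit 0) (XT.nd (nat_lit 846) (nat_lit 924) (nat_lit 0) (XT.nd (nat_lit 376) (nat_lit 756) (nat_lit 0) (XT.nd (nat_lit 188) (nat_lit 0) (nat_lit 0) (XT.nd (nat_lit 94) (nat_lit 420) (nat_lit 0) (XT.lf (nat_lit 0) (nat_lit 8230310836) (nat_lit 420) (nat_lit 3515295774) (nat_lit 84) (nat_lit 2382121575) (nat_lit 53) (nat_lit 5) (nat_lit 58) (nat_lit 5) (nat_lit 54) (nat_lit 5) (nat_lit 342) (nat_lit 303) (nat_lit 216)) (XT.lf (nat_lit 0) (nat_lit 1427405515) (nat_lit 420) (nat_lit 8430070241) (nat_lit 504) (nat_lit 4559488752) (nat_lit 48) (nat_lit 5) (nat_lit 53) (nat_lit 5)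 (nat_lit 54) (nat_lit 5) (nat_lit 343) (nat_lit 303) (nat_lit 215))) (XT.nd (nat_lit 94) (nat_lit 0) (nat_lit 0) (XT.lf (nat_lit 0) (nat_lit 6579801963) (nat_lit 420) (nat_lit 4976111249) (nat_lit 504) (nat_lit 3158684544) (nat_lit 48) (nat_lit 5) (nat_lit 53) (nat_lit 5) (nat_lit 54) (nat_lit 5) (nat_lit 344) (nat_lit 303) (nat_lit 214)) (XT.lf (nat_lit 0) (nat_lit 11874414451) (nat_lit 420) (nat_lit 1417202661) (nat_lit 504) (nat_lit 1730391508) (nat_lit 48) (nat_lit 5) (nat_lit 53) (nat_lit 5) (nat_lit 54) (nat_lit 5) (nat_lit 345) (nat_lit 303) (nat_lit 213)))) (XT.nd (nat_lit 188) (nat_lit 336) (nat_lit 0) (XT.nd (nat_lit 94) (nat_lit 84) (nat_lit 0) (XT.lf (nat_lit 0) (nat_lit 1994560409) (nat_lit 336) (nat_lit 13113751199) (nat_lit 420) (nat_lit 229866735) (nat_lit 44) (nat_lit 5) (nat_lit 48) (nat_lit 5) (nat_lit 49) (nat_lit 5) (nat_lit 346) (nat_lit 303) (nat_lit 212)) (XT.lf (nat_lit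 0) (nat_lit 1323437579) (nat_lit 420) (nat_lit 8345871206) (nat_lit 84) (nat_lit 5993486206) (nat_lit 43) (nat_lit 5) (nat_lit 48) (nat_lit 5) (nat_lit 44) (nat_lit 5) (nat_lit 347) (nat_lit 303) (nat_lit 211))) (XT.nd (nat_lit 94) (nat_lit 336) (nat_lit 0) (XT.lf (nat_lit 0) (nat_lit 2905683279) (nat_lit 420) (nat_lit 3212705634) (nat_lit 84) (nat_lit 9879526015) (nat_lit 43) (nat_lit 5) (nat_lit 48) (nat_lit 5) (nat_lit 44) (nat_lit 5) (nat_lit 348) (nat_lit 303) (nat_lit 210)) (XT.nd (nat_lit 94) (nat_lit 0) (nat_lit 0) (XT.lf (nat_lit 0) (nat_lit 2105362086) (nat_lit 336) (nat_lit 2438499851) (nat_lit 420) (nat_lit 11799411829) (nat_lit 39) (nat_lit 5) (nat_lit 43) (nat_lit 5) (nat_lit 44) (nat_lit 5) (nat_lit 349) (nat_lit 303) (nat_lit 209)) (XT.lf (nat_lit 0) (nat_lit 6266375919) (nat_lit 420) (nat_lit 9072627424) (nat_lit 84) (nat_lit 1359356932) (nat_lit 39) (nat_lit 5) (nat_lit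 44) (nat_lit 5) (nat_lit 40) (nat_lit 5) (nat_lit 350) (nat_lit 303) (nat_lit 208)))))) (XT.nd (nat_lit 470) (nat_lit 336) (nat_lit 0) (XT.nd (nat_lit 188) (nat_lit 336) (nat_lit 0) (XT.nd (nat_lit 94) (nat_lit 252) (nat_lit 0) (XT.lf (nat_lit 0) (nat_lit 8053870402) (nat_lit 420) (nat_lit 3788586695) (nat_lit 84) (nat_lit 5221698108) (nat_lit 39) (nat_lit 5) (nat_lit 44) (nat_lit 5) (nat_lit 40) (nat_lit 5) (nat_lit 351) (nat_lit 303) (nat_lit 207)) (XT.lf (nat_lit 0) (nat_lit 1677116157) (nat_lit 252) (nat_lit 8223342339) (nat_lit 336) (nat_lit 7540775164) (nat_lit 36) (nat_lit 5) (nat_lit 39) (nat_lit 5) (nat_lit 40) (nat_lit 5) (nat_lit 352) (nat_lit 303) (nat_lit 206))) (XT.nd (nat_lit 94) (nat_lit 336) (nat_lit 0) (XT.lf (nat_lit 0) (nat_lit 7376799864) (nat_lit 252) (nat_lit 4454313212) (nat_lit 336) (nat_lit 5998113238) (nat_lit 36) (nat_lit 5) (nat_lit 39) (nat_lit 5) (nat_lit 40)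 (nat_lit 5) (nat_lit 353) (nat_lit 303) (nat_lit 205)) (XT.nd (nat_lit 94) (nat_lit 336) (nat_lit 0) (XT.lf (nat_lit 0) (nat_lit 13237876017) (nat_lit 252) (nat_lit 571401661) (nat_lit 336) (nat_lit 4420406178) (nat_lit 36) (nat_lit 5) (nat_lit 39) (nat_lit 5) (nat_lit 40) (nat_lit 5) (nat_lit 354) (nat_lit 303) (nat_lit 204)) (XT.lf (nat_lit 0) (nat_lit 600919159) (nat_lit 336) (nat_lit 15275854410) (nat_lit 420) (nat_lit 2764966684) (nat_lit 32) (nat_lit 5) (nat_lit 36) (nat_lit 5) (nat_lit 37) (nat_lit 5) (nat_lit 355) (nat_lit 303) (nat_lit 203))))) (XT.nd (nat_lit 188) (nat_lit 252) (nat_lit 0) (XT.nd (nat_lit 94) (nat_lit 84) (nat_lit 0) (XT.lf (nat_lit 0) (nat_lit 6451801067) (nat_lit 336) (nat_lit 11602663407) (nat_lit 420) (nat_lit 1010728076) (nat_lit 32) (nat_lit 5) (nat_lit 36) (nat_lit 5) (nat_lit 37) (nat_lit 5) (nat_lit 356) (nat_lit 303) (nat_lit 202)) (XT.lf (nat_lit 0)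 (nat_lit 770218346) (nat_lit 420) (nat_lit 7040539184) (nat_lit 84) (nat_lit 11691176792) (nat_lit 31) (nat_lit 5) (nat_lit 36) (nat_lit 5) (nat_lit 32) (nat_lit 5) (nat_lit 357) (nat_lit 303) (nat_lit 201))) (XT.nd (nat_lit 94) (nat_lit 252) (nat_lit 0) (XT.lf (nat_lit 0) (nat_lit 2574129793) (nat_lit 420) (nat_lit 1319729892) (nat_lit 84) (nat_lit 16058430511) (nat_lit 31) (nat_lit 5) (nat_lit 36) (nat_lit 5) (nat_lit 32) (nat_lit 5) (nat_lit 358) (nat_lit 303) (nat_lit 200)) (XT.nd (nat_lit 94) (nat_lit 0) (nat_lit 0) (XT.lf (nat_lit 0) (nat_lit 4471136791) (nat_lit 336) (nat_lit 15759184357) (nat_lit 84) (nat_lit 185178982) (nat_lit 28) (nat_lit 5) (nat_lit 32) (nat_lit 5) (nat_lit 29) (nat_lit 5) (nat_lit 359) (nat_lit 303) (nat_lit 199)) (XT.lf (nat_lit 0) (nat_lit 6469940207) (nat_lit 336) (nat_lit 10101244131) (nat_lit 84) (nat_lit 4320596637) (nat_lit 28) (nat_lit 5) (nat_lit 32)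 (nat_lit 5) (nat_lit 29) (nat_lit 5) (nat_lit 360) (nat_lit 303) (nat_lit 198))))))) (XT.nd (nat_lit 48880) (nat_lit 0) (nat_lit 8064) (XT.nd (nat_lit 376) (nat_lit 168) (nat_lit 0) (XT.nd (nat_lit 188) (nat_lit 0) (nat_lit 0) (XT.nd (nat_lit 94) (nat_lit 252) (nat_lit 0) (XT.lf (nat_lit 0) (nat_lit 8520277833) (nat_lit 336) (nat_lit 4281711941) (nat_lit 84) (nat_lit 8581202783) (nat_lit 28) (nat_lit 5) (nat_lit 32) (nat_lit 5) (nat_lit 29) (nat_lit 5) (nat_lit 361) (nat_lit 303) (nat_lit 197)) (XT.lf (nat_lit 0) (nat_lit 1739891563) (nat_lit 252) (nat_lit 8901429175) (nat_lit 336) (nat_lit 11248337128) (nat_lit 25) (nat_lit 5) (nat_lit 28) (nat_lit 5) (nat_lit 29) (nat_lit 5) (nat_lit 362) (nat_lit 303) (nat_lit 196))) (XT.nd (nat_lit 94) (nat_lit 0) (nat_lit 0) (XT.lf (nat_lit 0) (nat_lit 8025681252) (nat_lit 252) (nat_lit 4837184549) (nat_lit 336) (nat_lit 9547920764) (nat_lit 25) (nat_lit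 5) (nat_lit 28) (nat_lit 5) (nat_lit 29) (nat_lit 5) (nat_lit 363) (nat_lit 303) (nat_lit 195)) (XT.lf (nat_lit 0) (nat_lit 14493475360) (nat_lit 252) (nat_lit 650159886) (nat_lit 336) (nat_lit 7804772957) (nat_lit 25) (nat_lit 5) (nat_lit 28) (nat_lit 5) (nat_lit 29) (nat_lit 5) (nat_lit 364) (nat_lit 303) (nat_lit 194)))) (XT.nd (nat_lit 188) (nat_lit 0) (nat_lit 0) (XT.nd (nat_lit 94) (nat_lit 168) (nat_lit 0) (XT.lf (nat_lit 0) (nat_lit 17522097835) (nat_lit 336) (nat_lit 2390064197) (nat_lit 84) (nat_lit 3589735239) (nat_lit 25) (nat_lit 5) (nat_lit 29) (nat_lit 5) (nat_lit 26) (nat_lit 5) (nat_lit 365) (nat_lit 303) (nat_lit 193)) (XT.lf (nat_lit 0) (nat_lit 3922820262) (nat_lit 168) (nat_lit 16087934687) (nat_lit 252) (nat_lit 4060695917) (nat_lit 23) (nat_lit 5) (nat_lit 25) (nat_lit 5) (nat_lit 26) (nat_lit 5) (nat_lit 366) (nat_lit 303) (nat_lit 192))) (XT.nd (nat_lit 48128) (nat_lit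 0) (nat_lit 8820) (XT.lf (nat_lit 0) (nat_lit 10469816003) (nat_lit 168) (nat_lit 12122741616) (nat_lit 252) (nat_lit 2065642675) (nat_lit 23) (nat_lit 5) (nat_lit 25) (nat_lit 5) (nat_lit 26) (nat_lit 5) (nat_lit 367) (nat_lit 303) (nat_lit 191)) (XT.nd (nat_lit 94) (nat_lit 0) (nat_lit 0) (XT.lf (nat_lit 0) (nat_lit 749213981) (nat_lit 0) (nat_lit 749213981) (nat_lit 756) (nat_lit 2422799073) (nat_lit 128) (nat_lit 5) (nat_lit 128) (nat_lit 3) (nat_lit 137) (nat_lit 3) (nat_lit 304) (nat_lit 304) (nat_lit 253)) (XT.lf (nat_lit 0) (nat_lit 4075058815) (nat_lit 756) (nat_lit 3509717849) (nat_lit 840) (nat_lit 340627232) (nat_lit 128) (nat_lit 5) (nat_lit 137) (nat_lit 3) (nat_lit 138) (nat_lit 5) (nat_lit 305) (nat_lit 304) (nat_lit 252)))))) (XT.nd (nat_lit 470) (nat_lit 0) (nat_lit 0) (XT.nd (nat_lit 188) (nat_lit 756) (nat_lit 0) (XT.nd (nat_lit 94) (nat_lit 0) (nat_lit 0) (XT.lf (nat_lit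 0) (nat_lit 5160780881) (nat_lit 756) (nat_lit 625346398) (nat_lit 840) (nat_lit 2225867858) (nat_lit 128) (nat_lit 5) (nat_lit 137) (nat_lit 3) (nat_lit 138) (nat_lit 5) (nat_lit 306) (nat_lit 304) (nat_lit 251)) (XT.lf (nat_lit 84) (nat_lit 2374481890) (nat_lit 0) (nat_lit 3889242803) (nat_lit 840) (nat_lit 1838314406) (nat_lit 129) (nat_lit 5) (nat_lit 128) (nat_lit 5) (nat_lit 138) (nat_lit 5) (nat_lit 307) (nat_lit 304) (nat_lit 250))) (XT.nd (nat_lit 94) (nat_lit 756) (nat_lit 0) (XT.lf (nat_lit 84) (nat_lit 5458983371) (nat_lit 0) (nat_lit 1909401314) (nat_lit 840) (nat_lit 827747572) (nat_lit 129) (nat_lit 5) (nat_lit 128) (nat_lit 5) (nat_lit 138) (nat_lit 5) (nat_lit 308) (nat_lit 304) (nat_lit 249)) (XT.nd (nat_lit 94) (nat_lit 0) (nat_lit 0) (XT.lf (nat_lit 0) (nat_lit 176162109) (nat_lit 840) (nat_lit 7967430480) (nat_lit 924) (nat_lit 150763863) (nat_lit 119) (nat_lit 5) (nat_lit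 129) (nat_lit 5) (nat_lit 130) (nat_lit 5) (nat_lit 309) (nat_lit 304) (nat_lit 248)) (XT.lf (nat_lit 0) (nat_lit 1205031792) (nat_lit 840) (nat_lit 4902296411) (nat_lit 924) (nat_lit 2287922054) (nat_lit 119) (nat_lit 5) (nat_lit 129) (nat_lit 5) (nat_lit 130) (nat_lit 5) (nat_lit 310) (nat_lit 304) (nat_lit 247))))) (XT.nd (nat_lit 188) (nat_lit 0) (nat_lit 84) (XT.nd (nat_lit 94) (nat_lit 0) (nat_lit 0) (XT.lf (nat_lit 0) (nat_lit 2229561666) (nat_lit 840) (nat_lit 1764726077) (nat_lit 924) (nat_lit 4506329543) (nat_lit 119) (nat_lit 5) (nat_lit 129) (nat_lit 5) (nat_lit 130) (nat_lit 5) (nat_lit 311) (nat_lit 304) (nat_lit 246)) (XT.lf (nat_lit 84) (nat_lit 1477983131) (nat_lit 0) (nat_lit 1787385346) (nat_lit 924) (nat_lit 5344732762) (nat_lit 120) (nat_lit 5) (nat_lit 119) (nat_lit 5) (nat_lit 130) (nat_lit 5) (nat_lit 312) (nat_lit 304) (nat_lit 245))) (XT.nd (nat_lit 94) (nat_lit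 0) (nat_lit 0) (XT.lf (nat_lit 0) (nat_lit 4322555749) (nat_lit 840) (nat_lit 3891889117) (nat_lit 924) (nat_lit 509076019) (nat_lit 120) (nat_lit 5) (nat_lit 130) (nat_lit 5) (nat_lit 131) (nat_lit 5) (nat_lit 313) (nat_lit 304) (nat_lit 244)) (XT.nd (nat_lit 94) (nat_lit 0) (nat_lit 0) (XT.lf (nat_lit 0) (nat_lit 5397645843) (nat_lit 840) (nat_lit 591879621) (nat_lit 924) (nat_lit 2851594834) (nat_lit 120) (nat_lit 5) (nat_lit 130) (nat_lit 5) (nat_lit 131) (nat_lit 5) (nat_lit 314) (nat_lit 304) (nat_lit 243)) (XT.lf (nat_lit 84) (nat_lit 2846059167) (nat_lit 0) (nat_lit 3656083865) (nat_lit 924) (nat_lit 2460540496) (nat_lit 121) (nat_lit 5) (nat_lit 120) (nat_lit 5) (nat_lit 131) (nat_lit 5) (nat_lit 315) (nat_lit 304) (nat_lit 242))))))))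
noncomputable def xc78 : XT := (XT.nd (nat_lit 1692) (nat_lit 2436) (nat_lit 0) (XT.nd (nat_lit 846) (nat_lit 2688) (nat_lit 0) (XT.nd (nat_lit 376) (nat_lit 840) (nat_lit 0) (XT.nd (nat_lit 188) (nat_lit 840) (nat_lit 0) (XT.nd (nat_lit 94) (nat_lit 0) (nat_lit 84) (XT.lf (nat_lit 84) (nat_lit 6381628666) (nat_lit 0) (nat_lit 1234028608) (nat_lit 924) (nat_lit 1473330612) (nat_lit 121) (nat_lit 5) (nat_lit 120) (nat_lit 5) (nat_lit 131) (nat_lit 5) (nat_lit 316) (nat_lit 304) (nat_lit 241)) (XT.lf (nat_lit 84) (nat_lit 788886029) (nat_lit 0) (nat_lit 7964799588) (nat_lit 924) (nat_lit 466017252) (nat_lit 122) (nat_lit 5) (nat_lit 121) (nat_lit 5) (nat_lit 132) (nat_lit 5) (nat_lit 317) (nat_lit 304) (nat_lit 240))) (XT.nd (nat_lit 94) (nat_lit 0) (nat_lit 0) (XT.lf (nat_lit 0) (nat_lit 572013272) (nat_lit 924) (nat_lit 4943915885) (nat_lit 1008) (nat_lit 3838197087) (nat_lit 110) (nat_lit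 5) (nat_lit 121) (nat_lit 5) (nat_lit 122) (nat_lit 5) (nat_lit 318) (nat_lit 304) (nat_lit 239)) (XT.lf (nat_lit 0) (nat_lit 1603304832) (nat_lit 924) (nat_lit 1375648119) (nat_lit 1008) (nat_lit 6514691251) (nat_lit 110) (nat_lit 5) (nat_lit 121) (nat_lit 5) (nat_lit 122) (nat_lit 5) (nat_lit 319) (nat_lit 304) (nat_lit 238)))) (XT.nd (nat_lit 188) (nat_lit 840) (nat_lit 0) (XT.nd (nat_lit 94) (nat_lit 0) (nat_lit 84) (XT.lf (nat_lit 84) (nat_lit 2328856677) (nat_lit 0) (nat_lit 332453778) (nat_lit 1008) (nat_lit 6976503467) (nat_lit 111) (nat_lit 5) (nat_lit 110) (nat_lit 5) (nat_lit 122) (nat_lit 5) (nat_lit 320) (nat_lit 304) (nat_lit 237)) (XT.lf (nat_lit 0) (nat_lit 3762740300) (nat_lit 924) (nat_lit 3654728649) (nat_lit 84) (nat_lit 2368813392) (nat_lit 111) (nat_lit 5) (nat_lit 122) (nat_lit 5) (nat_lit 112) (nat_lit 5) (nat_lit 321) (nat_lit 304) (nat_lit 236))) (XT.nd (nat_lit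 94) (nat_lit 0) (nat_lit 0) (XT.lf (nat_lit 0) (nat_lit 89685670) (nat_lit 924) (nat_lit 4786100832) (nat_lit 1008) (nat_lit 5064419214) (nat_lit 100) (nat_lit 5) (nat_lit 111) (nat_lit 5) (nat_lit 112) (nat_lit 5) (nat_lit 322) (nat_lit 304) (nat_lit 235)) (XT.nd (nat_lit 94) (nat_lit 0) (nat_lit 0) (XT.lf (nat_lit 0) (nat_lit 4006370739) (nat_lit 924) (nat_lit 2028891602) (nat_lit 1008) (nat_lit 4063418131) (nat_lit 100) (nat_lit 5) (nat_lit 111) (nat_lit 5) (nat_lit 112) (nat_lit 5) (nat_lit 323) (nat_lit 304) (nat_lit 234)) (XT.lf (nat_lit 0) (nat_lit 7213368149) (nat_lit 1008) (nat_lit 2247293170) (nat_lit 84) (nat_lit 802088297) (nat_lit 100) (nat_lit 5) (nat_lit 112) (nat_lit 5) (nat_lit 101) (nat_lit 5) (nat_lit 324) (nat_lit 304) (nat_lit 233)))))) (XT.nd (nat_lit 376) (nat_lit 1008) (nat_lit 0) (XT.nd (nat_lit 188) (nat_lit 672) (nat_lit 0) (XT.nd (nat_lit 94) (nat_lit 0) (nat_lit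 0) (XT.lf (nat_lit 0) (nat_lit 1709638389) (nat_lit 1008) (nat_lit 6731444093) (nat_lit 1092) (nat_lit 1990557302) (nat_lit 88) (nat_lit 5) (nat_lit 100) (nat_lit 5) (nat_lit 101) (nat_lit 5) (nat_lit 325) (nat_lit 304) (nat_lit 232)) (XT.lf (nat_lit 0) (nat_lit 5816113482) (nat_lit 1008) (nat_lit 3890110645) (nat_lit 1092) (nat_lit 899697364) (nat_lit 88) (nat_lit 5) (nat_lit 100) (nat_lit 5) (nat_lit 101) (nat_lit 5) (nat_lit 326) (nat_lit 304) (nat_lit 231))) (XT.nd (nat_lit 94) (nat_lit 588) (nat_lit 0) (XT.lf (nat_lit 0) (nat_lit 196713182) (nat_lit 1092) (nat_lit 758703222) (nat_lit 84) (nat_lit 9830984354) (nat_lit 87) (nat_lit 5) (nat_lit 100) (nat_lit 5) (nat_lit 88) (nat_lit 5) (nat_lit 327) (nat_lit 304) (nat_lit 230)) (XT.lf (nat_lit 0) (nat_lit 1340511014) (nat_lit 672) (nat_lit 7555692315) (nat_lit 84) (nat_lit 2075116012) (nat_lit 80) (nat_lit 5) (nat_lit 88) (nat_lit 5) (nat_lit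 81) (nat_lit 5) (nat_lit 328) (nat_lit 304) (nat_lit 229)))) (XT.nd (nat_lit 188) (nat_lit 504) (nat_lit 0) (XT.nd (nat_lit 94) (nat_lit 504) (nat_lit 0) (XT.lf (nat_lit 0) (nat_lit 2515039180) (nat_lit 672) (nat_lit 3456903587) (nat_lit 84) (nat_lit 5190294865) (nat_lit 80) (nat_lit 5) (nat_lit 88) (nat_lit 5) (nat_lit 81) (nat_lit 5) (nat_lit 329) (nat_lit 304) (nat_lit 228)) (XT.lf (nat_lit 0) (nat_lit 764197375) (nat_lit 504) (nat_lit 2947538424) (nat_lit 588) (nat_lit 7647897146) (nat_lit 74) (nat_lit 5) (nat_lit 80) (nat_lit 5) (nat_lit 81) (nat_lit 5) (nat_lit 330) (nat_lit 304) (nat_lit 227))) (XT.nd (nat_lit 94) (nat_lit 504) (nat_lit 0) (XT.lf (nat_lit 0) (nat_lit 4962324213) (nat_lit 588) (nat_lit 6395386626) (nat_lit 84) (nat_lit 205029587) (nat_lit 74) (nat_lit 5) (nat_lit 81) (nat_lit 5) (nat_lit 75) (nat_lit 5) (nat_lit 331) (nat_lit 304) (nat_lit 226)) (XT.nd (nat_lit 94)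 (nat_lit 504) (nat_lit 0) (XT.lf (nat_lit 0) (nat_lit 6261118790) (nat_lit 588) (nat_lit 2115392205) (nat_lit 84) (nat_lit 3395450789) (nat_lit 74) (nat_lit 5) (nat_lit 81) (nat_lit 5) (nat_lit 75) (nat_lit 5) (nat_lit 332) (nat_lit 304) (nat_lit 225)) (XT.lf (nat_lit 0) (nat_lit 2324612810) (nat_lit 504) (nat_lit 5278537834) (nat_lit 588) (nat_lit 4384532957) (nat_lit 68) (nat_lit 5) (nat_lit 74) (nat_lit 5) (nat_lit 75) (nat_lit 5) (nat_lit 333) (nat_lit 304) (nat_lit 224))))))) (XT.nd (nat_lit 846) (nat_lit 1176) (nat_lit 0) (XT.nd (nat_lit 376) (nat_lit 756) (nat_lit 0) (XT.nd (nat_lit 188) (nat_lit 504) (nat_lit 0) (XT.nd (nat_lit 94) (nat_lit 0) (nat_lit 0) (XT.lf (nat_lit 0) (nat_lit 6927795656) (nat_lit 504) (nat_lit 2061396790) (nat_lit 588) (nat_lit 3220929332) (nat_lit 68) (nat_lit 5) (nat_lit 74) (nat_lit 5) (nat_lit 75) (nat_lit 5) (nat_lit 334) (nat_lit 304) (nat_lit 223))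 (XT.lf (nat_lit 0) (nat_lit 10411577679) (nat_lit 588) (nat_lit 797655376) (nat_lit 84) (nat_lit 1230528306) (nat_lit 68) (nat_lit 5) (nat_lit 75) (nat_lit 5) (nat_lit 69) (nat_lit 5) (nat_lit 335) (nat_lit 304) (nat_lit 222))) (XT.nd (nat_lit 94) (nat_lit 84) (nat_lit 0) (XT.lf (nat_lit 0) (nat_lit 3863968743) (nat_lit 420) (nat_lit 8054997704) (nat_lit 504) (nat_lit 756382588) (nat_lit 63) (nat_lit 5) (nat_lit 68) (nat_lit 5) (nat_lit 69) (nat_lit 5) (nat_lit 336) (nat_lit 304) (nat_lit 221)) (XT.lf (nat_lit 0) (nat_lit 533665130) (nat_lit 504) (nat_lit 4255676100) (nat_lit 84) (nat_lit 8129129769) (nat_lit 62) (nat_lit 5) (nat_lit 68) (nat_lit 5) (nat_lit 63) (nat_lit 5) (nat_lit 337) (nat_lit 304) (nat_lit 220)))) (XT.nd (nat_lit 188) (nat_lit 336) (nat_lit 0) (XT.nd (nat_lit 94) (nat_lit 0) (nat_lit 0) (XT.lf (nat_lit 0) (nat_lit 423508418) (nat_lit 420) (nat_lit 1410827539) (nat_lit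 504) (nat_lit 11335066255) (nat_lit 57) (nat_lit 5) (nat_lit 62) (nat_lit 5) (nat_lit 63) (nat_lit 5) (nat_lit 338) (nat_lit 304) (nat_lit 219)) (XT.lf (nat_lit 0) (nat_lit 3223249710) (nat_lit 504) (nat_lit 8128758383) (nat_lit 84) (nat_lit 2074704873) (nat_lit 57) (nat_lit 5) (nat_lit 63) (nat_lit 5) (nat_lit 58) (nat_lit 5) (nat_lit 339) (nat_lit 304) (nat_lit 218))) (XT.nd (nat_lit 94) (nat_lit 336) (nat_lit 0) (XT.lf (nat_lit 0) (nat_lit 4652664384) (nat_lit 504) (nat_lit 3401326553) (nat_lit 84) (nat_lit 5638172298) (nat_lit 57) (nat_lit 5) (nat_lit 63) (nat_lit 5) (nat_lit 58) (nat_lit 5) (nat_lit 340) (nat_lit 304) (nat_lit 217)) (XT.nd (nat_lit 94) (nat_lit 0) (nat_lit 0) (XT.lf (nat_lit 0) (nat_lit 1484717489) (nat_lit 336) (nat_lit 4639927851) (nat_lit 420) (nat_lit 7841332383) (nat_lit 53) (nat_lit 5) (nat_lit 57) (nat_lit 5) (nat_lit 58) (nat_lit 5) (nat_lit 341) (nat_lit 304)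 (nat_lit 216)) (XT.lf (nat_lit 0) (nat_lit 6576664045) (nat_lit 336) (nat_lit 1084942425) (nat_lit 420) (nat_lit 6586152889) (nat_lit 53) (nat_lit 5) (nat_lit 57) (nat_lit 5) (nat_lit 58) (nat_lit 5) (nat_lit 342) (nat_lit 304) (nat_lit 215)))))) (XT.nd (nat_lit 470) (nat_lit 336) (nat_lit 0) (XT.nd (nat_lit 188) (nat_lit 420) (nat_lit 0) (XT.nd (nat_lit 94) (nat_lit 420) (nat_lit 0) (XT.lf (nat_lit 0) (nat_lit 9256126782) (nat_lit 420) (nat_lit 2755098976) (nat_lit 84) (nat_lit 2526819495) (nat_lit 53) (nat_lit 5) (nat_lit 58) (nat_lit 5) (nat_lit 54) (nat_lit 5) (nat_lit 343) (nat_lit 304) (nat_lit 214)) (XT.lf (nat_lit 0) (nat_lit 2332026478) (nat_lit 420) (nat_lit 8587069713) (nat_lit 504) (nat_lit 3917718277) (nat_lit 48) (nat_lit 5) (nat_lit 53) (nat_lit 5) (nat_lit 54) (nat_lit 5) (nat_lit 344) (nat_lit 304) (nat_lit 213))) (XT.nd (nat_lit 94) (nat_lit 420) (nat_lit 0) (XT.lf (nat_lit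 0) (nat_lit 7618277659) (nat_lit 420) (nat_lit 5029175057) (nat_lit 504) (nat_lit 2497035747) (nat_lit 48) (nat_lit 5) (nat_lit 53) (nat_lit 5) (nat_lit 54) (nat_lit 5) (nat_lit 345) (nat_lit 304) (nat_lit 212)) (XT.nd (nat_lit 94) (nat_lit 420) (nat_lit 0) (XT.lf (nat_lit 0) (nat_lit 13051931420) (nat_lit 420) (nat_lit 1362983043) (nat_lit 504) (nat_lit 1047304239) (nat_lit 48) (nat_lit 5) (nat_lit 53) (nat_lit 5) (nat_lit 54) (nat_lit 5) (nat_lit 346) (nat_lit 304) (nat_lit 211)) (XT.lf (nat_lit 0) (nat_lit 477189175) (nat_lit 420) (nat_lit 12911645744) (nat_lit 84) (nat_lit 2399687772) (nat_lit 43) (nat_lit 5) (nat_lit 48) (nat_lit 5) (nat_lit 44) (nat_lit 5) (nat_lit 347) (nat_lit 304) (nat_lit 210))))) (XT.nd (nat_lit 188) (nat_lit 336) (nat_lit 0) (XT.nd (nat_lit 94) (nat_lit 0) (nat_lit 0) (XT.lf (nat_lit 0) (nat_lit 2052540679) (nat_lit 420) (nat_lit 7786675317) (nat_lit 84) (nat_lit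 6284671651) (nat_lit 43) (nat_lit 5) (nat_lit 48) (nat_lit 5) (nat_lit 44) (nat_lit 5) (nat_lit 348) (nat_lit 304) (nat_lit 209)) (XT.lf (nat_lit 0) (nat_lit 3663146982) (nat_lit 420) (nat_lit 2518974683) (nat_lit 84) (nat_lit 10288009918) (nat_lit 43) (nat_lit 5) (nat_lit 48) (nat_lit 5) (nat_lit 44) (nat_lit 5) (nat_lit 349) (nat_lit 304) (nat_lit 208))) (XT.nd (nat_lit 94) (nat_lit 0) (nat_lit 0) (XT.lf (nat_lit 0) (nat_lit 2955921436) (nat_lit 336) (nat_lit 2383911009) (nat_lit 420) (nat_lit 11486835774) (nat_lit 39) (nat_lit 5) (nat_lit 43) (nat_lit 5) (nat_lit 44) (nat_lit 5) (nat_lit 350) (nat_lit 304) (nat_lit 207)) (XT.nd (nat_lit 94) (nat_lit 0) (nat_lit 0) (XT.lf (nat_lit 0) (nat_lit 7097299153) (nat_lit 420) (nat_lit 8570902410) (nat_lit 84) (nat_lit 1525221005) (nat_lit 39) (nat_lit 5) (nat_lit 44) (nat_lit 5) (nat_lit 40) (nat_lit 5) (nat_lit 351) (nat_lit 304) (nat_lit 206))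 (XT.lf (nat_lit 0) (nat_lit 8921062770) (nat_lit 420) (nat_lit 3146598874) (nat_lit 84) (nat_lit 5503574638) (nat_lit 39) (nat_lit 5) (nat_lit 44) (nat_lit 5) (nat_lit 40) (nat_lit 5) (nat_lit 352) (nat_lit 304) (nat_lit 205))))))))
noncomputable def xc79 : XT := (XT.nd (nat_lit 49914) (nat_lit 0) (nat_lit 5376) (XT.nd (nat_lit 846) (nat_lit 420) (nat_lit 0) (XT.nd (nat_lit 376) (nat_lit 336) (nat_lit 0) (XT.nd (nat_lit 188) (nat_lit 336) (nat_lit 0) (XT.nd (nat_lit 94) (nat_lit 0) (nat_lit 0) (XT.lf (nat_lit 0) (nat_lit 2480852179) (nat_lit 252) (nat_lit 8332932725) (nat_lit 336) (nat_lit 7146646804) (nat_lit 36) (nat_lit 5) (nat_lit 39) (nat_lit 5) (nat_lit 40) (nat_lit 5) (nat_lit 353) (nat_lit 304) (nat_lit 204)) (XT.lf (nat_lit 0) (nat_lit 8334622680) (nat_lit 252) (nat_lit 4451433559) (nat_lit 336) (nat_lit 5575041761) (nat_lit 36) (nat_lit 5) (nat_lit 39) (nat_lit 5) (nat_lit 40)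 (nat_lit 5) (nat_lit 354) (nat_lit 304) (nat_lit 203))) (XT.nd (nat_lit 94) (nat_lit 336) (nat_lit 0) (XT.lf (nat_lit 0) (nat_lit 14355468427) (nat_lit 252) (nat_lit 452390222) (nat_lit 336) (nat_lit 3966737520) (nat_lit 36) (nat_lit 5) (nat_lit 39) (nat_lit 5) (nat_lit 40) (nat_lit 5) (nat_lit 355) (nat_lit 304) (nat_lit 202)) (XT.lf (nat_lit 0) (nat_lit 1338266660) (nat_lit 336) (nat_lit 15592472045) (nat_lit 420) (nat_lit 2269033413) (nat_lit 32) (nat_lit 5) (nat_lit 36) (nat_lit 5) (nat_lit 37) (nat_lit 5) (nat_lit 356) (nat_lit 304) (nat_lit 201)))) (XT.nd (nat_lit 188) (nat_lit 252) (nat_lit 0) (XT.nd (nat_lit 94) (nat_lit 84) (nat_lit 0) (XT.lf (nat_lit 0) (nat_lit 7348915539) (nat_lit 336) (nat_lit 11810130791) (nat_lit 420) (nat_lit 477902316) (nat_lit 32) (nat_lit 5) (nat_lit 36) (nat_lit 5) (nat_lit 37) (nat_lit 5) (nat_lit 357) (nat_lit 304) (nat_lit 200)) (XT.lf (nat_lit 0)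 (nat_lit 1330265626) (nat_lit 420) (nat_lit 6569390476) (nat_lit 84) (nat_lit 12187984291) (nat_lit 31) (nat_lit 5) (nat_lit 36) (nat_lit 5) (nat_lit 32) (nat_lit 5) (nat_lit 358) (nat_lit 304) (nat_lit 199))) (XT.nd (nat_lit 94) (nat_lit 252) (nat_lit 0) (XT.lf (nat_lit 0) (nat_lit 3173976809) (nat_lit 420) (nat_lit 691965066) (nat_lit 84) (nat_lit 16686582320) (nat_lit 31) (nat_lit 5) (nat_lit 36) (nat_lit 5) (nat_lit 32) (nat_lit 5) (nat_lit 359) (nat_lit 304) (nat_lit 198)) (XT.nd (nat_lit 94) (nat_lit 0) (nat_lit 0) (XT.lf (nat_lit 0) (nat_lit 5122217669) (nat_lit 336) (nat_lit 15569368899) (nat_lit 84) (nat_lit 338806956) (nat_lit 28) (nat_lit 5) (nat_lit 32) (nat_lit 5) (nat_lit 29) (nat_lit 5) (nat_lit 360) (nat_lit 304) (nat_lit 197)) (XT.lf (nat_lit 0) (nat_lit 7167574927) (nat_lit 336) (nat_lit 9756429087) (nat_lit 84) (nat_lit 4597975895) (nat_lit 28) (nat_lit 5) (nat_lit 32)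 (nat_lit 5) (nat_lit 29) (nat_lit 5) (nat_lit 361) (nat_lit 304) (nat_lit 196)))))) (XT.nd (nat_lit 470) (nat_lit 168) (nat_lit 0) (XT.nd (nat_lit 188) (nat_lit 0) (nat_lit 0) (XT.nd (nat_lit 94) (nat_lit 252) (nat_lit 0) (XT.lf (nat_lit 0) (nat_lit 9266527274) (nat_lit 336) (nat_lit 3776274680) (nat_lit 84) (nat_lit 8986347869) (nat_lit 28) (nat_lit 5) (nat_lit 32) (nat_lit 5) (nat_lit 29) (nat_lit 5) (nat_lit 362) (nat_lit 304) (nat_lit 195)) (XT.lf (nat_lit 0) (nat_lit 2425537631) (nat_lit 252) (nat_lit 9019555155) (nat_lit 336) (nat_lit 11106537304) (nat_lit 25) (nat_lit 5) (nat_lit 28) (nat_lit 5) (nat_lit 29) (nat_lit 5) (nat_lit 363) (nat_lit 304) (nat_lit 194))) (XT.nd (nat_lit 94) (nat_lit 0) (nat_lit 0) (XT.lf (nat_lit 0) (nat_lit 8887192627) (nat_lit 252) (nat_lit 4834064210) (nat_lit 336) (nat_lit 9368156284) (nat_lit 25) (nat_lit 5) (nat_lit 28) (nat_lit 5) (nat_lit 29) (nat_lit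 5) (nat_lit 364) (nat_lit 304) (nat_lit 193)) (XT.nd (nat_lit 94) (nat_lit 0) (nat_lit 0) (XT.lf (nat_lit 0) (nat_lit 15537065295) (nat_lit 252) (nat_lit 521844368) (nat_lit 336) (nat_lit 7585275696) (nat_lit 25) (nat_lit 5) (nat_lit 28) (nat_lit 5) (nat_lit 29) (nat_lit 5) (nat_lit 365) (nat_lit 304) (nat_lit 192)) (XT.lf (nat_lit 0) (nat_lit 18499128231) (nat_lit 336) (nat_lit 1874007931) (nat_lit 84) (nat_lit 3842121906) (nat_lit 25) (nat_lit 5) (nat_lit 29) (nat_lit 5) (nat_lit 26) (nat_lit 5) (nat_lit 366) (nat_lit 304) (nat_lit 191))))) (XT.nd (nat_lit 48316) (nat_lit 0) (nat_lit 7980) (XT.nd (nat_lit 48222) (nat_lit 0) (nat_lit 8820) (XT.lf (nat_lit 0) (nat_lit 4628601224) (nat_lit 168) (nat_lit 16429082747) (nat_lit 252) (nat_lit 3745061177) (nat_lit 23) (nat_lit 5) (nat_lit 25) (nat_lit 5) (nat_lit 26) (nat_lit 5) (nat_lit 367) (nat_lit 304) (nat_lit 190)) (XT.lf (nat_lit 0) (nat_lit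 1281490706) (nat_lit 0) (nat_lit 1281490706) (nat_lit 756) (nat_lit 1441684289) (nat_lit 128) (nat_lit 5) (nat_lit 128) (nat_lit 3) (nat_lit 137) (nat_lit 3) (nat_lit 305) (nat_lit 305) (nat_lit 251))) (XT.nd (nat_lit 94) (nat_lit 840) (nat_lit 0) (XT.lf (nat_lit 0) (nat_lit 5543727976) (nat_lit 0) (nat_lit 629082198) (nat_lit 756) (nat_lit 1924445056) (nat_lit 128) (nat_lit 5) (nat_lit 128) (nat_lit 3) (nat_lit 137) (nat_lit 3) (nat_lit 306) (nat_lit 305) (nat_lit 250)) (XT.nd (nat_lit 94) (nat_lit 840) (nat_lit 0) (XT.lf (nat_lit 84) (nat_lit 402398003) (nat_lit 0) (nat_lit 6828453939) (nat_lit 840) (nat_lit 957962849) (nat_lit 129) (nat_lit 5) (nat_lit 128) (nat_lit 5) (nat_lit 138) (nat_lit 5) (nat_lit 307) (nat_lit 305) (nat_lit 249)) (XT.lf (nat_lit 0) (nat_lit 32609986) (nat_lit 840) (nat_lit 4807341051) (nat_lit 924) (nat_lit 3443644006) (nat_lit 118) (nat_lit 5) (nat_lit 128) (nat_lit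 5) (nat_lit 129) (nat_lit 5) (nat_lit 308) (nat_lit 305) (nat_lit 248))))))) (XT.nd (nat_lit 846) (nat_lit 2604) (nat_lit 0) (XT.nd (nat_lit 376) (nat_lit 0) (nat_lit 84) (XT.nd (nat_lit 188) (nat_lit 0) (nat_lit 84) (XT.nd (nat_lit 94) (nat_lit 0) (nat_lit 0) (XT.lf (nat_lit 0) (nat_lit 996692458) (nat_lit 840) (nat_lit 1767008112) (nat_lit 924) (nat_lit 5618694580) (nat_lit 118) (nat_lit 5) (nat_lit 128) (nat_lit 5) (nat_lit 129) (nat_lit 5) (nat_lit 309) (nat_lit 305) (nat_lit 247)) (XT.lf (nat_lit 84) (nat_lit 1374614465) (nat_lit 0) (nat_lit 593505888) (nat_lit 924) (nat_lit 6517058721) (nat_lit 119) (nat_lit 5) (nat_lit 118) (nat_lit 5) (nat_lit 129) (nat_lit 5) (nat_lit 310) (nat_lit 305) (nat_lit 246))) (XT.nd (nat_lit 94) (nat_lit 0) (nat_lit 0) (XT.lf (nat_lit 0) (nat_lit 2969458162) (nat_lit 840) (nat_lit 3977891395) (nat_lit 924) (nat_lit 1644021634) (nat_lit 119) (nat_lit 5)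 (nat_lit 129) (nat_lit 5) (nat_lit 130) (nat_lit 5) (nat_lit 311) (nat_lit 305) (nat_lit 245)) (XT.lf (nat_lit 0) (nat_lit 3973819092) (nat_lit 840) (nat_lit 775420748) (nat_lit 924) (nat_lit 3952693068) (nat_lit 119) (nat_lit 5) (nat_lit 129) (nat_lit 5) (nat_lit 130) (nat_lit 5) (nat_lit 312) (nat_lit 305) (nat_lit 244)))) (XT.nd (nat_lit 188) (nat_lit 0) (nat_lit 84) (XT.nd (nat_lit 94) (nat_lit 0) (nat_lit 0) (XT.lf (nat_lit 84) (nat_lit 2557242764) (nat_lit 0) (nat_lit 2444377059) (nat_lit 924) (nat_lit 3814743560) (nat_lit 120) (nat_lit 5) (nat_lit 119) (nat_lit 5) (nat_lit 130) (nat_lit 5) (nat_lit 313) (nat_lit 305) (nat_lit 243)) (XT.lf (nat_lit 84) (nat_lit 5989259513) (nat_lit 0) (nat_lit 47844919) (nat_lit 924) (nat_lit 2898182979) (nat_lit 120) (nat_lit 5) (nat_lit 119) (nat_lit 5) (nat_lit 130) (nat_lit 5) (nat_lit 314) (nat_lit 305) (nat_lit 242))) (XT.nd (nat_lit 94) (nat_lit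 0) (nat_lit 0) (XT.lf (nat_lit 84) (nat_lit 433406722) (nat_lit 0) (nat_lit 6668430893) (nat_lit 924) (nat_lit 1956339640) (nat_lit 121) (nat_lit 5) (nat_lit 120) (nat_lit 5) (nat_lit 131) (nat_lit 5) (nat_lit 315) (nat_lit 305) (nat_lit 241)) (XT.nd (nat_lit 94) (nat_lit 0) (nat_lit 0) (XT.lf (nat_lit 84) (nat_lit 3958711976) (nat_lit 0) (nat_lit 4241644202) (nat_lit 924) (nat_lit 984681411) (nat_lit 121) (nat_lit 5) (nat_lit 120) (nat_lit 5) (nat_lit 131) (nat_lit 5) (nat_lit 316) (nat_lit 305) (nat_lit 240)) (XT.lf (nat_lit 84) (nat_lit 7573081827) (nat_lit 0) (nat_lit 1730306518) (nat_lit 924) (nat_lit 13537479) (nat_lit 121) (nat_lit 5) (nat_lit 120) (nat_lit 5) (nat_lit 131) (nat_lit 5) (nat_lit 317) (nat_lit 305) (nat_lit 239)))))) (XT.nd (nat_lit 470) (nat_lit 1932) (nat_lit 0) (XT.nd (nat_lit 188) (nat_lit 0) (nat_lit 0) (XT.nd (nat_lit 94) (nat_lit 0) (nat_lit 0) (XT.lf (nat_lit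 0) (nat_lit 965980624) (nat_lit 924) (nat_lit 7608229240) (nat_lit 1008) (nat_lit 878614595) (nat_lit 110) (nat_lit 5) (nat_lit 121) (nat_lit 5) (nat_lit 122) (nat_lit 5) (nat_lit 318) (nat_lit 305) (nat_lit 238)) (XT.lf (nat_lit 0) (nat_lit 1983309348) (nat_lit 924) (nat_lit 4050449186) (nat_lit 1008) (nat_lit 3559097367) (nat_lit 110) (nat_lit 5) (nat_lit 121) (nat_lit 5) (nat_lit 122) (nat_lit 5) (nat_lit 319) (nat_lit 305) (nat_lit 237))) (XT.nd (nat_lit 94) (nat_lit 0) (nat_lit 0) (XT.lf (nat_lit 0) (nat_lit 3004669420) (nat_lit 924) (nat_lit 403038029) (nat_lit 1008) (nat_lit 6330532393) (nat_lit 110) (nat_lit 5) (nat_lit 121) (nat_lit 5) (nat_lit 122) (nat_lit 5) (nat_lit 320) (nat_lit 305) (nat_lit 236)) (XT.nd (nat_lit 94) (nat_lit 0) (nat_lit 84) (XT.lf (nat_lit 84) (nat_lit 3406027868) (nat_lit 0) (nat_lit 658773206) (nat_lit 1008) (nat_lit 5823263290) (nat_lit 111) (nat_lit 5)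 (nat_lit 110) (nat_lit 5) (nat_lit 122) (nat_lit 5) (nat_lit 321) (nat_lit 305) (nat_lit 235)) (XT.lf (nat_lit 0) (nat_lit 5157615223) (nat_lit 924) (nat_lit 2743162661) (nat_lit 84) (nat_lit 2141910627) (nat_lit 111) (nat_lit 5) (nat_lit 122) (nat_lit 5) (nat_lit 112) (nat_lit 5) (nat_lit 322) (nat_lit 305) (nat_lit 234))))) (XT.nd (nat_lit 188) (nat_lit 1092) (nat_lit 0) (XT.nd (nat_lit 94) (nat_lit 0) (nat_lit 0) (XT.lf (nat_lit 0) (nat_lit 1106952688) (nat_lit 924) (nat_lit 5169843319) (nat_lit 1008) (nat_lit 3925687772) (nat_lit 100) (nat_lit 5) (nat_lit 111) (nat_lit 5) (nat_lit 112) (nat_lit 5) (nat_lit 323) (nat_lit 305) (nat_lit 233)) (XT.lf (nat_lit 0) (nat_lit 5114551513) (nat_lit 924) (nat_lit 2320083421) (nat_lit 1008) (nat_lit 2932615482) (nat_lit 100) (nat_lit 5) (nat_lit 111) (nat_lit 5) (nat_lit 112) (nat_lit 5) (nat_lit 324) (nat_lit 305) (nat_lit 232))) (XT.nd (nat_lit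 94) (nat_lit 1092) (nat_lit 0) (XT.lf (nat_lit 0) (nat_lit 8610614700) (nat_lit 1008) (nat_lit 1317214197) (nat_lit 84) (nat_lit 609982597) (nat_lit 100) (nat_lit 5) (nat_lit 112) (nat_lit 5) (nat_lit 101) (nat_lit 5) (nat_lit 325) (nat_lit 305) (nat_lit 231)) (XT.nd (nat_lit 94) (nat_lit 84) (nat_lit 0) (XT.lf (nat_lit 0) (nat_lit 2752260719) (nat_lit 1008) (nat_lit 7098655998) (nat_lit 1092) (nat_lit 862011634) (nat_lit 88) (nat_lit 5) (nat_lit 100) (nat_lit 5) (nat_lit 101) (nat_lit 5) (nat_lit 326) (nat_lit 305) (nat_lit 230)) (XT.lf (nat_lit 0) (nat_lit 222305503) (nat_lit 1092) (nat_lit 3939848417) (nat_lit 84) (nat_lit 6731654727) (nat_lit 87) (nat_lit 5) (nat_lit 100) (nat_lit 5) (nat_lit 88) (nat_lit 5) (nat_lit 327) (nat_lit 305) (nat_lit 229))))))))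
noncomputable def xc80 : XT := (XT.nd (nat_lit 1692) (nat_lit 1932) (nat_lit 0) (XT.nd (nat_lit 846) (nat_lit 1260) (nat_lit 0) (XT.nd (nat_lit 376) (nat_lit 924) (nat_lit 0) (XT.nd (nat_lit 188) (nat_lit 504) (nat_lit 0) (XT.nd (nat_lit 94) (nat_lit 0) (nat_lit 0) (XT.lf (nat_lit 0) (nat_lit 180919536) (nat_lit 588) (nat_lit 1120878211) (nat_lit 672) (nat_lit 9778982376) (nat_lit 80) (nat_lit 5) (nat_lit 87) (nat_lit 5) (nat_lit 88) (nat_lit 5) (nat_lit 328) (nat_lit 305) (nat_lit 228)) (XT.lf (nat_lit 0) (nat_lit 2454461782) (nat_lit 672) (nat_lit 6799872398) (nat_lit 84) (nat_lit 2018099657) (nat_lit 80) (nat_lit 5) (nat_lit 88) (nat_lit 5) (nat_lit 81) (nat_lit 5) (nat_lit 329) (nat_lit 305) (nat_lit 227))) (XT.nd (nat_lit 94) (nat_lit 504) (nat_lit 0) (XT.lf (nat_lit 0) (nat_lit 3633155664) (nat_lit 672) (nat_lit 2603789830) (nat_lit 84) (nat_lit 5233497641) (nat_lit 80) (nat_lit 5)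 (nat_lit 88) (nat_lit 5) (nat_lit 81) (nat_lit 5) (nat_lit 330) (nat_lit 305) (nat_lit 226)) (XT.lf (nat_lit 0) (nat_lit 1738443311) (nat_lit 504) (nat_lit 3106661068) (nat_lit 588) (nat_lit 6829698288) (nat_lit 74) (nat_lit 5) (nat_lit 80) (nat_lit 5) (nat_lit 81) (nat_lit 5) (nat_lit 331) (nat_lit 305) (nat_lit 225)))) (XT.nd (nat_lit 188) (nat_lit 924) (nat_lit 0) (XT.nd (nat_lit 94) (nat_lit 0) (nat_lit 0) (XT.lf (nat_lit 0) (nat_lit 6103190883) (nat_lit 588) (nat_lit 5635150116) (nat_lit 84) (nat_lit 146997567) (nat_lit 74) (nat_lit 5) (nat_lit 81) (nat_lit 5) (nat_lit 75) (nat_lit 5) (nat_lit 332) (nat_lit 305) (nat_lit 224)) (XT.lf (nat_lit 0) (nat_lit 7412570039) (nat_lit 588) (nat_lit 1251295750) (nat_lit 84) (nat_lit 3438257837) (nat_lit 74) (nat_lit 5) (nat_lit 81) (nat_lit 5) (nat_lit 75) (nat_lit 5) (nat_lit 333) (nat_lit 305) (nat_lit 223))) (XT.nd (nat_lit 94) (nat_lit 420)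 (nat_lit 0) (XT.lf (nat_lit 0) (nat_lit 3316937310) (nat_lit 504) (nat_lit 5459610982) (nat_lit 588) (nat_lit 3548746955) (nat_lit 68) (nat_lit 5) (nat_lit 74) (nat_lit 5) (nat_lit 75) (nat_lit 5) (nat_lit 334) (nat_lit 305) (nat_lit 222)) (XT.nd (nat_lit 94) (nat_lit 420) (nat_lit 0) (XT.lf (nat_lit 0) (nat_lit 8035148498) (nat_lit 504) (nat_lit 2142214227) (nat_lit 588) (nat_lit 2378288787) (nat_lit 68) (nat_lit 5) (nat_lit 74) (nat_lit 5) (nat_lit 75) (nat_lit 5) (nat_lit 335) (nat_lit 305) (nat_lit 221)) (XT.lf (nat_lit 0) (nat_lit 77078123) (nat_lit 420) (nat_lit 11540018744) (nat_lit 504) (nat_lit 1176286156) (nat_lit 63) (nat_lit 5) (nat_lit 68) (nat_lit 5) (nat_lit 69) (nat_lit 5) (nat_lit 336) (nat_lit 305) (nat_lit 220)))))) (XT.nd (nat_lit 376) (nat_lit 756) (nat_lit 0) (XT.nd (nat_lit 188) (nat_lit 420) (nat_lit 0) (XT.nd (nat_lit 94) (nat_lit 0) (nat_lit 0) (XT.lf (nat_lit 0)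 (nat_lit 113429078) (nat_lit 504) (nat_lit 8165565316) (nat_lit 84) (nat_lit 4757956082) (nat_lit 62) (nat_lit 5) (nat_lit 68) (nat_lit 5) (nat_lit 63) (nat_lit 5) (nat_lit 337) (nat_lit 305) (nat_lit 219)) (XT.lf (nat_lit 0) (nat_lit 1401370419) (nat_lit 504) (nat_lit 3503769129) (nat_lit 84) (nat_lit 8383179227) (nat_lit 62) (nat_lit 5) (nat_lit 68) (nat_lit 5) (nat_lit 63) (nat_lit 5) (nat_lit 338) (nat_lit 305) (nat_lit 218))) (XT.nd (nat_lit 94) (nat_lit 0) (nat_lit 0) (XT.lf (nat_lit 0) (nat_lit 1311522094) (nat_lit 420) (nat_lit 1413926274) (nat_lit 504) (nat_lit 10822232264) (nat_lit 57) (nat_lit 5) (nat_lit 62) (nat_lit 5) (nat_lit 63) (nat_lit 5) (nat_lit 339) (nat_lit 305) (nat_lit 217)) (XT.lf (nat_lit 0) (nat_lit 4132725368) (nat_lit 504) (nat_lit 7503490105) (nat_lit 84) (nat_lit 2177641651) (nat_lit 57) (nat_lit 5) (nat_lit 63) (nat_lit 5) (nat_lit 58) (nat_lit 5) (nat_lit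 340) (nat_lit 305) (nat_lit 216)))) (XT.nd (nat_lit 188) (nat_lit 420) (nat_lit 0) (XT.nd (nat_lit 94) (nat_lit 336) (nat_lit 0) (XT.lf (nat_lit 0) (nat_lit 5582110284) (nat_lit 504) (nat_lit 2655885243) (nat_lit 84) (nat_lit 5850415316) (nat_lit 57) (nat_lit 5) (nat_lit 63) (nat_lit 5) (nat_lit 58) (nat_lit 5) (nat_lit 341) (nat_lit 305) (nat_lit 215)) (XT.lf (nat_lit 0) (nat_lit 2373011744) (nat_lit 336) (nat_lit 4711456598) (nat_lit 420) (nat_lit 7286834421) (nat_lit 53) (nat_lit 5) (nat_lit 57) (nat_lit 5) (nat_lit 58) (nat_lit 5) (nat_lit 342) (nat_lit 305) (nat_lit 214))) (XT.nd (nat_lit 94) (nat_lit 420) (nat_lit 0) (XT.lf (nat_lit 0) (nat_lit 7597483416) (nat_lit 336) (nat_lit 1048440804) (nat_lit 420) (nat_lit 6016725893) (nat_lit 53) (nat_lit 5) (nat_lit 57) (nat_lit 5) (nat_lit 58) (nat_lit 5) (nat_lit 343) (nat_lit 305) (nat_lit 213)) (XT.nd (nat_lit 94) (nat_lit 420) (nat_lit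 0) (XT.lf (nat_lit 0) (nat_lit 10268094546) (nat_lit 420) (nat_lit 2022818561) (nat_lit 84) (nat_lit 2671806355) (nat_lit 53) (nat_lit 5) (nat_lit 58) (nat_lit 5) (nat_lit 54) (nat_lit 5) (nat_lit 344) (nat_lit 305) (nat_lit 212)) (XT.lf (nat_lit 0) (nat_lit 3213729421) (nat_lit 420) (nat_lit 8755115974) (nat_lit 504) (nat_lit 3302438138) (nat_lit 48) (nat_lit 5) (nat_lit 53) (nat_lit 5) (nat_lit 54) (nat_lit 5) (nat_lit 345) (nat_lit 305) (nat_lit 211))))))) (XT.nd (nat_lit 846) (nat_lit 924) (nat_lit 0) (XT.nd (nat_lit 376) (nat_lit 588) (nat_lit 0) (XT.nd (nat_lit 188) (nat_lit 420) (nat_lit 0) (XT.nd (nat_lit 94) (nat_lit 0) (nat_lit 0) (XT.lf (nat_lit 0) (nat_lit 8639517129) (nat_lit 420) (nat_lit 5089877834) (nat_lit 504) (nat_lit 1859866352) (nat_lit 48) (nat_lit 5) (nat_lit 53) (nat_lit 5) (nat_lit 54) (nat_lit 5) (nat_lit 346) (nat_lit 305) (nat_lit 210)) (XT.lf (nat_lit 0) (nat_lit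 14218008668) (nat_lit 420) (nat_lit 1312896381) (nat_lit 504) (nat_lit 386679009) (nat_lit 48) (nat_lit 5) (nat_lit 53) (nat_lit 5) (nat_lit 54) (nat_lit 5) (nat_lit 347) (nat_lit 305) (nat_lit 209))) (XT.nd (nat_lit 94) (nat_lit 0) (nat_lit 0) (XT.lf (nat_lit 0) (nat_lit 1159369560) (nat_lit 420) (nat_lit 12518581936) (nat_lit 84) (nat_lit 2576296690) (nat_lit 43) (nat_lit 5) (nat_lit 48) (nat_lit 5) (nat_lit 44) (nat_lit 5) (nat_lit 348) (nat_lit 305) (nat_lit 208)) (XT.lf (nat_lit 0) (nat_lit 2763490023) (nat_lit 420) (nat_lit 7258591033) (nat_lit 84) (nat_lit 6578641570) (nat_lit 43) (nat_lit 5) (nat_lit 48) (nat_lit 5) (nat_lit 44) (nat_lit 5) (nat_lit 349) (nat_lit 305) (nat_lit 207)))) (XT.nd (nat_lit 188) (nat_lit 252) (nat_lit 0) (XT.nd (nat_lit 94) (nat_lit 336) (nat_lit 0) (XT.lf (nat_lit 0) (nat_lit 4404561554) (nat_lit 420) (nat_lit 1850728059) (nat_lit 84) (nat_lit 10703102239)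 (nat_lit 43) (nat_lit 5) (nat_lit 48) (nat_lit 5) (nat_lit 44) (nat_lit 5) (nat_lit 350) (nat_lit 305) (nat_lit 206)) (XT.lf (nat_lit 0) (nat_lit 3786333869) (nat_lit 336) (nat_lit 2335340836) (nat_lit 420) (nat_lit 11204750157) (nat_lit 39) (nat_lit 5) (nat_lit 43) (nat_lit 5) (nat_lit 44) (nat_lit 5) (nat_lit 351) (nat_lit 305) (nat_lit 205))) (XT.nd (nat_lit 94) (nat_lit 252) (nat_lit 0) (XT.lf (nat_lit 0) (nat_lit 7916270214) (nat_lit 420) (nat_lit 8100000958) (nat_lit 84) (nat_lit 1688898480) (nat_lit 39) (nat_lit 5) (nat_lit 44) (nat_lit 5) (nat_lit 40) (nat_lit 5) (nat_lit 352) (nat_lit 305) (nat_lit 204)) (XT.nd (nat_lit 94) (nat_lit 252) (nat_lit 0) (XT.lf (nat_lit 0) (nat_lit 9778561194) (nat_lit 420) (nat_lit 2529692006) (nat_lit 84) (nat_lit 5787081304) (nat_lit 39) (nat_lit 5) (nat_lit 44) (nat_lit 5) (nat_lit 40) (nat_lit 5) (nat_lit 353) (nat_lit 305) (nat_lit 203)) (XT.lf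 (nat_lit 0) (nat_lit 3264976851) (nat_lit 252) (nat_lit 8454528749) (nat_lit 336) (nat_lit 6777491606) (nat_lit 36) (nat_lit 5) (nat_lit 39) (nat_lit 5) (nat_lit 40) (nat_lit 5) (nat_lit 354) (nat_lit 305) (nat_lit 202)))))) (XT.nd (nat_lit 470) (nat_lit 504) (nat_lit 0) (XT.nd (nat_lit 188) (nat_lit 420) (nat_lit 0) (XT.nd (nat_lit 94) (nat_lit 0) (nat_lit 0) (XT.lf (nat_lit 0) (nat_lit 9278949672) (nat_lit 252) (nat_lit 4456814139) (nat_lit 336) (nat_lit 5174927950) (nat_lit 36) (nat_lit 5) (nat_lit 39) (nat_lit 5) (nat_lit 40) (nat_lit 5) (nat_lit 355) (nat_lit 305) (nat_lit 201)) (XT.lf (nat_lit 0) (nat_lit 15465816453) (nat_lit 252) (nat_lit 337787878) (nat_lit 336) (nat_lit 3533993381) (nat_lit 36) (nat_lit 5) (nat_lit 39) (nat_lit 5) (nat_lit 40) (nat_lit 5) (nat_lit 356) (nat_lit 305) (nat_lit 200))) (XT.nd (nat_lit 94) (nat_lit 84) (nat_lit 0) (XT.lf (nat_lit 0) (nat_lit 2055900976)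 (nat_lit 336) (nat_lit 15928200287) (nat_lit 420) (nat_lit 1792178172) (nat_lit 32) (nat_lit 5) (nat_lit 36) (nat_lit 5) (nat_lit 37) (nat_lit 5) (nat_lit 357) (nat_lit 305) (nat_lit 199)) (XT.nd (nat_lit 94) (nat_lit 0) (nat_lit 0) (XT.lf (nat_lit 0) (nat_lit 37258859) (nat_lit 420) (nat_lit 11995397865) (nat_lit 84) (nat_lit 8194901856) (nat_lit 31) (nat_lit 5) (nat_lit 36) (nat_lit 5) (nat_lit 32) (nat_lit 5) (nat_lit 358) (nat_lit 305) (nat_lit 198)) (XT.lf (nat_lit 0) (nat_lit 1875916075) (nat_lit 420) (nat_lit 6124470822) (nat_lit 84) (nat_lit 12692233204) (nat_lit 31) (nat_lit 5) (nat_lit 36) (nat_lit 5) (nat_lit 32) (nat_lit 5) (nat_lit 359) (nat_lit 305) (nat_lit 197))))) (XT.nd (nat_lit 188) (nat_lit 252) (nat_lit 0) (XT.nd (nat_lit 94) (nat_lit 252) (nat_lit 0) (XT.lf (nat_lit 0) (nat_lit 3761615691) (nat_lit 420) (nat_lit 84346382) (nat_lit 84) (nat_lit 17326486547) (nat_lit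 31) (nat_lit 5) (nat_lit 36) (nat_lit 5) (nat_lit 32) (nat_lit 5) (nat_lit 360) (nat_lit 305) (nat_lit 196)) (XT.lf (nat_lit 0) (nat_lit 5763127245) (nat_lit 336) (nat_lit 15413849003) (nat_lit 84) (nat_lit 488437771) (nat_lit 28) (nat_lit 5) (nat_lit 32) (nat_lit 5) (nat_lit 29) (nat_lit 5) (nat_lit 361) (nat_lit 305) (nat_lit 195))) (XT.nd (nat_lit 94) (nat_lit 252) (nat_lit 0) (XT.lf (nat_lit 0) (nat_lit 7857394220) (nat_lit 336) (nat_lit 9439896496) (nat_lit 84) (nat_lit 4875457667) (nat_lit 28) (nat_lit 5) (nat_lit 32) (nat_lit 5) (nat_lit 29) (nat_lit 5) (nat_lit 362) (nat_lit 305) (nat_lit 194)) (XT.nd (nat_lit 94) (nat_lit 252) (nat_lit 0) (XT.lf (nat_lit 0) (nat_lit 10007353606) (nat_lit 336) (nat_lit 3292968785) (nat_lit 84) (nat_lit 9395811675) (nat_lit 28) (nat_lit 5) (nat_lit 32) (nat_lit 5) (nat_lit 29) (nat_lit 5) (nat_lit 363) (nat_lit 305) (nat_lit 193)) (XT.lf (nat_lit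 0) (nat_lit 3095021497) (nat_lit 252) (nat_lit 9150690890) (nat_lit 336) (nat_lit 10989394739) (nat_lit 25) (nat_lit 5) (nat_lit 28) (nat_lit 5) (nat_lit 29) (nat_lit 5) (nat_lit 364) (nat_lit 305) (nat_lit 192))))))))
noncomputable def xc81 : XT := (XT.nd (nat_lit 49914) (nat_lit 0) (nat_lit 3108) (XT.nd (nat_lit 49068) (nat_lit 0) (nat_lit 7056) (XT.nd (nat_lit 48598) (nat_lit 0) (nat_lit 7812) (XT.nd (nat_lit 188) (nat_lit 0) (nat_lit 0) (XT.nd (nat_lit 94) (nat_lit 0) (nat_lit 0) (XT.lf (nat_lit 0) (nat_lit 9739118682) (nat_lit 252) (nat_lit 4839913921) (nat_lit 336) (nat_lit 9210998593) (nat_lit 25) (nat_lit 5) (nat_lit 28) (nat_lit 5) (nat_lit 29) (nat_lit 5) (nat_lit 365) (nat_lit 305) (nat_lit 191)) (XT.lf (nat_lit 0) (nat_lit 16577805573) (nat_lit 252) (nat_lit 398345229) (nat_lit 336) (nat_lit 7386306211) (nat_lit 25) (nat_lit 5) (nat_lit 28) (nat_lit 5) (nat_lit 29) (nat_lit 5)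 (nat_lit 366) (nat_lit 305) (nat_lit 190))) (XT.nd (nat_lit 48316) (nat_lit 0) (nat_lit 8652) (XT.lf (nat_lit 0) (nat_lit 19480749166) (nat_lit 336) (nat_lit 1376909413) (nat_lit 84) (nat_lit 4093974677) (nat_lit 25) (nat_lit 5) (nat_lit 29) (nat_lit 5) (nat_lit 26) (nat_lit 5) (nat_lit 367) (nat_lit 305) (nat_lit 189)) (XT.lf (nat_lit 0) (nat_lit 1800116042) (nat_lit 0) (nat_lit 1800116042) (nat_lit 756) (nat_lit 492716759) (nat_lit 128) (nat_lit 5) (nat_lit 128) (nat_lit 3) (nat_lit 137) (nat_lit 3) (nat_lit 306) (nat_lit 306) (nat_lit 249)))) (XT.nd (nat_lit 188) (nat_lit 0) (nat_lit 0) (XT.nd (nat_lit 94) (nat_lit 840) (nat_lit 0) (XT.lf (nat_lit 0) (nat_lit 6644582813) (nat_lit 0) (nat_lit 1577583016) (nat_lit 756) (nat_lit 56537879) (nat_lit 128) (nat_lit 5) (nat_lit 128) (nat_lit 3) (nat_lit 137) (nat_lit 3) (nat_lit 307) (nat_lit 306) (nat_lit 248)) (XT.lf (nat_lit 0) (nat_lit 865145385)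 (nat_lit 840) (nat_lit 6971471524) (nat_lit 924) (nat_lit 538275222) (nat_lit 118) (nat_lit 5) (nat_lit 128) (nat_lit 5) (nat_lit 129) (nat_lit 5) (nat_lit 308) (nat_lit 306) (nat_lit 247))) (XT.nd (nat_lit 94) (nat_lit 0) (nat_lit 0) (XT.lf (nat_lit 0) (nat_lit 1811415213) (nat_lit 840) (nat_lit 3941308993) (nat_lit 924) (nat_lit 2721629646) (nat_lit 118) (nat_lit 5) (nat_lit 128) (nat_lit 5) (nat_lit 129) (nat_lit 5) (nat_lit 309) (nat_lit 306) (nat_lit 246)) (XT.nd (nat_lit 94) (nat_lit 0) (nat_lit 0) (XT.lf (nat_lit 0) (nat_lit 2751929708) (nat_lit 840) (nat_lit 837246439) (nat_lit 924) (nat_lit 4989026077) (nat_lit 118) (nat_lit 5) (nat_lit 128) (nat_lit 5) (nat_lit 129) (nat_lit 5) (nat_lit 310) (nat_lit 306) (nat_lit 245)) (XT.lf (nat_lit 84) (nat_lit 2391798865) (nat_lit 0) (nat_lit 1319493603) (nat_lit 924) (nat_lit 4974506042) (nat_lit 119) (nat_lit 5) (nat_lit 118) (nat_lit 5)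 (nat_lit 129) (nat_lit 5) (nat_lit 311) (nat_lit 306) (nat_lit 244)))))) (XT.nd (nat_lit 376) (nat_lit 840) (nat_lit 0) (XT.nd (nat_lit 188) (nat_lit 0) (nat_lit 0) (XT.nd (nat_lit 94) (nat_lit 0) (nat_lit 0) (XT.lf (nat_lit 0) (nat_lit 4686284414) (nat_lit 840) (nat_lit 3088585429) (nat_lit 924) (nat_lit 1022500669) (nat_lit 119) (nat_lit 5) (nat_lit 129) (nat_lit 5) (nat_lit 130) (nat_lit 5) (nat_lit 312) (nat_lit 306) (nat_lit 243)) (XT.lf (nat_lit 84) (nat_lit 186471421) (nat_lit 0) (nat_lit 5488305425) (nat_lit 924) (nat_lit 3238339544) (nat_lit 120) (nat_lit 5) (nat_lit 119) (nat_lit 5) (nat_lit 130) (nat_lit 5) (nat_lit 313) (nat_lit 306) (nat_lit 242))) (XT.nd (nat_lit 94) (nat_lit 0) (nat_lit 0) (XT.lf (nat_lit 84) (nat_lit 3608746897) (nat_lit 0) (nat_lit 3086102738) (nat_lit 924) (nat_lit 2337762481) (nat_lit 120) (nat_lit 5) (nat_lit 119) (nat_lit 5) (nat_lit 130) (nat_lit 5)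 (nat_lit 314) (nat_lit 306) (nat_lit 241)) (XT.lf (nat_lit 84) (nat_lit 7117923268) (nat_lit 0) (nat_lit 598261177) (nat_lit 924) (nat_lit 1440753974) (nat_lit 120) (nat_lit 5) (nat_lit 119) (nat_lit 5) (nat_lit 130) (nat_lit 5) (nat_lit 315) (nat_lit 306) (nat_lit 240)))) (XT.nd (nat_lit 188) (nat_lit 0) (nat_lit 0) (XT.nd (nat_lit 94) (nat_lit 924) (nat_lit 0) (XT.lf (nat_lit 84) (nat_lit 1440465004) (nat_lit 0) (nat_lit 7333175275) (nat_lit 924) (nat_lit 511519787) (nat_lit 121) (nat_lit 5) (nat_lit 120) (nat_lit 5) (nat_lit 131) (nat_lit 5) (nat_lit 316) (nat_lit 306) (nat_lit 239)) (XT.lf (nat_lit 0) (nat_lit 436028011) (nat_lit 924) (nat_lit 4376807158) (nat_lit 1008) (nat_lit 4604599328) (nat_lit 109) (nat_lit 5) (nat_lit 120) (nat_lit 5) (nat_lit 121) (nat_lit 5) (nat_lit 317) (nat_lit 306) (nat_lit 238))) (XT.nd (nat_lit 94) (nat_lit 0) (nat_lit 84) (XT.lf (nat_lit 0) (nat_lit 1374083906)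 (nat_lit 924) (nat_lit 826413032) (nat_lit 1008) (nat_lit 7354189540) (nat_lit 109) (nat_lit 5) (nat_lit 120) (nat_lit 5) (nat_lit 121) (nat_lit 5) (nat_lit 318) (nat_lit 306) (nat_lit 237)) (XT.nd (nat_lit 94) (nat_lit 0) (nat_lit 0) (XT.lf (nat_lit 0) (nat_lit 2347588162) (nat_lit 924) (nat_lit 6828829165) (nat_lit 1008) (nat_lit 519737360) (nat_lit 110) (nat_lit 5) (nat_lit 121) (nat_lit 5) (nat_lit 122) (nat_lit 5) (nat_lit 319) (nat_lit 306) (nat_lit 236)) (XT.lf (nat_lit 0) (nat_lit 3355812440) (nat_lit 924) (nat_lit 3191284516) (nat_lit 1008) (nat_lit 3294924742) (nat_lit 110) (nat_lit 5) (nat_lit 121) (nat_lit 5) (nat_lit 122) (nat_lit 5) (nat_lit 320) (nat_lit 306) (nat_lit 235))))))) (XT.nd (nat_lit 846) (nat_lit 1512) (nat_lit 0) (XT.nd (nat_lit 376) (nat_lit 1680) (nat_lit 0) (XT.nd (nat_lit 188) (nat_lit 840) (nat_lit 0) (XT.nd (nat_lit 94) (nat_lit 0) (nat_lit 0) (XT.lf (nat_lit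 84) (nat_lit 550682698) (nat_lit 0) (nat_lit 3824195189) (nat_lit 1008) (nat_lit 5618314962) (nat_lit 111) (nat_lit 5) (nat_lit 110) (nat_lit 5) (nat_lit 122) (nat_lit 5) (nat_lit 321) (nat_lit 306) (nat_lit 234)) (XT.lf (nat_lit 84) (nat_lit 4457064880) (nat_lit 0) (nat_lit 976490524) (nat_lit 1008) (nat_lit 4715391195) (nat_lit 111) (nat_lit 5) (nat_lit 110) (nat_lit 5) (nat_lit 122) (nat_lit 5) (nat_lit 322) (nat_lit 306) (nat_lit 233))) (XT.nd (nat_lit 94) (nat_lit 924) (nat_lit 0) (XT.lf (nat_lit 0) (nat_lit 6520019520) (nat_lit 924) (nat_lit 1864042493) (nat_lit 84) (nat_lit 1925763290) (nat_lit 111) (nat_lit 5) (nat_lit 122) (nat_lit 5) (nat_lit 112) (nat_lit 5) (nat_lit 323) (nat_lit 306) (nat_lit 232)) (XT.lf (nat_lit 0) (nat_lit 2095665196) (nat_lit 924) (nat_lit 5551540256) (nat_lit 1008) (nat_lit 2828403869) (nat_lit 100) (nat_lit 5) (nat_lit 111) (nat_lit 5) (nat_lit 112) (nat_lit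 5) (nat_lit 324) (nat_lit 306) (nat_lit 231)))) (XT.nd (nat_lit 188) (nat_lit 1680) (nat_lit 0) (XT.nd (nat_lit 94) (nat_lit 0) (nat_lit 0) (XT.lf (nat_lit 0) (nat_lit 6198802877) (nat_lit 924) (nat_lit 2606779813) (nat_lit 1008) (nat_lit 1841198507) (nat_lit 100) (nat_lit 5) (nat_lit 111) (nat_lit 5) (nat_lit 112) (nat_lit 5) (nat_lit 325) (nat_lit 306) (nat_lit 230)) (XT.lf (nat_lit 0) (nat_lit 9981659652) (nat_lit 1008) (nat_lit 417519387) (nat_lit 84) (nat_lit 424773152) (nat_lit 100) (nat_lit 5) (nat_lit 112) (nat_lit 5) (nat_lit 101) (nat_lit 5) (nat_lit 326) (nat_lit 306) (nat_lit 229))) (XT.nd (nat_lit 94) (nat_lit 588) (nat_lit 0) (XT.lf (nat_lit 0) (nat_lit 226363727) (nat_lit 1092) (nat_lit 7239134544) (nat_lit 84) (nat_lit 3539860744) (nat_lit 87) (nat_lit 5) (nat_lit 100) (nat_lit 5) (nat_lit 88) (nat_lit 5) (nat_lit 327) (nat_lit 306) (nat_lit 228)) (XT.nd (nat_lit 94) (nat_lit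 588) (nat_lit 0) (XT.lf (nat_lit 0) (nat_lit 1293398441) (nat_lit 1092) (nat_lit 3131336354) (nat_lit 84) (nat_lit 6768039514) (nat_lit 87) (nat_lit 5) (nat_lit 100) (nat_lit 5) (nat_lit 88) (nat_lit 5) (nat_lit 328) (nat_lit 306) (nat_lit 227)) (XT.lf (nat_lit 0) (nat_lit 1107753437) (nat_lit 588) (nat_lit 1275741879) (nat_lit 672) (nat_lit 9002928189) (nat_lit 80) (nat_lit 5) (nat_lit 87) (nat_lit 5) (nat_lit 88) (nat_lit 5) (nat_lit 329) (nat_lit 306) (nat_lit 226)))))) (XT.nd (nat_lit 470) (nat_lit 1008) (nat_lit 0) (XT.nd (nat_lit 188) (nat_lit 504) (nat_lit 0) (XT.nd (nat_lit 94) (nat_lit 0) (nat_lit 0) (XT.lf (nat_lit 0) (nat_lit 3539425238) (nat_lit 672) (nat_lit 6079264206) (nat_lit 84) (nat_lit 1966503263) (nat_lit 80) (nat_lit 5) (nat_lit 88) (nat_lit 5) (nat_lit 81) (nat_lit 5) (nat_lit 330) (nat_lit 306) (nat_lit 225)) (XT.lf (nat_lit 0) (nat_lit 4724323877) (nat_lit 672) (nat_lit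 1781108444) (nat_lit 84) (nat_lit 5285011060) (nat_lit 80) (nat_lit 5) (nat_lit 88) (nat_lit 5) (nat_lit 81) (nat_lit 5) (nat_lit 331) (nat_lit 306) (nat_lit 224))) (XT.nd (nat_lit 94) (nat_lit 0) (nat_lit 0) (XT.lf (nat_lit 0) (nat_lit 2686587823) (nat_lit 504) (nat_lit 3266703628) (nat_lit 588) (nat_lit 6048641524) (nat_lit 74) (nat_lit 5) (nat_lit 80) (nat_lit 5) (nat_lit 81) (nat_lit 5) (nat_lit 332) (nat_lit 306) (nat_lit 223)) (XT.nd (nat_lit 94) (nat_lit 0) (nat_lit 0) (XT.lf (nat_lit 0) (nat_lit 7220960670) (nat_lit 588) (nat_lit 4908119485) (nat_lit 84) (nat_lit 90980363) (nat_lit 74) (nat_lit 5) (nat_lit 81) (nat_lit 5) (nat_lit 75) (nat_lit 5) (nat_lit 333) (nat_lit 306) (nat_lit 222)) (XT.lf (nat_lit 0) (nat_lit 8543010408) (nat_lit 588) (nat_lit 415478465) (nat_lit 84) (nat_lit 3486091037) (nat_lit 74) (nat_lit 5) (nat_lit 81) (nat_lit 5) (nat_lit 75) (nat_lit 5) (nat_lit 334)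 (nat_lit 306) (nat_lit 221))))) (XT.nd (nat_lit 188) (nat_lit 504) (nat_lit 0) (XT.nd (nat_lit 94) (nat_lit 0) (nat_lit 0) (XT.lf (nat_lit 0) (nat_lit 4285515206) (nat_lit 504) (nat_lit 5645264486) (nat_lit 588) (nat_lit 2744607427) (nat_lit 68) (nat_lit 5) (nat_lit 74) (nat_lit 5) (nat_lit 75) (nat_lit 5) (nat_lit 335) (nat_lit 306) (nat_lit 220)) (XT.lf (nat_lit 0) (nat_lit 9123959574) (nat_lit 504) (nat_lit 2224535151) (nat_lit 588) (nat_lit 1565351643) (nat_lit 68) (nat_lit 5) (nat_lit 74) (nat_lit 5) (nat_lit 75) (nat_lit 5) (nat_lit 336) (nat_lit 306) (nat_lit 219))) (XT.nd (nat_lit 94) (nat_lit 84) (nat_lit 0) (XT.lf (nat_lit 0) (nat_lit 941560032) (nat_lit 420) (nat_lit 11873972447) (nat_lit 504) (nat_lit 344087728) (nat_lit 63) (nat_lit 5) (nat_lit 68) (nat_lit 5) (nat_lit 69) (nat_lit 5) (nat_lit 337) (nat_lit 306) (nat_lit 218)) (XT.nd (nat_lit 94) (nat_lit 0) (nat_lit 0) (XT.lf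 (nat_lit 0) (nat_lit 942514409) (nat_lit 504) (nat_lit 7561439907) (nat_lit 84) (nat_lit 4907437624) (nat_lit 62) (nat_lit 5) (nat_lit 68) (nat_lit 5) (nat_lit 63) (nat_lit 5) (nat_lit 338) (nat_lit 306) (nat_lit 217)) (XT.lf (nat_lit 0) (nat_lit 2245558809) (nat_lit 504) (nat_lit 2780903980) (nat_lit 84) (nat_lit 8644983004) (nat_lit 62) (nat_lit 5) (nat_lit 68) (nat_lit 5) (nat_lit 63) (nat_lit 5) (nat_lit 339) (nat_lit 306) (nat_lit 216))))))))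
noncomputable def xc82 : XT := (XT.nd (nat_lit 1692) (nat_lit 924) (nat_lit 0) (XT.nd (nat_lit 846) (nat_lit 924) (nat_lit 0) (XT.nd (nat_lit 376) (nat_lit 504) (nat_lit 0) (XT.nd (nat_lit 188) (nat_lit 336) (nat_lit 0) (XT.nd (nat_lit 94) (nat_lit 0) (nat_lit 0) (XT.lf (nat_lit 0) (nat_lit 2175243263) (nat_lit 420) (nat_lit 1419528064) (nat_lit 504) (nat_lit 10344689710) (nat_lit 57) (nat_lit 5) (nat_lit 62) (nat_lit 5) (nat_lit 63) (nat_lit 5) (nat_lit 340) (nat_lit 306) (nat_lit 215)) (XT.lf (nat_lit 0) (nat_lit 5022443448) (nat_lit 504) (nat_lit 6910800109) (nat_lit 84) (nat_lit 2281481885) (nat_lit 57) (nat_lit 5) (nat_lit 63) (nat_lit 5) (nat_lit 58) (nat_lit 5) (nat_lit 341) (nat_lit 306) (nat_lit 214))) (XT.nd (nat_lit 94) (nat_lit 336) (nat_lit 0) (XT.lf (nat_lit 0) (nat_lit 6493859480) (nat_lit 504) (nat_lit 1937734476) (nat_lit 84) (nat_lit 6067019067) (nat_lit 57) (nat_lit 5)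 (nat_lit 63) (nat_lit 5) (nat_lit 58) (nat_lit 5) (nat_lit 342) (nat_lit 306) (nat_lit 213)) (XT.lf (nat_lit 0) (nat_lit 3238954144) (nat_lit 336) (nat_lit 4789485724) (nat_lit 420) (nat_lit 6762389008) (nat_lit 53) (nat_lit 5) (nat_lit 57) (nat_lit 5) (nat_lit 58) (nat_lit 5) (nat_lit 343) (nat_lit 306) (nat_lit 212)))) (XT.nd (nat_lit 188) (nat_lit 504) (nat_lit 0) (XT.nd (nat_lit 94) (nat_lit 0) (nat_lit 0) (XT.lf (nat_lit 0) (nat_lit 8601559268) (nat_lit 336) (nat_lit 1014961839) (nat_lit 420) (nat_lit 5475468178) (nat_lit 53) (nat_lit 5) (nat_lit 57) (nat_lit 5) (nat_lit 58) (nat_lit 5) (nat_lit 344) (nat_lit 306) (nat_lit 211)) (XT.lf (nat_lit 0) (nat_lit 11268488670) (nat_lit 420) (nat_lit 1316270542) (nat_lit 84) (nat_lit 2817339692) (nat_lit 53) (nat_lit 5) (nat_lit 58) (nat_lit 5) (nat_lit 54) (nat_lit 5) (nat_lit 345) (nat_lit 306) (nat_lit 210))) (XT.nd (nat_lit 94) (nat_lit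 84) (nat_lit 0) (XT.lf (nat_lit 0) (nat_lit 4074822407) (nat_lit 420) (nat_lit 8934185433) (nat_lit 504) (nat_lit 2711722059) (nat_lit 48) (nat_lit 5) (nat_lit 53) (nat_lit 5) (nat_lit 54) (nat_lit 5) (nat_lit 346) (nat_lit 306) (nat_lit 209)) (XT.nd (nat_lit 94) (nat_lit 84) (nat_lit 0) (XT.lf (nat_lit 0) (nat_lit 9645913813) (nat_lit 420) (nat_lit 5158101355) (nat_lit 504) (nat_lit 1245270355) (nat_lit 48) (nat_lit 5) (nat_lit 53) (nat_lit 5) (nat_lit 54) (nat_lit 5) (nat_lit 347) (nat_lit 306) (nat_lit 208)) (XT.lf (nat_lit 0) (nat_lit 248267704) (nat_lit 504) (nat_lit 1015867328) (nat_lit 84) (nat_lit 15124272185) (nat_lit 47) (nat_lit 5) (nat_lit 53) (nat_lit 5) (nat_lit 48) (nat_lit 5) (nat_lit 348) (nat_lit 306) (nat_lit 207)))))) (XT.nd (nat_lit 376) (nat_lit 252) (nat_lit 0) (XT.nd (nat_lit 188) (nat_lit 336) (nat_lit 0) (XT.nd (nat_lit 94) (nat_lit 0) (nat_lit 0) (XT.lf (nat_lit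 0) (nat_lit 1823167032) (nat_lit 420) (nat_lit 12160323137) (nat_lit 84) (nat_lit 2752325901) (nat_lit 43) (nat_lit 5) (nat_lit 48) (nat_lit 5) (nat_lit 44) (nat_lit 5) (nat_lit 349) (nat_lit 306) (nat_lit 206)) (XT.lf (nat_lit 0) (nat_lit 3458136891) (nat_lit 420) (nat_lit 6759713234) (nat_lit 84) (nat_lit 6875852023) (nat_lit 43) (nat_lit 5) (nat_lit 48) (nat_lit 5) (nat_lit 44) (nat_lit 5) (nat_lit 350) (nat_lit 306) (nat_lit 205))) (XT.nd (nat_lit 94) (nat_lit 336) (nat_lit 0) (XT.lf (nat_lit 0) (nat_lit 5131770932) (nat_lit 420) (nat_lit 1205972480) (nat_lit 84) (nat_lit 11125366463) (nat_lit 43) (nat_lit 5) (nat_lit 48) (nat_lit 5) (nat_lit 44) (nat_lit 5) (nat_lit 351) (nat_lit 306) (nat_lit 204)) (XT.lf (nat_lit 0) (nat_lit 4598729950) (nat_lit 336) (nat_lit 2292519180) (nat_lit 420) (nat_lit 10951720232) (nat_lit 39) (nat_lit 5) (nat_lit 43) (nat_lit 5) (nat_lit 44) (nat_lit 5)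 (nat_lit 352) (nat_lit 306) (nat_lit 203)))) (XT.nd (nat_lit 188) (nat_lit 252) (nat_lit 0) (XT.nd (nat_lit 94) (nat_lit 0) (nat_lit 0) (XT.lf (nat_lit 0) (nat_lit 8725152261) (nat_lit 420) (nat_lit 7658131606) (nat_lit 84) (nat_lit 1850755645) (nat_lit 39) (nat_lit 5) (nat_lit 44) (nat_lit 5) (nat_lit 40) (nat_lit 5) (nat_lit 353) (nat_lit 306) (nat_lit 202)) (XT.lf (nat_lit 0) (nat_lit 10628231674) (nat_lit 420) (nat_lit 1935979207) (nat_lit 84) (nat_lit 6072689662) (nat_lit 39) (nat_lit 5) (nat_lit 44) (nat_lit 5) (nat_lit 40) (nat_lit 5) (nat_lit 354) (nat_lit 306) (nat_lit 201))) (XT.nd (nat_lit 94) (nat_lit 0) (nat_lit 0) (XT.lf (nat_lit 0) (nat_lit 4031519638) (nat_lit 252) (nat_lit 8587992699) (nat_lit 336) (nat_lit 6431880843) (nat_lit 36) (nat_lit 5) (nat_lit 39) (nat_lit 5) (nat_lit 40) (nat_lit 5) (nat_lit 355) (nat_lit 306) (nat_lit 200)) (XT.nd (nat_lit 94) (nat_lit 0) (nat_lit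 0) (XT.lf (nat_lit 0) (nat_lit 10211920589) (nat_lit 252) (nat_lit 4470216462) (nat_lit 336) (nat_lit 4796346834) (nat_lit 36) (nat_lit 5) (nat_lit 39) (nat_lit 5) (nat_lit 40) (nat_lit 5) (nat_lit 356) (nat_lit 306) (nat_lit 199)) (XT.lf (nat_lit 0) (nat_lit 16571176722) (nat_lit 252) (nat_lit 227251625) (nat_lit 336) (nat_lit 3120750006) (nat_lit 36) (nat_lit 5) (nat_lit 39) (nat_lit 5) (nat_lit 40) (nat_lit 5) (nat_lit 357) (nat_lit 306) (nat_lit 198))))))) (XT.nd (nat_lit 846) (nat_lit 0) (nat_lit 0) (XT.nd (nat_lit 376) (nat_lit 252) (nat_lit 0) (XT.nd (nat_lit 188) (nat_lit 252) (nat_lit 0) (XT.nd (nat_lit 94) (nat_lit 84) (nat_lit 0) (XT.lf (nat_lit 0) (nat_lit 2755732550) (nat_lit 336) (nat_lit 16283080980) (nat_lit 420) (nat_lit 1332951732) (nat_lit 32) (nat_lit 5) (nat_lit 36) (nat_lit 5) (nat_lit 37) (nat_lit 5) (nat_lit 358) (nat_lit 306) (nat_lit 197)) (XT.lf (nat_lit 0) (nat_lit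 527659484) (nat_lit 420) (nat_lit 11738185597) (nat_lit 84) (nat_lit 8571563988) (nat_lit 31) (nat_lit 5) (nat_lit 36) (nat_lit 5) (nat_lit 32) (nat_lit 5) (nat_lit 359) (nat_lit 306) (nat_lit 196))) (XT.nd (nat_lit 94) (nat_lit 252) (nat_lit 0) (XT.lf (nat_lit 0) (nat_lit 2408604488) (nat_lit 420) (nat_lit 5704174615) (nat_lit 84) (nat_lit 13204625678) (nat_lit 31) (nat_lit 5) (nat_lit 36) (nat_lit 5) (nat_lit 32) (nat_lit 5) (nat_lit 360) (nat_lit 306) (nat_lit 195)) (XT.lf (nat_lit 0) (nat_lit 515228314) (nat_lit 252) (nat_lit 3828375337) (nat_lit 336) (nat_lit 17468847616) (nat_lit 28) (nat_lit 5) (nat_lit 31) (nat_lit 5) (nat_lit 32) (nat_lit 5) (nat_lit 361) (nat_lit 306) (nat_lit 194)))) (XT.nd (nat_lit 188) (nat_lit 252) (nat_lit 0) (XT.nd (nat_lit 94) (nat_lit 0) (nat_lit 0) (XT.lf (nat_lit 0) (nat_lit 6395348176) (nat_lit 336) (nat_lit 15291307912) (nat_lit 84) (nat_lit 634466364)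 (nat_lit 28) (nat_lit 5) (nat_lit 32) (nat_lit 5) (nat_lit 29) (nat_lit 5) (nat_lit 362) (nat_lit 306) (nat_lit 193)) (XT.lf (nat_lit 0) (nat_lit 8540899712) (nat_lit 336) (nat_lit 9150214752) (nat_lit 84) (nat_lit 5153548379) (nat_lit 28) (nat_lit 5) (nat_lit 32) (nat_lit 5) (nat_lit 29) (nat_lit 5) (nat_lit 363) (nat_lit 306) (nat_lit 192))) (XT.nd (nat_lit 94) (nat_lit 252) (nat_lit 0) (XT.lf (nat_lit 0) (nat_lit 10744280182) (nat_lit 336) (nat_lit 2830241374) (nat_lit 84) (nat_lit 9810216196) (nat_lit 28) (nat_lit 5) (nat_lit 32) (nat_lit 5) (nat_lit 29) (nat_lit 5) (nat_lit 364) (nat_lit 306) (nat_lit 191)) (XT.nd (nat_lit 94) (nat_lit 0) (nat_lit 0) (XT.lf (nat_lit 0) (nat_lit 3750058417) (nat_lit 252) (nat_lit 9294685993) (nat_lit 336) (nat_lit 10895952944) (nat_lit 25) (nat_lit 5) (nat_lit 28) (nat_lit 5) (nat_lit 29) (nat_lit 5) (nat_lit 365) (nat_lit 306) (nat_lit 190)) (XT.lf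 (nat_lit 0) (nat_lit 10583311918) (nat_lit 252) (nat_lit 4854474710) (nat_lit 336) (nat_lit 9075479383) (nat_lit 25) (nat_lit 5) (nat_lit 28) (nat_lit 5) (nat_lit 29) (nat_lit 5) (nat_lit 366) (nat_lit 306) (nat_lit 189)))))) (XT.nd (nat_lit 48786) (nat_lit 0) (nat_lit 7812) (XT.nd (nat_lit 48504) (nat_lit 0) (nat_lit 7728) (XT.nd (nat_lit 48410) (nat_lit 0) (nat_lit 7728) (XT.lf (nat_lit 0) (nat_lit 17617692868) (nat_lit 252) (nat_lit 279290883) (nat_lit 336) (nat_lit 7206881930) (nat_lit 25) (nat_lit 5) (nat_lit 28) (nat_lit 5) (nat_lit 29) (nat_lit 5) (nat_lit 367) (nat_lit 306) (nat_lit 188)) (XT.lf (nat_lit 0) (nat_lit 418213274) (nat_lit 924) (nat_lit 1883874184) (nat_lit 924) (nat_lit 1883874184) (nat_lit 117) (nat_lit 3) (nat_lit 128) (nat_lit 3) (nat_lit 128) (nat_lit 5) (nat_lit 307) (nat_lit 307) (nat_lit 247))) (XT.nd (nat_lit 94) (nat_lit 0) (nat_lit 0) (XT.lf (nat_lit 0) (nat_lit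 1719740062) (nat_lit 924) (nat_lit 762770520) (nat_lit 924) (nat_lit 5986847311) (nat_lit 117) (nat_lit 3) (nat_lit 128) (nat_lit 3) (nat_lit 128) (nat_lit 5) (nat_lit 308) (nat_lit 307) (nat_lit 246)) (XT.nd (nat_lit 94) (nat_lit 0) (nat_lit 84) (XT.lf (nat_lit 84) (nat_lit 2364820532) (nat_lit 0) (nat_lit 254003893) (nat_lit 924) (nat_lit 5951564073) (nat_lit 118) (nat_lit 5) (nat_lit 117) (nat_lit 3) (nat_lit 128) (nat_lit 5) (nat_lit 309) (nat_lit 307) (nat_lit 245)) (XT.lf (nat_lit 0) (nat_lit 3540061601) (nat_lit 840) (nat_lit 3108553661) (nat_lit 924) (nat_lit 2026322148) (nat_lit 118) (nat_lit 5) (nat_lit 128) (nat_lit 5) (nat_lit 129) (nat_lit 5) (nat_lit 310) (nat_lit 307) (nat_lit 244))))) (XT.nd (nat_lit 188) (nat_lit 0) (nat_lit 84) (XT.nd (nat_lit 94) (nat_lit 0) (nat_lit 0) (XT.lf (nat_lit 84) (nat_lit 64317778) (nat_lit 0) (nat_lit 4395763977) (nat_lit 924) (nat_lit 4323771408)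 (nat_lit 119) (nat_lit 5) (nat_lit 118) (nat_lit 5) (nat_lit 129) (nat_lit 5) (nat_lit 311) (nat_lit 307) (nat_lit 243)) (XT.lf (nat_lit 84) (nat_lit 3382790452) (nat_lit 0) (nat_lit 2026075227) (nat_lit 924) (nat_lit 3487468779) (nat_lit 119) (nat_lit 5) (nat_lit 118) (nat_lit 5) (nat_lit 129) (nat_lit 5) (nat_lit 312) (nat_lit 307) (nat_lit 242))) (XT.nd (nat_lit 94) (nat_lit 0) (nat_lit 0) (XT.lf (nat_lit 0) (nat_lit 6360094191) (nat_lit 840) (nat_lit 2231690230) (nat_lit 924) (nat_lit 421545029) (nat_lit 119) (nat_lit 5) (nat_lit 129) (nat_lit 5) (nat_lit 130) (nat_lit 5) (nat_lit 313) (nat_lit 307) (nat_lit 241)) (XT.nd (nat_lit 94) (nat_lit 0) (nat_lit 0) (XT.lf (nat_lit 84) (nat_lit 1135248744) (nat_lit 0) (nat_lit 6207375958) (nat_lit 924) (nat_lit 1791455393) (nat_lit 120) (nat_lit 5) (nat_lit 119) (nat_lit 5) (nat_lit 130) (nat_lit 5) (nat_lit 314) (nat_lit 307) (nat_lit 240))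 (XT.lf (nat_lit 84) (nat_lit 4635260834) (nat_lit 0) (nat_lit 3714199727) (nat_lit 924) (nat_lit 909483674) (nat_lit 120) (nat_lit 5) (nat_lit 119) (nat_lit 5) (nat_lit 130) (nat_lit 5) (nat_lit 315) (nat_lit 307) (nat_lit 239))))))))
noncomputable def xc83 : XT := (XT.nd (nat_lit 1786) (nat_lit 2940) (nat_lit 0) (XT.nd (nat_lit 846) (nat_lit 2940) (nat_lit 0) (XT.nd (nat_lit 376) (nat_lit 0) (nat_lit 84) (XT.nd (nat_lit 188) (nat_lit 0) (nat_lit 0) (XT.nd (nat_lit 94) (nat_lit 840) (nat_lit 0) (XT.lf (nat_lit 84) (nat_lit 8225720289) (nat_lit 0) (nat_lit 1133226093) (nat_lit 924) (nat_lit 29792281) (nat_lit 120) (nat_lit 5) (nat_lit 119) (nat_lit 5) (nat_lit 130) (nat_lit 5) (nat_lit 316) (nat_lit 307) (nat_lit 238)) (XT.lf (nat_lit 0) (nat_lit 871008410) (nat_lit 924) (nat_lit 7111297292) (nat_lit 1008) (nat_lit 1539788167) (nat_lit 109) (nat_lit 5) (nat_lit 120) (nat_lit 5) (nat_lit 121)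 (nat_lit 5) (nat_lit 317) (nat_lit 307) (nat_lit 237))) (XT.nd (nat_lit 94) (nat_lit 0) (nat_lit 0) (XT.lf (nat_lit 0) (nat_lit 1795577704) (nat_lit 924) (nat_lit 3570343007) (nat_lit 1008) (nat_lit 4293921434) (nat_lit 109) (nat_lit 5) (nat_lit 120) (nat_lit 5) (nat_lit 121) (nat_lit 5) (nat_lit 318) (nat_lit 307) (nat_lit 236)) (XT.lf (nat_lit 84) (nat_lit 63055440) (nat_lit 0) (nat_lit 2659811035) (nat_lit 1008) (nat_lit 7079952418) (nat_lit 110) (nat_lit 5) (nat_lit 109) (nat_lit 5) (nat_lit 121) (nat_lit 5) (nat_lit 319) (nat_lit 307) (nat_lit 235)))) (XT.nd (nat_lit 188) (nat_lit 0) (nat_lit 0) (XT.nd (nat_lit 94) (nat_lit 0) (nat_lit 0) (XT.lf (nat_lit 0) (nat_lit 3691964270) (nat_lit 924) (nat_lit 6085402991) (nat_lit 1008) (nat_lit 172605142) (nat_lit 110) (nat_lit 5) (nat_lit 121) (nat_lit 5) (nat_lit 122) (nat_lit 5) (nat_lit 320) (nat_lit 307) (nat_lit 234)) (XT.lf (nat_lit 0)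 (nat_lit 4693209139) (nat_lit 924) (nat_lit 2363812901) (nat_lit 1008) (nat_lit 3044745317) (nat_lit 110) (nat_lit 5) (nat_lit 121) (nat_lit 5) (nat_lit 122) (nat_lit 5) (nat_lit 321) (nat_lit 307) (nat_lit 233))) (XT.nd (nat_lit 94) (nat_lit 0) (nat_lit 0) (XT.lf (nat_lit 84) (nat_lit 1484776314) (nat_lit 0) (nat_lit 4231101543) (nat_lit 1008) (nat_lit 4542828742) (nat_lit 111) (nat_lit 5) (nat_lit 110) (nat_lit 5) (nat_lit 122) (nat_lit 5) (nat_lit 322) (nat_lit 307) (nat_lit 232)) (XT.nd (nat_lit 94) (nat_lit 0) (nat_lit 84) (XT.lf (nat_lit 84) (nat_lit 5484683407) (nat_lit 0) (nat_lit 1286447766) (nat_lit 1008) (nat_lit 3649488803) (nat_lit 111) (nat_lit 5) (nat_lit 110) (nat_lit 5) (nat_lit 122) (nat_lit 5) (nat_lit 323) (nat_lit 307) (nat_lit 231)) (XT.lf (nat_lit 0) (nat_lit 7853431136) (nat_lit 924) (nat_lit 1014778341) (nat_lit 84) (nat_lit 1719651103) (nat_lit 111) (nat_lit 5)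 (nat_lit 122) (nat_lit 5) (nat_lit 112) (nat_lit 5) (nat_lit 324) (nat_lit 307) (nat_lit 230)))))) (XT.nd (nat_lit 470) (nat_lit 1092) (nat_lit 0) (XT.nd (nat_lit 188) (nat_lit 1092) (nat_lit 0) (XT.nd (nat_lit 94) (nat_lit 0) (nat_lit 0) (XT.lf (nat_lit 0) (nat_lit 3058497225) (nat_lit 924) (nat_lit 5931954013) (nat_lit 1008) (nat_lit 1769306450) (nat_lit 100) (nat_lit 5) (nat_lit 111) (nat_lit 5) (nat_lit 112) (nat_lit 5) (nat_lit 325) (nat_lit 307) (nat_lit 229)) (XT.lf (nat_lit 0) (nat_lit 7261835221) (nat_lit 924) (nat_lit 2889642373) (nat_lit 1008) (nat_lit 785978921) (nat_lit 100) (nat_lit 5) (nat_lit 111) (nat_lit 5) (nat_lit 112) (nat_lit 5) (nat_lit 326) (nat_lit 307) (nat_lit 228))) (XT.nd (nat_lit 94) (nat_lit 0) (nat_lit 0) (XT.lf (nat_lit 0) (nat_lit 208891637) (nat_lit 1092) (nat_lit 10659636882) (nat_lit 84) (nat_lit 252627321) (nat_lit 87) (nat_lit 5) (nat_lit 100) (nat_lit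 5) (nat_lit 88) (nat_lit 5) (nat_lit 327) (nat_lit 307) (nat_lit 227)) (XT.nd (nat_lit 94) (nat_lit 0) (nat_lit 0) (XT.lf (nat_lit 0) (nat_lit 1265584172) (nat_lit 1092) (nat_lit 6560882958) (nat_lit 84) (nat_lit 3482480512) (nat_lit 87) (nat_lit 5) (nat_lit 100) (nat_lit 5) (nat_lit 88) (nat_lit 5) (nat_lit 328) (nat_lit 307) (nat_lit 226)) (XT.lf (nat_lit 0) (nat_lit 2334660785) (nat_lit 1092) (nat_lit 2352884253) (nat_lit 84) (nat_lit 6815757648) (nat_lit 87) (nat_lit 5) (nat_lit 100) (nat_lit 5) (nat_lit 88) (nat_lit 5) (nat_lit 329) (nat_lit 307) (nat_lit 225))))) (XT.nd (nat_lit 188) (nat_lit 504) (nat_lit 0) (XT.nd (nat_lit 94) (nat_lit 0) (nat_lit 0) (XT.lf (nat_lit 0) (nat_lit 2008753432) (nat_lit 588) (nat_lit 1428291618) (nat_lit 672) (nat_lit 8266739342) (nat_lit 80) (nat_lit 5) (nat_lit 87) (nat_lit 5) (nat_lit 88) (nat_lit 5) (nat_lit 330) (nat_lit 307) (nat_lit 224)) (XT.lf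 (nat_lit 0) (nat_lit 4598265158) (nat_lit 672) (nat_lit 5391485827) (nat_lit 84) (nat_lit 1920069125) (nat_lit 80) (nat_lit 5) (nat_lit 88) (nat_lit 5) (nat_lit 81) (nat_lit 5) (nat_lit 331) (nat_lit 307) (nat_lit 223))) (XT.nd (nat_lit 94) (nat_lit 504) (nat_lit 0) (XT.lf (nat_lit 0) (nat_lit 5791357682) (nat_lit 672) (nat_lit 986433796) (nat_lit 84) (nat_lit 5344679828) (nat_lit 80) (nat_lit 5) (nat_lit 88) (nat_lit 5) (nat_lit 81) (nat_lit 5) (nat_lit 332) (nat_lit 307) (nat_lit 222)) (XT.nd (nat_lit 94) (nat_lit 0) (nat_lit 0) (XT.lf (nat_lit 0) (nat_lit 3611156692) (nat_lit 504) (nat_lit 3427932311) (nat_lit 588) (nat_lit 5302175907) (nat_lit 74) (nat_lit 5) (nat_lit 80) (nat_lit 5) (nat_lit 81) (nat_lit 5) (nat_lit 333) (nat_lit 307) (nat_lit 221)) (XT.lf (nat_lit 0) (nat_lit 8318380478) (nat_lit 588) (nat_lit 4211961341) (nat_lit 84) (nat_lit 36814534) (nat_lit 74) (nat_lit 5) (nat_lit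 81) (nat_lit 5) (nat_lit 75) (nat_lit 5) (nat_lit 334) (nat_lit 307) (nat_lit 220))))))) (XT.nd (nat_lit 846) (nat_lit 1512) (nat_lit 0) (XT.nd (nat_lit 376) (nat_lit 420) (nat_lit 0) (XT.nd (nat_lit 188) (nat_lit 504) (nat_lit 0) (XT.nd (nat_lit 94) (nat_lit 0) (nat_lit 0) (XT.lf (nat_lit 0) (nat_lit 402555250) (nat_lit 504) (nat_lit 9256585493) (nat_lit 588) (nat_lit 3140325243) (nat_lit 68) (nat_lit 5) (nat_lit 74) (nat_lit 5) (nat_lit 75) (nat_lit 5) (nat_lit 335) (nat_lit 307) (nat_lit 219)) (XT.lf (nat_lit 0) (nat_lit 5232838993) (nat_lit 504) (nat_lit 5835701519) (nat_lit 588) (nat_lit 1969686285) (nat_lit 68) (nat_lit 5) (nat_lit 74) (nat_lit 5) (nat_lit 75) (nat_lit 5) (nat_lit 336) (nat_lit 307) (nat_lit 218))) (XT.nd (nat_lit 94) (nat_lit 504) (nat_lit 0) (XT.lf (nat_lit 0) (nat_lit 10196785653) (nat_lit 504) (nat_lit 2308465512) (nat_lit 588) (nat_lit 779732081) (nat_lit 68)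 (nat_lit 5) (nat_lit 74) (nat_lit 5) (nat_lit 75) (nat_lit 5) (nat_lit 337) (nat_lit 307) (nat_lit 217)) (XT.lf (nat_lit 0) (nat_lit 453138970) (nat_lit 504) (nat_lit 11761818841) (nat_lit 84) (nat_lit 1323908854) (nat_lit 62) (nat_lit 5) (nat_lit 68) (nat_lit 5) (nat_lit 63) (nat_lit 5) (nat_lit 338) (nat_lit 307) (nat_lit 216)))) (XT.nd (nat_lit 188) (nat_lit 420) (nat_lit 0) (XT.nd (nat_lit 94) (nat_lit 0) (nat_lit 0) (XT.lf (nat_lit 0) (nat_lit 1748401518) (nat_lit 504) (nat_lit 6989363465) (nat_lit 84) (nat_lit 5061435524) (nat_lit 62) (nat_lit 5) (nat_lit 68) (nat_lit 5) (nat_lit 63) (nat_lit 5) (nat_lit 339) (nat_lit 307) (nat_lit 215)) (XT.lf (nat_lit 0) (nat_lit 3068487487) (nat_lit 504) (nat_lit 2084880113) (nat_lit 84) (nat_lit 8914788664) (nat_lit 62) (nat_lit 5) (nat_lit 68) (nat_lit 5) (nat_lit 63) (nat_lit 5) (nat_lit 340) (nat_lit 307) (nat_lit 214))) (XT.nd (nat_lit 94)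 (nat_lit 0) (nat_lit 0) (XT.lf (nat_lit 0) (nat_lit 3016988299) (nat_lit 420) (nat_lit 1427567933) (nat_lit 504) (nat_lit 9900500601) (nat_lit 57) (nat_lit 5) (nat_lit 62) (nat_lit 5) (nat_lit 63) (nat_lit 5) (nat_lit 341) (nat_lit 307) (nat_lit 213)) (XT.nd (nat_lit 94) (nat_lit 0) (nat_lit 0) (XT.lf (nat_lit 0) (nat_lit 5894631703) (nat_lit 504) (nat_lit 6348620549) (nat_lit 84) (nat_lit 2386389081) (nat_lit 57) (nat_lit 5) (nat_lit 63) (nat_lit 5) (nat_lit 58) (nat_lit 5) (nat_lit 342) (nat_lit 307) (nat_lit 212)) (XT.lf (nat_lit 0) (nat_lit 7390118210) (nat_lit 504) (nat_lit 1244735027) (nat_lit 84) (nat_lit 6288250157) (nat_lit 57) (nat_lit 5) (nat_lit 63) (nat_lit 5) (nat_lit 58) (nat_lit 5) (nat_lit 343) (nat_lit 307) (nat_lit 211)))))) (XT.nd (nat_lit 470) (nat_lit 756) (nat_lit 0) (XT.nd (nat_lit 188) (nat_lit 420) (nat_lit 0) (XT.nd (nat_lit 94) (nat_lit 0) (nat_lit 0) (XT.lf (nat_lit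 0) (nat_lit 4084806791) (nat_lit 336) (nat_lit 4873963050) (nat_lit 420) (nat_lit 6266129548) (nat_lit 53) (nat_lit 5) (nat_lit 57) (nat_lit 5) (nat_lit 58) (nat_lit 5) (nat_lit 344) (nat_lit 307) (nat_lit 210)) (XT.lf (nat_lit 0) (nat_lit 9591238710) (nat_lit 336) (nat_lit 984353172) (nat_lit 420) (nat_lit 4960538905) (nat_lit 53) (nat_lit 5) (nat_lit 57) (nat_lit 5) (nat_lit 58) (nat_lit 5) (nat_lit 345) (nat_lit 307) (nat_lit 209))) (XT.nd (nat_lit 94) (nat_lit 420) (nat_lit 0) (XT.lf (nat_lit 0) (nat_lit 12259494057) (nat_lit 420) (nat_lit 633383849) (nat_lit 84) (nat_lit 2963670299) (nat_lit 53) (nat_lit 5) (nat_lit 58) (nat_lit 5) (nat_lit 54) (nat_lit 5) (nat_lit 346) (nat_lit 307) (nat_lit 208)) (XT.nd (nat_lit 94) (nat_lit 0) (nat_lit 0) (XT.lf (nat_lit 0) (nat_lit 4917506259) (nat_lit 420) (nat_lit 9124275450) (nat_lit 504) (nat_lit 2143746786) (nat_lit 48) (nat_lit 5) (nat_lit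 53) (nat_lit 5) (nat_lit 54) (nat_lit 5) (nat_lit 347) (nat_lit 307) (nat_lit 207)) (XT.lf (nat_lit 0) (nat_lit 10639761931) (nat_lit 420) (nat_lit 5233744756) (nat_lit 504) (nat_lit 651440510) (nat_lit 48) (nat_lit 5) (nat_lit 53) (nat_lit 5) (nat_lit 54) (nat_lit 5) (nat_lit 348) (nat_lit 307) (nat_lit 206))))) (XT.nd (nat_lit 188) (nat_lit 336) (nat_lit 0) (XT.nd (nat_lit 94) (nat_lit 336) (nat_lit 0) (XT.lf (nat_lit 0) (nat_lit 857022301) (nat_lit 504) (nat_lit 358302813) (nat_lit 84) (nat_lit 15659725378) (nat_lit 47) (nat_lit 5) (nat_lit 53) (nat_lit 5) (nat_lit 48) (nat_lit 5) (nat_lit 349) (nat_lit 307) (nat_lit 205)) (XT.lf (nat_lit 0) (nat_lit 2470353180) (nat_lit 420) (nat_lit 11835165006) (nat_lit 84) (nat_lit 2928116059) (nat_lit 43) (nat_lit 5) (nat_lit 48) (nat_lit 5) (nat_lit 44) (nat_lit 5) (nat_lit 350) (nat_lit 307) (nat_lit 204))) (XT.nd (nat_lit 94) (nat_lit 336) (nat_lit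 0) (XT.lf (nat_lit 0) (nat_lit 4138246961) (nat_lit 420) (nat_lit 6288247711) (nat_lit 84) (nat_lit 7176751307) (nat_lit 43) (nat_lit 5) (nat_lit 48) (nat_lit 5) (nat_lit 44) (nat_lit 5) (nat_lit 351) (nat_lit 307) (nat_lit 203)) (XT.nd (nat_lit 94) (nat_lit 336) (nat_lit 0) (XT.lf (nat_lit 0) (nat_lit 5846537526) (nat_lit 420) (nat_lit 582817731) (nat_lit 84) (nat_lit 11555362301) (nat_lit 43) (nat_lit 5) (nat_lit 48) (nat_lit 5) (nat_lit 44) (nat_lit 5) (nat_lit 352) (nat_lit 307) (nat_lit 202)) (XT.lf (nat_lit 0) (nat_lit 5395143102) (nat_lit 336) (nat_lit 2255194565) (nat_lit 420) (nat_lit 10726407749) (nat_lit 39) (nat_lit 5) (nat_lit 43) (nat_lit 5) (nat_lit 44) (nat_lit 5) (nat_lit 353) (nat_lit 307) (nat_lit 201))))))))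
noncomputable def xc84 : XT := (XT.nd (nat_lit 50102) (nat_lit 0) (nat_lit 5208) (XT.nd (nat_lit 846) (nat_lit 252) (nat_lit 0) (XT.nd (nat_lit 376) (nat_lit 672) (nat_lit 0) (XT.nd (nat_lit 188) (nat_lit 252) (nat_lit 0) (XT.nd (nat_lit 94) (nat_lit 0) (nat_lit 0) (XT.lf (nat_lit 0) (nat_lit 9525733904) (nat_lit 420) (nat_lit 7243610067) (nat_lit 84) (nat_lit 2011144432) (nat_lit 39) (nat_lit 5) (nat_lit 44) (nat_lit 5) (nat_lit 40) (nat_lit 5) (nat_lit 354) (nat_lit 307) (nat_lit 200)) (XT.lf (nat_lit 0) (nat_lit 11471869730) (nat_lit 420) (nat_lit 1363672915) (nat_lit 84) (nat_lit 6360860948) (nat_lit 39) (nat_lit 5) (nat_lit 44) (nat_lit 5) (nat_lit 40) (nat_lit 5) (nat_lit 355) (nat_lit 307) (nat_lit 199))) (XT.nd (nat_lit 94) (nat_lit 0) (nat_lit 0) (XT.lf (nat_lit 0) (nat_lit 4782416706) (nat_lit 252) (nat_lit 8733212796) (nat_lit 336) (nat_lit 6108471979) (nat_lit 36) (nat_lit 5)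 (nat_lit 39) (nat_lit 5) (nat_lit 40) (nat_lit 5) (nat_lit 356) (nat_lit 307) (nat_lit 198)) (XT.lf (nat_lit 0) (nat_lit 11135589991) (nat_lit 252) (nat_lit 4491423942) (nat_lit 336) (nat_lit 4437955826) (nat_lit 36) (nat_lit 5) (nat_lit 39) (nat_lit 5) (nat_lit 40) (nat_lit 5) (nat_lit 357) (nat_lit 307) (nat_lit 197)))) (XT.nd (nat_lit 188) (nat_lit 336) (nat_lit 0) (XT.nd (nat_lit 94) (nat_lit 336) (nat_lit 0) (XT.lf (nat_lit 0) (nat_lit 17673728849) (nat_lit 252) (nat_lit 120456240) (nat_lit 336) (nat_lit 2725662257) (nat_lit 36) (nat_lit 5) (nat_lit 39) (nat_lit 5) (nat_lit 40) (nat_lit 5) (nat_lit 358) (nat_lit 307) (nat_lit 196)) (XT.lf (nat_lit 0) (nat_lit 3439581690) (nat_lit 336) (nat_lit 16657189875) (nat_lit 420) (nat_lit 889980807) (nat_lit 32) (nat_lit 5) (nat_lit 36) (nat_lit 5) (nat_lit 37) (nat_lit 5) (nat_lit 359) (nat_lit 307) (nat_lit 195))) (XT.nd (nat_lit 94) (nat_lit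 252) (nat_lit 0) (XT.lf (nat_lit 0) (nat_lit 1004283674) (nat_lit 420) (nat_lit 11510260619) (nat_lit 84) (nat_lit 8952639644) (nat_lit 31) (nat_lit 5) (nat_lit 36) (nat_lit 5) (nat_lit 32) (nat_lit 5) (nat_lit 360) (nat_lit 307) (nat_lit 194)) (XT.nd (nat_lit 94) (nat_lit 252) (nat_lit 0) (XT.lf (nat_lit 0) (nat_lit 2929698720) (nat_lit 420) (nat_lit 5306989739) (nat_lit 84) (nat_lit 13725857698) (nat_lit 31) (nat_lit 5) (nat_lit 36) (nat_lit 5) (nat_lit 32) (nat_lit 5) (nat_lit 361) (nat_lit 307) (nat_lit 193)) (XT.lf (nat_lit 0) (nat_lit 1099403301) (nat_lit 252) (nat_lit 3817493064) (nat_lit 336) (nat_lit 17556339995) (nat_lit 28) (nat_lit 5) (nat_lit 31) (nat_lit 5) (nat_lit 32) (nat_lit 5) (nat_lit 362) (nat_lit 307) (nat_lit 192)))))) (XT.nd (nat_lit 376) (nat_lit 0) (nat_lit 0) (XT.nd (nat_lit 188) (nat_lit 252) (nat_lit 0) (XT.nd (nat_lit 94) (nat_lit 0) (nat_lit 0) (XT.lf (nat_lit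 0) (nat_lit 7020302584) (nat_lit 336) (nat_lit 15200529015) (nat_lit 84) (nat_lit 777269180) (nat_lit 28) (nat_lit 5) (nat_lit 32) (nat_lit 5) (nat_lit 29) (nat_lit 5) (nat_lit 363) (nat_lit 307) (nat_lit 191)) (XT.lf (nat_lit 0) (nat_lit 9219536289) (nat_lit 336) (nat_lit 8886044598) (nat_lit 84) (nat_lit 5432740347) (nat_lit 28) (nat_lit 5) (nat_lit 32) (nat_lit 5) (nat_lit 29) (nat_lit 5) (nat_lit 364) (nat_lit 307) (nat_lit 190))) (XT.nd (nat_lit 94) (nat_lit 252) (nat_lit 0) (XT.lf (nat_lit 0) (nat_lit 11478777393) (nat_lit 336) (nat_lit 2386624045) (nat_lit 84) (nat_lit 10230173799) (nat_lit 28) (nat_lit 5) (nat_lit 32) (nat_lit 5) (nat_lit 29) (nat_lit 5) (nat_lit 365) (nat_lit 307) (nat_lit 189)) (XT.lf (nat_lit 0) (nat_lit 4392285550) (nat_lit 252) (nat_lit 9451418211) (nat_lit 336) (nat_lit 10825327712) (nat_lit 25) (nat_lit 5) (nat_lit 28) (nat_lit 5) (nat_lit 29) (nat_lit 5)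 (nat_lit 366) (nat_lit 307) (nat_lit 188)))) (XT.nd (nat_lit 48598) (nat_lit 0) (nat_lit 7728) (XT.nd (nat_lit 48504) (nat_lit 0) (nat_lit 7728) (XT.lf (nat_lit 0) (nat_lit 11421554939) (nat_lit 252) (nat_lit 4877511392) (nat_lit 336) (nat_lit 8960699192) (nat_lit 25) (nat_lit 5) (nat_lit 28) (nat_lit 5) (nat_lit 29) (nat_lit 5) (nat_lit 367) (nat_lit 307) (nat_lit 187)) (XT.lf (nat_lit 0) (nat_lit 1292892819) (nat_lit 924) (nat_lit 1495412075) (nat_lit 924) (nat_lit 1495412075) (nat_lit 117) (nat_lit 3) (nat_lit 128) (nat_lit 3) (nat_lit 128) (nat_lit 5) (nat_lit 308) (nat_lit 308) (nat_lit 245))) (XT.nd (nat_lit 94) (nat_lit 0) (nat_lit 0) (XT.lf (nat_lit 84) (nat_lit 82089518) (nat_lit 0) (nat_lit 3363386781) (nat_lit 924) (nat_lit 5224312392) (nat_lit 118) (nat_lit 5) (nat_lit 117) (nat_lit 3) (nat_lit 128) (nat_lit 5) (nat_lit 309) (nat_lit 308) (nat_lit 244)) (XT.nd (nat_lit 94) (nat_lit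 0) (nat_lit 84) (XT.lf (nat_lit 84) (nat_lit 3296205876) (nat_lit 0) (nat_lit 1033662491) (nat_lit 924) (nat_lit 4445711282) (nat_lit 118) (nat_lit 5) (nat_lit 117) (nat_lit 3) (nat_lit 128) (nat_lit 5) (nat_lit 310) (nat_lit 308) (nat_lit 243)) (XT.lf (nat_lit 0) (nat_lit 5223231431) (nat_lit 840) (nat_lit 2306545403) (nat_lit 924) (nat_lit 1355641782) (nat_lit 118) (nat_lit 5) (nat_lit 128) (nat_lit 5) (nat_lit 129) (nat_lit 5) (nat_lit 311) (nat_lit 308) (nat_lit 242))))))) (XT.nd (nat_lit 846) (nat_lit 1764) (nat_lit 0) (XT.nd (nat_lit 376) (nat_lit 840) (nat_lit 0) (XT.nd (nat_lit 188) (nat_lit 0) (nat_lit 0) (XT.nd (nat_lit 94) (nat_lit 0) (nat_lit 0) (XT.lf (nat_lit 84) (nat_lit 955589827) (nat_lit 0) (nat_lit 5177694467) (nat_lit 924) (nat_lit 2865910212) (nat_lit 119) (nat_lit 5) (nat_lit 118) (nat_lit 5) (nat_lit 129) (nat_lit 5) (nat_lit 312) (nat_lit 308) (nat_lit 241)) (XT.lf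 (nat_lit 84) (nat_lit 4350196430) (nat_lit 0) (nat_lit 2715131675) (nat_lit 924) (nat_lit 2051547227) (nat_lit 119) (nat_lit 5) (nat_lit 118) (nat_lit 5) (nat_lit 129) (nat_lit 5) (nat_lit 313) (nat_lit 308) (nat_lit 240))) (XT.nd (nat_lit 94) (nat_lit 0) (nat_lit 84) (XT.lf (nat_lit 84) (nat_lit 7833011231) (nat_lit 0) (nat_lit 163868693) (nat_lit 924) (nat_lit 1242414762) (nat_lit 119) (nat_lit 5) (nat_lit 118) (nat_lit 5) (nat_lit 129) (nat_lit 5) (nat_lit 314) (nat_lit 308) (nat_lit 239)) (XT.lf (nat_lit 84) (nat_lit 2057582855) (nat_lit 0) (nat_lit 6916223433) (nat_lit 924) (nat_lit 391365443) (nat_lit 120) (nat_lit 5) (nat_lit 119) (nat_lit 5) (nat_lit 130) (nat_lit 5) (nat_lit 315) (nat_lit 308) (nat_lit 238)))) (XT.nd (nat_lit 188) (nat_lit 0) (nat_lit 84) (XT.nd (nat_lit 94) (nat_lit 0) (nat_lit 0) (XT.lf (nat_lit 0) (nat_lit 464626149) (nat_lit 924) (nat_lit 3860755217) (nat_lit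 1008) (nat_lit 5169944951) (nat_lit 108) (nat_lit 5) (nat_lit 119) (nat_lit 5) (nat_lit 120) (nat_lit 5) (nat_lit 316) (nat_lit 308) (nat_lit 237)) (XT.lf (nat_lit 0) (nat_lit 1311718438) (nat_lit 924) (nat_lit 328776463) (nat_lit 1008) (nat_lit 7989902025) (nat_lit 108) (nat_lit 5) (nat_lit 119) (nat_lit 5) (nat_lit 120) (nat_lit 5) (nat_lit 317) (nat_lit 308) (nat_lit 236))) (XT.nd (nat_lit 94) (nat_lit 0) (nat_lit 0) (XT.lf (nat_lit 0) (nat_lit 2203570122) (nat_lit 924) (nat_lit 6417930658) (nat_lit 1008) (nat_lit 1147734526) (nat_lit 109) (nat_lit 5) (nat_lit 120) (nat_lit 5) (nat_lit 121) (nat_lit 5) (nat_lit 318) (nat_lit 308) (nat_lit 235)) (XT.nd (nat_lit 94) (nat_lit 0) (nat_lit 0) (XT.lf (nat_lit 0) (nat_lit 3117545609) (nat_lit 924) (nat_lit 2794683339) (nat_lit 1008) (nat_lit 4000469395) (nat_lit 109) (nat_lit 5) (nat_lit 120) (nat_lit 5) (nat_lit 121) (nat_lit 5) (nat_lit 319)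 (nat_lit 308) (nat_lit 234)) (XT.lf (nat_lit 84) (nat_lit 942377060) (nat_lit 0) (nat_lit 3101831734) (nat_lit 1008) (nat_lit 6017029897) (nat_lit 110) (nat_lit 5) (nat_lit 109) (nat_lit 5) (nat_lit 121) (nat_lit 5) (nat_lit 320) (nat_lit 308) (nat_lit 233)))))) (XT.nd (nat_lit 470) (nat_lit 1848) (nat_lit 0) (XT.nd (nat_lit 188) (nat_lit 0) (nat_lit 84) (XT.nd (nat_lit 94) (nat_lit 0) (nat_lit 84) (XT.lf (nat_lit 84) (nat_lit 4837214884) (nat_lit 0) (nat_lit 167140107) (nat_lit 1008) (nat_lit 5210021934) (nat_lit 110) (nat_lit 5) (nat_lit 109) (nat_lit 5) (nat_lit 121) (nat_lit 5) (nat_lit 321) (nat_lit 308) (nat_lit 232)) (XT.lf (nat_lit 0) (nat_lit 5999010726) (nat_lit 924) (nat_lit 1565562010) (nat_lit 1008) (nat_lit 2807678971) (nat_lit 110) (nat_lit 5) (nat_lit 121) (nat_lit 5) (nat_lit 122) (nat_lit 5) (nat_lit 322) (nat_lit 308) (nat_lit 231))) (XT.nd (nat_lit 94) (nat_lit 0) (nat_lit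 0) (XT.lf (nat_lit 84) (nat_lit 2393510021) (nat_lit 0) (nat_lit 4633542157) (nat_lit 1008) (nat_lit 3508021595) (nat_lit 111) (nat_lit 5) (nat_lit 110) (nat_lit 5) (nat_lit 122) (nat_lit 5) (nat_lit 323) (nat_lit 308) (nat_lit 230)) (XT.nd (nat_lit 94) (nat_lit 0) (nat_lit 84) (XT.lf (nat_lit 84) (nat_lit 6491474492) (nat_lit 0) (nat_lit 1589447400) (nat_lit 1008) (nat_lit 2622336983) (nat_lit 111) (nat_lit 5) (nat_lit 110) (nat_lit 5) (nat_lit 122) (nat_lit 5) (nat_lit 324) (nat_lit 308) (nat_lit 229)) (XT.lf (nat_lit 0) (nat_lit 9161170209) (nat_lit 924) (nat_lit 192913094) (nat_lit 84) (nat_lit 1522893869) (nat_lit 111) (nat_lit 5) (nat_lit 122) (nat_lit 5) (nat_lit 112) (nat_lit 5) (nat_lit 325) (nat_lit 308) (nat_lit 228))))) (XT.nd (nat_lit 188) (nat_lit 1008) (nat_lit 0) (XT.nd (nat_lit 94) (nat_lit 84) (nat_lit 0) (XT.lf (nat_lit 0) (nat_lit 3997994882) (nat_lit 924) (nat_lit 6311821683)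 (nat_lit 1008) (nat_lit 745302632) (nat_lit 100) (nat_lit 5) (nat_lit 111) (nat_lit 5) (nat_lit 112) (nat_lit 5) (nat_lit 326) (nat_lit 308) (nat_lit 227)) (XT.lf (nat_lit 0) (nat_lit 231312962) (nat_lit 1008) (nat_lit 2935578368) (nat_lit 84) (nat_lit 8072511083) (nat_lit 99) (nat_lit 5) (nat_lit 111) (nat_lit 5) (nat_lit 100) (nat_lit 5) (nat_lit 327) (nat_lit 308) (nat_lit 226))) (XT.nd (nat_lit 94) (nat_lit 0) (nat_lit 0) (XT.lf (nat_lit 0) (nat_lit 1216534270) (nat_lit 1092) (nat_lit 10114562097) (nat_lit 84) (nat_lit 98367676) (nat_lit 87) (nat_lit 5) (nat_lit 100) (nat_lit 5) (nat_lit 88) (nat_lit 5) (nat_lit 328) (nat_lit 308) (nat_lit 225)) (XT.nd (nat_lit 94) (nat_lit 0) (nat_lit 0) (XT.lf (nat_lit 0) (nat_lit 2275881289) (nat_lit 1092) (nat_lit 5915071952) (nat_lit 84) (nat_lit 3433220054) (nat_lit 87) (nat_lit 5) (nat_lit 100) (nat_lit 5) (nat_lit 88) (nat_lit 5) (nat_lit 329)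 (nat_lit 308) (nat_lit 224)) (XT.lf (nat_lit 0) (nat_lit 3348901427) (nat_lit 1092) (nat_lit 1602158895) (nat_lit 84) (nat_lit 6874555977) (nat_lit 87) (nat_lit 5) (nat_lit 100) (nat_lit 5) (nat_lit 88) (nat_lit 5) (nat_lit 330) (nat_lit 308) (nat_lit 223))))))))
noncomputable def xc85 : XT := (XT.nd (nat_lit 1786) (nat_lit 1932) (nat_lit 0) (XT.nd (nat_lit 846) (nat_lit 1176) (nat_lit 0) (XT.nd (nat_lit 376) (nat_lit 1008) (nat_lit 0) (XT.nd (nat_lit 188) (nat_lit 504) (nat_lit 0) (XT.nd (nat_lit 94) (nat_lit 0) (nat_lit 0) (XT.lf (nat_lit 0) (nat_lit 2886350693) (nat_lit 588) (nat_lit 1578877112) (nat_lit 672) (nat_lit 7567865391) (nat_lit 80) (nat_lit 5) (nat_lit 87) (nat_lit 5) (nat_lit 88) (nat_lit 5) (nat_lit 331) (nat_lit 308) (nat_lit 222)) (XT.lf (nat_lit 0) (nat_lit 5633711247) (nat_lit 672) (nat_lit 4734287252) (nat_lit 84) (nat_lit 1878556762) (nat_lit 80) (nat_lit 5) (nat_lit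 88) (nat_lit 5) (nat_lit 81) (nat_lit 5) (nat_lit 332) (nat_lit 308) (nat_lit 221))) (XT.nd (nat_lit 94) (nat_lit 504) (nat_lit 0) (XT.lf (nat_lit 0) (nat_lit 6836942020) (nat_lit 672) (nat_lit 217464615) (nat_lit 84) (nat_lit 5412368291) (nat_lit 80) (nat_lit 5) (nat_lit 88) (nat_lit 5) (nat_lit 81) (nat_lit 5) (nat_lit 333) (nat_lit 308) (nat_lit 220)) (XT.lf (nat_lit 0) (nat_lit 4514556466) (nat_lit 504) (nat_lit 3590607498) (nat_lit 588) (nat_lit 4587890705) (nat_lit 74) (nat_lit 5) (nat_lit 80) (nat_lit 5) (nat_lit 81) (nat_lit 5) (nat_lit 334) (nat_lit 308) (nat_lit 219)))) (XT.nd (nat_lit 188) (nat_lit 504) (nat_lit 0) (XT.nd (nat_lit 94) (nat_lit 504) (nat_lit 0) (XT.lf (nat_lit 0) (nat_lit 9382258801) (nat_lit 504) (nat_lit 15976943) (nat_lit 588) (nat_lit 3528650689) (nat_lit 74) (nat_lit 5) (nat_lit 80) (nat_lit 5) (nat_lit 81) (nat_lit 5) (nat_lit 335) (nat_lit 308) (nat_lit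 218)) (XT.lf (nat_lit 0) (nat_lit 1205017795) (nat_lit 504) (nat_lit 9558509415) (nat_lit 588) (nat_lit 2403529862) (nat_lit 68) (nat_lit 5) (nat_lit 74) (nat_lit 5) (nat_lit 75) (nat_lit 5) (nat_lit 336) (nat_lit 308) (nat_lit 217))) (XT.nd (nat_lit 94) (nat_lit 504) (nat_lit 0) (XT.lf (nat_lit 0) (nat_lit 6161287198) (nat_lit 504) (nat_lit 6031127928) (nat_lit 588) (nat_lit 1221682095) (nat_lit 68) (nat_lit 5) (nat_lit 74) (nat_lit 5) (nat_lit 75) (nat_lit 5) (nat_lit 337) (nat_lit 308) (nat_lit 216)) (XT.nd (nat_lit 94) (nat_lit 504) (nat_lit 0) (XT.lf (nat_lit 0) (nat_lit 11256077276) (nat_lit 504) (nat_lit 2394111029) (nat_lit 588) (nat_lit 19166176) (nat_lit 68) (nat_lit 5) (nat_lit 74) (nat_lit 5) (nat_lit 75) (nat_lit 5) (nat_lit 338) (nat_lit 308) (nat_lit 215)) (XT.lf (nat_lit 0) (nat_lit 1220502633) (nat_lit 504) (nat_lit 11344203334) (nat_lit 84) (nat_lit 1366761215) (nat_lit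 62) (nat_lit 5) (nat_lit 68) (nat_lit 5) (nat_lit 63) (nat_lit 5) (nat_lit 339) (nat_lit 308) (nat_lit 214)))))) (XT.nd (nat_lit 470) (nat_lit 756) (nat_lit 0) (XT.nd (nat_lit 188) (nat_lit 420) (nat_lit 0) (XT.nd (nat_lit 94) (nat_lit 0) (nat_lit 0) (XT.lf (nat_lit 0) (nat_lit 2533267683) (nat_lit 504) (nat_lit 6447321909) (nat_lit 84) (nat_lit 5220096754) (nat_lit 62) (nat_lit 5) (nat_lit 68) (nat_lit 5) (nat_lit 63) (nat_lit 5) (nat_lit 340) (nat_lit 308) (nat_lit 213)) (XT.lf (nat_lit 0) (nat_lit 3872306737) (nat_lit 504) (nat_lit 1413612440) (nat_lit 84) (nat_lit 9192851020) (nat_lit 62) (nat_lit 5) (nat_lit 68) (nat_lit 5) (nat_lit 63) (nat_lit 5) (nat_lit 341) (nat_lit 308) (nat_lit 212))) (XT.nd (nat_lit 94) (nat_lit 0) (nat_lit 0) (XT.lf (nat_lit 0) (nat_lit 3838963576) (nat_lit 420) (nat_lit 1437987336) (nat_lit 504) (nat_lit 9487846454) (nat_lit 57) (nat_lit 5) (nat_lit 62) (nat_lit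 5) (nat_lit 63) (nat_lit 5) (nat_lit 342) (nat_lit 308) (nat_lit 211)) (XT.nd (nat_lit 94) (nat_lit 0) (nat_lit 0) (XT.lf (nat_lit 0) (nat_lit 6751418717) (nat_lit 504) (nat_lit 5815001774) (nat_lit 84) (nat_lit 2492523785) (nat_lit 57) (nat_lit 5) (nat_lit 63) (nat_lit 5) (nat_lit 58) (nat_lit 5) (nat_lit 343) (nat_lit 308) (nat_lit 210)) (XT.lf (nat_lit 0) (nat_lit 8272997937) (nat_lit 504) (nat_lit 574858173) (nat_lit 84) (nat_lit 6514375672) (nat_lit 57) (nat_lit 5) (nat_lit 63) (nat_lit 5) (nat_lit 58) (nat_lit 5) (nat_lit 344) (nat_lit 308) (nat_lit 209))))) (XT.nd (nat_lit 188) (nat_lit 420) (nat_lit 0) (XT.nd (nat_lit 94) (nat_lit 0) (nat_lit 0) (XT.lf (nat_lit 0) (nat_lit 4912726883) (nat_lit 336) (nat_lit 4964849810) (nat_lit 420) (nat_lit 5796297328) (nat_lit 53) (nat_lit 5) (nat_lit 57) (nat_lit 5) (nat_lit 58) (nat_lit 5) (nat_lit 345) (nat_lit 308) (nat_lit 208)) (XT.lf (nat_lit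 0) (nat_lit 10568771844) (nat_lit 336) (nat_lit 956472296) (nat_lit 420) (nat_lit 4470200929) (nat_lit 53) (nat_lit 5) (nat_lit 57) (nat_lit 5) (nat_lit 58) (nat_lit 5) (nat_lit 346) (nat_lit 308) (nat_lit 207))) (XT.nd (nat_lit 94) (nat_lit 0) (nat_lit 0) (XT.lf (nat_lit 0) (nat_lit 28378635) (nat_lit 420) (nat_lit 13215115557) (nat_lit 504) (nat_lit 3082945777) (nat_lit 48) (nat_lit 5) (nat_lit 53) (nat_lit 5) (nat_lit 54) (nat_lit 5) (nat_lit 347) (nat_lit 308) (nat_lit 206)) (XT.nd (nat_lit 94) (nat_lit 0) (nat_lit 0) (XT.lf (nat_lit 0) (nat_lit 5743881824) (nat_lit 420) (nat_lit 9325403701) (nat_lit 504) (nat_lit 1596785647) (nat_lit 48) (nat_lit 5) (nat_lit 53) (nat_lit 5) (nat_lit 54) (nat_lit 5) (nat_lit 348) (nat_lit 308) (nat_lit 205)) (XT.lf (nat_lit 0) (nat_lit 11623263678) (nat_lit 420) (nat_lit 5316723832) (nat_lit 504) (nat_lit 76662043) (nat_lit 48) (nat_lit 5) (nat_lit 53)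 (nat_lit 5) (nat_lit 54) (nat_lit 5) (nat_lit 349) (nat_lit 308) (nat_lit 204))))))) (XT.nd (nat_lit 846) (nat_lit 924) (nat_lit 0) (XT.nd (nat_lit 376) (nat_lit 252) (nat_lit 0) (XT.nd (nat_lit 188) (nat_lit 336) (nat_lit 0) (XT.nd (nat_lit 94) (nat_lit 0) (nat_lit 0) (XT.lf (nat_lit 0) (nat_lit 284565574) (nat_lit 336) (nat_lit 1167303931) (nat_lit 420) (nat_lit 15926090096) (nat_lit 43) (nat_lit 5) (nat_lit 47) (nat_lit 5) (nat_lit 48) (nat_lit 5) (nat_lit 350) (nat_lit 308) (nat_lit 203)) (XT.lf (nat_lit 0) (nat_lit 3102615823) (nat_lit 420) (nat_lit 11541515225) (nat_lit 84) (nat_lit 3103997133) (nat_lit 43) (nat_lit 5) (nat_lit 48) (nat_lit 5) (nat_lit 44) (nat_lit 5) (nat_lit 351) (nat_lit 308) (nat_lit 202))) (XT.nd (nat_lit 94) (nat_lit 336) (nat_lit 0) (XT.lf (nat_lit 0) (nat_lit 4805506133) (nat_lit 420) (nat_lit 5842504539) (nat_lit 84) (nat_lit 7481781012) (nat_lit 43) (nat_lit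 5) (nat_lit 48) (nat_lit 5) (nat_lit 44) (nat_lit 5) (nat_lit 352) (nat_lit 308) (nat_lit 201)) (XT.lf (nat_lit 0) (nat_lit 20952042) (nat_lit 336) (nat_lit 6529803710) (nat_lit 420) (nat_lit 11972902633) (nat_lit 39) (nat_lit 5) (nat_lit 43) (nat_lit 5) (nat_lit 44) (nat_lit 5) (nat_lit 353) (nat_lit 308) (nat_lit 200)))) (XT.nd (nat_lit 188) (nat_lit 252) (nat_lit 0) (XT.nd (nat_lit 94) (nat_lit 0) (nat_lit 0) (XT.lf (nat_lit 0) (nat_lit 6177516256) (nat_lit 336) (nat_lit 2223133173) (nat_lit 420) (nat_lit 10527565586) (nat_lit 39) (nat_lit 5) (nat_lit 43) (nat_lit 5) (nat_lit 44) (nat_lit 5) (nat_lit 354) (nat_lit 308) (nat_lit 199)) (XT.lf (nat_lit 0) (nat_lit 10319734734) (nat_lit 420) (nat_lit 6854852913) (nat_lit 84) (nat_lit 2170403494) (nat_lit 39) (nat_lit 5) (nat_lit 44) (nat_lit 5) (nat_lit 40) (nat_lit 5) (nat_lit 355) (nat_lit 308) (nat_lit 198))) (XT.nd (nat_lit 94) (nat_lit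 252) (nat_lit 0) (XT.lf (nat_lit 0) (nat_lit 12311205818) (nat_lit 420) (nat_lit 811078622) (nat_lit 84) (nat_lit 6652047235) (nat_lit 39) (nat_lit 5) (nat_lit 44) (nat_lit 5) (nat_lit 40) (nat_lit 5) (nat_lit 356) (nat_lit 308) (nat_lit 197)) (XT.nd (nat_lit 94) (nat_lit 0) (nat_lit 0) (XT.lf (nat_lit 0) (nat_lit 5519517272) (nat_lit 252) (nat_lit 8890102207) (nat_lit 336) (nat_lit 5806003612) (nat_lit 36) (nat_lit 5) (nat_lit 39) (nat_lit 5) (nat_lit 40) (nat_lit 5) (nat_lit 357) (nat_lit 308) (nat_lit 196)) (XT.lf (nat_lit 0) (nat_lit 12051933579) (nat_lit 252) (nat_lit 4520240834) (nat_lit 336) (nat_lit 4098489781) (nat_lit 36) (nat_lit 5) (nat_lit 39) (nat_lit 5) (nat_lit 40) (nat_lit 5) (nat_lit 358) (nat_lit 308) (nat_lit 195)))))) (XT.nd (nat_lit 470) (nat_lit 252) (nat_lit 0) (XT.nd (nat_lit 188) (nat_lit 336) (nat_lit 0) (XT.nd (nat_lit 94) (nat_lit 336) (nat_lit 0) (XT.lf (nat_lit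 0) (nat_lit 18775581755) (nat_lit 252) (nat_lit 17093148) (nat_lit 336) (nat_lit 2347458781) (nat_lit 36) (nat_lit 5) (nat_lit 39) (nat_lit 5) (nat_lit 40) (nat_lit 5) (nat_lit 359) (nat_lit 308) (nat_lit 194)) (XT.lf (nat_lit 0) (nat_lit 4109184628) (nat_lit 336) (nat_lit 17050635753) (nat_lit 420) (nat_lit 461963254) (nat_lit 32) (nat_lit 5) (nat_lit 36) (nat_lit 5) (nat_lit 37) (nat_lit 5) (nat_lit 360) (nat_lit 308) (nat_lit 193))) (XT.nd (nat_lit 94) (nat_lit 252) (nat_lit 0) (XT.lf (nat_lit 0) (nat_lit 1468420826) (nat_lit 420) (nat_lit 11310323811) (nat_lit 84) (nat_lit 9338695842) (nat_lit 31) (nat_lit 5) (nat_lit 36) (nat_lit 5) (nat_lit 32) (nat_lit 5) (nat_lit 361) (nat_lit 308) (nat_lit 192)) (XT.nd (nat_lit 94) (nat_lit 252) (nat_lit 0) (XT.lf (nat_lit 0) (nat_lit 3440504209) (nat_lit 420) (nat_lit 4931491981) (nat_lit 84) (nat_lit 14256620557) (nat_lit 31) (nat_lit 5) (nat_lit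 36) (nat_lit 5) (nat_lit 32) (nat_lit 5) (nat_lit 362) (nat_lit 308) (nat_lit 191)) (XT.lf (nat_lit 0) (nat_lit 1668032082) (nat_lit 252) (nat_lit 3813947615) (nat_lit 336) (nat_lit 17673438317) (nat_lit 28) (nat_lit 5) (nat_lit 31) (nat_lit 5) (nat_lit 32) (nat_lit 5) (nat_lit 363) (nat_lit 308) (nat_lit 190))))) (XT.nd (nat_lit 188) (nat_lit 252) (nat_lit 0) (XT.nd (nat_lit 94) (nat_lit 0) (nat_lit 0) (XT.lf (nat_lit 0) (nat_lit 7639356489) (nat_lit 336) (nat_lit 15140390602) (nat_lit 84) (nat_lit 917205426) (nat_lit 28) (nat_lit 5) (nat_lit 32) (nat_lit 5) (nat_lit 29) (nat_lit 5) (nat_lit 364) (nat_lit 308) (nat_lit 189)) (XT.lf (nat_lit 0) (nat_lit 9894696448) (nat_lit 336) (nat_lit 8646133889) (nat_lit 84) (nat_lit 5713513106) (nat_lit 28) (nat_lit 5) (nat_lit 32) (nat_lit 5) (nat_lit 29) (nat_lit 5) (nat_lit 365) (nat_lit 308) (nat_lit 188))) (XT.nd (nat_lit 94) (nat_lit 252) (nat_lit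 0) (XT.lf (nat_lit 0) (nat_lit 12212266955) (nat_lit 336) (nat_lit 1960727633) (nat_lit 84) (nat_lit 10656288632) (nat_lit 28) (nat_lit 5) (nat_lit 32) (nat_lit 5) (nat_lit 29) (nat_lit 5) (nat_lit 366) (nat_lit 308) (nat_lit 187)) (XT.nd (nat_lit 48598) (nat_lit 0) (nat_lit 7728) (XT.lf (nat_lit 0) (nat_lit 5023267306) (nat_lit 252) (nat_lit 9620792356) (nat_lit 336) (nat_lit 10776703316) (nat_lit 25) (nat_lit 5) (nat_lit 28) (nat_lit 5) (nat_lit 29) (nat_lit 5) (nat_lit 367) (nat_lit 308) (nat_lit 186)) (XT.lf (nat_lit 0) (nat_lit 2143646578) (nat_lit 924) (nat_lit 1121376055) (nat_lit 924) (nat_lit 1121376055) (nat_lit 117) (nat_lit 3) (nat_lit 128) (nat_lit 3) (nat_lit 128) (nat_lit 5) (nat_lit 309) (nat_lit 309) (nat_lit 243))))))))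
noncomputable def xc86 : XT := (XT.nd (nat_lit 1692) (nat_lit 3864) (nat_lit 0) (XT.nd (nat_lit 846) (nat_lit 672) (nat_lit 0) (XT.nd (nat_lit 376) (nat_lit 840) (nat_lit 0) (XT.nd (nat_lit 188) (nat_lit 0) (nat_lit 84) (XT.nd (nat_lit 94) (nat_lit 0) (nat_lit 0) (XT.lf (nat_lit 84) (nat_lit 916909664) (nat_lit 0) (nat_lit 4216230313) (nat_lit 924) (nat_lit 3746740105) (nat_lit 118) (nat_lit 5) (nat_lit 117) (nat_lit 3) (nat_lit 128) (nat_lit 5) (nat_lit 310) (nat_lit 309) (nat_lit 242)) (XT.lf (nat_lit 84) (nat_lit 4205638859) (nat_lit 0) (nat_lit 1791776389) (nat_lit 924) (nat_lit 2993299455) (nat_lit 118) (nat_lit 5) (nat_lit 117) (nat_lit 3) (nat_lit 128) (nat_lit 5) (nat_lit 311) (nat_lit 309) (nat_lit 241))) (XT.nd (nat_lit 94) (nat_lit 0) (nat_lit 0) (XT.lf (nat_lit 0) (nat_lit 6865382696) (nat_lit 840) (nat_lit 1532887084) (nat_lit 924) (nat_lit 707616570) (nat_lit 118) (nat_lit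 5) (nat_lit 128) (nat_lit 5) (nat_lit 129) (nat_lit 5) (nat_lit 312) (nat_lit 309) (nat_lit 240)) (XT.lf (nat_lit 84) (nat_lit 1821817839) (nat_lit 0) (nat_lit 5945621148) (nat_lit 924) (nat_lit 1457146170) (nat_lit 119) (nat_lit 5) (nat_lit 118) (nat_lit 5) (nat_lit 129) (nat_lit 5) (nat_lit 313) (nat_lit 309) (nat_lit 239)))) (XT.nd (nat_lit 188) (nat_lit 0) (nat_lit 84) (XT.nd (nat_lit 94) (nat_lit 924) (nat_lit 0) (XT.lf (nat_lit 84) (nat_lit 5296502304) (nat_lit 0) (nat_lit 3388455124) (nat_lit 924) (nat_lit 662567831) (nat_lit 119) (nat_lit 5) (nat_lit 118) (nat_lit 5) (nat_lit 129) (nat_lit 5) (nat_lit 314) (nat_lit 309) (nat_lit 238)) (XT.lf (nat_lit 0) (nat_lit 125393450) (nat_lit 924) (nat_lit 613686058) (nat_lit 1008) (nat_lit 8736183476) (nat_lit 107) (nat_lit 5) (nat_lit 118) (nat_lit 5) (nat_lit 119) (nat_lit 5) (nat_lit 315) (nat_lit 309) (nat_lit 237))) (XT.nd (nat_lit 94)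 (nat_lit 0) (nat_lit 0) (XT.lf (nat_lit 0) (nat_lit 946447232) (nat_lit 924) (nat_lit 6660130608) (nat_lit 1008) (nat_lit 1999636218) (nat_lit 108) (nat_lit 5) (nat_lit 119) (nat_lit 5) (nat_lit 120) (nat_lit 5) (nat_lit 316) (nat_lit 309) (nat_lit 236)) (XT.nd (nat_lit 94) (nat_lit 0) (nat_lit 0) (XT.lf (nat_lit 0) (nat_lit 1780499419) (nat_lit 924) (nat_lit 3136606644) (nat_lit 1008) (nat_lit 4824658705) (nat_lit 108) (nat_lit 5) (nat_lit 119) (nat_lit 5) (nat_lit 120) (nat_lit 5) (nat_lit 317) (nat_lit 309) (nat_lit 235)) (XT.lf (nat_lit 84) (nat_lit 489350522) (nat_lit 0) (nat_lit 2130223004) (nat_lit 1008) (nat_lit 7262739305) (nat_lit 109) (nat_lit 5) (nat_lit 108) (nat_lit 5) (nat_lit 120) (nat_lit 5) (nat_lit 318) (nat_lit 309) (nat_lit 234)))))) (XT.nd (nat_lit 376) (nat_lit 840) (nat_lit 0) (XT.nd (nat_lit 188) (nat_lit 0) (nat_lit 0) (XT.nd (nat_lit 94) (nat_lit 0) (nat_lit 0)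 (XT.lf (nat_lit 0) (nat_lit 3500110666) (nat_lit 924) (nat_lit 5757196594) (nat_lit 1008) (nat_lit 769576563) (nat_lit 109) (nat_lit 5) (nat_lit 120) (nat_lit 5) (nat_lit 121) (nat_lit 5) (nat_lit 319) (nat_lit 309) (nat_lit 233)) (XT.lf (nat_lit 0) (nat_lit 4405489106) (nat_lit 924) (nat_lit 2047477675) (nat_lit 1008) (nat_lit 3723186437) (nat_lit 109) (nat_lit 5) (nat_lit 120) (nat_lit 5) (nat_lit 121) (nat_lit 5) (nat_lit 320) (nat_lit 309) (nat_lit 232))) (XT.nd (nat_lit 94) (nat_lit 0) (nat_lit 0) (XT.lf (nat_lit 84) (nat_lit 1796989707) (nat_lit 0) (nat_lit 3536257332) (nat_lit 1008) (nat_lit 4997115587) (nat_lit 110) (nat_lit 5) (nat_lit 109) (nat_lit 5) (nat_lit 121) (nat_lit 5) (nat_lit 321) (nat_lit 309) (nat_lit 231)) (XT.lf (nat_lit 84) (nat_lit 5787749494) (nat_lit 0) (nat_lit 500419233) (nat_lit 1008) (nat_lit 4201365556) (nat_lit 110) (nat_lit 5) (nat_lit 109) (nat_lit 5)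 (nat_lit 121) (nat_lit 5) (nat_lit 322) (nat_lit 309) (nat_lit 230)))) (XT.nd (nat_lit 188) (nat_lit 924) (nat_lit 0) (XT.nd (nat_lit 94) (nat_lit 0) (nat_lit 0) (XT.lf (nat_lit 0) (nat_lit 7276564889) (nat_lit 924) (nat_lit 794187502) (nat_lit 1008) (nat_lit 2582896123) (nat_lit 110) (nat_lit 5) (nat_lit 121) (nat_lit 5) (nat_lit 122) (nat_lit 5) (nat_lit 323) (nat_lit 309) (nat_lit 229)) (XT.lf (nat_lit 84) (nat_lit 3279314941) (nat_lit 0) (nat_lit 5032390259) (nat_lit 1008) (nat_lit 2510770290) (nat_lit 111) (nat_lit 5) (nat_lit 110) (nat_lit 5) (nat_lit 122) (nat_lit 5) (nat_lit 324) (nat_lit 309) (nat_lit 228))) (XT.nd (nat_lit 94) (nat_lit 924) (nat_lit 0) (XT.lf (nat_lit 84) (nat_lit 7479913023) (nat_lit 0) (nat_lit 1886254989) (nat_lit 1008) (nat_lit 1630884546) (nat_lit 111) (nat_lit 5) (nat_lit 110) (nat_lit 5) (nat_lit 122) (nat_lit 5) (nat_lit 325) (nat_lit 309) (nat_lit 227))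 (XT.nd (nat_lit 94) (nat_lit 84) (nat_lit 0) (XT.lf (nat_lit 0) (nat_lit 616303309) (nat_lit 924) (nat_lit 9836220401) (nat_lit 1008) (nat_lit 724659519) (nat_lit 100) (nat_lit 5) (nat_lit 111) (nat_lit 5) (nat_lit 112) (nat_lit 5) (nat_lit 326) (nat_lit 309) (nat_lit 226)) (XT.lf (nat_lit 0) (nat_lit 241575740) (nat_lit 1008) (nat_lit 6447759896) (nat_lit 84) (nat_lit 4672487577) (nat_lit 99) (nat_lit 5) (nat_lit 111) (nat_lit 5) (nat_lit 100) (nat_lit 5) (nat_lit 327) (nat_lit 309) (nat_lit 225))))))) (XT.nd (nat_lit 846) (nat_lit 1764) (nat_lit 0) (XT.nd (nat_lit 376) (nat_lit 1092) (nat_lit 0) (XT.nd (nat_lit 188) (nat_lit 0) (nat_lit 0) (XT.nd (nat_lit 94) (nat_lit 1008) (nat_lit 0) (XT.lf (nat_lit 0) (nat_lit 1203082176) (nat_lit 1008) (nat_lit 2230739803) (nat_lit 84) (nat_lit 8118850616) (nat_lit 99) (nat_lit 5) (nat_lit 111) (nat_lit 5) (nat_lit 100) (nat_lit 5) (nat_lit 328) (nat_lit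 309) (nat_lit 224)) (XT.lf (nat_lit 0) (nat_lit 2144506808) (nat_lit 1008) (nat_lit 52123251) (nat_lit 1092) (nat_lit 9552842570) (nat_lit 87) (nat_lit 5) (nat_lit 99) (nat_lit 5) (nat_lit 100) (nat_lit 5) (nat_lit 329) (nat_lit 309) (nat_lit 223))) (XT.nd (nat_lit 94) (nat_lit 0) (nat_lit 0) (XT.lf (nat_lit 0) (nat_lit 3259979834) (nat_lit 1092) (nat_lit 5299540278) (nat_lit 84) (nat_lit 3391744776) (nat_lit 87) (nat_lit 5) (nat_lit 100) (nat_lit 5) (nat_lit 88) (nat_lit 5) (nat_lit 330) (nat_lit 309) (nat_lit 222)) (XT.lf (nat_lit 0) (nat_lit 4338795183) (nat_lit 1092) (nat_lit 876948125) (nat_lit 84) (nat_lit 6944209306) (nat_lit 87) (nat_lit 5) (nat_lit 100) (nat_lit 5) (nat_lit 88) (nat_lit 5) (nat_lit 331) (nat_lit 309) (nat_lit 221)))) (XT.nd (nat_lit 188) (nat_lit 504) (nat_lit 0) (XT.nd (nat_lit 94) (nat_lit 0) (nat_lit 0) (XT.lf (nat_lit 0) (nat_lit 3742860319) (nat_lit 588) (nat_lit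 1727833925) (nat_lit 672) (nat_lit 6903901095) (nat_lit 80) (nat_lit 5) (nat_lit 87) (nat_lit 5) (nat_lit 88) (nat_lit 5) (nat_lit 332) (nat_lit 309) (nat_lit 220)) (XT.lf (nat_lit 0) (nat_lit 6648368177) (nat_lit 672) (nat_lit 4105542273) (nat_lit 84) (nat_lit 1841741962) (nat_lit 80) (nat_lit 5) (nat_lit 88) (nat_lit 5) (nat_lit 81) (nat_lit 5) (nat_lit 333) (nat_lit 309) (nat_lit 219))) (XT.nd (nat_lit 94) (nat_lit 0) (nat_lit 0) (XT.lf (nat_lit 0) (nat_lit 538840408) (nat_lit 504) (nat_lit 7330146669) (nat_lit 588) (nat_lit 4954464559) (nat_lit 74) (nat_lit 5) (nat_lit 80) (nat_lit 5) (nat_lit 81) (nat_lit 5) (nat_lit 334) (nat_lit 309) (nat_lit 218)) (XT.nd (nat_lit 94) (nat_lit 0) (nat_lit 0) (XT.lf (nat_lit 0) (nat_lit 5399082463) (nat_lit 504) (nat_lit 3754984397) (nat_lit 588) (nat_lit 3903506763) (nat_lit 74) (nat_lit 5) (nat_lit 80) (nat_lit 5) (nat_lit 81) (nat_lit 5) (nat_lit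 335) (nat_lit 309) (nat_lit 217)) (XT.lf (nat_lit 0) (nat_lit 10395295775) (nat_lit 504) (nat_lit 67944650) (nat_lit 588) (nat_lit 2836284686) (nat_lit 74) (nat_lit 5) (nat_lit 80) (nat_lit 5) (nat_lit 81) (nat_lit 5) (nat_lit 336) (nat_lit 309) (nat_lit 216)))))) (XT.nd (nat_lit 470) (nat_lit 756) (nat_lit 0) (XT.nd (nat_lit 188) (nat_lit 504) (nat_lit 0) (XT.nd (nat_lit 94) (nat_lit 0) (nat_lit 0) (XT.lf (nat_lit 0) (nat_lit 1985564614) (nat_lit 504) (nat_lit 9868906293) (nat_lit 588) (nat_lit 1693301688) (nat_lit 68) (nat_lit 5) (nat_lit 74) (nat_lit 5) (nat_lit 75) (nat_lit 5) (nat_lit 337) (nat_lit 309) (nat_lit 215)) (XT.lf (nat_lit 0) (nat_lit 7073132171) (nat_lit 504) (nat_lit 6231752531) (nat_lit 588) (nat_lit 498412048) (nat_lit 68) (nat_lit 5) (nat_lit 74) (nat_lit 5) (nat_lit 75) (nat_lit 5) (nat_lit 338) (nat_lit 309) (nat_lit 214))) (XT.nd (nat_lit 94) (nat_lit 420) (nat_lit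 0) (XT.lf (nat_lit 0) (nat_lit 704019828) (nat_lit 588) (nat_lit 1770209040) (nat_lit 84) (nat_lit 11592818095) (nat_lit 67) (nat_lit 5) (nat_lit 74) (nat_lit 5) (nat_lit 68) (nat_lit 5) (nat_lit 339) (nat_lit 309) (nat_lit 213)) (XT.nd (nat_lit 94) (nat_lit 0) (nat_lit 0) (XT.lf (nat_lit 0) (nat_lit 1967034353) (nat_lit 504) (nat_lit 10959974682) (nat_lit 84) (nat_lit 1410834720) (nat_lit 62) (nat_lit 5) (nat_lit 68) (nat_lit 5) (nat_lit 63) (nat_lit 5) (nat_lit 340) (nat_lit 309) (nat_lit 212)) (XT.lf (nat_lit 0) (nat_lit 3299186118) (nat_lit 504) (nat_lit 5933416865) (nat_lit 84) (nat_lit 5383572428) (nat_lit 62) (nat_lit 5) (nat_lit 68) (nat_lit 5) (nat_lit 63) (nat_lit 5) (nat_lit 341) (nat_lit 309) (nat_lit 211))))) (XT.nd (nat_lit 188) (nat_lit 336) (nat_lit 0) (XT.nd (nat_lit 94) (nat_lit 420) (nat_lit 0) (XT.lf (nat_lit 0) (nat_lit 4659067098) (nat_lit 504) (nat_lit 765124025) (nat_lit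 84) (nat_lit 9479432383) (nat_lit 62) (nat_lit 5) (nat_lit 68) (nat_lit 5) (nat_lit 63) (nat_lit 5) (nat_lit 342) (nat_lit 309) (nat_lit 210)) (XT.lf (nat_lit 0) (nat_lit 4643272827) (nat_lit 420) (nat_lit 1450733858) (nat_lit 504) (nat_lit 9105021372) (nat_lit 57) (nat_lit 5) (nat_lit 62) (nat_lit 5) (nat_lit 63) (nat_lit 5) (nat_lit 343) (nat_lit 309) (nat_lit 209))) (XT.nd (nat_lit 94) (nat_lit 336) (nat_lit 0) (XT.lf (nat_lit 0) (nat_lit 7594840789) (nat_lit 504) (nat_lit 5308105200) (nat_lit 84) (nat_lit 2600043972) (nat_lit 57) (nat_lit 5) (nat_lit 63) (nat_lit 5) (nat_lit 58) (nat_lit 5) (nat_lit 344) (nat_lit 309) (nat_lit 208)) (XT.nd (nat_lit 94) (nat_lit 0) (nat_lit 0) (XT.lf (nat_lit 0) (nat_lit 75339265) (nat_lit 336) (nat_lit 9069930177) (nat_lit 420) (nat_lit 6671071765) (nat_lit 53) (nat_lit 5) (nat_lit 57) (nat_lit 5) (nat_lit 58) (nat_lit 5) (nat_lit 345) (nat_lit 309)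 (nat_lit 207)) (XT.lf (nat_lit 0) (nat_lit 5724773826) (nat_lit 336) (nat_lit 5062120169) (nat_lit 420) (nat_lit 5351235036) (nat_lit 53) (nat_lit 5) (nat_lit 57) (nat_lit 5) (nat_lit 58) (nat_lit 5) (nat_lit 346) (nat_lit 309) (nat_lit 206))))))))
noncomputable def xc87 : XT := (XT.nd (nat_lit 1786) (nat_lit 0) (nat_lit 0) (XT.nd (nat_lit 846) (nat_lit 924) (nat_lit 0) (XT.nd (nat_lit 376) (nat_lit 672) (nat_lit 0) (XT.nd (nat_lit 188) (nat_lit 84) (nat_lit 0) (XT.nd (nat_lit 94) (nat_lit 420) (nat_lit 0) (XT.lf (nat_lit 0) (nat_lit 11536318815) (nat_lit 336) (nat_lit 931185998) (nat_lit 420) (nat_lit 4002814492) (nat_lit 53) (nat_lit 5) (nat_lit 57) (nat_lit 5) (nat_lit 58) (nat_lit 5) (nat_lit 347) (nat_lit 309) (nat_lit 205)) (XT.lf (nat_lit 0) (nat_lit 682927500) (nat_lit 420) (nat_lit 13545517129) (nat_lit 504) (nat_lit 2583543973) (nat_lit 48) (nat_lit 5) (nat_lit 53) (nat_lit 5)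 (nat_lit 54) (nat_lit 5) (nat_lit 348) (nat_lit 309) (nat_lit 204))) (XT.nd (nat_lit 94) (nat_lit 84) (nat_lit 0) (XT.lf (nat_lit 0) (nat_lit 6555956833) (nat_lit 420) (nat_lit 9537607597) (nat_lit 504) (nat_lit 1069202468) (nat_lit 48) (nat_lit 5) (nat_lit 53) (nat_lit 5) (nat_lit 54) (nat_lit 5) (nat_lit 349) (nat_lit 309) (nat_lit 203)) (XT.lf (nat_lit 0) (nat_lit 471008381) (nat_lit 504) (nat_lit 4931045638) (nat_lit 84) (nat_lit 12122611295) (nat_lit 47) (nat_lit 5) (nat_lit 53) (nat_lit 5) (nat_lit 48) (nat_lit 5) (nat_lit 350) (nat_lit 309) (nat_lit 202)))) (XT.nd (nat_lit 188) (nat_lit 336) (nat_lit 0) (XT.nd (nat_lit 94) (nat_lit 0) (nat_lit 0) (XT.lf (nat_lit 0) (nat_lit 915772693) (nat_lit 336) (nat_lit 1119242533) (nat_lit 420) (nat_lit 15862532108) (nat_lit 43) (nat_lit 5) (nat_lit 47) (nat_lit 5) (nat_lit 48) (nat_lit 5) (nat_lit 351) (nat_lit 309) (nat_lit 201)) (XT.lf (nat_lit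 0) (nat_lit 3721564630) (nat_lit 420) (nat_lit 11277887210) (nat_lit 84) (nat_lit 3280289341) (nat_lit 43) (nat_lit 5) (nat_lit 48) (nat_lit 5) (nat_lit 44) (nat_lit 5) (nat_lit 352) (nat_lit 309) (nat_lit 200))) (XT.nd (nat_lit 94) (nat_lit 336) (nat_lit 0) (XT.lf (nat_lit 0) (nat_lit 5461526014) (nat_lit 420) (nat_lit 5420891833) (nat_lit 84) (nat_lit 7791377035) (nat_lit 43) (nat_lit 5) (nat_lit 48) (nat_lit 5) (nat_lit 44) (nat_lit 5) (nat_lit 353) (nat_lit 309) (nat_lit 199)) (XT.nd (nat_lit 94) (nat_lit 0) (nat_lit 0) (XT.lf (nat_lit 0) (nat_lit 618229798) (nat_lit 336) (nat_lit 6633321297) (nat_lit 420) (nat_lit 11828678712) (nat_lit 39) (nat_lit 5) (nat_lit 43) (nat_lit 5) (nat_lit 44) (nat_lit 5) (nat_lit 354) (nat_lit 309) (nat_lit 198)) (XT.lf (nat_lit 0) (nat_lit 6947708148) (nat_lit 336) (nat_lit 2196117879) (nat_lit 420) (nat_lit 10354032726) (nat_lit 39) (nat_lit 5) (nat_lit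 43) (nat_lit 5) (nat_lit 44) (nat_lit 5) (nat_lit 355) (nat_lit 309) (nat_lit 197)))))) (XT.nd (nat_lit 470) (nat_lit 672) (nat_lit 0) (XT.nd (nat_lit 188) (nat_lit 252) (nat_lit 0) (XT.nd (nat_lit 94) (nat_lit 0) (nat_lit 0) (XT.lf (nat_lit 0) (nat_lit 11108810552) (nat_lit 420) (nat_lit 6490371632) (nat_lit 84) (nat_lit 2328859230) (nat_lit 39) (nat_lit 5) (nat_lit 44) (nat_lit 5) (nat_lit 40) (nat_lit 5) (nat_lit 356) (nat_lit 309) (nat_lit 196)) (XT.lf (nat_lit 0) (nat_lit 13147910464) (nat_lit 420) (nat_lit 276588964) (nat_lit 84) (nat_lit 6946692540) (nat_lit 39) (nat_lit 5) (nat_lit 44) (nat_lit 5) (nat_lit 40) (nat_lit 5) (nat_lit 357) (nat_lit 309) (nat_lit 195))) (XT.nd (nat_lit 94) (nat_lit 0) (nat_lit 0) (XT.lf (nat_lit 0) (nat_lit 6244589620) (nat_lit 252) (nat_lit 9058598140) (nat_lit 336) (nat_lit 5523290717) (nat_lit 36) (nat_lit 5) (nat_lit 39) (nat_lit 5) (nat_lit 40) (nat_lit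 5) (nat_lit 358) (nat_lit 309) (nat_lit 194)) (XT.nd (nat_lit 94) (nat_lit 0) (nat_lit 0) (XT.lf (nat_lit 0) (nat_lit 12962854201) (nat_lit 252) (nat_lit 4556491252) (nat_lit 336) (nat_lit 3776756343) (nat_lit 36) (nat_lit 5) (nat_lit 39) (nat_lit 5) (nat_lit 40) (nat_lit 5) (nat_lit 359) (nat_lit 309) (nat_lit 193)) (XT.lf (nat_lit 0) (nat_lit 19796473688) (nat_lit 336) (nat_lit 1902631470) (nat_lit 84) (nat_lit 81455750) (nat_lit 36) (nat_lit 5) (nat_lit 40) (nat_lit 5) (nat_lit 37) (nat_lit 5) (nat_lit 360) (nat_lit 309) (nat_lit 192))))) (XT.nd (nat_lit 188) (nat_lit 252) (nat_lit 0) (XT.nd (nat_lit 94) (nat_lit 84) (nat_lit 0) (XT.lf (nat_lit 0) (nat_lit 4766199230) (nat_lit 336) (nat_lit 17463559631) (nat_lit 420) (nat_lit 47663537) (nat_lit 32) (nat_lit 5) (nat_lit 36) (nat_lit 5) (nat_lit 37) (nat_lit 5) (nat_lit 361) (nat_lit 309) (nat_lit 191)) (XT.lf (nat_lit 0) (nat_lit 1921298640)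 (nat_lit 420) (nat_lit 11137166507) (nat_lit 84) (nat_lit 9730291698) (nat_lit 31) (nat_lit 5) (nat_lit 36) (nat_lit 5) (nat_lit 32) (nat_lit 5) (nat_lit 362) (nat_lit 309) (nat_lit 190))) (XT.nd (nat_lit 94) (nat_lit 252) (nat_lit 0) (XT.lf (nat_lit 0) (nat_lit 3942268248) (nat_lit 420) (nat_lit 4576339773) (nat_lit 84) (nat_lit 14797602259) (nat_lit 31) (nat_lit 5) (nat_lit 36) (nat_lit 5) (nat_lit 32) (nat_lit 5) (nat_lit 363) (nat_lit 309) (nat_lit 189)) (XT.nd (nat_lit 94) (nat_lit 0) (nat_lit 0) (XT.lf (nat_lit 0) (nat_lit 2222626205) (nat_lit 252) (nat_lit 3817511876) (nat_lit 336) (nat_lit 17819467407) (nat_lit 28) (nat_lit 5) (nat_lit 31) (nat_lit 5) (nat_lit 32) (nat_lit 5) (nat_lit 364) (nat_lit 309) (nat_lit 188)) (XT.lf (nat_lit 0) (nat_lit 8253824004) (nat_lit 336) (nat_lit 15109860954) (nat_lit 84) (nat_lit 1054618239) (nat_lit 28) (nat_lit 5) (nat_lit 32) (nat_lit 5) (nat_lit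 29) (nat_lit 5) (nat_lit 365) (nat_lit 309) (nat_lit 187))))))) (XT.nd (nat_lit 49444) (nat_lit 0) (nat_lit 6720) (XT.nd (nat_lit 48974) (nat_lit 0) (nat_lit 6636) (XT.nd (nat_lit 48786) (nat_lit 0) (nat_lit 7476) (XT.nd (nat_lit 94) (nat_lit 0) (nat_lit 0) (XT.lf (nat_lit 0) (nat_lit 10567724437) (nat_lit 336) (nat_lit 8429312675) (nat_lit 84) (nat_lit 5996334676) (nat_lit 28) (nat_lit 5) (nat_lit 32) (nat_lit 5) (nat_lit 29) (nat_lit 5) (nat_lit 366) (nat_lit 309) (nat_lit 186)) (XT.lf (nat_lit 0) (nat_lit 12946125988) (nat_lit 336) (nat_lit 1551237285) (nat_lit 84) (nat_lit 11089157986) (nat_lit 28) (nat_lit 5) (nat_lit 32) (nat_lit 5) (nat_lit 29) (nat_lit 5) (nat_lit 367) (nat_lit 309) (nat_lit 185))) (XT.nd (nat_lit 94) (nat_lit 0) (nat_lit 0) (XT.lf (nat_lit 0) (nat_lit 2972756091) (nat_lit 924) (nat_lit 760645562) (nat_lit 924) (nat_lit 760645562) (nat_lit 117) (nat_lit 3) (nat_lit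 128) (nat_lit 3) (nat_lit 128) (nat_lit 5) (nat_lit 310) (nat_lit 310) (nat_lit 241)) (XT.lf (nat_lit 84) (nat_lit 1728312139) (nat_lit 0) (nat_lit 5051172406) (nat_lit 924) (nat_lit 2320475006) (nat_lit 118) (nat_lit 5) (nat_lit 117) (nat_lit 3) (nat_lit 128) (nat_lit 5) (nat_lit 311) (nat_lit 310) (nat_lit 240)))) (XT.nd (nat_lit 188) (nat_lit 840) (nat_lit 0) (XT.nd (nat_lit 94) (nat_lit 0) (nat_lit 84) (XT.lf (nat_lit 84) (nat_lit 5095449430) (nat_lit 0) (nat_lit 2530385427) (nat_lit 924) (nat_lit 1590054841) (nat_lit 118) (nat_lit 5) (nat_lit 117) (nat_lit 3) (nat_lit 128) (nat_lit 5) (nat_lit 312) (nat_lit 310) (nat_lit 239)) (XT.lf (nat_lit 0) (nat_lit 8470764029) (nat_lit 840) (nat_lit 785305705) (nat_lit 924) (nat_lit 80375425) (nat_lit 118) (nat_lit 5) (nat_lit 128) (nat_lit 5) (nat_lit 129) (nat_lit 5) (nat_lit 313) (nat_lit 310) (nat_lit 238))) (XT.nd (nat_lit 94) (nat_lit 924)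 (nat_lit 0) (XT.lf (nat_lit 84) (nat_lit 2665345389) (nat_lit 0) (nat_lit 6701375139) (nat_lit 924) (nat_lit 93416285) (nat_lit 119) (nat_lit 5) (nat_lit 118) (nat_lit 5) (nat_lit 129) (nat_lit 5) (nat_lit 314) (nat_lit 310) (nat_lit 237)) (XT.nd (nat_lit 94) (nat_lit 0) (nat_lit 0) (XT.lf (nat_lit 0) (nat_lit 669661664) (nat_lit 924) (nat_lit 3371103419) (nat_lit 1008) (nat_lit 5547428540) (nat_lit 107) (nat_lit 5) (nat_lit 118) (nat_lit 5) (nat_lit 119) (nat_lit 5) (nat_lit 315) (nat_lit 310) (nat_lit 236)) (XT.lf (nat_lit 84) (nat_lit 144918219) (nat_lit 0) (nat_lit 1284544948) (nat_lit 1008) (nat_lit 8291656211) (nat_lit 108) (nat_lit 5) (nat_lit 107) (nat_lit 5) (nat_lit 119) (nat_lit 5) (nat_lit 316) (nat_lit 310) (nat_lit 235)))))) (XT.nd (nat_lit 470) (nat_lit 0) (nat_lit 84) (XT.nd (nat_lit 188) (nat_lit 0) (nat_lit 0) (XT.nd (nat_lit 94) (nat_lit 0) (nat_lit 0) (XT.lf (nat_lit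 0) (nat_lit 2238124496) (nat_lit 924) (nat_lit 6048134923) (nat_lit 1008) (nat_lit 1571271363) (nat_lit 108) (nat_lit 5) (nat_lit 119) (nat_lit 5) (nat_lit 120) (nat_lit 5) (nat_lit 317) (nat_lit 310) (nat_lit 234)) (XT.lf (nat_lit 0) (nat_lit 3060076472) (nat_lit 924) (nat_lit 2439991078) (nat_lit 1008) (nat_lit 4498613447) (nat_lit 108) (nat_lit 5) (nat_lit 119) (nat_lit 5) (nat_lit 120) (nat_lit 5) (nat_lit 318) (nat_lit 310) (nat_lit 233))) (XT.nd (nat_lit 94) (nat_lit 0) (nat_lit 84) (XT.lf (nat_lit 84) (nat_lit 1290333738) (nat_lit 0) (nat_lit 2605808928) (nat_lit 1008) (nat_lit 6248557143) (nat_lit 109) (nat_lit 5) (nat_lit 108) (nat_lit 5) (nat_lit 120) (nat_lit 5) (nat_lit 319) (nat_lit 310) (nat_lit 232)) (XT.nd (nat_lit 94) (nat_lit 0) (nat_lit 0) (XT.lf (nat_lit 0) (nat_lit 4764093808) (nat_lit 924) (nat_lit 5126900681) (nat_lit 1008) (nat_lit 404202098) (nat_lit 109) (nat_lit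 5) (nat_lit 120) (nat_lit 5) (nat_lit 121) (nat_lit 5) (nat_lit 320) (nat_lit 310) (nat_lit 231)) (XT.lf (nat_lit 0) (nat_lit 5662796137) (nat_lit 924) (nat_lit 1326498457) (nat_lit 1008) (nat_lit 3461077245) (nat_lit 109) (nat_lit 5) (nat_lit 120) (nat_lit 5) (nat_lit 121) (nat_lit 5) (nat_lit 321) (nat_lit 310) (nat_lit 230))))) (XT.nd (nat_lit 188) (nat_lit 0) (nat_lit 84) (XT.nd (nat_lit 94) (nat_lit 0) (nat_lit 0) (XT.lf (nat_lit 84) (nat_lit 2629205552) (nat_lit 0) (nat_lit 3964113882) (nat_lit 1008) (nat_lit 4017043574) (nat_lit 110) (nat_lit 5) (nat_lit 109) (nat_lit 5) (nat_lit 121) (nat_lit 5) (nat_lit 322) (nat_lit 310) (nat_lit 229)) (XT.lf (nat_lit 84) (nat_lit 6720330896) (nat_lit 0) (nat_lit 824596219) (nat_lit 1008) (nat_lit 3230751829) (nat_lit 110) (nat_lit 5) (nat_lit 109) (nat_lit 5) (nat_lit 121) (nat_lit 5) (nat_lit 323) (nat_lit 310) (nat_lit 228))) (XT.nd (nat_lit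 94) (nat_lit 0) (nat_lit 0) (XT.lf (nat_lit 0) (nat_lit 8529066793) (nat_lit 924) (nat_lit 47464875) (nat_lit 1008) (nat_lit 2369614693) (nat_lit 110) (nat_lit 5) (nat_lit 121) (nat_lit 5) (nat_lit 122) (nat_lit 5) (nat_lit 324) (nat_lit 310) (nat_lit 227)) (XT.nd (nat_lit 94) (nat_lit 0) (nat_lit 0) (XT.lf (nat_lit 84) (nat_lit 4144506994) (nat_lit 0) (nat_lit 5428486229) (nat_lit 1008) (nat_lit 1548114467) (nat_lit 111) (nat_lit 5) (nat_lit 110) (nat_lit 5) (nat_lit 122) (nat_lit 5) (nat_lit 325) (nat_lit 310) (nat_lit 226)) (XT.lf (nat_lit 84) (nat_lit 8452365778) (nat_lit 0) (nat_lit 2177601708) (nat_lit 1008) (nat_lit 672237601) (nat_lit 111) (nat_lit 5) (nat_lit 110) (nat_lit 5) (nat_lit 122) (nat_lit 5) (nat_lit 326) (nat_lit 310) (nat_lit 225))))))))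
noncomputable def xc88 : XT := (XT.nd (nat_lit 1692) (nat_lit 2184) (nat_lit 0) (XT.nd (nat_lit 846) (nat_lit 1428) (nat_lit 0) (XT.nd (nat_lit 376) (nat_lit 1092) (nat_lit 0) (XT.nd (nat_lit 188) (nat_lit 1008) (nat_lit 0) (XT.nd (nat_lit 94) (nat_lit 0) (nat_lit 0) (XT.lf (nat_lit 0) (nat_lit 232527430) (nat_lit 1008) (nat_lit 10085014142) (nat_lit 84) (nat_lit 1171212803) (nat_lit 99) (nat_lit 5) (nat_lit 111) (nat_lit 5) (nat_lit 100) (nat_lit 5) (nat_lit 327) (nat_lit 310) (nat_lit 224)) (XT.lf (nat_lit 0) (nat_lit 1184659653) (nat_lit 1008) (nat_lit 5875728237) (nat_lit 84) (nat_lit 4619557475) (nat_lit 99) (nat_lit 5) (nat_lit 111) (nat_lit 5) (nat_lit 100) (nat_lit 5) (nat_lit 328) (nat_lit 310) (nat_lit 223))) (XT.nd (nat_lit 94) (nat_lit 1008) (nat_lit 0) (XT.lf (nat_lit 0) (nat_lit 2147841414) (nat_lit 1008) (nat_lit 1551190297) (nat_lit 84) (nat_lit 8178704513) (nat_lit 99) (nat_lit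 5) (nat_lit 111) (nat_lit 5) (nat_lit 100) (nat_lit 5) (nat_lit 329) (nat_lit 310) (nat_lit 222)) (XT.lf (nat_lit 0) (nat_lit 2952109019) (nat_lit 1008) (nat_lit 200146766) (nat_lit 1092) (nat_lit 8929147683) (nat_lit 87) (nat_lit 5) (nat_lit 99) (nat_lit 5) (nat_lit 100) (nat_lit 5) (nat_lit 330) (nat_lit 310) (nat_lit 221)))) (XT.nd (nat_lit 188) (nat_lit 1092) (nat_lit 0) (XT.nd (nat_lit 94) (nat_lit 0) (nat_lit 0) (XT.lf (nat_lit 0) (nat_lit 4220474526) (nat_lit 1092) (nat_lit 4712247272) (nat_lit 84) (nat_lit 3357744436) (nat_lit 87) (nat_lit 5) (nat_lit 100) (nat_lit 5) (nat_lit 88) (nat_lit 5) (nat_lit 331) (nat_lit 310) (nat_lit 220)) (XT.lf (nat_lit 0) (nat_lit 5306891740) (nat_lit 1092) (nat_lit 175153154) (nat_lit 84) (nat_lit 7024519147) (nat_lit 87) (nat_lit 5) (nat_lit 100) (nat_lit 5) (nat_lit 88) (nat_lit 5) (nat_lit 332) (nat_lit 310) (nat_lit 219))) (XT.nd (nat_lit 94)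 (nat_lit 504) (nat_lit 0) (XT.lf (nat_lit 0) (nat_lit 4580489081) (nat_lit 588) (nat_lit 1875484540) (nat_lit 672) (nat_lit 6272577634) (nat_lit 80) (nat_lit 5) (nat_lit 87) (nat_lit 5) (nat_lit 88) (nat_lit 5) (nat_lit 333) (nat_lit 310) (nat_lit 218)) (XT.nd (nat_lit 94) (nat_lit 504) (nat_lit 0) (XT.lf (nat_lit 0) (nat_lit 7644724130) (nat_lit 672) (nat_lit 3503240859) (nat_lit 84) (nat_lit 1809415882) (nat_lit 80) (nat_lit 5) (nat_lit 88) (nat_lit 5) (nat_lit 81) (nat_lit 5) (nat_lit 334) (nat_lit 310) (nat_lit 217)) (XT.lf (nat_lit 0) (nat_lit 1277731412) (nat_lit 504) (nat_lit 7608853638) (nat_lit 588) (nat_lit 4306298786) (nat_lit 74) (nat_lit 5) (nat_lit 80) (nat_lit 5) (nat_lit 81) (nat_lit 5) (nat_lit 335) (nat_lit 310) (nat_lit 216)))))) (XT.nd (nat_lit 376) (nat_lit 840) (nat_lit 0) (XT.nd (nat_lit 188) (nat_lit 588) (nat_lit 0) (XT.nd (nat_lit 94) (nat_lit 0) (nat_lit 0) (XT.lf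 (nat_lit 0) (nat_lit 6266926328) (nat_lit 504) (nat_lit 3921313668) (nat_lit 588) (nat_lit 3246868359) (nat_lit 74) (nat_lit 5) (nat_lit 80) (nat_lit 5) (nat_lit 81) (nat_lit 5) (nat_lit 336) (nat_lit 310) (nat_lit 215)) (XT.lf (nat_lit 0) (nat_lit 11396960525) (nat_lit 504) (nat_lit 118474556) (nat_lit 588) (nat_lit 2169944610) (nat_lit 74) (nat_lit 5) (nat_lit 80) (nat_lit 5) (nat_lit 81) (nat_lit 5) (nat_lit 337) (nat_lit 310) (nat_lit 214))) (XT.nd (nat_lit 94) (nat_lit 84) (nat_lit 0) (XT.lf (nat_lit 0) (nat_lit 2746287892) (nat_lit 504) (nat_lit 10188091308) (nat_lit 588) (nat_lit 1007537793) (nat_lit 68) (nat_lit 5) (nat_lit 74) (nat_lit 5) (nat_lit 75) (nat_lit 5) (nat_lit 338) (nat_lit 310) (nat_lit 213)) (XT.lf (nat_lit 0) (nat_lit 198121823) (nat_lit 588) (nat_lit 6237597604) (nat_lit 84) (nat_lit 7770357641) (nat_lit 67) (nat_lit 5) (nat_lit 74) (nat_lit 5) (nat_lit 68) (nat_lit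 5) (nat_lit 339) (nat_lit 310) (nat_lit 212)))) (XT.nd (nat_lit 188) (nat_lit 420) (nat_lit 0) (XT.nd (nat_lit 94) (nat_lit 420) (nat_lit 0) (XT.lf (nat_lit 0) (nat_lit 1406379316) (nat_lit 588) (nat_lit 1149911423) (nat_lit 84) (nat_lit 11922314888) (nat_lit 67) (nat_lit 5) (nat_lit 74) (nat_lit 5) (nat_lit 68) (nat_lit 5) (nat_lit 340) (nat_lit 310) (nat_lit 211)) (XT.lf (nat_lit 0) (nat_lit 2694731270) (nat_lit 504) (nat_lit 10607423496) (nat_lit 84) (nat_lit 1456173579) (nat_lit 62) (nat_lit 5) (nat_lit 68) (nat_lit 5) (nat_lit 63) (nat_lit 5) (nat_lit 341) (nat_lit 310) (nat_lit 210))) (XT.nd (nat_lit 94) (nat_lit 420) (nat_lit 0) (XT.lf (nat_lit 0) (nat_lit 4048132908) (nat_lit 504) (nat_lit 5445858703) (nat_lit 84) (nat_lit 5552017956) (nat_lit 62) (nat_lit 5) (nat_lit 68) (nat_lit 5) (nat_lit 63) (nat_lit 5) (nat_lit 342) (nat_lit 310) (nat_lit 209)) (XT.nd (nat_lit 94) (nat_lit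 420) (nat_lit 0) (XT.lf (nat_lit 0) (nat_lit 5430726132) (nat_lit 504) (nat_lit 137539199) (nat_lit 84) (nat_lit 9774802822) (nat_lit 62) (nat_lit 5) (nat_lit 68) (nat_lit 5) (nat_lit 63) (nat_lit 5) (nat_lit 343) (nat_lit 310) (nat_lit 208)) (XT.lf (nat_lit 0) (nat_lit 5431924091) (nat_lit 420) (nat_lit 1465760932) (nat_lit 504) (nat_lit 8750425521) (nat_lit 57) (nat_lit 5) (nat_lit 62) (nat_lit 5) (nat_lit 63) (nat_lit 5) (nat_lit 344) (nat_lit 310) (nat_lit 207))))))) (XT.nd (nat_lit 846) (nat_lit 1008) (nat_lit 0) (XT.nd (nat_lit 376) (nat_lit 840) (nat_lit 0) (XT.nd (nat_lit 188) (nat_lit 0) (nat_lit 0) (XT.nd (nat_lit 94) (nat_lit 336) (nat_lit 0) (XT.lf (nat_lit 0) (nat_lit 8426848452) (nat_lit 504) (nat_lit 4826196592) (nat_lit 84) (nat_lit 2709105410) (nat_lit 57) (nat_lit 5) (nat_lit 63) (nat_lit 5) (nat_lit 58) (nat_lit 5) (nat_lit 345) (nat_lit 310) (nat_lit 206)) (XT.lf (nat_lit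 0) (nat_lit 717589826) (nat_lit 336) (nat_lit 9296161073) (nat_lit 420) (nat_lit 6271912323) (nat_lit 53) (nat_lit 5) (nat_lit 57) (nat_lit 5) (nat_lit 58) (nat_lit 5) (nat_lit 346) (nat_lit 310) (nat_lit 205))) (XT.nd (nat_lit 94) (nat_lit 0) (nat_lit 0) (XT.lf (nat_lit 0) (nat_lit 6522915959) (nat_lit 336) (nat_lit 5165760793) (nat_lit 420) (nat_lit 4929380677) (nat_lit 53) (nat_lit 5) (nat_lit 57) (nat_lit 5) (nat_lit 58) (nat_lit 5) (nat_lit 347) (nat_lit 310) (nat_lit 204)) (XT.lf (nat_lit 0) (nat_lit 12495956478) (nat_lit 336) (nat_lit 908369833) (nat_lit 420) (nat_lit 3556831281) (nat_lit 53) (nat_lit 5) (nat_lit 57) (nat_lit 5) (nat_lit 58) (nat_lit 5) (nat_lit 348) (nat_lit 310) (nat_lit 203)))) (XT.nd (nat_lit 188) (nat_lit 420) (nat_lit 0) (XT.nd (nat_lit 94) (nat_lit 0) (nat_lit 0) (XT.lf (nat_lit 0) (nat_lit 1319049438) (nat_lit 420) (nat_lit 13890856270) (nat_lit 504) (nat_lit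 2103901990) (nat_lit 48) (nat_lit 5) (nat_lit 53) (nat_lit 5) (nat_lit 54) (nat_lit 5) (nat_lit 349) (nat_lit 310) (nat_lit 202)) (XT.lf (nat_lit 0) (nat_lit 7355652392) (nat_lit 420) (nat_lit 9760943762) (nat_lit 504) (nat_lit 559445857) (nat_lit 48) (nat_lit 5) (nat_lit 53) (nat_lit 5) (nat_lit 54) (nat_lit 5) (nat_lit 350) (nat_lit 310) (nat_lit 201))) (XT.nd (nat_lit 94) (nat_lit 336) (nat_lit 0) (XT.lf (nat_lit 0) (nat_lit 1001578239) (nat_lit 504) (nat_lit 4492398931) (nat_lit 84) (nat_lit 12555584567) (nat_lit 47) (nat_lit 5) (nat_lit 53) (nat_lit 5) (nat_lit 48) (nat_lit 5) (nat_lit 351) (nat_lit 310) (nat_lit 200)) (XT.nd (nat_lit 94) (nat_lit 0) (nat_lit 0) (XT.lf (nat_lit 0) (nat_lit 1529682269) (nat_lit 336) (nat_lit 1074681374) (nat_lit 420) (nat_lit 15830011689) (nat_lit 43) (nat_lit 5) (nat_lit 47) (nat_lit 5) (nat_lit 48) (nat_lit 5) (nat_lit 352) (nat_lit 310) (nat_lit 199))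 (XT.lf (nat_lit 0) (nat_lit 4328736423) (nat_lit 420) (nat_lit 11042894200) (nat_lit 84) (nat_lit 3457304025) (nat_lit 43) (nat_lit 5) (nat_lit 48) (nat_lit 5) (nat_lit 44) (nat_lit 5) (nat_lit 353) (nat_lit 310) (nat_lit 198)))))) (XT.nd (nat_lit 470) (nat_lit 420) (nat_lit 0) (XT.nd (nat_lit 188) (nat_lit 252) (nat_lit 0) (XT.nd (nat_lit 94) (nat_lit 336) (nat_lit 0) (XT.lf (nat_lit 0) (nat_lit 6107849120) (nat_lit 420) (nat_lit 5021909884) (nat_lit 84) (nat_lit 8105970552) (nat_lit 43) (nat_lit 5) (nat_lit 48) (nat_lit 5) (nat_lit 44) (nat_lit 5) (nat_lit 354) (nat_lit 310) (nat_lit 197)) (XT.lf (nat_lit 0) (nat_lit 1198683852) (nat_lit 336) (nat_lit 6745906321) (nat_lit 420) (nat_lit 11710510921) (nat_lit 39) (nat_lit 5) (nat_lit 43) (nat_lit 5) (nat_lit 44) (nat_lit 5) (nat_lit 355) (nat_lit 310) (nat_lit 196))) (XT.nd (nat_lit 94) (nat_lit 252) (nat_lit 0) (XT.lf (nat_lit 0) (nat_lit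 7707499254) (nat_lit 336) (nat_lit 2173947352) (nat_lit 420) (nat_lit 10204729534) (nat_lit 39) (nat_lit 5) (nat_lit 43) (nat_lit 5) (nat_lit 44) (nat_lit 5) (nat_lit 356) (nat_lit 310) (nat_lit 195)) (XT.nd (nat_lit 94) (nat_lit 252) (nat_lit 0) (XT.lf (nat_lit 0) (nat_lit 11894558331) (nat_lit 420) (nat_lit 6148767048) (nat_lit 84) (nat_lit 2486826748) (nat_lit 39) (nat_lit 5) (nat_lit 44) (nat_lit 5) (nat_lit 40) (nat_lit 5) (nat_lit 357) (nat_lit 310) (nat_lit 194)) (XT.lf (nat_lit 0) (nat_lit 246283917) (nat_lit 252) (nat_lit 13739758383) (nat_lit 336) (nat_lit 7001393130) (nat_lit 36) (nat_lit 5) (nat_lit 39) (nat_lit 5) (nat_lit 40) (nat_lit 5) (nat_lit 358) (nat_lit 310) (nat_lit 193))))) (XT.nd (nat_lit 188) (nat_lit 420) (nat_lit 0) (XT.nd (nat_lit 94) (nat_lit 0) (nat_lit 0) (XT.lf (nat_lit 0) (nat_lit 6959326778) (nat_lit 252) (nat_lit 9238660999) (nat_lit 336) (nat_lit 5259220177)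 (nat_lit 36) (nat_lit 5) (nat_lit 39) (nat_lit 5) (nat_lit 40) (nat_lit 5) (nat_lit 359) (nat_lit 310) (nat_lit 192)) (XT.lf (nat_lit 0) (nat_lit 13870187531) (nat_lit 252) (nat_lit 4600018249) (nat_lit 336) (nat_lit 3471631568) (nat_lit 36) (nat_lit 5) (nat_lit 39) (nat_lit 5) (nat_lit 40) (nat_lit 5) (nat_lit 360) (nat_lit 310) (nat_lit 191))) (XT.nd (nat_lit 94) (nat_lit 420) (nat_lit 0) (XT.lf (nat_lit 0) (nat_lit 20806604774) (nat_lit 336) (nat_lit 1458258034) (nat_lit 84) (nat_lit 176857024) (nat_lit 36) (nat_lit 5) (nat_lit 40) (nat_lit 5) (nat_lit 37) (nat_lit 5) (nat_lit 361) (nat_lit 310) (nat_lit 190)) (XT.nd (nat_lit 94) (nat_lit 0) (nat_lit 0) (XT.lf (nat_lit 0) (nat_lit 346957384) (nat_lit 420) (nat_lit 17545555141) (nat_lit 84) (nat_lit 5061631492) (nat_lit 31) (nat_lit 5) (nat_lit 36) (nat_lit 5) (nat_lit 32) (nat_lit 5) (nat_lit 362) (nat_lit 310) (nat_lit 189)) (XT.lf (nat_lit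 0) (nat_lit 2364087228) (nat_lit 420) (nat_lit 10989665555) (nat_lit 84) (nat_lit 10127979688) (nat_lit 31) (nat_lit 5) (nat_lit 36) (nat_lit 5) (nat_lit 32) (nat_lit 5) (nat_lit 363) (nat_lit 310) (nat_lit 188))))))))
noncomputable def xc89 : XT := (XT.nd (nat_lit 50478) (nat_lit 0) (nat_lit 2436) (XT.nd (nat_lit 49538) (nat_lit 0) (nat_lit 6636) (XT.nd (nat_lit 49068) (nat_lit 0) (nat_lit 6552) (XT.nd (nat_lit 188) (nat_lit 0) (nat_lit 0) (XT.nd (nat_lit 94) (nat_lit 252) (nat_lit 0) (XT.lf (nat_lit 0) (nat_lit 4436184024) (nat_lit 420) (nat_lit 4240269241) (nat_lit 84) (nat_lit 15349488886) (nat_lit 31) (nat_lit 5) (nat_lit 36) (nat_lit 5) (nat_lit 32) (nat_lit 5) (nat_lit 364) (nat_lit 310) (nat_lit 187)) (XT.lf (nat_lit 0) (nat_lit 2764625998) (nat_lit 252) (nat_lit 3827978617) (nat_lit 336) (nat_lit 17993825513) (nat_lit 28) (nat_lit 5) (nat_lit 31) (nat_lit 5) (nat_lit 32) (nat_lit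 5) (nat_lit 365) (nat_lit 310) (nat_lit 186))) (XT.nd (nat_lit 94) (nat_lit 0) (nat_lit 0) (XT.lf (nat_lit 0) (nat_lit 8864971305) (nat_lit 336) (nat_lit 15107993739) (nat_lit 84) (nat_lit 1189835811) (nat_lit 28) (nat_lit 5) (nat_lit 32) (nat_lit 5) (nat_lit 29) (nat_lit 5) (nat_lit 366) (nat_lit 310) (nat_lit 185)) (XT.lf (nat_lit 0) (nat_lit 11239920167) (nat_lit 336) (nat_lit 8234488580) (nat_lit 84) (nat_lit 6281662764) (nat_lit 28) (nat_lit 5) (nat_lit 32) (nat_lit 5) (nat_lit 29) (nat_lit 5) (nat_lit 367) (nat_lit 310) (nat_lit 184)))) (XT.nd (nat_lit 188) (nat_lit 924) (nat_lit 0) (XT.nd (nat_lit 94) (nat_lit 0) (nat_lit 0) (XT.lf (nat_lit 0) (nat_lit 3782394549) (nat_lit 924) (nat_lit 412158160) (nat_lit 924) (nat_lit 412158160) (nat_lit 117) (nat_lit 3) (nat_lit 128) (nat_lit 3) (nat_lit 128) (nat_lit 5) (nat_lit 311) (nat_lit 311) (nat_lit 239)) (XT.lf (nat_lit 84) (nat_lit 2518490946)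 (nat_lit 0) (nat_lit 5870284425) (nat_lit 924) (nat_lit 941355514) (nat_lit 118) (nat_lit 5) (nat_lit 117) (nat_lit 3) (nat_lit 128) (nat_lit 5) (nat_lit 312) (nat_lit 311) (nat_lit 238))) (XT.nd (nat_lit 94) (nat_lit 924) (nat_lit 0) (XT.lf (nat_lit 84) (nat_lit 5967861449) (nat_lit 0) (nat_lit 3251432297) (nat_lit 924) (nat_lit 231922470) (nat_lit 118) (nat_lit 5) (nat_lit 117) (nat_lit 3) (nat_lit 128) (nat_lit 5) (nat_lit 313) (nat_lit 311) (nat_lit 237)) (XT.nd (nat_lit 94) (nat_lit 0) (nat_lit 84) (XT.lf (nat_lit 0) (nat_lit 462219404) (nat_lit 924) (nat_lit 71668136) (nat_lit 1008) (nat_lit 9043016697) (nat_lit 106) (nat_lit 5) (nat_lit 117) (nat_lit 3) (nat_lit 118) (nat_lit 5) (nat_lit 314) (nat_lit 311) (nat_lit 236)) (XT.lf (nat_lit 0) (nat_lit 1204373199) (nat_lit 924) (nat_lit 6229765764) (nat_lit 1008) (nat_lit 2271459518) (nat_lit 107) (nat_lit 5) (nat_lit 118) (nat_lit 5)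 (nat_lit 119) (nat_lit 5) (nat_lit 315) (nat_lit 311) (nat_lit 235)))))) (XT.nd (nat_lit 470) (nat_lit 0) (nat_lit 168) (XT.nd (nat_lit 188) (nat_lit 0) (nat_lit 84) (XT.nd (nat_lit 94) (nat_lit 0) (nat_lit 0) (XT.lf (nat_lit 0) (nat_lit 1950115564) (nat_lit 924) (nat_lit 2724192721) (nat_lit 1008) (nat_lit 5164725362) (nat_lit 107) (nat_lit 5) (nat_lit 118) (nat_lit 5) (nat_lit 119) (nat_lit 5) (nat_lit 316) (nat_lit 311) (nat_lit 234)) (XT.lf (nat_lit 84) (nat_lit 893218187) (nat_lit 0) (nat_lit 1809755030) (nat_lit 1008) (nat_lit 7274273113) (nat_lit 108) (nat_lit 5) (nat_lit 107) (nat_lit 5) (nat_lit 119) (nat_lit 5) (nat_lit 317) (nat_lit 311) (nat_lit 233))) (XT.nd (nat_lit 94) (nat_lit 0) (nat_lit 0) (XT.lf (nat_lit 0) (nat_lit 3495073350) (nat_lit 924) (nat_lit 5465646144) (nat_lit 1008) (nat_lit 1158671679) (nat_lit 108) (nat_lit 5) (nat_lit 119) (nat_lit 5) (nat_lit 120) (nat_lit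 5) (nat_lit 318) (nat_lit 311) (nat_lit 232)) (XT.nd (nat_lit 94) (nat_lit 0) (nat_lit 0) (XT.lf (nat_lit 0) (nat_lit 4306798197) (nat_lit 924) (nat_lit 1768801546) (nat_lit 1008) (nat_lit 4190631961) (nat_lit 108) (nat_lit 5) (nat_lit 119) (nat_lit 5) (nat_lit 120) (nat_lit 5) (nat_lit 319) (nat_lit 311) (nat_lit 231)) (XT.lf (nat_lit 84) (nat_lit 2069602363) (nat_lit 0) (nat_lit 3071879725) (nat_lit 1008) (nat_lit 5276342799) (nat_lit 109) (nat_lit 5) (nat_lit 108) (nat_lit 5) (nat_lit 120) (nat_lit 5) (nat_lit 320) (nat_lit 311) (nat_lit 230))))) (XT.nd (nat_lit 188) (nat_lit 0) (nat_lit 0) (XT.nd (nat_lit 94) (nat_lit 0) (nat_lit 0) (XT.lf (nat_lit 0) (nat_lit 5998819387) (nat_lit 924) (nat_lit 4524970367) (nat_lit 1008) (nat_lit 50555863) (nat_lit 109) (nat_lit 5) (nat_lit 120) (nat_lit 5) (nat_lit 121) (nat_lit 5) (nat_lit 321) (nat_lit 311) (nat_lit 229)) (XT.lf (nat_lit 0) (nat_lit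 6892696523) (nat_lit 924) (nat_lit 629633260) (nat_lit 1008) (nat_lit 3213204296) (nat_lit 109) (nat_lit 5) (nat_lit 120) (nat_lit 5) (nat_lit 121) (nat_lit 5) (nat_lit 322) (nat_lit 311) (nat_lit 228))) (XT.nd (nat_lit 94) (nat_lit 0) (nat_lit 0) (XT.lf (nat_lit 84) (nat_lit 3441226121) (nat_lit 0) (nat_lit 4386384525) (nat_lit 1008) (nat_lit 3073816290) (nat_lit 110) (nat_lit 5) (nat_lit 109) (nat_lit 5) (nat_lit 121) (nat_lit 5) (nat_lit 323) (nat_lit 311) (nat_lit 227)) (XT.nd (nat_lit 94) (nat_lit 0) (nat_lit 84) (XT.lf (nat_lit 84) (nat_lit 7637211297) (nat_lit 0) (nat_lit 1140539994) (nat_lit 1008) (nat_lit 2295254666) (nat_lit 110) (nat_lit 5) (nat_lit 109) (nat_lit 5) (nat_lit 121) (nat_lit 5) (nat_lit 324) (nat_lit 311) (nat_lit 226)) (XT.lf (nat_lit 84) (nat_lit 690632933) (nat_lit 0) (nat_lit 9075787759) (nat_lit 1008) (nat_lit 1483315463) (nat_lit 111) (nat_lit 5) (nat_lit 110)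 (nat_lit 5) (nat_lit 122) (nat_lit 5) (nat_lit 325) (nat_lit 311) (nat_lit 225))))))) (XT.nd (nat_lit 846) (nat_lit 1932) (nat_lit 0) (XT.nd (nat_lit 376) (nat_lit 1512) (nat_lit 0) (XT.nd (nat_lit 188) (nat_lit 0) (nat_lit 84) (XT.nd (nat_lit 94) (nat_lit 1008) (nat_lit 0) (XT.lf (nat_lit 84) (nat_lit 4991294617) (nat_lit 0) (nat_lit 5822640121) (nat_lit 1008) (nat_lit 617246300) (nat_lit 111) (nat_lit 5) (nat_lit 110) (nat_lit 5) (nat_lit 122) (nat_lit 5) (nat_lit 326) (nat_lit 311) (nat_lit 224)) (XT.lf (nat_lit 0) (nat_lit 251185605) (nat_lit 1008) (nat_lit 2210379252) (nat_lit 1092) (nat_lit 9157291547) (nat_lit 98) (nat_lit 5) (nat_lit 110) (nat_lit 5) (nat_lit 111) (nat_lit 5) (nat_lit 327) (nat_lit 311) (nat_lit 223))) (XT.nd (nat_lit 94) (nat_lit 0) (nat_lit 0) (XT.lf (nat_lit 0) (nat_lit 1147199471) (nat_lit 1008) (nat_lit 9648947140) (nat_lit 84) (nat_lit 1015689928) (nat_lit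 99) (nat_lit 5) (nat_lit 111) (nat_lit 5) (nat_lit 100) (nat_lit 5) (nat_lit 328) (nat_lit 311) (nat_lit 222)) (XT.lf (nat_lit 0) (nat_lit 2101562270) (nat_lit 1008) (nat_lit 5331685279) (nat_lit 84) (nat_lit 4576701223) (nat_lit 99) (nat_lit 5) (nat_lit 111) (nat_lit 5) (nat_lit 100) (nat_lit 5) (nat_lit 329) (nat_lit 311) (nat_lit 221)))) (XT.nd (nat_lit 188) (nat_lit 588) (nat_lit 0) (XT.nd (nat_lit 94) (nat_lit 1008) (nat_lit 0) (XT.lf (nat_lit 0) (nat_lit 3068137560) (nat_lit 1008) (nat_lit 894921683) (nat_lit 84) (nat_lit 8251776328) (nat_lit 99) (nat_lit 5) (nat_lit 111) (nat_lit 5) (nat_lit 100) (nat_lit 5) (nat_lit 330) (nat_lit 311) (nat_lit 220)) (XT.lf (nat_lit 0) (nat_lit 3740848944) (nat_lit 1008) (nat_lit 344087031) (nat_lit 1092) (nat_lit 8340601537) (nat_lit 87) (nat_lit 5) (nat_lit 99) (nat_lit 5) (nat_lit 100) (nat_lit 5) (nat_lit 331) (nat_lit 311) (nat_lit 219))) (XT.nd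 (nat_lit 94) (nat_lit 588) (nat_lit 0) (XT.lf (nat_lit 0) (nat_lit 5159838728) (nat_lit 1092) (nat_lit 4151265480) (nat_lit 84) (nat_lit 3330931848) (nat_lit 87) (nat_lit 5) (nat_lit 100) (nat_lit 5) (nat_lit 88) (nat_lit 5) (nat_lit 332) (nat_lit 311) (nat_lit 218)) (XT.nd (nat_lit 94) (nat_lit 0) (nat_lit 0) (XT.lf (nat_lit 0) (nat_lit 515607038) (nat_lit 588) (nat_lit 5745131943) (nat_lit 672) (nat_lit 6604820390) (nat_lit 80) (nat_lit 5) (nat_lit 87) (nat_lit 5) (nat_lit 88) (nat_lit 5) (nat_lit 333) (nat_lit 311) (nat_lit 217)) (XT.lf (nat_lit 0) (nat_lit 5401342725) (nat_lit 588) (nat_lit 2022139344) (nat_lit 672) (nat_lit 5671754342) (nat_lit 80) (nat_lit 5) (nat_lit 87) (nat_lit 5) (nat_lit 88) (nat_lit 5) (nat_lit 334) (nat_lit 311) (nat_lit 216)))))) (XT.nd (nat_lit 470) (nat_lit 924) (nat_lit 0) (XT.nd (nat_lit 188) (nat_lit 504) (nat_lit 0) (XT.nd (nat_lit 94) (nat_lit 504) (nat_lit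 0) (XT.lf (nat_lit 0) (nat_lit 8625158869) (nat_lit 672) (nat_lit 2925481973) (nat_lit 84) (nat_lit 1781384197) (nat_lit 80) (nat_lit 5) (nat_lit 88) (nat_lit 5) (nat_lit 81) (nat_lit 5) (nat_lit 335) (nat_lit 311) (nat_lit 215)) (XT.lf (nat_lit 0) (nat_lit 1996751666) (nat_lit 504) (nat_lit 7893151723) (nat_lit 588) (nat_lit 3685529146) (nat_lit 74) (nat_lit 5) (nat_lit 80) (nat_lit 5) (nat_lit 81) (nat_lit 5) (nat_lit 336) (nat_lit 311) (nat_lit 214))) (XT.nd (nat_lit 94) (nat_lit 504) (nat_lit 0) (XT.lf (nat_lit 0) (nat_lit 7120183179) (nat_lit 504) (nat_lit 4089842018) (nat_lit 588) (nat_lit 2615935534) (nat_lit 74) (nat_lit 5) (nat_lit 80) (nat_lit 5) (nat_lit 81) (nat_lit 5) (nat_lit 337) (nat_lit 311) (nat_lit 213)) (XT.nd (nat_lit 94) (nat_lit 504) (nat_lit 0) (XT.lf (nat_lit 0) (nat_lit 12389434230) (nat_lit 504) (nat_lit 167702675) (nat_lit 588) (nat_lit 1527624392) (nat_lit 74)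 (nat_lit 5) (nat_lit 80) (nat_lit 5) (nat_lit 81) (nat_lit 5) (nat_lit 338) (nat_lit 311) (nat_lit 212)) (XT.lf (nat_lit 0) (nat_lit 3489180511) (nat_lit 504) (nat_lit 10516386304) (nat_lit 588) (nat_lit 344243398) (nat_lit 68) (nat_lit 5) (nat_lit 74) (nat_lit 5) (nat_lit 75) (nat_lit 5) (nat_lit 339) (nat_lit 311) (nat_lit 211))))) (XT.nd (nat_lit 188) (nat_lit 840) (nat_lit 0) (XT.nd (nat_lit 94) (nat_lit 0) (nat_lit 0) (XT.lf (nat_lit 0) (nat_lit 864336222) (nat_lit 588) (nat_lit 5776090096) (nat_lit 84) (nat_lit 7982256606) (nat_lit 67) (nat_lit 5) (nat_lit 74) (nat_lit 5) (nat_lit 68) (nat_lit 5) (nat_lit 340) (nat_lit 311) (nat_lit 210)) (XT.lf (nat_lit 0) (nat_lit 2090202703) (nat_lit 588) (nat_lit 550376297) (nat_lit 84) (nat_lit 12263795959) (nat_lit 67) (nat_lit 5) (nat_lit 74) (nat_lit 5) (nat_lit 68) (nat_lit 5) (nat_lit 341) (nat_lit 311) (nat_lit 209))) (XT.nd (nat_lit 94)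 (nat_lit 420) (nat_lit 0) (XT.lf (nat_lit 0) (nat_lit 3405495893) (nat_lit 504) (nat_lit 10284949954) (nat_lit 84) (nat_lit 1502822994) (nat_lit 62) (nat_lit 5) (nat_lit 68) (nat_lit 5) (nat_lit 63) (nat_lit 5) (nat_lit 342) (nat_lit 311) (nat_lit 208)) (XT.nd (nat_lit 94) (nat_lit 420) (nat_lit 0) (XT.lf (nat_lit 0) (nat_lit 4781993557) (nat_lit 504) (nat_lit 4982959983) (nat_lit 84) (nat_lit 5725593204) (nat_lit 62) (nat_lit 5) (nat_lit 68) (nat_lit 5) (nat_lit 63) (nat_lit 5) (nat_lit 343) (nat_lit 311) (nat_lit 207)) (XT.lf (nat_lit 0) (nat_lit 480606065) (nat_lit 420) (nat_lit 5713316416) (nat_lit 504) (nat_lit 9603402027) (nat_lit 57) (nat_lit 5) (nat_lit 62) (nat_lit 5) (nat_lit 63) (nat_lit 5) (nat_lit 344) (nat_lit 311) (nat_lit 206))))))))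
noncomputable def xc90 : XT := (XT.nd (nat_lit 1692) (nat_lit 672) (nat_lit 0) (XT.nd (nat_lit 846) (nat_lit 588) (nat_lit 0) (XT.nd (nat_lit 376) (nat_lit 840) (nat_lit 0) (XT.nd (nat_lit 188) (nat_lit 336) (nat_lit 0) (XT.nd (nat_lit 94) (nat_lit 0) (nat_lit 0) (XT.lf (nat_lit 0) (nat_lit 6206836278) (nat_lit 420) (nat_lit 1483027578) (nat_lit 504) (nat_lit 8422559004) (nat_lit 57) (nat_lit 5) (nat_lit 62) (nat_lit 5) (nat_lit 63) (nat_lit 5) (nat_lit 345) (nat_lit 311) (nat_lit 205)) (XT.lf (nat_lit 0) (nat_lit 9249312633) (nat_lit 504) (nat_lit 4367639743) (nat_lit 84) (nat_lit 2819862014) (nat_lit 57) (nat_lit 5) (nat_lit 63) (nat_lit 5) (nat_lit 58) (nat_lit 5) (nat_lit 346) (nat_lit 311) (nat_lit 204))) (XT.nd (nat_lit 94) (nat_lit 0) (nat_lit 0) (XT.lf (nat_lit 0) (nat_lit 1341846890) (nat_lit 336) (nat_lit 9532659135) (nat_lit 420) (nat_lit 5896271145) (nat_lit 53) (nat_lit 5) (nat_lit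 57) (nat_lit 5) (nat_lit 58) (nat_lit 5) (nat_lit 347) (nat_lit 311) (nat_lit 203)) (XT.lf (nat_lit 0) (nat_lit 7309036906) (nat_lit 336) (nat_lit 5275770443) (nat_lit 420) (nat_lit 4529261837) (nat_lit 53) (nat_lit 5) (nat_lit 57) (nat_lit 5) (nat_lit 58) (nat_lit 5) (nat_lit 348) (nat_lit 311) (nat_lit 202)))) (XT.nd (nat_lit 188) (nat_lit 420) (nat_lit 0) (XT.nd (nat_lit 94) (nat_lit 420) (nat_lit 0) (XT.lf (nat_lit 0) (nat_lit 13449684720) (nat_lit 336) (nat_lit 887907635) (nat_lit 420) (nat_lit 3130788840) (nat_lit 53) (nat_lit 5) (nat_lit 57) (nat_lit 5) (nat_lit 58) (nat_lit 5) (nat_lit 349) (nat_lit 311) (nat_lit 201)) (XT.lf (nat_lit 0) (nat_lit 1938466545) (nat_lit 420) (nat_lit 14251317945) (nat_lit 504) (nat_lit 1642544981) (nat_lit 48) (nat_lit 5) (nat_lit 53) (nat_lit 5) (nat_lit 54) (nat_lit 5) (nat_lit 350) (nat_lit 311) (nat_lit 200))) (XT.nd (nat_lit 94) (nat_lit 420) (nat_lit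 0) (XT.lf (nat_lit 0) (nat_lit 8144809114) (nat_lit 420) (nat_lit 9995487559) (nat_lit 504) (nat_lit 66043799) (nat_lit 48) (nat_lit 5) (nat_lit 53) (nat_lit 5) (nat_lit 54) (nat_lit 5) (nat_lit 351) (nat_lit 311) (nat_lit 199)) (XT.nd (nat_lit 94) (nat_lit 336) (nat_lit 0) (XT.lf (nat_lit 0) (nat_lit 1518034059) (nat_lit 504) (nat_lit 4075190275) (nat_lit 84) (nat_lit 12998593596) (nat_lit 47) (nat_lit 5) (nat_lit 53) (nat_lit 5) (nat_lit 48) (nat_lit 5) (nat_lit 352) (nat_lit 311) (nat_lit 198)) (XT.lf (nat_lit 0) (nat_lit 2127941653) (nat_lit 336) (nat_lit 1033433387) (nat_lit 420) (nat_lit 15827535889) (nat_lit 43) (nat_lit 5) (nat_lit 47) (nat_lit 5) (nat_lit 48) (nat_lit 5) (nat_lit 353) (nat_lit 311) (nat_lit 197)))))) (XT.nd (nat_lit 376) (nat_lit 252) (nat_lit 0) (XT.nd (nat_lit 188) (nat_lit 336) (nat_lit 0) (XT.nd (nat_lit 94) (nat_lit 0) (nat_lit 0) (XT.lf (nat_lit 0) (nat_lit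 4925600191) (nat_lit 420) (nat_lit 10835243711) (nat_lit 84) (nat_lit 3635344494) (nat_lit 43) (nat_lit 5) (nat_lit 48) (nat_lit 5) (nat_lit 44) (nat_lit 5) (nat_lit 354) (nat_lit 311) (nat_lit 196)) (XT.lf (nat_lit 0) (nat_lit 6745953780) (nat_lit 420) (nat_lit 4644145628) (nat_lit 84) (nat_lit 8425988950) (nat_lit 43) (nat_lit 5) (nat_lit 48) (nat_lit 5) (nat_lit 44) (nat_lit 5) (nat_lit 355) (nat_lit 311) (nat_lit 195))) (XT.nd (nat_lit 94) (nat_lit 0) (nat_lit 0) (XT.lf (nat_lit 0) (nat_lit 1763885878) (nat_lit 336) (nat_lit 6867492870) (nat_lit 420) (nat_lit 11617398829) (nat_lit 39) (nat_lit 5) (nat_lit 43) (nat_lit 5) (nat_lit 44) (nat_lit 5) (nat_lit 356) (nat_lit 311) (nat_lit 194)) (XT.lf (nat_lit 0) (nat_lit 8458597421) (nat_lit 336) (nat_lit 2156435212) (nat_lit 420) (nat_lit 10078653326) (nat_lit 39) (nat_lit 5) (nat_lit 43) (nat_lit 5) (nat_lit 44) (nat_lit 5) (nat_lit 357)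 (nat_lit 311) (nat_lit 193)))) (XT.nd (nat_lit 188) (nat_lit 0) (nat_lit 0) (XT.nd (nat_lit 94) (nat_lit 252) (nat_lit 0) (XT.lf (nat_lit 0) (nat_lit 12678520915) (nat_lit 420) (nat_lit 5828724056) (nat_lit 84) (nat_lit 2644610784) (nat_lit 39) (nat_lit 5) (nat_lit 44) (nat_lit 5) (nat_lit 40) (nat_lit 5) (nat_lit 358) (nat_lit 311) (nat_lit 192)) (XT.lf (nat_lit 0) (nat_lit 759403568) (nat_lit 252) (nat_lit 14067966661) (nat_lit 336) (nat_lit 6796232095) (nat_lit 36) (nat_lit 5) (nat_lit 39) (nat_lit 5) (nat_lit 40) (nat_lit 5) (nat_lit 359) (nat_lit 311) (nat_lit 191))) (XT.nd (nat_lit 94) (nat_lit 0) (nat_lit 0) (XT.lf (nat_lit 0) (nat_lit 7665351892) (nat_lit 252) (nat_lit 9430273620) (nat_lit 336) (nat_lit 5012746574) (nat_lit 36) (nat_lit 5) (nat_lit 39) (nat_lit 5) (nat_lit 40) (nat_lit 5) (nat_lit 360) (nat_lit 311) (nat_lit 190)) (XT.nd (nat_lit 94) (nat_lit 0) (nat_lit 0) (XT.lf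 (nat_lit 0) (nat_lit 14775707461) (nat_lit 252) (nat_lit 4650682956) (nat_lit 336) (nat_lit 3182055805) (nat_lit 36) (nat_lit 5) (nat_lit 39) (nat_lit 5) (nat_lit 40) (nat_lit 5) (nat_lit 361) (nat_lit 311) (nat_lit 189)) (XT.lf (nat_lit 0) (nat_lit 21824568080) (nat_lit 336) (nat_lit 1029923600) (nat_lit 84) (nat_lit 269714525) (nat_lit 36) (nat_lit 5) (nat_lit 40) (nat_lit 5) (nat_lit 37) (nat_lit 5) (nat_lit 362) (nat_lit 311) (nat_lit 188))))))) (XT.nd (nat_lit 49632) (nat_lit 0) (nat_lit 6636) (XT.nd (nat_lit 376) (nat_lit 0) (nat_lit 0) (XT.nd (nat_lit 188) (nat_lit 252) (nat_lit 0) (XT.nd (nat_lit 94) (nat_lit 0) (nat_lit 0) (XT.lf (nat_lit 0) (nat_lit 729418524) (nat_lit 420) (nat_lit 17611530286) (nat_lit 84) (nat_lit 5311703026) (nat_lit 31) (nat_lit 5) (nat_lit 36) (nat_lit 5) (nat_lit 32) (nat_lit 5) (nat_lit 363) (nat_lit 311) (nat_lit 187)) (XT.lf (nat_lit 0) (nat_lit 2797902992)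 (nat_lit 420) (nat_lit 10866778685) (nat_lit 84) (nat_lit 10532306862) (nat_lit 31) (nat_lit 5) (nat_lit 36) (nat_lit 5) (nat_lit 32) (nat_lit 5) (nat_lit 364) (nat_lit 311) (nat_lit 186))) (XT.nd (nat_lit 94) (nat_lit 252) (nat_lit 0) (XT.lf (nat_lit 0) (nat_lit 4923394439) (nat_lit 420) (nat_lit 3922089554) (nat_lit 84) (nat_lit 15912965916) (nat_lit 31) (nat_lit 5) (nat_lit 36) (nat_lit 5) (nat_lit 32) (nat_lit 5) (nat_lit 365) (nat_lit 311) (nat_lit 185)) (XT.lf (nat_lit 0) (nat_lit 3295405357) (nat_lit 252) (nat_lit 3845159515) (nat_lit 336) (nat_lit 18195980997) (nat_lit 28) (nat_lit 5) (nat_lit 31) (nat_lit 5) (nat_lit 32) (nat_lit 5) (nat_lit 366) (nat_lit 311) (nat_lit 184)))) (XT.nd (nat_lit 48974) (nat_lit 0) (nat_lit 6552) (XT.nd (nat_lit 48880) (nat_lit 0) (nat_lit 7476) (XT.lf (nat_lit 0) (nat_lit 9474020404) (nat_lit 336) (nat_lit 15133923709) (nat_lit 84) (nat_lit 1323172432)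 (nat_lit 28) (nat_lit 5) (nat_lit 32) (nat_lit 5) (nat_lit 29) (nat_lit 5) (nat_lit 367) (nat_lit 311) (nat_lit 183)) (XT.lf (nat_lit 0) (nat_lit 4574634053) (nat_lit 924) (nat_lit 74905839) (nat_lit 924) (nat_lit 74905839) (nat_lit 117) (nat_lit 3) (nat_lit 128) (nat_lit 3) (nat_lit 128) (nat_lit 5) (nat_lit 312) (nat_lit 312) (nat_lit 237))) (XT.nd (nat_lit 94) (nat_lit 0) (nat_lit 0) (XT.lf (nat_lit 0) (nat_lit 386618584) (nat_lit 924) (nat_lit 6284892297) (nat_lit 1008) (nat_lit 2898881061) (nat_lit 106) (nat_lit 5) (nat_lit 117) (nat_lit 3) (nat_lit 118) (nat_lit 5) (nat_lit 313) (nat_lit 312) (nat_lit 236)) (XT.nd (nat_lit 94) (nat_lit 0) (nat_lit 0) (XT.lf (nat_lit 0) (nat_lit 1063088584) (nat_lit 924) (nat_lit 2882583981) (nat_lit 1008) (nat_lit 5750814910) (nat_lit 106) (nat_lit 5) (nat_lit 117) (nat_lit 3) (nat_lit 118) (nat_lit 5) (nat_lit 314) (nat_lit 312) (nat_lit 235)) (XT.lf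 (nat_lit 84) (nat_lit 623822096) (nat_lit 0) (nat_lit 1117288000) (nat_lit 1008) (nat_lit 8086133302) (nat_lit 107) (nat_lit 5) (nat_lit 106) (nat_lit 5) (nat_lit 118) (nat_lit 5) (nat_lit 315) (nat_lit 312) (nat_lit 234)))))) (XT.nd (nat_lit 470) (nat_lit 0) (nat_lit 84) (XT.nd (nat_lit 188) (nat_lit 0) (nat_lit 0) (XT.nd (nat_lit 94) (nat_lit 0) (nat_lit 0) (XT.lf (nat_lit 0) (nat_lit 2463526797) (nat_lit 924) (nat_lit 5694067064) (nat_lit 1008) (nat_lit 1803879163) (nat_lit 107) (nat_lit 5) (nat_lit 118) (nat_lit 5) (nat_lit 119) (nat_lit 5) (nat_lit 316) (nat_lit 312) (nat_lit 233)) (XT.lf (nat_lit 0) (nat_lit 3195649679) (nat_lit 924) (nat_lit 2101735382) (nat_lit 1008) (nat_lit 4803012644) (nat_lit 107) (nat_lit 5) (nat_lit 118) (nat_lit 5) (nat_lit 119) (nat_lit 5) (nat_lit 317) (nat_lit 312) (nat_lit 232))) (XT.nd (nat_lit 94) (nat_lit 0) (nat_lit 84) (XT.lf (nat_lit 84) (nat_lit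 1620658462) (nat_lit 0) (nat_lit 2322496192) (nat_lit 1008) (nat_lit 6300837482) (nat_lit 108) (nat_lit 5) (nat_lit 107) (nat_lit 5) (nat_lit 119) (nat_lit 5) (nat_lit 318) (nat_lit 312) (nat_lit 231)) (XT.nd (nat_lit 94) (nat_lit 0) (nat_lit 0) (XT.lf (nat_lit 0) (nat_lit 4720645991) (nat_lit 924) (nat_lit 4910707503) (nat_lit 1008) (nat_lit 760605532) (nat_lit 108) (nat_lit 5) (nat_lit 119) (nat_lit 5) (nat_lit 120) (nat_lit 5) (nat_lit 319) (nat_lit 312) (nat_lit 230)) (XT.lf (nat_lit 0) (nat_lit 5523941693) (nat_lit 924) (nat_lit 1121041114) (nat_lit 1008) (nat_lit 3899605597) (nat_lit 108) (nat_lit 5) (nat_lit 119) (nat_lit 5) (nat_lit 120) (nat_lit 5) (nat_lit 320) (nat_lit 312) (nat_lit 229))))) (XT.nd (nat_lit 188) (nat_lit 0) (nat_lit 84) (XT.nd (nat_lit 94) (nat_lit 0) (nat_lit 0) (XT.lf (nat_lit 84) (nat_lit 2829240190) (nat_lit 0) (nat_lit 3529577289) (nat_lit 1008) (nat_lit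 4343049225) (nat_lit 109) (nat_lit 5) (nat_lit 108) (nat_lit 5) (nat_lit 120) (nat_lit 5) (nat_lit 321) (nat_lit 312) (nat_lit 228)) (XT.lf (nat_lit 84) (nat_lit 6912018471) (nat_lit 0) (nat_lit 298375749) (nat_lit 1008) (nat_lit 3654031679) (nat_lit 109) (nat_lit 5) (nat_lit 108) (nat_lit 5) (nat_lit 120) (nat_lit 5) (nat_lit 322) (nat_lit 312) (nat_lit 227))) (XT.nd (nat_lit 94) (nat_lit 0) (nat_lit 0) (XT.lf (nat_lit 84) (nat_lit 46050356) (nat_lit 0) (nat_lit 8052679114) (nat_lit 1008) (nat_lit 2933090865) (nat_lit 110) (nat_lit 5) (nat_lit 109) (nat_lit 5) (nat_lit 121) (nat_lit 5) (nat_lit 323) (nat_lit 312) (nat_lit 226)) (XT.nd (nat_lit 94) (nat_lit 0) (nat_lit 0) (XT.lf (nat_lit 84) (nat_lit 4235149662) (nat_lit 0) (nat_lit 4804012584) (nat_lit 1008) (nat_lit 2164593954) (nat_lit 110) (nat_lit 5) (nat_lit 109) (nat_lit 5) (nat_lit 121) (nat_lit 5) (nat_lit 324) (nat_lit 312) (nat_lit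 225)) (XT.lf (nat_lit 84) (nat_lit 8540546351) (nat_lit 0) (nat_lit 1449078246) (nat_lit 1008) (nat_lit 1392100441) (nat_lit 110) (nat_lit 5) (nat_lit 109) (nat_lit 5) (nat_lit 121) (nat_lit 5) (nat_lit 325) (nat_lit 312) (nat_lit 224))))))))
noncomputable def xc91 : XT := (XT.nd (nat_lit 1786) (nat_lit 2184) (nat_lit 0) (XT.nd (nat_lit 846) (nat_lit 1512) (nat_lit 0) (XT.nd (nat_lit 376) (nat_lit 1512) (nat_lit 0) (XT.nd (nat_lit 188) (nat_lit 0) (nat_lit 0) (XT.nd (nat_lit 94) (nat_lit 1008) (nat_lit 0) (XT.lf (nat_lit 84) (nat_lit 1408752453) (nat_lit 0) (nat_lit 9576216539) (nat_lit 1008) (nat_lit 579870778) (nat_lit 111) (nat_lit 5) (nat_lit 110) (nat_lit 5) (nat_lit 122) (nat_lit 5) (nat_lit 326) (nat_lit 312) (nat_lit 223)) (XT.lf (nat_lit 0) (nat_lit 278767217) (nat_lit 1008) (nat_lit 5933957094) (nat_lit 1092) (nat_lit 5540109074) (nat_lit 98) (nat_lit 5) (nat_lit 110) (nat_lit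 5) (nat_lit 111) (nat_lit 5) (nat_lit 327) (nat_lit 312) (nat_lit 222))) (XT.nd (nat_lit 94) (nat_lit 0) (nat_lit 84) (XT.lf (nat_lit 0) (nat_lit 1134167796) (nat_lit 1008) (nat_lit 1600673240) (nat_lit 1092) (nat_lit 9212279482) (nat_lit 98) (nat_lit 5) (nat_lit 110) (nat_lit 5) (nat_lit 111) (nat_lit 5) (nat_lit 328) (nat_lit 312) (nat_lit 221)) (XT.lf (nat_lit 0) (nat_lit 2036475717) (nat_lit 1008) (nat_lit 9243708988) (nat_lit 84) (nat_lit 866708291) (nat_lit 99) (nat_lit 5) (nat_lit 111) (nat_lit 5) (nat_lit 100) (nat_lit 5) (nat_lit 329) (nat_lit 312) (nat_lit 220)))) (XT.nd (nat_lit 188) (nat_lit 1596) (nat_lit 0) (XT.nd (nat_lit 94) (nat_lit 0) (nat_lit 0) (XT.lf (nat_lit 0) (nat_lit 2994754408) (nat_lit 1008) (nat_lit 4813790498) (nat_lit 84) (nat_lit 4543537230) (nat_lit 99) (nat_lit 5) (nat_lit 111) (nat_lit 5) (nat_lit 100) (nat_lit 5) (nat_lit 330) (nat_lit 312) (nat_lit 219))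 (XT.lf (nat_lit 0) (nat_lit 3966396001) (nat_lit 1008) (nat_lit 260028926) (nat_lit 84) (nat_lit 8337802799) (nat_lit 99) (nat_lit 5) (nat_lit 111) (nat_lit 5) (nat_lit 100) (nat_lit 5) (nat_lit 331) (nat_lit 312) (nat_lit 218))) (XT.nd (nat_lit 94) (nat_lit 588) (nat_lit 0) (XT.lf (nat_lit 0) (nat_lit 4512742004) (nat_lit 1008) (nat_lit 484331123) (nat_lit 1092) (nat_lit 7785066608) (nat_lit 87) (nat_lit 5) (nat_lit 99) (nat_lit 5) (nat_lit 100) (nat_lit 5) (nat_lit 332) (nat_lit 312) (nat_lit 217)) (XT.nd (nat_lit 94) (nat_lit 588) (nat_lit 0) (XT.lf (nat_lit 0) (nat_lit 6080432634) (nat_lit 1092) (nat_lit 3614773713) (nat_lit 84) (nat_lit 3311041659) (nat_lit 87) (nat_lit 5) (nat_lit 100) (nat_lit 5) (nat_lit 88) (nat_lit 5) (nat_lit 333) (nat_lit 312) (nat_lit 216)) (XT.lf (nat_lit 0) (nat_lit 1190037493) (nat_lit 588) (nat_lit 6009084363) (nat_lit 672) (nat_lit 6038208814) (nat_lit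 80) (nat_lit 5) (nat_lit 87) (nat_lit 5) (nat_lit 88) (nat_lit 5) (nat_lit 334) (nat_lit 312) (nat_lit 215)))))) (XT.nd (nat_lit 470) (nat_lit 1008) (nat_lit 0) (XT.nd (nat_lit 188) (nat_lit 504) (nat_lit 0) (XT.nd (nat_lit 94) (nat_lit 0) (nat_lit 0) (XT.lf (nat_lit 0) (nat_lit 6207432881) (nat_lit 588) (nat_lit 2168097565) (nat_lit 672) (nat_lit 5099410921) (nat_lit 80) (nat_lit 5) (nat_lit 87) (nat_lit 5) (nat_lit 88) (nat_lit 5) (nat_lit 335) (nat_lit 312) (nat_lit 214)) (XT.lf (nat_lit 0) (nat_lit 9591951370) (nat_lit 672) (nat_lit 2370466801) (nat_lit 84) (nat_lit 1757466314) (nat_lit 80) (nat_lit 5) (nat_lit 88) (nat_lit 5) (nat_lit 81) (nat_lit 5) (nat_lit 336) (nat_lit 312) (nat_lit 213))) (XT.nd (nat_lit 94) (nat_lit 0) (nat_lit 0) (XT.lf (nat_lit 0) (nat_lit 2697818897) (nat_lit 504) (nat_lit 8183394834) (nat_lit 588) (nat_lit 3090192050) (nat_lit 74) (nat_lit 5) (nat_lit 80)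 (nat_lit 5) (nat_lit 81) (nat_lit 5) (nat_lit 337) (nat_lit 312) (nat_lit 212)) (XT.nd (nat_lit 94) (nat_lit 0) (nat_lit 0) (XT.lf (nat_lit 0) (nat_lit 7960858352) (nat_lit 504) (nat_lit 4260812773) (nat_lit 588) (nat_lit 2008776868) (nat_lit 74) (nat_lit 5) (nat_lit 80) (nat_lit 5) (nat_lit 81) (nat_lit 5) (nat_lit 338) (nat_lit 312) (nat_lit 211)) (XT.lf (nat_lit 0) (nat_lit 13374815609) (nat_lit 504) (nat_lit 215758541) (nat_lit 588) (nat_lit 907422390) (nat_lit 74) (nat_lit 5) (nat_lit 80) (nat_lit 5) (nat_lit 81) (nat_lit 5) (nat_lit 339) (nat_lit 312) (nat_lit 210))))) (XT.nd (nat_lit 188) (nat_lit 420) (nat_lit 0) (XT.nd (nat_lit 94) (nat_lit 0) (nat_lit 0) (XT.lf (nat_lit 0) (nat_lit 292461429) (nat_lit 588) (nat_lit 10558606043) (nat_lit 84) (nat_lit 3920628559) (nat_lit 67) (nat_lit 5) (nat_lit 74) (nat_lit 5) (nat_lit 68) (nat_lit 5) (nat_lit 340) (nat_lit 312) (nat_lit 209))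 (XT.lf (nat_lit 0) (nat_lit 1512106035) (nat_lit 588) (nat_lit 5339065107) (nat_lit 84) (nat_lit 8202441099) (nat_lit 67) (nat_lit 5) (nat_lit 74) (nat_lit 5) (nat_lit 68) (nat_lit 5) (nat_lit 341) (nat_lit 312) (nat_lit 208))) (XT.nd (nat_lit 94) (nat_lit 0) (nat_lit 0) (XT.lf (nat_lit 0) (nat_lit 30740836) (nat_lit 420) (nat_lit 2726867071) (nat_lit 504) (nat_lit 12587092103) (nat_lit 62) (nat_lit 5) (nat_lit 67) (nat_lit 5) (nat_lit 68) (nat_lit 5) (nat_lit 342) (nat_lit 312) (nat_lit 207)) (XT.nd (nat_lit 94) (nat_lit 0) (nat_lit 0) (XT.lf (nat_lit 0) (nat_lit 4101142433) (nat_lit 504) (nat_lit 9991057563) (nat_lit 84) (nat_lit 1550829218) (nat_lit 62) (nat_lit 5) (nat_lit 68) (nat_lit 5) (nat_lit 63) (nat_lit 5) (nat_lit 343) (nat_lit 312) (nat_lit 206)) (XT.lf (nat_lit 0) (nat_lit 5502569176) (nat_lit 504) (nat_lit 4543129280) (nat_lit 84) (nat_lit 5904462647) (nat_lit 62) (nat_lit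 5) (nat_lit 68) (nat_lit 5) (nat_lit 63) (nat_lit 5) (nat_lit 344) (nat_lit 312) (nat_lit 205))))))) (XT.nd (nat_lit 846) (nat_lit 924) (nat_lit 0) (XT.nd (nat_lit 376) (nat_lit 504) (nat_lit 0) (XT.nd (nat_lit 188) (nat_lit 336) (nat_lit 0) (XT.nd (nat_lit 94) (nat_lit 0) (nat_lit 0) (XT.lf (nat_lit 0) (nat_lit 1083790537) (nat_lit 420) (nat_lit 5863104353) (nat_lit 504) (nat_lit 9319992351) (nat_lit 57) (nat_lit 5) (nat_lit 62) (nat_lit 5) (nat_lit 63) (nat_lit 5) (nat_lit 345) (nat_lit 312) (nat_lit 204)) (XT.lf (nat_lit 0) (nat_lit 6969845374) (nat_lit 420) (nat_lit 1502498163) (nat_lit 504) (nat_lit 8120016104) (nat_lit 57) (nat_lit 5) (nat_lit 62) (nat_lit 5) (nat_lit 63) (nat_lit 5) (nat_lit 346) (nat_lit 312) (nat_lit 203))) (XT.nd (nat_lit 94) (nat_lit 336) (nat_lit 0) (XT.lf (nat_lit 0) (nat_lit 10064030478) (nat_lit 504) (nat_lit 3930890519) (nat_lit 84) (nat_lit 2932466183) (nat_lit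 57) (nat_lit 5) (nat_lit 63) (nat_lit 5) (nat_lit 58) (nat_lit 5) (nat_lit 347) (nat_lit 312) (nat_lit 202)) (XT.lf (nat_lit 0) (nat_lit 1949797735) (nat_lit 336) (nat_lit 9779549906) (nat_lit 420) (nat_lit 5542751340) (nat_lit 53) (nat_lit 5) (nat_lit 57) (nat_lit 5) (nat_lit 58) (nat_lit 5) (nat_lit 348) (nat_lit 312) (nat_lit 201)))) (XT.nd (nat_lit 188) (nat_lit 504) (nat_lit 0) (XT.nd (nat_lit 94) (nat_lit 0) (nat_lit 0) (XT.lf (nat_lit 0) (nat_lit 8084941581) (nat_lit 336) (nat_lit 5392159616) (nat_lit 420) (nat_lit 4149490282) (nat_lit 53) (nat_lit 5) (nat_lit 57) (nat_lit 5) (nat_lit 58) (nat_lit 5) (nat_lit 349) (nat_lit 312) (nat_lit 200)) (XT.lf (nat_lit 0) (nat_lit 14399432444) (nat_lit 336) (nat_lit 869691054) (nat_lit 420) (nat_lit 2723305300) (nat_lit 53) (nat_lit 5) (nat_lit 57) (nat_lit 5) (nat_lit 58) (nat_lit 5) (nat_lit 350) (nat_lit 312) (nat_lit 199))) (XT.nd (nat_lit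 94) (nat_lit 84) (nat_lit 0) (XT.lf (nat_lit 0) (nat_lit 2542818463) (nat_lit 420) (nat_lit 14627109325) (nat_lit 504) (nat_lit 1198076020) (nat_lit 48) (nat_lit 5) (nat_lit 53) (nat_lit 5) (nat_lit 54) (nat_lit 5) (nat_lit 351) (nat_lit 312) (nat_lit 198)) (XT.nd (nat_lit 94) (nat_lit 0) (nat_lit 0) (XT.lf (nat_lit 0) (nat_lit 404092458) (nat_lit 504) (nat_lit 9833022307) (nat_lit 84) (nat_lit 8516882560) (nat_lit 47) (nat_lit 5) (nat_lit 53) (nat_lit 5) (nat_lit 48) (nat_lit 5) (nat_lit 352) (nat_lit 312) (nat_lit 197)) (XT.lf (nat_lit 0) (nat_lit 2021748528) (nat_lit 504) (nat_lit 3678009000) (nat_lit 84) (nat_lit 13452150074) (nat_lit 47) (nat_lit 5) (nat_lit 53) (nat_lit 5) (nat_lit 48) (nat_lit 5) (nat_lit 353) (nat_lit 312) (nat_lit 196)))))) (XT.nd (nat_lit 470) (nat_lit 252) (nat_lit 0) (XT.nd (nat_lit 188) (nat_lit 336) (nat_lit 0) (XT.nd (nat_lit 94) (nat_lit 0) (nat_lit 0) (XT.lf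 (nat_lit 0) (nat_lit 2712119927) (nat_lit 336) (nat_lit 995323214) (nat_lit 420) (nat_lit 15854196785) (nat_lit 43) (nat_lit 5) (nat_lit 47) (nat_lit 5) (nat_lit 48) (nat_lit 5) (nat_lit 354) (nat_lit 312) (nat_lit 195)) (XT.lf (nat_lit 0) (nat_lit 5513561825) (nat_lit 420) (nat_lit 10653732326) (nat_lit 84) (nat_lit 3814706818) (nat_lit 43) (nat_lit 5) (nat_lit 48) (nat_lit 5) (nat_lit 44) (nat_lit 5) (nat_lit 355) (nat_lit 312) (nat_lit 194))) (XT.nd (nat_lit 94) (nat_lit 336) (nat_lit 0) (XT.lf (nat_lit 0) (nat_lit 7377258782) (nat_lit 420) (nat_lit 4286267450) (nat_lit 84) (nat_lit 8751856726) (nat_lit 43) (nat_lit 5) (nat_lit 48) (nat_lit 5) (nat_lit 44) (nat_lit 5) (nat_lit 356) (nat_lit 312) (nat_lit 193)) (XT.nd (nat_lit 94) (nat_lit 0) (nat_lit 0) (XT.lf (nat_lit 0) (nat_lit 2315332286) (nat_lit 336) (nat_lit 6998033541) (nat_lit 420) (nat_lit 11548418092) (nat_lit 39) (nat_lit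 5) (nat_lit 43) (nat_lit 5) (nat_lit 44) (nat_lit 5) (nat_lit 357) (nat_lit 312) (nat_lit 192)) (XT.lf (nat_lit 0) (nat_lit 9202643180) (nat_lit 336) (nat_lit 2143409235) (nat_lit 420) (nat_lit 9974874217) (nat_lit 39) (nat_lit 5) (nat_lit 43) (nat_lit 5) (nat_lit 44) (nat_lit 5) (nat_lit 358) (nat_lit 312) (nat_lit 191))))) (XT.nd (nat_lit 188) (nat_lit 0) (nat_lit 0) (XT.nd (nat_lit 94) (nat_lit 252) (nat_lit 0) (XT.lf (nat_lit 0) (nat_lit 13462191479) (nat_lit 420) (nat_lit 5529006688) (nat_lit 84) (nat_lit 2802506575) (nat_lit 39) (nat_lit 5) (nat_lit 44) (nat_lit 5) (nat_lit 40) (nat_lit 5) (nat_lit 359) (nat_lit 312) (nat_lit 190)) (XT.lf (nat_lit 0) (nat_lit 1258489195) (nat_lit 252) (nat_lit 14412137769) (nat_lit 336) (nat_lit 6609718948) (nat_lit 36) (nat_lit 5) (nat_lit 39) (nat_lit 5) (nat_lit 40) (nat_lit 5) (nat_lit 360) (nat_lit 312) (nat_lit 189))) (XT.nd (nat_lit 94) (nat_lit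 0) (nat_lit 0) (XT.lf (nat_lit 0) (nat_lit 8364223306) (nat_lit 252) (nat_lit 9633440561) (nat_lit 336) (nat_lit 4782888233) (nat_lit 36) (nat_lit 5) (nat_lit 39) (nat_lit 5) (nat_lit 40) (nat_lit 5) (nat_lit 361) (nat_lit 312) (nat_lit 188)) (XT.nd (nat_lit 94) (nat_lit 0) (nat_lit 0) (XT.lf (nat_lit 0) (nat_lit 15681131216) (nat_lit 252) (nat_lit 4708363787) (nat_lit 336) (nat_lit 2907029812) (nat_lit 36) (nat_lit 5) (nat_lit 39) (nat_lit 5) (nat_lit 40) (nat_lit 5) (nat_lit 362) (nat_lit 312) (nat_lit 187)) (XT.lf (nat_lit 0) (nat_lit 22851997274) (nat_lit 336) (nat_lit 616359410) (nat_lit 84) (nat_lit 360275241) (nat_lit 36) (nat_lit 5) (nat_lit 40) (nat_lit 5) (nat_lit 37) (nat_lit 5) (nat_lit 363) (nat_lit 312) (nat_lit 186))))))))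
noncomputable def xc92 : XT := (XT.nd (nat_lit 50572) (nat_lit 0) (nat_lit 2856) (XT.nd (nat_lit 49726) (nat_lit 0) (nat_lit 6636) (XT.nd (nat_lit 49256) (nat_lit 0) (nat_lit 6552) (XT.nd (nat_lit 188) (nat_lit 252) (nat_lit 0) (XT.nd (nat_lit 94) (nat_lit 0) (nat_lit 0) (XT.lf (nat_lit 0) (nat_lit 1101719208) (nat_lit 420) (nat_lit 17707859691) (nat_lit 84) (nat_lit 5564008694) (nat_lit 31) (nat_lit 5) (nat_lit 36) (nat_lit 5) (nat_lit 32) (nat_lit 5) (nat_lit 364) (nat_lit 312) (nat_lit 185)) (XT.lf (nat_lit 0) (nat_lit 3223812291) (nat_lit 420) (nat_lit 10767540159) (nat_lit 84) (nat_lit 10943816013) (nat_lit 31) (nat_lit 5) (nat_lit 36) (nat_lit 5) (nat_lit 32) (nat_lit 5) (nat_lit 365) (nat_lit 312) (nat_lit 184))) (XT.nd (nat_lit 94) (nat_lit 252) (nat_lit 0) (XT.lf (nat_lit 0) (nat_lit 5404995715) (nat_lit 420) (nat_lit 3620678535) (nat_lit 84) (nat_lit 16488719496) (nat_lit 31) (nat_lit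 5) (nat_lit 36) (nat_lit 5) (nat_lit 32) (nat_lit 5) (nat_lit 366) (nat_lit 312) (nat_lit 183)) (XT.lf (nat_lit 0) (nat_lit 3816276266) (nat_lit 252) (nat_lit 3868884237) (nat_lit 336) (nat_lit 18425469243) (nat_lit 28) (nat_lit 5) (nat_lit 31) (nat_lit 5) (nat_lit 32) (nat_lit 5) (nat_lit 367) (nat_lit 312) (nat_lit 182)))) (XT.nd (nat_lit 188) (nat_lit 0) (nat_lit 0) (XT.nd (nat_lit 94) (nat_lit 0) (nat_lit 0) (XT.lf (nat_lit 0) (nat_lit 249516506) (nat_lit 0) (nat_lit 249516506) (nat_lit 924) (nat_lit 4347970803) (nat_lit 106) (nat_lit 5) (nat_lit 106) (nat_lit 3) (nat_lit 117) (nat_lit 3) (nat_lit 313) (nat_lit 313) (nat_lit 235)) (XT.lf (nat_lit 0) (nat_lit 1656977258) (nat_lit 924) (nat_lit 5794580638) (nat_lit 1008) (nat_lit 2369163165) (nat_lit 106) (nat_lit 5) (nat_lit 117) (nat_lit 3) (nat_lit 118) (nat_lit 5) (nat_lit 314) (nat_lit 313) (nat_lit 234))) (XT.nd (nat_lit 94) (nat_lit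 0) (nat_lit 0) (XT.lf (nat_lit 0) (nat_lit 2316581186) (nat_lit 924) (nat_lit 2307401582) (nat_lit 1008) (nat_lit 5328136526) (nat_lit 106) (nat_lit 5) (nat_lit 117) (nat_lit 3) (nat_lit 118) (nat_lit 5) (nat_lit 315) (nat_lit 313) (nat_lit 233)) (XT.nd (nat_lit 94) (nat_lit 0) (nat_lit 84) (XT.lf (nat_lit 84) (nat_lit 1300975187) (nat_lit 0) (nat_lit 1684472805) (nat_lit 1008) (nat_lit 7102630195) (nat_lit 107) (nat_lit 5) (nat_lit 106) (nat_lit 5) (nat_lit 118) (nat_lit 5) (nat_lit 316) (nat_lit 313) (nat_lit 232)) (XT.lf (nat_lit 0) (nat_lit 3689343784) (nat_lit 924) (nat_lit 5184931045) (nat_lit 1008) (nat_lit 1353670219) (nat_lit 107) (nat_lit 5) (nat_lit 118) (nat_lit 5) (nat_lit 119) (nat_lit 5) (nat_lit 317) (nat_lit 313) (nat_lit 231)))))) (XT.nd (nat_lit 376) (nat_lit 0) (nat_lit 84) (XT.nd (nat_lit 188) (nat_lit 0) (nat_lit 84) (XT.nd (nat_lit 94) (nat_lit 0) (nat_lit 0) (XT.lf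 (nat_lit 0) (nat_lit 4409601003) (nat_lit 924) (nat_lit 1501853197) (nat_lit 1008) (nat_lit 4460995077) (nat_lit 107) (nat_lit 5) (nat_lit 118) (nat_lit 5) (nat_lit 119) (nat_lit 5) (nat_lit 318) (nat_lit 313) (nat_lit 230)) (XT.lf (nat_lit 84) (nat_lit 2329201964) (nat_lit 0) (nat_lit 2824084835) (nat_lit 1008) (nat_lit 5368240502) (nat_lit 108) (nat_lit 5) (nat_lit 107) (nat_lit 5) (nat_lit 119) (nat_lit 5) (nat_lit 319) (nat_lit 313) (nat_lit 229))) (XT.nd (nat_lit 94) (nat_lit 0) (nat_lit 0) (XT.lf (nat_lit 0) (nat_lit 5918036213) (nat_lit 924) (nat_lit 4381471657) (nat_lit 1008) (nat_lit 375905007) (nat_lit 108) (nat_lit 5) (nat_lit 119) (nat_lit 5) (nat_lit 120) (nat_lit 5) (nat_lit 320) (nat_lit 313) (nat_lit 228)) (XT.lf (nat_lit 0) (nat_lit 6714631215) (nat_lit 924) (nat_lit 494815912) (nat_lit 1008) (nat_lit 3624490174) (nat_lit 108) (nat_lit 5) (nat_lit 119) (nat_lit 5) (nat_lit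 120) (nat_lit 5) (nat_lit 321) (nat_lit 313) (nat_lit 227)))) (XT.nd (nat_lit 188) (nat_lit 0) (nat_lit 84) (XT.nd (nat_lit 94) (nat_lit 0) (nat_lit 0) (XT.lf (nat_lit 84) (nat_lit 3571232310) (nat_lit 0) (nat_lit 3979993800) (nat_lit 1008) (nat_lit 3445792458) (nat_lit 109) (nat_lit 5) (nat_lit 108) (nat_lit 5) (nat_lit 120) (nat_lit 5) (nat_lit 322) (nat_lit 313) (nat_lit 226)) (XT.lf (nat_lit 84) (nat_lit 7760903723) (nat_lit 0) (nat_lit 638371872) (nat_lit 1008) (nat_lit 2766442168) (nat_lit 109) (nat_lit 5) (nat_lit 108) (nat_lit 5) (nat_lit 120) (nat_lit 5) (nat_lit 323) (nat_lit 313) (nat_lit 225))) (XT.nd (nat_lit 94) (nat_lit 0) (nat_lit 0) (XT.lf (nat_lit 84) (nat_lit 714059421) (nat_lit 0) (nat_lit 8575493678) (nat_lit 1008) (nat_lit 2049709563) (nat_lit 110) (nat_lit 5) (nat_lit 109) (nat_lit 5) (nat_lit 121) (nat_lit 5) (nat_lit 324) (nat_lit 313) (nat_lit 224)) (XT.nd (nat_lit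 94) (nat_lit 0) (nat_lit 0) (XT.lf (nat_lit 84) (nat_lit 5012978103) (nat_lit 0) (nat_lit 5217904493) (nat_lit 1008) (nat_lit 1286684612) (nat_lit 110) (nat_lit 5) (nat_lit 109) (nat_lit 5) (nat_lit 121) (nat_lit 5) (nat_lit 325) (nat_lit 313) (nat_lit 223)) (XT.lf (nat_lit 84) (nat_lit 9432402029) (nat_lit 0) (nat_lit 1751000174) (nat_lit 1008) (nat_lit 518658314) (nat_lit 110) (nat_lit 5) (nat_lit 109) (nat_lit 5) (nat_lit 121) (nat_lit 5) (nat_lit 326) (nat_lit 313) (nat_lit 222))))))) (XT.nd (nat_lit 846) (nat_lit 1512) (nat_lit 0) (XT.nd (nat_lit 376) (nat_lit 1512) (nat_lit 0) (XT.nd (nat_lit 188) (nat_lit 0) (nat_lit 0) (XT.nd (nat_lit 94) (nat_lit 0) (nat_lit 0) (XT.lf (nat_lit 0) (nat_lit 289393943) (nat_lit 1008) (nat_lit 9786767542) (nat_lit 1092) (nat_lit 1815451735) (nat_lit 98) (nat_lit 5) (nat_lit 110) (nat_lit 5) (nat_lit 111) (nat_lit 5) (nat_lit 327) (nat_lit 313) (nat_lit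 221)) (XT.lf (nat_lit 0) (nat_lit 1136289152) (nat_lit 1008) (nat_lit 5460074877) (nat_lit 1092) (nat_lit 5489846535) (nat_lit 98) (nat_lit 5) (nat_lit 110) (nat_lit 5) (nat_lit 111) (nat_lit 5) (nat_lit 328) (nat_lit 313) (nat_lit 220))) (XT.nd (nat_lit 94) (nat_lit 0) (nat_lit 84) (XT.lf (nat_lit 0) (nat_lit 1992683110) (nat_lit 1008) (nat_lit 1012238934) (nat_lit 1092) (nat_lit 9282529477) (nat_lit 98) (nat_lit 5) (nat_lit 110) (nat_lit 5) (nat_lit 111) (nat_lit 5) (nat_lit 329) (nat_lit 313) (nat_lit 219)) (XT.lf (nat_lit 0) (nat_lit 2902752641) (nat_lit 1008) (nat_lit 8867628637) (nat_lit 84) (nat_lit 723797653) (nat_lit 99) (nat_lit 5) (nat_lit 111) (nat_lit 5) (nat_lit 100) (nat_lit 5) (nat_lit 330) (nat_lit 313) (nat_lit 218)))) (XT.nd (nat_lit 188) (nat_lit 588) (nat_lit 0) (XT.nd (nat_lit 94) (nat_lit 1008) (nat_lit 0) (XT.lf (nat_lit 0) (nat_lit 3866589056) (nat_lit 1008) (nat_lit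 4320306723) (nat_lit 84) (nat_lit 4519713174) (nat_lit 99) (nat_lit 5) (nat_lit 111) (nat_lit 5) (nat_lit 100) (nat_lit 5) (nat_lit 331) (nat_lit 313) (nat_lit 217)) (XT.lf (nat_lit 0) (nat_lit 362602106) (nat_lit 1008) (nat_lit 4485923682) (nat_lit 1092) (nat_lit 8077547320) (nat_lit 87) (nat_lit 5) (nat_lit 99) (nat_lit 5) (nat_lit 100) (nat_lit 5) (nat_lit 332) (nat_lit 313) (nat_lit 216))) (XT.nd (nat_lit 94) (nat_lit 588) (nat_lit 0) (XT.lf (nat_lit 0) (nat_lit 5269712084) (nat_lit 1008) (nat_lit 621247690) (nat_lit 1092) (nat_lit 7260530251) (nat_lit 87) (nat_lit 5) (nat_lit 99) (nat_lit 5) (nat_lit 100) (nat_lit 5) (nat_lit 333) (nat_lit 313) (nat_lit 215)) (XT.nd (nat_lit 94) (nat_lit 588) (nat_lit 0) (XT.lf (nat_lit 0) (nat_lit 6984511007) (nat_lit 1092) (nat_lit 3101050511) (nat_lit 84) (nat_lit 3297829204) (nat_lit 87) (nat_lit 5) (nat_lit 100) (nat_lit 5) (nat_lit 88) (nat_lit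 5) (nat_lit 334) (nat_lit 313) (nat_lit 214)) (XT.lf (nat_lit 0) (nat_lit 1846374370) (nat_lit 588) (nat_lit 6276134069) (nat_lit 672) (nat_lit 5499721313) (nat_lit 80) (nat_lit 5) (nat_lit 87) (nat_lit 5) (nat_lit 88) (nat_lit 5) (nat_lit 335) (nat_lit 313) (nat_lit 213)))))) (XT.nd (nat_lit 470) (nat_lit 1008) (nat_lit 0) (XT.nd (nat_lit 188) (nat_lit 504) (nat_lit 0) (XT.nd (nat_lit 94) (nat_lit 0) (nat_lit 0) (XT.lf (nat_lit 0) (nat_lit 7000683587) (nat_lit 588) (nat_lit 2313648153) (nat_lit 672) (nat_lit 4553640114) (nat_lit 80) (nat_lit 5) (nat_lit 87) (nat_lit 5) (nat_lit 88) (nat_lit 5) (nat_lit 336) (nat_lit 313) (nat_lit 212)) (XT.lf (nat_lit 0) (nat_lit 10547287034) (nat_lit 672) (nat_lit 1836492378) (nat_lit 84) (nat_lit 1737494621) (nat_lit 80) (nat_lit 5) (nat_lit 88) (nat_lit 5) (nat_lit 81) (nat_lit 5) (nat_lit 337) (nat_lit 313) (nat_lit 211))) (XT.nd (nat_lit 94) (nat_lit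 0) (nat_lit 0) (XT.lf (nat_lit 0) (nat_lit 3382760201) (nat_lit 504) (nat_lit 8479937157) (nat_lit 588) (nat_lit 2518429645) (nat_lit 74) (nat_lit 5) (nat_lit 80) (nat_lit 5) (nat_lit 81) (nat_lit 5) (nat_lit 338) (nat_lit 313) (nat_lit 210)) (XT.nd (nat_lit 94) (nat_lit 0) (nat_lit 0) (XT.lf (nat_lit 0) (nat_lit 8790873786) (nat_lit 504) (nat_lit 4434466430) (nat_lit 588) (nat_lit 1423562667) (nat_lit 74) (nat_lit 5) (nat_lit 80) (nat_lit 5) (nat_lit 81) (nat_lit 5) (nat_lit 339) (nat_lit 313) (nat_lit 209)) (XT.lf (nat_lit 0) (nat_lit 14355127255) (nat_lit 504) (nat_lit 262765641) (nat_lit 588) (nat_lit 307534750) (nat_lit 74) (nat_lit 5) (nat_lit 80) (nat_lit 5) (nat_lit 81) (nat_lit 5) (nat_lit 340) (nat_lit 313) (nat_lit 208))))) (XT.nd (nat_lit 188) (nat_lit 420) (nat_lit 0) (XT.nd (nat_lit 94) (nat_lit 0) (nat_lit 0) (XT.lf (nat_lit 0) (nat_lit 903831700) (nat_lit 588) (nat_lit 10288363391)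 (nat_lit 84) (nat_lit 4015722398) (nat_lit 67) (nat_lit 5) (nat_lit 74) (nat_lit 5) (nat_lit 68) (nat_lit 5) (nat_lit 341) (nat_lit 313) (nat_lit 207)) (XT.lf (nat_lit 0) (nat_lit 2143175277) (nat_lit 588) (nat_lit 4924984040) (nat_lit 84) (nat_lit 8431066291) (nat_lit 67) (nat_lit 5) (nat_lit 74) (nat_lit 5) (nat_lit 68) (nat_lit 5) (nat_lit 342) (nat_lit 313) (nat_lit 206))) (XT.nd (nat_lit 94) (nat_lit 0) (nat_lit 0) (XT.lf (nat_lit 0) (nat_lit 605418038) (nat_lit 420) (nat_lit 2809995602) (nat_lit 504) (nat_lit 12384379912) (nat_lit 62) (nat_lit 5) (nat_lit 67) (nat_lit 5) (nat_lit 68) (nat_lit 5) (nat_lit 343) (nat_lit 313) (nat_lit 205)) (XT.nd (nat_lit 94) (nat_lit 0) (nat_lit 0) (XT.lf (nat_lit 0) (nat_lit 4783402794) (nat_lit 504) (nat_lit 9724347309) (nat_lit 84) (nat_lit 1600239602) (nat_lit 62) (nat_lit 5) (nat_lit 68) (nat_lit 5) (nat_lit 63) (nat_lit 5) (nat_lit 344) (nat_lit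 313) (nat_lit 204)) (XT.lf (nat_lit 0) (nat_lit 6211582328) (nat_lit 504) (nat_lit 4124865377) (nat_lit 84) (nat_lit 6088795536) (nat_lit 62) (nat_lit 5) (nat_lit 68) (nat_lit 5) (nat_lit 63) (nat_lit 5) (nat_lit 345) (nat_lit 313) (nat_lit 203))))))))
noncomputable def xc93 : XT := (XT.nd (nat_lit 1786) (nat_lit 420) (nat_lit 0) (XT.nd (nat_lit 846) (nat_lit 924) (nat_lit 0) (XT.nd (nat_lit 376) (nat_lit 504) (nat_lit 0) (XT.nd (nat_lit 188) (nat_lit 336) (nat_lit 0) (XT.nd (nat_lit 94) (nat_lit 0) (nat_lit 0) (XT.lf (nat_lit 0) (nat_lit 1670828559) (nat_lit 420) (nat_lit 6019154216) (nat_lit 504) (nat_lit 9062217420) (nat_lit 57) (nat_lit 5) (nat_lit 62) (nat_lit 5) (nat_lit 63) (nat_lit 5) (nat_lit 346) (nat_lit 313) (nat_lit 202)) (XT.lf (nat_lit 0) (nat_lit 7722710305) (nat_lit 420) (nat_lit 1524142171) (nat_lit 504) (nat_lit 7841479868) (nat_lit 57) (nat_lit 5) (nat_lit 62) (nat_lit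 5) (nat_lit 63) (nat_lit 5) (nat_lit 347) (nat_lit 313) (nat_lit 201))) (XT.nd (nat_lit 94) (nat_lit 336) (nat_lit 0) (XT.lf (nat_lit 0) (nat_lit 10872730875) (nat_lit 504) (nat_lit 3514491259) (nat_lit 84) (nat_lit 3047069126) (nat_lit 57) (nat_lit 5) (nat_lit 63) (nat_lit 5) (nat_lit 58) (nat_lit 5) (nat_lit 348) (nat_lit 313) (nat_lit 200)) (XT.lf (nat_lit 0) (nat_lit 2543048963) (nat_lit 336) (nat_lit 10036974235) (nat_lit 420) (nat_lit 5210038637) (nat_lit 53) (nat_lit 5) (nat_lit 57) (nat_lit 5) (nat_lit 58) (nat_lit 5) (nat_lit 349) (nat_lit 313) (nat_lit 199)))) (XT.nd (nat_lit 188) (nat_lit 504) (nat_lit 0) (XT.nd (nat_lit 94) (nat_lit 0) (nat_lit 0) (XT.lf (nat_lit 0) (nat_lit 8852361868) (nat_lit 336) (nat_lit 5514950203) (nat_lit 420) (nat_lit 3788756883) (nat_lit 53) (nat_lit 5) (nat_lit 57) (nat_lit 5) (nat_lit 58) (nat_lit 5) (nat_lit 350) (nat_lit 313) (nat_lit 198)) (XT.lf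 (nat_lit 0) (nat_lit 15347063248) (nat_lit 336) (nat_lit 853619119) (nat_lit 420) (nat_lit 2333074420) (nat_lit 53) (nat_lit 5) (nat_lit 57) (nat_lit 5) (nat_lit 58) (nat_lit 5) (nat_lit 351) (nat_lit 313) (nat_lit 197))) (XT.nd (nat_lit 94) (nat_lit 84) (nat_lit 0) (XT.lf (nat_lit 0) (nat_lit 3133667870) (nat_lit 420) (nat_lit 15018459500) (nat_lit 504) (nat_lit 769171191) (nat_lit 48) (nat_lit 5) (nat_lit 53) (nat_lit 5) (nat_lit 54) (nat_lit 5) (nat_lit 352) (nat_lit 313) (nat_lit 196)) (XT.nd (nat_lit 94) (nat_lit 0) (nat_lit 0) (XT.lf (nat_lit 0) (nat_lit 859544070) (nat_lit 504) (nat_lit 9630074735) (nat_lit 84) (nat_lit 8829984558) (nat_lit 47) (nat_lit 5) (nat_lit 53) (nat_lit 5) (nat_lit 48) (nat_lit 5) (nat_lit 353) (nat_lit 313) (nat_lit 195)) (XT.lf (nat_lit 0) (nat_lit 2514029664) (nat_lit 504) (nat_lit 3299523628) (nat_lit 84) (nat_lit 13916769673) (nat_lit 47) (nat_lit 5)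 (nat_lit 53) (nat_lit 5) (nat_lit 48) (nat_lit 5) (nat_lit 354) (nat_lit 313) (nat_lit 194)))))) (XT.nd (nat_lit 470) (nat_lit 252) (nat_lit 0) (XT.nd (nat_lit 188) (nat_lit 336) (nat_lit 0) (XT.nd (nat_lit 94) (nat_lit 0) (nat_lit 0) (XT.lf (nat_lit 0) (nat_lit 3283713139) (nat_lit 336) (nat_lit 960186528) (nat_lit 420) (nat_lit 15909167252) (nat_lit 43) (nat_lit 5) (nat_lit 47) (nat_lit 5) (nat_lit 48) (nat_lit 5) (nat_lit 355) (nat_lit 313) (nat_lit 193)) (XT.lf (nat_lit 0) (nat_lit 6093968599) (nat_lit 420) (nat_lit 10497240809) (nat_lit 84) (nat_lit 3995680595) (nat_lit 43) (nat_lit 5) (nat_lit 48) (nat_lit 5) (nat_lit 44) (nat_lit 5) (nat_lit 356) (nat_lit 313) (nat_lit 192))) (XT.nd (nat_lit 94) (nat_lit 336) (nat_lit 0) (XT.lf (nat_lit 0) (nat_lit 8003127769) (nat_lit 420) (nat_lit 3947020288) (nat_lit 84) (nat_lit 9083996356) (nat_lit 43) (nat_lit 5) (nat_lit 48) (nat_lit 5) (nat_lit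 44) (nat_lit 5) (nat_lit 357) (nat_lit 313) (nat_lit 191)) (XT.nd (nat_lit 94) (nat_lit 0) (nat_lit 0) (XT.lf (nat_lit 0) (nat_lit 2854449235) (nat_lit 336) (nat_lit 7137498799) (nat_lit 420) (nat_lit 11502716471) (nat_lit 39) (nat_lit 5) (nat_lit 43) (nat_lit 5) (nat_lit 44) (nat_lit 5) (nat_lit 358) (nat_lit 313) (nat_lit 190)) (XT.lf (nat_lit 0) (nat_lit 9941214786) (nat_lit 336) (nat_lit 2134710614) (nat_lit 420) (nat_lit 9892531222) (nat_lit 39) (nat_lit 5) (nat_lit 43) (nat_lit 5) (nat_lit 44) (nat_lit 5) (nat_lit 359) (nat_lit 313) (nat_lit 189))))) (XT.nd (nat_lit 188) (nat_lit 0) (nat_lit 0) (XT.nd (nat_lit 94) (nat_lit 252) (nat_lit 0) (XT.lf (nat_lit 0) (nat_lit 14247017767) (nat_lit 420) (nat_lit 5248453458) (nat_lit 84) (nat_lit 2960800688) (nat_lit 39) (nat_lit 5) (nat_lit 44) (nat_lit 5) (nat_lit 40) (nat_lit 5) (nat_lit 360) (nat_lit 313) (nat_lit 188)) (XT.lf (nat_lit 0)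 (nat_lit 1744879184) (nat_lit 252) (nat_lit 14772423700) (nat_lit 336) (nat_lit 6440950513) (nat_lit 36) (nat_lit 5) (nat_lit 39) (nat_lit 5) (nat_lit 40) (nat_lit 5) (nat_lit 361) (nat_lit 313) (nat_lit 187))) (XT.nd (nat_lit 94) (nat_lit 0) (nat_lit 0) (XT.lf (nat_lit 0) (nat_lit 9057439373) (nat_lit 252) (nat_lit 9848187461) (nat_lit 336) (nat_lit 4568723508) (nat_lit 36) (nat_lit 5) (nat_lit 39) (nat_lit 5) (nat_lit 40) (nat_lit 5) (nat_lit 362) (nat_lit 313) (nat_lit 186)) (XT.nd (nat_lit 94) (nat_lit 0) (nat_lit 0) (XT.lf (nat_lit 0) (nat_lit 16588124213) (nat_lit 252) (nat_lit 4772955696) (nat_lit 336) (nat_lit 2645611110) (nat_lit 36) (nat_lit 5) (nat_lit 39) (nat_lit 5) (nat_lit 40) (nat_lit 5) (nat_lit 363) (nat_lit 313) (nat_lit 185)) (XT.lf (nat_lit 0) (nat_lit 23890494285) (nat_lit 336) (nat_lit 216361974) (nat_lit 84) (nat_lit 448774518) (nat_lit 36) (nat_lit 5) (nat_lit 40)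 (nat_lit 5) (nat_lit 37) (nat_lit 5) (nat_lit 364) (nat_lit 313) (nat_lit 184))))))) (XT.nd (nat_lit 49820) (nat_lit 0) (nat_lit 5544) (XT.nd (nat_lit 49350) (nat_lit 0) (nat_lit 6300) (XT.nd (nat_lit 188) (nat_lit 0) (nat_lit 0) (XT.nd (nat_lit 94) (nat_lit 0) (nat_lit 0) (XT.lf (nat_lit 0) (nat_lit 1464848552) (nat_lit 420) (nat_lit 17833807546) (nat_lit 84) (nat_lit 5818944601) (nat_lit 31) (nat_lit 5) (nat_lit 36) (nat_lit 5) (nat_lit 32) (nat_lit 5) (nat_lit 365) (nat_lit 313) (nat_lit 183)) (XT.lf (nat_lit 0) (nat_lit 3642834903) (nat_lit 420) (nat_lit 10691056702) (nat_lit 84) (nat_lit 11363046799) (nat_lit 31) (nat_lit 5) (nat_lit 36) (nat_lit 5) (nat_lit 32) (nat_lit 5) (nat_lit 366) (nat_lit 313) (nat_lit 182))) (XT.nd (nat_lit 49068) (nat_lit 0) (nat_lit 6300) (XT.lf (nat_lit 0) (nat_lit 5882040816) (nat_lit 420) (nat_lit 3334978539) (nat_lit 84) (nat_lit 17077437686) (nat_lit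 31) (nat_lit 5) (nat_lit 36) (nat_lit 5) (nat_lit 32) (nat_lit 5) (nat_lit 367) (nat_lit 313) (nat_lit 181)) (XT.lf (nat_lit 0) (nat_lit 563906760) (nat_lit 0) (nat_lit 563906760) (nat_lit 924) (nat_lit 3846873461) (nat_lit 106) (nat_lit 5) (nat_lit 106) (nat_lit 3) (nat_lit 117) (nat_lit 3) (nat_lit 314) (nat_lit 314) (nat_lit 233)))) (XT.nd (nat_lit 188) (nat_lit 0) (nat_lit 0) (XT.nd (nat_lit 94) (nat_lit 0) (nat_lit 0) (XT.lf (nat_lit 0) (nat_lit 2892181434) (nat_lit 924) (nat_lit 5329651530) (nat_lit 1008) (nat_lit 1859722988) (nat_lit 106) (nat_lit 5) (nat_lit 117) (nat_lit 3) (nat_lit 118) (nat_lit 5) (nat_lit 315) (nat_lit 314) (nat_lit 232)) (XT.lf (nat_lit 0) (nat_lit 3536637570) (nat_lit 924) (nat_lit 1753750519) (nat_lit 1008) (nat_lit 4927950626) (nat_lit 106) (nat_lit 5) (nat_lit 117) (nat_lit 3) (nat_lit 118) (nat_lit 5) (nat_lit 316) (nat_lit 314) (nat_lit 231))) (XT.nd (nat_lit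 94) (nat_lit 0) (nat_lit 84) (XT.lf (nat_lit 84) (nat_lit 1960156539) (nat_lit 0) (nat_lit 2237696558) (nat_lit 1008) (nat_lit 6161740686) (nat_lit 107) (nat_lit 5) (nat_lit 106) (nat_lit 5) (nat_lit 118) (nat_lit 5) (nat_lit 317) (nat_lit 314) (nat_lit 230)) (XT.nd (nat_lit 94) (nat_lit 0) (nat_lit 0) (XT.lf (nat_lit 0) (nat_lit 4885077344) (nat_lit 924) (nat_lit 4700624157) (nat_lit 1008) (nat_lit 919483696) (nat_lit 107) (nat_lit 5) (nat_lit 118) (nat_lit 5) (nat_lit 119) (nat_lit 5) (nat_lit 318) (nat_lit 314) (nat_lit 229)) (XT.lf (nat_lit 0) (nat_lit 5595148200) (nat_lit 924) (nat_lit 922765884) (nat_lit 1008) (nat_lit 4137452462) (nat_lit 107) (nat_lit 5) (nat_lit 118) (nat_lit 5) (nat_lit 119) (nat_lit 5) (nat_lit 319) (nat_lit 314) (nat_lit 228)))))) (XT.nd (nat_lit 470) (nat_lit 840) (nat_lit 0) (XT.nd (nat_lit 188) (nat_lit 0) (nat_lit 84) (XT.nd (nat_lit 94) (nat_lit 0) (nat_lit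 84) (XT.lf (nat_lit 84) (nat_lit 3020717896) (nat_lit 0) (nat_lit 3315777300) (nat_lit 1008) (nat_lit 4473541822) (nat_lit 108) (nat_lit 5) (nat_lit 107) (nat_lit 5) (nat_lit 119) (nat_lit 5) (nat_lit 320) (nat_lit 314) (nat_lit 227)) (XT.lf (nat_lit 0) (nat_lit 7090290030) (nat_lit 924) (nat_lit 3876194003) (nat_lit 1008) (nat_lit 3461848) (nat_lit 108) (nat_lit 5) (nat_lit 119) (nat_lit 5) (nat_lit 120) (nat_lit 5) (nat_lit 321) (nat_lit 314) (nat_lit 226))) (XT.nd (nat_lit 94) (nat_lit 0) (nat_lit 0) (XT.lf (nat_lit 84) (nat_lit 113967637) (nat_lit 0) (nat_lit 7769011437) (nat_lit 1008) (nat_lit 3251465056) (nat_lit 109) (nat_lit 5) (nat_lit 108) (nat_lit 5) (nat_lit 120) (nat_lit 5) (nat_lit 322) (nat_lit 314) (nat_lit 225)) (XT.nd (nat_lit 94) (nat_lit 0) (nat_lit 0) (XT.lf (nat_lit 84) (nat_lit 4297471724) (nat_lit 0) (nat_lit 4424175231) (nat_lit 1008) (nat_lit 2581841420) (nat_lit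 109) (nat_lit 5) (nat_lit 108) (nat_lit 5) (nat_lit 120) (nat_lit 5) (nat_lit 323) (nat_lit 314) (nat_lit 224)) (XT.lf (nat_lit 84) (nat_lit 8598515224) (nat_lit 0) (nat_lit 969317194) (nat_lit 1008) (nat_lit 1910620299) (nat_lit 109) (nat_lit 5) (nat_lit 108) (nat_lit 5) (nat_lit 120) (nat_lit 5) (nat_lit 324) (nat_lit 314) (nat_lit 223))))) (XT.nd (nat_lit 188) (nat_lit 1008) (nat_lit 0) (XT.nd (nat_lit 94) (nat_lit 0) (nat_lit 0) (XT.lf (nat_lit 84) (nat_lit 1363294004) (nat_lit 0) (nat_lit 9098334485) (nat_lit 1008) (nat_lit 1196653318) (nat_lit 110) (nat_lit 5) (nat_lit 109) (nat_lit 5) (nat_lit 121) (nat_lit 5) (nat_lit 325) (nat_lit 314) (nat_lit 222)) (XT.lf (nat_lit 84) (nat_lit 5776623626) (nat_lit 0) (nat_lit 5628932571) (nat_lit 1008) (nat_lit 437534744) (nat_lit 110) (nat_lit 5) (nat_lit 109) (nat_lit 5) (nat_lit 121) (nat_lit 5) (nat_lit 326) (nat_lit 314) (nat_lit 221))) (XT.nd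 (nat_lit 94) (nat_lit 0) (nat_lit 84) (XT.lf (nat_lit 0) (nat_lit 320969111) (nat_lit 1008) (nat_lit 1722739732) (nat_lit 1092) (nat_lit 9990441730) (nat_lit 97) (nat_lit 5) (nat_lit 109) (nat_lit 5) (nat_lit 110) (nat_lit 5) (nat_lit 327) (nat_lit 314) (nat_lit 220)) (XT.nd (nat_lit 94) (nat_lit 0) (nat_lit 0) (XT.lf (nat_lit 0) (nat_lit 1121721268) (nat_lit 1008) (nat_lit 9452102159) (nat_lit 1092) (nat_lit 1656400070) (nat_lit 98) (nat_lit 5) (nat_lit 110) (nat_lit 5) (nat_lit 111) (nat_lit 5) (nat_lit 328) (nat_lit 314) (nat_lit 219)) (XT.lf (nat_lit 0) (nat_lit 1970113643) (nat_lit 1008) (nat_lit 5010466997) (nat_lit 1092) (nat_lit 5451175649) (nat_lit 98) (nat_lit 5) (nat_lit 110) (nat_lit 5) (nat_lit 111) (nat_lit 5) (nat_lit 329) (nat_lit 314) (nat_lit 218))))))))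
noncomputable def xc94 : XT := (XT.nd (nat_lit 1692) (nat_lit 2184) (nat_lit 0) (XT.nd (nat_lit 846) (nat_lit 1932) (nat_lit 0) (XT.nd (nat_lit 376) (nat_lit 588) (nat_lit 0) (XT.nd (nat_lit 188) (nat_lit 924) (nat_lit 0) (XT.nd (nat_lit 94) (nat_lit 0) (nat_lit 84) (XT.lf (nat_lit 0) (nat_lit 2829043607) (nat_lit 1008) (nat_lit 443356265) (nat_lit 1092) (nat_lit 9367711626) (nat_lit 98) (nat_lit 5) (nat_lit 110) (nat_lit 5) (nat_lit 111) (nat_lit 5) (nat_lit 330) (nat_lit 314) (nat_lit 217)) (XT.lf (nat_lit 0) (nat_lit 3748312426) (nat_lit 1008) (nat_lit 8519138820) (nat_lit 84) (nat_lit 586513062) (nat_lit 99) (nat_lit 5) (nat_lit 111) (nat_lit 5) (nat_lit 100) (nat_lit 5) (nat_lit 331) (nat_lit 314) (nat_lit 216))) (XT.nd (nat_lit 94) (nat_lit 1008) (nat_lit 0) (XT.lf (nat_lit 0) (nat_lit 4719309236) (nat_lit 1008) (nat_lit 3849593841) (nat_lit 84) (nat_lit 4504904478) (nat_lit 99) (nat_lit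 5) (nat_lit 111) (nat_lit 5) (nat_lit 100) (nat_lit 5) (nat_lit 332) (nat_lit 314) (nat_lit 215)) (XT.lf (nat_lit 0) (nat_lit 972363700) (nat_lit 1008) (nat_lit 4743224273) (nat_lit 1092) (nat_lit 7585106067) (nat_lit 87) (nat_lit 5) (nat_lit 99) (nat_lit 5) (nat_lit 100) (nat_lit 5) (nat_lit 333) (nat_lit 314) (nat_lit 214)))) (XT.nd (nat_lit 188) (nat_lit 588) (nat_lit 0) (XT.nd (nat_lit 94) (nat_lit 0) (nat_lit 0) (XT.lf (nat_lit 0) (nat_lit 6013597824) (nat_lit 1008) (nat_lit 755188189) (nat_lit 1092) (nat_lit 6765097262) (nat_lit 87) (nat_lit 5) (nat_lit 99) (nat_lit 5) (nat_lit 100) (nat_lit 5) (nat_lit 334) (nat_lit 314) (nat_lit 213)) (XT.lf (nat_lit 0) (nat_lit 7874230487) (nat_lit 1092) (nat_lit 2608467980) (nat_lit 84) (nat_lit 3291069439) (nat_lit 87) (nat_lit 5) (nat_lit 100) (nat_lit 5) (nat_lit 88) (nat_lit 5) (nat_lit 335) (nat_lit 314) (nat_lit 212))) (XT.nd (nat_lit 94)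 (nat_lit 0) (nat_lit 0) (XT.lf (nat_lit 0) (nat_lit 2486366861) (nat_lit 588) (nat_lit 6546678284) (nat_lit 672) (nat_lit 4987523493) (nat_lit 80) (nat_lit 5) (nat_lit 87) (nat_lit 5) (nat_lit 88) (nat_lit 5) (nat_lit 336) (nat_lit 314) (nat_lit 211)) (XT.nd (nat_lit 94) (nat_lit 0) (nat_lit 0) (XT.lf (nat_lit 0) (nat_lit 7782937450) (nat_lit 588) (nat_lit 2459070623) (nat_lit 672) (nat_lit 4032640804) (nat_lit 80) (nat_lit 5) (nat_lit 87) (nat_lit 5) (nat_lit 88) (nat_lit 5) (nat_lit 337) (nat_lit 314) (nat_lit 210)) (XT.lf (nat_lit 0) (nat_lit 11493264516) (nat_lit 672) (nat_lit 1321945578) (nat_lit 84) (nat_lit 1721313793) (nat_lit 80) (nat_lit 5) (nat_lit 88) (nat_lit 5) (nat_lit 81) (nat_lit 5) (nat_lit 338) (nat_lit 314) (nat_lit 209)))))) (XT.nd (nat_lit 376) (nat_lit 840) (nat_lit 0) (XT.nd (nat_lit 188) (nat_lit 588) (nat_lit 0) (XT.nd (nat_lit 94) (nat_lit 0) (nat_lit 0) (XT.lf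 (nat_lit 0) (nat_lit 4053318129) (nat_lit 504) (nat_lit 8783133794) (nat_lit 588) (nat_lit 1968483230) (nat_lit 74) (nat_lit 5) (nat_lit 80) (nat_lit 5) (nat_lit 81) (nat_lit 5) (nat_lit 339) (nat_lit 314) (nat_lit 208)) (XT.lf (nat_lit 0) (nat_lit 9612074056) (nat_lit 504) (nat_lit 4611041179) (nat_lit 588) (nat_lit 858558547) (nat_lit 74) (nat_lit 5) (nat_lit 80) (nat_lit 5) (nat_lit 81) (nat_lit 5) (nat_lit 340) (nat_lit 314) (nat_lit 207))) (XT.nd (nat_lit 94) (nat_lit 504) (nat_lit 0) (XT.lf (nat_lit 0) (nat_lit 268235371) (nat_lit 588) (nat_lit 37806624) (nat_lit 84) (nat_lit 15061286436) (nat_lit 73) (nat_lit 5) (nat_lit 80) (nat_lit 5) (nat_lit 74) (nat_lit 5) (nat_lit 341) (nat_lit 314) (nat_lit 206)) (XT.lf (nat_lit 0) (nat_lit 1498478956) (nat_lit 588) (nat_lit 10045137685) (nat_lit 84) (nat_lit 4115330567) (nat_lit 67) (nat_lit 5) (nat_lit 74) (nat_lit 5) (nat_lit 68) (nat_lit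 5) (nat_lit 342) (nat_lit 314) (nat_lit 205)))) (XT.nd (nat_lit 188) (nat_lit 420) (nat_lit 0) (XT.nd (nat_lit 94) (nat_lit 420) (nat_lit 0) (XT.lf (nat_lit 0) (nat_lit 2759204858) (nat_lit 588) (nat_lit 4532396692) (nat_lit 84) (nat_lit 8668298187) (nat_lit 67) (nat_lit 5) (nat_lit 74) (nat_lit 5) (nat_lit 68) (nat_lit 5) (nat_lit 343) (nat_lit 314) (nat_lit 204)) (XT.lf (nat_lit 0) (nat_lit 1163927564) (nat_lit 420) (nat_lit 2895784300) (nat_lit 504) (nat_lit 12210502839) (nat_lit 62) (nat_lit 5) (nat_lit 67) (nat_lit 5) (nat_lit 68) (nat_lit 5) (nat_lit 344) (nat_lit 314) (nat_lit 203))) (XT.nd (nat_lit 94) (nat_lit 420) (nat_lit 0) (XT.lf (nat_lit 0) (nat_lit 5453932226) (nat_lit 504) (nat_lit 9483512153) (nat_lit 84) (nat_lit 1651102653) (nat_lit 62) (nat_lit 5) (nat_lit 68) (nat_lit 5) (nat_lit 63) (nat_lit 5) (nat_lit 345) (nat_lit 314) (nat_lit 202)) (XT.nd (nat_lit 94) (nat_lit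 420) (nat_lit 0) (XT.lf (nat_lit 0) (nat_lit 6910682549) (nat_lit 504) (nat_lit 3726751798) (nat_lit 84) (nat_lit 6278766067) (nat_lit 62) (nat_lit 5) (nat_lit 68) (nat_lit 5) (nat_lit 63) (nat_lit 5) (nat_lit 346) (nat_lit 314) (nat_lit 201)) (XT.lf (nat_lit 0) (nat_lit 2243283531) (nat_lit 420) (nat_lit 6181564257) (nat_lit 504) (nat_lit 8828833128) (nat_lit 57) (nat_lit 5) (nat_lit 62) (nat_lit 5) (nat_lit 63) (nat_lit 5) (nat_lit 347) (nat_lit 314) (nat_lit 200))))))) (XT.nd (nat_lit 846) (nat_lit 1008) (nat_lit 0) (XT.nd (nat_lit 376) (nat_lit 840) (nat_lit 0) (XT.nd (nat_lit 188) (nat_lit 336) (nat_lit 0) (XT.nd (nat_lit 94) (nat_lit 0) (nat_lit 0) (XT.lf (nat_lit 0) (nat_lit 8467118482) (nat_lit 420) (nat_lit 1547933992) (nat_lit 504) (nat_lit 7585717023) (nat_lit 57) (nat_lit 5) (nat_lit 62) (nat_lit 5) (nat_lit 63) (nat_lit 5) (nat_lit 348) (nat_lit 314) (nat_lit 199)) (XT.lf (nat_lit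 0) (nat_lit 11677079678) (nat_lit 504) (nat_lit 3117065498) (nat_lit 84) (nat_lit 3163821177) (nat_lit 57) (nat_lit 5) (nat_lit 63) (nat_lit 5) (nat_lit 58) (nat_lit 5) (nat_lit 349) (nat_lit 314) (nat_lit 198))) (XT.nd (nat_lit 94) (nat_lit 0) (nat_lit 0) (XT.lf (nat_lit 0) (nat_lit 3123131879) (nat_lit 336) (nat_lit 10305088079) (nat_lit 420) (nat_lit 4896896490) (nat_lit 53) (nat_lit 5) (nat_lit 57) (nat_lit 5) (nat_lit 58) (nat_lit 5) (nat_lit 350) (nat_lit 314) (nat_lit 197)) (XT.lf (nat_lit 0) (nat_lit 9612962000) (nat_lit 336) (nat_lit 5644175194) (nat_lit 420) (nat_lit 3445826828) (nat_lit 53) (nat_lit 5) (nat_lit 57) (nat_lit 5) (nat_lit 58) (nat_lit 5) (nat_lit 351) (nat_lit 314) (nat_lit 196)))) (XT.nd (nat_lit 188) (nat_lit 420) (nat_lit 0) (XT.nd (nat_lit 94) (nat_lit 420) (nat_lit 0) (XT.lf (nat_lit 0) (nat_lit 16294380806) (nat_lit 336) (nat_lit 839597834) (nat_lit 420) (nat_lit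 1958860912) (nat_lit 53) (nat_lit 5) (nat_lit 57) (nat_lit 5) (nat_lit 58) (nat_lit 5) (nat_lit 352) (nat_lit 314) (nat_lit 195)) (XT.lf (nat_lit 0) (nat_lit 3712505668) (nat_lit 420) (nat_lit 15425619240) (nat_lit 504) (nat_lit 354574967) (nat_lit 48) (nat_lit 5) (nat_lit 53) (nat_lit 5) (nat_lit 54) (nat_lit 5) (nat_lit 353) (nat_lit 314) (nat_lit 194))) (XT.nd (nat_lit 94) (nat_lit 336) (nat_lit 0) (XT.lf (nat_lit 0) (nat_lit 1302879492) (nat_lit 504) (nat_lit 9450911949) (nat_lit 84) (nat_lit 9149885706) (nat_lit 47) (nat_lit 5) (nat_lit 53) (nat_lit 5) (nat_lit 48) (nat_lit 5) (nat_lit 354) (nat_lit 314) (nat_lit 193)) (XT.nd (nat_lit 94) (nat_lit 336) (nat_lit 0) (XT.lf (nat_lit 0) (nat_lit 2996125160) (nat_lit 504) (nat_lit 2938477044) (nat_lit 84) (nat_lit 14392972876) (nat_lit 47) (nat_lit 5) (nat_lit 53) (nat_lit 5) (nat_lit 48) (nat_lit 5) (nat_lit 355) (nat_lit 314) (nat_lit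 192)) (XT.lf (nat_lit 0) (nat_lit 3844149244) (nat_lit 336) (nat_lit 927869407) (nat_lit 420) (nat_lit 15991697017) (nat_lit 43) (nat_lit 5) (nat_lit 47) (nat_lit 5) (nat_lit 48) (nat_lit 5) (nat_lit 356) (nat_lit 314) (nat_lit 191)))))) (XT.nd (nat_lit 470) (nat_lit 672) (nat_lit 0) (XT.nd (nat_lit 188) (nat_lit 336) (nat_lit 0) (XT.nd (nat_lit 94) (nat_lit 0) (nat_lit 0) (XT.lf (nat_lit 0) (nat_lit 6668113406) (nat_lit 420) (nat_lit 10364729519) (nat_lit 84) (nat_lit 4178549672) (nat_lit 43) (nat_lit 5) (nat_lit 48) (nat_lit 5) (nat_lit 44) (nat_lit 5) (nat_lit 357) (nat_lit 314) (nat_lit 190)) (XT.lf (nat_lit 0) (nat_lit 8624873401) (nat_lit 420) (nat_lit 3625221025) (nat_lit 84) (nat_lit 9422829126) (nat_lit 43) (nat_lit 5) (nat_lit 48) (nat_lit 5) (nat_lit 44) (nat_lit 5) (nat_lit 358) (nat_lit 314) (nat_lit 189))) (XT.nd (nat_lit 94) (nat_lit 0) (nat_lit 0) (XT.lf (nat_lit 0) (nat_lit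 3382597363) (nat_lit 336) (nat_lit 7285876385) (nat_lit 420) (nat_lit 11479510095) (nat_lit 39) (nat_lit 5) (nat_lit 43) (nat_lit 5) (nat_lit 44) (nat_lit 5) (nat_lit 359) (nat_lit 314) (nat_lit 188)) (XT.nd (nat_lit 94) (nat_lit 0) (nat_lit 0) (XT.lf (nat_lit 0) (nat_lit 10675832990) (nat_lit 336) (nat_lit 2130193261) (nat_lit 420) (nat_lit 9830828607) (nat_lit 39) (nat_lit 5) (nat_lit 43) (nat_lit 5) (nat_lit 44) (nat_lit 5) (nat_lit 360) (nat_lit 314) (nat_lit 187)) (XT.lf (nat_lit 0) (nat_lit 15034406114) (nat_lit 420) (nat_lit 4985972996) (nat_lit 84) (nat_lit 3119771802) (nat_lit 39) (nat_lit 5) (nat_lit 44) (nat_lit 5) (nat_lit 40) (nat_lit 5) (nat_lit 361) (nat_lit 314) (nat_lit 186))))) (XT.nd (nat_lit 188) (nat_lit 420) (nat_lit 0) (XT.nd (nat_lit 94) (nat_lit 0) (nat_lit 0) (XT.lf (nat_lit 0) (nat_lit 2219848367) (nat_lit 252) (nat_lit 15149001465) (nat_lit 336) (nat_lit 6289083353)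 (nat_lit 36) (nat_lit 5) (nat_lit 39) (nat_lit 5) (nat_lit 40) (nat_lit 5) (nat_lit 362) (nat_lit 314) (nat_lit 185)) (XT.lf (nat_lit 0) (nat_lit 9746443009) (nat_lit 252) (nat_lit 10074560448) (nat_lit 336) (nat_lit 4369387277) (nat_lit 36) (nat_lit 5) (nat_lit 39) (nat_lit 5) (nat_lit 40) (nat_lit 5) (nat_lit 363) (nat_lit 314) (nat_lit 184))) (XT.nd (nat_lit 94) (nat_lit 420) (nat_lit 0) (XT.lf (nat_lit 0) (nat_lit 17498304672) (nat_lit 252) (nat_lit 4844369481) (nat_lit 336) (nat_lit 2396910546) (nat_lit 36) (nat_lit 5) (nat_lit 39) (nat_lit 5) (nat_lit 40) (nat_lit 5) (nat_lit 364) (nat_lit 314) (nat_lit 183)) (XT.nd (nat_lit 94) (nat_lit 84) (nat_lit 0) (XT.lf (nat_lit 0) (nat_lit 174731552) (nat_lit 336) (nat_lit 24768635005) (nat_lit 420) (nat_lit 362438647) (nat_lit 32) (nat_lit 5) (nat_lit 36) (nat_lit 5) (nat_lit 37) (nat_lit 5) (nat_lit 365) (nat_lit 314) (nat_lit 182)) (XT.lf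 (nat_lit 0) (nat_lit 1819749091) (nat_lit 420) (nat_lit 17988714549) (nat_lit 84) (nat_lit 6076899769) (nat_lit 31) (nat_lit 5) (nat_lit 36) (nat_lit 5) (nat_lit 32) (nat_lit 5) (nat_lit 366) (nat_lit 314) (nat_lit 181))))))))
noncomputable def xc95 : XT := (XT.nd (nat_lit 50854) (nat_lit 0) (nat_lit 1848) (XT.nd (nat_lit 49914) (nat_lit 0) (nat_lit 5544) (XT.nd (nat_lit 49444) (nat_lit 0) (nat_lit 6300) (XT.nd (nat_lit 49256) (nat_lit 0) (nat_lit 6300) (XT.nd (nat_lit 49162) (nat_lit 0) (nat_lit 6300) (XT.lf (nat_lit 0) (nat_lit 4055947300) (nat_lit 420) (nat_lit 10636503678) (nat_lit 84) (nat_lit 11790536832) (nat_lit 31) (nat_lit 5) (nat_lit 36) (nat_lit 5) (nat_lit 32) (nat_lit 5) (nat_lit 367) (nat_lit 314) (nat_lit 180)) (XT.lf (nat_lit 0) (nat_lit 869879397) (nat_lit 0) (nat_lit 869879397) (nat_lit 924) (nat_lit 3367906626) (nat_lit 106) (nat_lit 5) (nat_lit 106) (nat_lit 3) (nat_lit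 117) (nat_lit 3) (nat_lit 315) (nat_lit 315) (nat_lit 231))) (XT.nd (nat_lit 94) (nat_lit 0) (nat_lit 0) (XT.lf (nat_lit 0) (nat_lit 4095556195) (nat_lit 924) (nat_lit 4888488078) (nat_lit 1008) (nat_lit 1369015397) (nat_lit 106) (nat_lit 5) (nat_lit 117) (nat_lit 3) (nat_lit 118) (nat_lit 5) (nat_lit 316) (nat_lit 315) (nat_lit 230)) (XT.lf (nat_lit 0) (nat_lit 4726503341) (nat_lit 924) (nat_lit 1219966785) (nat_lit 1008) (nat_lit 4548846093) (nat_lit 106) (nat_lit 5) (nat_lit 117) (nat_lit 3) (nat_lit 118) (nat_lit 5) (nat_lit 317) (nat_lit 315) (nat_lit 229)))) (XT.nd (nat_lit 188) (nat_lit 0) (nat_lit 84) (XT.nd (nat_lit 94) (nat_lit 0) (nat_lit 84) (XT.lf (nat_lit 84) (nat_lit 2603116901) (nat_lit 0) (nat_lit 2778394857) (nat_lit 1008) (nat_lit 5260455829) (nat_lit 107) (nat_lit 5) (nat_lit 106) (nat_lit 5) (nat_lit 118) (nat_lit 5) (nat_lit 318) (nat_lit 315) (nat_lit 228)) (XT.lf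 (nat_lit 0) (nat_lit 6053827609) (nat_lit 924) (nat_lit 4239510565) (nat_lit 1008) (nat_lit 500040588) (nat_lit 107) (nat_lit 5) (nat_lit 118) (nat_lit 5) (nat_lit 119) (nat_lit 5) (nat_lit 319) (nat_lit 315) (nat_lit 227))) (XT.nd (nat_lit 94) (nat_lit 0) (nat_lit 0) (XT.lf (nat_lit 0) (nat_lit 6755322205) (nat_lit 924) (nat_lit 362784874) (nat_lit 1008) (nat_lit 3831235212) (nat_lit 107) (nat_lit 5) (nat_lit 118) (nat_lit 5) (nat_lit 119) (nat_lit 5) (nat_lit 320) (nat_lit 315) (nat_lit 226)) (XT.nd (nat_lit 94) (nat_lit 0) (nat_lit 0) (XT.lf (nat_lit 84) (nat_lit 3696987990) (nat_lit 0) (nat_lit 3798773981) (nat_lit 1008) (nat_lit 3613959091) (nat_lit 108) (nat_lit 5) (nat_lit 107) (nat_lit 5) (nat_lit 119) (nat_lit 5) (nat_lit 321) (nat_lit 315) (nat_lit 225)) (XT.lf (nat_lit 84) (nat_lit 7878804888) (nat_lit 0) (nat_lit 365132987) (nat_lit 1008) (nat_lit 3031715563) (nat_lit 108) (nat_lit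 5) (nat_lit 107) (nat_lit 5) (nat_lit 119) (nat_lit 5) (nat_lit 322) (nat_lit 315) (nat_lit 224)))))) (XT.nd (nat_lit 470) (nat_lit 0) (nat_lit 0) (XT.nd (nat_lit 188) (nat_lit 924) (nat_lit 0) (XT.nd (nat_lit 94) (nat_lit 0) (nat_lit 0) (XT.lf (nat_lit 84) (nat_lit 714524118) (nat_lit 0) (nat_lit 8321006586) (nat_lit 1008) (nat_lit 2410678897) (nat_lit 109) (nat_lit 5) (nat_lit 108) (nat_lit 5) (nat_lit 120) (nat_lit 5) (nat_lit 323) (nat_lit 315) (nat_lit 223)) (XT.lf (nat_lit 84) (nat_lit 5009765593) (nat_lit 0) (nat_lit 4863124658) (nat_lit 1008) (nat_lit 1748608304) (nat_lit 109) (nat_lit 5) (nat_lit 108) (nat_lit 5) (nat_lit 120) (nat_lit 5) (nat_lit 324) (nat_lit 315) (nat_lit 222))) (XT.nd (nat_lit 94) (nat_lit 924) (nat_lit 0) (XT.lf (nat_lit 84) (nat_lit 9426729957) (nat_lit 0) (nat_lit 1292091531) (nat_lit 1008) (nat_lit 1084039441) (nat_lit 109) (nat_lit 5) (nat_lit 108) (nat_lit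 5) (nat_lit 120) (nat_lit 5) (nat_lit 325) (nat_lit 315) (nat_lit 221)) (XT.nd (nat_lit 94) (nat_lit 1008) (nat_lit 0) (XT.lf (nat_lit 84) (nat_lit 1995510727) (nat_lit 0) (nat_lit 9622160777) (nat_lit 1008) (nat_lit 371443954) (nat_lit 110) (nat_lit 5) (nat_lit 109) (nat_lit 5) (nat_lit 121) (nat_lit 5) (nat_lit 326) (nat_lit 315) (nat_lit 220)) (XT.lf (nat_lit 0) (nat_lit 377517055) (nat_lit 1008) (nat_lit 5656480091) (nat_lit 1092) (nat_lit 6146457314) (nat_lit 97) (nat_lit 5) (nat_lit 109) (nat_lit 5) (nat_lit 110) (nat_lit 5) (nat_lit 327) (nat_lit 315) (nat_lit 219))))) (XT.nd (nat_lit 188) (nat_lit 0) (nat_lit 84) (XT.nd (nat_lit 94) (nat_lit 0) (nat_lit 84) (XT.lf (nat_lit 0) (nat_lit 1125804460) (nat_lit 1008) (nat_lit 1200419388) (nat_lit 1092) (nat_lit 10051973731) (nat_lit 97) (nat_lit 5) (nat_lit 109) (nat_lit 5) (nat_lit 110) (nat_lit 5) (nat_lit 328) (nat_lit 315) (nat_lit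 218)) (XT.lf (nat_lit 0) (nat_lit 1931081948) (nat_lit 1008) (nat_lit 9144855250) (nat_lit 1092) (nat_lit 1505172207) (nat_lit 98) (nat_lit 5) (nat_lit 110) (nat_lit 5) (nat_lit 111) (nat_lit 5) (nat_lit 329) (nat_lit 315) (nat_lit 217))) (XT.nd (nat_lit 94) (nat_lit 0) (nat_lit 0) (XT.lf (nat_lit 0) (nat_lit 2782484276) (nat_lit 1008) (nat_lit 4583578015) (nat_lit 1092) (nat_lit 5423676871) (nat_lit 98) (nat_lit 5) (nat_lit 110) (nat_lit 5) (nat_lit 111) (nat_lit 5) (nat_lit 330) (nat_lit 315) (nat_lit 216)) (XT.nd (nat_lit 94) (nat_lit 0) (nat_lit 84) (XT.lf (nat_lit 84) (nat_lit 109819841) (nat_lit 0) (nat_lit 3536720730) (nat_lit 1092) (nat_lit 9358802946) (nat_lit 99) (nat_lit 5) (nat_lit 98) (nat_lit 5) (nat_lit 111) (nat_lit 5) (nat_lit 331) (nat_lit 315) (nat_lit 215)) (XT.lf (nat_lit 0) (nat_lit 4575330596) (nat_lit 1008) (nat_lit 8196770057) (nat_lit 84) (nat_lit 454433275) (nat_lit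 99) (nat_lit 5) (nat_lit 111) (nat_lit 5) (nat_lit 100) (nat_lit 5) (nat_lit 332) (nat_lit 315) (nat_lit 214))))))) (XT.nd (nat_lit 846) (nat_lit 1764) (nat_lit 0) (XT.nd (nat_lit 376) (nat_lit 1092) (nat_lit 0) (XT.nd (nat_lit 188) (nat_lit 0) (nat_lit 0) (XT.nd (nat_lit 94) (nat_lit 1008) (nat_lit 0) (XT.lf (nat_lit 0) (nat_lit 5555055432) (nat_lit 1008) (nat_lit 3400102863) (nat_lit 84) (nat_lit 4498812878) (nat_lit 99) (nat_lit 5) (nat_lit 111) (nat_lit 5) (nat_lit 100) (nat_lit 5) (nat_lit 333) (nat_lit 315) (nat_lit 213)) (XT.lf (nat_lit 0) (nat_lit 1565576485) (nat_lit 1008) (nat_lit 5001497805) (nat_lit 1092) (nat_lit 7121399130) (nat_lit 87) (nat_lit 5) (nat_lit 99) (nat_lit 5) (nat_lit 100) (nat_lit 5) (nat_lit 334) (nat_lit 315) (nat_lit 212))) (XT.nd (nat_lit 94) (nat_lit 0) (nat_lit 0) (XT.lf (nat_lit 0) (nat_lit 6746158551) (nat_lit 1008) (nat_lit 886488043) (nat_lit 1092)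 (nat_lit 6296982857) (nat_lit 87) (nat_lit 5) (nat_lit 99) (nat_lit 5) (nat_lit 100) (nat_lit 5) (nat_lit 335) (nat_lit 315) (nat_lit 211)) (XT.lf (nat_lit 0) (nat_lit 8751656503) (nat_lit 1092) (nat_lit 2135485994) (nat_lit 84) (nat_lit 3290555931) (nat_lit 87) (nat_lit 5) (nat_lit 100) (nat_lit 5) (nat_lit 88) (nat_lit 5) (nat_lit 336) (nat_lit 315) (nat_lit 210)))) (XT.nd (nat_lit 188) (nat_lit 504) (nat_lit 0) (XT.nd (nat_lit 94) (nat_lit 0) (nat_lit 0) (XT.lf (nat_lit 0) (nat_lit 3111681549) (nat_lit 588) (nat_lit 6821108703) (nat_lit 672) (nat_lit 4499884390) (nat_lit 80) (nat_lit 5) (nat_lit 87) (nat_lit 5) (nat_lit 88) (nat_lit 5) (nat_lit 337) (nat_lit 315) (nat_lit 209)) (XT.lf (nat_lit 0) (nat_lit 8555961484) (nat_lit 588) (nat_lit 2604635850) (nat_lit 672) (nat_lit 3534711513) (nat_lit 80) (nat_lit 5) (nat_lit 87) (nat_lit 5) (nat_lit 88) (nat_lit 5) (nat_lit 338) (nat_lit 315)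 (nat_lit 208))) (XT.nd (nat_lit 94) (nat_lit 504) (nat_lit 0) (XT.lf (nat_lit 0) (nat_lit 12431902183) (nat_lit 672) (nat_lit 825297451) (nat_lit 84) (nat_lit 1708780135) (nat_lit 80) (nat_lit 5) (nat_lit 88) (nat_lit 5) (nat_lit 81) (nat_lit 5) (nat_lit 339) (nat_lit 315) (nat_lit 207)) (XT.nd (nat_lit 94) (nat_lit 0) (nat_lit 0) (XT.lf (nat_lit 0) (nat_lit 4711156425) (nat_lit 504) (nat_lit 9093341388) (nat_lit 588) (nat_lit 1438687041) (nat_lit 74) (nat_lit 5) (nat_lit 80) (nat_lit 5) (nat_lit 81) (nat_lit 5) (nat_lit 340) (nat_lit 315) (nat_lit 206)) (XT.lf (nat_lit 0) (nat_lit 10426232090) (nat_lit 504) (nat_lit 4790773413) (nat_lit 588) (nat_lit 312119383) (nat_lit 74) (nat_lit 5) (nat_lit 80) (nat_lit 5) (nat_lit 81) (nat_lit 5) (nat_lit 341) (nat_lit 315) (nat_lit 205)))))) (XT.nd (nat_lit 470) (nat_lit 756) (nat_lit 0) (XT.nd (nat_lit 188) (nat_lit 420) (nat_lit 0) (XT.nd (nat_lit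 94) (nat_lit 0) (nat_lit 0) (XT.lf (nat_lit 0) (nat_lit 485427997) (nat_lit 504) (nat_lit 340563499) (nat_lit 588) (nat_lit 14997926908) (nat_lit 67) (nat_lit 5) (nat_lit 73) (nat_lit 5) (nat_lit 74) (nat_lit 5) (nat_lit 342) (nat_lit 315) (nat_lit 204)) (XT.lf (nat_lit 0) (nat_lit 2077997901) (nat_lit 588) (nat_lit 9827669976) (nat_lit 84) (nat_lit 4219500228) (nat_lit 67) (nat_lit 5) (nat_lit 74) (nat_lit 5) (nat_lit 68) (nat_lit 5) (nat_lit 343) (nat_lit 315) (nat_lit 203))) (XT.nd (nat_lit 94) (nat_lit 420) (nat_lit 0) (XT.lf (nat_lit 0) (nat_lit 3361778131) (nat_lit 588) (nat_lit 4159935929) (nat_lit 84) (nat_lit 8914313601) (nat_lit 67) (nat_lit 5) (nat_lit 74) (nat_lit 5) (nat_lit 68) (nat_lit 5) (nat_lit 344) (nat_lit 315) (nat_lit 202)) (XT.nd (nat_lit 94) (nat_lit 0) (nat_lit 0) (XT.lf (nat_lit 0) (nat_lit 1707781068) (nat_lit 420) (nat_lit 2984310702) (nat_lit 504) (nat_lit 12064274603)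 (nat_lit 62) (nat_lit 5) (nat_lit 67) (nat_lit 5) (nat_lit 68) (nat_lit 5) (nat_lit 345) (nat_lit 315) (nat_lit 201)) (XT.lf (nat_lit 0) (nat_lit 6114314667) (nat_lit 504) (nat_lit 9267331868) (nat_lit 84) (nat_lit 1703468086) (nat_lit 62) (nat_lit 5) (nat_lit 68) (nat_lit 5) (nat_lit 63) (nat_lit 5) (nat_lit 346) (nat_lit 315) (nat_lit 200))))) (XT.nd (nat_lit 188) (nat_lit 336) (nat_lit 0) (XT.nd (nat_lit 94) (nat_lit 420) (nat_lit 0) (XT.lf (nat_lit 0) (nat_lit 7601451576) (nat_lit 504) (nat_lit 3347451655) (nat_lit 84) (nat_lit 6474553548) (nat_lit 62) (nat_lit 5) (nat_lit 68) (nat_lit 5) (nat_lit 63) (nat_lit 5) (nat_lit 347) (nat_lit 315) (nat_lit 199)) (XT.lf (nat_lit 0) (nat_lit 2802645066) (nat_lit 420) (nat_lit 6350441453) (nat_lit 504) (nat_lit 8618677565) (nat_lit 57) (nat_lit 5) (nat_lit 62) (nat_lit 5) (nat_lit 63) (nat_lit 5) (nat_lit 348) (nat_lit 315) (nat_lit 198))) (XT.nd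 (nat_lit 94) (nat_lit 336) (nat_lit 0) (XT.lf (nat_lit 0) (nat_lit 9204691051) (nat_lit 420) (nat_lit 1573852734) (nat_lit 504) (nat_lit 7351573193) (nat_lit 57) (nat_lit 5) (nat_lit 62) (nat_lit 5) (nat_lit 63) (nat_lit 5) (nat_lit 349) (nat_lit 315) (nat_lit 197)) (XT.nd (nat_lit 94) (nat_lit 336) (nat_lit 0) (XT.lf (nat_lit 0) (nat_lit 12478684661) (nat_lit 504) (nat_lit 2737312997) (nat_lit 84) (nat_lit 3282872094) (nat_lit 57) (nat_lit 5) (nat_lit 63) (nat_lit 5) (nat_lit 58) (nat_lit 5) (nat_lit 350) (nat_lit 315) (nat_lit 196)) (XT.lf (nat_lit 0) (nat_lit 3691507564) (nat_lit 336) (nat_lit 10584062332) (nat_lit 420) (nat_lit 4602161467) (nat_lit 53) (nat_lit 5) (nat_lit 57) (nat_lit 5) (nat_lit 58) (nat_lit 5) (nat_lit 351) (nat_lit 315) (nat_lit 195))))))))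
noncomputable def xc96 : XT := (XT.nd (nat_lit 50854) (nat_lit 0) (nat_lit 4704) (XT.nd (nat_lit 846) (nat_lit 672) (nat_lit 0) (XT.nd (nat_lit 376) (nat_lit 672) (nat_lit 0) (XT.nd (nat_lit 188) (nat_lit 504) (nat_lit 0) (XT.nd (nat_lit 94) (nat_lit 0) (nat_lit 0) (XT.lf (nat_lit 0) (nat_lit 10368343644) (nat_lit 336) (nat_lit 5779878401) (nat_lit 420) (nat_lit 3119535128) (nat_lit 53) (nat_lit 5) (nat_lit 57) (nat_lit 5) (nat_lit 58) (nat_lit 5) (nat_lit 352) (nat_lit 315) (nat_lit 194)) (XT.lf (nat_lit 0) (nat_lit 17243133984) (nat_lit 336) (nat_lit 827539795) (nat_lit 420) (nat_lit 1599496044) (nat_lit 53) (nat_lit 5) (nat_lit 57) (nat_lit 5) (nat_lit 58) (nat_lit 5) (nat_lit 353) (nat_lit 315) (nat_lit 193))) (XT.nd (nat_lit 94) (nat_lit 0) (nat_lit 0) (XT.lf (nat_lit 0) (nat_lit 45959141) (nat_lit 504) (nat_lit 15802421944) (nat_lit 84) (nat_lit 4234317010) (nat_lit 47) (nat_lit 5)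 (nat_lit 53) (nat_lit 5) (nat_lit 48) (nat_lit 5) (nat_lit 354) (nat_lit 315) (nat_lit 192)) (XT.lf (nat_lit 0) (nat_lit 1735277075) (nat_lit 504) (nat_lit 9294489815) (nat_lit 84) (nat_lit 9476968965) (nat_lit 47) (nat_lit 5) (nat_lit 53) (nat_lit 5) (nat_lit 48) (nat_lit 5) (nat_lit 355) (nat_lit 315) (nat_lit 191)))) (XT.nd (nat_lit 188) (nat_lit 336) (nat_lit 0) (XT.nd (nat_lit 94) (nat_lit 336) (nat_lit 0) (XT.lf (nat_lit 0) (nat_lit 3469226494) (nat_lit 504) (nat_lit 2593681953) (nat_lit 84) (nat_lit 14881285784) (nat_lit 47) (nat_lit 5) (nat_lit 53) (nat_lit 5) (nat_lit 48) (nat_lit 5) (nat_lit 356) (nat_lit 315) (nat_lit 190)) (XT.lf (nat_lit 0) (nat_lit 4394792777) (nat_lit 336) (nat_lit 898227732) (nat_lit 420) (nat_lit 16101108968) (nat_lit 43) (nat_lit 5) (nat_lit 47) (nat_lit 5) (nat_lit 48) (nat_lit 5) (nat_lit 357) (nat_lit 315) (nat_lit 189))) (XT.nd (nat_lit 94) (nat_lit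 336) (nat_lit 0) (XT.lf (nat_lit 0) (nat_lit 7237238763) (nat_lit 420) (nat_lit 10255234106) (nat_lit 84) (nat_lit 4363592843) (nat_lit 43) (nat_lit 5) (nat_lit 48) (nat_lit 5) (nat_lit 44) (nat_lit 5) (nat_lit 358) (nat_lit 315) (nat_lit 188)) (XT.nd (nat_lit 94) (nat_lit 336) (nat_lit 0) (XT.lf (nat_lit 0) (nat_lit 9243761296) (nat_lit 420) (nat_lit 3319754158) (nat_lit 84) (nat_lit 9768775948) (nat_lit 43) (nat_lit 5) (nat_lit 48) (nat_lit 5) (nat_lit 44) (nat_lit 5) (nat_lit 359) (nat_lit 315) (nat_lit 187)) (XT.lf (nat_lit 0) (nat_lit 3901076256) (nat_lit 336) (nat_lit 7443170772) (nat_lit 420) (nat_lit 11478079967) (nat_lit 39) (nat_lit 5) (nat_lit 43) (nat_lit 5) (nat_lit 44) (nat_lit 5) (nat_lit 360) (nat_lit 315) (nat_lit 186)))))) (XT.nd (nat_lit 376) (nat_lit 420) (nat_lit 0) (XT.nd (nat_lit 188) (nat_lit 252) (nat_lit 0) (XT.nd (nat_lit 94) (nat_lit 0) (nat_lit 0) (XT.lf (nat_lit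 0) (nat_lit 11407965554) (nat_lit 336) (nat_lit 2129723161) (nat_lit 420) (nat_lit 9789032460) (nat_lit 39) (nat_lit 5) (nat_lit 43) (nat_lit 5) (nat_lit 44) (nat_lit 5) (nat_lit 361) (nat_lit 315) (nat_lit 185)) (XT.lf (nat_lit 0) (nat_lit 15825725272) (nat_lit 420) (nat_lit 4740539927) (nat_lit 84) (nat_lit 3279691461) (nat_lit 39) (nat_lit 5) (nat_lit 44) (nat_lit 5) (nat_lit 40) (nat_lit 5) (nat_lit 362) (nat_lit 315) (nat_lit 184))) (XT.nd (nat_lit 94) (nat_lit 0) (nat_lit 0) (XT.lf (nat_lit 0) (nat_lit 2684612275) (nat_lit 252) (nat_lit 15542072670) (nat_lit 336) (nat_lit 6153330428) (nat_lit 36) (nat_lit 5) (nat_lit 39) (nat_lit 5) (nat_lit 40) (nat_lit 5) (nat_lit 363) (nat_lit 315) (nat_lit 183)) (XT.lf (nat_lit 0) (nat_lit 10432626009) (nat_lit 252) (nat_lit 10312625614) (nat_lit 336) (nat_lit 4184067663) (nat_lit 36) (nat_lit 5) (nat_lit 39) (nat_lit 5) (nat_lit 40) (nat_lit 5)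 (nat_lit 364) (nat_lit 315) (nat_lit 182)))) (XT.nd (nat_lit 188) (nat_lit 84) (nat_lit 0) (XT.nd (nat_lit 94) (nat_lit 336) (nat_lit 0) (XT.lf (nat_lit 0) (nat_lit 18413248011) (nat_lit 252) (nat_lit 4922531154) (nat_lit 336) (nat_lit 2160089050) (nat_lit 36) (nat_lit 5) (nat_lit 39) (nat_lit 5) (nat_lit 40) (nat_lit 5) (nat_lit 365) (nat_lit 315) (nat_lit 181)) (XT.lf (nat_lit 0) (nat_lit 558701637) (nat_lit 336) (nat_lit 25453804733) (nat_lit 420) (nat_lit 67317322) (nat_lit 32) (nat_lit 5) (nat_lit 36) (nat_lit 5) (nat_lit 37) (nat_lit 5) (nat_lit 366) (nat_lit 315) (nat_lit 180))) (XT.nd (nat_lit 49256) (nat_lit 0) (nat_lit 6300) (XT.lf (nat_lit 0) (nat_lit 2167319911) (nat_lit 420) (nat_lit 18171994399) (nat_lit 84) (nat_lit 6338257068) (nat_lit 31) (nat_lit 5) (nat_lit 36) (nat_lit 5) (nat_lit 32) (nat_lit 5) (nat_lit 367) (nat_lit 315) (nat_lit 179)) (XT.nd (nat_lit 94) (nat_lit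 0) (nat_lit 0) (XT.lf (nat_lit 0) (nat_lit 1168249339) (nat_lit 0) (nat_lit 1168249339) (nat_lit 924) (nat_lit 2909525409) (nat_lit 106) (nat_lit 5) (nat_lit 106) (nat_lit 3) (nat_lit 117) (nat_lit 3) (nat_lit 316) (nat_lit 316) (nat_lit 229)) (XT.lf (nat_lit 0) (nat_lit 5270268201) (nat_lit 924) (nat_lit 4469565641) (nat_lit 1008) (nat_lit 895576113) (nat_lit 106) (nat_lit 5) (nat_lit 117) (nat_lit 3) (nat_lit 118) (nat_lit 5) (nat_lit 317) (nat_lit 316) (nat_lit 228))))))) (XT.nd (nat_lit 846) (nat_lit 1596) (nat_lit 0) (XT.nd (nat_lit 376) (nat_lit 0) (nat_lit 84) (XT.nd (nat_lit 188) (nat_lit 0) (nat_lit 84) (XT.nd (nat_lit 94) (nat_lit 0) (nat_lit 0) (XT.lf (nat_lit 0) (nat_lit 5889271079) (nat_lit 924) (nat_lit 704472887) (nat_lit 1008) (nat_lit 4189492949) (nat_lit 106) (nat_lit 5) (nat_lit 117) (nat_lit 3) (nat_lit 118) (nat_lit 5) (nat_lit 318) (nat_lit 316) (nat_lit 227)) (XT.lf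 (nat_lit 84) (nat_lit 3231524598) (nat_lit 0) (nat_lit 3307937137) (nat_lit 1008) (nat_lit 4395929869) (nat_lit 107) (nat_lit 5) (nat_lit 106) (nat_lit 5) (nat_lit 118) (nat_lit 5) (nat_lit 319) (nat_lit 316) (nat_lit 226))) (XT.nd (nat_lit 94) (nat_lit 0) (nat_lit 0) (XT.lf (nat_lit 0) (nat_lit 7198551949) (nat_lit 924) (nat_lit 3800046205) (nat_lit 1008) (nat_lit 94127417) (nat_lit 107) (nat_lit 5) (nat_lit 118) (nat_lit 5) (nat_lit 119) (nat_lit 5) (nat_lit 320) (nat_lit 316) (nat_lit 225)) (XT.lf (nat_lit 84) (nat_lit 183387392) (nat_lit 0) (nat_lit 7711448061) (nat_lit 1008) (nat_lit 3359691954) (nat_lit 108) (nat_lit 5) (nat_lit 107) (nat_lit 5) (nat_lit 119) (nat_lit 5) (nat_lit 321) (nat_lit 316) (nat_lit 224)))) (XT.nd (nat_lit 188) (nat_lit 0) (nat_lit 84) (XT.nd (nat_lit 94) (nat_lit 0) (nat_lit 0) (XT.lf (nat_lit 84) (nat_lit 4359712413) (nat_lit 0) (nat_lit 4274223213) (nat_lit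 1008) (nat_lit 2786858094) (nat_lit 108) (nat_lit 5) (nat_lit 107) (nat_lit 5) (nat_lit 119) (nat_lit 5) (nat_lit 322) (nat_lit 316) (nat_lit 223)) (XT.lf (nat_lit 84) (nat_lit 8654684886) (nat_lit 0) (nat_lit 723384446) (nat_lit 1008) (nat_lit 2214802791) (nat_lit 108) (nat_lit 5) (nat_lit 107) (nat_lit 5) (nat_lit 119) (nat_lit 5) (nat_lit 323) (nat_lit 316) (nat_lit 222))) (XT.nd (nat_lit 94) (nat_lit 0) (nat_lit 0) (XT.lf (nat_lit 84) (nat_lit 1298335127) (nat_lit 0) (nat_lit 8871683294) (nat_lit 1008) (nat_lit 1599599856) (nat_lit 109) (nat_lit 5) (nat_lit 108) (nat_lit 5) (nat_lit 120) (nat_lit 5) (nat_lit 324) (nat_lit 316) (nat_lit 221)) (XT.nd (nat_lit 94) (nat_lit 0) (nat_lit 0) (XT.lf (nat_lit 84) (nat_lit 5709841131) (nat_lit 0) (nat_lit 5297805387) (nat_lit 1008) (nat_lit 943639519) (nat_lit 109) (nat_lit 5) (nat_lit 108) (nat_lit 5) (nat_lit 120) (nat_lit 5) (nat_lit 325) (nat_lit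 316) (nat_lit 220)) (XT.lf (nat_lit 84) (nat_lit 10247351219) (nat_lit 0) (nat_lit 1607533240) (nat_lit 1008) (nat_lit 284302625) (nat_lit 109) (nat_lit 5) (nat_lit 108) (nat_lit 5) (nat_lit 120) (nat_lit 5) (nat_lit 326) (nat_lit 316) (nat_lit 219)))))) (XT.nd (nat_lit 470) (nat_lit 840) (nat_lit 0) (XT.nd (nat_lit 188) (nat_lit 0) (nat_lit 0) (XT.nd (nat_lit 94) (nat_lit 0) (nat_lit 0) (XT.lf (nat_lit 0) (nat_lit 419642353) (nat_lit 1008) (nat_lit 9723882205) (nat_lit 1092) (nat_lit 2188359587) (nat_lit 97) (nat_lit 5) (nat_lit 109) (nat_lit 5) (nat_lit 110) (nat_lit 5) (nat_lit 327) (nat_lit 316) (nat_lit 218)) (XT.lf (nat_lit 0) (nat_lit 1160204862) (nat_lit 1008) (nat_lit 5273416545) (nat_lit 1092) (nat_lit 6096287799) (nat_lit 97) (nat_lit 5) (nat_lit 109) (nat_lit 5) (nat_lit 110) (nat_lit 5) (nat_lit 328) (nat_lit 316) (nat_lit 217))) (XT.nd (nat_lit 94) (nat_lit 0) (nat_lit 84)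 (XT.lf (nat_lit 0) (nat_lit 1908507287) (nat_lit 1008) (nat_lit 696008306) (nat_lit 1092) (nat_lit 10130112859) (nat_lit 97) (nat_lit 5) (nat_lit 109) (nat_lit 5) (nat_lit 110) (nat_lit 5) (nat_lit 329) (nat_lit 316) (nat_lit 216)) (XT.nd (nat_lit 94) (nat_lit 0) (nat_lit 0) (XT.lf (nat_lit 0) (nat_lit 2719652675) (nat_lit 1008) (nat_lit 8863638237) (nat_lit 1092) (nat_lit 1361255220) (nat_lit 98) (nat_lit 5) (nat_lit 110) (nat_lit 5) (nat_lit 111) (nat_lit 5) (nat_lit 330) (nat_lit 316) (nat_lit 215)) (XT.lf (nat_lit 0) (nat_lit 3575537784) (nat_lit 1008) (nat_lit 4177940975) (nat_lit 1092) (nat_lit 5406963788) (nat_lit 98) (nat_lit 5) (nat_lit 110) (nat_lit 5) (nat_lit 111) (nat_lit 5) (nat_lit 331) (nat_lit 316) (nat_lit 214))))) (XT.nd (nat_lit 188) (nat_lit 924) (nat_lit 0) (XT.nd (nat_lit 94) (nat_lit 0) (nat_lit 84) (XT.lf (nat_lit 84) (nat_lit 655406961) (nat_lit 0) (nat_lit 3795099500)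 (nat_lit 1092) (nat_lit 8932832547) (nat_lit 99) (nat_lit 5) (nat_lit 98) (nat_lit 5) (nat_lit 111) (nat_lit 5) (nat_lit 332) (nat_lit 316) (nat_lit 213)) (XT.lf (nat_lit 0) (nat_lit 5385883214) (nat_lit 1008) (nat_lit 7899145015) (nat_lit 84) (nat_lit 327159272) (nat_lit 99) (nat_lit 5) (nat_lit 111) (nat_lit 5) (nat_lit 100) (nat_lit 5) (nat_lit 333) (nat_lit 316) (nat_lit 212))) (XT.nd (nat_lit 94) (nat_lit 1008) (nat_lit 0) (XT.lf (nat_lit 0) (nat_lit 6375872596) (nat_lit 1008) (nat_lit 2970370345) (nat_lit 84) (nat_lit 4501165084) (nat_lit 99) (nat_lit 5) (nat_lit 111) (nat_lit 5) (nat_lit 100) (nat_lit 5) (nat_lit 334) (nat_lit 316) (nat_lit 211)) (XT.nd (nat_lit 94) (nat_lit 0) (nat_lit 0) (XT.lf (nat_lit 0) (nat_lit 2143827295) (nat_lit 1008) (nat_lit 5261189261) (nat_lit 1092) (nat_lit 6684711077) (nat_lit 87) (nat_lit 5) (nat_lit 99) (nat_lit 5) (nat_lit 100) (nat_lit 5) (nat_lit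 335) (nat_lit 316) (nat_lit 210)) (XT.lf (nat_lit 0) (nat_lit 7469079901) (nat_lit 1008) (nat_lit 1015467741) (nat_lit 1092) (nat_lit 5854506080) (nat_lit 87) (nat_lit 5) (nat_lit 99) (nat_lit 5) (nat_lit 100) (nat_lit 5) (nat_lit 336) (nat_lit 316) (nat_lit 209))))))))
noncomputable def xc97 : XT := (XT.nd (nat_lit 1692) (nat_lit 1848) (nat_lit 0) (XT.nd (nat_lit 846) (nat_lit 1176) (nat_lit 0) (XT.nd (nat_lit 376) (nat_lit 1092) (nat_lit 0) (XT.nd (nat_lit 188) (nat_lit 0) (nat_lit 0) (XT.nd (nat_lit 94) (nat_lit 588) (nat_lit 0) (XT.lf (nat_lit 0) (nat_lit 9618769810) (nat_lit 1092) (nat_lit 1680646724) (nat_lit 84) (nat_lit 3296099927) (nat_lit 87) (nat_lit 5) (nat_lit 100) (nat_lit 5) (nat_lit 88) (nat_lit 5) (nat_lit 337) (nat_lit 316) (nat_lit 208)) (XT.lf (nat_lit 0) (nat_lit 3723907957) (nat_lit 588) (nat_lit 7099812381) (nat_lit 672) (nat_lit 4035170179) (nat_lit 80) (nat_lit 5)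 (nat_lit 87) (nat_lit 5) (nat_lit 88) (nat_lit 5) (nat_lit 338) (nat_lit 316) (nat_lit 207))) (XT.nd (nat_lit 94) (nat_lit 0) (nat_lit 0) (XT.lf (nat_lit 0) (nat_lit 9321452624) (nat_lit 588) (nat_lit 2750606825) (nat_lit 672) (nat_lit 3058244285) (nat_lit 80) (nat_lit 5) (nat_lit 87) (nat_lit 5) (nat_lit 88) (nat_lit 5) (nat_lit 339) (nat_lit 316) (nat_lit 206)) (XT.lf (nat_lit 0) (nat_lit 13365144240) (nat_lit 672) (nat_lit 345097886) (nat_lit 84) (nat_lit 1699760972) (nat_lit 80) (nat_lit 5) (nat_lit 88) (nat_lit 5) (nat_lit 81) (nat_lit 5) (nat_lit 340) (nat_lit 316) (nat_lit 205)))) (XT.nd (nat_lit 188) (nat_lit 504) (nat_lit 0) (XT.nd (nat_lit 94) (nat_lit 84) (nat_lit 0) (XT.lf (nat_lit 0) (nat_lit 5357865454) (nat_lit 504) (nat_lit 9410918732) (nat_lit 588) (nat_lit 927462402) (nat_lit 74) (nat_lit 5) (nat_lit 80) (nat_lit 5) (nat_lit 81) (nat_lit 5) (nat_lit 341) (nat_lit 316) (nat_lit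 204)) (XT.lf (nat_lit 0) (nat_lit 212937956) (nat_lit 588) (nat_lit 4758737622) (nat_lit 84) (nat_lit 11019893985) (nat_lit 73) (nat_lit 5) (nat_lit 80) (nat_lit 5) (nat_lit 74) (nat_lit 5) (nat_lit 342) (nat_lit 316) (nat_lit 203))) (XT.nd (nat_lit 94) (nat_lit 0) (nat_lit 0) (XT.lf (nat_lit 0) (nat_lit 994575397) (nat_lit 504) (nat_lit 374289594) (nat_lit 588) (nat_lit 14926958792) (nat_lit 67) (nat_lit 5) (nat_lit 73) (nat_lit 5) (nat_lit 74) (nat_lit 5) (nat_lit 343) (nat_lit 316) (nat_lit 202)) (XT.nd (nat_lit 94) (nat_lit 0) (nat_lit 0) (XT.lf (nat_lit 0) (nat_lit 2643907516) (nat_lit 588) (nat_lit 9634786464) (nat_lit 84) (nat_lit 4328285501) (nat_lit 67) (nat_lit 5) (nat_lit 74) (nat_lit 5) (nat_lit 68) (nat_lit 5) (nat_lit 344) (nat_lit 316) (nat_lit 201)) (XT.lf (nat_lit 0) (nat_lit 3952406134) (nat_lit 588) (nat_lit 3806312681) (nat_lit 84) (nat_lit 9169300161) (nat_lit 67) (nat_lit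 5) (nat_lit 74) (nat_lit 5) (nat_lit 68) (nat_lit 5) (nat_lit 345) (nat_lit 316) (nat_lit 200)))))) (XT.nd (nat_lit 376) (nat_lit 336) (nat_lit 0) (XT.nd (nat_lit 188) (nat_lit 420) (nat_lit 0) (XT.nd (nat_lit 94) (nat_lit 0) (nat_lit 0) (XT.lf (nat_lit 0) (nat_lit 2238417841) (nat_lit 420) (nat_lit 3075655043) (nat_lit 504) (nat_lit 11944595358) (nat_lit 62) (nat_lit 5) (nat_lit 67) (nat_lit 5) (nat_lit 68) (nat_lit 5) (nat_lit 346) (nat_lit 316) (nat_lit 199)) (XT.lf (nat_lit 0) (nat_lit 6766067799) (nat_lit 504) (nat_lit 9074668187) (nat_lit 84) (nat_lit 1757386879) (nat_lit 62) (nat_lit 5) (nat_lit 68) (nat_lit 5) (nat_lit 63) (nat_lit 5) (nat_lit 347) (nat_lit 316) (nat_lit 198))) (XT.nd (nat_lit 94) (nat_lit 420) (nat_lit 0) (XT.lf (nat_lit 0) (nat_lit 8285408289) (nat_lit 504) (nat_lit 2985702802) (nat_lit 84) (nat_lit 6676342577) (nat_lit 62) (nat_lit 5) (nat_lit 68) (nat_lit 5)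 (nat_lit 63) (nat_lit 5) (nat_lit 348) (nat_lit 316) (nat_lit 197)) (XT.lf (nat_lit 0) (nat_lit 3350333946) (nat_lit 420) (nat_lit 6525901441) (nat_lit 504) (nat_lit 8430666408) (nat_lit 57) (nat_lit 5) (nat_lit 62) (nat_lit 5) (nat_lit 63) (nat_lit 5) (nat_lit 349) (nat_lit 316) (nat_lit 196)))) (XT.nd (nat_lit 188) (nat_lit 336) (nat_lit 0) (XT.nd (nat_lit 94) (nat_lit 0) (nat_lit 0) (XT.lf (nat_lit 0) (nat_lit 9936987864) (nat_lit 420) (nat_lit 1601882035) (nat_lit 504) (nat_lit 7137968410) (nat_lit 57) (nat_lit 5) (nat_lit 62) (nat_lit 5) (nat_lit 63) (nat_lit 5) (nat_lit 350) (nat_lit 316) (nat_lit 195)) (XT.lf (nat_lit 0) (nat_lit 13279100219) (nat_lit 504) (nat_lit 2374005061) (nat_lit 84) (nat_lit 3404371355) (nat_lit 57) (nat_lit 5) (nat_lit 63) (nat_lit 5) (nat_lit 58) (nat_lit 5) (nat_lit 351) (nat_lit 316) (nat_lit 194))) (XT.nd (nat_lit 94) (nat_lit 0) (nat_lit 0) (XT.lf (nat_lit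 0) (nat_lit 4249571672) (nat_lit 336) (nat_lit 10874082692) (nat_lit 420) (nat_lit 4324738916) (nat_lit 53) (nat_lit 5) (nat_lit 57) (nat_lit 5) (nat_lit 58) (nat_lit 5) (nat_lit 352) (nat_lit 316) (nat_lit 193)) (XT.nd (nat_lit 94) (nat_lit 0) (nat_lit 0) (XT.lf (nat_lit 0) (nat_lit 11120050730) (nat_lit 336) (nat_lit 5922114212) (nat_lit 420) (nat_lit 2808782369) (nat_lit 53) (nat_lit 5) (nat_lit 57) (nat_lit 5) (nat_lit 58) (nat_lit 5) (nat_lit 353) (nat_lit 316) (nat_lit 192)) (XT.lf (nat_lit 0) (nat_lit 18195021703) (nat_lit 336) (nat_lit 817363831) (nat_lit 420) (nat_lit 1253873489) (nat_lit 53) (nat_lit 5) (nat_lit 57) (nat_lit 5) (nat_lit 58) (nat_lit 5) (nat_lit 354) (nat_lit 316) (nat_lit 191))))))) (XT.nd (nat_lit 846) (nat_lit 672) (nat_lit 0) (XT.nd (nat_lit 376) (nat_lit 336) (nat_lit 0) (XT.nd (nat_lit 188) (nat_lit 336) (nat_lit 0) (XT.nd (nat_lit 94) (nat_lit 0) (nat_lit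 0) (XT.lf (nat_lit 0) (nat_lit 427605328) (nat_lit 504) (nat_lit 15856409145) (nat_lit 84) (nat_lit 4407711587) (nat_lit 47) (nat_lit 5) (nat_lit 53) (nat_lit 5) (nat_lit 48) (nat_lit 5) (nat_lit 355) (nat_lit 316) (nat_lit 190)) (XT.lf (nat_lit 0) (nat_lit 2157859660) (nat_lit 504) (nat_lit 9159837351) (nat_lit 84) (nat_lit 9811618969) (nat_lit 47) (nat_lit 5) (nat_lit 53) (nat_lit 5) (nat_lit 48) (nat_lit 5) (nat_lit 356) (nat_lit 316) (nat_lit 189))) (XT.nd (nat_lit 94) (nat_lit 336) (nat_lit 0) (XT.lf (nat_lit 0) (nat_lit 3934472802) (nat_lit 504) (nat_lit 2264016599) (nat_lit 84) (nat_lit 15382240916) (nat_lit 47) (nat_lit 5) (nat_lit 53) (nat_lit 5) (nat_lit 48) (nat_lit 5) (nat_lit 357) (nat_lit 316) (nat_lit 188)) (XT.lf (nat_lit 0) (nat_lit 4936949262) (nat_lit 336) (nat_lit 871126631) (nat_lit 420) (nat_lit 16236795717) (nat_lit 43) (nat_lit 5) (nat_lit 47) (nat_lit 5) (nat_lit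 48) (nat_lit 5) (nat_lit 358) (nat_lit 316) (nat_lit 187)))) (XT.nd (nat_lit 188) (nat_lit 336) (nat_lit 0) (XT.nd (nat_lit 94) (nat_lit 0) (nat_lit 0) (XT.lf (nat_lit 0) (nat_lit 7802540614) (nat_lit 420) (nat_lit 10167861476) (nat_lit 84) (nat_lit 4551084511) (nat_lit 43) (nat_lit 5) (nat_lit 48) (nat_lit 5) (nat_lit 44) (nat_lit 5) (nat_lit 359) (nat_lit 316) (nat_lit 186)) (XT.lf (nat_lit 0) (nat_lit 9861013774) (nat_lit 420) (nat_lit 3029567714) (nat_lit 84) (nat_lit 10122258138) (nat_lit 43) (nat_lit 5) (nat_lit 48) (nat_lit 5) (nat_lit 44) (nat_lit 5) (nat_lit 360) (nat_lit 316) (nat_lit 185))) (XT.nd (nat_lit 94) (nat_lit 0) (nat_lit 0) (XT.lf (nat_lit 0) (nat_lit 4411128671) (nat_lit 336) (nat_lit 7609402673) (nat_lit 420) (nat_lit 11497768697) (nat_lit 39) (nat_lit 5) (nat_lit 43) (nat_lit 5) (nat_lit 44) (nat_lit 5) (nat_lit 361) (nat_lit 316) (nat_lit 184)) (XT.nd (nat_lit 94)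 (nat_lit 0) (nat_lit 0) (XT.lf (nat_lit 0) (nat_lit 12139031546) (nat_lit 336) (nat_lit 2133177757) (nat_lit 420) (nat_lit 9766467492) (nat_lit 39) (nat_lit 5) (nat_lit 43) (nat_lit 5) (nat_lit 44) (nat_lit 5) (nat_lit 362) (nat_lit 316) (nat_lit 183)) (XT.lf (nat_lit 0) (nat_lit 16622310058) (nat_lit 420) (nat_lit 4511191014) (nat_lit 84) (nat_lit 3440824787) (nat_lit 39) (nat_lit 5) (nat_lit 44) (nat_lit 5) (nat_lit 40) (nat_lit 5) (nat_lit 363) (nat_lit 316) (nat_lit 182)))))) (XT.nd (nat_lit 49726) (nat_lit 0) (nat_lit 6300) (XT.nd (nat_lit 188) (nat_lit 420) (nat_lit 0) (XT.nd (nat_lit 94) (nat_lit 0) (nat_lit 0) (XT.lf (nat_lit 0) (nat_lit 3140331150) (nat_lit 252) (nat_lit 15951863142) (nat_lit 336) (nat_lit 6032957948) (nat_lit 36) (nat_lit 5) (nat_lit 39) (nat_lit 5) (nat_lit 40) (nat_lit 5) (nat_lit 364) (nat_lit 316) (nat_lit 181)) (XT.lf (nat_lit 0) (nat_lit 11117333143) (nat_lit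 252) (nat_lit 10562468530) (nat_lit 336) (nat_lit 4012002934) (nat_lit 36) (nat_lit 5) (nat_lit 39) (nat_lit 5) (nat_lit 40) (nat_lit 5) (nat_lit 365) (nat_lit 316) (nat_lit 180))) (XT.nd (nat_lit 94) (nat_lit 420) (nat_lit 0) (XT.lf (nat_lit 0) (nat_lit 19334491024) (nat_lit 252) (nat_lit 5007381339) (nat_lit 336) (nat_lit 1934354597) (nat_lit 36) (nat_lit 5) (nat_lit 39) (nat_lit 5) (nat_lit 40) (nat_lit 5) (nat_lit 366) (nat_lit 316) (nat_lit 179)) (XT.nd (nat_lit 49350) (nat_lit 0) (nat_lit 6300) (XT.lf (nat_lit 0) (nat_lit 214398251) (nat_lit 420) (nat_lit 25948474567) (nat_lit 84) (nat_lit 715516300) (nat_lit 31) (nat_lit 5) (nat_lit 36) (nat_lit 5) (nat_lit 32) (nat_lit 5) (nat_lit 367) (nat_lit 316) (nat_lit 178)) (XT.lf (nat_lit 0) (nat_lit 1459793045) (nat_lit 0) (nat_lit 1459793045) (nat_lit 924) (nat_lit 2470269172) (nat_lit 106) (nat_lit 5) (nat_lit 106) (nat_lit 3) (nat_lit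 117) (nat_lit 3) (nat_lit 317) (nat_lit 317) (nat_lit 227))))) (XT.nd (nat_lit 188) (nat_lit 0) (nat_lit 0) (XT.nd (nat_lit 94) (nat_lit 0) (nat_lit 0) (XT.lf (nat_lit 0) (nat_lit 6419336267) (nat_lit 924) (nat_lit 4071446260) (nat_lit 1008) (nat_lit 438016594) (nat_lit 106) (nat_lit 5) (nat_lit 117) (nat_lit 3) (nat_lit 118) (nat_lit 5) (nat_lit 318) (nat_lit 317) (nat_lit 226)) (XT.lf (nat_lit 0) (nat_lit 7027890617) (nat_lit 924) (nat_lit 205772346) (nat_lit 1008) (nat_lit 3848637474) (nat_lit 106) (nat_lit 5) (nat_lit 117) (nat_lit 3) (nat_lit 118) (nat_lit 5) (nat_lit 319) (nat_lit 317) (nat_lit 225))) (XT.nd (nat_lit 94) (nat_lit 0) (nat_lit 0) (XT.lf (nat_lit 84) (nat_lit 3846971068) (nat_lit 0) (nat_lit 3827631175) (nat_lit 1008) (nat_lit 3565470118) (nat_lit 107) (nat_lit 5) (nat_lit 106) (nat_lit 5) (nat_lit 118) (nat_lit 5) (nat_lit 320) (nat_lit 317) (nat_lit 224)) (XT.nd (nat_lit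 94) (nat_lit 0) (nat_lit 84) (XT.lf (nat_lit 84) (nat_lit 8019541529) (nat_lit 0) (nat_lit 305564404) (nat_lit 1008) (nat_lit 3078240027) (nat_lit 107) (nat_lit 5) (nat_lit 106) (nat_lit 5) (nat_lit 118) (nat_lit 5) (nat_lit 321) (nat_lit 317) (nat_lit 223)) (XT.lf (nat_lit 84) (nat_lit 720709448) (nat_lit 0) (nat_lit 8297435287) (nat_lit 1008) (nat_lit 2552946450) (nat_lit 108) (nat_lit 5) (nat_lit 107) (nat_lit 5) (nat_lit 119) (nat_lit 5) (nat_lit 322) (nat_lit 317) (nat_lit 222))))))))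
noncomputable def xc98 : XT := (XT.nd (nat_lit 1692) (nat_lit 3108) (nat_lit 0) (XT.nd (nat_lit 846) (nat_lit 1344) (nat_lit 0) (XT.nd (nat_lit 376) (nat_lit 924) (nat_lit 0) (XT.nd (nat_lit 188) (nat_lit 0) (nat_lit 84) (XT.nd (nat_lit 94) (nat_lit 0) (nat_lit 0) (XT.lf (nat_lit 84) (nat_lit 5010515338) (nat_lit 0) (nat_lit 4743224944) (nat_lit 1008) (nat_lit 1989743464) (nat_lit 108) (nat_lit 5) (nat_lit 107) (nat_lit 5) (nat_lit 119) (nat_lit 5) (nat_lit 323) (nat_lit 317) (nat_lit 221)) (XT.lf (nat_lit 84) (nat_lit 9423127392) (nat_lit 0) (nat_lit 1072192304) (nat_lit 1008) (nat_lit 1426519650) (nat_lit 108) (nat_lit 5) (nat_lit 107) (nat_lit 5) (nat_lit 119) (nat_lit 5) (nat_lit 324) (nat_lit 317) (nat_lit 220))) (XT.nd (nat_lit 94) (nat_lit 0) (nat_lit 0) (XT.lf (nat_lit 84) (nat_lit 1866976149) (nat_lit 0) (nat_lit 9422092347) (nat_lit 1008) (nat_lit 815845412) (nat_lit 109) (nat_lit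 5) (nat_lit 108) (nat_lit 5) (nat_lit 120) (nat_lit 5) (nat_lit 325) (nat_lit 317) (nat_lit 219)) (XT.lf (nat_lit 84) (nat_lit 6399351184) (nat_lit 0) (nat_lit 5729143921) (nat_lit 1008) (nat_lit 164607147) (nat_lit 109) (nat_lit 5) (nat_lit 108) (nat_lit 5) (nat_lit 120) (nat_lit 5) (nat_lit 326) (nat_lit 317) (nat_lit 218)))) (XT.nd (nat_lit 188) (nat_lit 0) (nat_lit 84) (XT.nd (nat_lit 94) (nat_lit 0) (nat_lit 84) (XT.lf (nat_lit 0) (nat_lit 480975905) (nat_lit 1008) (nat_lit 1430445698) (nat_lit 1092) (nat_lit 10576117832) (nat_lit 96) (nat_lit 5) (nat_lit 108) (nat_lit 5) (nat_lit 109) (nat_lit 5) (nat_lit 327) (nat_lit 317) (nat_lit 217)) (XT.lf (nat_lit 0) (nat_lit 1180454155) (nat_lit 1008) (nat_lit 9483698471) (nat_lit 1092) (nat_lit 2022726676) (nat_lit 97) (nat_lit 5) (nat_lit 109) (nat_lit 5) (nat_lit 110) (nat_lit 5) (nat_lit 328) (nat_lit 317) (nat_lit 216))) (XT.nd (nat_lit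 94) (nat_lit 0) (nat_lit 0) (XT.lf (nat_lit 0) (nat_lit 1921489242) (nat_lit 1008) (nat_lit 4911553872) (nat_lit 1092) (nat_lit 6058820677) (nat_lit 97) (nat_lit 5) (nat_lit 109) (nat_lit 5) (nat_lit 110) (nat_lit 5) (nat_lit 329) (nat_lit 317) (nat_lit 215)) (XT.nd (nat_lit 94) (nat_lit 0) (nat_lit 84) (XT.lf (nat_lit 0) (nat_lit 2671180256) (nat_lit 1008) (nat_lit 208041804) (nat_lit 1092) (nat_lit 10224503250) (nat_lit 97) (nat_lit 5) (nat_lit 109) (nat_lit 5) (nat_lit 110) (nat_lit 5) (nat_lit 330) (nat_lit 317) (nat_lit 214)) (XT.lf (nat_lit 0) (nat_lit 3489506520) (nat_lit 1008) (nat_lit 8607152090) (nat_lit 1092) (nat_lit 1224165027) (nat_lit 98) (nat_lit 5) (nat_lit 110) (nat_lit 5) (nat_lit 111) (nat_lit 5) (nat_lit 331) (nat_lit 317) (nat_lit 213)))))) (XT.nd (nat_lit 376) (nat_lit 1512) (nat_lit 0) (XT.nd (nat_lit 188) (nat_lit 0) (nat_lit 84) (XT.nd (nat_lit 94) (nat_lit 0) (nat_lit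 0) (XT.lf (nat_lit 0) (nat_lit 4351311184) (nat_lit 1008) (nat_lit 3792172051) (nat_lit 1092) (nat_lit 5400681407) (nat_lit 98) (nat_lit 5) (nat_lit 110) (nat_lit 5) (nat_lit 111) (nat_lit 5) (nat_lit 332) (nat_lit 317) (nat_lit 212)) (XT.lf (nat_lit 84) (nat_lit 1185792872) (nat_lit 0) (nat_lit 4052677861) (nat_lit 1092) (nat_lit 8536072498) (nat_lit 99) (nat_lit 5) (nat_lit 98) (nat_lit 5) (nat_lit 111) (nat_lit 5) (nat_lit 333) (nat_lit 317) (nat_lit 211))) (XT.nd (nat_lit 94) (nat_lit 0) (nat_lit 0) (XT.lf (nat_lit 0) (nat_lit 6181953690) (nat_lit 1008) (nat_lit 7624973208) (nat_lit 84) (nat_lit 204312855) (nat_lit 99) (nat_lit 5) (nat_lit 111) (nat_lit 5) (nat_lit 100) (nat_lit 5) (nat_lit 334) (nat_lit 317) (nat_lit 210)) (XT.lf (nat_lit 0) (nat_lit 7183716786) (nat_lit 1008) (nat_lit 2559013123) (nat_lit 84) (nat_lit 4511711527) (nat_lit 99) (nat_lit 5) (nat_lit 111) (nat_lit 5) (nat_lit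 100) (nat_lit 5) (nat_lit 335) (nat_lit 317) (nat_lit 209)))) (XT.nd (nat_lit 188) (nat_lit 588) (nat_lit 0) (XT.nd (nat_lit 94) (nat_lit 0) (nat_lit 0) (XT.lf (nat_lit 0) (nat_lit 2708627779) (nat_lit 1008) (nat_lit 5522732848) (nat_lit 1092) (nat_lit 6273427668) (nat_lit 87) (nat_lit 5) (nat_lit 99) (nat_lit 5) (nat_lit 100) (nat_lit 5) (nat_lit 336) (nat_lit 317) (nat_lit 208)) (XT.lf (nat_lit 0) (nat_lit 8183979126) (nat_lit 1008) (nat_lit 1142433875) (nat_lit 1092) (nat_lit 5436083594) (nat_lit 87) (nat_lit 5) (nat_lit 99) (nat_lit 5) (nat_lit 100) (nat_lit 5) (nat_lit 337) (nat_lit 317) (nat_lit 207))) (XT.nd (nat_lit 94) (nat_lit 588) (nat_lit 0) (XT.lf (nat_lit 0) (nat_lit 10477472667) (nat_lit 1092) (nat_lit 1242569489) (nat_lit 84) (nat_lit 3307529469) (nat_lit 87) (nat_lit 5) (nat_lit 100) (nat_lit 5) (nat_lit 88) (nat_lit 5) (nat_lit 338) (nat_lit 317) (nat_lit 206)) (XT.nd (nat_lit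 94) (nat_lit 0) (nat_lit 0) (XT.lf (nat_lit 0) (nat_lit 4324563783) (nat_lit 588) (nat_lit 7383172582) (nat_lit 672) (nat_lit 3591838258) (nat_lit 80) (nat_lit 5) (nat_lit 87) (nat_lit 5) (nat_lit 88) (nat_lit 5) (nat_lit 339) (nat_lit 317) (nat_lit 205)) (XT.lf (nat_lit 0) (nat_lit 10081042950) (nat_lit 588) (nat_lit 2897239377) (nat_lit 672) (nat_lit 2601718920) (nat_lit 80) (nat_lit 5) (nat_lit 87) (nat_lit 5) (nat_lit 88) (nat_lit 5) (nat_lit 340) (nat_lit 317) (nat_lit 204))))))) (XT.nd (nat_lit 846) (nat_lit 1596) (nat_lit 0) (XT.nd (nat_lit 376) (nat_lit 420) (nat_lit 0) (XT.nd (nat_lit 188) (nat_lit 588) (nat_lit 0) (XT.nd (nat_lit 94) (nat_lit 0) (nat_lit 0) (XT.lf (nat_lit 0) (nat_lit 122497477) (nat_lit 504) (nat_lit 14173584237) (nat_lit 588) (nat_lit 1572851781) (nat_lit 74) (nat_lit 5) (nat_lit 80) (nat_lit 5) (nat_lit 81) (nat_lit 5) (nat_lit 341) (nat_lit 317) (nat_lit 203))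 (XT.lf (nat_lit 0) (nat_lit 5994967326) (nat_lit 504) (nat_lit 9736227363) (nat_lit 588) (nat_lit 433312203) (nat_lit 74) (nat_lit 5) (nat_lit 80) (nat_lit 5) (nat_lit 81) (nat_lit 5) (nat_lit 342) (nat_lit 317) (nat_lit 202))) (XT.nd (nat_lit 94) (nat_lit 504) (nat_lit 0) (XT.lf (nat_lit 0) (nat_lit 716499491) (nat_lit 588) (nat_lit 4436671548) (nat_lit 84) (nat_lit 11316208814) (nat_lit 73) (nat_lit 5) (nat_lit 80) (nat_lit 5) (nat_lit 74) (nat_lit 5) (nat_lit 343) (nat_lit 317) (nat_lit 201)) (XT.lf (nat_lit 0) (nat_lit 1490240028) (nat_lit 504) (nat_lit 407688880) (nat_lit 588) (nat_lit 14885533166) (nat_lit 67) (nat_lit 5) (nat_lit 73) (nat_lit 5) (nat_lit 74) (nat_lit 5) (nat_lit 344) (nat_lit 317) (nat_lit 200)))) (XT.nd (nat_lit 188) (nat_lit 420) (nat_lit 0) (XT.nd (nat_lit 94) (nat_lit 0) (nat_lit 0) (XT.lf (nat_lit 0) (nat_lit 3197656119) (nat_lit 588) (nat_lit 9465393786) (nat_lit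 84) (nat_lit 4441747355) (nat_lit 67) (nat_lit 5) (nat_lit 74) (nat_lit 5) (nat_lit 68) (nat_lit 5) (nat_lit 345) (nat_lit 317) (nat_lit 199)) (XT.lf (nat_lit 0) (nat_lit 4532532537) (nat_lit 588) (nat_lit 3470311227) (nat_lit 84) (nat_lit 9433456325) (nat_lit 67) (nat_lit 5) (nat_lit 74) (nat_lit 5) (nat_lit 68) (nat_lit 5) (nat_lit 346) (nat_lit 317) (nat_lit 198))) (XT.nd (nat_lit 94) (nat_lit 0) (nat_lit 0) (XT.lf (nat_lit 0) (nat_lit 2757209628) (nat_lit 420) (nat_lit 3169900317) (nat_lit 504) (nat_lit 11850447080) (nat_lit 62) (nat_lit 5) (nat_lit 67) (nat_lit 5) (nat_lit 68) (nat_lit 5) (nat_lit 347) (nat_lit 317) (nat_lit 197)) (XT.nd (nat_lit 94) (nat_lit 0) (nat_lit 0) (XT.lf (nat_lit 0) (nat_lit 7410647825) (nat_lit 504) (nat_lit 8904460249) (nat_lit 84) (nat_lit 1812911332) (nat_lit 62) (nat_lit 5) (nat_lit 68) (nat_lit 5) (nat_lit 63) (nat_lit 5) (nat_lit 348) (nat_lit 317)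 (nat_lit 196)) (XT.lf (nat_lit 0) (nat_lit 8964013389) (nat_lit 504) (nat_lit 2640313274) (nat_lit 84) (nat_lit 6884323222) (nat_lit 62) (nat_lit 5) (nat_lit 68) (nat_lit 5) (nat_lit 63) (nat_lit 5) (nat_lit 349) (nat_lit 317) (nat_lit 195)))))) (XT.nd (nat_lit 470) (nat_lit 840) (nat_lit 0) (XT.nd (nat_lit 188) (nat_lit 336) (nat_lit 0) (XT.nd (nat_lit 94) (nat_lit 0) (nat_lit 0) (XT.lf (nat_lit 0) (nat_lit 3887706801) (nat_lit 420) (nat_lit 6708068466) (nat_lit 504) (nat_lit 8263788597) (nat_lit 57) (nat_lit 5) (nat_lit 62) (nat_lit 5) (nat_lit 63) (nat_lit 5) (nat_lit 350) (nat_lit 317) (nat_lit 194)) (XT.lf (nat_lit 0) (nat_lit 10665512182) (nat_lit 420) (nat_lit 1632009903) (nat_lit 504) (nat_lit 6943892890) (nat_lit 57) (nat_lit 5) (nat_lit 62) (nat_lit 5) (nat_lit 63) (nat_lit 5) (nat_lit 351) (nat_lit 317) (nat_lit 193))) (XT.nd (nat_lit 94) (nat_lit 336) (nat_lit 0) (XT.lf (nat_lit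 0) (nat_lit 14079831825) (nat_lit 504) (nat_lit 2025980139) (nat_lit 84) (nat_lit 3528468437) (nat_lit 57) (nat_lit 5) (nat_lit 63) (nat_lit 5) (nat_lit 58) (nat_lit 5) (nat_lit 352) (nat_lit 317) (nat_lit 192)) (XT.nd (nat_lit 94) (nat_lit 0) (nat_lit 0) (XT.lf (nat_lit 0) (nat_lit 4798658959) (nat_lit 336) (nat_lit 11175349558) (nat_lit 420) (nat_lit 4063598890) (nat_lit 53) (nat_lit 5) (nat_lit 57) (nat_lit 5) (nat_lit 58) (nat_lit 5) (nat_lit 353) (nat_lit 317) (nat_lit 191)) (XT.lf (nat_lit 0) (nat_lit 11869574014) (nat_lit 336) (nat_lit 6070947378) (nat_lit 420) (nat_lit 2512530731) (nat_lit 53) (nat_lit 5) (nat_lit 57) (nat_lit 5) (nat_lit 58) (nat_lit 5) (nat_lit 354) (nat_lit 317) (nat_lit 190))))) (XT.nd (nat_lit 188) (nat_lit 336) (nat_lit 0) (XT.nd (nat_lit 94) (nat_lit 504) (nat_lit 0) (XT.lf (nat_lit 0) (nat_lit 19151697552) (nat_lit 336) (nat_lit 808994666) (nat_lit 420) (nat_lit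 920945419) (nat_lit 53) (nat_lit 5) (nat_lit 57) (nat_lit 5) (nat_lit 58) (nat_lit 5) (nat_lit 355) (nat_lit 317) (nat_lit 189)) (XT.lf (nat_lit 0) (nat_lit 798561380) (nat_lit 504) (nat_lit 15937888334) (nat_lit 84) (nat_lit 4583985918) (nat_lit 47) (nat_lit 5) (nat_lit 53) (nat_lit 5) (nat_lit 48) (nat_lit 5) (nat_lit 356) (nat_lit 317) (nat_lit 188))) (XT.nd (nat_lit 94) (nat_lit 336) (nat_lit 0) (XT.lf (nat_lit 0) (nat_lit 2571698301) (nat_lit 504) (nat_lit 9046052741) (nat_lit 84) (nat_lit 10154222680) (nat_lit 47) (nat_lit 5) (nat_lit 53) (nat_lit 5) (nat_lit 48) (nat_lit 5) (nat_lit 357) (nat_lit 317) (nat_lit 187)) (XT.nd (nat_lit 94) (nat_lit 336) (nat_lit 0) (XT.lf (nat_lit 0) (nat_lit 4392954545) (nat_lit 504) (nat_lit 1948420738) (nat_lit 84) (nat_lit 15896377992) (nat_lit 47) (nat_lit 5) (nat_lit 53) (nat_lit 5) (nat_lit 48) (nat_lit 5) (nat_lit 358) (nat_lit 317) (nat_lit 186))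 (XT.lf (nat_lit 0) (nat_lit 5471869386) (nat_lit 336) (nat_lit 846439950) (nat_lit 420) (nat_lit 16398216379) (nat_lit 43) (nat_lit 5) (nat_lit 47) (nat_lit 5) (nat_lit 48) (nat_lit 5) (nat_lit 359) (nat_lit 317) (nat_lit 185))))))))
noncomputable def xc99 : XT := (XT.nd (nat_lit 51230) (nat_lit 0) (nat_lit 2184) (XT.nd (nat_lit 50290) (nat_lit 0) (nat_lit 5040) (XT.nd (nat_lit 376) (nat_lit 252) (nat_lit 0) (XT.nd (nat_lit 188) (nat_lit 336) (nat_lit 0) (XT.nd (nat_lit 94) (nat_lit 0) (nat_lit 0) (XT.lf (nat_lit 0) (nat_lit 8365171921) (nat_lit 420) (nat_lit 10101786013) (nat_lit 84) (nat_lit 4741295323) (nat_lit 43) (nat_lit 5) (nat_lit 48) (nat_lit 5) (nat_lit 44) (nat_lit 5) (nat_lit 360) (nat_lit 317) (nat_lit 184)) (XT.lf (nat_lit 0) (nat_lit 10477813395) (nat_lit 420) (nat_lit 2753669406) (nat_lit 84) (nat_lit 10483698181) (nat_lit 43) (nat_lit 5) (nat_lit 48) (nat_lit 5) (nat_lit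 44) (nat_lit 5) (nat_lit 361) (nat_lit 317) (nat_lit 183))) (XT.nd (nat_lit 94) (nat_lit 0) (nat_lit 0) (XT.lf (nat_lit 0) (nat_lit 4913944523) (nat_lit 336) (nat_lit 7784608586) (nat_lit 420) (nat_lit 11537977437) (nat_lit 39) (nat_lit 5) (nat_lit 43) (nat_lit 5) (nat_lit 44) (nat_lit 5) (nat_lit 362) (nat_lit 317) (nat_lit 182)) (XT.lf (nat_lit 0) (nat_lit 12870405407) (nat_lit 336) (nat_lit 2140445385) (nat_lit 420) (nat_lit 9762514026) (nat_lit 39) (nat_lit 5) (nat_lit 43) (nat_lit 5) (nat_lit 44) (nat_lit 5) (nat_lit 363) (nat_lit 317) (nat_lit 181)))) (XT.nd (nat_lit 188) (nat_lit 0) (nat_lit 0) (XT.nd (nat_lit 94) (nat_lit 252) (nat_lit 0) (XT.lf (nat_lit 0) (nat_lit 17425464820) (nat_lit 420) (nat_lit 4297021512) (nat_lit 84) (nat_lit 3603431157) (nat_lit 39) (nat_lit 5) (nat_lit 44) (nat_lit 5) (nat_lit 40) (nat_lit 5) (nat_lit 364) (nat_lit 317) (nat_lit 180)) (XT.lf (nat_lit 0)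 (nat_lit 3588113741) (nat_lit 252) (nat_lit 16378622617) (nat_lit 336) (nat_lit 5927282432) (nat_lit 36) (nat_lit 5) (nat_lit 39) (nat_lit 5) (nat_lit 40) (nat_lit 5) (nat_lit 365) (nat_lit 317) (nat_lit 179))) (XT.nd (nat_lit 49538) (nat_lit 0) (nat_lit 5880) (XT.lf (nat_lit 0) (nat_lit 11801866032) (nat_lit 252) (nat_lit 10824193821) (nat_lit 336) (nat_lit 3852478600) (nat_lit 36) (nat_lit 5) (nat_lit 39) (nat_lit 5) (nat_lit 40) (nat_lit 5) (nat_lit 366) (nat_lit 317) (nat_lit 178)) (XT.nd (nat_lit 94) (nat_lit 0) (nat_lit 0) (XT.lf (nat_lit 0) (nat_lit 1745251092) (nat_lit 0) (nat_lit 1745251092) (nat_lit 924) (nat_lit 2048756312) (nat_lit 106) (nat_lit 5) (nat_lit 106) (nat_lit 3) (nat_lit 117) (nat_lit 3) (nat_lit 318) (nat_lit 318) (nat_lit 225)) (XT.lf (nat_lit 0) (nat_lit 7540608567) (nat_lit 0) (nat_lit 5083209) (nat_lit 924) (nat_lit 3687740629) (nat_lit 106) (nat_lit 5) (nat_lit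 106) (nat_lit 3) (nat_lit 117) (nat_lit 3) (nat_lit 319) (nat_lit 318) (nat_lit 224)))))) (XT.nd (nat_lit 470) (nat_lit 840) (nat_lit 0) (XT.nd (nat_lit 188) (nat_lit 0) (nat_lit 0) (XT.nd (nat_lit 94) (nat_lit 0) (nat_lit 0) (XT.lf (nat_lit 84) (nat_lit 283262592) (nat_lit 0) (nat_lit 7864726164) (nat_lit 1008) (nat_lit 3244645017) (nat_lit 107) (nat_lit 5) (nat_lit 106) (nat_lit 5) (nat_lit 118) (nat_lit 5) (nat_lit 320) (nat_lit 318) (nat_lit 223)) (XT.lf (nat_lit 84) (nat_lit 4450976102) (nat_lit 0) (nat_lit 4338727337) (nat_lit 1008) (nat_lit 2766527400) (nat_lit 107) (nat_lit 5) (nat_lit 106) (nat_lit 5) (nat_lit 118) (nat_lit 5) (nat_lit 321) (nat_lit 318) (nat_lit 222))) (XT.nd (nat_lit 94) (nat_lit 0) (nat_lit 84) (XT.lf (nat_lit 84) (nat_lit 8738320867) (nat_lit 0) (nat_lit 695676664) (nat_lit 1008) (nat_lit 2291539094) (nat_lit 107) (nat_lit 5) (nat_lit 106) (nat_lit 5) (nat_lit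 118) (nat_lit 5) (nat_lit 322) (nat_lit 318) (nat_lit 221)) (XT.nd (nat_lit 94) (nat_lit 0) (nat_lit 0) (XT.lf (nat_lit 84) (nat_lit 1243198715) (nat_lit 0) (nat_lit 8881038721) (nat_lit 1008) (nat_lit 1775145762) (nat_lit 108) (nat_lit 5) (nat_lit 107) (nat_lit 5) (nat_lit 119) (nat_lit 5) (nat_lit 323) (nat_lit 318) (nat_lit 220)) (XT.lf (nat_lit 84) (nat_lit 5650950211) (nat_lit 0) (nat_lit 5206834209) (nat_lit 1008) (nat_lit 1220249927) (nat_lit 108) (nat_lit 5) (nat_lit 107) (nat_lit 5) (nat_lit 119) (nat_lit 5) (nat_lit 324) (nat_lit 318) (nat_lit 219))))) (XT.nd (nat_lit 188) (nat_lit 924) (nat_lit 0) (XT.nd (nat_lit 94) (nat_lit 0) (nat_lit 84) (XT.lf (nat_lit 84) (nat_lit 10185767036) (nat_lit 0) (nat_lit 1412480985) (nat_lit 1008) (nat_lit 664557875) (nat_lit 108) (nat_lit 5) (nat_lit 107) (nat_lit 5) (nat_lit 119) (nat_lit 5) (nat_lit 325) (nat_lit 318) (nat_lit 218)) (XT.lf (nat_lit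 84) (nat_lit 2421947443) (nat_lit 0) (nat_lit 9973252445) (nat_lit 1008) (nat_lit 57154857) (nat_lit 109) (nat_lit 5) (nat_lit 108) (nat_lit 5) (nat_lit 120) (nat_lit 5) (nat_lit 326) (nat_lit 318) (nat_lit 217))) (XT.nd (nat_lit 94) (nat_lit 0) (nat_lit 0) (XT.lf (nat_lit 0) (nat_lit 578797842) (nat_lit 1008) (nat_lit 5573193466) (nat_lit 1092) (nat_lit 6495040198) (nat_lit 96) (nat_lit 5) (nat_lit 108) (nat_lit 5) (nat_lit 109) (nat_lit 5) (nat_lit 327) (nat_lit 318) (nat_lit 216)) (XT.nd (nat_lit 94) (nat_lit 0) (nat_lit 84) (XT.lf (nat_lit 0) (nat_lit 1218571447) (nat_lit 1008) (nat_lit 988290639) (nat_lit 1092) (nat_lit 10641400086) (nat_lit 96) (nat_lit 5) (nat_lit 108) (nat_lit 5) (nat_lit 109) (nat_lit 5) (nat_lit 328) (nat_lit 318) (nat_lit 215)) (XT.lf (nat_lit 0) (nat_lit 1920557477) (nat_lit 1008) (nat_lit 9268150363) (nat_lit 1092) (nat_lit 1865788095) (nat_lit 97) (nat_lit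 5) (nat_lit 109) (nat_lit 5) (nat_lit 110) (nat_lit 5) (nat_lit 329) (nat_lit 318) (nat_lit 214))))))) (XT.nd (nat_lit 846) (nat_lit 2100) (nat_lit 0) (XT.nd (nat_lit 376) (nat_lit 840) (nat_lit 0) (XT.nd (nat_lit 188) (nat_lit 0) (nat_lit 84) (XT.nd (nat_lit 94) (nat_lit 0) (nat_lit 0) (XT.lf (nat_lit 0) (nat_lit 2663411610) (nat_lit 1008) (nat_lit 4569590160) (nat_lit 1092) (nat_lit 6033605216) (nat_lit 97) (nat_lit 5) (nat_lit 109) (nat_lit 5) (nat_lit 110) (nat_lit 5) (nat_lit 330) (nat_lit 318) (nat_lit 213)) (XT.lf (nat_lit 84) (nat_lit 270316852) (nat_lit 0) (nat_lit 3148190755) (nat_lit 1092) (nat_lit 10067194304) (nat_lit 98) (nat_lit 5) (nat_lit 97) (nat_lit 5) (nat_lit 110) (nat_lit 5) (nat_lit 331) (nat_lit 318) (nat_lit 212))) (XT.nd (nat_lit 94) (nat_lit 0) (nat_lit 0) (XT.lf (nat_lit 0) (nat_lit 4242619854) (nat_lit 1008) (nat_lit 8374182249) (nat_lit 1092) (nat_lit 1093444639)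 (nat_lit 98) (nat_lit 5) (nat_lit 110) (nat_lit 5) (nat_lit 111) (nat_lit 5) (nat_lit 332) (nat_lit 318) (nat_lit 211)) (XT.lf (nat_lit 0) (nat_lit 5111748515) (nat_lit 1008) (nat_lit 3424965509) (nat_lit 1092) (nat_lit 5404504564) (nat_lit 98) (nat_lit 5) (nat_lit 110) (nat_lit 5) (nat_lit 111) (nat_lit 5) (nat_lit 333) (nat_lit 318) (nat_lit 210)))) (XT.nd (nat_lit 188) (nat_lit 924) (nat_lit 0) (XT.nd (nat_lit 94) (nat_lit 0) (nat_lit 84) (XT.lf (nat_lit 84) (nat_lit 1702408528) (nat_lit 0) (nat_lit 4309952842) (nat_lit 1092) (nat_lit 8166915980) (nat_lit 99) (nat_lit 5) (nat_lit 98) (nat_lit 5) (nat_lit 111) (nat_lit 5) (nat_lit 334) (nat_lit 318) (nat_lit 209)) (XT.lf (nat_lit 0) (nat_lit 6965439200) (nat_lit 1008) (nat_lit 7373046016) (nat_lit 84) (nat_lit 85535327) (nat_lit 99) (nat_lit 5) (nat_lit 111) (nat_lit 5) (nat_lit 100) (nat_lit 5) (nat_lit 335) (nat_lit 318) (nat_lit 208)))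 (XT.nd (nat_lit 94) (nat_lit 1008) (nat_lit 0) (XT.lf (nat_lit 0) (nat_lit 7980461420) (nat_lit 1008) (nat_lit 2164723363) (nat_lit 84) (nat_lit 4530225188) (nat_lit 99) (nat_lit 5) (nat_lit 111) (nat_lit 5) (nat_lit 100) (nat_lit 5) (nat_lit 336) (nat_lit 318) (nat_lit 207)) (XT.nd (nat_lit 94) (nat_lit 0) (nat_lit 0) (XT.lf (nat_lit 0) (nat_lit 3261419439) (nat_lit 1008) (nat_lit 5786553119) (nat_lit 1092) (nat_lit 5886029848) (nat_lit 87) (nat_lit 5) (nat_lit 99) (nat_lit 5) (nat_lit 100) (nat_lit 5) (nat_lit 337) (nat_lit 318) (nat_lit 206)) (XT.lf (nat_lit 0) (nat_lit 8892410121) (nat_lit 1008) (nat_lit 1267680123) (nat_lit 1092) (nat_lit 5040223836) (nat_lit 87) (nat_lit 5) (nat_lit 99) (nat_lit 5) (nat_lit 100) (nat_lit 5) (nat_lit 338) (nat_lit 318) (nat_lit 205)))))) (XT.nd (nat_lit 470) (nat_lit 924) (nat_lit 0) (XT.nd (nat_lit 188) (nat_lit 588) (nat_lit 0) (XT.nd (nat_lit 94)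 (nat_lit 588) (nat_lit 0) (XT.lf (nat_lit 0) (nat_lit 11329594694) (nat_lit 1092) (nat_lit 819945899) (nat_lit 84) (nat_lit 3324688579) (nat_lit 87) (nat_lit 5) (nat_lit 100) (nat_lit 5) (nat_lit 88) (nat_lit 5) (nat_lit 339) (nat_lit 318) (nat_lit 204)) (XT.lf (nat_lit 0) (nat_lit 4915099843) (nat_lit 588) (nat_lit 7671569594) (nat_lit 672) (nat_lit 3168431668) (nat_lit 80) (nat_lit 5) (nat_lit 87) (nat_lit 5) (nat_lit 88) (nat_lit 5) (nat_lit 340) (nat_lit 318) (nat_lit 203))) (XT.nd (nat_lit 94) (nat_lit 588) (nat_lit 0) (XT.lf (nat_lit 0) (nat_lit 10836304635) (nat_lit 588) (nat_lit 3044782859) (nat_lit 672) (nat_lit 2163697545) (nat_lit 80) (nat_lit 5) (nat_lit 87) (nat_lit 5) (nat_lit 88) (nat_lit 5) (nat_lit 341) (nat_lit 318) (nat_lit 202)) (XT.nd (nat_lit 94) (nat_lit 84) (nat_lit 0) (XT.lf (nat_lit 0) (nat_lit 583140720) (nat_lit 504) (nat_lit 14645526115) (nat_lit 588) (nat_lit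 1114431201) (nat_lit 74) (nat_lit 5) (nat_lit 80) (nat_lit 5) (nat_lit 81) (nat_lit 5) (nat_lit 342) (nat_lit 318) (nat_lit 201)) (XT.lf (nat_lit 0) (nat_lit 44273936) (nat_lit 588) (nat_lit 10024896079) (nat_lit 84) (nat_lit 6579184677) (nat_lit 73) (nat_lit 5) (nat_lit 80) (nat_lit 5) (nat_lit 74) (nat_lit 5) (nat_lit 343) (nat_lit 318) (nat_lit 200))))) (XT.nd (nat_lit 188) (nat_lit 420) (nat_lit 0) (XT.nd (nat_lit 94) (nat_lit 504) (nat_lit 0) (XT.lf (nat_lit 0) (nat_lit 1206235616) (nat_lit 588) (nat_lit 4132435865) (nat_lit 84) (nat_lit 11624392710) (nat_lit 73) (nat_lit 5) (nat_lit 80) (nat_lit 5) (nat_lit 74) (nat_lit 5) (nat_lit 344) (nat_lit 318) (nat_lit 199)) (XT.lf (nat_lit 0) (nat_lit 1973737421) (nat_lit 504) (nat_lit 440832511) (nat_lit 588) (nat_lit 14872685686) (nat_lit 67) (nat_lit 5) (nat_lit 73) (nat_lit 5) (nat_lit 74) (nat_lit 5) (nat_lit 345) (nat_lit 318) (nat_lit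 198))) (XT.nd (nat_lit 94) (nat_lit 420) (nat_lit 0) (XT.lf (nat_lit 0) (nat_lit 3740626148) (nat_lit 588) (nat_lit 9318474585) (nat_lit 84) (nat_lit 4559953511) (nat_lit 67) (nat_lit 5) (nat_lit 74) (nat_lit 5) (nat_lit 68) (nat_lit 5) (nat_lit 346) (nat_lit 318) (nat_lit 197)) (XT.nd (nat_lit 94) (nat_lit 420) (nat_lit 0) (XT.lf (nat_lit 0) (nat_lit 5103538320) (nat_lit 588) (nat_lit 3150784756) (nat_lit 84) (nat_lit 9706991423) (nat_lit 67) (nat_lit 5) (nat_lit 74) (nat_lit 5) (nat_lit 68) (nat_lit 5) (nat_lit 347) (nat_lit 318) (nat_lit 196)) (XT.lf (nat_lit 0) (nat_lit 3265465179) (nat_lit 420) (nat_lit 3267132351) (nat_lit 504) (nat_lit 11780889233) (nat_lit 62) (nat_lit 5) (nat_lit 67) (nat_lit 5) (nat_lit 68) (nat_lit 5) (nat_lit 348) (nat_lit 318) (nat_lit 195))))))))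
noncomputable def xc100 : XT := (XT.nd (nat_lit 51230) (nat_lit 0) (nat_lit 4956) (XT.nd (nat_lit 846) (nat_lit 924) (nat_lit 0) (XT.nd (nat_lit 376) (nat_lit 840) (nat_lit 0) (XT.nd (nat_lit 188) (nat_lit 420) (nat_lit 0) (XT.nd (nat_lit 94) (nat_lit 0) (nat_lit 0) (XT.lf (nat_lit 0) (nat_lit 8049453992) (nat_lit 504) (nat_lit 8755720325) (nat_lit 84) (nat_lit 1870095119) (nat_lit 62) (nat_lit 5) (nat_lit 68) (nat_lit 5) (nat_lit 63) (nat_lit 5) (nat_lit 349) (nat_lit 318) (nat_lit 194)) (XT.lf (nat_lit 0) (nat_lit 9638673832) (nat_lit 504) (nat_lit 2310156980) (nat_lit 84) (nat_lit 7098691204) (nat_lit 62) (nat_lit 5) (nat_lit 68) (nat_lit 5) (nat_lit 63) (nat_lit 5) (nat_lit 350) (nat_lit 318) (nat_lit 193))) (XT.nd (nat_lit 94) (nat_lit 0) (nat_lit 0) (XT.lf (nat_lit 0) (nat_lit 4416060526) (nat_lit 420) (nat_lit 6897075353) (nat_lit 504) (nat_lit 8117102280) (nat_lit 57) (nat_lit 5)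 (nat_lit 62) (nat_lit 5) (nat_lit 63) (nat_lit 5) (nat_lit 351) (nat_lit 318) (nat_lit 192)) (XT.lf (nat_lit 0) (nat_lit 11391715140) (nat_lit 420) (nat_lit 1664228559) (nat_lit 504) (nat_lit 6768403071) (nat_lit 57) (nat_lit 5) (nat_lit 62) (nat_lit 5) (nat_lit 63) (nat_lit 5) (nat_lit 352) (nat_lit 318) (nat_lit 191)))) (XT.nd (nat_lit 188) (nat_lit 504) (nat_lit 0) (XT.nd (nat_lit 94) (nat_lit 336) (nat_lit 0) (XT.lf (nat_lit 0) (nat_lit 14882340266) (nat_lit 504) (nat_lit 1692139663) (nat_lit 84) (nat_lit 3655313096) (nat_lit 57) (nat_lit 5) (nat_lit 63) (nat_lit 5) (nat_lit 58) (nat_lit 5) (nat_lit 353) (nat_lit 318) (nat_lit 190)) (XT.lf (nat_lit 0) (nat_lit 5340047563) (nat_lit 336) (nat_lit 11488077950) (nat_lit 420) (nat_lit 3817772307) (nat_lit 53) (nat_lit 5) (nat_lit 57) (nat_lit 5) (nat_lit 58) (nat_lit 5) (nat_lit 354) (nat_lit 318) (nat_lit 189))) (XT.nd (nat_lit 94) (nat_lit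 504) (nat_lit 0) (XT.lf (nat_lit 0) (nat_lit 12618355422) (nat_lit 336) (nat_lit 6226452815) (nat_lit 420) (nat_lit 2229800223) (nat_lit 53) (nat_lit 5) (nat_lit 57) (nat_lit 5) (nat_lit 58) (nat_lit 5) (nat_lit 355) (nat_lit 318) (nat_lit 188)) (XT.nd (nat_lit 94) (nat_lit 504) (nat_lit 0) (XT.lf (nat_lit 0) (nat_lit 20114774195) (nat_lit 336) (nat_lit 802362606) (nat_lit 420) (nat_lit 599718818) (nat_lit 53) (nat_lit 5) (nat_lit 57) (nat_lit 5) (nat_lit 58) (nat_lit 5) (nat_lit 356) (nat_lit 318) (nat_lit 187)) (XT.lf (nat_lit 0) (nat_lit 1159829869) (nat_lit 504) (nat_lit 16046182496) (nat_lit 84) (nat_lit 4763377089) (nat_lit 47) (nat_lit 5) (nat_lit 53) (nat_lit 5) (nat_lit 48) (nat_lit 5) (nat_lit 357) (nat_lit 318) (nat_lit 186)))))) (XT.nd (nat_lit 376) (nat_lit 588) (nat_lit 0) (XT.nd (nat_lit 188) (nat_lit 336) (nat_lit 0) (XT.nd (nat_lit 94) (nat_lit 0) (nat_lit 0) (XT.lf (nat_lit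 0) (nat_lit 2977815794) (nat_lit 504) (nat_lit 8952299604) (nat_lit 84) (nat_lit 10505170030) (nat_lit 47) (nat_lit 5) (nat_lit 53) (nat_lit 5) (nat_lit 48) (nat_lit 5) (nat_lit 358) (nat_lit 318) (nat_lit 185)) (XT.lf (nat_lit 0) (nat_lit 4845716976) (nat_lit 504) (nat_lit 1645891837) (nat_lit 84) (nat_lit 16424244708) (nat_lit 47) (nat_lit 5) (nat_lit 53) (nat_lit 5) (nat_lit 48) (nat_lit 5) (nat_lit 359) (nat_lit 318) (nat_lit 184))) (XT.nd (nat_lit 94) (nat_lit 0) (nat_lit 0) (XT.lf (nat_lit 0) (nat_lit 6000752941) (nat_lit 336) (nat_lit 824049765) (nat_lit 420) (nat_lit 16584893590) (nat_lit 43) (nat_lit 5) (nat_lit 47) (nat_lit 5) (nat_lit 48) (nat_lit 5) (nat_lit 360) (nat_lit 318) (nat_lit 183)) (XT.lf (nat_lit 0) (nat_lit 8926246076) (nat_lit 420) (nat_lit 10056246028) (nat_lit 84) (nat_lit 4934492783) (nat_lit 43) (nat_lit 5) (nat_lit 48) (nat_lit 5) (nat_lit 44) (nat_lit 5) (nat_lit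 361) (nat_lit 318) (nat_lit 182)))) (XT.nd (nat_lit 188) (nat_lit 252) (nat_lit 0) (XT.nd (nat_lit 94) (nat_lit 336) (nat_lit 0) (XT.lf (nat_lit 0) (nat_lit 11095306333) (nat_lit 420) (nat_lit 2491123021) (nat_lit 84) (nat_lit 10853520473) (nat_lit 43) (nat_lit 5) (nat_lit 48) (nat_lit 5) (nat_lit 44) (nat_lit 5) (nat_lit 362) (nat_lit 318) (nat_lit 181)) (XT.lf (nat_lit 0) (nat_lit 5410664663) (nat_lit 336) (nat_lit 7968840393) (nat_lit 420) (nat_lit 11598163023) (nat_lit 39) (nat_lit 5) (nat_lit 43) (nat_lit 5) (nat_lit 44) (nat_lit 5) (nat_lit 363) (nat_lit 318) (nat_lit 180))) (XT.nd (nat_lit 94) (nat_lit 252) (nat_lit 0) (XT.lf (nat_lit 0) (nat_lit 13603420816) (nat_lit 336) (nat_lit 2151424741) (nat_lit 420) (nat_lit 9776605196) (nat_lit 39) (nat_lit 5) (nat_lit 43) (nat_lit 5) (nat_lit 44) (nat_lit 5) (nat_lit 364) (nat_lit 318) (nat_lit 179)) (XT.nd (nat_lit 94) (nat_lit 252) (nat_lit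 0) (XT.lf (nat_lit 0) (nat_lit 18236466752) (nat_lit 420) (nat_lit 4097181754) (nat_lit 84) (nat_lit 3767764855) (nat_lit 39) (nat_lit 5) (nat_lit 44) (nat_lit 5) (nat_lit 40) (nat_lit 5) (nat_lit 365) (nat_lit 318) (nat_lit 178)) (XT.lf (nat_lit 0) (nat_lit 4029020885) (nat_lit 252) (nat_lit 16822624484) (nat_lit 336) (nat_lit 5835667931) (nat_lit 36) (nat_lit 5) (nat_lit 39) (nat_lit 5) (nat_lit 40) (nat_lit 5) (nat_lit 366) (nat_lit 318) (nat_lit 177))))))) (XT.nd (nat_lit 846) (nat_lit 0) (nat_lit 84) (XT.nd (nat_lit 376) (nat_lit 924) (nat_lit 0) (XT.nd (nat_lit 188) (nat_lit 0) (nat_lit 0) (XT.nd (nat_lit 94) (nat_lit 0) (nat_lit 0) (XT.lf (nat_lit 0) (nat_lit 2025330617) (nat_lit 0) (nat_lit 2025330617) (nat_lit 924) (nat_lit 1643679347) (nat_lit 106) (nat_lit 5) (nat_lit 106) (nat_lit 3) (nat_lit 117) (nat_lit 3) (nat_lit 319) (nat_lit 319) (nat_lit 223)) (XT.lf (nat_lit 0) (nat_lit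 8212731625) (nat_lit 0) (nat_lit 443604981) (nat_lit 924) (nat_lit 2893062703) (nat_lit 106) (nat_lit 5) (nat_lit 106) (nat_lit 3) (nat_lit 117) (nat_lit 3) (nat_lit 320) (nat_lit 319) (nat_lit 222))) (XT.nd (nat_lit 94) (nat_lit 0) (nat_lit 0) (XT.lf (nat_lit 84) (nat_lit 762217283) (nat_lit 0) (nat_lit 8489172439) (nat_lit 1008) (nat_lit 2463102638) (nat_lit 107) (nat_lit 5) (nat_lit 106) (nat_lit 5) (nat_lit 118) (nat_lit 5) (nat_lit 321) (nat_lit 319) (nat_lit 221)) (XT.lf (nat_lit 84) (nat_lit 5044992783) (nat_lit 0) (nat_lit 4842422612) (nat_lit 1008) (nat_lit 1996687058) (nat_lit 107) (nat_lit 5) (nat_lit 106) (nat_lit 5) (nat_lit 118) (nat_lit 5) (nat_lit 322) (nat_lit 319) (nat_lit 220)))) (XT.nd (nat_lit 188) (nat_lit 924) (nat_lit 0) (XT.nd (nat_lit 94) (nat_lit 0) (nat_lit 84) (XT.lf (nat_lit 84) (nat_lit 9451533180) (nat_lit 0) (nat_lit 1075336460) (nat_lit 1008) (nat_lit 1532700287)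 (nat_lit 107) (nat_lit 5) (nat_lit 106) (nat_lit 5) (nat_lit 118) (nat_lit 5) (nat_lit 323) (nat_lit 319) (nat_lit 219)) (XT.lf (nat_lit 84) (nat_lit 1752260570) (nat_lit 0) (nat_lit 9463401642) (nat_lit 1008) (nat_lit 1023991397) (nat_lit 108) (nat_lit 5) (nat_lit 107) (nat_lit 5) (nat_lit 119) (nat_lit 5) (nat_lit 324) (nat_lit 319) (nat_lit 218))) (XT.nd (nat_lit 94) (nat_lit 1008) (nat_lit 0) (XT.lf (nat_lit 84) (nat_lit 6282504736) (nat_lit 0) (nat_lit 5666064421) (nat_lit 1008) (nat_lit 476134044) (nat_lit 108) (nat_lit 5) (nat_lit 107) (nat_lit 5) (nat_lit 119) (nat_lit 5) (nat_lit 325) (nat_lit 319) (nat_lit 217)) (XT.nd (nat_lit 94) (nat_lit 0) (nat_lit 84) (XT.lf (nat_lit 0) (nat_lit 71796773) (nat_lit 1008) (nat_lit 1672585291) (nat_lit 1092) (nat_lit 10871632460) (nat_lit 95) (nat_lit 5) (nat_lit 107) (nat_lit 5) (nat_lit 108) (nat_lit 5) (nat_lit 326) (nat_lit 319) (nat_lit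 216)) (XT.lf (nat_lit 0) (nat_lit 664945872) (nat_lit 1008) (nat_lit 9854266493) (nat_lit 1092) (nat_lit 2292792513) (nat_lit 96) (nat_lit 5) (nat_lit 108) (nat_lit 5) (nat_lit 109) (nat_lit 5) (nat_lit 327) (nat_lit 319) (nat_lit 215)))))) (XT.nd (nat_lit 470) (nat_lit 0) (nat_lit 168) (XT.nd (nat_lit 188) (nat_lit 0) (nat_lit 84) (XT.nd (nat_lit 94) (nat_lit 0) (nat_lit 0) (XT.lf (nat_lit 0) (nat_lit 1297696239) (nat_lit 1008) (nat_lit 5274091585) (nat_lit 1092) (nat_lit 6441704195) (nat_lit 96) (nat_lit 5) (nat_lit 108) (nat_lit 5) (nat_lit 109) (nat_lit 5) (nat_lit 328) (nat_lit 319) (nat_lit 214)) (XT.lf (nat_lit 0) (nat_lit 1936226564) (nat_lit 1008) (nat_lit 561244934) (nat_lit 1092) (nat_lit 10724258999) (nat_lit 96) (nat_lit 5) (nat_lit 108) (nat_lit 5) (nat_lit 109) (nat_lit 5) (nat_lit 329) (nat_lit 319) (nat_lit 213))) (XT.nd (nat_lit 94) (nat_lit 0) (nat_lit 0) (XT.lf (nat_lit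 0) (nat_lit 2641933945) (nat_lit 1008) (nat_lit 9076101354) (nat_lit 1092) (nat_lit 1716994256) (nat_lit 97) (nat_lit 5) (nat_lit 109) (nat_lit 5) (nat_lit 110) (nat_lit 5) (nat_lit 330) (nat_lit 319) (nat_lit 212)) (XT.nd (nat_lit 94) (nat_lit 0) (nat_lit 0) (XT.lf (nat_lit 0) (nat_lit 3387916445) (nat_lit 1008) (nat_lit 4246299181) (nat_lit 1092) (nat_lit 6020226735) (nat_lit 97) (nat_lit 5) (nat_lit 109) (nat_lit 5) (nat_lit 110) (nat_lit 5) (nat_lit 331) (nat_lit 319) (nat_lit 211)) (XT.lf (nat_lit 84) (nat_lit 738937765) (nat_lit 0) (nat_lit 3412746544) (nat_lit 1092) (nat_lit 9729207858) (nat_lit 98) (nat_lit 5) (nat_lit 97) (nat_lit 5) (nat_lit 110) (nat_lit 5) (nat_lit 332) (nat_lit 319) (nat_lit 210))))) (XT.nd (nat_lit 188) (nat_lit 0) (nat_lit 0) (XT.nd (nat_lit 94) (nat_lit 0) (nat_lit 0) (XT.lf (nat_lit 0) (nat_lit 4980878882) (nat_lit 1008) (nat_lit 8163593853) (nat_lit 1092)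 (nat_lit 968662503) (nat_lit 98) (nat_lit 5) (nat_lit 110) (nat_lit 5) (nat_lit 111) (nat_lit 5) (nat_lit 333) (nat_lit 319) (nat_lit 209)) (XT.lf (nat_lit 0) (nat_lit 5858707202) (nat_lit 1008) (nat_lit 3075088959) (nat_lit 1092) (nat_lit 5418136426) (nat_lit 98) (nat_lit 5) (nat_lit 110) (nat_lit 5) (nat_lit 111) (nat_lit 5) (nat_lit 334) (nat_lit 319) (nat_lit 208))) (XT.nd (nat_lit 94) (nat_lit 0) (nat_lit 0) (XT.lf (nat_lit 84) (nat_lit 2206616572) (nat_lit 0) (nat_lit 4567405968) (nat_lit 1092) (nat_lit 7823855174) (nat_lit 99) (nat_lit 5) (nat_lit 98) (nat_lit 5) (nat_lit 111) (nat_lit 5) (nat_lit 335) (nat_lit 319) (nat_lit 207)) (XT.nd (nat_lit 94) (nat_lit 0) (nat_lit 84) (XT.lf (nat_lit 84) (nat_lit 7708334957) (nat_lit 0) (nat_lit 30120614) (nat_lit 1092) (nat_lit 7112410193) (nat_lit 99) (nat_lit 5) (nat_lit 98) (nat_lit 5) (nat_lit 111) (nat_lit 5) (nat_lit 336) (nat_lit 319)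 (nat_lit 206)) (XT.lf (nat_lit 0) (nat_lit 8767903209) (nat_lit 1008) (nat_lit 1786263895) (nat_lit 84) (nat_lit 4556500506) (nat_lit 99) (nat_lit 5) (nat_lit 111) (nat_lit 5) (nat_lit 100) (nat_lit 5) (nat_lit 337) (nat_lit 319) (nat_lit 205))))))))
noncomputable def xc101 : XT := (XT.nd (nat_lit 1786) (nat_lit 1176) (nat_lit 0) (XT.nd (nat_lit 846) (nat_lit 1176) (nat_lit 0) (XT.nd (nat_lit 376) (nat_lit 1092) (nat_lit 0) (XT.nd (nat_lit 188) (nat_lit 588) (nat_lit 0) (XT.nd (nat_lit 94) (nat_lit 0) (nat_lit 0) (XT.lf (nat_lit 0) (nat_lit 3803578379) (nat_lit 1008) (nat_lit 6053066041) (nat_lit 1092) (nat_lit 5521088093) (nat_lit 87) (nat_lit 5) (nat_lit 99) (nat_lit 5) (nat_lit 100) (nat_lit 5) (nat_lit 338) (nat_lit 319) (nat_lit 204)) (XT.lf (nat_lit 0) (nat_lit 9595868179) (nat_lit 1008) (nat_lit 1391488173) (nat_lit 1092) (nat_lit 4665521521) (nat_lit 87) (nat_lit 5) (nat_lit 99)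 (nat_lit 5) (nat_lit 100) (nat_lit 5) (nat_lit 339) (nat_lit 319) (nat_lit 203))) (XT.nd (nat_lit 94) (nat_lit 588) (nat_lit 0) (XT.lf (nat_lit 0) (nat_lit 12176898415) (nat_lit 1092) (nat_lit 411535282) (nat_lit 84) (nat_lit 3347436487) (nat_lit 87) (nat_lit 5) (nat_lit 100) (nat_lit 5) (nat_lit 88) (nat_lit 5) (nat_lit 340) (nat_lit 319) (nat_lit 202)) (XT.lf (nat_lit 0) (nat_lit 5496904750) (nat_lit 588) (nat_lit 7965381522) (nat_lit 672) (nat_lit 2763573843) (nat_lit 80) (nat_lit 5) (nat_lit 87) (nat_lit 5) (nat_lit 88) (nat_lit 5) (nat_lit 341) (nat_lit 319) (nat_lit 201)))) (XT.nd (nat_lit 188) (nat_lit 588) (nat_lit 0) (XT.nd (nat_lit 94) (nat_lit 504) (nat_lit 0) (XT.lf (nat_lit 0) (nat_lit 11588754629) (nat_lit 588) (nat_lit 3193480798) (nat_lit 672) (nat_lit 1742819495) (nat_lit 80) (nat_lit 5) (nat_lit 87) (nat_lit 5) (nat_lit 88) (nat_lit 5) (nat_lit 342) (nat_lit 319) (nat_lit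 200)) (XT.lf (nat_lit 0) (nat_lit 1031004144) (nat_lit 504) (nat_lit 15130169562) (nat_lit 588) (nat_lit 671840663) (nat_lit 74) (nat_lit 5) (nat_lit 80) (nat_lit 5) (nat_lit 81) (nat_lit 5) (nat_lit 343) (nat_lit 319) (nat_lit 199))) (XT.nd (nat_lit 94) (nat_lit 504) (nat_lit 0) (XT.lf (nat_lit 0) (nat_lit 499113586) (nat_lit 588) (nat_lit 9907178525) (nat_lit 84) (nat_lit 6741802276) (nat_lit 73) (nat_lit 5) (nat_lit 80) (nat_lit 5) (nat_lit 74) (nat_lit 5) (nat_lit 344) (nat_lit 319) (nat_lit 198)) (XT.nd (nat_lit 94) (nat_lit 504) (nat_lit 0) (XT.lf (nat_lit 0) (nat_lit 1683461275) (nat_lit 588) (nat_lit 3844935816) (nat_lit 84) (nat_lit 11944654679) (nat_lit 73) (nat_lit 5) (nat_lit 80) (nat_lit 5) (nat_lit 74) (nat_lit 5) (nat_lit 345) (nat_lit 319) (nat_lit 197)) (XT.lf (nat_lit 0) (nat_lit 2446321208) (nat_lit 504) (nat_lit 473789033) (nat_lit 588) (nat_lit 14887533476) (nat_lit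 67) (nat_lit 5) (nat_lit 73) (nat_lit 5) (nat_lit 74) (nat_lit 5) (nat_lit 346) (nat_lit 319) (nat_lit 196)))))) (XT.nd (nat_lit 470) (nat_lit 756) (nat_lit 0) (XT.nd (nat_lit 188) (nat_lit 420) (nat_lit 0) (XT.nd (nat_lit 94) (nat_lit 0) (nat_lit 0) (XT.lf (nat_lit 0) (nat_lit 4274138686) (nat_lit 588) (nat_lit 9193083360) (nat_lit 84) (nat_lit 4682978366) (nat_lit 67) (nat_lit 5) (nat_lit 74) (nat_lit 5) (nat_lit 68) (nat_lit 5) (nat_lit 347) (nat_lit 319) (nat_lit 195)) (XT.lf (nat_lit 0) (nat_lit 5666746191) (nat_lit 588) (nat_lit 2846651192) (nat_lit 84) (nat_lit 9990125709) (nat_lit 67) (nat_lit 5) (nat_lit 74) (nat_lit 5) (nat_lit 68) (nat_lit 5) (nat_lit 348) (nat_lit 319) (nat_lit 194))) (XT.nd (nat_lit 94) (nat_lit 0) (nat_lit 0) (XT.lf (nat_lit 0) (nat_lit 3764434548) (nat_lit 420) (nat_lit 3367439876) (nat_lit 504) (nat_lit 11735054714) (nat_lit 62) (nat_lit 5) (nat_lit 67) (nat_lit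 5) (nat_lit 68) (nat_lit 5) (nat_lit 349) (nat_lit 319) (nat_lit 193)) (XT.nd (nat_lit 94) (nat_lit 0) (nat_lit 0) (XT.lf (nat_lit 0) (nat_lit 8683832874) (nat_lit 504) (nat_lit 8627529803) (nat_lit 84) (nat_lit 1928993346) (nat_lit 62) (nat_lit 5) (nat_lit 68) (nat_lit 5) (nat_lit 63) (nat_lit 5) (nat_lit 350) (nat_lit 319) (nat_lit 192)) (XT.lf (nat_lit 0) (nat_lit 10310747026) (nat_lit 504) (nat_lit 1994169662) (nat_lit 84) (nat_lit 7319648089) (nat_lit 62) (nat_lit 5) (nat_lit 68) (nat_lit 5) (nat_lit 63) (nat_lit 5) (nat_lit 351) (nat_lit 319) (nat_lit 191))))) (XT.nd (nat_lit 188) (nat_lit 336) (nat_lit 0) (XT.nd (nat_lit 94) (nat_lit 0) (nat_lit 0) (XT.lf (nat_lit 0) (nat_lit 4936636463) (nat_lit 420) (nat_lit 7093063495) (nat_lit 504) (nat_lit 7989730997) (nat_lit 57) (nat_lit 5) (nat_lit 62) (nat_lit 5) (nat_lit 63) (nat_lit 5) (nat_lit 352) (nat_lit 319) (nat_lit 190)) (XT.lf (nat_lit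 0) (nat_lit 12116999978) (nat_lit 420) (nat_lit 1698534295) (nat_lit 504) (nat_lit 6610617889) (nat_lit 57) (nat_lit 5) (nat_lit 62) (nat_lit 5) (nat_lit 63) (nat_lit 5) (nat_lit 353) (nat_lit 319) (nat_lit 189))) (XT.nd (nat_lit 94) (nat_lit 336) (nat_lit 0) (XT.lf (nat_lit 0) (nat_lit 15688045668) (nat_lit 504) (nat_lit 1371444147) (nat_lit 84) (nat_lit 3785055627) (nat_lit 57) (nat_lit 5) (nat_lit 63) (nat_lit 5) (nat_lit 58) (nat_lit 5) (nat_lit 354) (nat_lit 319) (nat_lit 188)) (XT.nd (nat_lit 94) (nat_lit 0) (nat_lit 0) (XT.lf (nat_lit 0) (nat_lit 5874963057) (nat_lit 336) (nat_lit 11812497473) (nat_lit 420) (nat_lit 3586347340) (nat_lit 53) (nat_lit 5) (nat_lit 57) (nat_lit 5) (nat_lit 58) (nat_lit 5) (nat_lit 355) (nat_lit 319) (nat_lit 187)) (XT.lf (nat_lit 0) (nat_lit 13367792160) (nat_lit 336) (nat_lit 6388715438) (nat_lit 420) (nat_lit 1959665147) (nat_lit 53) (nat_lit 5) (nat_lit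 57) (nat_lit 5) (nat_lit 58) (nat_lit 5) (nat_lit 356) (nat_lit 319) (nat_lit 186))))))) (XT.nd (nat_lit 846) (nat_lit 0) (nat_lit 0) (XT.nd (nat_lit 376) (nat_lit 672) (nat_lit 0) (XT.nd (nat_lit 188) (nat_lit 0) (nat_lit 0) (XT.nd (nat_lit 94) (nat_lit 504) (nat_lit 0) (XT.lf (nat_lit 0) (nat_lit 21085827559) (nat_lit 336) (nat_lit 797403244) (nat_lit 420) (nat_lit 289252020) (nat_lit 53) (nat_lit 5) (nat_lit 57) (nat_lit 5) (nat_lit 58) (nat_lit 5) (nat_lit 357) (nat_lit 319) (nat_lit 185)) (XT.lf (nat_lit 0) (nat_lit 1512365434) (nat_lit 504) (nat_lit 16180684210) (nat_lit 84) (nat_lit 4946120777) (nat_lit 47) (nat_lit 5) (nat_lit 53) (nat_lit 5) (nat_lit 48) (nat_lit 5) (nat_lit 358) (nat_lit 319) (nat_lit 184))) (XT.nd (nat_lit 94) (nat_lit 0) (nat_lit 0) (XT.lf (nat_lit 0) (nat_lit 3377190004) (nat_lit 504) (nat_lit 8877803487) (nat_lit 84) (nat_lit 10864854548) (nat_lit 47) (nat_lit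 5) (nat_lit 53) (nat_lit 5) (nat_lit 48) (nat_lit 5) (nat_lit 359) (nat_lit 319) (nat_lit 183)) (XT.lf (nat_lit 0) (nat_lit 5293763416) (nat_lit 504) (nat_lit 1355481502) (nat_lit 84) (nat_lit 16966397503) (nat_lit 47) (nat_lit 5) (nat_lit 53) (nat_lit 5) (nat_lit 48) (nat_lit 5) (nat_lit 360) (nat_lit 319) (nat_lit 182)))) (XT.nd (nat_lit 188) (nat_lit 336) (nat_lit 0) (XT.nd (nat_lit 94) (nat_lit 0) (nat_lit 0) (XT.lf (nat_lit 0) (nat_lit 6524752561) (nat_lit 336) (nat_lit 803845911) (nat_lit 420) (nat_lit 16796410711) (nat_lit 43) (nat_lit 5) (nat_lit 47) (nat_lit 5) (nat_lit 48) (nat_lit 5) (nat_lit 361) (nat_lit 319) (nat_lit 181)) (XT.lf (nat_lit 0) (nat_lit 9486840134) (nat_lit 420) (nat_lit 10030540443) (nat_lit 84) (nat_lit 5130941834) (nat_lit 43) (nat_lit 5) (nat_lit 48) (nat_lit 5) (nat_lit 44) (nat_lit 5) (nat_lit 362) (nat_lit 319) (nat_lit 180))) (XT.nd (nat_lit 94) (nat_lit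 336) (nat_lit 0) (XT.lf (nat_lit 0) (nat_lit 11714605572) (nat_lit 420) (nat_lit 2241045011) (nat_lit 84) (nat_lit 11232152037) (nat_lit 43) (nat_lit 5) (nat_lit 48) (nat_lit 5) (nat_lit 44) (nat_lit 5) (nat_lit 363) (nat_lit 319) (nat_lit 179)) (XT.nd (nat_lit 94) (nat_lit 0) (nat_lit 0) (XT.lf (nat_lit 0) (nat_lit 5902384444) (nat_lit 336) (nat_lit 8162164987) (nat_lit 420) (nat_lit 11677835306) (nat_lit 39) (nat_lit 5) (nat_lit 43) (nat_lit 5) (nat_lit 44) (nat_lit 5) (nat_lit 364) (nat_lit 319) (nat_lit 178)) (XT.lf (nat_lit 0) (nat_lit 14339374365) (nat_lit 336) (nat_lit 2166024380) (nat_lit 420) (nat_lit 9808224312) (nat_lit 39) (nat_lit 5) (nat_lit 43) (nat_lit 5) (nat_lit 44) (nat_lit 5) (nat_lit 365) (nat_lit 319) (nat_lit 177)))))) (XT.nd (nat_lit 50102) (nat_lit 0) (nat_lit 4704) (XT.nd (nat_lit 49820) (nat_lit 0) (nat_lit 5628) (XT.nd (nat_lit 49726) (nat_lit 0) (nat_lit 5628)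 (XT.lf (nat_lit 0) (nat_lit 19056569055) (nat_lit 420) (nat_lit 3910873934) (nat_lit 84) (nat_lit 3934075691) (nat_lit 39) (nat_lit 5) (nat_lit 44) (nat_lit 5) (nat_lit 40) (nat_lit 5) (nat_lit 366) (nat_lit 319) (nat_lit 176)) (XT.lf (nat_lit 0) (nat_lit 2300707618) (nat_lit 0) (nat_lit 2300707618) (nat_lit 924) (nat_lit 1253800291) (nat_lit 106) (nat_lit 5) (nat_lit 106) (nat_lit 3) (nat_lit 117) (nat_lit 3) (nat_lit 320) (nat_lit 320) (nat_lit 221))) (XT.nd (nat_lit 94) (nat_lit 0) (nat_lit 0) (XT.lf (nat_lit 0) (nat_lit 8879725436) (nat_lit 0) (nat_lit 869755866) (nat_lit 924) (nat_lit 2127591263) (nat_lit 106) (nat_lit 5) (nat_lit 106) (nat_lit 3) (nat_lit 117) (nat_lit 3) (nat_lit 321) (nat_lit 320) (nat_lit 220)) (XT.nd (nat_lit 94) (nat_lit 0) (nat_lit 0) (XT.lf (nat_lit 84) (nat_lit 1228170385) (nat_lit 0) (nat_lit 9110430603) (nat_lit 1008) (nat_lit 1709582301) (nat_lit 107) (nat_lit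 5) (nat_lit 106) (nat_lit 5) (nat_lit 118) (nat_lit 5) (nat_lit 322) (nat_lit 320) (nat_lit 219)) (XT.lf (nat_lit 84) (nat_lit 5630412162) (nat_lit 0) (nat_lit 5339864405) (nat_lit 1008) (nat_lit 1253660479) (nat_lit 107) (nat_lit 5) (nat_lit 106) (nat_lit 5) (nat_lit 118) (nat_lit 5) (nat_lit 323) (nat_lit 320) (nat_lit 218))))) (XT.nd (nat_lit 188) (nat_lit 924) (nat_lit 0) (XT.nd (nat_lit 94) (nat_lit 0) (nat_lit 84) (XT.lf (nat_lit 84) (nat_lit 10160655446) (nat_lit 0) (nat_lit 1445555199) (nat_lit 1008) (nat_lit 799492484) (nat_lit 107) (nat_lit 5) (nat_lit 106) (nat_lit 5) (nat_lit 118) (nat_lit 5) (nat_lit 324) (nat_lit 320) (nat_lit 217)) (XT.lf (nat_lit 84) (nat_lit 2249233477) (nat_lit 0) (nat_lit 10045630672) (nat_lit 1008) (nat_lit 297302898) (nat_lit 108) (nat_lit 5) (nat_lit 107) (nat_lit 5) (nat_lit 119) (nat_lit 5) (nat_lit 325) (nat_lit 320) (nat_lit 216))) (XT.nd (nat_lit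 94) (nat_lit 0) (nat_lit 0) (XT.lf (nat_lit 0) (nat_lit 239802735) (nat_lit 1008) (nat_lit 5879584693) (nat_lit 1092) (nat_lit 6664299789) (nat_lit 95) (nat_lit 5) (nat_lit 107) (nat_lit 5) (nat_lit 108) (nat_lit 5) (nat_lit 326) (nat_lit 320) (nat_lit 215)) (XT.nd (nat_lit 94) (nat_lit 0) (nat_lit 84) (XT.lf (nat_lit 0) (nat_lit 773155849) (nat_lit 1008) (nat_lit 1289758236) (nat_lit 1092) (nat_lit 10918655916) (nat_lit 95) (nat_lit 5) (nat_lit 107) (nat_lit 5) (nat_lit 108) (nat_lit 5) (nat_lit 327) (nat_lit 320) (nat_lit 214)) (XT.lf (nat_lit 0) (nat_lit 1365438596) (nat_lit 1008) (nat_lit 9702066040) (nat_lit 1092) (nat_lit 2116844591) (nat_lit 96) (nat_lit 5) (nat_lit 108) (nat_lit 5) (nat_lit 109) (nat_lit 5) (nat_lit 328) (nat_lit 320) (nat_lit 213))))))))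
noncomputable def xc102 : XT := (XT.nd (nat_lit 1692) (nat_lit 2856) (nat_lit 0) (XT.nd (nat_lit 846) (nat_lit 1932) (nat_lit 0) (XT.nd (nat_lit 376) (nat_lit 0) (nat_lit 84) (XT.nd (nat_lit 188) (nat_lit 0) (nat_lit 84) (XT.nd (nat_lit 94) (nat_lit 0) (nat_lit 0) (XT.lf (nat_lit 0) (nat_lit 1997361682) (nat_lit 1008) (nat_lit 4993667265) (nat_lit 1092) (nat_lit 6401800041) (nat_lit 96) (nat_lit 5) (nat_lit 108) (nat_lit 5) (nat_lit 109) (nat_lit 5) (nat_lit 329) (nat_lit 320) (nat_lit 212)) (XT.lf (nat_lit 0) (nat_lit 2635858569) (nat_lit 1008) (nat_lit 148070144) (nat_lit 1092) (nat_lit 10824318221) (nat_lit 96) (nat_lit 5) (nat_lit 108) (nat_lit 5) (nat_lit 109) (nat_lit 5) (nat_lit 330) (nat_lit 320) (nat_lit 211))) (XT.nd (nat_lit 94) (nat_lit 0) (nat_lit 0) (XT.lf (nat_lit 0) (nat_lit 3346471216) (nat_lit 1008) (nat_lit 8906492238) (nat_lit 1092) (nat_lit 1575827050) (nat_lit 97) (nat_lit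 5) (nat_lit 109) (nat_lit 5) (nat_lit 110) (nat_lit 5) (nat_lit 331) (nat_lit 320) (nat_lit 210)) (XT.lf (nat_lit 0) (nat_lit 4096857779) (nat_lit 1008) (nat_lit 3940525864) (nat_lit 1092) (nat_lit 6018304754) (nat_lit 97) (nat_lit 5) (nat_lit 109) (nat_lit 5) (nat_lit 110) (nat_lit 5) (nat_lit 332) (nat_lit 320) (nat_lit 209)))) (XT.nd (nat_lit 188) (nat_lit 0) (nat_lit 84) (XT.nd (nat_lit 94) (nat_lit 0) (nat_lit 84) (XT.lf (nat_lit 84) (nat_lit 1194825058) (nat_lit 0) (nat_lit 3675614126) (nat_lit 1092) (nat_lit 9419248560) (nat_lit 98) (nat_lit 5) (nat_lit 97) (nat_lit 5) (nat_lit 110) (nat_lit 5) (nat_lit 333) (nat_lit 320) (nat_lit 208)) (XT.lf (nat_lit 0) (nat_lit 5706085820) (nat_lit 1008) (nat_lit 7974327259) (nat_lit 1092) (nat_lit 849410944) (nat_lit 98) (nat_lit 5) (nat_lit 110) (nat_lit 5) (nat_lit 111) (nat_lit 5) (nat_lit 334) (nat_lit 320) (nat_lit 207))) (XT.nd (nat_lit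 94) (nat_lit 0) (nat_lit 0) (XT.lf (nat_lit 0) (nat_lit 6593964073) (nat_lit 1008) (nat_lit 2741378886) (nat_lit 1092) (nat_lit 5441307097) (nat_lit 98) (nat_lit 5) (nat_lit 110) (nat_lit 5) (nat_lit 111) (nat_lit 5) (nat_lit 335) (nat_lit 320) (nat_lit 206)) (XT.nd (nat_lit 94) (nat_lit 0) (nat_lit 0) (XT.lf (nat_lit 84) (nat_lit 2699715894) (nat_lit 0) (nat_lit 4825504614) (nat_lit 1092) (nat_lit 7505475516) (nat_lit 99) (nat_lit 5) (nat_lit 98) (nat_lit 5) (nat_lit 111) (nat_lit 5) (nat_lit 336) (nat_lit 320) (nat_lit 205)) (XT.lf (nat_lit 84) (nat_lit 8359217887) (nat_lit 0) (nat_lit 144060232) (nat_lit 1092) (nat_lit 6788841399) (nat_lit 99) (nat_lit 5) (nat_lit 98) (nat_lit 5) (nat_lit 111) (nat_lit 5) (nat_lit 337) (nat_lit 320) (nat_lit 204)))))) (XT.nd (nat_lit 376) (nat_lit 1176) (nat_lit 0) (XT.nd (nat_lit 188) (nat_lit 0) (nat_lit 0) (XT.nd (nat_lit 94) (nat_lit 1008) (nat_lit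 0) (XT.lf (nat_lit 0) (nat_lit 9547767755) (nat_lit 1008) (nat_lit 1422463813) (nat_lit 84) (nat_lit 4590352350) (nat_lit 99) (nat_lit 5) (nat_lit 111) (nat_lit 5) (nat_lit 100) (nat_lit 5) (nat_lit 338) (nat_lit 320) (nat_lit 203)) (XT.lf (nat_lit 0) (nat_lit 4336419808) (nat_lit 1008) (nat_lit 6322680017) (nat_lit 1092) (nat_lit 5177257096) (nat_lit 87) (nat_lit 5) (nat_lit 99) (nat_lit 5) (nat_lit 100) (nat_lit 5) (nat_lit 339) (nat_lit 320) (nat_lit 202))) (XT.nd (nat_lit 94) (nat_lit 0) (nat_lit 0) (XT.lf (nat_lit 0) (nat_lit 10295794504) (nat_lit 1008) (nat_lit 1514128602) (nat_lit 1092) (nat_lit 4310652468) (nat_lit 87) (nat_lit 5) (nat_lit 99) (nat_lit 5) (nat_lit 100) (nat_lit 5) (nat_lit 340) (nat_lit 320) (nat_lit 201)) (XT.lf (nat_lit 0) (nat_lit 13021084512) (nat_lit 1092) (nat_lit 16160367) (nat_lit 84) (nat_lit 3375646920) (nat_lit 87) (nat_lit 5) (nat_lit 100) (nat_lit 5)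 (nat_lit 88) (nat_lit 5) (nat_lit 341) (nat_lit 320) (nat_lit 200)))) (XT.nd (nat_lit 188) (nat_lit 588) (nat_lit 0) (XT.nd (nat_lit 94) (nat_lit 0) (nat_lit 0) (XT.lf (nat_lit 0) (nat_lit 6071309331) (nat_lit 588) (nat_lit 8264985042) (nat_lit 672) (nat_lit 2375963668) (nat_lit 80) (nat_lit 5) (nat_lit 87) (nat_lit 5) (nat_lit 88) (nat_lit 5) (nat_lit 342) (nat_lit 320) (nat_lit 199)) (XT.lf (nat_lit 0) (nat_lit 12339859111) (nat_lit 588) (nat_lit 3343571519) (nat_lit 672) (nat_lit 1337796498) (nat_lit 80) (nat_lit 5) (nat_lit 87) (nat_lit 5) (nat_lit 88) (nat_lit 5) (nat_lit 343) (nat_lit 320) (nat_lit 198))) (XT.nd (nat_lit 94) (nat_lit 84) (nat_lit 0) (XT.lf (nat_lit 0) (nat_lit 1467294370) (nat_lit 504) (nat_lit 15628022561) (nat_lit 588) (nat_lit 243791512) (nat_lit 74) (nat_lit 5) (nat_lit 80) (nat_lit 5) (nat_lit 81) (nat_lit 5) (nat_lit 344) (nat_lit 320) (nat_lit 197)) (XT.nd (nat_lit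 94) (nat_lit 0) (nat_lit 0) (XT.lf (nat_lit 0) (nat_lit 941193629) (nat_lit 588) (nat_lit 9811191883) (nat_lit 84) (nat_lit 6911909489) (nat_lit 73) (nat_lit 5) (nat_lit 80) (nat_lit 5) (nat_lit 74) (nat_lit 5) (nat_lit 345) (nat_lit 320) (nat_lit 196)) (XT.lf (nat_lit 0) (nat_lit 2149428907) (nat_lit 588) (nat_lit 3573140295) (nat_lit 84) (nat_lit 12277219617) (nat_lit 73) (nat_lit 5) (nat_lit 80) (nat_lit 5) (nat_lit 74) (nat_lit 5) (nat_lit 346) (nat_lit 320) (nat_lit 195))))))) (XT.nd (nat_lit 846) (nat_lit 1512) (nat_lit 0) (XT.nd (nat_lit 376) (nat_lit 420) (nat_lit 0) (XT.nd (nat_lit 188) (nat_lit 420) (nat_lit 0) (XT.nd (nat_lit 94) (nat_lit 0) (nat_lit 0) (XT.lf (nat_lit 0) (nat_lit 2909187289) (nat_lit 504) (nat_lit 506624584) (nat_lit 588) (nat_lit 14929271062) (nat_lit 67) (nat_lit 5) (nat_lit 73) (nat_lit 5) (nat_lit 74) (nat_lit 5) (nat_lit 347) (nat_lit 320) (nat_lit 194))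 (XT.lf (nat_lit 0) (nat_lit 4799457726) (nat_lit 588) (nat_lit 9088342570) (nat_lit 84) (nat_lit 4810902929) (nat_lit 67) (nat_lit 5) (nat_lit 74) (nat_lit 5) (nat_lit 68) (nat_lit 5) (nat_lit 348) (nat_lit 320) (nat_lit 193))) (XT.nd (nat_lit 94) (nat_lit 420) (nat_lit 0) (XT.lf (nat_lit 0) (nat_lit 6223424771) (nat_lit 588) (nat_lit 2556889256) (nat_lit 84) (nat_lit 10283090443) (nat_lit 67) (nat_lit 5) (nat_lit 74) (nat_lit 5) (nat_lit 68) (nat_lit 5) (nat_lit 349) (nat_lit 320) (nat_lit 192)) (XT.lf (nat_lit 0) (nat_lit 4255313149) (nat_lit 420) (nat_lit 3470914601) (nat_lit 504) (nat_lit 11712146051) (nat_lit 62) (nat_lit 5) (nat_lit 67) (nat_lit 5) (nat_lit 68) (nat_lit 5) (nat_lit 350) (nat_lit 320) (nat_lit 191)))) (XT.nd (nat_lit 188) (nat_lit 420) (nat_lit 0) (XT.nd (nat_lit 94) (nat_lit 0) (nat_lit 0) (XT.lf (nat_lit 0) (nat_lit 9315082425) (nat_lit 504) (nat_lit 8519035425) (nat_lit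 84) (nat_lit 1989662613) (nat_lit 62) (nat_lit 5) (nat_lit 68) (nat_lit 5) (nat_lit 63) (nat_lit 5) (nat_lit 351) (nat_lit 320) (nat_lit 190)) (XT.lf (nat_lit 0) (nat_lit 10981544812) (nat_lit 504) (nat_lit 1691345078) (nat_lit 84) (nat_lit 7547401480) (nat_lit 62) (nat_lit 5) (nat_lit 68) (nat_lit 5) (nat_lit 63) (nat_lit 5) (nat_lit 352) (nat_lit 320) (nat_lit 189))) (XT.nd (nat_lit 94) (nat_lit 0) (nat_lit 0) (XT.lf (nat_lit 0) (nat_lit 5450624345) (nat_lit 420) (nat_lit 7296182848) (nat_lit 504) (nat_lit 7880860109) (nat_lit 57) (nat_lit 5) (nat_lit 62) (nat_lit 5) (nat_lit 63) (nat_lit 5) (nat_lit 353) (nat_lit 320) (nat_lit 188)) (XT.nd (nat_lit 94) (nat_lit 0) (nat_lit 0) (XT.lf (nat_lit 0) (nat_lit 12842726057) (nat_lit 420) (nat_lit 1734927351) (nat_lit 504) (nat_lit 6469715280) (nat_lit 57) (nat_lit 5) (nat_lit 62) (nat_lit 5) (nat_lit 63) (nat_lit 5) (nat_lit 354) (nat_lit 320)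 (nat_lit 187)) (XT.lf (nat_lit 0) (nat_lit 16498331329) (nat_lit 504) (nat_lit 1062909492) (nat_lit 84) (nat_lit 3917847128) (nat_lit 57) (nat_lit 5) (nat_lit 63) (nat_lit 5) (nat_lit 58) (nat_lit 5) (nat_lit 355) (nat_lit 320) (nat_lit 186)))))) (XT.nd (nat_lit 470) (nat_lit 672) (nat_lit 0) (XT.nd (nat_lit 188) (nat_lit 504) (nat_lit 0) (XT.nd (nat_lit 94) (nat_lit 0) (nat_lit 0) (XT.lf (nat_lit 0) (nat_lit 6404582275) (nat_lit 336) (nat_lit 12148852291) (nat_lit 420) (nat_lit 3368466026) (nat_lit 53) (nat_lit 5) (nat_lit 57) (nat_lit 5) (nat_lit 58) (nat_lit 5) (nat_lit 356) (nat_lit 320) (nat_lit 185)) (XT.lf (nat_lit 0) (nat_lit 14119240626) (nat_lit 336) (nat_lit 6557830017) (nat_lit 420) (nat_lit 1701250768) (nat_lit 53) (nat_lit 5) (nat_lit 57) (nat_lit 5) (nat_lit 58) (nat_lit 5) (nat_lit 357) (nat_lit 320) (nat_lit 184))) (XT.nd (nat_lit 94) (nat_lit 420) (nat_lit 0) (XT.lf (nat_lit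 0) (nat_lit 11119927) (nat_lit 420) (nat_lit 782821180) (nat_lit 84) (nat_lit 22055164835) (nat_lit 52) (nat_lit 5) (nat_lit 57) (nat_lit 5) (nat_lit 53) (nat_lit 5) (nat_lit 358) (nat_lit 320) (nat_lit 183)) (XT.nd (nat_lit 94) (nat_lit 0) (nat_lit 0) (XT.lf (nat_lit 0) (nat_lit 1857077977) (nat_lit 504) (nat_lit 16340852438) (nat_lit 84) (nat_lit 5132451731) (nat_lit 47) (nat_lit 5) (nat_lit 53) (nat_lit 5) (nat_lit 48) (nat_lit 5) (nat_lit 359) (nat_lit 320) (nat_lit 182)) (XT.lf (nat_lit 0) (nat_lit 3770757011) (nat_lit 504) (nat_lit 8821848585) (nat_lit 84) (nat_lit 11233673972) (nat_lit 47) (nat_lit 5) (nat_lit 53) (nat_lit 5) (nat_lit 48) (nat_lit 5) (nat_lit 360) (nat_lit 320) (nat_lit 181))))) (XT.nd (nat_lit 188) (nat_lit 336) (nat_lit 0) (XT.nd (nat_lit 94) (nat_lit 336) (nat_lit 0) (XT.lf (nat_lit 0) (nat_lit 5738058363) (nat_lit 504) (nat_lit 1076292107) (nat_lit 84) (nat_lit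 17523402317) (nat_lit 47) (nat_lit 5) (nat_lit 53) (nat_lit 5) (nat_lit 48) (nat_lit 5) (nat_lit 361) (nat_lit 320) (nat_lit 180)) (XT.lf (nat_lit 0) (nat_lit 7044977257) (nat_lit 336) (nat_lit 785725554) (nat_lit 420) (nat_lit 17032409242) (nat_lit 43) (nat_lit 5) (nat_lit 47) (nat_lit 5) (nat_lit 48) (nat_lit 5) (nat_lit 362) (nat_lit 320) (nat_lit 179))) (XT.nd (nat_lit 94) (nat_lit 336) (nat_lit 0) (XT.lf (nat_lit 0) (nat_lit 10047997884) (nat_lit 420) (nat_lit 10024025680) (nat_lit 84) (nat_lit 5330905424) (nat_lit 43) (nat_lit 5) (nat_lit 48) (nat_lit 5) (nat_lit 44) (nat_lit 5) (nat_lit 363) (nat_lit 320) (nat_lit 178)) (XT.nd (nat_lit 94) (nat_lit 336) (nat_lit 0) (XT.lf (nat_lit 0) (nat_lit 12336793947) (nat_lit 420) (nat_lit 2002601289) (nat_lit 84) (nat_lit 11620023234) (nat_lit 43) (nat_lit 5) (nat_lit 48) (nat_lit 5) (nat_lit 44) (nat_lit 5) (nat_lit 364) (nat_lit 320) (nat_lit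 177)) (XT.lf (nat_lit 0) (nat_lit 6390157105) (nat_lit 336) (nat_lit 8364663947) (nat_lit 420) (nat_lit 11776554654) (nat_lit 39) (nat_lit 5) (nat_lit 43) (nat_lit 5) (nat_lit 44) (nat_lit 5) (nat_lit 365) (nat_lit 320) (nat_lit 176))))))))
noncomputable def xc103 : XT := (XT.nd (nat_lit 51512) (nat_lit 0) (nat_lit 1176) (XT.nd (nat_lit 50572) (nat_lit 0) (nat_lit 4788) (XT.nd (nat_lit 50102) (nat_lit 0) (nat_lit 4704) (XT.nd (nat_lit 49914) (nat_lit 0) (nat_lit 5628) (XT.nd (nat_lit 49820) (nat_lit 0) (nat_lit 5628) (XT.lf (nat_lit 0) (nat_lit 15079529057) (nat_lit 336) (nat_lit 2184162256) (nat_lit 420) (nat_lit 9856902403) (nat_lit 39) (nat_lit 5) (nat_lit 43) (nat_lit 5) (nat_lit 44) (nat_lit 5) (nat_lit 366) (nat_lit 320) (nat_lit 175)) (XT.lf (nat_lit 0) (nat_lit 2572029133) (nat_lit 0) (nat_lit 2572029133) (nat_lit 924) (nat_lit 877946284) (nat_lit 106) (nat_lit 5) (nat_lit 106) (nat_lit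 3) (nat_lit 117) (nat_lit 3) (nat_lit 321) (nat_lit 321) (nat_lit 219))) (XT.nd (nat_lit 94) (nat_lit 0) (nat_lit 0) (XT.lf (nat_lit 0) (nat_lit 9542968949) (nat_lit 0) (nat_lit 1284690322) (nat_lit 924) (nat_lit 1389042585) (nat_lit 106) (nat_lit 5) (nat_lit 106) (nat_lit 3) (nat_lit 117) (nat_lit 3) (nat_lit 322) (nat_lit 321) (nat_lit 218)) (XT.lf (nat_lit 84) (nat_lit 1682368403) (nat_lit 0) (nat_lit 9729737261) (nat_lit 1008) (nat_lit 981857840) (nat_lit 107) (nat_lit 5) (nat_lit 106) (nat_lit 5) (nat_lit 118) (nat_lit 5) (nat_lit 323) (nat_lit 321) (nat_lit 217)))) (XT.nd (nat_lit 188) (nat_lit 924) (nat_lit 0) (XT.nd (nat_lit 94) (nat_lit 0) (nat_lit 0) (XT.lf (nat_lit 84) (nat_lit 6208567681) (nat_lit 0) (nat_lit 5832154138) (nat_lit 1008) (nat_lit 535277094) (nat_lit 107) (nat_lit 5) (nat_lit 106) (nat_lit 5) (nat_lit 118) (nat_lit 5) (nat_lit 324) (nat_lit 321) (nat_lit 216)) (XT.lf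 (nat_lit 84) (nat_lit 10867112720) (nat_lit 0) (nat_lit 1807296543) (nat_lit 1008) (nat_lit 89798711) (nat_lit 107) (nat_lit 5) (nat_lit 106) (nat_lit 5) (nat_lit 118) (nat_lit 5) (nat_lit 325) (nat_lit 321) (nat_lit 215))) (XT.nd (nat_lit 94) (nat_lit 0) (nat_lit 0) (XT.lf (nat_lit 0) (nat_lit 398789768) (nat_lit 1008) (nat_lit 10225846603) (nat_lit 1092) (nat_lit 2332441144) (nat_lit 95) (nat_lit 5) (nat_lit 107) (nat_lit 5) (nat_lit 108) (nat_lit 5) (nat_lit 326) (nat_lit 321) (nat_lit 214)) (XT.nd (nat_lit 94) (nat_lit 0) (nat_lit 0) (XT.lf (nat_lit 0) (nat_lit 925348527) (nat_lit 1008) (nat_lit 5640244448) (nat_lit 1092) (nat_lit 6589615536) (nat_lit 95) (nat_lit 5) (nat_lit 107) (nat_lit 5) (nat_lit 108) (nat_lit 5) (nat_lit 327) (nat_lit 321) (nat_lit 213)) (XT.lf (nat_lit 0) (nat_lit 1454846190) (nat_lit 1008) (nat_lit 920810216) (nat_lit 1092) (nat_lit 10984314127) (nat_lit 95)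 (nat_lit 5) (nat_lit 107) (nat_lit 5) (nat_lit 108) (nat_lit 5) (nat_lit 328) (nat_lit 321) (nat_lit 212)))))) (XT.nd (nat_lit 470) (nat_lit 0) (nat_lit 84) (XT.nd (nat_lit 188) (nat_lit 0) (nat_lit 0) (XT.nd (nat_lit 94) (nat_lit 0) (nat_lit 0) (XT.lf (nat_lit 0) (nat_lit 2047376173) (nat_lit 1008) (nat_lit 9572256703) (nat_lit 1092) (nat_lit 1950073967) (nat_lit 96) (nat_lit 5) (nat_lit 108) (nat_lit 5) (nat_lit 109) (nat_lit 5) (nat_lit 329) (nat_lit 321) (nat_lit 211)) (XT.lf (nat_lit 0) (nat_lit 2679657179) (nat_lit 1008) (nat_lit 4730844002) (nat_lit 1092) (nat_lit 6374850599) (nat_lit 96) (nat_lit 5) (nat_lit 108) (nat_lit 5) (nat_lit 109) (nat_lit 5) (nat_lit 330) (nat_lit 321) (nat_lit 210))) (XT.nd (nat_lit 94) (nat_lit 0) (nat_lit 84) (XT.lf (nat_lit 84) (nat_lit 257599522) (nat_lit 0) (nat_lit 3064249927) (nat_lit 1092) (nat_lit 10686200200) (nat_lit 97) (nat_lit 5) (nat_lit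 96) (nat_lit 5) (nat_lit 109) (nat_lit 5) (nat_lit 331) (nat_lit 321) (nat_lit 209)) (XT.nd (nat_lit 94) (nat_lit 0) (nat_lit 0) (XT.lf (nat_lit 0) (nat_lit 4035969267) (nat_lit 1008) (nat_lit 8758336862) (nat_lit 1092) (nat_lit 1441797951) (nat_lit 97) (nat_lit 5) (nat_lit 109) (nat_lit 5) (nat_lit 110) (nat_lit 5) (nat_lit 332) (nat_lit 321) (nat_lit 208)) (XT.lf (nat_lit 0) (nat_lit 4792005321) (nat_lit 1008) (nat_lit 3651182034) (nat_lit 1092) (nat_lit 6027491274) (nat_lit 97) (nat_lit 5) (nat_lit 109) (nat_lit 5) (nat_lit 110) (nat_lit 5) (nat_lit 333) (nat_lit 321) (nat_lit 207))))) (XT.nd (nat_lit 188) (nat_lit 0) (nat_lit 84) (XT.nd (nat_lit 94) (nat_lit 0) (nat_lit 84) (XT.lf (nat_lit 84) (nat_lit 1639198697) (nat_lit 0) (nat_lit 3937326933) (nat_lit 1092) (nat_lit 9135904550) (nat_lit 98) (nat_lit 5) (nat_lit 97) (nat_lit 5) (nat_lit 110) (nat_lit 5) (nat_lit 334) (nat_lit 321)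 (nat_lit 206)) (XT.lf (nat_lit 0) (nat_lit 6419964730) (nat_lit 1008) (nat_lit 7805393838) (nat_lit 1092) (nat_lit 735304703) (nat_lit 98) (nat_lit 5) (nat_lit 110) (nat_lit 5) (nat_lit 111) (nat_lit 5) (nat_lit 335) (nat_lit 321) (nat_lit 205))) (XT.nd (nat_lit 94) (nat_lit 0) (nat_lit 0) (XT.lf (nat_lit 0) (nat_lit 7319221042) (nat_lit 1008) (nat_lit 2422736446) (nat_lit 1092) (nat_lit 5473772311) (nat_lit 98) (nat_lit 5) (nat_lit 110) (nat_lit 5) (nat_lit 111) (nat_lit 5) (nat_lit 336) (nat_lit 321) (nat_lit 204)) (XT.nd (nat_lit 94) (nat_lit 0) (nat_lit 0) (XT.lf (nat_lit 84) (nat_lit 3182945929) (nat_lit 0) (nat_lit 5084703287) (nat_lit 1092) (nat_lit 7210450290) (nat_lit 99) (nat_lit 5) (nat_lit 98) (nat_lit 5) (nat_lit 111) (nat_lit 5) (nat_lit 337) (nat_lit 321) (nat_lit 203)) (XT.lf (nat_lit 84) (nat_lit 9005879192) (nat_lit 0) (nat_lit 254838446) (nat_lit 1092) (nat_lit 6487467193)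 (nat_lit 99) (nat_lit 5) (nat_lit 98) (nat_lit 5) (nat_lit 111) (nat_lit 5) (nat_lit 338) (nat_lit 321) (nat_lit 202))))))) (XT.nd (nat_lit 846) (nat_lit 1680) (nat_lit 0) (XT.nd (nat_lit 376) (nat_lit 588) (nat_lit 0) (XT.nd (nat_lit 188) (nat_lit 588) (nat_lit 0) (XT.nd (nat_lit 94) (nat_lit 1008) (nat_lit 0) (XT.lf (nat_lit 0) (nat_lit 10321714866) (nat_lit 1008) (nat_lit 1072214339) (nat_lit 84) (nat_lit 4631615067) (nat_lit 99) (nat_lit 5) (nat_lit 111) (nat_lit 5) (nat_lit 100) (nat_lit 5) (nat_lit 339) (nat_lit 321) (nat_lit 201)) (XT.lf (nat_lit 0) (nat_lit 4861202277) (nat_lit 1008) (nat_lit 6595796866) (nat_lit 1092) (nat_lit 4853270766) (nat_lit 87) (nat_lit 5) (nat_lit 99) (nat_lit 5) (nat_lit 100) (nat_lit 5) (nat_lit 340) (nat_lit 321) (nat_lit 200))) (XT.nd (nat_lit 94) (nat_lit 588) (nat_lit 0) (XT.lf (nat_lit 0) (nat_lit 10993580482) (nat_lit 1008) (nat_lit 1635861709) (nat_lit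 1092) (nat_lit 3974368728) (nat_lit 87) (nat_lit 5) (nat_lit 99) (nat_lit 5) (nat_lit 100) (nat_lit 5) (nat_lit 341) (nat_lit 321) (nat_lit 199)) (XT.lf (nat_lit 0) (nat_lit 374849158) (nat_lit 588) (nat_lit 13492666196) (nat_lit 672) (nat_lit 3038076822) (nat_lit 80) (nat_lit 5) (nat_lit 87) (nat_lit 5) (nat_lit 88) (nat_lit 5) (nat_lit 342) (nat_lit 321) (nat_lit 198)))) (XT.nd (nat_lit 188) (nat_lit 588) (nat_lit 0) (XT.nd (nat_lit 94) (nat_lit 0) (nat_lit 0) (XT.lf (nat_lit 0) (nat_lit 6639590811) (nat_lit 588) (nat_lit 8570756140) (nat_lit 672) (nat_lit 2004370819) (nat_lit 80) (nat_lit 5) (nat_lit 87) (nat_lit 5) (nat_lit 88) (nat_lit 5) (nat_lit 343) (nat_lit 321) (nat_lit 197)) (XT.lf (nat_lit 0) (nat_lit 13091037702) (nat_lit 588) (nat_lit 3495288737) (nat_lit 672) (nat_lit 947408129) (nat_lit 80) (nat_lit 5) (nat_lit 87) (nat_lit 5) (nat_lit 88) (nat_lit 5) (nat_lit 344) (nat_lit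 321) (nat_lit 196))) (XT.nd (nat_lit 94) (nat_lit 0) (nat_lit 0) (XT.lf (nat_lit 0) (nat_lit 167495405) (nat_lit 588) (nat_lit 15970358365) (nat_lit 84) (nat_lit 1723916775) (nat_lit 73) (nat_lit 5) (nat_lit 80) (nat_lit 5) (nat_lit 74) (nat_lit 5) (nat_lit 345) (nat_lit 321) (nat_lit 195)) (XT.nd (nat_lit 94) (nat_lit 0) (nat_lit 0) (XT.lf (nat_lit 0) (nat_lit 1371709460) (nat_lit 588) (nat_lit 9736106503) (nat_lit 84) (nat_lit 7089593468) (nat_lit 73) (nat_lit 5) (nat_lit 80) (nat_lit 5) (nat_lit 74) (nat_lit 5) (nat_lit 346) (nat_lit 321) (nat_lit 194)) (XT.lf (nat_lit 0) (nat_lit 2605332617) (nat_lit 588) (nat_lit 3316078033) (nat_lit 84) (nat_lit 12622328250) (nat_lit 73) (nat_lit 5) (nat_lit 80) (nat_lit 5) (nat_lit 74) (nat_lit 5) (nat_lit 347) (nat_lit 321) (nat_lit 193)))))) (XT.nd (nat_lit 470) (nat_lit 756) (nat_lit 0) (XT.nd (nat_lit 188) (nat_lit 420) (nat_lit 0) (XT.nd (nat_lit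 94) (nat_lit 0) (nat_lit 0) (XT.lf (nat_lit 0) (nat_lit 3363477762) (nat_lit 504) (nat_lit 539403095) (nat_lit 588) (nat_lit 14997166561) (nat_lit 67) (nat_lit 5) (nat_lit 73) (nat_lit 5) (nat_lit 74) (nat_lit 5) (nat_lit 348) (nat_lit 321) (nat_lit 192)) (XT.lf (nat_lit 0) (nat_lit 5317794211) (nat_lit 588) (nat_lit 9003438976) (nat_lit 84) (nat_lit 4943814767) (nat_lit 67) (nat_lit 5) (nat_lit 74) (nat_lit 5) (nat_lit 68) (nat_lit 5) (nat_lit 349) (nat_lit 321) (nat_lit 191))) (XT.nd (nat_lit 94) (nat_lit 420) (nat_lit 0) (XT.lf (nat_lit 0) (nat_lit 6774792545) (nat_lit 588) (nat_lit 2280534768) (nat_lit 84) (nat_lit 10586127981) (nat_lit 67) (nat_lit 5) (nat_lit 74) (nat_lit 5) (nat_lit 68) (nat_lit 5) (nat_lit 350) (nat_lit 321) (nat_lit 190)) (XT.nd (nat_lit 94) (nat_lit 0) (nat_lit 0) (XT.lf (nat_lit 0) (nat_lit 4739245597) (nat_lit 420) (nat_lit 3577651293) (nat_lit 504) (nat_lit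 11711431848) (nat_lit 62) (nat_lit 5) (nat_lit 67) (nat_lit 5) (nat_lit 68) (nat_lit 5) (nat_lit 351) (nat_lit 321) (nat_lit 189)) (XT.lf (nat_lit 0) (nat_lit 9944455828) (nat_lit 504) (nat_lit 8429445752) (nat_lit 84) (nat_lit 2052161068) (nat_lit 62) (nat_lit 5) (nat_lit 68) (nat_lit 5) (nat_lit 63) (nat_lit 5) (nat_lit 352) (nat_lit 321) (nat_lit 188))))) (XT.nd (nat_lit 188) (nat_lit 336) (nat_lit 0) (XT.nd (nat_lit 94) (nat_lit 420) (nat_lit 0) (XT.lf (nat_lit 0) (nat_lit 11652337248) (nat_lit 504) (nat_lit 1400731411) (nat_lit 84) (nat_lit 7782165216) (nat_lit 62) (nat_lit 5) (nat_lit 68) (nat_lit 5) (nat_lit 63) (nat_lit 5) (nat_lit 353) (nat_lit 321) (nat_lit 187)) (XT.lf (nat_lit 0) (nat_lit 5959166038) (nat_lit 420) (nat_lit 7506591958) (nat_lit 504) (nat_lit 7789733442) (nat_lit 57) (nat_lit 5) (nat_lit 62) (nat_lit 5) (nat_lit 63) (nat_lit 5) (nat_lit 354) (nat_lit 321) (nat_lit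 186))) (XT.nd (nat_lit 94) (nat_lit 336) (nat_lit 0) (XT.lf (nat_lit 0) (nat_lit 13570212678) (nat_lit 420) (nat_lit 1773411788) (nat_lit 504) (nat_lit 6344928897) (nat_lit 57) (nat_lit 5) (nat_lit 62) (nat_lit 5) (nat_lit 63) (nat_lit 5) (nat_lit 355) (nat_lit 321) (nat_lit 185)) (XT.nd (nat_lit 94) (nat_lit 336) (nat_lit 0) (XT.lf (nat_lit 0) (nat_lit 17314547363) (nat_lit 504) (nat_lit 765603521) (nat_lit 84) (nat_lit 4053839753) (nat_lit 57) (nat_lit 5) (nat_lit 63) (nat_lit 5) (nat_lit 58) (nat_lit 5) (nat_lit 356) (nat_lit 321) (nat_lit 184)) (XT.lf (nat_lit 0) (nat_lit 6930036943) (nat_lit 336) (nat_lit 12497401144) (nat_lit 420) (nat_lit 3163321064) (nat_lit 53) (nat_lit 5) (nat_lit 57) (nat_lit 5) (nat_lit 58) (nat_lit 5) (nat_lit 357) (nat_lit 321) (nat_lit 183))))))))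
noncomputable def xc104 : XT := (XT.nd (nat_lit 51512) (nat_lit 0) (nat_lit 2352) (XT.nd (nat_lit 50666) (nat_lit 0) (nat_lit 4620) (XT.nd (nat_lit 376) (nat_lit 672) (nat_lit 0) (XT.nd (nat_lit 188) (nat_lit 420) (nat_lit 0) (XT.nd (nat_lit 94) (nat_lit 84) (nat_lit 0) (XT.lf (nat_lit 0) (nat_lit 14874020129) (nat_lit 336) (nat_lit 6733901052) (nat_lit 420) (nat_lit 1453730174) (nat_lit 53) (nat_lit 5) (nat_lit 57) (nat_lit 5) (nat_lit 58) (nat_lit 5) (nat_lit 358) (nat_lit 321) (nat_lit 182)) (XT.lf (nat_lit 0) (nat_lit 296828186) (nat_lit 420) (nat_lit 492343290) (nat_lit 84) (nat_lit 22758081817) (nat_lit 52) (nat_lit 5) (nat_lit 57) (nat_lit 5) (nat_lit 53) (nat_lit 5) (nat_lit 359) (nat_lit 321) (nat_lit 181))) (XT.nd (nat_lit 94) (nat_lit 0) (nat_lit 0) (XT.lf (nat_lit 0) (nat_lit 2194835675) (nat_lit 504) (nat_lit 16526209542) (nat_lit 84) (nat_lit 5322604226) (nat_lit 47) (nat_lit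 5) (nat_lit 53) (nat_lit 5) (nat_lit 48) (nat_lit 5) (nat_lit 360) (nat_lit 321) (nat_lit 180)) (XT.lf (nat_lit 0) (nat_lit 4159414086) (nat_lit 504) (nat_lit 8783774657) (nat_lit 84) (nat_lit 11612030854) (nat_lit 47) (nat_lit 5) (nat_lit 53) (nat_lit 5) (nat_lit 48) (nat_lit 5) (nat_lit 361) (nat_lit 321) (nat_lit 179)))) (XT.nd (nat_lit 188) (nat_lit 336) (nat_lit 0) (XT.nd (nat_lit 94) (nat_lit 336) (nat_lit 0) (XT.lf (nat_lit 0) (nat_lit 6179530421) (nat_lit 504) (nat_lit 807473618) (nat_lit 84) (nat_lit 18095835344) (nat_lit 47) (nat_lit 5) (nat_lit 53) (nat_lit 5) (nat_lit 48) (nat_lit 5) (nat_lit 362) (nat_lit 321) (nat_lit 178)) (XT.lf (nat_lit 0) (nat_lit 7562495758) (nat_lit 336) (nat_lit 769592773) (nat_lit 420) (nat_lit 17292586416) (nat_lit 43) (nat_lit 5) (nat_lit 47) (nat_lit 5) (nat_lit 48) (nat_lit 5) (nat_lit 363) (nat_lit 321) (nat_lit 177))) (XT.nd (nat_lit 94) (nat_lit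 336) (nat_lit 0) (XT.lf (nat_lit 0) (nat_lit 10610732766) (nat_lit 420) (nat_lit 10036112749) (nat_lit 84) (nat_lit 5534645049) (nat_lit 43) (nat_lit 5) (nat_lit 48) (nat_lit 5) (nat_lit 44) (nat_lit 5) (nat_lit 364) (nat_lit 321) (nat_lit 176)) (XT.nd (nat_lit 94) (nat_lit 336) (nat_lit 0) (XT.lf (nat_lit 0) (nat_lit 12962927040) (nat_lit 420) (nat_lit 1775004210) (nat_lit 84) (nat_lit 12017568451) (nat_lit 43) (nat_lit 5) (nat_lit 48) (nat_lit 5) (nat_lit 44) (nat_lit 5) (nat_lit 365) (nat_lit 321) (nat_lit 175)) (XT.lf (nat_lit 0) (nat_lit 6874996967) (nat_lit 336) (nat_lit 8576433244) (nat_lit 420) (nat_lit 11893929630) (nat_lit 39) (nat_lit 5) (nat_lit 43) (nat_lit 5) (nat_lit 44) (nat_lit 5) (nat_lit 366) (nat_lit 321) (nat_lit 174)))))) (XT.nd (nat_lit 376) (nat_lit 0) (nat_lit 0) (XT.nd (nat_lit 188) (nat_lit 1008) (nat_lit 0) (XT.nd (nat_lit 94) (nat_lit 0) (nat_lit 0) (XT.lf (nat_lit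 0) (nat_lit 2839915297) (nat_lit 0) (nat_lit 2839915297) (nat_lit 924) (nat_lit 515005487) (nat_lit 106) (nat_lit 5) (nat_lit 106) (nat_lit 3) (nat_lit 117) (nat_lit 3) (nat_lit 322) (nat_lit 322) (nat_lit 217)) (XT.lf (nat_lit 0) (nat_lit 10203792763) (nat_lit 0) (nat_lit 1689507499) (nat_lit 924) (nat_lit 675251047) (nat_lit 106) (nat_lit 5) (nat_lit 106) (nat_lit 3) (nat_lit 117) (nat_lit 3) (nat_lit 323) (nat_lit 322) (nat_lit 216))) (XT.nd (nat_lit 94) (nat_lit 1008) (nat_lit 0) (XT.lf (nat_lit 84) (nat_lit 2125998780) (nat_lit 0) (nat_lit 10348288250) (nat_lit 1008) (nat_lit 277817393) (nat_lit 107) (nat_lit 5) (nat_lit 106) (nat_lit 5) (nat_lit 118) (nat_lit 5) (nat_lit 324) (nat_lit 322) (nat_lit 215)) (XT.lf (nat_lit 0) (nat_lit 157288962) (nat_lit 1008) (nat_lit 6161419921) (nat_lit 1092) (nat_lit 6621808610) (nat_lit 94) (nat_lit 5) (nat_lit 106) (nat_lit 5) (nat_lit 107) (nat_lit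 5) (nat_lit 325) (nat_lit 322) (nat_lit 214)))) (XT.nd (nat_lit 188) (nat_lit 0) (nat_lit 84) (XT.nd (nat_lit 94) (nat_lit 0) (nat_lit 84) (XT.lf (nat_lit 0) (nat_lit 586334928) (nat_lit 1008) (nat_lit 1569024553) (nat_lit 1092) (nat_lit 10979827258) (nat_lit 94) (nat_lit 5) (nat_lit 106) (nat_lit 5) (nat_lit 107) (nat_lit 5) (nat_lit 326) (nat_lit 322) (nat_lit 213)) (XT.lf (nat_lit 0) (nat_lit 1068874761) (nat_lit 1008) (nat_lit 10133917322) (nat_lit 1092) (nat_lit 2131926697) (nat_lit 95) (nat_lit 5) (nat_lit 107) (nat_lit 5) (nat_lit 108) (nat_lit 5) (nat_lit 327) (nat_lit 322) (nat_lit 212))) (XT.nd (nat_lit 94) (nat_lit 0) (nat_lit 0) (XT.lf (nat_lit 0) (nat_lit 1591980510) (nat_lit 1008) (nat_lit 5418457181) (nat_lit 1092) (nat_lit 6529276623) (nat_lit 95) (nat_lit 5) (nat_lit 107) (nat_lit 5) (nat_lit 108) (nat_lit 5) (nat_lit 328) (nat_lit 322) (nat_lit 211)) (XT.nd (nat_lit 94)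 (nat_lit 0) (nat_lit 84) (XT.lf (nat_lit 0) (nat_lit 2118710901) (nat_lit 1008) (nat_lit 564646463) (nat_lit 1092) (nat_lit 11068167346) (nat_lit 95) (nat_lit 5) (nat_lit 107) (nat_lit 5) (nat_lit 108) (nat_lit 5) (nat_lit 329) (nat_lit 322) (nat_lit 210)) (XT.lf (nat_lit 0) (nat_lit 2712568681) (nat_lit 1008) (nat_lit 9463926876) (nat_lit 1092) (nat_lit 1791898477) (nat_lit 96) (nat_lit 5) (nat_lit 108) (nat_lit 5) (nat_lit 109) (nat_lit 5) (nat_lit 330) (nat_lit 322) (nat_lit 209))))))) (XT.nd (nat_lit 846) (nat_lit 2436) (nat_lit 0) (XT.nd (nat_lit 376) (nat_lit 0) (nat_lit 84) (XT.nd (nat_lit 188) (nat_lit 0) (nat_lit 84) (XT.nd (nat_lit 94) (nat_lit 0) (nat_lit 0) (XT.lf (nat_lit 0) (nat_lit 3346357828) (nat_lit 1008) (nat_lit 4484609977) (nat_lit 1092) (nat_lit 6360416862) (nat_lit 96) (nat_lit 5) (nat_lit 108) (nat_lit 5) (nat_lit 109) (nat_lit 5) (nat_lit 331) (nat_lit 322) (nat_lit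 208)) (XT.lf (nat_lit 84) (nat_lit 654497636) (nat_lit 0) (nat_lit 3340269919) (nat_lit 1092) (nat_lit 10426739853) (nat_lit 97) (nat_lit 5) (nat_lit 96) (nat_lit 5) (nat_lit 109) (nat_lit 5) (nat_lit 332) (nat_lit 322) (nat_lit 207))) (XT.nd (nat_lit 94) (nat_lit 0) (nat_lit 0) (XT.lf (nat_lit 0) (nat_lit 4712146342) (nat_lit 1008) (nat_lit 8630718116) (nat_lit 1092) (nat_lit 1314446230) (nat_lit 97) (nat_lit 5) (nat_lit 109) (nat_lit 5) (nat_lit 110) (nat_lit 5) (nat_lit 333) (nat_lit 322) (nat_lit 206)) (XT.lf (nat_lit 0) (nat_lit 5475050238) (nat_lit 1008) (nat_lit 3377242403) (nat_lit 1092) (nat_lit 6047469151) (nat_lit 97) (nat_lit 5) (nat_lit 109) (nat_lit 5) (nat_lit 110) (nat_lit 5) (nat_lit 334) (nat_lit 322) (nat_lit 205)))) (XT.nd (nat_lit 188) (nat_lit 0) (nat_lit 84) (XT.nd (nat_lit 94) (nat_lit 0) (nat_lit 84) (XT.lf (nat_lit 84) (nat_lit 2073220825) (nat_lit 0) (nat_lit 4198400240)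 (nat_lit 1092) (nat_lit 8877855291) (nat_lit 98) (nat_lit 5) (nat_lit 97) (nat_lit 5) (nat_lit 110) (nat_lit 5) (nat_lit 335) (nat_lit 322) (nat_lit 204)) (XT.lf (nat_lit 0) (nat_lit 7124167034) (nat_lit 1008) (nat_lit 7655872022) (nat_lit 1092) (nat_lit 625979550) (nat_lit 98) (nat_lit 5) (nat_lit 110) (nat_lit 5) (nat_lit 111) (nat_lit 5) (nat_lit 336) (nat_lit 322) (nat_lit 203))) (XT.nd (nat_lit 94) (nat_lit 0) (nat_lit 0) (XT.lf (nat_lit 0) (nat_lit 8036110490) (nat_lit 1008) (nat_lit 2118123502) (nat_lit 1092) (nat_lit 5515312213) (nat_lit 98) (nat_lit 5) (nat_lit 110) (nat_lit 5) (nat_lit 111) (nat_lit 5) (nat_lit 337) (nat_lit 322) (nat_lit 202)) (XT.nd (nat_lit 94) (nat_lit 0) (nat_lit 0) (XT.lf (nat_lit 84) (nat_lit 3657490726) (nat_lit 0) (nat_lit 5345444847) (nat_lit 1092) (nat_lit 6937535559) (nat_lit 99) (nat_lit 5) (nat_lit 98) (nat_lit 5) (nat_lit 111) (nat_lit 5) (nat_lit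 338) (nat_lit 322) (nat_lit 201)) (XT.lf (nat_lit 84) (nat_lit 9649633196) (nat_lit 0) (nat_lit 362753723) (nat_lit 1092) (nat_lit 6207066852) (nat_lit 99) (nat_lit 5) (nat_lit 98) (nat_lit 5) (nat_lit 111) (nat_lit 5) (nat_lit 339) (nat_lit 322) (nat_lit 200)))))) (XT.nd (nat_lit 470) (nat_lit 1092) (nat_lit 0) (XT.nd (nat_lit 188) (nat_lit 588) (nat_lit 0) (XT.nd (nat_lit 94) (nat_lit 1008) (nat_lit 0) (XT.lf (nat_lit 0) (nat_lit 11091343574) (nat_lit 1008) (nat_lit 734464911) (nat_lit 84) (nat_lit 4680141594) (nat_lit 99) (nat_lit 5) (nat_lit 111) (nat_lit 5) (nat_lit 100) (nat_lit 5) (nat_lit 340) (nat_lit 322) (nat_lit 199)) (XT.lf (nat_lit 0) (nat_lit 5379131699) (nat_lit 1008) (nat_lit 6872812758) (nat_lit 1092) (nat_lit 4547937517) (nat_lit 87) (nat_lit 5) (nat_lit 99) (nat_lit 5) (nat_lit 100) (nat_lit 5) (nat_lit 341) (nat_lit 322) (nat_lit 198))) (XT.nd (nat_lit 94) (nat_lit 588)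 (nat_lit 0) (XT.lf (nat_lit 0) (nat_lit 11690571731) (nat_lit 1008) (nat_lit 1756938299) (nat_lit 1092) (nat_lit 3655494000) (nat_lit 87) (nat_lit 5) (nat_lit 99) (nat_lit 5) (nat_lit 100) (nat_lit 5) (nat_lit 342) (nat_lit 322) (nat_lit 197)) (XT.nd (nat_lit 94) (nat_lit 0) (nat_lit 0) (XT.lf (nat_lit 0) (nat_lit 755112441) (nat_lit 588) (nat_lit 13959005349) (nat_lit 672) (nat_lit 2700397143) (nat_lit 80) (nat_lit 5) (nat_lit 87) (nat_lit 5) (nat_lit 88) (nat_lit 5) (nat_lit 343) (nat_lit 322) (nat_lit 196)) (XT.lf (nat_lit 0) (nat_lit 7202976767) (nat_lit 588) (nat_lit 8883070823) (nat_lit 672) (nat_lit 1647631378) (nat_lit 80) (nat_lit 5) (nat_lit 87) (nat_lit 5) (nat_lit 88) (nat_lit 5) (nat_lit 344) (nat_lit 322) (nat_lit 195))))) (XT.nd (nat_lit 188) (nat_lit 504) (nat_lit 0) (XT.nd (nat_lit 94) (nat_lit 588) (nat_lit 0) (XT.lf (nat_lit 0) (nat_lit 13843667476) (nat_lit 588) (nat_lit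 3648862127) (nat_lit 672) (nat_lit 570497532) (nat_lit 80) (nat_lit 5) (nat_lit 87) (nat_lit 5) (nat_lit 88) (nat_lit 5) (nat_lit 345) (nat_lit 322) (nat_lit 194)) (XT.lf (nat_lit 0) (nat_lit 561959177) (nat_lit 588) (nat_lit 16097609864) (nat_lit 84) (nat_lit 1741873020) (nat_lit 73) (nat_lit 5) (nat_lit 80) (nat_lit 5) (nat_lit 74) (nat_lit 5) (nat_lit 346) (nat_lit 322) (nat_lit 193))) (XT.nd (nat_lit 94) (nat_lit 504) (nat_lit 0) (XT.lf (nat_lit 0) (nat_lit 1791799295) (nat_lit 588) (nat_lit 9681156056) (nat_lit 84) (nat_lit 7274952655) (nat_lit 73) (nat_lit 5) (nat_lit 80) (nat_lit 5) (nat_lit 74) (nat_lit 5) (nat_lit 347) (nat_lit 322) (nat_lit 192)) (XT.nd (nat_lit 94) (nat_lit 504) (nat_lit 0) (XT.lf (nat_lit 0) (nat_lit 3052312130) (nat_lit 588) (nat_lit 3072834019) (nat_lit 84) (nat_lit 12980237098) (nat_lit 73) (nat_lit 5) (nat_lit 80) (nat_lit 5) (nat_lit 74) (nat_lit 5) (nat_lit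 348) (nat_lit 322) (nat_lit 191)) (XT.lf (nat_lit 0) (nat_lit 3810284637) (nat_lit 504) (nat_lit 572186468) (nat_lit 588) (nat_lit 15090558129) (nat_lit 67) (nat_lit 5) (nat_lit 73) (nat_lit 5) (nat_lit 74) (nat_lit 5) (nat_lit 349) (nat_lit 322) (nat_lit 190))))))))
noncomputable def xc105 : XT := (XT.nd (nat_lit 51606) (nat_lit 0) (nat_lit 3696) (XT.nd (nat_lit 846) (nat_lit 840) (nat_lit 0) (XT.nd (nat_lit 376) (nat_lit 756) (nat_lit 0) (XT.nd (nat_lit 188) (nat_lit 420) (nat_lit 0) (XT.nd (nat_lit 94) (nat_lit 0) (nat_lit 0) (XT.lf (nat_lit 0) (nat_lit 5830309853) (nat_lit 588) (nat_lit 8937620216) (nat_lit 84) (nat_lit 5081807975) (nat_lit 67) (nat_lit 5) (nat_lit 74) (nat_lit 5) (nat_lit 68) (nat_lit 5) (nat_lit 350) (nat_lit 322) (nat_lit 189)) (XT.lf (nat_lit 0) (nat_lit 7322021609) (nat_lit 588) (nat_lit 2016677158) (nat_lit 84) (nat_lit 10899491887) (nat_lit 67) (nat_lit 5) (nat_lit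 74) (nat_lit 5) (nat_lit 68) (nat_lit 5) (nat_lit 351) (nat_lit 322) (nat_lit 188))) (XT.nd (nat_lit 94) (nat_lit 0) (nat_lit 0) (XT.lf (nat_lit 0) (nat_lit 5217329338) (nat_lit 420) (nat_lit 3687747861) (nat_lit 504) (nat_lit 11732243452) (nat_lit 62) (nat_lit 5) (nat_lit 67) (nat_lit 5) (nat_lit 68) (nat_lit 5) (nat_lit 352) (nat_lit 322) (nat_lit 187)) (XT.lf (nat_lit 0) (nat_lit 10573165138) (nat_lit 504) (nat_lit 8358027858) (nat_lit 84) (nat_lit 2116548469) (nat_lit 62) (nat_lit 5) (nat_lit 68) (nat_lit 5) (nat_lit 63) (nat_lit 5) (nat_lit 353) (nat_lit 322) (nat_lit 186)))) (XT.nd (nat_lit 188) (nat_lit 336) (nat_lit 0) (XT.nd (nat_lit 94) (nat_lit 420) (nat_lit 0) (XT.lf (nat_lit 0) (nat_lit 12324356191) (nat_lit 504) (nat_lit 1121427885) (nat_lit 84) (nat_lit 8024159581) (nat_lit 62) (nat_lit 5) (nat_lit 68) (nat_lit 5) (nat_lit 63) (nat_lit 5) (nat_lit 354) (nat_lit 322) (nat_lit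 185)) (XT.lf (nat_lit 0) (nat_lit 6463359072) (nat_lit 420) (nat_lit 7724457986) (nat_lit 504) (nat_lit 7715650139) (nat_lit 57) (nat_lit 5) (nat_lit 62) (nat_lit 5) (nat_lit 63) (nat_lit 5) (nat_lit 355) (nat_lit 322) (nat_lit 184))) (XT.nd (nat_lit 94) (nat_lit 336) (nat_lit 0) (XT.lf (nat_lit 0) (nat_lit 14300742701) (nat_lit 420) (nat_lit 1813995387) (nat_lit 504) (nat_lit 6235545030) (nat_lit 57) (nat_lit 5) (nat_lit 62) (nat_lit 5) (nat_lit 63) (nat_lit 5) (nat_lit 356) (nat_lit 322) (nat_lit 183)) (XT.nd (nat_lit 94) (nat_lit 336) (nat_lit 0) (XT.lf (nat_lit 0) (nat_lit 18138014176) (nat_lit 504) (nat_lit 478642703) (nat_lit 84) (nat_lit 4193186958) (nat_lit 57) (nat_lit 5) (nat_lit 63) (nat_lit 5) (nat_lit 58) (nat_lit 5) (nat_lit 357) (nat_lit 322) (nat_lit 182)) (XT.lf (nat_lit 0) (nat_lit 7452417113) (nat_lit 336) (nat_lit 12858417384) (nat_lit 420) (nat_lit 2970152816) (nat_lit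 53) (nat_lit 5) (nat_lit 57) (nat_lit 5) (nat_lit 58) (nat_lit 5) (nat_lit 358) (nat_lit 322) (nat_lit 181)))))) (XT.nd (nat_lit 376) (nat_lit 336) (nat_lit 0) (XT.nd (nat_lit 188) (nat_lit 420) (nat_lit 0) (XT.nd (nat_lit 94) (nat_lit 84) (nat_lit 0) (XT.lf (nat_lit 0) (nat_lit 15633416425) (nat_lit 336) (nat_lit 6917042678) (nat_lit 420) (nat_lit 1216321318) (nat_lit 53) (nat_lit 5) (nat_lit 57) (nat_lit 5) (nat_lit 58) (nat_lit 5) (nat_lit 359) (nat_lit 322) (nat_lit 180)) (XT.lf (nat_lit 0) (nat_lit 574490830) (nat_lit 420) (nat_lit 211503490) (nat_lit 84) (nat_lit 23481651570) (nat_lit 52) (nat_lit 5) (nat_lit 57) (nat_lit 5) (nat_lit 53) (nat_lit 5) (nat_lit 360) (nat_lit 322) (nat_lit 179))) (XT.nd (nat_lit 94) (nat_lit 0) (nat_lit 0) (XT.lf (nat_lit 0) (nat_lit 2526467830) (nat_lit 504) (nat_lit 16736338494) (nat_lit 84) (nat_lit 5516812511) (nat_lit 47) (nat_lit 5) (nat_lit 53)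 (nat_lit 5) (nat_lit 48) (nat_lit 5) (nat_lit 361) (nat_lit 322) (nat_lit 178)) (XT.lf (nat_lit 0) (nat_lit 4544022508) (nat_lit 504) (nat_lit 8762974151) (nat_lit 84) (nat_lit 12000333155) (nat_lit 47) (nat_lit 5) (nat_lit 53) (nat_lit 5) (nat_lit 48) (nat_lit 5) (nat_lit 362) (nat_lit 322) (nat_lit 177)))) (XT.nd (nat_lit 188) (nat_lit 0) (nat_lit 0) (XT.nd (nat_lit 94) (nat_lit 336) (nat_lit 0) (XT.lf (nat_lit 0) (nat_lit 6619075092) (nat_lit 504) (nat_lit 548220606) (nat_lit 84) (nat_lit 18684283780) (nat_lit 47) (nat_lit 5) (nat_lit 53) (nat_lit 5) (nat_lit 48) (nat_lit 5) (nat_lit 363) (nat_lit 322) (nat_lit 176)) (XT.lf (nat_lit 0) (nat_lit 8078339695) (nat_lit 336) (nat_lit 755358184) (nat_lit 420) (nat_lit 17576692964) (nat_lit 43) (nat_lit 5) (nat_lit 47) (nat_lit 5) (nat_lit 48) (nat_lit 5) (nat_lit 364) (nat_lit 322) (nat_lit 175))) (XT.nd (nat_lit 94) (nat_lit 0) (nat_lit 0)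 (XT.lf (nat_lit 0) (nat_lit 11176030641) (nat_lit 420) (nat_lit 10066264525) (nat_lit 84) (nat_lit 5742421273) (nat_lit 43) (nat_lit 5) (nat_lit 48) (nat_lit 5) (nat_lit 44) (nat_lit 5) (nat_lit 365) (nat_lit 322) (nat_lit 174)) (XT.nd (nat_lit 50008) (nat_lit 0) (nat_lit 5292) (XT.lf (nat_lit 0) (nat_lit 13594035935) (nat_lit 420) (nat_lit 1557509730) (nat_lit 84) (nat_lit 12425226776) (nat_lit 43) (nat_lit 5) (nat_lit 48) (nat_lit 5) (nat_lit 44) (nat_lit 5) (nat_lit 366) (nat_lit 322) (nat_lit 173)) (XT.lf (nat_lit 0) (nat_lit 3104961292) (nat_lit 0) (nat_lit 3104961292) (nat_lit 924) (nat_lit 163923199) (nat_lit 106) (nat_lit 5) (nat_lit 106) (nat_lit 3) (nat_lit 117) (nat_lit 3) (nat_lit 323) (nat_lit 323) (nat_lit 215))))))) (XT.nd (nat_lit 846) (nat_lit 504) (nat_lit 0) (XT.nd (nat_lit 376) (nat_lit 0) (nat_lit 168) (XT.nd (nat_lit 188) (nat_lit 0) (nat_lit 84) (XT.nd (nat_lit 94)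 (nat_lit 0) (nat_lit 84) (XT.lf (nat_lit 0) (nat_lit 15519287) (nat_lit 1092) (nat_lit 2069573643) (nat_lit 1092) (nat_lit 10847801750) (nat_lit 93) (nat_lit 3) (nat_lit 106) (nat_lit 3) (nat_lit 106) (nat_lit 5) (nat_lit 324) (nat_lit 323) (nat_lit 214)) (XT.lf (nat_lit 0) (nat_lit 396393256) (nat_lit 1008) (nat_lit 10566711274) (nat_lit 1092) (nat_lit 2159663058) (nat_lit 94) (nat_lit 5) (nat_lit 106) (nat_lit 5) (nat_lit 107) (nat_lit 5) (nat_lit 325) (nat_lit 323) (nat_lit 213))) (XT.nd (nat_lit 94) (nat_lit 0) (nat_lit 0) (XT.lf (nat_lit 0) (nat_lit 818859458) (nat_lit 1008) (nat_lit 5978066785) (nat_lit 1092) (nat_lit 6520751022) (nat_lit 94) (nat_lit 5) (nat_lit 106) (nat_lit 5) (nat_lit 107) (nat_lit 5) (nat_lit 326) (nat_lit 323) (nat_lit 212)) (XT.lf (nat_lit 0) (nat_lit 1241460426) (nat_lit 1008) (nat_lit 1254563292) (nat_lit 1092) (nat_lit 11023079056) (nat_lit 94) (nat_lit 5)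 (nat_lit 106) (nat_lit 5) (nat_lit 107) (nat_lit 5) (nat_lit 327) (nat_lit 323) (nat_lit 211)))) (XT.nd (nat_lit 188) (nat_lit 0) (nat_lit 0) (XT.nd (nat_lit 94) (nat_lit 0) (nat_lit 0) (XT.lf (nat_lit 0) (nat_lit 1720774357) (nat_lit 1008) (nat_lit 10063359890) (nat_lit 1092) (nat_lit 1941355905) (nat_lit 95) (nat_lit 5) (nat_lit 107) (nat_lit 5) (nat_lit 108) (nat_lit 5) (nat_lit 328) (nat_lit 323) (nat_lit 210)) (XT.lf (nat_lit 0) (nat_lit 2241491439) (nat_lit 1008) (nat_lit 5213287870) (nat_lit 1092) (nat_lit 6482740920) (nat_lit 95) (nat_lit 5) (nat_lit 107) (nat_lit 5) (nat_lit 108) (nat_lit 5) (nat_lit 329) (nat_lit 323) (nat_lit 209))) (XT.nd (nat_lit 94) (nat_lit 0) (nat_lit 84) (XT.lf (nat_lit 0) (nat_lit 2766504939) (nat_lit 1008) (nat_lit 220228599) (nat_lit 1092) (nat_lit 11169822456) (nat_lit 95) (nat_lit 5) (nat_lit 107) (nat_lit 5) (nat_lit 108) (nat_lit 5) (nat_lit 330)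 (nat_lit 323) (nat_lit 208)) (XT.nd (nat_lit 94) (nat_lit 0) (nat_lit 0) (XT.lf (nat_lit 0) (nat_lit 3362741022) (nat_lit 1008) (nat_lit 9376231801) (nat_lit 1092) (nat_lit 1641769245) (nat_lit 96) (nat_lit 5) (nat_lit 108) (nat_lit 5) (nat_lit 109) (nat_lit 5) (nat_lit 331) (nat_lit 323) (nat_lit 207)) (XT.lf (nat_lit 0) (nat_lit 3999156717) (nat_lit 1008) (nat_lit 4254014256) (nat_lit 1092) (nat_lit 6358096007) (nat_lit 96) (nat_lit 5) (nat_lit 108) (nat_lit 5) (nat_lit 109) (nat_lit 5) (nat_lit 332) (nat_lit 323) (nat_lit 206)))))) (XT.nd (nat_lit 470) (nat_lit 756) (nat_lit 0) (XT.nd (nat_lit 188) (nat_lit 0) (nat_lit 84) (XT.nd (nat_lit 94) (nat_lit 0) (nat_lit 84) (XT.lf (nat_lit 84) (nat_lit 1040663637) (nat_lit 0) (nat_lit 3614123917) (nat_lit 1092) (nat_lit 10194226336) (nat_lit 97) (nat_lit 5) (nat_lit 96) (nat_lit 5) (nat_lit 109) (nat_lit 5) (nat_lit 333) (nat_lit 323) (nat_lit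 205)) (XT.lf (nat_lit 0) (nat_lit 5376644558) (nat_lit 1008) (nat_lit 8522784175) (nat_lit 1092) (nat_lit 1193337272) (nat_lit 97) (nat_lit 5) (nat_lit 109) (nat_lit 5) (nat_lit 110) (nat_lit 5) (nat_lit 334) (nat_lit 323) (nat_lit 204))) (XT.nd (nat_lit 94) (nat_lit 0) (nat_lit 0) (XT.lf (nat_lit 0) (nat_lit 6147610626) (nat_lit 1008) (nat_lit 3117740795) (nat_lit 1092) (nat_lit 6077950596) (nat_lit 97) (nat_lit 5) (nat_lit 109) (nat_lit 5) (nat_lit 110) (nat_lit 5) (nat_lit 335) (nat_lit 323) (nat_lit 203)) (XT.nd (nat_lit 94) (nat_lit 0) (nat_lit 84) (XT.lf (nat_lit 84) (nat_lit 2497999634) (nat_lit 0) (nat_lit 4459332654) (nat_lit 1092) (nat_lit 8643866398) (nat_lit 98) (nat_lit 5) (nat_lit 97) (nat_lit 5) (nat_lit 110) (nat_lit 5) (nat_lit 336) (nat_lit 323) (nat_lit 202)) (XT.lf (nat_lit 0) (nat_lit 7820276732) (nat_lit 1008) (nat_lit 7524903594) (nat_lit 1092) (nat_lit 521090988)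 (nat_lit 98) (nat_lit 5) (nat_lit 110) (nat_lit 5) (nat_lit 111) (nat_lit 5) (nat_lit 337) (nat_lit 323) (nat_lit 201))))) (XT.nd (nat_lit 188) (nat_lit 924) (nat_lit 0) (XT.nd (nat_lit 94) (nat_lit 0) (nat_lit 0) (XT.lf (nat_lit 0) (nat_lit 8746200352) (nat_lit 1008) (nat_lit 1826558890) (nat_lit 1092) (nat_lit 5565730220) (nat_lit 98) (nat_lit 5) (nat_lit 110) (nat_lit 5) (nat_lit 111) (nat_lit 5) (nat_lit 338) (nat_lit 323) (nat_lit 200)) (XT.lf (nat_lit 84) (nat_lit 4124482782) (nat_lit 0) (nat_lit 5608161673) (nat_lit 1092) (nat_lit 6685565385) (nat_lit 99) (nat_lit 5) (nat_lit 98) (nat_lit 5) (nat_lit 111) (nat_lit 5) (nat_lit 339) (nat_lit 323) (nat_lit 199))) (XT.nd (nat_lit 94) (nat_lit 924) (nat_lit 0) (XT.lf (nat_lit 84) (nat_lit 10291749365) (nat_lit 0) (nat_lit 468090296) (nat_lit 1092) (nat_lit 5946494871) (nat_lit 99) (nat_lit 5) (nat_lit 98) (nat_lit 5) (nat_lit 111) (nat_lit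 5) (nat_lit 340) (nat_lit 323) (nat_lit 198)) (XT.nd (nat_lit 94) (nat_lit 1008) (nat_lit 0) (XT.lf (nat_lit 0) (nat_lit 11858196905) (nat_lit 1008) (nat_lit 408219509) (nat_lit 84) (nat_lit 4735802628) (nat_lit 99) (nat_lit 5) (nat_lit 111) (nat_lit 5) (nat_lit 100) (nat_lit 5) (nat_lit 341) (nat_lit 323) (nat_lit 197)) (XT.lf (nat_lit 0) (nat_lit 5891365144) (nat_lit 1008) (nat_lit 7154119106) (nat_lit 1092) (nat_lit 4260135842) (nat_lit 87) (nat_lit 5) (nat_lit 99) (nat_lit 5) (nat_lit 100) (nat_lit 5) (nat_lit 342) (nat_lit 323) (nat_lit 196))))))))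
noncomputable def xc106 : XT := (XT.nd (nat_lit 1692) (nat_lit 840) (nat_lit 0) (XT.nd (nat_lit 846) (nat_lit 1176) (nat_lit 0) (XT.nd (nat_lit 376) (nat_lit 1092) (nat_lit 0) (XT.nd (nat_lit 188) (nat_lit 0) (nat_lit 0) (XT.nd (nat_lit 94) (nat_lit 588) (nat_lit 0) (XT.lf (nat_lit 0) (nat_lit 12388071950) (nat_lit 1008) (nat_lit 1877600431) (nat_lit 1092) (nat_lit 3352919321) (nat_lit 87) (nat_lit 5) (nat_lit 99) (nat_lit 5) (nat_lit 100) (nat_lit 5) (nat_lit 343) (nat_lit 323) (nat_lit 195)) (XT.lf (nat_lit 0) (nat_lit 1125328532) (nat_lit 588) (nat_lit 14436953954) (nat_lit 672) (nat_lit 2377829205) (nat_lit 80) (nat_lit 5) (nat_lit 87) (nat_lit 5) (nat_lit 88) (nat_lit 5) (nat_lit 344) (nat_lit 323) (nat_lit 194))) (XT.nd (nat_lit 94) (nat_lit 0) (nat_lit 0) (XT.lf (nat_lit 0) (nat_lit 7762648877) (nat_lit 588) (nat_lit 9202305804) (nat_lit 672) (nat_lit 1304643693) (nat_lit 80) (nat_lit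 5) (nat_lit 87) (nat_lit 5) (nat_lit 88) (nat_lit 5) (nat_lit 345) (nat_lit 323) (nat_lit 193)) (XT.lf (nat_lit 0) (nat_lit 14599086765) (nat_lit 588) (nat_lit 3804517868) (nat_lit 672) (nat_lit 205967380) (nat_lit 80) (nat_lit 5) (nat_lit 87) (nat_lit 5) (nat_lit 88) (nat_lit 5) (nat_lit 346) (nat_lit 323) (nat_lit 192)))) (XT.nd (nat_lit 188) (nat_lit 504) (nat_lit 0) (XT.nd (nat_lit 94) (nat_lit 0) (nat_lit 0) (XT.lf (nat_lit 0) (nat_lit 945594113) (nat_lit 588) (nat_lit 16250593336) (nat_lit 84) (nat_lit 1762487756) (nat_lit 73) (nat_lit 5) (nat_lit 80) (nat_lit 5) (nat_lit 74) (nat_lit 5) (nat_lit 347) (nat_lit 323) (nat_lit 191)) (XT.lf (nat_lit 0) (nat_lit 2202547985) (nat_lit 588) (nat_lit 9645634227) (nat_lit 84) (nat_lit 7468096627) (nat_lit 73) (nat_lit 5) (nat_lit 80) (nat_lit 5) (nat_lit 74) (nat_lit 5) (nat_lit 348) (nat_lit 323) (nat_lit 190))) (XT.nd (nat_lit 94) (nat_lit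 504) (nat_lit 0) (XT.lf (nat_lit 0) (nat_lit 3491456514) (nat_lit 588) (nat_lit 2842546126) (nat_lit 84) (nat_lit 13351218472) (nat_lit 73) (nat_lit 5) (nat_lit 80) (nat_lit 5) (nat_lit 74) (nat_lit 5) (nat_lit 349) (nat_lit 323) (nat_lit 189)) (XT.nd (nat_lit 94) (nat_lit 0) (nat_lit 0) (XT.lf (nat_lit 0) (nat_lit 4250653350) (nat_lit 504) (nat_lit 605034753) (nat_lit 588) (nat_lit 15208850636) (nat_lit 67) (nat_lit 5) (nat_lit 73) (nat_lit 5) (nat_lit 74) (nat_lit 5) (nat_lit 350) (nat_lit 323) (nat_lit 188)) (XT.lf (nat_lit 0) (nat_lit 6338120744) (nat_lit 588) (nat_lit 8890191595) (nat_lit 84) (nat_lit 5224983148) (nat_lit 67) (nat_lit 5) (nat_lit 74) (nat_lit 5) (nat_lit 68) (nat_lit 5) (nat_lit 351) (nat_lit 323) (nat_lit 187)))))) (XT.nd (nat_lit 376) (nat_lit 756) (nat_lit 0) (XT.nd (nat_lit 188) (nat_lit 0) (nat_lit 0) (XT.nd (nat_lit 94) (nat_lit 420) (nat_lit 0) (XT.lf (nat_lit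 0) (nat_lit 7866241220) (nat_lit 588) (nat_lit 1764456179) (nat_lit 84) (nat_lit 11223447062) (nat_lit 67) (nat_lit 5) (nat_lit 74) (nat_lit 5) (nat_lit 68) (nat_lit 5) (nat_lit 352) (nat_lit 323) (nat_lit 186)) (XT.lf (nat_lit 0) (nat_lit 5690618079) (nat_lit 420) (nat_lit 3801305437) (nat_lit 504) (nat_lit 11773971842) (nat_lit 62) (nat_lit 5) (nat_lit 67) (nat_lit 5) (nat_lit 68) (nat_lit 5) (nat_lit 353) (nat_lit 323) (nat_lit 185))) (XT.nd (nat_lit 94) (nat_lit 0) (nat_lit 0) (XT.lf (nat_lit 0) (nat_lit 11202384750) (nat_lit 504) (nat_lit 8304104220) (nat_lit 84) (nat_lit 2182886246) (nat_lit 62) (nat_lit 5) (nat_lit 68) (nat_lit 5) (nat_lit 63) (nat_lit 5) (nat_lit 354) (nat_lit 323) (nat_lit 184)) (XT.lf (nat_lit 0) (nat_lit 12998798713) (nat_lit 504) (nat_lit 852581575) (nat_lit 84) (nat_lit 8273611511) (nat_lit 62) (nat_lit 5) (nat_lit 68) (nat_lit 5) (nat_lit 63) (nat_lit 5) (nat_lit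 355) (nat_lit 323) (nat_lit 183)))) (XT.nd (nat_lit 188) (nat_lit 336) (nat_lit 0) (XT.nd (nat_lit 94) (nat_lit 0) (nat_lit 0) (XT.lf (nat_lit 0) (nat_lit 6964259994) (nat_lit 420) (nat_lit 7949956760) (nat_lit 504) (nat_lit 7657961711) (nat_lit 57) (nat_lit 5) (nat_lit 62) (nat_lit 5) (nat_lit 63) (nat_lit 5) (nat_lit 356) (nat_lit 323) (nat_lit 182)) (XT.lf (nat_lit 0) (nat_lit 15035566006) (nat_lit 420) (nat_lit 1856689551) (nat_lit 504) (nat_lit 6140899707) (nat_lit 57) (nat_lit 5) (nat_lit 62) (nat_lit 5) (nat_lit 63) (nat_lit 5) (nat_lit 357) (nat_lit 323) (nat_lit 181))) (XT.nd (nat_lit 94) (nat_lit 336) (nat_lit 0) (XT.lf (nat_lit 0) (nat_lit 18970025791) (nat_lit 504) (nat_lit 201189069) (nat_lit 84) (nat_lit 4336043744) (nat_lit 57) (nat_lit 5) (nat_lit 63) (nat_lit 5) (nat_lit 58) (nat_lit 5) (nat_lit 358) (nat_lit 323) (nat_lit 180)) (XT.nd (nat_lit 94) (nat_lit 0) (nat_lit 0)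 (XT.lf (nat_lit 0) (nat_lit 7972774412) (nat_lit 336) (nat_lit 13232189033) (nat_lit 420) (nat_lit 2788246475) (nat_lit 53) (nat_lit 5) (nat_lit 57) (nat_lit 5) (nat_lit 58) (nat_lit 5) (nat_lit 359) (nat_lit 323) (nat_lit 179)) (XT.lf (nat_lit 0) (nat_lit 16398685088) (nat_lit 336) (nat_lit 7107378577) (nat_lit 420) (nat_lit 988284235) (nat_lit 53) (nat_lit 5) (nat_lit 57) (nat_lit 5) (nat_lit 58) (nat_lit 5) (nat_lit 360) (nat_lit 323) (nat_lit 178))))))) (XT.nd (nat_lit 50854) (nat_lit 0) (nat_lit 4284) (XT.nd (nat_lit 376) (nat_lit 336) (nat_lit 0) (XT.nd (nat_lit 188) (nat_lit 0) (nat_lit 0) (XT.nd (nat_lit 94) (nat_lit 0) (nat_lit 0) (XT.lf (nat_lit 0) (nat_lit 61747767) (nat_lit 420) (nat_lit 783724390) (nat_lit 504) (nat_lit 24165446492) (nat_lit 47) (nat_lit 5) (nat_lit 52) (nat_lit 5) (nat_lit 53) (nat_lit 5) (nat_lit 361) (nat_lit 323) (nat_lit 177)) (XT.lf (nat_lit 0) (nat_lit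 2852767561) (nat_lit 504) (nat_lit 16970880293) (nat_lit 84) (nat_lit 5715311240) (nat_lit 47) (nat_lit 5) (nat_lit 53) (nat_lit 5) (nat_lit 48) (nat_lit 5) (nat_lit 362) (nat_lit 323) (nat_lit 176))) (XT.nd (nat_lit 94) (nat_lit 0) (nat_lit 0) (XT.lf (nat_lit 0) (nat_lit 4925410220) (nat_lit 504) (nat_lit 8758889497) (nat_lit 84) (nat_lit 12398994832) (nat_lit 47) (nat_lit 5) (nat_lit 53) (nat_lit 5) (nat_lit 48) (nat_lit 5) (nat_lit 363) (nat_lit 323) (nat_lit 175)) (XT.lf (nat_lit 0) (nat_lit 7057557414) (nat_lit 504) (nat_lit 297769419) (nat_lit 84) (nat_lit 19289346577) (nat_lit 47) (nat_lit 5) (nat_lit 53) (nat_lit 5) (nat_lit 48) (nat_lit 5) (nat_lit 364) (nat_lit 323) (nat_lit 174)))) (XT.nd (nat_lit 50196) (nat_lit 0) (nat_lit 4200) (XT.nd (nat_lit 94) (nat_lit 0) (nat_lit 0) (XT.lf (nat_lit 0) (nat_lit 8593506600) (nat_lit 336) (nat_lit 742938575) (nat_lit 420) (nat_lit 17884531053)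 (nat_lit 43) (nat_lit 5) (nat_lit 47) (nat_lit 5) (nat_lit 48) (nat_lit 5) (nat_lit 365) (nat_lit 323) (nat_lit 173)) (XT.lf (nat_lit 0) (nat_lit 11744852438) (nat_lit 420) (nat_lit 10113993205) (nat_lit 84) (nat_lit 5954494240) (nat_lit 43) (nat_lit 5) (nat_lit 48) (nat_lit 5) (nat_lit 44) (nat_lit 5) (nat_lit 366) (nat_lit 323) (nat_lit 172))) (XT.nd (nat_lit 94) (nat_lit 0) (nat_lit 0) (XT.lf (nat_lit 0) (nat_lit 172749701) (nat_lit 1092) (nat_lit 3193186336) (nat_lit 1092) (nat_lit 3193186336) (nat_lit 93) (nat_lit 3) (nat_lit 106) (nat_lit 3) (nat_lit 106) (nat_lit 5) (nat_lit 324) (nat_lit 324) (nat_lit 213)) (XT.nd (nat_lit 94) (nat_lit 0) (nat_lit 84) (XT.lf (nat_lit 0) (nat_lit 672352373) (nat_lit 1092) (nat_lit 1793561607) (nat_lit 1092) (nat_lit 10843914785) (nat_lit 93) (nat_lit 3) (nat_lit 106) (nat_lit 3) (nat_lit 106) (nat_lit 5) (nat_lit 325) (nat_lit 324) (nat_lit 212))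 (XT.lf (nat_lit 0) (nat_lit 1045630563) (nat_lit 1008) (nat_lit 10531178302) (nat_lit 1092) (nat_lit 1929489766) (nat_lit 94) (nat_lit 5) (nat_lit 106) (nat_lit 5) (nat_lit 107) (nat_lit 5) (nat_lit 326) (nat_lit 324) (nat_lit 211)))))) (XT.nd (nat_lit 470) (nat_lit 0) (nat_lit 168) (XT.nd (nat_lit 188) (nat_lit 0) (nat_lit 84) (XT.nd (nat_lit 94) (nat_lit 0) (nat_lit 0) (XT.lf (nat_lit 0) (nat_lit 1462041498) (nat_lit 1008) (nat_lit 5811203516) (nat_lit 1092) (nat_lit 6434705315) (nat_lit 94) (nat_lit 5) (nat_lit 106) (nat_lit 5) (nat_lit 107) (nat_lit 5) (nat_lit 327) (nat_lit 324) (nat_lit 210)) (XT.lf (nat_lit 0) (nat_lit 1879167228) (nat_lit 1008) (nat_lit 951860827) (nat_lit 1092) (nat_lit 11085270755) (nat_lit 94) (nat_lit 5) (nat_lit 106) (nat_lit 5) (nat_lit 107) (nat_lit 5) (nat_lit 328) (nat_lit 324) (nat_lit 209))) (XT.nd (nat_lit 94) (nat_lit 0) (nat_lit 0) (XT.lf (nat_lit 0)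 (nat_lit 2356232362) (nat_lit 1008) (nat_lit 10013402142) (nat_lit 1092) (nat_lit 1760079861) (nat_lit 95) (nat_lit 5) (nat_lit 107) (nat_lit 5) (nat_lit 108) (nat_lit 5) (nat_lit 329) (nat_lit 324) (nat_lit 208)) (XT.nd (nat_lit 94) (nat_lit 0) (nat_lit 0) (XT.lf (nat_lit 0) (nat_lit 2875588731) (nat_lit 1008) (nat_lit 5023860119) (nat_lit 1092) (nat_lit 6449507947) (nat_lit 95) (nat_lit 5) (nat_lit 107) (nat_lit 5) (nat_lit 108) (nat_lit 5) (nat_lit 330) (nat_lit 324) (nat_lit 207)) (XT.lf (nat_lit 84) (nat_lit 115761296) (nat_lit 0) (nat_lit 3285288052) (nat_lit 1092) (nat_lit 11174317920) (nat_lit 96) (nat_lit 5) (nat_lit 95) (nat_lit 5) (nat_lit 108) (nat_lit 5) (nat_lit 331) (nat_lit 324) (nat_lit 206))))) (XT.nd (nat_lit 188) (nat_lit 0) (nat_lit 0) (XT.nd (nat_lit 94) (nat_lit 0) (nat_lit 0) (XT.lf (nat_lit 0) (nat_lit 3999538658) (nat_lit 1008) (nat_lit 9308390011) (nat_lit 1092)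 (nat_lit 1499168672) (nat_lit 96) (nat_lit 5) (nat_lit 108) (nat_lit 5) (nat_lit 109) (nat_lit 5) (nat_lit 332) (nat_lit 324) (nat_lit 205)) (XT.lf (nat_lit 0) (nat_lit 4639670502) (nat_lit 1008) (nat_lit 4038163212) (nat_lit 1092) (nat_lit 6367519564) (nat_lit 96) (nat_lit 5) (nat_lit 108) (nat_lit 5) (nat_lit 109) (nat_lit 5) (nat_lit 333) (nat_lit 324) (nat_lit 204))) (XT.nd (nat_lit 94) (nat_lit 0) (nat_lit 84) (XT.lf (nat_lit 84) (nat_lit 1417129288) (nat_lit 0) (nat_lit 3886379896) (nat_lit 1092) (nat_lit 9987422477) (nat_lit 97) (nat_lit 5) (nat_lit 96) (nat_lit 5) (nat_lit 109) (nat_lit 5) (nat_lit 334) (nat_lit 324) (nat_lit 203)) (XT.nd (nat_lit 94) (nat_lit 0) (nat_lit 0) (XT.lf (nat_lit 0) (nat_lit 6031035216) (nat_lit 1008) (nat_lit 8433744973) (nat_lit 1092) (nat_lit 1078060991) (nat_lit 97) (nat_lit 5) (nat_lit 109) (nat_lit 5) (nat_lit 110) (nat_lit 5) (nat_lit 335) (nat_lit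 324) (nat_lit 202)) (XT.lf (nat_lit 0) (nat_lit 6811236678) (nat_lit 1008) (nat_lit 2871766598) (nat_lit 1092) (nat_lit 6118675758) (nat_lit 97) (nat_lit 5) (nat_lit 109) (nat_lit 5) (nat_lit 110) (nat_lit 5) (nat_lit 336) (nat_lit 324) (nat_lit 201))))))))
noncomputable def xc107 : XT := (XT.nd (nat_lit 1786) (nat_lit 1596) (nat_lit 0) (XT.nd (nat_lit 846) (nat_lit 1512) (nat_lit 0) (XT.nd (nat_lit 376) (nat_lit 1428) (nat_lit 0) (XT.nd (nat_lit 188) (nat_lit 0) (nat_lit 84) (XT.nd (nat_lit 94) (nat_lit 0) (nat_lit 84) (XT.lf (nat_lit 84) (nat_lit 2914593024) (nat_lit 0) (nat_lit 4720607530) (nat_lit 1092) (nat_lit 8432784780) (nat_lit 98) (nat_lit 5) (nat_lit 97) (nat_lit 5) (nat_lit 110) (nat_lit 5) (nat_lit 337) (nat_lit 324) (nat_lit 200)) (XT.lf (nat_lit 0) (nat_lit 8509815336) (nat_lit 1008) (nat_lit 7411690212) (nat_lit 1092) (nat_lit 420313022) (nat_lit 98) (nat_lit 5) (nat_lit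 110) (nat_lit 5) (nat_lit 111) (nat_lit 5) (nat_lit 338) (nat_lit 324) (nat_lit 199))) (XT.nd (nat_lit 94) (nat_lit 0) (nat_lit 0) (XT.lf (nat_lit 0) (nat_lit 9450998931) (nat_lit 1008) (nat_lit 1547114909) (nat_lit 1092) (nat_lit 5624851963) (nat_lit 98) (nat_lit 5) (nat_lit 110) (nat_lit 5) (nat_lit 111) (nat_lit 5) (nat_lit 339) (nat_lit 324) (nat_lit 198)) (XT.lf (nat_lit 84) (nat_lit 4585006675) (nat_lit 0) (nat_lit 5873276768) (nat_lit 1092) (nat_lit 6453447346) (nat_lit 99) (nat_lit 5) (nat_lit 98) (nat_lit 5) (nat_lit 111) (nat_lit 5) (nat_lit 340) (nat_lit 324) (nat_lit 197)))) (XT.nd (nat_lit 188) (nat_lit 1512) (nat_lit 0) (XT.nd (nat_lit 94) (nat_lit 0) (nat_lit 84) (XT.lf (nat_lit 84) (nat_lit 10933455988) (nat_lit 0) (nat_lit 571119120) (nat_lit 1092) (nat_lit 5704676594) (nat_lit 99) (nat_lit 5) (nat_lit 98) (nat_lit 5) (nat_lit 111) (nat_lit 5) (nat_lit 341) (nat_lit 324)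 (nat_lit 196)) (XT.lf (nat_lit 0) (nat_lit 12623766390) (nat_lit 1008) (nat_lit 92533186) (nat_lit 84) (nat_lit 4798485852) (nat_lit 99) (nat_lit 5) (nat_lit 111) (nat_lit 5) (nat_lit 100) (nat_lit 5) (nat_lit 342) (nat_lit 324) (nat_lit 195))) (XT.nd (nat_lit 94) (nat_lit 588) (nat_lit 0) (XT.lf (nat_lit 0) (nat_lit 6399014433) (nat_lit 1008) (nat_lit 7440103438) (nat_lit 1092) (nat_lit 3988810147) (nat_lit 87) (nat_lit 5) (nat_lit 99) (nat_lit 5) (nat_lit 100) (nat_lit 5) (nat_lit 343) (nat_lit 324) (nat_lit 194)) (XT.nd (nat_lit 94) (nat_lit 588) (nat_lit 0) (XT.lf (nat_lit 0) (nat_lit 13087346573) (nat_lit 1008) (nat_lit 1998082125) (nat_lit 1092) (nat_lit 3065598999) (nat_lit 87) (nat_lit 5) (nat_lit 99) (nat_lit 5) (nat_lit 100) (nat_lit 5) (nat_lit 344) (nat_lit 324) (nat_lit 193)) (XT.lf (nat_lit 0) (nat_lit 1486479314) (nat_lit 588) (nat_lit 14927040542) (nat_lit 672) (nat_lit 2069326335)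 (nat_lit 80) (nat_lit 5) (nat_lit 87) (nat_lit 5) (nat_lit 88) (nat_lit 5) (nat_lit 345) (nat_lit 324) (nat_lit 192)))))) (XT.nd (nat_lit 470) (nat_lit 924) (nat_lit 0) (XT.nd (nat_lit 188) (nat_lit 504) (nat_lit 0) (XT.nd (nat_lit 94) (nat_lit 84) (nat_lit 0) (XT.lf (nat_lit 0) (nat_lit 8319746470) (nat_lit 588) (nat_lit 9528839180) (nat_lit 672) (nat_lit 974364491) (nat_lit 80) (nat_lit 5) (nat_lit 87) (nat_lit 5) (nat_lit 88) (nat_lit 5) (nat_lit 346) (nat_lit 324) (nat_lit 191)) (XT.lf (nat_lit 0) (nat_lit 144257688) (nat_lit 672) (nat_lit 3816715716) (nat_lit 84) (nat_lit 15212835340) (nat_lit 79) (nat_lit 5) (nat_lit 87) (nat_lit 5) (nat_lit 80) (nat_lit 5) (nat_lit 347) (nat_lit 324) (nat_lit 190))) (XT.nd (nat_lit 94) (nat_lit 0) (nat_lit 0) (XT.lf (nat_lit 0) (nat_lit 1319430238) (nat_lit 588) (nat_lit 16428815982) (nat_lit 84) (nat_lit 1785718901) (nat_lit 73) (nat_lit 5) (nat_lit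 80) (nat_lit 5) (nat_lit 74) (nat_lit 5) (nat_lit 348) (nat_lit 324) (nat_lit 189)) (XT.nd (nat_lit 94) (nat_lit 0) (nat_lit 0) (XT.lf (nat_lit 0) (nat_lit 2604990608) (nat_lit 588) (nat_lit 9628891616) (nat_lit 84) (nat_lit 7669145958) (nat_lit 73) (nat_lit 5) (nat_lit 80) (nat_lit 5) (nat_lit 74) (nat_lit 5) (nat_lit 349) (nat_lit 324) (nat_lit 188)) (XT.lf (nat_lit 0) (nat_lit 3923807704) (nat_lit 588) (nat_lit 2624401940) (nat_lit 84) (nat_lit 13735560499) (nat_lit 73) (nat_lit 5) (nat_lit 80) (nat_lit 5) (nat_lit 74) (nat_lit 5) (nat_lit 350) (nat_lit 324) (nat_lit 187))))) (XT.nd (nat_lit 188) (nat_lit 420) (nat_lit 0) (XT.nd (nat_lit 94) (nat_lit 0) (nat_lit 0) (XT.lf (nat_lit 0) (nat_lit 4685586081) (nat_lit 504) (nat_lit 638006314) (nat_lit 588) (nat_lit 15351512571) (nat_lit 67) (nat_lit 5) (nat_lit 73) (nat_lit 5) (nat_lit 74) (nat_lit 5) (nat_lit 351) (nat_lit 324) (nat_lit 186))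 (XT.lf (nat_lit 0) (nat_lit 6842300781) (nat_lit 588) (nat_lit 8860513072) (nat_lit 84) (nat_lit 5373447371) (nat_lit 67) (nat_lit 5) (nat_lit 74) (nat_lit 5) (nat_lit 68) (nat_lit 5) (nat_lit 352) (nat_lit 324) (nat_lit 185))) (XT.nd (nat_lit 94) (nat_lit 420) (nat_lit 0) (XT.lf (nat_lit 0) (nat_lit 8408541151) (nat_lit 588) (nat_lit 1523058819) (nat_lit 84) (nat_lit 11558269891) (nat_lit 67) (nat_lit 5) (nat_lit 74) (nat_lit 5) (nat_lit 68) (nat_lit 5) (nat_lit 353) (nat_lit 324) (nat_lit 184)) (XT.nd (nat_lit 94) (nat_lit 0) (nat_lit 0) (XT.lf (nat_lit 0) (nat_lit 6160125041) (nat_lit 420) (nat_lit 3918428468) (nat_lit 504) (nat_lit 11836064715) (nat_lit 62) (nat_lit 5) (nat_lit 67) (nat_lit 5) (nat_lit 68) (nat_lit 5) (nat_lit 354) (nat_lit 324) (nat_lit 183)) (XT.lf (nat_lit 0) (nat_lit 11833254681) (nat_lit 504) (nat_lit 8267049807) (nat_lit 84) (nat_lit 2251237565) (nat_lit 62) (nat_lit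 5) (nat_lit 68) (nat_lit 5) (nat_lit 63) (nat_lit 5) (nat_lit 355) (nat_lit 324) (nat_lit 182))))))) (XT.nd (nat_lit 846) (nat_lit 336) (nat_lit 0) (XT.nd (nat_lit 376) (nat_lit 504) (nat_lit 0) (XT.nd (nat_lit 188) (nat_lit 336) (nat_lit 0) (XT.nd (nat_lit 94) (nat_lit 420) (nat_lit 0) (XT.lf (nat_lit 0) (nat_lit 13676830343) (nat_lit 504) (nat_lit 593384403) (nat_lit 84) (nat_lit 8530754812) (nat_lit 62) (nat_lit 5) (nat_lit 68) (nat_lit 5) (nat_lit 63) (nat_lit 5) (nat_lit 356) (nat_lit 324) (nat_lit 181)) (XT.lf (nat_lit 0) (nat_lit 7462887535) (nat_lit 420) (nat_lit 8183272836) (nat_lit 504) (nat_lit 7616069272) (nat_lit 57) (nat_lit 5) (nat_lit 62) (nat_lit 5) (nat_lit 63) (nat_lit 5) (nat_lit 357) (nat_lit 324) (nat_lit 180))) (XT.nd (nat_lit 94) (nat_lit 336) (nat_lit 0) (XT.lf (nat_lit 0) (nat_lit 15775902773) (nat_lit 420) (nat_lit 1901509213) (nat_lit 504) (nat_lit 6060375986)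 (nat_lit 57) (nat_lit 5) (nat_lit 62) (nat_lit 5) (nat_lit 63) (nat_lit 5) (nat_lit 358) (nat_lit 324) (nat_lit 179)) (XT.lf (nat_lit 0) (nat_lit 68941720) (nat_lit 336) (nat_lit 19743595198) (nat_lit 420) (nat_lit 4414309088) (nat_lit 53) (nat_lit 5) (nat_lit 57) (nat_lit 5) (nat_lit 58) (nat_lit 5) (nat_lit 359) (nat_lit 324) (nat_lit 178)))) (XT.nd (nat_lit 188) (nat_lit 504) (nat_lit 0) (XT.nd (nat_lit 94) (nat_lit 0) (nat_lit 0) (XT.lf (nat_lit 0) (nat_lit 8492125135) (nat_lit 336) (nat_lit 13619018878) (nat_lit 420) (nat_lit 2616929406) (nat_lit 53) (nat_lit 5) (nat_lit 57) (nat_lit 5) (nat_lit 58) (nat_lit 5) (nat_lit 360) (nat_lit 324) (nat_lit 177)) (XT.lf (nat_lit 0) (nat_lit 17171054720) (nat_lit 336) (nat_lit 7305041924) (nat_lit 420) (nat_lit 768918417) (nat_lit 53) (nat_lit 5) (nat_lit 57) (nat_lit 5) (nat_lit 58) (nat_lit 5) (nat_lit 361) (nat_lit 324) (nat_lit 176))) (XT.nd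 (nat_lit 94) (nat_lit 0) (nat_lit 0) (XT.lf (nat_lit 0) (nat_lit 331114498) (nat_lit 420) (nat_lit 780820491) (nat_lit 504) (nat_lit 24665768015) (nat_lit 47) (nat_lit 5) (nat_lit 52) (nat_lit 5) (nat_lit 53) (nat_lit 5) (nat_lit 362) (nat_lit 324) (nat_lit 175)) (XT.nd (nat_lit 94) (nat_lit 0) (nat_lit 0) (XT.lf (nat_lit 0) (nat_lit 3174494349) (nat_lit 504) (nat_lit 17229531556) (nat_lit 84) (nat_lit 5918335888) (nat_lit 47) (nat_lit 5) (nat_lit 53) (nat_lit 5) (nat_lit 48) (nat_lit 5) (nat_lit 363) (nat_lit 324) (nat_lit 174)) (XT.lf (nat_lit 0) (nat_lit 5304374362) (nat_lit 504) (nat_lit 8771010585) (nat_lit 84) (nat_lit 12808436416) (nat_lit 47) (nat_lit 5) (nat_lit 53) (nat_lit 5) (nat_lit 48) (nat_lit 5) (nat_lit 364) (nat_lit 324) (nat_lit 173)))))) (XT.nd (nat_lit 50572) (nat_lit 0) (nat_lit 4284) (XT.nd (nat_lit 50290) (nat_lit 0) (nat_lit 4200) (XT.nd (nat_lit 94) (nat_lit 336)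 (nat_lit 0) (XT.lf (nat_lit 0) (nat_lit 7495814463) (nat_lit 504) (nat_lit 55395531) (nat_lit 84) (nat_lit 19911635180) (nat_lit 47) (nat_lit 5) (nat_lit 53) (nat_lit 5) (nat_lit 48) (nat_lit 5) (nat_lit 365) (nat_lit 324) (nat_lit 172)) (XT.lf (nat_lit 0) (nat_lit 9108962772) (nat_lit 336) (nat_lit 732256569) (nat_lit 420) (nat_lit 18215952371) (nat_lit 43) (nat_lit 5) (nat_lit 47) (nat_lit 5) (nat_lit 48) (nat_lit 5) (nat_lit 366) (nat_lit 324) (nat_lit 171))) (XT.nd (nat_lit 94) (nat_lit 0) (nat_lit 0) (XT.lf (nat_lit 0) (nat_lit 496413374) (nat_lit 1092) (nat_lit 3127204783) (nat_lit 1092) (nat_lit 3127204783) (nat_lit 93) (nat_lit 3) (nat_lit 106) (nat_lit 3) (nat_lit 106) (nat_lit 5) (nat_lit 325) (nat_lit 325) (nat_lit 211)) (XT.nd (nat_lit 94) (nat_lit 0) (nat_lit 84) (XT.lf (nat_lit 0) (nat_lit 1310670432) (nat_lit 1092) (nat_lit 1529141979) (nat_lit 1092) (nat_lit 10860056106)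 (nat_lit 93) (nat_lit 3) (nat_lit 106) (nat_lit 3) (nat_lit 106) (nat_lit 5) (nat_lit 326) (nat_lit 325) (nat_lit 210)) (XT.lf (nat_lit 0) (nat_lit 1677266640) (nat_lit 1008) (nat_lit 10516050902) (nat_lit 1092) (nat_lit 1709780197) (nat_lit 94) (nat_lit 5) (nat_lit 106) (nat_lit 5) (nat_lit 107) (nat_lit 5) (nat_lit 327) (nat_lit 325) (nat_lit 209))))) (XT.nd (nat_lit 188) (nat_lit 0) (nat_lit 84) (XT.nd (nat_lit 94) (nat_lit 0) (nat_lit 0) (XT.lf (nat_lit 0) (nat_lit 2088568983) (nat_lit 1008) (nat_lit 5660027909) (nat_lit 1092) (nat_lit 6363062119) (nat_lit 94) (nat_lit 5) (nat_lit 106) (nat_lit 5) (nat_lit 107) (nat_lit 5) (nat_lit 328) (nat_lit 325) (nat_lit 208)) (XT.lf (nat_lit 0) (nat_lit 2501150024) (nat_lit 1008) (nat_lit 660007779) (nat_lit 1092) (nat_lit 11165947067) (nat_lit 94) (nat_lit 5) (nat_lit 106) (nat_lit 5) (nat_lit 107) (nat_lit 5) (nat_lit 329) (nat_lit 325) (nat_lit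 207))) (XT.nd (nat_lit 94) (nat_lit 0) (nat_lit 0) (XT.lf (nat_lit 0) (nat_lit 2976909956) (nat_lit 1008) (nat_lit 9983332958) (nat_lit 1092) (nat_lit 1587486235) (nat_lit 95) (nat_lit 5) (nat_lit 107) (nat_lit 5) (nat_lit 108) (nat_lit 5) (nat_lit 330) (nat_lit 325) (nat_lit 206)) (XT.nd (nat_lit 94) (nat_lit 0) (nat_lit 0) (XT.lf (nat_lit 0) (nat_lit 3495900159) (nat_lit 1008) (nat_lit 4849352789) (nat_lit 1092) (nat_lit 6429116698) (nat_lit 95) (nat_lit 5) (nat_lit 107) (nat_lit 5) (nat_lit 108) (nat_lit 5) (nat_lit 331) (nat_lit 325) (nat_lit 205)) (XT.lf (nat_lit 84) (nat_lit 446253436) (nat_lit 0) (nat_lit 3578668434) (nat_lit 1092) (nat_lit 10983359902) (nat_lit 96) (nat_lit 5) (nat_lit 95) (nat_lit 5) (nat_lit 108) (nat_lit 5) (nat_lit 332) (nat_lit 325) (nat_lit 204))))))))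
noncomputable def xc108 : XT := (XT.nd (nat_lit 1692) (nat_lit 2520) (nat_lit 0) (XT.nd (nat_lit 846) (nat_lit 1932) (nat_lit 0) (XT.nd (nat_lit 376) (nat_lit 0) (nat_lit 84) (XT.nd (nat_lit 188) (nat_lit 0) (nat_lit 0) (XT.nd (nat_lit 94) (nat_lit 0) (nat_lit 0) (XT.lf (nat_lit 0) (nat_lit 4624533015) (nat_lit 1008) (nat_lit 9259679988) (nat_lit 1092) (nat_lit 1363608547) (nat_lit 96) (nat_lit 5) (nat_lit 108) (nat_lit 5) (nat_lit 109) (nat_lit 5) (nat_lit 333) (nat_lit 325) (nat_lit 203)) (XT.lf (nat_lit 0) (nat_lit 5269444670) (nat_lit 1008) (nat_lit 3836217161) (nat_lit 1092) (nat_lit 6388351706) (nat_lit 96) (nat_lit 5) (nat_lit 108) (nat_lit 5) (nat_lit 109) (nat_lit 5) (nat_lit 334) (nat_lit 325) (nat_lit 202))) (XT.nd (nat_lit 94) (nat_lit 0) (nat_lit 84) (XT.lf (nat_lit 84) (nat_lit 1784877518) (nat_lit 0) (nat_lit 4157585815) (nat_lit 1092) (nat_lit 9805175511) (nat_lit 97) (nat_lit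 5) (nat_lit 96) (nat_lit 5) (nat_lit 109) (nat_lit 5) (nat_lit 335) (nat_lit 325) (nat_lit 201)) (XT.lf (nat_lit 0) (nat_lit 6676823809) (nat_lit 1008) (nat_lit 8362868893) (nat_lit 1092) (nat_lit 968230342) (nat_lit 97) (nat_lit 5) (nat_lit 109) (nat_lit 5) (nat_lit 110) (nat_lit 5) (nat_lit 336) (nat_lit 325) (nat_lit 200)))) (XT.nd (nat_lit 188) (nat_lit 0) (nat_lit 84) (XT.nd (nat_lit 94) (nat_lit 0) (nat_lit 0) (XT.lf (nat_lit 0) (nat_lit 7467415569) (nat_lit 1008) (nat_lit 2638461416) (nat_lit 1092) (nat_lit 6169411409) (nat_lit 97) (nat_lit 5) (nat_lit 109) (nat_lit 5) (nat_lit 110) (nat_lit 5) (nat_lit 337) (nat_lit 325) (nat_lit 199)) (XT.lf (nat_lit 84) (nat_lit 3324012053) (nat_lit 0) (nat_lit 4982694321) (nat_lit 1092) (nat_lit 8243534079) (nat_lit 98) (nat_lit 5) (nat_lit 97) (nat_lit 5) (nat_lit 110) (nat_lit 5) (nat_lit 338) (nat_lit 325) (nat_lit 198))) (XT.nd (nat_lit 94)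 (nat_lit 0) (nat_lit 0) (XT.lf (nat_lit 0) (nat_lit 9194246545) (nat_lit 1008) (nat_lit 7315490139) (nat_lit 1092) (nat_lit 323337010) (nat_lit 98) (nat_lit 5) (nat_lit 110) (nat_lit 5) (nat_lit 111) (nat_lit 5) (nat_lit 339) (nat_lit 325) (nat_lit 197)) (XT.nd (nat_lit 94) (nat_lit 0) (nat_lit 0) (XT.lf (nat_lit 0) (nat_lit 10151959465) (nat_lit 1008) (nat_lit 1278914006) (nat_lit 1092) (nat_lit 5692524298) (nat_lit 98) (nat_lit 5) (nat_lit 110) (nat_lit 5) (nat_lit 111) (nat_lit 5) (nat_lit 340) (nat_lit 325) (nat_lit 196)) (XT.lf (nat_lit 84) (nat_lit 5040102496) (nat_lit 0) (nat_lit 6141204822) (nat_lit 1092) (nat_lit 6240158319) (nat_lit 99) (nat_lit 5) (nat_lit 98) (nat_lit 5) (nat_lit 111) (nat_lit 5) (nat_lit 341) (nat_lit 325) (nat_lit 195)))))) (XT.nd (nat_lit 376) (nat_lit 1176) (nat_lit 0) (XT.nd (nat_lit 188) (nat_lit 0) (nat_lit 0) (XT.nd (nat_lit 94) (nat_lit 924) (nat_lit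 0) (XT.lf (nat_lit 84) (nat_lit 11575943671) (nat_lit 0) (nat_lit 672098764) (nat_lit 1092) (nat_lit 5480604114) (nat_lit 99) (nat_lit 5) (nat_lit 98) (nat_lit 5) (nat_lit 111) (nat_lit 5) (nat_lit 342) (nat_lit 325) (nat_lit 194)) (XT.lf (nat_lit 0) (nat_lit 217881022) (nat_lit 1008) (nat_lit 13173776742) (nat_lit 1092) (nat_lit 4652375606) (nat_lit 87) (nat_lit 5) (nat_lit 99) (nat_lit 5) (nat_lit 100) (nat_lit 5) (nat_lit 343) (nat_lit 325) (nat_lit 193))) (XT.nd (nat_lit 94) (nat_lit 0) (nat_lit 0) (XT.lf (nat_lit 0) (nat_lit 6903149538) (nat_lit 1008) (nat_lit 7731150215) (nat_lit 1092) (nat_lit 3732966830) (nat_lit 87) (nat_lit 5) (nat_lit 99) (nat_lit 5) (nat_lit 100) (nat_lit 5) (nat_lit 344) (nat_lit 325) (nat_lit 192)) (XT.lf (nat_lit 0) (nat_lit 13789626244) (nat_lit 1008) (nat_lit 2118610033) (nat_lit 1092) (nat_lit 2792546795) (nat_lit 87) (nat_lit 5) (nat_lit 99) (nat_lit 5)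 (nat_lit 100) (nat_lit 5) (nat_lit 345) (nat_lit 325) (nat_lit 191)))) (XT.nd (nat_lit 188) (nat_lit 588) (nat_lit 0) (XT.nd (nat_lit 94) (nat_lit 0) (nat_lit 0) (XT.lf (nat_lit 0) (nat_lit 1839500499) (nat_lit 588) (nat_lit 15429800036) (nat_lit 672) (nat_lit 1773899160) (nat_lit 80) (nat_lit 5) (nat_lit 87) (nat_lit 5) (nat_lit 88) (nat_lit 5) (nat_lit 346) (nat_lit 325) (nat_lit 190)) (XT.lf (nat_lit 0) (nat_lit 8875369888) (nat_lit 588) (nat_lit 9863051078) (nat_lit 672) (nat_lit 655805200) (nat_lit 80) (nat_lit 5) (nat_lit 87) (nat_lit 5) (nat_lit 88) (nat_lit 5) (nat_lit 347) (nat_lit 325) (nat_lit 189))) (XT.nd (nat_lit 94) (nat_lit 504) (nat_lit 0) (XT.lf (nat_lit 0) (nat_lit 480192101) (nat_lit 672) (nat_lit 3637762402) (nat_lit 84) (nat_lit 15638270748) (nat_lit 79) (nat_lit 5) (nat_lit 87) (nat_lit 5) (nat_lit 80) (nat_lit 5) (nat_lit 348) (nat_lit 325) (nat_lit 188)) (XT.nd (nat_lit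 94) (nat_lit 0) (nat_lit 0) (XT.lf (nat_lit 0) (nat_lit 1684448614) (nat_lit 588) (nat_lit 16631846162) (nat_lit 84) (nat_lit 1811530441) (nat_lit 73) (nat_lit 5) (nat_lit 80) (nat_lit 5) (nat_lit 74) (nat_lit 5) (nat_lit 349) (nat_lit 325) (nat_lit 187)) (XT.lf (nat_lit 0) (nat_lit 3000115868) (nat_lit 588) (nat_lit 9630332828) (nat_lit 84) (nat_lit 7878232115) (nat_lit 73) (nat_lit 5) (nat_lit 80) (nat_lit 5) (nat_lit 74) (nat_lit 5) (nat_lit 350) (nat_lit 325) (nat_lit 186))))))) (XT.nd (nat_lit 846) (nat_lit 1176) (nat_lit 0) (XT.nd (nat_lit 376) (nat_lit 840) (nat_lit 0) (XT.nd (nat_lit 188) (nat_lit 0) (nat_lit 0) (XT.nd (nat_lit 94) (nat_lit 504) (nat_lit 0) (XT.lf (nat_lit 0) (nat_lit 4350363833) (nat_lit 588) (nat_lit 2417635774) (nat_lit 84) (nat_lit 14133567174) (nat_lit 73) (nat_lit 5) (nat_lit 80) (nat_lit 5) (nat_lit 74) (nat_lit 5) (nat_lit 351) (nat_lit 325) (nat_lit 185))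 (XT.lf (nat_lit 0) (nat_lit 5116044893) (nat_lit 504) (nat_lit 671157986) (nat_lit 588) (nat_lit 15518073149) (nat_lit 67) (nat_lit 5) (nat_lit 73) (nat_lit 5) (nat_lit 74) (nat_lit 5) (nat_lit 352) (nat_lit 325) (nat_lit 184))) (XT.nd (nat_lit 94) (nat_lit 0) (nat_lit 0) (XT.lf (nat_lit 0) (nat_lit 7343884902) (nat_lit 588) (nat_lit 8847996443) (nat_lit 84) (nat_lit 5527314219) (nat_lit 67) (nat_lit 5) (nat_lit 74) (nat_lit 5) (nat_lit 68) (nat_lit 5) (nat_lit 353) (nat_lit 325) (nat_lit 183)) (XT.lf (nat_lit 0) (nat_lit 8949974886) (nat_lit 588) (nat_lit 1291716384) (nat_lit 84) (nat_lit 11904248401) (nat_lit 67) (nat_lit 5) (nat_lit 74) (nat_lit 5) (nat_lit 68) (nat_lit 5) (nat_lit 354) (nat_lit 325) (nat_lit 182)))) (XT.nd (nat_lit 188) (nat_lit 420) (nat_lit 0) (XT.nd (nat_lit 94) (nat_lit 0) (nat_lit 0) (XT.lf (nat_lit 0) (nat_lit 6626826033) (nat_lit 420) (nat_lit 4039224808) (nat_lit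 504) (nat_lit 11918023768) (nat_lit 62) (nat_lit 5) (nat_lit 67) (nat_lit 5) (nat_lit 68) (nat_lit 5) (nat_lit 355) (nat_lit 325) (nat_lit 181)) (XT.lf (nat_lit 0) (nat_lit 12466883704) (nat_lit 504) (nat_lit 8246289359) (nat_lit 84) (nat_lit 2321667389) (nat_lit 62) (nat_lit 5) (nat_lit 68) (nat_lit 5) (nat_lit 63) (nat_lit 5) (nat_lit 356) (nat_lit 325) (nat_lit 180))) (XT.nd (nat_lit 94) (nat_lit 420) (nat_lit 0) (XT.lf (nat_lit 0) (nat_lit 14359588153) (nat_lit 504) (nat_lit 343070308) (nat_lit 84) (nat_lit 8795830382) (nat_lit 62) (nat_lit 5) (nat_lit 68) (nat_lit 5) (nat_lit 63) (nat_lit 5) (nat_lit 357) (nat_lit 325) (nat_lit 179)) (XT.nd (nat_lit 94) (nat_lit 0) (nat_lit 0) (XT.lf (nat_lit 0) (nat_lit 7960225623) (nat_lit 420) (nat_lit 8424599576) (nat_lit 504) (nat_lit 7589420948) (nat_lit 57) (nat_lit 5) (nat_lit 62) (nat_lit 5) (nat_lit 63) (nat_lit 5) (nat_lit 358) (nat_lit 325)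 (nat_lit 178)) (XT.lf (nat_lit 0) (nat_lit 16522946618) (nat_lit 420) (nat_lit 1948472761) (nat_lit 504) (nat_lit 5993401404) (nat_lit 57) (nat_lit 5) (nat_lit 62) (nat_lit 5) (nat_lit 63) (nat_lit 5) (nat_lit 359) (nat_lit 325) (nat_lit 177)))))) (XT.nd (nat_lit 470) (nat_lit 336) (nat_lit 0) (XT.nd (nat_lit 188) (nat_lit 504) (nat_lit 0) (XT.nd (nat_lit 94) (nat_lit 0) (nat_lit 0) (XT.lf (nat_lit 0) (nat_lit 335089308) (nat_lit 336) (nat_lit 20332981261) (nat_lit 420) (nat_lit 4301150042) (nat_lit 53) (nat_lit 5) (nat_lit 57) (nat_lit 5) (nat_lit 58) (nat_lit 5) (nat_lit 360) (nat_lit 325) (nat_lit 176)) (XT.lf (nat_lit 0) (nat_lit 9011453173) (nat_lit 336) (nat_lit 14019224575) (nat_lit 420) (nat_lit 2455568642) (nat_lit 53) (nat_lit 5) (nat_lit 57) (nat_lit 5) (nat_lit 58) (nat_lit 5) (nat_lit 361) (nat_lit 325) (nat_lit 175))) (XT.nd (nat_lit 94) (nat_lit 504) (nat_lit 0) (XT.lf (nat_lit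 0) (nat_lit 17951730023) (nat_lit 336) (nat_lit 7510175345) (nat_lit 420) (nat_lit 557560344) (nat_lit 53) (nat_lit 5) (nat_lit 57) (nat_lit 5) (nat_lit 58) (nat_lit 5) (nat_lit 362) (nat_lit 325) (nat_lit 174)) (XT.nd (nat_lit 94) (nat_lit 0) (nat_lit 0) (XT.lf (nat_lit 0) (nat_lit 592989924) (nat_lit 420) (nat_lit 779437635) (nat_lit 504) (nat_lit 25196336789) (nat_lit 47) (nat_lit 5) (nat_lit 52) (nat_lit 5) (nat_lit 53) (nat_lit 5) (nat_lit 363) (nat_lit 325) (nat_lit 173)) (XT.lf (nat_lit 0) (nat_lit 3492376443) (nat_lit 504) (nat_lit 17512042294) (nat_lit 84) (nat_lit 6126123160) (nat_lit 47) (nat_lit 5) (nat_lit 53) (nat_lit 5) (nat_lit 48) (nat_lit 5) (nat_lit 364) (nat_lit 325) (nat_lit 172))))) (XT.nd (nat_lit 50384) (nat_lit 0) (nat_lit 4200) (XT.nd (nat_lit 94) (nat_lit 336) (nat_lit 0) (XT.lf (nat_lit 0) (nat_lit 5681683652) (nat_lit 504) (nat_lit 8798872399) (nat_lit 84) (nat_lit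 13229085587) (nat_lit 47) (nat_lit 5) (nat_lit 53) (nat_lit 5) (nat_lit 48) (nat_lit 5) (nat_lit 365) (nat_lit 325) (nat_lit 171)) (XT.lf (nat_lit 0) (nat_lit 183281684) (nat_lit 336) (nat_lit 7753194225) (nat_lit 420) (nat_lit 20370310775) (nat_lit 43) (nat_lit 5) (nat_lit 47) (nat_lit 5) (nat_lit 48) (nat_lit 5) (nat_lit 366) (nat_lit 325) (nat_lit 170))) (XT.nd (nat_lit 94) (nat_lit 0) (nat_lit 0) (XT.lf (nat_lit 0) (nat_lit 811256668) (nat_lit 1092) (nat_lit 3068949277) (nat_lit 1092) (nat_lit 3068949277) (nat_lit 93) (nat_lit 3) (nat_lit 106) (nat_lit 3) (nat_lit 106) (nat_lit 5) (nat_lit 326) (nat_lit 326) (nat_lit 209)) (XT.nd (nat_lit 94) (nat_lit 0) (nat_lit 84) (XT.lf (nat_lit 0) (nat_lit 1932202241) (nat_lit 1092) (nat_lit 1275480677) (nat_lit 1092) (nat_lit 10895653142) (nat_lit 93) (nat_lit 3) (nat_lit 106) (nat_lit 3) (nat_lit 106) (nat_lit 5) (nat_lit 327) (nat_lit 326) (nat_lit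 208)) (XT.lf (nat_lit 0) (nat_lit 2292990517) (nat_lit 1008) (nat_lit 10520687747) (nat_lit 1092) (nat_lit 1499816302) (nat_lit 94) (nat_lit 5) (nat_lit 106) (nat_lit 5) (nat_lit 107) (nat_lit 5) (nat_lit 328) (nat_lit 326) (nat_lit 207))))))))
noncomputable def xc109 : XT := (XT.nd (nat_lit 1786) (nat_lit 2772) (nat_lit 0) (XT.nd (nat_lit 846) (nat_lit 1176) (nat_lit 0) (XT.nd (nat_lit 376) (nat_lit 0) (nat_lit 84) (XT.nd (nat_lit 188) (nat_lit 0) (nat_lit 84) (XT.nd (nat_lit 94) (nat_lit 0) (nat_lit 0) (XT.lf (nat_lit 0) (nat_lit 2700093101) (nat_lit 1008) (nat_lit 5523790681) (nat_lit 1092) (nat_lit 6305256830) (nat_lit 94) (nat_lit 5) (nat_lit 106) (nat_lit 5) (nat_lit 107) (nat_lit 5) (nat_lit 329) (nat_lit 326) (nat_lit 206)) (XT.lf (nat_lit 0) (nat_lit 3109023676) (nat_lit 1008) (nat_lit 378142033) (nat_lit 1092) (nat_lit 11264700335) (nat_lit 94) (nat_lit 5) (nat_lit 106) (nat_lit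 5) (nat_lit 107) (nat_lit 5) (nat_lit 330) (nat_lit 326) (nat_lit 205))) (XT.nd (nat_lit 94) (nat_lit 0) (nat_lit 0) (XT.lf (nat_lit 0) (nat_lit 3584391233) (nat_lit 1008) (nat_lit 9972499118) (nat_lit 1092) (nat_lit 1422997051) (nat_lit 95) (nat_lit 5) (nat_lit 107) (nat_lit 5) (nat_lit 108) (nat_lit 5) (nat_lit 331) (nat_lit 326) (nat_lit 204)) (XT.lf (nat_lit 0) (nat_lit 4103979240) (nat_lit 1008) (nat_lit 4688996827) (nat_lit 1092) (nat_lit 6421143605) (nat_lit 95) (nat_lit 5) (nat_lit 107) (nat_lit 5) (nat_lit 108) (nat_lit 5) (nat_lit 332) (nat_lit 326) (nat_lit 203)))) (XT.nd (nat_lit 188) (nat_lit 0) (nat_lit 84) (XT.nd (nat_lit 94) (nat_lit 0) (nat_lit 84) (XT.lf (nat_lit 84) (nat_lit 767627776) (nat_lit 0) (nat_lit 3869798576) (nat_lit 1092) (nat_lit 10818311050) (nat_lit 96) (nat_lit 5) (nat_lit 95) (nat_lit 5) (nat_lit 108) (nat_lit 5) (nat_lit 333) (nat_lit 326) (nat_lit 202))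 (XT.lf (nat_lit 0) (nat_lit 5239226596) (nat_lit 1008) (nat_lit 9229437041) (nat_lit 1092) (nat_lit 1234628264) (nat_lit 96) (nat_lit 5) (nat_lit 108) (nat_lit 5) (nat_lit 109) (nat_lit 5) (nat_lit 334) (nat_lit 326) (nat_lit 201))) (XT.nd (nat_lit 94) (nat_lit 0) (nat_lit 0) (XT.lf (nat_lit 0) (nat_lit 5889958519) (nat_lit 1008) (nat_lit 3647387200) (nat_lit 1092) (nat_lit 6420287652) (nat_lit 96) (nat_lit 5) (nat_lit 108) (nat_lit 5) (nat_lit 109) (nat_lit 5) (nat_lit 335) (nat_lit 326) (nat_lit 200)) (XT.nd (nat_lit 94) (nat_lit 0) (nat_lit 84) (XT.lf (nat_lit 84) (nat_lit 2144845694) (nat_lit 0) (nat_lit 4428271232) (nat_lit 1092) (nat_lit 9646412425) (nat_lit 97) (nat_lit 5) (nat_lit 96) (nat_lit 5) (nat_lit 109) (nat_lit 5) (nat_lit 336) (nat_lit 326) (nat_lit 199)) (XT.lf (nat_lit 0) (nat_lit 7315454768) (nat_lit 1008) (nat_lit 8309479665) (nat_lit 1092) (nat_lit 863479918) (nat_lit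 97) (nat_lit 5) (nat_lit 109) (nat_lit 5) (nat_lit 110) (nat_lit 5) (nat_lit 337) (nat_lit 326) (nat_lit 198)))))) (XT.nd (nat_lit 470) (nat_lit 1428) (nat_lit 0) (XT.nd (nat_lit 188) (nat_lit 0) (nat_lit 84) (XT.nd (nat_lit 94) (nat_lit 0) (nat_lit 0) (XT.lf (nat_lit 0) (nat_lit 8117576084) (nat_lit 1008) (nat_lit 2417015927) (nat_lit 1092) (nat_lit 6229949715) (nat_lit 97) (nat_lit 5) (nat_lit 109) (nat_lit 5) (nat_lit 110) (nat_lit 5) (nat_lit 338) (nat_lit 326) (nat_lit 197)) (XT.lf (nat_lit 84) (nat_lit 3727224208) (nat_lit 0) (nat_lit 5246049852) (nat_lit 1092) (nat_lit 8075110385) (nat_lit 98) (nat_lit 5) (nat_lit 97) (nat_lit 5) (nat_lit 110) (nat_lit 5) (nat_lit 339) (nat_lit 326) (nat_lit 196))) (XT.nd (nat_lit 94) (nat_lit 0) (nat_lit 0) (XT.lf (nat_lit 0) (nat_lit 9874980668) (nat_lit 1008) (nat_lit 7235615178) (nat_lit 1092) (nat_lit 229870568) (nat_lit 98) (nat_lit 5) (nat_lit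 110) (nat_lit 5) (nat_lit 111) (nat_lit 5) (nat_lit 340) (nat_lit 326) (nat_lit 195)) (XT.nd (nat_lit 94) (nat_lit 0) (nat_lit 0) (XT.lf (nat_lit 0) (nat_lit 10850484447) (nat_lit 1008) (nat_lit 1021125660) (nat_lit 1092) (nat_lit 5768614385) (nat_lit 98) (nat_lit 5) (nat_lit 110) (nat_lit 5) (nat_lit 111) (nat_lit 5) (nat_lit 341) (nat_lit 326) (nat_lit 194)) (XT.lf (nat_lit 84) (nat_lit 5490769094) (nat_lit 0) (nat_lit 6412353220) (nat_lit 1092) (nat_lit 6044740516) (nat_lit 99) (nat_lit 5) (nat_lit 98) (nat_lit 5) (nat_lit 111) (nat_lit 5) (nat_lit 342) (nat_lit 326) (nat_lit 193))))) (XT.nd (nat_lit 188) (nat_lit 588) (nat_lit 0) (XT.nd (nat_lit 94) (nat_lit 924) (nat_lit 0) (XT.lf (nat_lit 84) (nat_lit 12220368653) (nat_lit 0) (nat_lit 771276258) (nat_lit 1092) (nat_lit 5273332415) (nat_lit 99) (nat_lit 5) (nat_lit 98) (nat_lit 5) (nat_lit 111) (nat_lit 5) (nat_lit 343) (nat_lit 326)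 (nat_lit 192)) (XT.lf (nat_lit 0) (nat_lit 521207261) (nat_lit 1008) (nat_lit 13640751183) (nat_lit 1092) (nat_lit 4428513477) (nat_lit 87) (nat_lit 5) (nat_lit 99) (nat_lit 5) (nat_lit 100) (nat_lit 5) (nat_lit 344) (nat_lit 326) (nat_lit 191))) (XT.nd (nat_lit 94) (nat_lit 588) (nat_lit 0) (XT.lf (nat_lit 0) (nat_lit 7404801807) (nat_lit 1008) (nat_lit 8027641635) (nat_lit 1092) (nat_lit 3491670593) (nat_lit 87) (nat_lit 5) (nat_lit 99) (nat_lit 5) (nat_lit 100) (nat_lit 5) (nat_lit 345) (nat_lit 326) (nat_lit 190)) (XT.nd (nat_lit 94) (nat_lit 588) (nat_lit 0) (XT.lf (nat_lit 0) (nat_lit 14496110123) (nat_lit 1008) (nat_lit 2239404076) (nat_lit 1092) (nat_lit 2532832324) (nat_lit 87) (nat_lit 5) (nat_lit 99) (nat_lit 5) (nat_lit 100) (nat_lit 5) (nat_lit 346) (nat_lit 326) (nat_lit 189)) (XT.lf (nat_lit 0) (nat_lit 2185284741) (nat_lit 588) (nat_lit 15945774548) (nat_lit 672) (nat_lit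 1490612062) (nat_lit 80) (nat_lit 5) (nat_lit 87) (nat_lit 5) (nat_lit 88) (nat_lit 5) (nat_lit 347) (nat_lit 326) (nat_lit 188))))))) (XT.nd (nat_lit 846) (nat_lit 1260) (nat_lit 0) (XT.nd (nat_lit 376) (nat_lit 924) (nat_lit 0) (XT.nd (nat_lit 188) (nat_lit 504) (nat_lit 0) (XT.nd (nat_lit 94) (nat_lit 84) (nat_lit 0) (XT.lf (nat_lit 0) (nat_lit 9430583683) (nat_lit 588) (nat_lit 10205324295) (nat_lit 672) (nat_lit 348028496) (nat_lit 80) (nat_lit 5) (nat_lit 87) (nat_lit 5) (nat_lit 88) (nat_lit 5) (nat_lit 348) (nat_lit 326) (nat_lit 187)) (XT.lf (nat_lit 0) (nat_lit 806907394) (nat_lit 672) (nat_lit 3470869434) (nat_lit 84) (nat_lit 16079628938) (nat_lit 79) (nat_lit 5) (nat_lit 87) (nat_lit 5) (nat_lit 80) (nat_lit 5) (nat_lit 349) (nat_lit 326) (nat_lit 186))) (XT.nd (nat_lit 94) (nat_lit 0) (nat_lit 0) (XT.lf (nat_lit 0) (nat_lit 2041584611) (nat_lit 588) (nat_lit 16859310766) (nat_lit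 84) (nat_lit 1839892184) (nat_lit 73) (nat_lit 5) (nat_lit 80) (nat_lit 5) (nat_lit 74) (nat_lit 5) (nat_lit 350) (nat_lit 326) (nat_lit 185)) (XT.lf (nat_lit 0) (nat_lit 3388869304) (nat_lit 588) (nat_lit 9649413760) (nat_lit 84) (nat_lit 8095497368) (nat_lit 73) (nat_lit 5) (nat_lit 80) (nat_lit 5) (nat_lit 74) (nat_lit 5) (nat_lit 351) (nat_lit 326) (nat_lit 184)))) (XT.nd (nat_lit 188) (nat_lit 420) (nat_lit 0) (XT.nd (nat_lit 94) (nat_lit 504) (nat_lit 0) (XT.lf (nat_lit 0) (nat_lit 4772082381) (nat_lit 588) (nat_lit 2221525852) (nat_lit 84) (nat_lit 14545558442) (nat_lit 73) (nat_lit 5) (nat_lit 80) (nat_lit 5) (nat_lit 74) (nat_lit 5) (nat_lit 352) (nat_lit 326) (nat_lit 183)) (XT.lf (nat_lit 0) (nat_lit 5542954710) (nat_lit 504) (nat_lit 704545226) (nat_lit 588) (nat_lit 15708119625) (nat_lit 67) (nat_lit 5) (nat_lit 73) (nat_lit 5) (nat_lit 74) (nat_lit 5) (nat_lit 353) (nat_lit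 326) (nat_lit 182))) (XT.nd (nat_lit 94) (nat_lit 420) (nat_lit 0) (XT.lf (nat_lit 0) (nat_lit 7843872161) (nat_lit 588) (nat_lit 8852102705) (nat_lit 84) (nat_lit 5686703777) (nat_lit 67) (nat_lit 5) (nat_lit 74) (nat_lit 5) (nat_lit 68) (nat_lit 5) (nat_lit 354) (nat_lit 326) (nat_lit 181)) (XT.nd (nat_lit 94) (nat_lit 420) (nat_lit 0) (XT.lf (nat_lit 0) (nat_lit 9491562641) (nat_lit 588) (nat_lit 1069701757) (nat_lit 84) (nat_lit 12261682445) (nat_lit 67) (nat_lit 5) (nat_lit 74) (nat_lit 5) (nat_lit 68) (nat_lit 5) (nat_lit 355) (nat_lit 326) (nat_lit 180)) (XT.lf (nat_lit 0) (nat_lit 7091662375) (nat_lit 420) (nat_lit 4163805812) (nat_lit 504) (nat_lit 12019402158) (nat_lit 62) (nat_lit 5) (nat_lit 67) (nat_lit 5) (nat_lit 68) (nat_lit 5) (nat_lit 356) (nat_lit 326) (nat_lit 179)))))) (XT.nd (nat_lit 470) (nat_lit 504) (nat_lit 0) (XT.nd (nat_lit 188) (nat_lit 756) (nat_lit 0) (XT.nd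 (nat_lit 94) (nat_lit 0) (nat_lit 0) (XT.lf (nat_lit 0) (nat_lit 13104352316) (nat_lit 504) (nat_lit 8241294832) (nat_lit 84) (nat_lit 2394242542) (nat_lit 62) (nat_lit 5) (nat_lit 68) (nat_lit 5) (nat_lit 63) (nat_lit 5) (nat_lit 357) (nat_lit 326) (nat_lit 178)) (XT.lf (nat_lit 0) (nat_lit 15048183705) (nat_lit 504) (nat_lit 100912570) (nat_lit 84) (nat_lit 9069086443) (nat_lit 62) (nat_lit 5) (nat_lit 68) (nat_lit 5) (nat_lit 63) (nat_lit 5) (nat_lit 358) (nat_lit 326) (nat_lit 177))) (XT.nd (nat_lit 94) (nat_lit 336) (nat_lit 0) (XT.lf (nat_lit 0) (nat_lit 8457226234) (nat_lit 420) (nat_lit 8674139237) (nat_lit 504) (nat_lit 7577509449) (nat_lit 57) (nat_lit 5) (nat_lit 62) (nat_lit 5) (nat_lit 63) (nat_lit 5) (nat_lit 359) (nat_lit 326) (nat_lit 176)) (XT.nd (nat_lit 94) (nat_lit 336) (nat_lit 0) (XT.lf (nat_lit 0) (nat_lit 17277867581) (nat_lit 420) (nat_lit 1997601967) (nat_lit 504)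 (nat_lit 5939445588) (nat_lit 57) (nat_lit 5) (nat_lit 62) (nat_lit 5) (nat_lit 63) (nat_lit 5) (nat_lit 360) (nat_lit 326) (nat_lit 175)) (XT.lf (nat_lit 0) (nat_lit 593849683) (nat_lit 336) (nat_lit 20941980801) (nat_lit 420) (nat_lit 4199291148) (nat_lit 53) (nat_lit 5) (nat_lit 57) (nat_lit 5) (nat_lit 58) (nat_lit 5) (nat_lit 361) (nat_lit 326) (nat_lit 174))))) (XT.nd (nat_lit 188) (nat_lit 504) (nat_lit 0) (XT.nd (nat_lit 94) (nat_lit 0) (nat_lit 0) (XT.lf (nat_lit 0) (nat_lit 9531712787) (nat_lit 336) (nat_lit 14433138792) (nat_lit 420) (nat_lit 2303568530) (nat_lit 53) (nat_lit 5) (nat_lit 57) (nat_lit 5) (nat_lit 58) (nat_lit 5) (nat_lit 362) (nat_lit 326) (nat_lit 173)) (XT.lf (nat_lit 0) (nat_lit 18741894727) (nat_lit 336) (nat_lit 7722930892) (nat_lit 420) (nat_lit 353581145) (nat_lit 53) (nat_lit 5) (nat_lit 57) (nat_lit 5) (nat_lit 58) (nat_lit 5) (nat_lit 363) (nat_lit 326)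 (nat_lit 172))) (XT.nd (nat_lit 94) (nat_lit 0) (nat_lit 0) (XT.lf (nat_lit 0) (nat_lit 848080146) (nat_lit 420) (nat_lit 779527549) (nat_lit 504) (nat_lit 25757217564) (nat_lit 47) (nat_lit 5) (nat_lit 52) (nat_lit 5) (nat_lit 53) (nat_lit 5) (nat_lit 364) (nat_lit 326) (nat_lit 171)) (XT.nd (nat_lit 94) (nat_lit 0) (nat_lit 0) (XT.lf (nat_lit 0) (nat_lit 3807113134) (nat_lit 504) (nat_lit 17818213845) (nat_lit 84) (nat_lit 6338911390) (nat_lit 47) (nat_lit 5) (nat_lit 53) (nat_lit 5) (nat_lit 48) (nat_lit 5) (nat_lit 365) (nat_lit 326) (nat_lit 170)) (XT.lf (nat_lit 0) (nat_lit 6058080658) (nat_lit 504) (nat_lit 8842052806) (nat_lit 84) (nat_lit 13661377747) (nat_lit 47) (nat_lit 5) (nat_lit 53) (nat_lit 5) (nat_lit 48) (nat_lit 5) (nat_lit 366) (nat_lit 326) (nat_lit 169))))))))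
noncomputable def xc110 : XT := (XT.nd (nat_lit 1692) (nat_lit 3360) (nat_lit 0) (XT.nd (nat_lit 846) (nat_lit 0) (nat_lit 252) (XT.nd (nat_lit 376) (nat_lit 0) (nat_lit 84) (XT.nd (nat_lit 188) (nat_lit 0) (nat_lit 84) (XT.nd (nat_lit 94) (nat_lit 0) (nat_lit 0) (XT.lf (nat_lit 0) (nat_lit 1118122902) (nat_lit 1092) (nat_lit 3018080544) (nat_lit 1092) (nat_lit 3018080544) (nat_lit 93) (nat_lit 3) (nat_lit 106) (nat_lit 3) (nat_lit 106) (nat_lit 5) (nat_lit 327) (nat_lit 327) (nat_lit 207)) (XT.lf (nat_lit 0) (nat_lit 2538593775) (nat_lit 1092) (nat_lit 1031788452) (nat_lit 1092) (nat_lit 10950186264) (nat_lit 93) (nat_lit 3) (nat_lit 106) (nat_lit 3) (nat_lit 106) (nat_lit 5) (nat_lit 328) (nat_lit 327) (nat_lit 206))) (XT.nd (nat_lit 94) (nat_lit 0) (nat_lit 0) (XT.lf (nat_lit 0) (nat_lit 2894411224) (nat_lit 1008) (nat_lit 10544503080) (nat_lit 1092) (nat_lit 1298919516) (nat_lit 94)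 (nat_lit 5) (nat_lit 106) (nat_lit 5) (nat_lit 107) (nat_lit 5) (nat_lit 329) (nat_lit 327) (nat_lit 205)) (XT.lf (nat_lit 0) (nat_lit 3298187841) (nat_lit 1008) (nat_lit 5401792511) (nat_lit 1092) (nat_lit 6260767230) (nat_lit 94) (nat_lit 5) (nat_lit 106) (nat_lit 5) (nat_lit 107) (nat_lit 5) (nat_lit 330) (nat_lit 327) (nat_lit 204)))) (XT.nd (nat_lit 188) (nat_lit 0) (nat_lit 84) (XT.nd (nat_lit 94) (nat_lit 0) (nat_lit 84) (XT.lf (nat_lit 0) (nat_lit 3704328583) (nat_lit 1008) (nat_lit 105445734) (nat_lit 1092) (nat_lit 11381168353) (nat_lit 94) (nat_lit 5) (nat_lit 106) (nat_lit 5) (nat_lit 107) (nat_lit 5) (nat_lit 331) (nat_lit 327) (nat_lit 203)) (XT.lf (nat_lit 0) (nat_lit 4180188425) (nat_lit 1008) (nat_lit 9980302363) (nat_lit 1092) (nat_lit 1266066593) (nat_lit 95) (nat_lit 5) (nat_lit 107) (nat_lit 5) (nat_lit 108) (nat_lit 5) (nat_lit 332) (nat_lit 327) (nat_lit 202))) (XT.nd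 (nat_lit 94) (nat_lit 0) (nat_lit 0) (XT.lf (nat_lit 0) (nat_lit 4701310321) (nat_lit 1008) (nat_lit 4542072287) (nat_lit 1092) (nat_lit 6425200642) (nat_lit 95) (nat_lit 5) (nat_lit 107) (nat_lit 5) (nat_lit 108) (nat_lit 5) (nat_lit 333) (nat_lit 327) (nat_lit 201)) (XT.nd (nat_lit 94) (nat_lit 0) (nat_lit 84) (XT.lf (nat_lit 84) (nat_lit 1080748570) (nat_lit 0) (nat_lit 4159280706) (nat_lit 1092) (nat_lit 10678089269) (nat_lit 96) (nat_lit 5) (nat_lit 95) (nat_lit 5) (nat_lit 108) (nat_lit 5) (nat_lit 334) (nat_lit 327) (nat_lit 200)) (XT.lf (nat_lit 0) (nat_lit 5845057813) (nat_lit 1008) (nat_lit 9217050372) (nat_lit 1092) (nat_lit 1111793150) (nat_lit 96) (nat_lit 5) (nat_lit 108) (nat_lit 5) (nat_lit 109) (nat_lit 5) (nat_lit 335) (nat_lit 327) (nat_lit 199)))))) (XT.nd (nat_lit 376) (nat_lit 0) (nat_lit 84) (XT.nd (nat_lit 188) (nat_lit 0) (nat_lit 84) (XT.nd (nat_lit 94) (nat_lit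 0) (nat_lit 0) (XT.lf (nat_lit 0) (nat_lit 6502629865) (nat_lit 1008) (nat_lit 3470932229) (nat_lit 1092) (nat_lit 6463052176) (nat_lit 96) (nat_lit 5) (nat_lit 108) (nat_lit 5) (nat_lit 109) (nat_lit 5) (nat_lit 336) (nat_lit 327) (nat_lit 198)) (XT.lf (nat_lit 84) (nat_lit 2497928714) (nat_lit 0) (nat_lit 4698948824) (nat_lit 1092) (nat_lit 9510135590) (nat_lit 97) (nat_lit 5) (nat_lit 96) (nat_lit 5) (nat_lit 109) (nat_lit 5) (nat_lit 337) (nat_lit 327) (nat_lit 197))) (XT.nd (nat_lit 94) (nat_lit 0) (nat_lit 0) (XT.lf (nat_lit 0) (nat_lit 7948315954) (nat_lit 1008) (nat_lit 8272953464) (nat_lit 1092) (nat_lit 763464625) (nat_lit 97) (nat_lit 5) (nat_lit 109) (nat_lit 5) (nat_lit 110) (nat_lit 5) (nat_lit 338) (nat_lit 327) (nat_lit 196)) (XT.lf (nat_lit 0) (nat_lit 8763092996) (nat_lit 1008) (nat_lit 2206666923) (nat_lit 1092) (nat_lit 6300107090) (nat_lit 97) (nat_lit 5) (nat_lit 109)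 (nat_lit 5) (nat_lit 110) (nat_lit 5) (nat_lit 339) (nat_lit 327) (nat_lit 195)))) (XT.nd (nat_lit 188) (nat_lit 0) (nat_lit 84) (XT.nd (nat_lit 94) (nat_lit 0) (nat_lit 84) (XT.lf (nat_lit 84) (nat_lit 4125156489) (nat_lit 0) (nat_lit 5511119545) (nat_lit 1092) (nat_lit 7926578219) (nat_lit 98) (nat_lit 5) (nat_lit 97) (nat_lit 5) (nat_lit 110) (nat_lit 5) (nat_lit 340) (nat_lit 327) (nat_lit 194)) (XT.lf (nat_lit 0) (nat_lit 10553378821) (nat_lit 1008) (nat_lit 7171427804) (nat_lit 1092) (nat_lit 139636549) (nat_lit 98) (nat_lit 5) (nat_lit 110) (nat_lit 5) (nat_lit 111) (nat_lit 5) (nat_lit 341) (nat_lit 327) (nat_lit 193))) (XT.nd (nat_lit 94) (nat_lit 0) (nat_lit 0) (XT.lf (nat_lit 0) (nat_lit 11547929729) (nat_lit 1008) (nat_lit 772963441) (nat_lit 1092) (nat_lit 5853008835) (nat_lit 98) (nat_lit 5) (nat_lit 110) (nat_lit 5) (nat_lit 111) (nat_lit 5) (nat_lit 342) (nat_lit 327) (nat_lit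 192)) (XT.nd (nat_lit 94) (nat_lit 0) (nat_lit 0) (XT.lf (nat_lit 84) (nat_lit 5937967154) (nat_lit 0) (nat_lit 6687123010) (nat_lit 1092) (nat_lit 5866297766) (nat_lit 99) (nat_lit 5) (nat_lit 98) (nat_lit 5) (nat_lit 111) (nat_lit 5) (nat_lit 343) (nat_lit 327) (nat_lit 191)) (XT.lf (nat_lit 84) (nat_lit 12867855966) (nat_lit 0) (nat_lit 868887898) (nat_lit 1092) (nat_lit 5081975743) (nat_lit 99) (nat_lit 5) (nat_lit 98) (nat_lit 5) (nat_lit 111) (nat_lit 5) (nat_lit 344) (nat_lit 327) (nat_lit 190))))))) (XT.nd (nat_lit 846) (nat_lit 1680) (nat_lit 0) (XT.nd (nat_lit 376) (nat_lit 588) (nat_lit 0) (XT.nd (nat_lit 188) (nat_lit 588) (nat_lit 0) (XT.nd (nat_lit 94) (nat_lit 0) (nat_lit 0) (XT.lf (nat_lit 0) (nat_lit 816370151) (nat_lit 1008) (nat_lit 14118731602) (nat_lit 1092) (nat_lit 4219513973) (nat_lit 87) (nat_lit 5) (nat_lit 99) (nat_lit 5) (nat_lit 100) (nat_lit 5) (nat_lit 345)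 (nat_lit 327) (nat_lit 189)) (XT.lf (nat_lit 0) (nat_lit 7904967021) (nat_lit 1008) (nat_lit 8329958401) (nat_lit 1092) (nat_lit 3264040973) (nat_lit 87) (nat_lit 5) (nat_lit 99) (nat_lit 5) (nat_lit 100) (nat_lit 5) (nat_lit 346) (nat_lit 327) (nat_lit 188))) (XT.nd (nat_lit 94) (nat_lit 588) (nat_lit 0) (XT.lf (nat_lit 0) (nat_lit 15207969030) (nat_lit 1008) (nat_lit 2360678052) (nat_lit 1092) (nat_lit 2285577664) (nat_lit 87) (nat_lit 5) (nat_lit 99) (nat_lit 5) (nat_lit 100) (nat_lit 5) (nat_lit 347) (nat_lit 327) (nat_lit 187)) (XT.lf (nat_lit 0) (nat_lit 2524684561) (nat_lit 588) (nat_lit 16475514154) (nat_lit 672) (nat_lit 1218579847) (nat_lit 80) (nat_lit 5) (nat_lit 87) (nat_lit 5) (nat_lit 88) (nat_lit 5) (nat_lit 348) (nat_lit 327) (nat_lit 186)))) (XT.nd (nat_lit 188) (nat_lit 504) (nat_lit 0) (XT.nd (nat_lit 94) (nat_lit 84) (nat_lit 0) (XT.lf (nat_lit 0) (nat_lit 9986419647)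 (nat_lit 588) (nat_lit 10556044920) (nat_lit 672) (nat_lit 50145033) (nat_lit 80) (nat_lit 5) (nat_lit 87) (nat_lit 5) (nat_lit 88) (nat_lit 5) (nat_lit 349) (nat_lit 327) (nat_lit 185)) (XT.lf (nat_lit 0) (nat_lit 1125280676) (nat_lit 672) (nat_lit 3315367739) (nat_lit 84) (nat_lit 16537241558) (nat_lit 79) (nat_lit 5) (nat_lit 87) (nat_lit 5) (nat_lit 80) (nat_lit 5) (nat_lit 350) (nat_lit 327) (nat_lit 184))) (XT.nd (nat_lit 94) (nat_lit 0) (nat_lit 0) (XT.lf (nat_lit 0) (nat_lit 2391731003) (nat_lit 588) (nat_lit 17110892769) (nat_lit 84) (nat_lit 1870779527) (nat_lit 73) (nat_lit 5) (nat_lit 80) (nat_lit 5) (nat_lit 74) (nat_lit 5) (nat_lit 351) (nat_lit 327) (nat_lit 183)) (XT.nd (nat_lit 94) (nat_lit 0) (nat_lit 0) (XT.lf (nat_lit 0) (nat_lit 3772156328) (nat_lit 588) (nat_lit 9685639058) (nat_lit 84) (nat_lit 8321094727) (nat_lit 73) (nat_lit 5) (nat_lit 80) (nat_lit 5) (nat_lit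 74) (nat_lit 5) (nat_lit 352) (nat_lit 327) (nat_lit 182)) (XT.lf (nat_lit 0) (nat_lit 5189883157) (nat_lit 588) (nat_lit 2035391672) (nat_lit 84) (nat_lit 14971870308) (nat_lit 73) (nat_lit 5) (nat_lit 80) (nat_lit 5) (nat_lit 74) (nat_lit 5) (nat_lit 353) (nat_lit 327) (nat_lit 181)))))) (XT.nd (nat_lit 470) (nat_lit 756) (nat_lit 0) (XT.nd (nat_lit 188) (nat_lit 420) (nat_lit 0) (XT.nd (nat_lit 94) (nat_lit 0) (nat_lit 0) (XT.lf (nat_lit 0) (nat_lit 5967206127) (nat_lit 504) (nat_lit 738222255) (nat_lit 588) (nat_lit 15921294786) (nat_lit 67) (nat_lit 5) (nat_lit 73) (nat_lit 5) (nat_lit 74) (nat_lit 5) (nat_lit 354) (nat_lit 327) (nat_lit 180)) (XT.lf (nat_lit 0) (nat_lit 8343228642) (nat_lit 588) (nat_lit 8872339582) (nat_lit 84) (nat_lit 5851742655) (nat_lit 67) (nat_lit 5) (nat_lit 74) (nat_lit 5) (nat_lit 68) (nat_lit 5) (nat_lit 355) (nat_lit 327) (nat_lit 179))) (XT.nd (nat_lit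 94) (nat_lit 420) (nat_lit 0) (XT.lf (nat_lit 0) (nat_lit 10034294238) (nat_lit 588) (nat_lit 856326811) (nat_lit 84) (nat_lit 12630883894) (nat_lit 67) (nat_lit 5) (nat_lit 74) (nat_lit 5) (nat_lit 68) (nat_lit 5) (nat_lit 356) (nat_lit 327) (nat_lit 178)) (XT.nd (nat_lit 94) (nat_lit 0) (nat_lit 0) (XT.lf (nat_lit 0) (nat_lit 7555543657) (nat_lit 420) (nat_lit 4292286438) (nat_lit 504) (nat_lit 12139802136) (nat_lit 62) (nat_lit 5) (nat_lit 67) (nat_lit 5) (nat_lit 68) (nat_lit 5) (nat_lit 357) (nat_lit 327) (nat_lit 177)) (XT.lf (nat_lit 0) (nat_lit 13746715579) (nat_lit 504) (nat_lit 8251583005) (nat_lit 84) (nat_lit 2469031780) (nat_lit 62) (nat_lit 5) (nat_lit 68) (nat_lit 5) (nat_lit 63) (nat_lit 5) (nat_lit 358) (nat_lit 327) (nat_lit 176))))) (XT.nd (nat_lit 188) (nat_lit 336) (nat_lit 0) (XT.nd (nat_lit 94) (nat_lit 0) (nat_lit 0) (XT.lf (nat_lit 0) (nat_lit 136529464) (nat_lit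 420) (nat_lit 15608530783) (nat_lit 504) (nat_lit 9215603697) (nat_lit 57) (nat_lit 5) (nat_lit 62) (nat_lit 5) (nat_lit 63) (nat_lit 5) (nat_lit 359) (nat_lit 327) (nat_lit 175)) (XT.lf (nat_lit 0) (nat_lit 8954812098) (nat_lit 420) (nat_lit 8932103072) (nat_lit 504) (nat_lit 7579869799) (nat_lit 57) (nat_lit 5) (nat_lit 62) (nat_lit 5) (nat_lit 63) (nat_lit 5) (nat_lit 360) (nat_lit 327) (nat_lit 174))) (XT.nd (nat_lit 94) (nat_lit 336) (nat_lit 0) (XT.lf (nat_lit 0) (nat_lit 18041814987) (nat_lit 420) (nat_lit 2048921924) (nat_lit 504) (nat_lit 5898018020) (nat_lit 57) (nat_lit 5) (nat_lit 62) (nat_lit 5) (nat_lit 63) (nat_lit 5) (nat_lit 361) (nat_lit 327) (nat_lit 173)) (XT.nd (nat_lit 94) (nat_lit 0) (nat_lit 0) (XT.lf (nat_lit 0) (nat_lit 845920096) (nat_lit 336) (nat_lit 21571122318) (nat_lit 420) (nat_lit 4108205605) (nat_lit 53) (nat_lit 5) (nat_lit 57) (nat_lit 5) (nat_lit 58)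 (nat_lit 5) (nat_lit 362) (nat_lit 327) (nat_lit 172)) (XT.lf (nat_lit 0) (nat_lit 10053831259) (nat_lit 336) (nat_lit 14861109365) (nat_lit 420) (nat_lit 2160368515) (nat_lit 53) (nat_lit 5) (nat_lit 57) (nat_lit 5) (nat_lit 58) (nat_lit 5) (nat_lit 363) (nat_lit 327) (nat_lit 171))))))))
noncomputable def xc111 : XT := (XT.nd (nat_lit 52170) (nat_lit 0) (nat_lit 840) (XT.nd (nat_lit 51230) (nat_lit 0) (nat_lit 4032) (XT.nd (nat_lit 50760) (nat_lit 0) (nat_lit 3864) (XT.nd (nat_lit 188) (nat_lit 0) (nat_lit 0) (XT.nd (nat_lit 94) (nat_lit 504) (nat_lit 0) (XT.lf (nat_lit 0) (nat_lit 19542714390) (nat_lit 336) (nat_lit 7943470043) (nat_lit 420) (nat_lit 156384412) (nat_lit 53) (nat_lit 5) (nat_lit 57) (nat_lit 5) (nat_lit 58) (nat_lit 5) (nat_lit 364) (nat_lit 327) (nat_lit 170)) (XT.lf (nat_lit 0) (nat_lit 1097057572) (nat_lit 420) (nat_lit 781046114) (nat_lit 504) (nat_lit 26348528802)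 (nat_lit 47) (nat_lit 5) (nat_lit 52) (nat_lit 5) (nat_lit 53) (nat_lit 5) (nat_lit 365) (nat_lit 327) (nat_lit 169))) (XT.nd (nat_lit 50478) (nat_lit 0) (nat_lit 3864) (XT.lf (nat_lit 0) (nat_lit 4119376912) (nat_lit 504) (nat_lit 18147896965) (nat_lit 84) (nat_lit 6556940927) (nat_lit 47) (nat_lit 5) (nat_lit 53) (nat_lit 5) (nat_lit 48) (nat_lit 5) (nat_lit 366) (nat_lit 327) (nat_lit 168)) (XT.lf (nat_lit 0) (nat_lit 1417815392) (nat_lit 1092) (nat_lit 2974283075) (nat_lit 1092) (nat_lit 2974283075) (nat_lit 93) (nat_lit 3) (nat_lit 106) (nat_lit 3) (nat_lit 106) (nat_lit 5) (nat_lit 328) (nat_lit 328) (nat_lit 205)))) (XT.nd (nat_lit 188) (nat_lit 0) (nat_lit 84) (XT.nd (nat_lit 94) (nat_lit 0) (nat_lit 84) (XT.lf (nat_lit 0) (nat_lit 3131413714) (nat_lit 1092) (nat_lit 797318093) (nat_lit 1092) (nat_lit 11023186236) (nat_lit 93) (nat_lit 3) (nat_lit 106) (nat_lit 3) (nat_lit 106) (nat_lit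 5) (nat_lit 329) (nat_lit 328) (nat_lit 204)) (XT.lf (nat_lit 0) (nat_lit 3483063145) (nat_lit 1008) (nat_lit 10586963974) (nat_lit 1092) (nat_lit 1106448328) (nat_lit 94) (nat_lit 5) (nat_lit 106) (nat_lit 5) (nat_lit 107) (nat_lit 5) (nat_lit 330) (nat_lit 328) (nat_lit 203))) (XT.nd (nat_lit 94) (nat_lit 0) (nat_lit 0) (XT.lf (nat_lit 0) (nat_lit 3884355207) (nat_lit 1008) (nat_lit 5293381250) (nat_lit 1092) (nat_lit 6229111254) (nat_lit 94) (nat_lit 5) (nat_lit 106) (nat_lit 5) (nat_lit 107) (nat_lit 5) (nat_lit 331) (nat_lit 328) (nat_lit 202)) (XT.nd (nat_lit 94) (nat_lit 0) (nat_lit 84) (XT.lf (nat_lit 84) (nat_lit 162123978) (nat_lit 0) (nat_lit 4128020061) (nat_lit 1092) (nat_lit 11354516642) (nat_lit 95) (nat_lit 5) (nat_lit 94) (nat_lit 5) (nat_lit 107) (nat_lit 5) (nat_lit 332) (nat_lit 328) (nat_lit 201)) (XT.lf (nat_lit 0) (nat_lit 4765746840) (nat_lit 1008) (nat_lit 10006196643)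 (nat_lit 1092) (nat_lit 1116179435) (nat_lit 95) (nat_lit 5) (nat_lit 107) (nat_lit 5) (nat_lit 108) (nat_lit 5) (nat_lit 333) (nat_lit 328) (nat_lit 200)))))) (XT.nd (nat_lit 470) (nat_lit 0) (nat_lit 168) (XT.nd (nat_lit 188) (nat_lit 0) (nat_lit 84) (XT.nd (nat_lit 94) (nat_lit 0) (nat_lit 0) (XT.lf (nat_lit 0) (nat_lit 5289313380) (nat_lit 1008) (nat_lit 4407905536) (nat_lit 1092) (nat_lit 6440933537) (nat_lit 95) (nat_lit 5) (nat_lit 107) (nat_lit 5) (nat_lit 108) (nat_lit 5) (nat_lit 334) (nat_lit 328) (nat_lit 199)) (XT.lf (nat_lit 84) (nat_lit 1386438934) (nat_lit 0) (nat_lit 4447695918) (nat_lit 1092) (nat_lit 10561690588) (nat_lit 96) (nat_lit 5) (nat_lit 95) (nat_lit 5) (nat_lit 108) (nat_lit 5) (nat_lit 335) (nat_lit 328) (nat_lit 198))) (XT.nd (nat_lit 94) (nat_lit 0) (nat_lit 0) (XT.lf (nat_lit 0) (nat_lit 6443405558) (nat_lit 1008) (nat_lit 9221960336) (nat_lit 1092) (nat_lit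 994692885) (nat_lit 96) (nat_lit 5) (nat_lit 108) (nat_lit 5) (nat_lit 109) (nat_lit 5) (nat_lit 336) (nat_lit 328) (nat_lit 197)) (XT.nd (nat_lit 94) (nat_lit 0) (nat_lit 0) (XT.lf (nat_lit 0) (nat_lit 7108819492) (nat_lit 1008) (nat_lit 3306156155) (nat_lit 1092) (nat_lit 6516398207) (nat_lit 96) (nat_lit 5) (nat_lit 108) (nat_lit 5) (nat_lit 109) (nat_lit 5) (nat_lit 337) (nat_lit 328) (nat_lit 196)) (XT.lf (nat_lit 84) (nat_lit 2844981926) (nat_lit 0) (nat_lit 4970115842) (nat_lit 1092) (nat_lit 9395418662) (nat_lit 97) (nat_lit 5) (nat_lit 96) (nat_lit 5) (nat_lit 109) (nat_lit 5) (nat_lit 338) (nat_lit 328) (nat_lit 195))))) (XT.nd (nat_lit 188) (nat_lit 0) (nat_lit 0) (XT.nd (nat_lit 94) (nat_lit 0) (nat_lit 0) (XT.lf (nat_lit 0) (nat_lit 8576742898) (nat_lit 1008) (nat_lit 8252716187) (nat_lit 1092) (nat_lit 667858443) (nat_lit 97) (nat_lit 5) (nat_lit 109) (nat_lit 5) (nat_lit 110)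 (nat_lit 5) (nat_lit 339) (nat_lit 328) (nat_lit 194)) (XT.lf (nat_lit 0) (nat_lit 9405291217) (nat_lit 1008) (nat_lit 2006694514) (nat_lit 1092) (nat_lit 6379723130) (nat_lit 97) (nat_lit 5) (nat_lit 109) (nat_lit 5) (nat_lit 110) (nat_lit 5) (nat_lit 340) (nat_lit 328) (nat_lit 193))) (XT.nd (nat_lit 94) (nat_lit 0) (nat_lit 84) (XT.lf (nat_lit 84) (nat_lit 4518698326) (nat_lit 0) (nat_lit 5778338574) (nat_lit 1092) (nat_lit 7797066751) (nat_lit 98) (nat_lit 5) (nat_lit 97) (nat_lit 5) (nat_lit 110) (nat_lit 5) (nat_lit 341) (nat_lit 328) (nat_lit 192)) (XT.nd (nat_lit 94) (nat_lit 0) (nat_lit 0) (XT.lf (nat_lit 0) (nat_lit 11230756905) (nat_lit 1008) (nat_lit 7122338463) (nat_lit 1092) (nat_lit 52372076) (nat_lit 98) (nat_lit 5) (nat_lit 110) (nat_lit 5) (nat_lit 111) (nat_lit 5) (nat_lit 342) (nat_lit 328) (nat_lit 191)) (XT.lf (nat_lit 0) (nat_lit 12245608412) (nat_lit 1008) (nat_lit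 533682240) (nat_lit 1092) (nat_lit 5945612918) (nat_lit 98) (nat_lit 5) (nat_lit 110) (nat_lit 5) (nat_lit 111) (nat_lit 5) (nat_lit 343) (nat_lit 328) (nat_lit 190))))))) (XT.nd (nat_lit 846) (nat_lit 1344) (nat_lit 0) (XT.nd (nat_lit 376) (nat_lit 1176) (nat_lit 0) (XT.nd (nat_lit 188) (nat_lit 924) (nat_lit 0) (XT.nd (nat_lit 94) (nat_lit 0) (nat_lit 0) (XT.lf (nat_lit 84) (nat_lit 6382622104) (nat_lit 0) (nat_lit 6965909834) (nat_lit 1092) (nat_lit 5703992011) (nat_lit 99) (nat_lit 5) (nat_lit 98) (nat_lit 5) (nat_lit 111) (nat_lit 5) (nat_lit 344) (nat_lit 328) (nat_lit 189)) (XT.lf (nat_lit 84) (nat_lit 13519502438) (nat_lit 0) (nat_lit 965159999) (nat_lit 1092) (nat_lit 4905704201) (nat_lit 99) (nat_lit 5) (nat_lit 98) (nat_lit 5) (nat_lit 111) (nat_lit 5) (nat_lit 345) (nat_lit 328) (nat_lit 188))) (XT.nd (nat_lit 94) (nat_lit 0) (nat_lit 0) (XT.lf (nat_lit 0) (nat_lit 1104157119)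 (nat_lit 1008) (nat_lit 14608264731) (nat_lit 1092) (nat_lit 4024546444) (nat_lit 87) (nat_lit 5) (nat_lit 99) (nat_lit 5) (nat_lit 100) (nat_lit 5) (nat_lit 346) (nat_lit 328) (nat_lit 187)) (XT.lf (nat_lit 0) (nat_lit 8404608286) (nat_lit 1008) (nat_lit 8638480467) (nat_lit 1092) (nat_lit 3049249074) (nat_lit 87) (nat_lit 5) (nat_lit 99) (nat_lit 5) (nat_lit 100) (nat_lit 5) (nat_lit 347) (nat_lit 328) (nat_lit 186)))) (XT.nd (nat_lit 188) (nat_lit 588) (nat_lit 0) (XT.nd (nat_lit 94) (nat_lit 588) (nat_lit 0) (XT.lf (nat_lit 0) (nat_lit 15926348453) (nat_lit 1008) (nat_lit 2482640213) (nat_lit 1092) (nat_lit 2049954170) (nat_lit 87) (nat_lit 5) (nat_lit 99) (nat_lit 5) (nat_lit 100) (nat_lit 5) (nat_lit 348) (nat_lit 328) (nat_lit 185)) (XT.lf (nat_lit 0) (nat_lit 2858515126) (nat_lit 588) (nat_lit 17019577666) (nat_lit 672) (nat_lit 956964604) (nat_lit 80) (nat_lit 5) (nat_lit 87) (nat_lit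 5) (nat_lit 88) (nat_lit 5) (nat_lit 349) (nat_lit 328) (nat_lit 184))) (XT.nd (nat_lit 94) (nat_lit 504) (nat_lit 0) (XT.lf (nat_lit 0) (nat_lit 233880560) (nat_lit 672) (nat_lit 10679281152) (nat_lit 84) (nat_lit 10307557893) (nat_lit 79) (nat_lit 5) (nat_lit 87) (nat_lit 5) (nat_lit 80) (nat_lit 5) (nat_lit 350) (nat_lit 328) (nat_lit 183)) (XT.nd (nat_lit 94) (nat_lit 504) (nat_lit 0) (XT.lf (nat_lit 0) (nat_lit 1436147365) (nat_lit 672) (nat_lit 3170629275) (nat_lit 84) (nat_lit 17011460133) (nat_lit 79) (nat_lit 5) (nat_lit 87) (nat_lit 5) (nat_lit 80) (nat_lit 5) (nat_lit 351) (nat_lit 328) (nat_lit 182)) (XT.lf (nat_lit 0) (nat_lit 2735740886) (nat_lit 588) (nat_lit 17386328963) (nat_lit 84) (nat_lit 1904173248) (nat_lit 73) (nat_lit 5) (nat_lit 80) (nat_lit 5) (nat_lit 74) (nat_lit 5) (nat_lit 352) (nat_lit 328) (nat_lit 181)))))) (XT.nd (nat_lit 470) (nat_lit 840) (nat_lit 0) (XT.nd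 (nat_lit 188) (nat_lit 504) (nat_lit 0) (XT.nd (nat_lit 94) (nat_lit 0) (nat_lit 0) (XT.lf (nat_lit 0) (nat_lit 4150845087) (nat_lit 588) (nat_lit 9738559745) (nat_lit 84) (nat_lit 8555187902) (nat_lit 73) (nat_lit 5) (nat_lit 80) (nat_lit 5) (nat_lit 74) (nat_lit 5) (nat_lit 353) (nat_lit 328) (nat_lit 180)) (XT.lf (nat_lit 0) (nat_lit 5604651119) (nat_lit 588) (nat_lit 1858591506) (nat_lit 84) (nat_lit 15412854969) (nat_lit 73) (nat_lit 5) (nat_lit 80) (nat_lit 5) (nat_lit 74) (nat_lit 5) (nat_lit 354) (nat_lit 328) (nat_lit 179))) (XT.nd (nat_lit 94) (nat_lit 0) (nat_lit 0) (XT.lf (nat_lit 0) (nat_lit 6389658080) (nat_lit 504) (nat_lit 772242199) (nat_lit 588) (nat_lit 16157294632) (nat_lit 67) (nat_lit 5) (nat_lit 73) (nat_lit 5) (nat_lit 74) (nat_lit 5) (nat_lit 355) (nat_lit 328) (nat_lit 178)) (XT.nd (nat_lit 94) (nat_lit 0) (nat_lit 0) (XT.lf (nat_lit 0) (nat_lit 8842890219) (nat_lit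 588) (nat_lit 8908259218) (nat_lit 84) (nat_lit 6022564032) (nat_lit 67) (nat_lit 5) (nat_lit 74) (nat_lit 5) (nat_lit 68) (nat_lit 5) (nat_lit 356) (nat_lit 328) (nat_lit 177)) (XT.lf (nat_lit 0) (nat_lit 10579131840) (nat_lit 588) (nat_lit 650939973) (nat_lit 84) (nat_lit 13012176848) (nat_lit 67) (nat_lit 5) (nat_lit 74) (nat_lit 5) (nat_lit 68) (nat_lit 5) (nat_lit 357) (nat_lit 328) (nat_lit 176))))) (XT.nd (nat_lit 188) (nat_lit 420) (nat_lit 0) (XT.nd (nat_lit 94) (nat_lit 0) (nat_lit 0) (XT.lf (nat_lit 0) (nat_lit 8019350366) (nat_lit 420) (nat_lit 4424785346) (nat_lit 504) (nat_lit 12278872839) (nat_lit 62) (nat_lit 5) (nat_lit 67) (nat_lit 5) (nat_lit 68) (nat_lit 5) (nat_lit 358) (nat_lit 328) (nat_lit 175)) (XT.lf (nat_lit 0) (nat_lit 14395005817) (nat_lit 504) (nat_lit 8276713252) (nat_lit 84) (nat_lit 2546105858) (nat_lit 62) (nat_lit 5) (nat_lit 68) (nat_lit 5) (nat_lit 63)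 (nat_lit 5) (nat_lit 359) (nat_lit 328) (nat_lit 174))) (XT.nd (nat_lit 94) (nat_lit 0) (nat_lit 0) (XT.lf (nat_lit 0) (nat_lit 369095389) (nat_lit 420) (nat_lit 16081789534) (nat_lit 504) (nat_lit 9275737030) (nat_lit 57) (nat_lit 5) (nat_lit 62) (nat_lit 5) (nat_lit 63) (nat_lit 5) (nat_lit 360) (nat_lit 328) (nat_lit 173)) (XT.nd (nat_lit 94) (nat_lit 0) (nat_lit 0) (XT.lf (nat_lit 0) (nat_lit 9453879276) (nat_lit 420) (nat_lit 9198711455) (nat_lit 504) (nat_lit 7596077207) (nat_lit 57) (nat_lit 5) (nat_lit 62) (nat_lit 5) (nat_lit 63) (nat_lit 5) (nat_lit 361) (nat_lit 328) (nat_lit 172)) (XT.lf (nat_lit 0) (nat_lit 18815920179) (nat_lit 420) (nat_lit 2102460994) (nat_lit 504) (nat_lit 5868665933) (nat_lit 57) (nat_lit 5) (nat_lit 62) (nat_lit 5) (nat_lit 63) (nat_lit 5) (nat_lit 362) (nat_lit 328) (nat_lit 171))))))))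
noncomputable def xc112 : XT := (XT.nd (nat_lit 52170) (nat_lit 0) (nat_lit 840) (XT.nd (nat_lit 51324) (nat_lit 0) (nat_lit 4032) (XT.nd (nat_lit 50854) (nat_lit 0) (nat_lit 3864) (XT.nd (nat_lit 188) (nat_lit 504) (nat_lit 0) (XT.nd (nat_lit 94) (nat_lit 0) (nat_lit 0) (XT.lf (nat_lit 0) (nat_lit 1091964546) (nat_lit 336) (nat_lit 22220955403) (nat_lit 420) (nat_lit 4027402230) (nat_lit 53) (nat_lit 5) (nat_lit 57) (nat_lit 5) (nat_lit 58) (nat_lit 5) (nat_lit 363) (nat_lit 328) (nat_lit 170)) (XT.lf (nat_lit 0) (nat_lit 10578711402) (nat_lit 336) (nat_lit 15303499481) (nat_lit 420) (nat_lit 2025441056) (nat_lit 53) (nat_lit 5) (nat_lit 57) (nat_lit 5) (nat_lit 58) (nat_lit 5) (nat_lit 364) (nat_lit 328) (nat_lit 169))) (XT.nd (nat_lit 94) (nat_lit 420) (nat_lit 0) (XT.lf (nat_lit 0) (nat_lit 33898850) (nat_lit 420) (nat_lit 8137711026) (nat_lit 84) (nat_lit 20321086408) (nat_lit 52) (nat_lit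 5) (nat_lit 57) (nat_lit 5) (nat_lit 53) (nat_lit 5) (nat_lit 365) (nat_lit 328) (nat_lit 168)) (XT.lf (nat_lit 0) (nat_lit 1340563170) (nat_lit 420) (nat_lit 783953163) (nat_lit 504) (nat_lit 26970441278) (nat_lit 47) (nat_lit 5) (nat_lit 52) (nat_lit 5) (nat_lit 53) (nat_lit 5) (nat_lit 366) (nat_lit 328) (nat_lit 167)))) (XT.nd (nat_lit 188) (nat_lit 0) (nat_lit 84) (XT.nd (nat_lit 94) (nat_lit 0) (nat_lit 0) (XT.lf (nat_lit 0) (nat_lit 1711100129) (nat_lit 1092) (nat_lit 2937263832) (nat_lit 1092) (nat_lit 2937263832) (nat_lit 93) (nat_lit 3) (nat_lit 106) (nat_lit 3) (nat_lit 106) (nat_lit 5) (nat_lit 329) (nat_lit 329) (nat_lit 203)) (XT.lf (nat_lit 0) (nat_lit 3712158654) (nat_lit 1092) (nat_lit 571361785) (nat_lit 1092) (nat_lit 11114231842) (nat_lit 93) (nat_lit 3) (nat_lit 106) (nat_lit 3) (nat_lit 106) (nat_lit 5) (nat_lit 330) (nat_lit 329) (nat_lit 202))) (XT.nd (nat_lit 94)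 (nat_lit 0) (nat_lit 0) (XT.lf (nat_lit 0) (nat_lit 4060411084) (nat_lit 1008) (nat_lit 10647587762) (nat_lit 1092) (nat_lit 921795985) (nat_lit 94) (nat_lit 5) (nat_lit 106) (nat_lit 5) (nat_lit 107) (nat_lit 5) (nat_lit 331) (nat_lit 329) (nat_lit 201)) (XT.nd (nat_lit 94) (nat_lit 0) (nat_lit 0) (XT.lf (nat_lit 0) (nat_lit 4460030142) (nat_lit 1008) (nat_lit 5197949303) (nat_lit 1092) (nat_lit 6209844895) (nat_lit 94) (nat_lit 5) (nat_lit 106) (nat_lit 5) (nat_lit 107) (nat_lit 5) (nat_lit 332) (nat_lit 329) (nat_lit 200)) (XT.lf (nat_lit 84) (nat_lit 424049111) (nat_lit 0) (nat_lit 4443209082) (nat_lit 1092) (nat_lit 11246172516) (nat_lit 95) (nat_lit 5) (nat_lit 94) (nat_lit 5) (nat_lit 107) (nat_lit 5) (nat_lit 333) (nat_lit 329) (nat_lit 199)))))) (XT.nd (nat_lit 376) (nat_lit 0) (nat_lit 84) (XT.nd (nat_lit 188) (nat_lit 0) (nat_lit 0) (XT.nd (nat_lit 94) (nat_lit 0) (nat_lit 0)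 (XT.lf (nat_lit 0) (nat_lit 5342449531) (nat_lit 1008) (nat_lit 10049685545) (nat_lit 1092) (nat_lit 972848577) (nat_lit 95) (nat_lit 5) (nat_lit 107) (nat_lit 5) (nat_lit 108) (nat_lit 5) (nat_lit 334) (nat_lit 329) (nat_lit 198)) (XT.lf (nat_lit 0) (nat_lit 5869348572) (nat_lit 1008) (nat_lit 4285866618) (nat_lit 1092) (nat_lit 6468020110) (nat_lit 95) (nat_lit 5) (nat_lit 107) (nat_lit 5) (nat_lit 108) (nat_lit 5) (nat_lit 335) (nat_lit 329) (nat_lit 197))) (XT.nd (nat_lit 94) (nat_lit 0) (nat_lit 84) (XT.lf (nat_lit 84) (nat_lit 1685483588) (nat_lit 0) (nat_lit 4735605876) (nat_lit 1092) (nat_lit 10468184969) (nat_lit 96) (nat_lit 5) (nat_lit 95) (nat_lit 5) (nat_lit 108) (nat_lit 5) (nat_lit 336) (nat_lit 329) (nat_lit 196)) (XT.lf (nat_lit 0) (nat_lit 7035593517) (nat_lit 1008) (nat_lit 9243655876) (nat_lit 1092) (nat_lit 882940017) (nat_lit 96) (nat_lit 5) (nat_lit 108) (nat_lit 5)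 (nat_lit 109) (nat_lit 5) (nat_lit 337) (nat_lit 329) (nat_lit 195)))) (XT.nd (nat_lit 188) (nat_lit 0) (nat_lit 84) (XT.nd (nat_lit 94) (nat_lit 0) (nat_lit 0) (XT.lf (nat_lit 0) (nat_lit 7709835367) (nat_lit 1008) (nat_lit 3152405258) (nat_lit 1092) (nat_lit 6580105535) (nat_lit 96) (nat_lit 5) (nat_lit 108) (nat_lit 5) (nat_lit 109) (nat_lit 5) (nat_lit 338) (nat_lit 329) (nat_lit 194)) (XT.lf (nat_lit 84) (nat_lit 3186823886) (nat_lit 0) (nat_lit 5242255480) (nat_lit 1092) (nat_lit 9301402740) (nat_lit 97) (nat_lit 5) (nat_lit 96) (nat_lit 5) (nat_lit 109) (nat_lit 5) (nat_lit 339) (nat_lit 329) (nat_lit 193))) (XT.nd (nat_lit 94) (nat_lit 0) (nat_lit 0) (XT.lf (nat_lit 0) (nat_lit 9202022838) (nat_lit 1008) (nat_lit 8248240900) (nat_lit 1092) (nat_lit 576353248) (nat_lit 97) (nat_lit 5) (nat_lit 109) (nat_lit 5) (nat_lit 110) (nat_lit 5) (nat_lit 340) (nat_lit 329) (nat_lit 192)) (XT.nd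 (nat_lit 94) (nat_lit 0) (nat_lit 0) (XT.lf (nat_lit 0) (nat_lit 10045449725) (nat_lit 1008) (nat_lit 1816419514) (nat_lit 1092) (nat_lit 6468659623) (nat_lit 97) (nat_lit 5) (nat_lit 109) (nat_lit 5) (nat_lit 110) (nat_lit 5) (nat_lit 341) (nat_lit 329) (nat_lit 191)) (XT.lf (nat_lit 84) (nat_lit 4908704345) (nat_lit 0) (nat_lit 6048132977) (nat_lit 1092) (nat_lit 7685766262) (nat_lit 98) (nat_lit 5) (nat_lit 97) (nat_lit 5) (nat_lit 110) (nat_lit 5) (nat_lit 342) (nat_lit 329) (nat_lit 190))))))) (XT.nd (nat_lit 846) (nat_lit 1848) (nat_lit 0) (XT.nd (nat_lit 376) (nat_lit 1512) (nat_lit 0) (XT.nd (nat_lit 188) (nat_lit 0) (nat_lit 84) (XT.nd (nat_lit 94) (nat_lit 0) (nat_lit 84) (XT.lf (nat_lit 84) (nat_lit 11875881195) (nat_lit 0) (nat_lit 32833902) (nat_lit 1092) (nat_lit 7055294866) (nat_lit 98) (nat_lit 5) (nat_lit 97) (nat_lit 5) (nat_lit 110) (nat_lit 5) (nat_lit 343) (nat_lit 329)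 (nat_lit 189)) (XT.lf (nat_lit 0) (nat_lit 12944794545) (nat_lit 1008) (nat_lit 302575660) (nat_lit 1092) (nat_lit 6046349825) (nat_lit 98) (nat_lit 5) (nat_lit 110) (nat_lit 5) (nat_lit 111) (nat_lit 5) (nat_lit 344) (nat_lit 329) (nat_lit 188))) (XT.nd (nat_lit 94) (nat_lit 0) (nat_lit 0) (XT.lf (nat_lit 84) (nat_lit 6825626878) (nat_lit 0) (nat_lit 7249104810) (nat_lit 1092) (nat_lit 5557040021) (nat_lit 99) (nat_lit 5) (nat_lit 98) (nat_lit 5) (nat_lit 111) (nat_lit 5) (nat_lit 345) (nat_lit 329) (nat_lit 187)) (XT.lf (nat_lit 84) (nat_lit 14176379554) (nat_lit 0) (nat_lit 1060309611) (nat_lit 1092) (nat_lit 4743740545) (nat_lit 99) (nat_lit 5) (nat_lit 98) (nat_lit 5) (nat_lit 111) (nat_lit 5) (nat_lit 346) (nat_lit 329) (nat_lit 186)))) (XT.nd (nat_lit 188) (nat_lit 672) (nat_lit 0) (XT.nd (nat_lit 94) (nat_lit 0) (nat_lit 0) (XT.lf (nat_lit 0) (nat_lit 1385318373) (nat_lit 1008) (nat_lit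 15109902079) (nat_lit 1092) (nat_lit 3842830983) (nat_lit 87) (nat_lit 5) (nat_lit 99) (nat_lit 5) (nat_lit 100) (nat_lit 5) (nat_lit 347) (nat_lit 329) (nat_lit 185)) (XT.lf (nat_lit 0) (nat_lit 8904658789) (nat_lit 1008) (nat_lit 8953587756) (nat_lit 1092) (nat_lit 2846514494) (nat_lit 87) (nat_lit 5) (nat_lit 99) (nat_lit 5) (nat_lit 100) (nat_lit 5) (nat_lit 348) (nat_lit 329) (nat_lit 184))) (XT.nd (nat_lit 94) (nat_lit 672) (nat_lit 0) (XT.lf (nat_lit 0) (nat_lit 16652371411) (nat_lit 1008) (nat_lit 2605493809) (nat_lit 1092) (nat_lit 1825179470) (nat_lit 87) (nat_lit 5) (nat_lit 99) (nat_lit 5) (nat_lit 100) (nat_lit 5) (nat_lit 349) (nat_lit 329) (nat_lit 183)) (XT.nd (nat_lit 94) (nat_lit 84) (nat_lit 0) (XT.lf (nat_lit 0) (nat_lit 3187556865) (nat_lit 588) (nat_lit 17578533393) (nat_lit 672) (nat_lit 704972743) (nat_lit 80) (nat_lit 5) (nat_lit 87) (nat_lit 5) (nat_lit 88) (nat_lit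 5) (nat_lit 350) (nat_lit 329) (nat_lit 182)) (XT.lf (nat_lit 0) (nat_lit 508815618) (nat_lit 672) (nat_lit 10770266254) (nat_lit 84) (nat_lit 10589811961) (nat_lit 79) (nat_lit 5) (nat_lit 87) (nat_lit 5) (nat_lit 80) (nat_lit 5) (nat_lit 351) (nat_lit 329) (nat_lit 181)))))) (XT.nd (nat_lit 470) (nat_lit 840) (nat_lit 0) (XT.nd (nat_lit 188) (nat_lit 504) (nat_lit 0) (XT.nd (nat_lit 94) (nat_lit 504) (nat_lit 0) (XT.lf (nat_lit 0) (nat_lit 1740303976) (nat_lit 672) (nat_lit 3036064647) (nat_lit 84) (nat_lit 17502656108) (nat_lit 79) (nat_lit 5) (nat_lit 87) (nat_lit 5) (nat_lit 80) (nat_lit 5) (nat_lit 352) (nat_lit 329) (nat_lit 180)) (XT.lf (nat_lit 0) (nat_lit 3074430438) (nat_lit 588) (nat_lit 17685407853) (nat_lit 84) (nat_lit 1940059299) (nat_lit 73) (nat_lit 5) (nat_lit 80) (nat_lit 5) (nat_lit 74) (nat_lit 5) (nat_lit 353) (nat_lit 329) (nat_lit 179))) (XT.nd (nat_lit 94) (nat_lit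 504) (nat_lit 0) (XT.lf (nat_lit 0) (nat_lit 4525769184) (nat_lit 588) (nat_lit 9807770997) (nat_lit 84) (nat_lit 8797951279) (nat_lit 73) (nat_lit 5) (nat_lit 80) (nat_lit 5) (nat_lit 74) (nat_lit 5) (nat_lit 354) (nat_lit 329) (nat_lit 178)) (XT.nd (nat_lit 94) (nat_lit 504) (nat_lit 0) (XT.lf (nat_lit 0) (nat_lit 6017239046) (nat_lit 588) (nat_lit 1690520063) (nat_lit 84) (nat_lit 15868880973) (nat_lit 73) (nat_lit 5) (nat_lit 80) (nat_lit 5) (nat_lit 74) (nat_lit 5) (nat_lit 355) (nat_lit 329) (nat_lit 177)) (XT.lf (nat_lit 0) (nat_lit 6811140374) (nat_lit 504) (nat_lit 806657212) (nat_lit 588) (nat_lit 16415866209) (nat_lit 67) (nat_lit 5) (nat_lit 73) (nat_lit 5) (nat_lit 74) (nat_lit 5) (nat_lit 356) (nat_lit 329) (nat_lit 176))))) (XT.nd (nat_lit 188) (nat_lit 840) (nat_lit 0) (XT.nd (nat_lit 94) (nat_lit 0) (nat_lit 0) (XT.lf (nat_lit 0) (nat_lit 9343765189) (nat_lit 588) (nat_lit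 8959456021) (nat_lit 84) (nat_lit 6199307700) (nat_lit 67) (nat_lit 5) (nat_lit 74) (nat_lit 5) (nat_lit 68) (nat_lit 5) (nat_lit 357) (nat_lit 329) (nat_lit 175)) (XT.lf (nat_lit 0) (nat_lit 11127012545) (nat_lit 588) (nat_lit 452923930) (nat_lit 84) (nat_lit 13405897863) (nat_lit 67) (nat_lit 5) (nat_lit 74) (nat_lit 5) (nat_lit 68) (nat_lit 5) (nat_lit 358) (nat_lit 329) (nat_lit 174))) (XT.nd (nat_lit 94) (nat_lit 420) (nat_lit 0) (XT.lf (nat_lit 0) (nat_lit 8483936380) (nat_lit 420) (nat_lit 4561425006) (nat_lit 504) (nat_lit 12436308238) (nat_lit 62) (nat_lit 5) (nat_lit 67) (nat_lit 5) (nat_lit 68) (nat_lit 5) (nat_lit 359) (nat_lit 329) (nat_lit 173)) (XT.nd (nat_lit 94) (nat_lit 420) (nat_lit 0) (XT.lf (nat_lit 0) (nat_lit 15050235198) (nat_lit 504) (nat_lit 8316285446) (nat_lit 84) (nat_lit 2625537597) (nat_lit 62) (nat_lit 5) (nat_lit 68) (nat_lit 5) (nat_lit 63) (nat_lit 5) (nat_lit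 360) (nat_lit 329) (nat_lit 172)) (XT.lf (nat_lit 0) (nat_lit 595346273) (nat_lit 420) (nat_lit 16570347499) (nat_lit 504) (nat_lit 9351094232) (nat_lit 57) (nat_lit 5) (nat_lit 62) (nat_lit 5) (nat_lit 63) (nat_lit 5) (nat_lit 361) (nat_lit 329) (nat_lit 171))))))))
noncomputable def xc113 : XT := (XT.nd (nat_lit 52358) (nat_lit 0) (nat_lit 336) (XT.nd (nat_lit 51512) (nat_lit 0) (nat_lit 3528) (XT.nd (nat_lit 51042) (nat_lit 0) (nat_lit 3360) (XT.nd (nat_lit 188) (nat_lit 336) (nat_lit 0) (XT.nd (nat_lit 94) (nat_lit 0) (nat_lit 0) (XT.lf (nat_lit 0) (nat_lit 9955299608) (nat_lit 420) (nat_lit 9474194003) (nat_lit 504) (nat_lit 7625745080) (nat_lit 57) (nat_lit 5) (nat_lit 62) (nat_lit 5) (nat_lit 63) (nat_lit 5) (nat_lit 362) (nat_lit 329) (nat_lit 170)) (XT.lf (nat_lit 0) (nat_lit 19601299131) (nat_lit 420) (nat_lit 2158250760) (nat_lit 504) (nat_lit 5850972346) (nat_lit 57) (nat_lit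 5) (nat_lit 62) (nat_lit 5) (nat_lit 63) (nat_lit 5) (nat_lit 363) (nat_lit 329) (nat_lit 169))) (XT.nd (nat_lit 94) (nat_lit 0) (nat_lit 0) (XT.lf (nat_lit 0) (nat_lit 1332616004) (nat_lit 336) (nat_lit 22892051117) (nat_lit 420) (nat_lit 3956423490) (nat_lit 53) (nat_lit 5) (nat_lit 57) (nat_lit 5) (nat_lit 58) (nat_lit 5) (nat_lit 364) (nat_lit 329) (nat_lit 168)) (XT.lf (nat_lit 0) (nat_lit 11107233955) (nat_lit 336) (nat_lit 15760687884) (nat_lit 420) (nat_lit 1898289661) (nat_lit 53) (nat_lit 5) (nat_lit 57) (nat_lit 5) (nat_lit 58) (nat_lit 5) (nat_lit 365) (nat_lit 329) (nat_lit 167)))) (XT.nd (nat_lit 188) (nat_lit 0) (nat_lit 84) (XT.nd (nat_lit 94) (nat_lit 0) (nat_lit 0) (XT.lf (nat_lit 0) (nat_lit 1998708305) (nat_lit 1092) (nat_lit 2906751034) (nat_lit 1092) (nat_lit 2906751034) (nat_lit 93) (nat_lit 3) (nat_lit 106) (nat_lit 3) (nat_lit 106) (nat_lit 5) (nat_lit 330) (nat_lit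 330) (nat_lit 201)) (XT.lf (nat_lit 0) (nat_lit 4282258019) (nat_lit 1092) (nat_lit 353248634) (nat_lit 1092) (nat_lit 11222947661) (nat_lit 93) (nat_lit 3) (nat_lit 106) (nat_lit 3) (nat_lit 106) (nat_lit 5) (nat_lit 331) (nat_lit 330) (nat_lit 200))) (XT.nd (nat_lit 94) (nat_lit 0) (nat_lit 0) (XT.lf (nat_lit 0) (nat_lit 4627855043) (nat_lit 1008) (nat_lit 10725939642) (nat_lit 1092) (nat_lit 744388336) (nat_lit 94) (nat_lit 5) (nat_lit 106) (nat_lit 5) (nat_lit 107) (nat_lit 5) (nat_lit 332) (nat_lit 330) (nat_lit 199)) (XT.nd (nat_lit 94) (nat_lit 0) (nat_lit 0) (XT.lf (nat_lit 0) (nat_lit 5026585175) (nat_lit 1008) (nat_lit 5114931182) (nat_lit 1092) (nat_lit 6202560247) (nat_lit 94) (nat_lit 5) (nat_lit 106) (nat_lit 5) (nat_lit 107) (nat_lit 5) (nat_lit 333) (nat_lit 330) (nat_lit 198)) (XT.lf (nat_lit 84) (nat_lit 678877339) (nat_lit 0) (nat_lit 4757079578) (nat_lit 1092) (nat_lit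 11161736101) (nat_lit 95) (nat_lit 5) (nat_lit 94) (nat_lit 5) (nat_lit 107) (nat_lit 5) (nat_lit 334) (nat_lit 330) (nat_lit 197)))))) (XT.nd (nat_lit 376) (nat_lit 0) (nat_lit 84) (XT.nd (nat_lit 188) (nat_lit 0) (nat_lit 0) (XT.nd (nat_lit 94) (nat_lit 0) (nat_lit 0) (XT.lf (nat_lit 0) (nat_lit 5911621700) (nat_lit 1008) (nat_lit 10110319890) (nat_lit 1092) (nat_lit 835613705) (nat_lit 95) (nat_lit 5) (nat_lit 107) (nat_lit 5) (nat_lit 108) (nat_lit 5) (nat_lit 335) (nat_lit 330) (nat_lit 196)) (XT.lf (nat_lit 0) (nat_lit 6442720525) (nat_lit 1008) (nat_lit 4175366789) (nat_lit 1092) (nat_lit 6506168716) (nat_lit 95) (nat_lit 5) (nat_lit 107) (nat_lit 5) (nat_lit 108) (nat_lit 5) (nat_lit 336) (nat_lit 330) (nat_lit 195))) (XT.nd (nat_lit 94) (nat_lit 0) (nat_lit 84) (XT.lf (nat_lit 84) (nat_lit 1978631455) (nat_lit 0) (nat_lit 5023554426) (nat_lit 1092) (nat_lit 10396712370) (nat_lit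 96) (nat_lit 5) (nat_lit 95) (nat_lit 5) (nat_lit 108) (nat_lit 5) (nat_lit 337) (nat_lit 330) (nat_lit 194)) (XT.lf (nat_lit 0) (nat_lit 7622894269) (nat_lit 1008) (nat_lit 9281672120) (nat_lit 1092) (nat_lit 776168562) (nat_lit 96) (nat_lit 5) (nat_lit 108) (nat_lit 5) (nat_lit 109) (nat_lit 5) (nat_lit 338) (nat_lit 330) (nat_lit 193)))) (XT.nd (nat_lit 188) (nat_lit 0) (nat_lit 84) (XT.nd (nat_lit 94) (nat_lit 0) (nat_lit 0) (XT.lf (nat_lit 0) (nat_lit 8306936628) (nat_lit 1008) (nat_lit 3009065721) (nat_lit 1092) (nat_lit 6653979597) (nat_lit 96) (nat_lit 5) (nat_lit 108) (nat_lit 5) (nat_lit 109) (nat_lit 5) (nat_lit 339) (nat_lit 330) (nat_lit 192)) (XT.lf (nat_lit 84) (nat_lit 3524238969) (nat_lit 0) (nat_lit 5515838194) (nat_lit 1092) (nat_lit 9227292757) (nat_lit 97) (nat_lit 5) (nat_lit 96) (nat_lit 5) (nat_lit 109) (nat_lit 5) (nat_lit 340) (nat_lit 330) (nat_lit 191))) (XT.nd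 (nat_lit 94) (nat_lit 0) (nat_lit 0) (XT.lf (nat_lit 0) (nat_lit 9825398524) (nat_lit 1008) (nat_lit 8259045456) (nat_lit 1092) (nat_lit 488657712) (nat_lit 97) (nat_lit 5) (nat_lit 109) (nat_lit 5) (nat_lit 110) (nat_lit 5) (nat_lit 341) (nat_lit 330) (nat_lit 190)) (XT.nd (nat_lit 94) (nat_lit 0) (nat_lit 0) (XT.lf (nat_lit 0) (nat_lit 10684805299) (nat_lit 1008) (nat_lit 1635200961) (nat_lit 1092) (nat_lit 6566799626) (nat_lit 97) (nat_lit 5) (nat_lit 109) (nat_lit 5) (nat_lit 110) (nat_lit 5) (nat_lit 342) (nat_lit 330) (nat_lit 189)) (XT.lf (nat_lit 84) (nat_lit 5295996984) (nat_lit 0) (nat_lit 6320920710) (nat_lit 1092) (nat_lit 7591924819) (nat_lit 98) (nat_lit 5) (nat_lit 97) (nat_lit 5) (nat_lit 110) (nat_lit 5) (nat_lit 343) (nat_lit 330) (nat_lit 188))))))) (XT.nd (nat_lit 846) (nat_lit 1848) (nat_lit 0) (XT.nd (nat_lit 376) (nat_lit 1512) (nat_lit 0) (XT.nd (nat_lit 188) (nat_lit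 0) (nat_lit 84) (XT.nd (nat_lit 94) (nat_lit 0) (nat_lit 84) (XT.lf (nat_lit 84) (nat_lit 12472086668) (nat_lit 0) (nat_lit 116582704) (nat_lit 1092) (nat_lit 6951894363) (nat_lit 98) (nat_lit 5) (nat_lit 97) (nat_lit 5) (nat_lit 110) (nat_lit 5) (nat_lit 344) (nat_lit 330) (nat_lit 187)) (XT.lf (nat_lit 0) (nat_lit 13646726635) (nat_lit 1008) (nat_lit 78973552) (nat_lit 1092) (nat_lit 6155159990) (nat_lit 98) (nat_lit 5) (nat_lit 110) (nat_lit 5) (nat_lit 111) (nat_lit 5) (nat_lit 345) (nat_lit 330) (nat_lit 186))) (XT.nd (nat_lit 94) (nat_lit 0) (nat_lit 0) (XT.lf (nat_lit 84) (nat_lit 7267844531) (nat_lit 0) (nat_lit 7537095392) (nat_lit 1092) (nat_lit 5424710312) (nat_lit 99) (nat_lit 5) (nat_lit 98) (nat_lit 5) (nat_lit 111) (nat_lit 5) (nat_lit 346) (nat_lit 330) (nat_lit 185)) (XT.lf (nat_lit 84) (nat_lit 14839536186) (nat_lit 0) (nat_lit 1154545197) (nat_lit 1092) (nat_lit 4595357171)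 (nat_lit 99) (nat_lit 5) (nat_lit 98) (nat_lit 5) (nat_lit 111) (nat_lit 5) (nat_lit 347) (nat_lit 330) (nat_lit 184)))) (XT.nd (nat_lit 188) (nat_lit 672) (nat_lit 0) (XT.nd (nat_lit 94) (nat_lit 0) (nat_lit 0) (XT.lf (nat_lit 0) (nat_lit 1660569399) (nat_lit 1008) (nat_lit 15624200793) (nat_lit 1092) (nat_lit 3673635464) (nat_lit 87) (nat_lit 5) (nat_lit 99) (nat_lit 5) (nat_lit 100) (nat_lit 5) (nat_lit 348) (nat_lit 330) (nat_lit 183)) (XT.lf (nat_lit 0) (nat_lit 9406024410) (nat_lit 1008) (nat_lit 9275660859) (nat_lit 1092) (nat_lit 2655102438) (nat_lit 87) (nat_lit 5) (nat_lit 99) (nat_lit 5) (nat_lit 100) (nat_lit 5) (nat_lit 349) (nat_lit 330) (nat_lit 182))) (XT.nd (nat_lit 94) (nat_lit 672) (nat_lit 0) (XT.lf (nat_lit 0) (nat_lit 17387141189) (nat_lit 1008) (nat_lit 2729437621) (nat_lit 1092) (nat_lit 1610514635) (nat_lit 87) (nat_lit 5) (nat_lit 99) (nat_lit 5) (nat_lit 100) (nat_lit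 5) (nat_lit 350) (nat_lit 330) (nat_lit 181)) (XT.nd (nat_lit 94) (nat_lit 84) (nat_lit 0) (XT.lf (nat_lit 0) (nat_lit 3512557950) (nat_lit 588) (nat_lit 18152959903) (nat_lit 672) (nat_lit 461852205) (nat_lit 80) (nat_lit 5) (nat_lit 87) (nat_lit 5) (nat_lit 88) (nat_lit 5) (nat_lit 351) (nat_lit 330) (nat_lit 180)) (XT.lf (nat_lit 0) (nat_lit 776418235) (nat_lit 672) (nat_lit 10878291806) (nat_lit 84) (nat_lit 10883024077) (nat_lit 79) (nat_lit 5) (nat_lit 87) (nat_lit 5) (nat_lit 80) (nat_lit 5) (nat_lit 352) (nat_lit 330) (nat_lit 179)))))) (XT.nd (nat_lit 470) (nat_lit 840) (nat_lit 0) (XT.nd (nat_lit 188) (nat_lit 504) (nat_lit 0) (XT.nd (nat_lit 94) (nat_lit 504) (nat_lit 0) (XT.lf (nat_lit 0) (nat_lit 2038510754) (nat_lit 672) (nat_lit 2911120865) (nat_lit 84) (nat_lit 18011220936) (nat_lit 79) (nat_lit 5) (nat_lit 87) (nat_lit 5) (nat_lit 80) (nat_lit 5) (nat_lit 353) (nat_lit 330)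 (nat_lit 178)) (XT.lf (nat_lit 0) (nat_lit 3408581524) (nat_lit 588) (nat_lit 18007967717) (nat_lit 84) (nat_lit 1978428637) (nat_lit 73) (nat_lit 5) (nat_lit 80) (nat_lit 5) (nat_lit 74) (nat_lit 5) (nat_lit 354) (nat_lit 330) (nat_lit 177))) (XT.nd (nat_lit 94) (nat_lit 504) (nat_lit 0) (XT.lf (nat_lit 0) (nat_lit 4897730243) (nat_lit 588) (nat_lit 9892910075) (nat_lit 84) (nat_lit 9049569922) (nat_lit 73) (nat_lit 5) (nat_lit 80) (nat_lit 5) (nat_lit 74) (nat_lit 5) (nat_lit 355) (nat_lit 330) (nat_lit 176)) (XT.nd (nat_lit 94) (nat_lit 504) (nat_lit 0) (XT.lf (nat_lit 0) (nat_lit 6428470076) (nat_lit 588) (nat_lit 1530606279) (nat_lit 84) (nat_lit 16340333405) (nat_lit 73) (nat_lit 5) (nat_lit 80) (nat_lit 5) (nat_lit 74) (nat_lit 5) (nat_lit 356) (nat_lit 330) (nat_lit 175)) (XT.lf (nat_lit 0) (nat_lit 7232456083) (nat_lit 504) (nat_lit 841518609) (nat_lit 588) (nat_lit 16696805619)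 (nat_lit 67) (nat_lit 5) (nat_lit 73) (nat_lit 5) (nat_lit 74) (nat_lit 5) (nat_lit 357) (nat_lit 330) (nat_lit 174))))) (XT.nd (nat_lit 188) (nat_lit 840) (nat_lit 0) (XT.nd (nat_lit 94) (nat_lit 0) (nat_lit 0) (XT.lf (nat_lit 0) (nat_lit 9846736767) (nat_lit 588) (nat_lit 9025564645) (nat_lit 84) (nat_lit 6382120122) (nat_lit 67) (nat_lit 5) (nat_lit 74) (nat_lit 5) (nat_lit 68) (nat_lit 5) (nat_lit 358) (nat_lit 330) (nat_lit 173)) (XT.lf (nat_lit 0) (nat_lit 11678850862) (nat_lit 588) (nat_lit 261693463) (nat_lit 84) (nat_lit 13812396200) (nat_lit 67) (nat_lit 5) (nat_lit 74) (nat_lit 5) (nat_lit 68) (nat_lit 5) (nat_lit 359) (nat_lit 330) (nat_lit 172))) (XT.nd (nat_lit 94) (nat_lit 420) (nat_lit 0) (XT.lf (nat_lit 0) (nat_lit 8950131330) (nat_lit 420) (nat_lit 4702331810) (nat_lit 504) (nat_lit 12611845224) (nat_lit 62) (nat_lit 5) (nat_lit 67) (nat_lit 5) (nat_lit 68) (nat_lit 5)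 (nat_lit 360) (nat_lit 330) (nat_lit 171)) (XT.nd (nat_lit 94) (nat_lit 420) (nat_lit 0) (XT.lf (nat_lit 0) (nat_lit 15713398198) (nat_lit 504) (nat_lit 8369938010) (nat_lit 84) (nat_lit 2707401959) (nat_lit 62) (nat_lit 5) (nat_lit 68) (nat_lit 5) (nat_lit 63) (nat_lit 5) (nat_lit 361) (nat_lit 330) (nat_lit 170)) (XT.lf (nat_lit 0) (nat_lit 815887434) (nat_lit 420) (nat_lit 17074641747) (nat_lit 504) (nat_lit 9441355922) (nat_lit 57) (nat_lit 5) (nat_lit 62) (nat_lit 5) (nat_lit 63) (nat_lit 5) (nat_lit 362) (nat_lit 330) (nat_lit 169))))))))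
noncomputable def xc114 : XT := (XT.nd (nat_lit 52452) (nat_lit 0) (nat_lit 336) (XT.nd (nat_lit 51606) (nat_lit 0) (nat_lit 3528) (XT.nd (nat_lit 51136) (nat_lit 0) (nat_lit 3360) (XT.nd (nat_lit 188) (nat_lit 336) (nat_lit 0) (XT.nd (nat_lit 94) (nat_lit 0) (nat_lit 0) (XT.lf (nat_lit 0) (nat_lit 10459923039) (nat_lit 420) (nat_lit 9758789725) (nat_lit 504) (nat_lit 7668523167) (nat_lit 57) (nat_lit 5) (nat_lit 62) (nat_lit 5) (nat_lit 63) (nat_lit 5) (nat_lit 363) (nat_lit 330) (nat_lit 168)) (XT.lf (nat_lit 0) (nat_lit 20399054964) (nat_lit 420) (nat_lit 2216325988) (nat_lit 504) (nat_lit 5844554224) (nat_lit 57) (nat_lit 5) (nat_lit 62) (nat_lit 5) (nat_lit 63) (nat_lit 5) (nat_lit 364) (nat_lit 330) (nat_lit 167))) (XT.nd (nat_lit 50854) (nat_lit 0) (nat_lit 3360) (XT.lf (nat_lit 0) (nat_lit 1568478506) (nat_lit 336) (nat_lit 23585002393) (nat_lit 420) (nat_lit 3894843649) (nat_lit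 53) (nat_lit 5) (nat_lit 57) (nat_lit 5) (nat_lit 58) (nat_lit 5) (nat_lit 365) (nat_lit 330) (nat_lit 166)) (XT.lf (nat_lit 0) (nat_lit 2281338702) (nat_lit 1092) (nat_lit 2882493018) (nat_lit 1092) (nat_lit 2882493018) (nat_lit 93) (nat_lit 3) (nat_lit 106) (nat_lit 3) (nat_lit 106) (nat_lit 5) (nat_lit 331) (nat_lit 331) (nat_lit 199)))) (XT.nd (nat_lit 188) (nat_lit 0) (nat_lit 84) (XT.nd (nat_lit 94) (nat_lit 0) (nat_lit 84) (XT.lf (nat_lit 0) (nat_lit 4843078705) (nat_lit 1092) (nat_lit 142342314) (nat_lit 1092) (nat_lit 11349002012) (nat_lit 93) (nat_lit 3) (nat_lit 106) (nat_lit 3) (nat_lit 106) (nat_lit 5) (nat_lit 332) (nat_lit 331) (nat_lit 198)) (XT.lf (nat_lit 0) (nat_lit 5186734746) (nat_lit 1008) (nat_lit 10821630434) (nat_lit 1092) (nat_lit 573681794) (nat_lit 94) (nat_lit 5) (nat_lit 106) (nat_lit 5) (nat_lit 107) (nat_lit 5) (nat_lit 333) (nat_lit 331) (nat_lit 197))) (XT.nd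 (nat_lit 94) (nat_lit 0) (nat_lit 0) (XT.lf (nat_lit 0) (nat_lit 5585334821) (nat_lit 1008) (nat_lit 5043801190) (nat_lit 1092) (nat_lit 6206883669) (nat_lit 94) (nat_lit 5) (nat_lit 106) (nat_lit 5) (nat_lit 107) (nat_lit 5) (nat_lit 334) (nat_lit 331) (nat_lit 196)) (XT.nd (nat_lit 94) (nat_lit 0) (nat_lit 84) (XT.lf (nat_lit 84) (nat_lit 927289960) (nat_lit 0) (nat_lit 5070247517) (nat_lit 1092) (nat_lit 11100333503) (nat_lit 95) (nat_lit 5) (nat_lit 94) (nat_lit 5) (nat_lit 107) (nat_lit 5) (nat_lit 335) (nat_lit 331) (nat_lit 195)) (XT.lf (nat_lit 0) (nat_lit 6474534880) (nat_lit 1008) (nat_lit 10187695487) (nat_lit 1092) (nat_lit 704039537) (nat_lit 95) (nat_lit 5) (nat_lit 107) (nat_lit 5) (nat_lit 108) (nat_lit 5) (nat_lit 336) (nat_lit 331) (nat_lit 194)))))) (XT.nd (nat_lit 376) (nat_lit 0) (nat_lit 84) (XT.nd (nat_lit 188) (nat_lit 0) (nat_lit 84) (XT.nd (nat_lit 94) (nat_lit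 0) (nat_lit 0) (XT.lf (nat_lit 0) (nat_lit 7010682405) (nat_lit 1008) (nat_lit 4075856195) (nat_lit 1092) (nat_lit 6555116790) (nat_lit 95) (nat_lit 5) (nat_lit 107) (nat_lit 5) (nat_lit 108) (nat_lit 5) (nat_lit 337) (nat_lit 331) (nat_lit 193)) (XT.lf (nat_lit 84) (nat_lit 2266598112) (nat_lit 0) (nat_lit 5312069136) (nat_lit 1092) (nat_lit 10346479070) (nat_lit 96) (nat_lit 5) (nat_lit 95) (nat_lit 5) (nat_lit 108) (nat_lit 5) (nat_lit 338) (nat_lit 331) (nat_lit 192))) (XT.nd (nat_lit 94) (nat_lit 0) (nat_lit 0) (XT.lf (nat_lit 0) (nat_lit 8206533153) (nat_lit 1008) (nat_lit 9335588145) (nat_lit 1092) (nat_lit 674032687) (nat_lit 96) (nat_lit 5) (nat_lit 108) (nat_lit 5) (nat_lit 109) (nat_lit 5) (nat_lit 339) (nat_lit 331) (nat_lit 191)) (XT.lf (nat_lit 0) (nat_lit 8901337368) (nat_lit 1008) (nat_lit 2875561297) (nat_lit 1092) (nat_lit 6737850346) (nat_lit 96) (nat_lit 5) (nat_lit 108)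 (nat_lit 5) (nat_lit 109) (nat_lit 5) (nat_lit 340) (nat_lit 331) (nat_lit 190)))) (XT.nd (nat_lit 188) (nat_lit 0) (nat_lit 84) (XT.nd (nat_lit 94) (nat_lit 0) (nat_lit 84) (XT.lf (nat_lit 84) (nat_lit 3857979839) (nat_lit 0) (nat_lit 5791322939) (nat_lit 1092) (nat_lit 9172354104) (nat_lit 97) (nat_lit 5) (nat_lit 96) (nat_lit 5) (nat_lit 109) (nat_lit 5) (nat_lit 341) (nat_lit 331) (nat_lit 189)) (XT.lf (nat_lit 0) (nat_lit 10448071846) (nat_lit 1008) (nat_lit 8284690261) (nat_lit 1092) (nat_lit 404496261) (nat_lit 97) (nat_lit 5) (nat_lit 109) (nat_lit 5) (nat_lit 110) (nat_lit 5) (nat_lit 342) (nat_lit 331) (nat_lit 188))) (XT.nd (nat_lit 94) (nat_lit 0) (nat_lit 0) (XT.lf (nat_lit 0) (nat_lit 11324556055) (nat_lit 1008) (nat_lit 1462433797) (nat_lit 1092) (nat_lit 6674046612) (nat_lit 97) (nat_lit 5) (nat_lit 109) (nat_lit 5) (nat_lit 110) (nat_lit 5) (nat_lit 343) (nat_lit 331) (nat_lit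 187)) (XT.nd (nat_lit 94) (nat_lit 0) (nat_lit 0) (XT.lf (nat_lit 84) (nat_lit 5681368969) (nat_lit 0) (nat_lit 6597112657) (nat_lit 1092) (nat_lit 7514845154) (nat_lit 98) (nat_lit 5) (nat_lit 97) (nat_lit 5) (nat_lit 110) (nat_lit 5) (nat_lit 344) (nat_lit 331) (nat_lit 186)) (XT.lf (nat_lit 84) (nat_lit 13073266533) (nat_lit 0) (nat_lit 198027423) (nat_lit 1092) (nat_lit 6864367847) (nat_lit 98) (nat_lit 5) (nat_lit 97) (nat_lit 5) (nat_lit 110) (nat_lit 5) (nat_lit 345) (nat_lit 331) (nat_lit 185))))))) (XT.nd (nat_lit 846) (nat_lit 1848) (nat_lit 0) (XT.nd (nat_lit 376) (nat_lit 672) (nat_lit 0) (XT.nd (nat_lit 188) (nat_lit 924) (nat_lit 0) (XT.nd (nat_lit 94) (nat_lit 0) (nat_lit 0) (XT.lf (nat_lit 84) (nat_lit 140592935) (nat_lit 0) (nat_lit 14213412757) (nat_lit 1092) (nat_lit 6132802227) (nat_lit 99) (nat_lit 5) (nat_lit 98) (nat_lit 5) (nat_lit 111) (nat_lit 5) (nat_lit 346) (nat_lit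 331) (nat_lit 184)) (XT.lf (nat_lit 84) (nat_lit 7710110724) (nat_lit 0) (nat_lit 7830266191) (nat_lit 1092) (nat_lit 5306320240) (nat_lit 99) (nat_lit 5) (nat_lit 98) (nat_lit 5) (nat_lit 111) (nat_lit 5) (nat_lit 347) (nat_lit 331) (nat_lit 183))) (XT.nd (nat_lit 94) (nat_lit 924) (nat_lit 0) (XT.lf (nat_lit 84) (nat_lit 15510001198) (nat_lit 0) (nat_lit 1248067274) (nat_lit 1092) (nat_lit 4459873290) (nat_lit 99) (nat_lit 5) (nat_lit 98) (nat_lit 5) (nat_lit 111) (nat_lit 5) (nat_lit 348) (nat_lit 331) (nat_lit 182)) (XT.lf (nat_lit 0) (nat_lit 1930593314) (nat_lit 1008) (nat_lit 16151724521) (nat_lit 1092) (nat_lit 3516272765) (nat_lit 87) (nat_lit 5) (nat_lit 99) (nat_lit 5) (nat_lit 100) (nat_lit 5) (nat_lit 349) (nat_lit 331) (nat_lit 181)))) (XT.nd (nat_lit 188) (nat_lit 672) (nat_lit 0) (XT.nd (nat_lit 94) (nat_lit 0) (nat_lit 0) (XT.lf (nat_lit 0) (nat_lit 9909586205) (nat_lit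 1008) (nat_lit 9605081712) (nat_lit 1092) (nat_lit 2474320994) (nat_lit 87) (nat_lit 5) (nat_lit 99) (nat_lit 5) (nat_lit 100) (nat_lit 5) (nat_lit 350) (nat_lit 331) (nat_lit 180)) (XT.lf (nat_lit 0) (nat_lit 18131743961) (nat_lit 1008) (nat_lit 2854666449) (nat_lit 1092) (nat_lit 1405261521) (nat_lit 87) (nat_lit 5) (nat_lit 99) (nat_lit 5) (nat_lit 100) (nat_lit 5) (nat_lit 351) (nat_lit 331) (nat_lit 179))) (XT.nd (nat_lit 94) (nat_lit 84) (nat_lit 0) (XT.lf (nat_lit 0) (nat_lit 3834236636) (nat_lit 588) (nat_lit 18743446775) (nat_lit 672) (nat_lit 226889836) (nat_lit 80) (nat_lit 5) (nat_lit 87) (nat_lit 5) (nat_lit 88) (nat_lit 5) (nat_lit 352) (nat_lit 331) (nat_lit 178)) (XT.nd (nat_lit 94) (nat_lit 0) (nat_lit 0) (XT.lf (nat_lit 0) (nat_lit 1037400252) (nat_lit 672) (nat_lit 11003043793) (nat_lit 84) (nat_lit 11187403147) (nat_lit 79) (nat_lit 5) (nat_lit 87) (nat_lit 5) (nat_lit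 80) (nat_lit 5) (nat_lit 353) (nat_lit 331) (nat_lit 177)) (XT.lf (nat_lit 0) (nat_lit 2331494162) (nat_lit 672) (nat_lit 2795279230) (nat_lit 84) (nat_lit 18537566188) (nat_lit 79) (nat_lit 5) (nat_lit 87) (nat_lit 5) (nat_lit 80) (nat_lit 5) (nat_lit 354) (nat_lit 331) (nat_lit 176)))))) (XT.nd (nat_lit 470) (nat_lit 840) (nat_lit 0) (XT.nd (nat_lit 188) (nat_lit 504) (nat_lit 0) (XT.nd (nat_lit 94) (nat_lit 0) (nat_lit 0) (XT.lf (nat_lit 0) (nat_lit 3738944171) (nat_lit 588) (nat_lit 18353894811) (nat_lit 84) (nat_lit 2019277047) (nat_lit 73) (nat_lit 5) (nat_lit 80) (nat_lit 5) (nat_lit 74) (nat_lit 5) (nat_lit 355) (nat_lit 331) (nat_lit 175)) (XT.lf (nat_lit 0) (nat_lit 5267500345) (nat_lit 588) (nat_lit 9993654394) (nat_lit 84) (nat_lit 9310239588) (nat_lit 73) (nat_lit 5) (nat_lit 80) (nat_lit 5) (nat_lit 74) (nat_lit 5) (nat_lit 356) (nat_lit 331) (nat_lit 174))) (XT.nd (nat_lit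 94) (nat_lit 504) (nat_lit 0) (XT.lf (nat_lit 0) (nat_lit 6839140102) (nat_lit 588) (nat_lit 1378311240) (nat_lit 84) (nat_lit 16827614099) (nat_lit 73) (nat_lit 5) (nat_lit 80) (nat_lit 5) (nat_lit 74) (nat_lit 5) (nat_lit 357) (nat_lit 331) (nat_lit 173)) (XT.nd (nat_lit 94) (nat_lit 0) (nat_lit 0) (XT.lf (nat_lit 0) (nat_lit 7654383829) (nat_lit 504) (nat_lit 876876979) (nat_lit 588) (nat_lit 16999956164) (nat_lit 67) (nat_lit 5) (nat_lit 73) (nat_lit 5) (nat_lit 74) (nat_lit 5) (nat_lit 358) (nat_lit 331) (nat_lit 172)) (XT.lf (nat_lit 0) (nat_lit 10352665460) (nat_lit 588) (nat_lit 9106258111) (nat_lit 84) (nat_lit 6571154500) (nat_lit 67) (nat_lit 5) (nat_lit 74) (nat_lit 5) (nat_lit 68) (nat_lit 5) (nat_lit 359) (nat_lit 331) (nat_lit 171))))) (XT.nd (nat_lit 188) (nat_lit 420) (nat_lit 0) (XT.nd (nat_lit 94) (nat_lit 420) (nat_lit 0) (XT.lf (nat_lit 0) (nat_lit 12235541070) (nat_lit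 588) (nat_lit 76693412) (nat_lit 84) (nat_lit 14232034075) (nat_lit 67) (nat_lit 5) (nat_lit 74) (nat_lit 5) (nat_lit 68) (nat_lit 5) (nat_lit 360) (nat_lit 331) (nat_lit 170)) (XT.lf (nat_lit 0) (nat_lit 9418742859) (nat_lit 420) (nat_lit 4847636186) (nat_lit 504) (nat_lit 12805261840) (nat_lit 62) (nat_lit 5) (nat_lit 67) (nat_lit 5) (nat_lit 68) (nat_lit 5) (nat_lit 361) (nat_lit 331) (nat_lit 169))) (XT.nd (nat_lit 94) (nat_lit 420) (nat_lit 0) (XT.lf (nat_lit 0) (nat_lit 16385473959) (nat_lit 504) (nat_lit 8437346093) (nat_lit 84) (nat_lit 2791776117) (nat_lit 62) (nat_lit 5) (nat_lit 68) (nat_lit 5) (nat_lit 63) (nat_lit 5) (nat_lit 362) (nat_lit 331) (nat_lit 168)) (XT.nd (nat_lit 94) (nat_lit 0) (nat_lit 0) (XT.lf (nat_lit 0) (nat_lit 1031295505) (nat_lit 420) (nat_lit 17595125096) (nat_lit 504) (nat_lit 9546239692) (nat_lit 57) (nat_lit 5) (nat_lit 62) (nat_lit 5) (nat_lit 63) (nat_lit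 5) (nat_lit 363) (nat_lit 331) (nat_lit 167)) (XT.lf (nat_lit 0) (nat_lit 10968579839) (nat_lit 420) (nat_lit 10052747177) (nat_lit 504) (nat_lit 7724095820) (nat_lit 57) (nat_lit 5) (nat_lit 62) (nat_lit 5) (nat_lit 63) (nat_lit 5) (nat_lit 364) (nat_lit 331) (nat_lit 166))))))))
noncomputable def xc115 : XT := (XT.nd (nat_lit 52640) (nat_lit 0) (nat_lit 0) (XT.nd (nat_lit 51700) (nat_lit 0) (nat_lit 3276) (XT.nd (nat_lit 51230) (nat_lit 0) (nat_lit 3108) (XT.nd (nat_lit 51042) (nat_lit 0) (nat_lit 3024) (XT.nd (nat_lit 50948) (nat_lit 0) (nat_lit 3024) (XT.lf (nat_lit 0) (nat_lit 21210280359) (nat_lit 420) (nat_lit 2276724597) (nat_lit 504) (nat_lit 5849060754) (nat_lit 57) (nat_lit 5) (nat_lit 62) (nat_lit 5) (nat_lit 63) (nat_lit 5) (nat_lit 365) (nat_lit 331) (nat_lit 165)) (XT.lf (nat_lit 0) (nat_lit 2559659953) (nat_lit 1092) (nat_lit 2864257175) (nat_lit 1092) (nat_lit 2864257175)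 (nat_lit 93) (nat_lit 3) (nat_lit 106) (nat_lit 3) (nat_lit 106) (nat_lit 5) (nat_lit 332) (nat_lit 332) (nat_lit 197))) (XT.nd (nat_lit 94) (nat_lit 0) (nat_lit 84) (XT.lf (nat_lit 84) (nat_lit 63235176) (nat_lit 0) (nat_lit 5333321597) (nat_lit 1092) (nat_lit 11429497143) (nat_lit 94) (nat_lit 5) (nat_lit 93) (nat_lit 3) (nat_lit 106) (nat_lit 5) (nat_lit 333) (nat_lit 332) (nat_lit 196)) (XT.lf (nat_lit 0) (nat_lit 5738333907) (nat_lit 1008) (nat_lit 10934314500) (nat_lit 1092) (nat_lit 409161424) (nat_lit 94) (nat_lit 5) (nat_lit 106) (nat_lit 5) (nat_lit 107) (nat_lit 5) (nat_lit 334) (nat_lit 332) (nat_lit 195)))) (XT.nd (nat_lit 188) (nat_lit 0) (nat_lit 84) (XT.nd (nat_lit 94) (nat_lit 0) (nat_lit 0) (XT.lf (nat_lit 0) (nat_lit 6137539739) (nat_lit 1008) (nat_lit 4984071270) (nat_lit 1092) (nat_lit 6222474070) (nat_lit 94) (nat_lit 5) (nat_lit 106) (nat_lit 5) (nat_lit 107) (nat_lit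 5) (nat_lit 335) (nat_lit 332) (nat_lit 194)) (XT.lf (nat_lit 84) (nat_lit 1169936012) (nat_lit 0) (nat_lit 5383309058) (nat_lit 1092) (nat_lit 11061159397) (nat_lit 95) (nat_lit 5) (nat_lit 94) (nat_lit 5) (nat_lit 107) (nat_lit 5) (nat_lit 336) (nat_lit 332) (nat_lit 193))) (XT.nd (nat_lit 94) (nat_lit 0) (nat_lit 0) (XT.lf (nat_lit 0) (nat_lit 7032410877) (nat_lit 1008) (nat_lit 10281451036) (nat_lit 1092) (nat_lit 577714272) (nat_lit 95) (nat_lit 5) (nat_lit 107) (nat_lit 5) (nat_lit 108) (nat_lit 5) (nat_lit 337) (nat_lit 332) (nat_lit 192)) (XT.nd (nat_lit 94) (nat_lit 0) (nat_lit 0) (XT.lf (nat_lit 0) (nat_lit 7574439763) (nat_lit 1008) (nat_lit 3986821693) (nat_lit 1092) (nat_lit 6614629494) (nat_lit 95) (nat_lit 5) (nat_lit 107) (nat_lit 5) (nat_lit 108) (nat_lit 5) (nat_lit 338) (nat_lit 332) (nat_lit 191)) (XT.lf (nat_lit 84) (nat_lit 2550068107) (nat_lit 0) (nat_lit 5601662747)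 (nat_lit 1092) (nat_lit 10316754209) (nat_lit 96) (nat_lit 5) (nat_lit 95) (nat_lit 5) (nat_lit 108) (nat_lit 5) (nat_lit 339) (nat_lit 332) (nat_lit 190)))))) (XT.nd (nat_lit 470) (nat_lit 0) (nat_lit 84) (XT.nd (nat_lit 188) (nat_lit 0) (nat_lit 0) (XT.nd (nat_lit 94) (nat_lit 0) (nat_lit 0) (XT.lf (nat_lit 0) (nat_lit 8787691941) (nat_lit 1008) (nat_lit 9405024878) (nat_lit 1092) (nat_lit 576205471) (nat_lit 96) (nat_lit 5) (nat_lit 108) (nat_lit 5) (nat_lit 109) (nat_lit 5) (nat_lit 340) (nat_lit 332) (nat_lit 189)) (XT.lf (nat_lit 0) (nat_lit 9494210214) (nat_lit 1008) (nat_lit 2751351127) (nat_lit 1092) (nat_lit 6831571204) (nat_lit 96) (nat_lit 5) (nat_lit 108) (nat_lit 5) (nat_lit 109) (nat_lit 5) (nat_lit 341) (nat_lit 332) (nat_lit 188))) (XT.nd (nat_lit 94) (nat_lit 0) (nat_lit 84) (XT.lf (nat_lit 84) (nat_lit 4188769781) (nat_lit 0) (nat_lit 6069158368) (nat_lit 1092) (nat_lit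 9135909462) (nat_lit 97) (nat_lit 5) (nat_lit 96) (nat_lit 5) (nat_lit 109) (nat_lit 5) (nat_lit 342) (nat_lit 332) (nat_lit 187)) (XT.nd (nat_lit 94) (nat_lit 0) (nat_lit 0) (XT.lf (nat_lit 0) (nat_lit 11071207264) (nat_lit 1008) (nat_lit 8324776189) (nat_lit 1092) (nat_lit 323608097) (nat_lit 97) (nat_lit 5) (nat_lit 109) (nat_lit 5) (nat_lit 110) (nat_lit 5) (nat_lit 343) (nat_lit 332) (nat_lit 186)) (XT.lf (nat_lit 0) (nat_lit 11965864811) (nat_lit 1008) (nat_lit 1297546674) (nat_lit 1092) (nat_lit 6790323678) (nat_lit 97) (nat_lit 5) (nat_lit 109) (nat_lit 5) (nat_lit 110) (nat_lit 5) (nat_lit 344) (nat_lit 332) (nat_lit 185))))) (XT.nd (nat_lit 188) (nat_lit 0) (nat_lit 84) (XT.nd (nat_lit 94) (nat_lit 0) (nat_lit 0) (XT.lf (nat_lit 84) (nat_lit 6065585663) (nat_lit 0) (nat_lit 6877113600) (nat_lit 1092) (nat_lit 7453881744) (nat_lit 98) (nat_lit 5) (nat_lit 97) (nat_lit 5) (nat_lit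 110) (nat_lit 5) (nat_lit 345) (nat_lit 332) (nat_lit 184)) (XT.lf (nat_lit 84) (nat_lit 13680375095) (nat_lit 0) (nat_lit 277386885) (nat_lit 1092) (nat_lit 6792077305) (nat_lit 98) (nat_lit 5) (nat_lit 97) (nat_lit 5) (nat_lit 110) (nat_lit 5) (nat_lit 346) (nat_lit 332) (nat_lit 183))) (XT.nd (nat_lit 94) (nat_lit 0) (nat_lit 0) (XT.lf (nat_lit 84) (nat_lit 355390707) (nat_lit 0) (nat_lit 14711759728) (nat_lit 1092) (nat_lit 6044979142) (nat_lit 99) (nat_lit 5) (nat_lit 98) (nat_lit 5) (nat_lit 111) (nat_lit 5) (nat_lit 347) (nat_lit 332) (nat_lit 182)) (XT.nd (nat_lit 94) (nat_lit 0) (nat_lit 0) (XT.lf (nat_lit 84) (nat_lit 8153236078) (nat_lit 0) (nat_lit 8128999764) (nat_lit 1092) (nat_lit 5201233283) (nat_lit 99) (nat_lit 5) (nat_lit 98) (nat_lit 5) (nat_lit 111) (nat_lit 5) (nat_lit 348) (nat_lit 332) (nat_lit 181)) (XT.lf (nat_lit 84) (nat_lit 16188785941) (nat_lit 0) (nat_lit 1341069018)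 (nat_lit 1092) (nat_lit 4336652267) (nat_lit 99) (nat_lit 5) (nat_lit 98) (nat_lit 5) (nat_lit 111) (nat_lit 5) (nat_lit 349) (nat_lit 332) (nat_lit 180))))))) (XT.nd (nat_lit 846) (nat_lit 1344) (nat_lit 0) (XT.nd (nat_lit 376) (nat_lit 504) (nat_lit 0) (XT.nd (nat_lit 188) (nat_lit 672) (nat_lit 0) (XT.nd (nat_lit 94) (nat_lit 0) (nat_lit 0) (XT.lf (nat_lit 0) (nat_lit 2196043102) (nat_lit 1008) (nat_lit 16693044244) (nat_lit 1092) (nat_lit 3370098152) (nat_lit 87) (nat_lit 5) (nat_lit 99) (nat_lit 5) (nat_lit 100) (nat_lit 5) (nat_lit 350) (nat_lit 332) (nat_lit 179)) (XT.lf (nat_lit 0) (nat_lit 10416202771) (nat_lit 1008) (nat_lit 9942234262) (nat_lit 1092) (nat_lit 2303518574) (nat_lit 87) (nat_lit 5) (nat_lit 99) (nat_lit 5) (nat_lit 100) (nat_lit 5) (nat_lit 351) (nat_lit 332) (nat_lit 178))) (XT.nd (nat_lit 94) (nat_lit 672) (nat_lit 0) (XT.lf (nat_lit 0) (nat_lit 18887251296) (nat_lit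 1008) (nat_lit 2981371601) (nat_lit 1092) (nat_lit 1208760252) (nat_lit 87) (nat_lit 5) (nat_lit 99) (nat_lit 5) (nat_lit 100) (nat_lit 5) (nat_lit 352) (nat_lit 332) (nat_lit 177)) (XT.lf (nat_lit 0) (nat_lit 579188) (nat_lit 672) (nat_lit 19350010116) (nat_lit 84) (nat_lit 4152698248) (nat_lit 79) (nat_lit 5) (nat_lit 87) (nat_lit 5) (nat_lit 80) (nat_lit 5) (nat_lit 353) (nat_lit 332) (nat_lit 176)))) (XT.nd (nat_lit 188) (nat_lit 504) (nat_lit 0) (XT.nd (nat_lit 94) (nat_lit 0) (nat_lit 0) (XT.lf (nat_lit 0) (nat_lit 1292439945) (nat_lit 672) (nat_lit 11144248353) (nat_lit 84) (nat_lit 11503172299) (nat_lit 79) (nat_lit 5) (nat_lit 87) (nat_lit 5) (nat_lit 80) (nat_lit 5) (nat_lit 354) (nat_lit 332) (nat_lit 175)) (XT.lf (nat_lit 0) (nat_lit 2619949225) (nat_lit 672) (nat_lit 2688053354) (nat_lit 84) (nat_lit 19082123712) (nat_lit 79) (nat_lit 5) (nat_lit 87) (nat_lit 5) (nat_lit 80)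 (nat_lit 5) (nat_lit 355) (nat_lit 332) (nat_lit 174))) (XT.nd (nat_lit 94) (nat_lit 0) (nat_lit 0) (XT.lf (nat_lit 0) (nat_lit 4066238894) (nat_lit 588) (nat_lit 18723121716) (nat_lit 84) (nat_lit 2062604994) (nat_lit 73) (nat_lit 5) (nat_lit 80) (nat_lit 5) (nat_lit 74) (nat_lit 5) (nat_lit 356) (nat_lit 332) (nat_lit 173)) (XT.nd (nat_lit 94) (nat_lit 0) (nat_lit 0) (XT.lf (nat_lit 0) (nat_lit 5635824334) (nat_lit 588) (nat_lit 10109719723) (nat_lit 84) (nat_lit 9580166771) (nat_lit 73) (nat_lit 5) (nat_lit 80) (nat_lit 5) (nat_lit 74) (nat_lit 5) (nat_lit 357) (nat_lit 332) (nat_lit 172)) (XT.lf (nat_lit 0) (nat_lit 7250020058) (nat_lit 588) (nat_lit 1233126223) (nat_lit 84) (nat_lit 17331141868) (nat_lit 73) (nat_lit 5) (nat_lit 80) (nat_lit 5) (nat_lit 74) (nat_lit 5) (nat_lit 358) (nat_lit 332) (nat_lit 171)))))) (XT.nd (nat_lit 470) (nat_lit 420) (nat_lit 0) (XT.nd (nat_lit 188)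 (nat_lit 420) (nat_lit 0) (XT.nd (nat_lit 94) (nat_lit 0) (nat_lit 0) (XT.lf (nat_lit 0) (nat_lit 8077679946) (nat_lit 504) (nat_lit 912782305) (nat_lit 588) (nat_lit 17325206643) (nat_lit 67) (nat_lit 5) (nat_lit 73) (nat_lit 5) (nat_lit 74) (nat_lit 5) (nat_lit 359) (nat_lit 332) (nat_lit 170)) (XT.lf (nat_lit 0) (nat_lit 10862391331) (nat_lit 588) (nat_lit 9201246052) (nat_lit 84) (nat_lit 6766570855) (nat_lit 67) (nat_lit 5) (nat_lit 74) (nat_lit 5) (nat_lit 68) (nat_lit 5) (nat_lit 360) (nat_lit 332) (nat_lit 169))) (XT.nd (nat_lit 94) (nat_lit 0) (nat_lit 0) (XT.lf (nat_lit 0) (nat_lit 104712986) (nat_lit 420) (nat_lit 12694285249) (nat_lit 504) (nat_lit 14561512721) (nat_lit 62) (nat_lit 5) (nat_lit 67) (nat_lit 5) (nat_lit 68) (nat_lit 5) (nat_lit 361) (nat_lit 332) (nat_lit 168)) (XT.nd (nat_lit 94) (nat_lit 0) (nat_lit 0) (XT.lf (nat_lit 0) (nat_lit 9890558762) (nat_lit 420) (nat_lit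 4997472712) (nat_lit 504) (nat_lit 13016375630) (nat_lit 62) (nat_lit 5) (nat_lit 67) (nat_lit 5) (nat_lit 68) (nat_lit 5) (nat_lit 362) (nat_lit 332) (nat_lit 167)) (XT.lf (nat_lit 0) (nat_lit 17067428545) (nat_lit 504) (nat_lit 8518219868) (nat_lit 84) (nat_lit 2878739534) (nat_lit 62) (nat_lit 5) (nat_lit 68) (nat_lit 5) (nat_lit 63) (nat_lit 5) (nat_lit 363) (nat_lit 332) (nat_lit 166))))) (XT.nd (nat_lit 51136) (nat_lit 0) (nat_lit 3024) (XT.nd (nat_lit 94) (nat_lit 0) (nat_lit 0) (XT.lf (nat_lit 0) (nat_lit 1242120356) (nat_lit 420) (nat_lit 18132266477) (nat_lit 504) (nat_lit 9665498471) (nat_lit 57) (nat_lit 5) (nat_lit 62) (nat_lit 5) (nat_lit 63) (nat_lit 5) (nat_lit 364) (nat_lit 332) (nat_lit 165)) (XT.lf (nat_lit 0) (nat_lit 11482082721) (nat_lit 420) (nat_lit 10356324632) (nat_lit 504) (nat_lit 7792180374) (nat_lit 57) (nat_lit 5) (nat_lit 62) (nat_lit 5) (nat_lit 63) (nat_lit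 5) (nat_lit 365) (nat_lit 332) (nat_lit 164))) (XT.nd (nat_lit 94) (nat_lit 0) (nat_lit 0) (XT.lf (nat_lit 0) (nat_lit 2834312675) (nat_lit 1092) (nat_lit 2851828946) (nat_lit 1092) (nat_lit 2851828946) (nat_lit 93) (nat_lit 3) (nat_lit 106) (nat_lit 3) (nat_lit 106) (nat_lit 5) (nat_lit 333) (nat_lit 333) (nat_lit 195)) (XT.nd (nat_lit 94) (nat_lit 0) (nat_lit 84) (XT.lf (nat_lit 84) (nat_lit 265586343) (nat_lit 0) (nat_lit 5679113403) (nat_lit 1092) (nat_lit 11389055135) (nat_lit 94) (nat_lit 5) (nat_lit 93) (nat_lit 3) (nat_lit 106) (nat_lit 5) (nat_lit 334) (nat_lit 333) (nat_lit 194)) (XT.lf (nat_lit 0) (nat_lit 6283884274) (nat_lit 1008) (nat_lit 11063687796) (nat_lit 1092) (nat_lit 250339130) (nat_lit 94) (nat_lit 5) (nat_lit 106) (nat_lit 5) (nat_lit 107) (nat_lit 5) (nat_lit 335) (nat_lit 333) (nat_lit 193))))))))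
noncomputable def xc116 : XT := (XT.nd (nat_lit 1692) (nat_lit 2520) (nat_lit 0) (XT.nd (nat_lit 846) (nat_lit 588) (nat_lit 0) (XT.nd (nat_lit 376) (nat_lit 0) (nat_lit 84) (XT.nd (nat_lit 188) (nat_lit 0) (nat_lit 84) (XT.nd (nat_lit 94) (nat_lit 0) (nat_lit 0) (XT.lf (nat_lit 0) (nat_lit 6684410663) (nat_lit 1008) (nat_lit 4935288970) (nat_lit 1092) (nat_lit 6249021301) (nat_lit 94) (nat_lit 5) (nat_lit 106) (nat_lit 5) (nat_lit 107) (nat_lit 5) (nat_lit 336) (nat_lit 333) (nat_lit 192)) (XT.lf (nat_lit 84) (nat_lit 1407434424) (nat_lit 0) (nat_lit 5696842239) (nat_lit 1092) (nat_lit 11043473487) (nat_lit 95) (nat_lit 5) (nat_lit 94) (nat_lit 5) (nat_lit 107) (nat_lit 5) (nat_lit 337) (nat_lit 333) (nat_lit 191))) (XT.nd (nat_lit 94) (nat_lit 0) (nat_lit 0) (XT.lf (nat_lit 0) (nat_lit 7586425511) (nat_lit 1008) (nat_lit 10391266179) (nat_lit 1092) (nat_lit 456248131) (nat_lit 95) (nat_lit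 5) (nat_lit 107) (nat_lit 5) (nat_lit 108) (nat_lit 5) (nat_lit 338) (nat_lit 333) (nat_lit 190)) (XT.lf (nat_lit 0) (nat_lit 8135154182) (nat_lit 1008) (nat_lit 3907784806) (nat_lit 1092) (nat_lit 6684498446) (nat_lit 95) (nat_lit 5) (nat_lit 107) (nat_lit 5) (nat_lit 108) (nat_lit 5) (nat_lit 339) (nat_lit 333) (nat_lit 189)))) (XT.nd (nat_lit 188) (nat_lit 0) (nat_lit 84) (XT.nd (nat_lit 94) (nat_lit 0) (nat_lit 84) (XT.lf (nat_lit 84) (nat_lit 2829697147) (nat_lit 0) (nat_lit 5892834566) (nat_lit 1092) (nat_lit 10306866561) (nat_lit 96) (nat_lit 5) (nat_lit 95) (nat_lit 5) (nat_lit 108) (nat_lit 5) (nat_lit 340) (nat_lit 333) (nat_lit 188)) (XT.lf (nat_lit 0) (nat_lit 9367512319) (nat_lit 1008) (nat_lit 9489643142) (nat_lit 1092) (nat_lit 482377732) (nat_lit 96) (nat_lit 5) (nat_lit 108) (nat_lit 5) (nat_lit 109) (nat_lit 5) (nat_lit 341) (nat_lit 333) (nat_lit 187))) (XT.nd (nat_lit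 94) (nat_lit 0) (nat_lit 0) (XT.lf (nat_lit 0) (nat_lit 10086689729) (nat_lit 1008) (nat_lit 2635927680) (nat_lit 1092) (nat_lit 6935018089) (nat_lit 96) (nat_lit 5) (nat_lit 108) (nat_lit 5) (nat_lit 109) (nat_lit 5) (nat_lit 342) (nat_lit 333) (nat_lit 186)) (XT.nd (nat_lit 94) (nat_lit 0) (nat_lit 84) (XT.lf (nat_lit 84) (nat_lit 4517304914) (nat_lit 0) (nat_lit 6349783955) (nat_lit 1092) (nat_lit 9117335837) (nat_lit 97) (nat_lit 5) (nat_lit 96) (nat_lit 5) (nat_lit 109) (nat_lit 5) (nat_lit 343) (nat_lit 333) (nat_lit 185)) (XT.lf (nat_lit 0) (nat_lit 11695935075) (nat_lit 1008) (nat_lit 8378942631) (nat_lit 1092) (nat_lit 245746273) (nat_lit 97) (nat_lit 5) (nat_lit 109) (nat_lit 5) (nat_lit 110) (nat_lit 5) (nat_lit 344) (nat_lit 333) (nat_lit 184)))))) (XT.nd (nat_lit 376) (nat_lit 840) (nat_lit 0) (XT.nd (nat_lit 188) (nat_lit 0) (nat_lit 0) (XT.nd (nat_lit 94) (nat_lit 0) (nat_lit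 0) (XT.lf (nat_lit 0) (nat_lit 12609862281) (nat_lit 1008) (nat_lit 1139999893) (nat_lit 1092) (nat_lit 6915572815) (nat_lit 97) (nat_lit 5) (nat_lit 109) (nat_lit 5) (nat_lit 110) (nat_lit 5) (nat_lit 345) (nat_lit 333) (nat_lit 183)) (XT.lf (nat_lit 84) (nat_lit 6449387296) (nat_lit 0) (nat_lit 7161323144) (nat_lit 1092) (nat_lit 7408438067) (nat_lit 98) (nat_lit 5) (nat_lit 97) (nat_lit 5) (nat_lit 110) (nat_lit 5) (nat_lit 346) (nat_lit 333) (nat_lit 182))) (XT.nd (nat_lit 94) (nat_lit 0) (nat_lit 84) (XT.lf (nat_lit 84) (nat_lit 14294348854) (nat_lit 0) (nat_lit 354869508) (nat_lit 1092) (nat_lit 6734431884) (nat_lit 98) (nat_lit 5) (nat_lit 97) (nat_lit 5) (nat_lit 110) (nat_lit 5) (nat_lit 347) (nat_lit 333) (nat_lit 181)) (XT.lf (nat_lit 84) (nat_lit 564382524) (nat_lit 0) (nat_lit 15222135938) (nat_lit 1092) (nat_lit 5970896401) (nat_lit 99) (nat_lit 5) (nat_lit 98) (nat_lit 5)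 (nat_lit 111) (nat_lit 5) (nat_lit 348) (nat_lit 333) (nat_lit 180)))) (XT.nd (nat_lit 188) (nat_lit 924) (nat_lit 0) (XT.nd (nat_lit 94) (nat_lit 0) (nat_lit 0) (XT.lf (nat_lit 84) (nat_lit 8598008419) (nat_lit 0) (nat_lit 8433677378) (nat_lit 1092) (nat_lit 5108856486) (nat_lit 99) (nat_lit 5) (nat_lit 98) (nat_lit 5) (nat_lit 111) (nat_lit 5) (nat_lit 349) (nat_lit 333) (nat_lit 179)) (XT.lf (nat_lit 84) (nat_lit 16876886630) (nat_lit 0) (nat_lit 1433736844) (nat_lit 1092) (nat_lit 4225099129) (nat_lit 99) (nat_lit 5) (nat_lit 98) (nat_lit 5) (nat_lit 111) (nat_lit 5) (nat_lit 350) (nat_lit 333) (nat_lit 178))) (XT.nd (nat_lit 94) (nat_lit 0) (nat_lit 0) (XT.lf (nat_lit 0) (nat_lit 2457543710) (nat_lit 1008) (nat_lit 17248739107) (nat_lit 1092) (nat_lit 3234506820) (nat_lit 87) (nat_lit 5) (nat_lit 99) (nat_lit 5) (nat_lit 100) (nat_lit 5) (nat_lit 351) (nat_lit 333) (nat_lit 177)) (XT.nd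 (nat_lit 94) (nat_lit 0) (nat_lit 0) (XT.lf (nat_lit 0) (nat_lit 10926712499) (nat_lit 1008) (nat_lit 10287505107) (nat_lit 1092) (nat_lit 2142081505) (nat_lit 87) (nat_lit 5) (nat_lit 99) (nat_lit 5) (nat_lit 100) (nat_lit 5) (nat_lit 352) (nat_lit 333) (nat_lit 176)) (XT.lf (nat_lit 0) (nat_lit 19654722566) (nat_lit 1008) (nat_lit 3109741340) (nat_lit 1092) (nat_lit 1020386869) (nat_lit 87) (nat_lit 5) (nat_lit 99) (nat_lit 5) (nat_lit 100) (nat_lit 5) (nat_lit 353) (nat_lit 333) (nat_lit 175))))))) (XT.nd (nat_lit 846) (nat_lit 420) (nat_lit 0) (XT.nd (nat_lit 376) (nat_lit 924) (nat_lit 0) (XT.nd (nat_lit 188) (nat_lit 504) (nat_lit 0) (XT.nd (nat_lit 94) (nat_lit 0) (nat_lit 0) (XT.lf (nat_lit 0) (nat_lit 216775887) (nat_lit 672) (nat_lit 19755980898) (nat_lit 84) (nat_lit 4251324866) (nat_lit 79) (nat_lit 5) (nat_lit 87) (nat_lit 5) (nat_lit 80) (nat_lit 5) (nat_lit 354) (nat_lit 333)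 (nat_lit 174)) (XT.lf (nat_lit 0) (nat_lit 1542184287) (nat_lit 672) (nat_lit 11301670069) (nat_lit 84) (nat_lit 11830568867) (nat_lit 79) (nat_lit 5) (nat_lit 87) (nat_lit 5) (nat_lit 80) (nat_lit 5) (nat_lit 355) (nat_lit 333) (nat_lit 173))) (XT.nd (nat_lit 94) (nat_lit 504) (nat_lit 0) (XT.lf (nat_lit 0) (nat_lit 2904541758) (nat_lit 672) (nat_lit 2588987292) (nat_lit 84) (nat_lit 19645345810) (nat_lit 79) (nat_lit 5) (nat_lit 87) (nat_lit 5) (nat_lit 80) (nat_lit 5) (nat_lit 356) (nat_lit 333) (nat_lit 172)) (XT.lf (nat_lit 0) (nat_lit 4391158912) (nat_lit 588) (nat_lit 19115625824) (nat_lit 84) (nat_lit 2108417480) (nat_lit 73) (nat_lit 5) (nat_lit 80) (nat_lit 5) (nat_lit 74) (nat_lit 5) (nat_lit 357) (nat_lit 333) (nat_lit 171)))) (XT.nd (nat_lit 188) (nat_lit 924) (nat_lit 0) (XT.nd (nat_lit 94) (nat_lit 0) (nat_lit 0) (XT.lf (nat_lit 0) (nat_lit 6003422000) (nat_lit 588) (nat_lit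 10240858507) (nat_lit 84) (nat_lit 9859568752) (nat_lit 73) (nat_lit 5) (nat_lit 80) (nat_lit 5) (nat_lit 74) (nat_lit 5) (nat_lit 358) (nat_lit 333) (nat_lit 170)) (XT.lf (nat_lit 0) (nat_lit 7661858083) (nat_lit 588) (nat_lit 1094570860) (nat_lit 84) (nat_lit 17851352766) (nat_lit 73) (nat_lit 5) (nat_lit 80) (nat_lit 5) (nat_lit 74) (nat_lit 5) (nat_lit 359) (nat_lit 333) (nat_lit 169))) (XT.nd (nat_lit 94) (nat_lit 420) (nat_lit 0) (XT.lf (nat_lit 0) (nat_lit 8503080538) (nat_lit 504) (nat_lit 949284068) (nat_lit 588) (nat_lit 17672489775) (nat_lit 67) (nat_lit 5) (nat_lit 73) (nat_lit 5) (nat_lit 74) (nat_lit 5) (nat_lit 360) (nat_lit 333) (nat_lit 168)) (XT.nd (nat_lit 94) (nat_lit 420) (nat_lit 0) (XT.lf (nat_lit 0) (nat_lit 11376736157) (nat_lit 588) (nat_lit 9310273077) (nat_lit 84) (nat_lit 6968536114) (nat_lit 67) (nat_lit 5) (nat_lit 74) (nat_lit 5) (nat_lit 68) (nat_lit 5) (nat_lit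 361) (nat_lit 333) (nat_lit 167)) (XT.lf (nat_lit 0) (nat_lit 282386707) (nat_lit 420) (nat_lit 13087381132) (nat_lit 504) (nat_lit 14832658387) (nat_lit 62) (nat_lit 5) (nat_lit 67) (nat_lit 5) (nat_lit 68) (nat_lit 5) (nat_lit 362) (nat_lit 333) (nat_lit 166)))))) (XT.nd (nat_lit 51512) (nat_lit 0) (nat_lit 3108) (XT.nd (nat_lit 188) (nat_lit 420) (nat_lit 0) (XT.nd (nat_lit 94) (nat_lit 0) (nat_lit 0) (XT.lf (nat_lit 0) (nat_lit 10366349030) (nat_lit 420) (nat_lit 5151980245) (nat_lit 504) (nat_lit 13245042121) (nat_lit 62) (nat_lit 5) (nat_lit 67) (nat_lit 5) (nat_lit 68) (nat_lit 5) (nat_lit 363) (nat_lit 333) (nat_lit 165)) (XT.lf (nat_lit 0) (nat_lit 17760217116) (nat_lit 504) (nat_lit 8612302951) (nat_lit 84) (nat_lit 2968374037) (nat_lit 62) (nat_lit 5) (nat_lit 68) (nat_lit 5) (nat_lit 63) (nat_lit 5) (nat_lit 364) (nat_lit 333) (nat_lit 164))) (XT.nd (nat_lit 51136) (nat_lit 0)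 (nat_lit 3024) (XT.lf (nat_lit 0) (nat_lit 1448886908) (nat_lit 420) (nat_lit 18686551309) (nat_lit 504) (nat_lit 9798919014) (nat_lit 57) (nat_lit 5) (nat_lit 62) (nat_lit 5) (nat_lit 63) (nat_lit 5) (nat_lit 365) (nat_lit 333) (nat_lit 163)) (XT.nd (nat_lit 94) (nat_lit 0) (nat_lit 0) (XT.lf (nat_lit 0) (nat_lit 3105911484) (nat_lit 1092) (nat_lit 2845010888) (nat_lit 1092) (nat_lit 2845010888) (nat_lit 93) (nat_lit 3) (nat_lit 106) (nat_lit 3) (nat_lit 106) (nat_lit 5) (nat_lit 334) (nat_lit 334) (nat_lit 193)) (XT.lf (nat_lit 84) (nat_lit 462340900) (nat_lit 0) (nat_lit 6024935870) (nat_lit 1092) (nat_lit 11370741523) (nat_lit 94) (nat_lit 5) (nat_lit 93) (nat_lit 3) (nat_lit 106) (nat_lit 5) (nat_lit 335) (nat_lit 334) (nat_lit 192))))) (XT.nd (nat_lit 188) (nat_lit 0) (nat_lit 0) (XT.nd (nat_lit 94) (nat_lit 0) (nat_lit 0) (XT.lf (nat_lit 0) (nat_lit 6824569451) (nat_lit 1008) (nat_lit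 11209486066) (nat_lit 1092) (nat_lit 96751957) (nat_lit 94) (nat_lit 5) (nat_lit 106) (nat_lit 5) (nat_lit 107) (nat_lit 5) (nat_lit 336) (nat_lit 334) (nat_lit 191)) (XT.lf (nat_lit 0) (nat_lit 7227112132) (nat_lit 1008) (nat_lit 4897035545) (nat_lit 1092) (nat_lit 6286244661) (nat_lit 94) (nat_lit 5) (nat_lit 106) (nat_lit 5) (nat_lit 107) (nat_lit 5) (nat_lit 337) (nat_lit 334) (nat_lit 190))) (XT.nd (nat_lit 94) (nat_lit 0) (nat_lit 84) (XT.lf (nat_lit 84) (nat_lit 1640376066) (nat_lit 0) (nat_lit 6011408582) (nat_lit 1092) (nat_lit 11046597194) (nat_lit 95) (nat_lit 5) (nat_lit 94) (nat_lit 5) (nat_lit 107) (nat_lit 5) (nat_lit 338) (nat_lit 334) (nat_lit 189)) (XT.nd (nat_lit 94) (nat_lit 0) (nat_lit 0) (XT.lf (nat_lit 0) (nat_lit 8137712157) (nat_lit 1008) (nat_lit 10516859680) (nat_lit 1092) (nat_lit 339271976) (nat_lit 95) (nat_lit 5) (nat_lit 107) (nat_lit 5) (nat_lit 108) (nat_lit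 5) (nat_lit 339) (nat_lit 334) (nat_lit 188)) (XT.lf (nat_lit 0) (nat_lit 8693946730) (nat_lit 1008) (nat_lit 3838299801) (nat_lit 1092) (nat_lit 6764540549) (nat_lit 95) (nat_lit 5) (nat_lit 107) (nat_lit 5) (nat_lit 108) (nat_lit 5) (nat_lit 340) (nat_lit 334) (nat_lit 187))))))))
noncomputable def xc117 : XT := (XT.nd (nat_lit 1786) (nat_lit 924) (nat_lit 0) (XT.nd (nat_lit 846) (nat_lit 1848) (nat_lit 0) (XT.nd (nat_lit 376) (nat_lit 0) (nat_lit 168) (XT.nd (nat_lit 188) (nat_lit 0) (nat_lit 84) (XT.nd (nat_lit 94) (nat_lit 0) (nat_lit 84) (XT.lf (nat_lit 84) (nat_lit 3106114173) (nat_lit 0) (nat_lit 6186071784) (nat_lit 1092) (nat_lit 10316201509) (nat_lit 96) (nat_lit 5) (nat_lit 95) (nat_lit 5) (nat_lit 108) (nat_lit 5) (nat_lit 341) (nat_lit 334) (nat_lit 186)) (XT.lf (nat_lit 0) (nat_lit 9947099186) (nat_lit 1008) (nat_lit 9589141835) (nat_lit 1092) (nat_lit 392256929) (nat_lit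 96) (nat_lit 5) (nat_lit 108) (nat_lit 5) (nat_lit 109) (nat_lit 5) (nat_lit 342) (nat_lit 334) (nat_lit 185))) (XT.nd (nat_lit 94) (nat_lit 0) (nat_lit 0) (XT.lf (nat_lit 0) (nat_lit 10679875642) (nat_lit 1008) (nat_lit 2528814819) (nat_lit 1092) (nat_lit 7048088507) (nat_lit 96) (nat_lit 5) (nat_lit 108) (nat_lit 5) (nat_lit 109) (nat_lit 5) (nat_lit 343) (nat_lit 334) (nat_lit 184)) (XT.lf (nat_lit 84) (nat_lit 4844256285) (nat_lit 0) (nat_lit 6633631088) (nat_lit 1092) (nat_lit 9116061778) (nat_lit 97) (nat_lit 5) (nat_lit 96) (nat_lit 5) (nat_lit 109) (nat_lit 5) (nat_lit 344) (nat_lit 334) (nat_lit 183)))) (XT.nd (nat_lit 188) (nat_lit 0) (nat_lit 0) (XT.nd (nat_lit 94) (nat_lit 0) (nat_lit 0) (XT.lf (nat_lit 0) (nat_lit 12323354514) (nat_lit 1008) (nat_lit 8446865674) (nat_lit 1092) (nat_lit 170676826) (nat_lit 97) (nat_lit 5) (nat_lit 109) (nat_lit 5) (nat_lit 110) (nat_lit 5) (nat_lit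 345) (nat_lit 334) (nat_lit 182)) (XT.lf (nat_lit 0) (nat_lit 13257650118) (nat_lit 1008) (nat_lit 989283461) (nat_lit 1092) (nat_lit 7049754232) (nat_lit 97) (nat_lit 5) (nat_lit 109) (nat_lit 5) (nat_lit 110) (nat_lit 5) (nat_lit 346) (nat_lit 334) (nat_lit 181))) (XT.nd (nat_lit 94) (nat_lit 0) (nat_lit 0) (XT.lf (nat_lit 84) (nat_lit 6833491077) (nat_lit 0) (nat_lit 7450136606) (nat_lit 1092) (nat_lit 7377964035) (nat_lit 98) (nat_lit 5) (nat_lit 97) (nat_lit 5) (nat_lit 110) (nat_lit 5) (nat_lit 347) (nat_lit 334) (nat_lit 180)) (XT.nd (nat_lit 94) (nat_lit 0) (nat_lit 84) (XT.lf (nat_lit 84) (nat_lit 14916108755) (nat_lit 0) (nat_lit 430673998) (nat_lit 1092) (nat_lit 6690885390) (nat_lit 98) (nat_lit 5) (nat_lit 97) (nat_lit 5) (nat_lit 110) (nat_lit 5) (nat_lit 348) (nat_lit 334) (nat_lit 179)) (XT.lf (nat_lit 84) (nat_lit 768126707) (nat_lit 0) (nat_lit 15745116839) (nat_lit 1092)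 (nat_lit 5910004832) (nat_lit 99) (nat_lit 5) (nat_lit 98) (nat_lit 5) (nat_lit 111) (nat_lit 5) (nat_lit 349) (nat_lit 334) (nat_lit 178)))))) (XT.nd (nat_lit 470) (nat_lit 1176) (nat_lit 0) (XT.nd (nat_lit 188) (nat_lit 924) (nat_lit 0) (XT.nd (nat_lit 94) (nat_lit 0) (nat_lit 0) (XT.lf (nat_lit 84) (nat_lit 9045194910) (nat_lit 0) (nat_lit 8744679754) (nat_lit 1092) (nat_lit 5028638062) (nat_lit 99) (nat_lit 5) (nat_lit 98) (nat_lit 5) (nat_lit 111) (nat_lit 5) (nat_lit 350) (nat_lit 334) (nat_lit 177)) (XT.lf (nat_lit 84) (nat_lit 17575286633) (nat_lit 0) (nat_lit 1526250947) (nat_lit 1092) (nat_lit 4124658215) (nat_lit 99) (nat_lit 5) (nat_lit 98) (nat_lit 5) (nat_lit 111) (nat_lit 5) (nat_lit 351) (nat_lit 334) (nat_lit 176))) (XT.nd (nat_lit 94) (nat_lit 0) (nat_lit 0) (XT.lf (nat_lit 0) (nat_lit 2715694046) (nat_lit 1008) (nat_lit 17819397239) (nat_lit 1092) (nat_lit 3108931580)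 (nat_lit 87) (nat_lit 5) (nat_lit 99) (nat_lit 5) (nat_lit 100) (nat_lit 5) (nat_lit 352) (nat_lit 334) (nat_lit 175)) (XT.nd (nat_lit 94) (nat_lit 0) (nat_lit 0) (XT.lf (nat_lit 0) (nat_lit 11441935718) (nat_lit 1008) (nat_lit 10641284127) (nat_lit 1092) (nat_lit 1989431762) (nat_lit 87) (nat_lit 5) (nat_lit 99) (nat_lit 5) (nat_lit 100) (nat_lit 5) (nat_lit 353) (nat_lit 334) (nat_lit 174)) (XT.lf (nat_lit 0) (nat_lit 20435207260) (nat_lit 1008) (nat_lit 3239961325) (nat_lit 1092) (nat_lit 839551094) (nat_lit 87) (nat_lit 5) (nat_lit 99) (nat_lit 5) (nat_lit 100) (nat_lit 5) (nat_lit 354) (nat_lit 334) (nat_lit 173))))) (XT.nd (nat_lit 188) (nat_lit 504) (nat_lit 0) (XT.nd (nat_lit 94) (nat_lit 0) (nat_lit 0) (XT.lf (nat_lit 0) (nat_lit 426870046) (nat_lit 672) (nat_lit 20186020590) (nat_lit 84) (nat_lit 4354792199) (nat_lit 79) (nat_lit 5) (nat_lit 87) (nat_lit 5) (nat_lit 80) (nat_lit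 5) (nat_lit 355) (nat_lit 334) (nat_lit 172)) (XT.lf (nat_lit 0) (nat_lit 1787251076) (nat_lit 672) (nat_lit 11475110381) (nat_lit 84) (nat_lit 12169844400) (nat_lit 79) (nat_lit 5) (nat_lit 87) (nat_lit 5) (nat_lit 80) (nat_lit 5) (nat_lit 356) (nat_lit 334) (nat_lit 171))) (XT.nd (nat_lit 94) (nat_lit 504) (nat_lit 0) (XT.lf (nat_lit 0) (nat_lit 3185910463) (nat_lit 672) (nat_lit 2497653793) (nat_lit 84) (nat_lit 20227705457) (nat_lit 79) (nat_lit 5) (nat_lit 87) (nat_lit 5) (nat_lit 80) (nat_lit 5) (nat_lit 357) (nat_lit 334) (nat_lit 170)) (XT.nd (nat_lit 94) (nat_lit 0) (nat_lit 0) (XT.lf (nat_lit 0) (nat_lit 4714372241) (nat_lit 588) (nat_lit 19531427948) (nat_lit 84) (nat_lit 2156723923) (nat_lit 73) (nat_lit 5) (nat_lit 80) (nat_lit 5) (nat_lit 74) (nat_lit 5) (nat_lit 358) (nat_lit 334) (nat_lit 169)) (XT.lf (nat_lit 0) (nat_lit 6370990161) (nat_lit 588) (nat_lit 10386858316) (nat_lit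 84) (nat_lit 10148673676) (nat_lit 73) (nat_lit 5) (nat_lit 80) (nat_lit 5) (nat_lit 74) (nat_lit 5) (nat_lit 359) (nat_lit 334) (nat_lit 168))))))) (XT.nd (nat_lit 51982) (nat_lit 0) (nat_lit 2688) (XT.nd (nat_lit 376) (nat_lit 0) (nat_lit 0) (XT.nd (nat_lit 188) (nat_lit 420) (nat_lit 0) (XT.nd (nat_lit 94) (nat_lit 504) (nat_lit 0) (XT.lf (nat_lit 0) (nat_lit 8075381579) (nat_lit 588) (nat_lit 962191397) (nat_lit 84) (nat_lit 18388700369) (nat_lit 73) (nat_lit 5) (nat_lit 80) (nat_lit 5) (nat_lit 74) (nat_lit 5) (nat_lit 360) (nat_lit 334) (nat_lit 167)) (XT.lf (nat_lit 0) (nat_lit 8931303443) (nat_lit 504) (nat_lit 986431359) (nat_lit 588) (nat_lit 18041780761) (nat_lit 67) (nat_lit 5) (nat_lit 73) (nat_lit 5) (nat_lit 74) (nat_lit 5) (nat_lit 361) (nat_lit 334) (nat_lit 166))) (XT.nd (nat_lit 94) (nat_lit 420) (nat_lit 0) (XT.lf (nat_lit 0) (nat_lit 11896505486) (nat_lit 588) (nat_lit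 9433117255) (nat_lit 84) (nat_lit 7177224211) (nat_lit 67) (nat_lit 5) (nat_lit 74) (nat_lit 5) (nat_lit 68) (nat_lit 5) (nat_lit 362) (nat_lit 334) (nat_lit 165)) (XT.lf (nat_lit 0) (nat_lit 455236666) (nat_lit 420) (nat_lit 13492688277) (nat_lit 504) (nat_lit 15122886749) (nat_lit 62) (nat_lit 5) (nat_lit 67) (nat_lit 5) (nat_lit 68) (nat_lit 5) (nat_lit 363) (nat_lit 334) (nat_lit 164)))) (XT.nd (nat_lit 51324) (nat_lit 0) (nat_lit 2604) (XT.nd (nat_lit 94) (nat_lit 0) (nat_lit 0) (XT.lf (nat_lit 0) (nat_lit 10846867801) (nat_lit 420) (nat_lit 5311302040) (nat_lit 504) (nat_lit 13491153414) (nat_lit 62) (nat_lit 5) (nat_lit 67) (nat_lit 5) (nat_lit 68) (nat_lit 5) (nat_lit 364) (nat_lit 334) (nat_lit 163)) (XT.lf (nat_lit 0) (nat_lit 18464786003) (nat_lit 504) (nat_lit 8719370918) (nat_lit 84) (nat_lit 3060763897) (nat_lit 62) (nat_lit 5) (nat_lit 68) (nat_lit 5) (nat_lit 63) (nat_lit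 5) (nat_lit 365) (nat_lit 334) (nat_lit 162))) (XT.nd (nat_lit 94) (nat_lit 0) (nat_lit 0) (XT.lf (nat_lit 0) (nat_lit 3375046911) (nat_lit 1092) (nat_lit 2843621795) (nat_lit 1092) (nat_lit 2843621795) (nat_lit 93) (nat_lit 3) (nat_lit 106) (nat_lit 3) (nat_lit 106) (nat_lit 5) (nat_lit 335) (nat_lit 335) (nat_lit 191)) (XT.nd (nat_lit 94) (nat_lit 0) (nat_lit 0) (XT.lf (nat_lit 84) (nat_lit 654028405) (nat_lit 0) (nat_lit 6371423067) (nat_lit 1092) (nat_lit 11373857326) (nat_lit 94) (nat_lit 5) (nat_lit 93) (nat_lit 3) (nat_lit 106) (nat_lit 5) (nat_lit 336) (nat_lit 335) (nat_lit 190)) (XT.lf (nat_lit 84) (nat_lit 7308945819) (nat_lit 0) (nat_lit 53109557) (nat_lit 1092) (nat_lit 11318900454) (nat_lit 94) (nat_lit 5) (nat_lit 93) (nat_lit 3) (nat_lit 106) (nat_lit 5) (nat_lit 337) (nat_lit 335) (nat_lit 189)))))) (XT.nd (nat_lit 470) (nat_lit 0) (nat_lit 168) (XT.nd (nat_lit 188) (nat_lit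 0) (nat_lit 84) (XT.nd (nat_lit 94) (nat_lit 0) (nat_lit 0) (XT.lf (nat_lit 0) (nat_lit 7766766011) (nat_lit 1008) (nat_lit 4868924174) (nat_lit 1092) (nat_lit 6333891488) (nat_lit 94) (nat_lit 5) (nat_lit 106) (nat_lit 5) (nat_lit 107) (nat_lit 5) (nat_lit 338) (nat_lit 335) (nat_lit 188)) (XT.lf (nat_lit 84) (nat_lit 1869325673) (nat_lit 0) (nat_lit 6327554624) (nat_lit 1092) (nat_lit 11069910552) (nat_lit 95) (nat_lit 5) (nat_lit 94) (nat_lit 5) (nat_lit 107) (nat_lit 5) (nat_lit 339) (nat_lit 335) (nat_lit 187))) (XT.nd (nat_lit 94) (nat_lit 0) (nat_lit 0) (XT.lf (nat_lit 0) (nat_lit 8687365103) (nat_lit 1008) (nat_lit 10657987727) (nat_lit 1092) (nat_lit 226436014) (nat_lit 95) (nat_lit 5) (nat_lit 107) (nat_lit 5) (nat_lit 108) (nat_lit 5) (nat_lit 340) (nat_lit 335) (nat_lit 186)) (XT.nd (nat_lit 94) (nat_lit 0) (nat_lit 0) (XT.lf (nat_lit 0) (nat_lit 9251901241) (nat_lit 1008) (nat_lit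 3777951884) (nat_lit 1092) (nat_lit 6854596889) (nat_lit 95) (nat_lit 5) (nat_lit 107) (nat_lit 5) (nat_lit 108) (nat_lit 5) (nat_lit 341) (nat_lit 335) (nat_lit 185)) (XT.lf (nat_lit 84) (nat_lit 3379923315) (nat_lit 0) (nat_lit 6481850736) (nat_lit 1092) (nat_lit 10344198208) (nat_lit 96) (nat_lit 5) (nat_lit 95) (nat_lit 5) (nat_lit 108) (nat_lit 5) (nat_lit 342) (nat_lit 335) (nat_lit 184))))) (XT.nd (nat_lit 188) (nat_lit 0) (nat_lit 0) (XT.nd (nat_lit 94) (nat_lit 0) (nat_lit 0) (XT.lf (nat_lit 0) (nat_lit 10527523791) (nat_lit 1008) (nat_lit 9703256232) (nat_lit 1092) (nat_lit 305566125) (nat_lit 96) (nat_lit 5) (nat_lit 108) (nat_lit 5) (nat_lit 109) (nat_lit 5) (nat_lit 343) (nat_lit 335) (nat_lit 183)) (XT.lf (nat_lit 0) (nat_lit 11274835909) (nat_lit 1008) (nat_lit 2429565983) (nat_lit 1092) (nat_lit 7170700716) (nat_lit 96) (nat_lit 5) (nat_lit 108) (nat_lit 5) (nat_lit 109)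 (nat_lit 5) (nat_lit 344) (nat_lit 335) (nat_lit 182))) (XT.nd (nat_lit 94) (nat_lit 0) (nat_lit 84) (XT.lf (nat_lit 84) (nat_lit 5170271859) (nat_lit 0) (nat_lit 6921124096) (nat_lit 1092) (nat_lit 9131564787) (nat_lit 97) (nat_lit 5) (nat_lit 96) (nat_lit 5) (nat_lit 109) (nat_lit 5) (nat_lit 345) (nat_lit 335) (nat_lit 181)) (XT.nd (nat_lit 94) (nat_lit 0) (nat_lit 0) (XT.lf (nat_lit 0) (nat_lit 12954536706) (nat_lit 1008) (nat_lit 8528256406) (nat_lit 1092) (nat_lit 98177953) (nat_lit 97) (nat_lit 5) (nat_lit 109) (nat_lit 5) (nat_lit 110) (nat_lit 5) (nat_lit 346) (nat_lit 335) (nat_lit 180)) (XT.lf (nat_lit 0) (nat_lit 13910303811) (nat_lit 1008) (nat_lit 844915260) (nat_lit 1092) (nat_lit 7192845736) (nat_lit 97) (nat_lit 5) (nat_lit 109) (nat_lit 5) (nat_lit 110) (nat_lit 5) (nat_lit 347) (nat_lit 335) (nat_lit 179))))))))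
noncomputable def xc118 : XT := (XT.nd (nat_lit 52922) (nat_lit 0) (nat_lit 2100) (XT.nd (nat_lit 846) (nat_lit 1428) (nat_lit 0) (XT.nd (nat_lit 376) (nat_lit 1512) (nat_lit 0) (XT.nd (nat_lit 188) (nat_lit 0) (nat_lit 84) (XT.nd (nat_lit 94) (nat_lit 0) (nat_lit 0) (XT.lf (nat_lit 84) (nat_lit 7218593206) (nat_lit 0) (nat_lit 7743945869) (nat_lit 1092) (nat_lit 7361953585) (nat_lit 98) (nat_lit 5) (nat_lit 97) (nat_lit 5) (nat_lit 110) (nat_lit 5) (nat_lit 348) (nat_lit 335) (nat_lit 178)) (XT.lf (nat_lit 84) (nat_lit 15546562352) (nat_lit 0) (nat_lit 504990002) (nat_lit 1092) (nat_lit 6660933938) (nat_lit 98) (nat_lit 5) (nat_lit 97) (nat_lit 5) (nat_lit 110) (nat_lit 5) (nat_lit 349) (nat_lit 335) (nat_lit 177))) (XT.nd (nat_lit 94) (nat_lit 0) (nat_lit 0) (XT.lf (nat_lit 84) (nat_lit 967155153) (nat_lit 0) (nat_lit 16281283722) (nat_lit 1092) (nat_lit 5861795994) (nat_lit 99) (nat_lit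 5) (nat_lit 98) (nat_lit 5) (nat_lit 111) (nat_lit 5) (nat_lit 350) (nat_lit 335) (nat_lit 176)) (XT.lf (nat_lit 84) (nat_lit 9495544078) (nat_lit 0) (nat_lit 9062387776) (nat_lit 1092) (nat_lit 4960065136) (nat_lit 99) (nat_lit 5) (nat_lit 98) (nat_lit 5) (nat_lit 111) (nat_lit 5) (nat_lit 351) (nat_lit 335) (nat_lit 175)))) (XT.nd (nat_lit 188) (nat_lit 672) (nat_lit 0) (XT.nd (nat_lit 94) (nat_lit 924) (nat_lit 0) (XT.lf (nat_lit 84) (nat_lit 18284958662) (nat_lit 0) (nat_lit 1618785822) (nat_lit 1092) (nat_lit 4034810975) (nat_lit 99) (nat_lit 5) (nat_lit 98) (nat_lit 5) (nat_lit 111) (nat_lit 5) (nat_lit 352) (nat_lit 335) (nat_lit 174)) (XT.lf (nat_lit 0) (nat_lit 2971068856) (nat_lit 1008) (nat_lit 18405616557) (nat_lit 1092) (nat_lit 2992840691) (nat_lit 87) (nat_lit 5) (nat_lit 99) (nat_lit 5) (nat_lit 100) (nat_lit 5) (nat_lit 353) (nat_lit 335) (nat_lit 173))) (XT.nd (nat_lit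 94) (nat_lit 672) (nat_lit 0) (XT.lf (nat_lit 0) (nat_lit 11962676748) (nat_lit 1008) (nat_lit 11003965103) (nat_lit 1092) (nat_lit 1845024837) (nat_lit 87) (nat_lit 5) (nat_lit 99) (nat_lit 5) (nat_lit 100) (nat_lit 5) (nat_lit 354) (nat_lit 335) (nat_lit 172)) (XT.nd (nat_lit 94) (nat_lit 672) (nat_lit 0) (XT.lf (nat_lit 0) (nat_lit 21229747204) (nat_lit 1008) (nat_lit 3372215032) (nat_lit 1092) (nat_lit 665694239) (nat_lit 87) (nat_lit 5) (nat_lit 99) (nat_lit 5) (nat_lit 100) (nat_lit 5) (nat_lit 355) (nat_lit 335) (nat_lit 171)) (XT.lf (nat_lit 0) (nat_lit 631430928) (nat_lit 672) (nat_lit 20640195123) (nat_lit 84) (nat_lit 4463144684) (nat_lit 79) (nat_lit 5) (nat_lit 87) (nat_lit 5) (nat_lit 80) (nat_lit 5) (nat_lit 356) (nat_lit 335) (nat_lit 170)))))) (XT.nd (nat_lit 376) (nat_lit 924) (nat_lit 0) (XT.nd (nat_lit 188) (nat_lit 504) (nat_lit 0) (XT.nd (nat_lit 94) (nat_lit 0) (nat_lit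 0) (XT.lf (nat_lit 0) (nat_lit 2028230942) (nat_lit 672) (nat_lit 11664406111) (nat_lit 84) (nat_lit 12521264694) (nat_lit 79) (nat_lit 5) (nat_lit 87) (nat_lit 5) (nat_lit 80) (nat_lit 5) (nat_lit 357) (nat_lit 335) (nat_lit 169)) (XT.lf (nat_lit 0) (nat_lit 3464668918) (nat_lit 672) (nat_lit 2413652650) (nat_lit 84) (nat_lit 20829696545) (nat_lit 79) (nat_lit 5) (nat_lit 87) (nat_lit 5) (nat_lit 80) (nat_lit 5) (nat_lit 358) (nat_lit 335) (nat_lit 168))) (XT.nd (nat_lit 94) (nat_lit 0) (nat_lit 0) (XT.lf (nat_lit 0) (nat_lit 5036523676) (nat_lit 588) (nat_lit 19970591056) (nat_lit 84) (nat_lit 2207538032) (nat_lit 73) (nat_lit 5) (nat_lit 80) (nat_lit 5) (nat_lit 74) (nat_lit 5) (nat_lit 359) (nat_lit 335) (nat_lit 167)) (XT.lf (nat_lit 0) (nat_lit 6739204625) (nat_lit 588) (nat_lit 10547540391) (nat_lit 84) (nat_lit 10447720647) (nat_lit 73) (nat_lit 5) (nat_lit 80) (nat_lit 5) (nat_lit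 74) (nat_lit 5) (nat_lit 360) (nat_lit 335) (nat_lit 166)))) (XT.nd (nat_lit 188) (nat_lit 420) (nat_lit 0) (XT.nd (nat_lit 94) (nat_lit 504) (nat_lit 0) (XT.lf (nat_lit 0) (nat_lit 8491299173) (nat_lit 588) (nat_lit 835559066) (nat_lit 84) (nat_lit 18943656081) (nat_lit 73) (nat_lit 5) (nat_lit 80) (nat_lit 5) (nat_lit 74) (nat_lit 5) (nat_lit 361) (nat_lit 335) (nat_lit 165)) (XT.lf (nat_lit 0) (nat_lit 9363050095) (nat_lit 504) (nat_lit 1024272978) (nat_lit 588) (nat_lit 18433095957) (nat_lit 67) (nat_lit 5) (nat_lit 73) (nat_lit 5) (nat_lit 74) (nat_lit 5) (nat_lit 362) (nat_lit 335) (nat_lit 164))) (XT.nd (nat_lit 94) (nat_lit 420) (nat_lit 0) (XT.lf (nat_lit 0) (nat_lit 12422490609) (nat_lit 588) (nat_lit 9569588698) (nat_lit 84) (nat_lit 7392816194) (nat_lit 67) (nat_lit 5) (nat_lit 74) (nat_lit 5) (nat_lit 68) (nat_lit 5) (nat_lit 363) (nat_lit 335) (nat_lit 163)) (XT.nd (nat_lit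 94) (nat_lit 0) (nat_lit 0) (XT.lf (nat_lit 0) (nat_lit 623725289) (nat_lit 420) (nat_lit 13910583735) (nat_lit 504) (nat_lit 15432156944) (nat_lit 62) (nat_lit 5) (nat_lit 67) (nat_lit 5) (nat_lit 68) (nat_lit 5) (nat_lit 364) (nat_lit 335) (nat_lit 162)) (XT.lf (nat_lit 0) (nat_lit 11332855219) (nat_lit 420) (nat_lit 5475585887) (nat_lit 504) (nat_lit 13754636886) (nat_lit 62) (nat_lit 5) (nat_lit 67) (nat_lit 5) (nat_lit 68) (nat_lit 5) (nat_lit 365) (nat_lit 335) (nat_lit 161))))))) (XT.nd (nat_lit 846) (nat_lit 504) (nat_lit 0) (XT.nd (nat_lit 376) (nat_lit 0) (nat_lit 84) (XT.nd (nat_lit 188) (nat_lit 0) (nat_lit 0) (XT.nd (nat_lit 94) (nat_lit 0) (nat_lit 0) (XT.lf (nat_lit 0) (nat_lit 3642287206) (nat_lit 1092) (nat_lit 2847495880) (nat_lit 1092) (nat_lit 2847495880) (nat_lit 93) (nat_lit 3) (nat_lit 106) (nat_lit 3) (nat_lit 106) (nat_lit 5) (nat_lit 336) (nat_lit 336) (nat_lit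 189)) (XT.lf (nat_lit 84) (nat_lit 841153186) (nat_lit 0) (nat_lit 6719191224) (nat_lit 1092) (nat_lit 11397763928) (nat_lit 94) (nat_lit 5) (nat_lit 93) (nat_lit 3) (nat_lit 106) (nat_lit 5) (nat_lit 337) (nat_lit 336) (nat_lit 188))) (XT.nd (nat_lit 94) (nat_lit 0) (nat_lit 84) (XT.lf (nat_lit 84) (nat_lit 7697356214) (nat_lit 0) (nat_lit 200492171) (nat_lit 1092) (nat_lit 11350986198) (nat_lit 94) (nat_lit 5) (nat_lit 93) (nat_lit 3) (nat_lit 106) (nat_lit 5) (nat_lit 338) (nat_lit 336) (nat_lit 187)) (XT.lf (nat_lit 0) (nat_lit 8304454838) (nat_lit 1008) (nat_lit 4850598289) (nat_lit 1092) (nat_lit 6391735860) (nat_lit 94) (nat_lit 5) (nat_lit 106) (nat_lit 5) (nat_lit 107) (nat_lit 5) (nat_lit 339) (nat_lit 336) (nat_lit 186)))) (XT.nd (nat_lit 188) (nat_lit 0) (nat_lit 84) (XT.nd (nat_lit 94) (nat_lit 0) (nat_lit 84) (XT.lf (nat_lit 84) (nat_lit 2094823673) (nat_lit 0) (nat_lit 6645813369)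 (nat_lit 1092) (nat_lit 11112849310) (nat_lit 95) (nat_lit 5) (nat_lit 94) (nat_lit 5) (nat_lit 107) (nat_lit 5) (nat_lit 340) (nat_lit 336) (nat_lit 185)) (XT.lf (nat_lit 0) (nat_lit 9236442735) (nat_lit 1008) (nat_lit 10814442369) (nat_lit 1092) (nat_lit 117408569) (nat_lit 95) (nat_lit 5) (nat_lit 107) (nat_lit 5) (nat_lit 108) (nat_lit 5) (nat_lit 341) (nat_lit 336) (nat_lit 184))) (XT.nd (nat_lit 94) (nat_lit 0) (nat_lit 0) (XT.lf (nat_lit 0) (nat_lit 9810067419) (nat_lit 1008) (nat_lit 3726355513) (nat_lit 1092) (nat_lit 6954531720) (nat_lit 95) (nat_lit 5) (nat_lit 107) (nat_lit 5) (nat_lit 108) (nat_lit 5) (nat_lit 342) (nat_lit 336) (nat_lit 183)) (XT.nd (nat_lit 94) (nat_lit 0) (nat_lit 84) (XT.lf (nat_lit 84) (nat_lit 3651705751) (nat_lit 0) (nat_lit 6780638103) (nat_lit 1092) (nat_lit 10390346948) (nat_lit 96) (nat_lit 5) (nat_lit 95) (nat_lit 5) (nat_lit 108) (nat_lit 5) (nat_lit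 343) (nat_lit 336) (nat_lit 182)) (XT.lf (nat_lit 0) (nat_lit 11109826711) (nat_lit 1008) (nat_lit 9831756404) (nat_lit 1092) (nat_lit 222043006) (nat_lit 96) (nat_lit 5) (nat_lit 108) (nat_lit 5) (nat_lit 109) (nat_lit 5) (nat_lit 344) (nat_lit 336) (nat_lit 181)))))) (XT.nd (nat_lit 470) (nat_lit 756) (nat_lit 0) (XT.nd (nat_lit 188) (nat_lit 0) (nat_lit 84) (XT.nd (nat_lit 94) (nat_lit 0) (nat_lit 0) (XT.lf (nat_lit 0) (nat_lit 11872609636) (nat_lit 1008) (nat_lit 2337762479) (nat_lit 1092) (nat_lit 7302792954) (nat_lit 96) (nat_lit 5) (nat_lit 108) (nat_lit 5) (nat_lit 109) (nat_lit 5) (nat_lit 345) (nat_lit 336) (nat_lit 180)) (XT.lf (nat_lit 84) (nat_lit 5495978396) (nat_lit 0) (nat_lit 7212681246) (nat_lit 1092) (nat_lit 9163368877) (nat_lit 97) (nat_lit 5) (nat_lit 96) (nat_lit 5) (nat_lit 109) (nat_lit 5) (nat_lit 346) (nat_lit 336) (nat_lit 179))) (XT.nd (nat_lit 94) (nat_lit 0)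 (nat_lit 0) (XT.lf (nat_lit 0) (nat_lit 13590527479) (nat_lit 1008) (nat_lit 8622859330) (nat_lit 1092) (nat_lit 28039241) (nat_lit 97) (nat_lit 5) (nat_lit 109) (nat_lit 5) (nat_lit 110) (nat_lit 5) (nat_lit 347) (nat_lit 336) (nat_lit 178)) (XT.nd (nat_lit 94) (nat_lit 0) (nat_lit 0) (XT.lf (nat_lit 0) (nat_lit 14568875446) (nat_lit 1008) (nat_lit 706439326) (nat_lit 1092) (nat_lit 7344842161) (nat_lit 97) (nat_lit 5) (nat_lit 109) (nat_lit 5) (nat_lit 110) (nat_lit 5) (nat_lit 348) (nat_lit 336) (nat_lit 177)) (XT.lf (nat_lit 84) (nat_lit 7605370783) (nat_lit 0) (nat_lit 8043140209) (nat_lit 1092) (nat_lit 7359942430) (nat_lit 98) (nat_lit 5) (nat_lit 97) (nat_lit 5) (nat_lit 110) (nat_lit 5) (nat_lit 349) (nat_lit 336) (nat_lit 176))))) (XT.nd (nat_lit 188) (nat_lit 840) (nat_lit 0) (XT.nd (nat_lit 94) (nat_lit 0) (nat_lit 84) (XT.lf (nat_lit 84) (nat_lit 16186605870) (nat_lit 0) (nat_lit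 577998734) (nat_lit 1092) (nat_lit 6644113757) (nat_lit 98) (nat_lit 5) (nat_lit 97) (nat_lit 5) (nat_lit 110) (nat_lit 5) (nat_lit 350) (nat_lit 336) (nat_lit 175)) (XT.lf (nat_lit 84) (nat_lit 1161975106) (nat_lit 0) (nat_lit 16831224613) (nat_lit 1092) (nat_lit 5825800026) (nat_lit 99) (nat_lit 5) (nat_lit 98) (nat_lit 5) (nat_lit 111) (nat_lit 5) (nat_lit 351) (nat_lit 336) (nat_lit 174))) (XT.nd (nat_lit 94) (nat_lit 924) (nat_lit 0) (XT.lf (nat_lit 84) (nat_lit 9949787752) (nat_lit 0) (nat_lit 9387183189) (nat_lit 1092) (nat_lit 4902661642) (nat_lit 99) (nat_lit 5) (nat_lit 98) (nat_lit 5) (nat_lit 111) (nat_lit 5) (nat_lit 352) (nat_lit 336) (nat_lit 173)) (XT.nd (nat_lit 94) (nat_lit 924) (nat_lit 0) (XT.lf (nat_lit 84) (nat_lit 19006866879) (nat_lit 0) (nat_lit 1711510755) (nat_lit 1092) (nat_lit 3955073905) (nat_lit 99) (nat_lit 5) (nat_lit 98) (nat_lit 5) (nat_lit 111) (nat_lit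 5) (nat_lit 353) (nat_lit 336) (nat_lit 172)) (XT.lf (nat_lit 0) (nat_lit 3224220509) (nat_lit 1008) (nat_lit 19008005576) (nat_lit 1092) (nat_lit 2885735813) (nat_lit 87) (nat_lit 5) (nat_lit 99) (nat_lit 5) (nat_lit 100) (nat_lit 5) (nat_lit 354) (nat_lit 336) (nat_lit 171))))))))
noncomputable def xc119 : XT := (XT.nd (nat_lit 53110) (nat_lit 0) (nat_lit 924) (XT.nd (nat_lit 846) (nat_lit 420) (nat_lit 0) (XT.nd (nat_lit 376) (nat_lit 1008) (nat_lit 0) (XT.nd (nat_lit 188) (nat_lit 672) (nat_lit 0) (XT.nd (nat_lit 94) (nat_lit 0) (nat_lit 0) (XT.lf (nat_lit 0) (nat_lit 12489725855) (nat_lit 1008) (nat_lit 11375946319) (nat_lit 1092) (nat_lit 1708347728) (nat_lit 87) (nat_lit 5) (nat_lit 99) (nat_lit 5) (nat_lit 100) (nat_lit 5) (nat_lit 355) (nat_lit 336) (nat_lit 170)) (XT.lf (nat_lit 0) (nat_lit 22039378707) (nat_lit 1008) (nat_lit 3506684152) (nat_lit 1092) (nat_lit 498287230) (nat_lit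 87) (nat_lit 5) (nat_lit 99) (nat_lit 5) (nat_lit 100) (nat_lit 5) (nat_lit 356) (nat_lit 336) (nat_lit 169))) (XT.nd (nat_lit 94) (nat_lit 0) (nat_lit 0) (XT.lf (nat_lit 0) (nat_lit 831000517) (nat_lit 672) (nat_lit 21118612761) (nat_lit 84) (nat_lit 4576434388) (nat_lit 79) (nat_lit 5) (nat_lit 87) (nat_lit 5) (nat_lit 80) (nat_lit 5) (nat_lit 357) (nat_lit 336) (nat_lit 168)) (XT.lf (nat_lit 0) (nat_lit 2265689254) (nat_lit 672) (nat_lit 11869428102) (nat_lit 84) (nat_lit 12885109854) (nat_lit 79) (nat_lit 5) (nat_lit 87) (nat_lit 5) (nat_lit 80) (nat_lit 5) (nat_lit 358) (nat_lit 336) (nat_lit 167)))) (XT.nd (nat_lit 188) (nat_lit 504) (nat_lit 0) (XT.nd (nat_lit 94) (nat_lit 504) (nat_lit 0) (XT.lf (nat_lit 0) (nat_lit 3741407459) (nat_lit 672) (nat_lit 2336609152) (nat_lit 84) (nat_lit 21451834165) (nat_lit 79) (nat_lit 5) (nat_lit 87) (nat_lit 5) (nat_lit 80) (nat_lit 5) (nat_lit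 359) (nat_lit 336) (nat_lit 166)) (XT.lf (nat_lit 0) (nat_lit 5358236676) (nat_lit 588) (nat_lit 20433219114) (nat_lit 84) (nat_lit 2260877711) (nat_lit 73) (nat_lit 5) (nat_lit 80) (nat_lit 5) (nat_lit 74) (nat_lit 5) (nat_lit 360) (nat_lit 336) (nat_lit 165))) (XT.nd (nat_lit 94) (nat_lit 504) (nat_lit 0) (XT.lf (nat_lit 0) (nat_lit 7108722068) (nat_lit 588) (nat_lit 10722758310) (nat_lit 84) (nat_lit 10756959833) (nat_lit 73) (nat_lit 5) (nat_lit 80) (nat_lit 5) (nat_lit 74) (nat_lit 5) (nat_lit 361) (nat_lit 336) (nat_lit 164)) (XT.nd (nat_lit 94) (nat_lit 504) (nat_lit 0) (XT.lf (nat_lit 0) (nat_lit 8910302580) (nat_lit 588) (nat_lit 714268542) (nat_lit 84) (nat_lit 19516709464) (nat_lit 73) (nat_lit 5) (nat_lit 80) (nat_lit 5) (nat_lit 74) (nat_lit 5) (nat_lit 362) (nat_lit 336) (nat_lit 163)) (XT.lf (nat_lit 0) (nat_lit 9799007307) (nat_lit 504) (nat_lit 1062857531) (nat_lit 588)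 (nat_lit 18846491667) (nat_lit 67) (nat_lit 5) (nat_lit 73) (nat_lit 5) (nat_lit 74) (nat_lit 5) (nat_lit 363) (nat_lit 336) (nat_lit 162)))))) (XT.nd (nat_lit 51794) (nat_lit 0) (nat_lit 2688) (XT.nd (nat_lit 51512) (nat_lit 0) (nat_lit 2604) (XT.nd (nat_lit 94) (nat_lit 420) (nat_lit 0) (XT.lf (nat_lit 0) (nat_lit 12955470432) (nat_lit 588) (nat_lit 9719528248) (nat_lit 84) (nat_lit 7615500344) (nat_lit 67) (nat_lit 5) (nat_lit 74) (nat_lit 5) (nat_lit 68) (nat_lit 5) (nat_lit 364) (nat_lit 336) (nat_lit 161)) (XT.lf (nat_lit 0) (nat_lit 788293088) (nat_lit 420) (nat_lit 14341456335) (nat_lit 504) (nat_lit 15760464300) (nat_lit 62) (nat_lit 5) (nat_lit 67) (nat_lit 5) (nat_lit 68) (nat_lit 5) (nat_lit 365) (nat_lit 336) (nat_lit 160))) (XT.nd (nat_lit 94) (nat_lit 0) (nat_lit 0) (XT.lf (nat_lit 0) (nat_lit 3908180054) (nat_lit 1092) (nat_lit 2856482003) (nat_lit 1092) (nat_lit 2856482003)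 (nat_lit 93) (nat_lit 3) (nat_lit 106) (nat_lit 3) (nat_lit 106) (nat_lit 5) (nat_lit 337) (nat_lit 337) (nat_lit 187)) (XT.nd (nat_lit 94) (nat_lit 0) (nat_lit 0) (XT.lf (nat_lit 84) (nat_lit 1024196030) (nat_lit 0) (nat_lit 7068840389) (nat_lit 1092) (nat_lit 11441880090) (nat_lit 94) (nat_lit 5) (nat_lit 93) (nat_lit 3) (nat_lit 106) (nat_lit 5) (nat_lit 338) (nat_lit 337) (nat_lit 186)) (XT.lf (nat_lit 84) (nat_lit 8088221681) (nat_lit 0) (nat_lit 343811441) (nat_lit 1092) (nat_lit 11402949680) (nat_lit 94) (nat_lit 5) (nat_lit 93) (nat_lit 3) (nat_lit 106) (nat_lit 5) (nat_lit 339) (nat_lit 337) (nat_lit 185))))) (XT.nd (nat_lit 188) (nat_lit 0) (nat_lit 84) (XT.nd (nat_lit 94) (nat_lit 0) (nat_lit 0) (XT.lf (nat_lit 0) (nat_lit 8841224992) (nat_lit 1008) (nat_lit 4841730012) (nat_lit 1092) (nat_lit 6459577371) (nat_lit 94) (nat_lit 5) (nat_lit 106) (nat_lit 5) (nat_lit 107) (nat_lit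 5) (nat_lit 340) (nat_lit 337) (nat_lit 184)) (XT.lf (nat_lit 84) (nat_lit 2317387901) (nat_lit 0) (nat_lit 6966705673) (nat_lit 1092) (nat_lit 11174902215) (nat_lit 95) (nat_lit 5) (nat_lit 94) (nat_lit 5) (nat_lit 107) (nat_lit 5) (nat_lit 341) (nat_lit 337) (nat_lit 183))) (XT.nd (nat_lit 94) (nat_lit 0) (nat_lit 0) (XT.lf (nat_lit 0) (nat_lit 9785970558) (nat_lit 1008) (nat_lit 10986050044) (nat_lit 1092) (nat_lit 11874934) (nat_lit 95) (nat_lit 5) (nat_lit 107) (nat_lit 5) (nat_lit 108) (nat_lit 5) (nat_lit 342) (nat_lit 337) (nat_lit 182)) (XT.nd (nat_lit 94) (nat_lit 0) (nat_lit 0) (XT.lf (nat_lit 0) (nat_lit 10369463794) (nat_lit 1008) (nat_lit 3683152808) (nat_lit 1092) (nat_lit 7064231514) (nat_lit 95) (nat_lit 5) (nat_lit 107) (nat_lit 5) (nat_lit 108) (nat_lit 5) (nat_lit 343) (nat_lit 337) (nat_lit 181)) (XT.lf (nat_lit 84) (nat_lit 3922021461) (nat_lit 0) (nat_lit 7082892055)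 (nat_lit 1092) (nat_lit 10454186671) (nat_lit 96) (nat_lit 5) (nat_lit 95) (nat_lit 5) (nat_lit 108) (nat_lit 5) (nat_lit 344) (nat_lit 337) (nat_lit 180))))))) (XT.nd (nat_lit 846) (nat_lit 1932) (nat_lit 0) (XT.nd (nat_lit 376) (nat_lit 0) (nat_lit 84) (XT.nd (nat_lit 188) (nat_lit 0) (nat_lit 0) (XT.nd (nat_lit 94) (nat_lit 0) (nat_lit 0) (XT.lf (nat_lit 0) (nat_lit 11695020683) (nat_lit 1008) (nat_lit 9974445751) (nat_lit 1092) (nat_lit 141438963) (nat_lit 96) (nat_lit 5) (nat_lit 108) (nat_lit 5) (nat_lit 109) (nat_lit 5) (nat_lit 345) (nat_lit 337) (nat_lit 179)) (XT.lf (nat_lit 0) (nat_lit 12474209851) (nat_lit 1008) (nat_lit 2253011873) (nat_lit 1092) (nat_lit 7444322721) (nat_lit 96) (nat_lit 5) (nat_lit 108) (nat_lit 5) (nat_lit 109) (nat_lit 5) (nat_lit 346) (nat_lit 337) (nat_lit 178))) (XT.nd (nat_lit 94) (nat_lit 0) (nat_lit 0) (XT.lf (nat_lit 84) (nat_lit 5821983245) (nat_lit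 0) (nat_lit 7508715688) (nat_lit 1092) (nat_lit 9211042308) (nat_lit 97) (nat_lit 5) (nat_lit 96) (nat_lit 5) (nat_lit 109) (nat_lit 5) (nat_lit 347) (nat_lit 337) (nat_lit 177)) (XT.lf (nat_lit 84) (nat_lit 14191994101) (nat_lit 0) (nat_lit 40760291) (nat_lit 1092) (nat_lit 8690094948) (nat_lit 97) (nat_lit 5) (nat_lit 96) (nat_lit 5) (nat_lit 109) (nat_lit 5) (nat_lit 348) (nat_lit 337) (nat_lit 176)))) (XT.nd (nat_lit 188) (nat_lit 0) (nat_lit 0) (XT.nd (nat_lit 94) (nat_lit 0) (nat_lit 0) (XT.lf (nat_lit 0) (nat_lit 15234396340) (nat_lit 1008) (nat_lit 573424224) (nat_lit 1092) (nat_lit 7505754848) (nat_lit 97) (nat_lit 5) (nat_lit 109) (nat_lit 5) (nat_lit 110) (nat_lit 5) (nat_lit 349) (nat_lit 337) (nat_lit 175)) (XT.lf (nat_lit 84) (nat_lit 7994483626) (nat_lit 0) (nat_lit 8348107082) (nat_lit 1092) (nat_lit 7371505948) (nat_lit 98) (nat_lit 5) (nat_lit 97) (nat_lit 5) (nat_lit 110)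 (nat_lit 5) (nat_lit 350) (nat_lit 337) (nat_lit 174))) (XT.nd (nat_lit 94) (nat_lit 0) (nat_lit 84) (XT.lf (nat_lit 84) (nat_lit 16837126199) (nat_lit 0) (nat_lit 649873559) (nat_lit 1092) (nat_lit 6639999133) (nat_lit 98) (nat_lit 5) (nat_lit 97) (nat_lit 5) (nat_lit 110) (nat_lit 5) (nat_lit 351) (nat_lit 337) (nat_lit 173)) (XT.nd (nat_lit 94) (nat_lit 0) (nat_lit 0) (XT.lf (nat_lit 84) (nat_lit 1353070832) (nat_lit 0) (nat_lit 17395535148) (nat_lit 1092) (nat_lit 5801583615) (nat_lit 99) (nat_lit 5) (nat_lit 98) (nat_lit 5) (nat_lit 111) (nat_lit 5) (nat_lit 352) (nat_lit 337) (nat_lit 172)) (XT.lf (nat_lit 84) (nat_lit 10408642906) (nat_lit 0) (nat_lit 9719449275) (nat_lit 1092) (nat_lit 4855986334) (nat_lit 99) (nat_lit 5) (nat_lit 98) (nat_lit 5) (nat_lit 111) (nat_lit 5) (nat_lit 353) (nat_lit 337) (nat_lit 171)))))) (XT.nd (nat_lit 470) (nat_lit 504) (nat_lit 0) (XT.nd (nat_lit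 188) (nat_lit 672) (nat_lit 0) (XT.nd (nat_lit 94) (nat_lit 924) (nat_lit 0) (XT.lf (nat_lit 84) (nat_lit 19741968922) (nat_lit 0) (nat_lit 1804590291) (nat_lit 1092) (nat_lit 3884996599) (nat_lit 99) (nat_lit 5) (nat_lit 98) (nat_lit 5) (nat_lit 111) (nat_lit 5) (nat_lit 354) (nat_lit 337) (nat_lit 170)) (XT.lf (nat_lit 0) (nat_lit 3475680684) (nat_lit 1008) (nat_lit 19627184203) (nat_lit 1092) (nat_lit 2787150094) (nat_lit 87) (nat_lit 5) (nat_lit 99) (nat_lit 5) (nat_lit 100) (nat_lit 5) (nat_lit 355) (nat_lit 337) (nat_lit 169))) (XT.nd (nat_lit 94) (nat_lit 672) (nat_lit 0) (XT.lf (nat_lit 0) (nat_lit 13023861129) (nat_lit 1008) (nat_lit 11757631163) (nat_lit 1092) (nat_lit 1578917051) (nat_lit 87) (nat_lit 5) (nat_lit 99) (nat_lit 5) (nat_lit 100) (nat_lit 5) (nat_lit 356) (nat_lit 337) (nat_lit 168)) (XT.nd (nat_lit 94) (nat_lit 672) (nat_lit 0) (XT.lf (nat_lit 0) (nat_lit 22865134628)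 (nat_lit 1008) (nat_lit 3643548983) (nat_lit 1092) (nat_lit 336828745) (nat_lit 87) (nat_lit 5) (nat_lit 99) (nat_lit 5) (nat_lit 100) (nat_lit 5) (nat_lit 357) (nat_lit 337) (nat_lit 167)) (XT.lf (nat_lit 0) (nat_lit 1026095338) (nat_lit 672) (nat_lit 21621423027) (nat_lit 84) (nat_lit 4694720881) (nat_lit 79) (nat_lit 5) (nat_lit 87) (nat_lit 5) (nat_lit 80) (nat_lit 5) (nat_lit 358) (nat_lit 337) (nat_lit 166))))) (XT.nd (nat_lit 188) (nat_lit 504) (nat_lit 0) (XT.nd (nat_lit 94) (nat_lit 0) (nat_lit 0) (XT.lf (nat_lit 0) (nat_lit 2500167915) (nat_lit 672) (nat_lit 12090079956) (nat_lit 84) (nat_lit 13261674377) (nat_lit 79) (nat_lit 5) (nat_lit 87) (nat_lit 5) (nat_lit 80) (nat_lit 5) (nat_lit 359) (nat_lit 337) (nat_lit 165)) (XT.lf (nat_lit 0) (nat_lit 4016694964) (nat_lit 672) (nat_lit 2266172633) (nat_lit 84) (nat_lit 22094654910) (nat_lit 79) (nat_lit 5) (nat_lit 87) (nat_lit 5)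 (nat_lit 80) (nat_lit 5) (nat_lit 360) (nat_lit 337) (nat_lit 164))) (XT.nd (nat_lit 94) (nat_lit 0) (nat_lit 0) (XT.lf (nat_lit 0) (nat_lit 5680115145) (nat_lit 588) (nat_lit 20919456051) (nat_lit 84) (nat_lit 2316764965) (nat_lit 73) (nat_lit 5) (nat_lit 80) (nat_lit 5) (nat_lit 74) (nat_lit 5) (nat_lit 361) (nat_lit 337) (nat_lit 163)) (XT.nd (nat_lit 94) (nat_lit 0) (nat_lit 0) (XT.lf (nat_lit 0) (nat_lit 7480181815) (nat_lit 588) (nat_lit 10912396741) (nat_lit 84) (nat_lit 11076652595) (nat_lit 73) (nat_lit 5) (nat_lit 80) (nat_lit 5) (nat_lit 74) (nat_lit 5) (nat_lit 362) (nat_lit 337) (nat_lit 162)) (XT.lf (nat_lit 0) (nat_lit 9333068384) (nat_lit 588) (nat_lit 597936497) (nat_lit 84) (nat_lit 20108368589) (nat_lit 73) (nat_lit 5) (nat_lit 80) (nat_lit 5) (nat_lit 74) (nat_lit 5) (nat_lit 363) (nat_lit 337) (nat_lit 161))))))))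
noncomputable def xc120 : XT := (XT.nd (nat_lit 53204) (nat_lit 0) (nat_lit 504) (XT.nd (nat_lit 52358) (nat_lit 0) (nat_lit 2436) (XT.nd (nat_lit 51888) (nat_lit 0) (nat_lit 2268) (XT.nd (nat_lit 51700) (nat_lit 0) (nat_lit 2184) (XT.nd (nat_lit 51606) (nat_lit 0) (nat_lit 2184) (XT.lf (nat_lit 0) (nat_lit 10239848976) (nat_lit 504) (nat_lit 1102233530) (nat_lit 588) (nat_lit 19282063048) (nat_lit 67) (nat_lit 5) (nat_lit 73) (nat_lit 5) (nat_lit 74) (nat_lit 5) (nat_lit 364) (nat_lit 337) (nat_lit 160)) (XT.lf (nat_lit 0) (nat_lit 4173254198) (nat_lit 1092) (nat_lit 2870442955) (nat_lit 1092) (nat_lit 2870442955) (nat_lit 93) (nat_lit 3) (nat_lit 106) (nat_lit 3) (nat_lit 106) (nat_lit 5) (nat_lit 338) (nat_lit 338) (nat_lit 185))) (XT.nd (nat_lit 94) (nat_lit 0) (nat_lit 0) (XT.lf (nat_lit 84) (nat_lit 1203615772) (nat_lit 0) (nat_lit 7420956024) (nat_lit 1092) (nat_lit 11505679158) (nat_lit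 94) (nat_lit 5) (nat_lit 93) (nat_lit 3) (nat_lit 106) (nat_lit 5) (nat_lit 339) (nat_lit 338) (nat_lit 184)) (XT.lf (nat_lit 84) (nat_lit 8482186103) (nat_lit 0) (nat_lit 483452703) (nat_lit 1092) (nat_lit 11474288633) (nat_lit 94) (nat_lit 5) (nat_lit 93) (nat_lit 3) (nat_lit 106) (nat_lit 5) (nat_lit 340) (nat_lit 338) (nat_lit 183)))) (XT.nd (nat_lit 188) (nat_lit 0) (nat_lit 0) (XT.nd (nat_lit 94) (nat_lit 0) (nat_lit 0) (XT.lf (nat_lit 0) (nat_lit 9378089706) (nat_lit 1008) (nat_lit 4842018687) (nat_lit 1092) (nat_lit 6537239997) (nat_lit 94) (nat_lit 5) (nat_lit 106) (nat_lit 5) (nat_lit 107) (nat_lit 5) (nat_lit 341) (nat_lit 338) (nat_lit 182)) (XT.lf (nat_lit 84) (nat_lit 2537515241) (nat_lit 0) (nat_lit 7290741568) (nat_lit 1092) (nat_lit 11255608486) (nat_lit 95) (nat_lit 5) (nat_lit 94) (nat_lit 5) (nat_lit 107) (nat_lit 5) (nat_lit 342) (nat_lit 338) (nat_lit 181))) (XT.nd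 (nat_lit 94) (nat_lit 0) (nat_lit 84) (XT.lf (nat_lit 84) (nat_lit 10245536092) (nat_lit 0) (nat_lit 92323840) (nat_lit 1092) (nat_lit 11081262260) (nat_lit 95) (nat_lit 5) (nat_lit 94) (nat_lit 5) (nat_lit 107) (nat_lit 5) (nat_lit 343) (nat_lit 338) (nat_lit 180)) (XT.nd (nat_lit 94) (nat_lit 0) (nat_lit 0) (XT.lf (nat_lit 0) (nat_lit 10931080532) (nat_lit 1008) (nat_lit 3648012059) (nat_lit 1092) (nat_lit 7183604088) (nat_lit 95) (nat_lit 5) (nat_lit 107) (nat_lit 5) (nat_lit 108) (nat_lit 5) (nat_lit 344) (nat_lit 338) (nat_lit 179)) (XT.lf (nat_lit 84) (nat_lit 4191410896) (nat_lit 0) (nat_lit 7389063354) (nat_lit 1092) (nat_lit 10535302669) (nat_lit 96) (nat_lit 5) (nat_lit 95) (nat_lit 5) (nat_lit 108) (nat_lit 5) (nat_lit 345) (nat_lit 338) (nat_lit 178)))))) (XT.nd (nat_lit 376) (nat_lit 0) (nat_lit 84) (XT.nd (nat_lit 188) (nat_lit 0) (nat_lit 0) (XT.nd (nat_lit 94) (nat_lit 0)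 (nat_lit 0) (XT.lf (nat_lit 0) (nat_lit 12284093303) (nat_lit 1008) (nat_lit 10131159638) (nat_lit 1092) (nat_lit 63518222) (nat_lit 96) (nat_lit 5) (nat_lit 108) (nat_lit 5) (nat_lit 109) (nat_lit 5) (nat_lit 346) (nat_lit 338) (nat_lit 177)) (XT.lf (nat_lit 0) (nat_lit 13080626146) (nat_lit 1008) (nat_lit 2174946481) (nat_lit 1092) (nat_lit 7595266125) (nat_lit 96) (nat_lit 5) (nat_lit 108) (nat_lit 5) (nat_lit 109) (nat_lit 5) (nat_lit 347) (nat_lit 338) (nat_lit 176))) (XT.nd (nat_lit 94) (nat_lit 0) (nat_lit 0) (XT.lf (nat_lit 84) (nat_lit 6148876042) (nat_lit 0) (nat_lit 7809636375) (nat_lit 1092) (nat_lit 9274195459) (nat_lit 97) (nat_lit 5) (nat_lit 96) (nat_lit 5) (nat_lit 109) (nat_lit 5) (nat_lit 348) (nat_lit 338) (nat_lit 175)) (XT.lf (nat_lit 84) (nat_lit 14773954954) (nat_lit 0) (nat_lit 108125218) (nat_lit 1092) (nat_lit 8743785505) (nat_lit 97) (nat_lit 5) (nat_lit 96) (nat_lit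 5) (nat_lit 109) (nat_lit 5) (nat_lit 349) (nat_lit 338) (nat_lit 174)))) (XT.nd (nat_lit 188) (nat_lit 0) (nat_lit 0) (XT.nd (nat_lit 94) (nat_lit 0) (nat_lit 0) (XT.lf (nat_lit 0) (nat_lit 15907879562) (nat_lit 1008) (nat_lit 445461519) (nat_lit 1092) (nat_lit 7675611170) (nat_lit 97) (nat_lit 5) (nat_lit 109) (nat_lit 5) (nat_lit 110) (nat_lit 5) (nat_lit 350) (nat_lit 338) (nat_lit 173)) (XT.lf (nat_lit 84) (nat_lit 8386576001) (nat_lit 0) (nat_lit 8659232897) (nat_lit 1092) (nat_lit 7396257210) (nat_lit 98) (nat_lit 5) (nat_lit 97) (nat_lit 5) (nat_lit 110) (nat_lit 5) (nat_lit 351) (nat_lit 338) (nat_lit 172))) (XT.nd (nat_lit 94) (nat_lit 0) (nat_lit 84) (XT.lf (nat_lit 84) (nat_lit 17499002797) (nat_lit 0) (nat_lit 720780546) (nat_lit 1092) (nat_lit 6648200481) (nat_lit 98) (nat_lit 5) (nat_lit 97) (nat_lit 5) (nat_lit 110) (nat_lit 5) (nat_lit 352) (nat_lit 338) (nat_lit 171)) (XT.nd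 (nat_lit 94) (nat_lit 0) (nat_lit 0) (XT.lf (nat_lit 84) (nat_lit 1540905198) (nat_lit 0) (nat_lit 17974819441) (nat_lit 1092) (nat_lit 5788748111) (nat_lit 99) (nat_lit 5) (nat_lit 98) (nat_lit 5) (nat_lit 111) (nat_lit 5) (nat_lit 353) (nat_lit 338) (nat_lit 170)) (XT.lf (nat_lit 84) (nat_lit 10872813426) (nat_lit 0) (nat_lit 10059571507) (nat_lit 1092) (nat_lit 4819630934) (nat_lit 99) (nat_lit 5) (nat_lit 98) (nat_lit 5) (nat_lit 111) (nat_lit 5) (nat_lit 354) (nat_lit 338) (nat_lit 169))))))) (XT.nd (nat_lit 846) (nat_lit 0) (nat_lit 0) (XT.nd (nat_lit 376) (nat_lit 1176) (nat_lit 0) (XT.nd (nat_lit 188) (nat_lit 0) (nat_lit 0) (XT.nd (nat_lit 94) (nat_lit 924) (nat_lit 0) (XT.lf (nat_lit 84) (nat_lit 20491217863) (nat_lit 0) (nat_lit 1898184680) (nat_lit 1092) (nat_lit 3824159936) (nat_lit 99) (nat_lit 5) (nat_lit 98) (nat_lit 5) (nat_lit 111) (nat_lit 5) (nat_lit 355) (nat_lit 338)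 (nat_lit 168)) (XT.lf (nat_lit 0) (nat_lit 3725961967) (nat_lit 1008) (nat_lit 20263784535) (nat_lit 1092) (nat_lit 2696646357) (nat_lit 87) (nat_lit 5) (nat_lit 99) (nat_lit 5) (nat_lit 100) (nat_lit 5) (nat_lit 356) (nat_lit 338) (nat_lit 167))) (XT.nd (nat_lit 94) (nat_lit 0) (nat_lit 0) (XT.lf (nat_lit 0) (nat_lit 13565850273) (nat_lit 1008) (nat_lit 12149428711) (nat_lit 1092) (nat_lit 1456277262) (nat_lit 87) (nat_lit 5) (nat_lit 99) (nat_lit 5) (nat_lit 100) (nat_lit 5) (nat_lit 357) (nat_lit 338) (nat_lit 166)) (XT.lf (nat_lit 0) (nat_lit 23708046380) (nat_lit 1008) (nat_lit 3782988799) (nat_lit 1092) (nat_lit 180843456) (nat_lit 87) (nat_lit 5) (nat_lit 99) (nat_lit 5) (nat_lit 100) (nat_lit 5) (nat_lit 358) (nat_lit 338) (nat_lit 165)))) (XT.nd (nat_lit 188) (nat_lit 504) (nat_lit 0) (XT.nd (nat_lit 94) (nat_lit 0) (nat_lit 0) (XT.lf (nat_lit 0) (nat_lit 1217208168) (nat_lit 672)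 (nat_lit 22148815737) (nat_lit 84) (nat_lit 4818071115) (nat_lit 79) (nat_lit 5) (nat_lit 87) (nat_lit 5) (nat_lit 80) (nat_lit 5) (nat_lit 359) (nat_lit 338) (nat_lit 164)) (XT.lf (nat_lit 0) (nat_lit 2732187062) (nat_lit 672) (nat_lit 12326296874) (nat_lit 84) (nat_lit 13651267258) (nat_lit 79) (nat_lit 5) (nat_lit 87) (nat_lit 5) (nat_lit 80) (nat_lit 5) (nat_lit 360) (nat_lit 338) (nat_lit 163))) (XT.nd (nat_lit 94) (nat_lit 504) (nat_lit 0) (XT.lf (nat_lit 0) (nat_lit 4291080541) (nat_lit 672) (nat_lit 2202015099) (nat_lit 84) (nat_lit 22758717220) (nat_lit 79) (nat_lit 5) (nat_lit 87) (nat_lit 5) (nat_lit 80) (nat_lit 5) (nat_lit 361) (nat_lit 338) (nat_lit 162)) (XT.nd (nat_lit 94) (nat_lit 0) (nat_lit 0) (XT.lf (nat_lit 0) (nat_lit 6002745138) (nat_lit 588) (nat_lit 21429484819) (nat_lit 84) (nat_lit 2375225810) (nat_lit 73) (nat_lit 5) (nat_lit 80) (nat_lit 5) (nat_lit 74) (nat_lit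 5) (nat_lit 362) (nat_lit 338) (nat_lit 161)) (XT.lf (nat_lit 0) (nat_lit 7854207532) (nat_lit 588) (nat_lit 11116370303) (nat_lit 84) (nat_lit 11407071630) (nat_lit 73) (nat_lit 5) (nat_lit 80) (nat_lit 5) (nat_lit 74) (nat_lit 5) (nat_lit 363) (nat_lit 338) (nat_lit 160)))))) (XT.nd (nat_lit 52076) (nat_lit 0) (nat_lit 1764) (XT.nd (nat_lit 51794) (nat_lit 0) (nat_lit 1680) (XT.nd (nat_lit 51700) (nat_lit 0) (nat_lit 1680) (XT.lf (nat_lit 0) (nat_lit 9760259732) (nat_lit 588) (nat_lit 486200232) (nat_lit 84) (nat_lit 20719160416) (nat_lit 73) (nat_lit 5) (nat_lit 80) (nat_lit 5) (nat_lit 74) (nat_lit 5) (nat_lit 364) (nat_lit 338) (nat_lit 159)) (XT.lf (nat_lit 0) (nat_lit 4438020979) (nat_lit 1092) (nat_lit 2889254791) (nat_lit 1092) (nat_lit 2889254791) (nat_lit 93) (nat_lit 3) (nat_lit 106) (nat_lit 3) (nat_lit 106) (nat_lit 5) (nat_lit 339) (nat_lit 339) (nat_lit 183))) (XT.nd (nat_lit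 94) (nat_lit 0) (nat_lit 0) (XT.lf (nat_lit 84) (nat_lit 1379850799) (nat_lit 0) (nat_lit 7776110518) (nat_lit 1092) (nat_lit 11588686456) (nat_lit 94) (nat_lit 5) (nat_lit 93) (nat_lit 3) (nat_lit 106) (nat_lit 5) (nat_lit 340) (nat_lit 339) (nat_lit 182)) (XT.nd (nat_lit 94) (nat_lit 0) (nat_lit 84) (XT.lf (nat_lit 84) (nat_lit 8879879690) (nat_lit 0) (nat_lit 619782954) (nat_lit 1092) (nat_lit 11564551468) (nat_lit 94) (nat_lit 5) (nat_lit 93) (nat_lit 3) (nat_lit 106) (nat_lit 5) (nat_lit 341) (nat_lit 339) (nat_lit 181)) (XT.lf (nat_lit 0) (nat_lit 9916031918) (nat_lit 1008) (nat_lit 4851189516) (nat_lit 1092) (nat_lit 6624571041) (nat_lit 94) (nat_lit 5) (nat_lit 106) (nat_lit 5) (nat_lit 107) (nat_lit 5) (nat_lit 342) (nat_lit 339) (nat_lit 180))))) (XT.nd (nat_lit 188) (nat_lit 0) (nat_lit 84) (XT.nd (nat_lit 94) (nat_lit 0) (nat_lit 0) (XT.lf (nat_lit 84) (nat_lit 2755683157) (nat_lit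 0) (nat_lit 7618421522) (nat_lit 1092) (nat_lit 11354555448) (nat_lit 95) (nat_lit 5) (nat_lit 94) (nat_lit 5) (nat_lit 107) (nat_lit 5) (nat_lit 343) (nat_lit 339) (nat_lit 179)) (XT.lf (nat_lit 84) (nat_lit 10698458034) (nat_lit 0) (nat_lit 193795933) (nat_lit 1092) (nat_lit 11182320768) (nat_lit 95) (nat_lit 5) (nat_lit 94) (nat_lit 5) (nat_lit 107) (nat_lit 5) (nat_lit 344) (nat_lit 339) (nat_lit 178))) (XT.nd (nat_lit 94) (nat_lit 0) (nat_lit 0) (XT.lf (nat_lit 0) (nat_lit 11495882101) (nat_lit 1008) (nat_lit 3620626338) (nat_lit 1092) (nat_lit 7312577793) (nat_lit 95) (nat_lit 5) (nat_lit 107) (nat_lit 5) (nat_lit 108) (nat_lit 5) (nat_lit 345) (nat_lit 339) (nat_lit 177)) (XT.nd (nat_lit 94) (nat_lit 0) (nat_lit 0) (XT.lf (nat_lit 84) (nat_lit 4460396555) (nat_lit 0) (nat_lit 7699596399) (nat_lit 1092) (nat_lit 10633324424) (nat_lit 96) (nat_lit 5) (nat_lit 95) (nat_lit 5) (nat_lit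 108) (nat_lit 5) (nat_lit 346) (nat_lit 339) (nat_lit 176)) (XT.lf (nat_lit 84) (nat_lit 12865941959) (nat_lit 0) (nat_lit 12188546) (nat_lit 1092) (nat_lit 10289696497) (nat_lit 96) (nat_lit 5) (nat_lit 95) (nat_lit 5) (nat_lit 108) (nat_lit 5) (nat_lit 347) (nat_lit 339) (nat_lit 175))))))))
noncomputable def xc121 : XT := (XT.nd (nat_lit 53486) (nat_lit 0) (nat_lit 1092) (XT.nd (nat_lit 846) (nat_lit 1932) (nat_lit 0) (XT.nd (nat_lit 376) (nat_lit 0) (nat_lit 84) (XT.nd (nat_lit 188) (nat_lit 0) (nat_lit 0) (XT.nd (nat_lit 94) (nat_lit 0) (nat_lit 0) (XT.lf (nat_lit 0) (nat_lit 13692827204) (nat_lit 1008) (nat_lit 2103221952) (nat_lit 1092) (nat_lit 7755617277) (nat_lit 96) (nat_lit 5) (nat_lit 108) (nat_lit 5) (nat_lit 109) (nat_lit 5) (nat_lit 348) (nat_lit 339) (nat_lit 174)) (XT.lf (nat_lit 84) (nat_lit 6477230323) (nat_lit 0) (nat_lit 8115848933) (nat_lit 1092) (nat_lit 9352478849)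 (nat_lit 97) (nat_lit 5) (nat_lit 96) (nat_lit 5) (nat_lit 109) (nat_lit 5) (nat_lit 349) (nat_lit 339) (nat_lit 173))) (XT.nd (nat_lit 94) (nat_lit 0) (nat_lit 84) (XT.lf (nat_lit 84) (nat_lit 15365545156) (nat_lit 0) (nat_lit 173663162) (nat_lit 1092) (nat_lit 8811916891) (nat_lit 97) (nat_lit 5) (nat_lit 96) (nat_lit 5) (nat_lit 109) (nat_lit 5) (nat_lit 350) (nat_lit 339) (nat_lit 172)) (XT.lf (nat_lit 0) (nat_lit 16590322341) (nat_lit 1008) (nat_lit 322164331) (nat_lit 1092) (nat_lit 7854454096) (nat_lit 97) (nat_lit 5) (nat_lit 109) (nat_lit 5) (nat_lit 110) (nat_lit 5) (nat_lit 351) (nat_lit 339) (nat_lit 171)))) (XT.nd (nat_lit 188) (nat_lit 0) (nat_lit 84) (XT.nd (nat_lit 94) (nat_lit 0) (nat_lit 0) (XT.lf (nat_lit 84) (nat_lit 8782278272) (nat_lit 0) (nat_lit 8976903749) (nat_lit 1092) (nat_lit 7433845136) (nat_lit 98) (nat_lit 5) (nat_lit 97) (nat_lit 5) (nat_lit 110) (nat_lit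 5) (nat_lit 352) (nat_lit 339) (nat_lit 170)) (XT.lf (nat_lit 84) (nat_lit 18173109531) (nat_lit 0) (nat_lit 790878995) (nat_lit 1092) (nat_lit 6668362545) (nat_lit 98) (nat_lit 5) (nat_lit 97) (nat_lit 5) (nat_lit 110) (nat_lit 5) (nat_lit 353) (nat_lit 339) (nat_lit 169))) (XT.nd (nat_lit 94) (nat_lit 0) (nat_lit 0) (XT.lf (nat_lit 84) (nat_lit 1725921163) (nat_lit 0) (nat_lit 18569690933) (nat_lit 1092) (nat_lit 5786927745) (nat_lit 99) (nat_lit 5) (nat_lit 98) (nat_lit 5) (nat_lit 111) (nat_lit 5) (nat_lit 354) (nat_lit 339) (nat_lit 168)) (XT.nd (nat_lit 94) (nat_lit 0) (nat_lit 0) (XT.lf (nat_lit 84) (nat_lit 11342991791) (nat_lit 0) (nat_lit 10407938194) (nat_lit 1092) (nat_lit 4793218390) (nat_lit 99) (nat_lit 5) (nat_lit 98) (nat_lit 5) (nat_lit 111) (nat_lit 5) (nat_lit 355) (nat_lit 339) (nat_lit 167)) (XT.lf (nat_lit 84) (nat_lit 21255564093) (nat_lit 0) (nat_lit 1992450297)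 (nat_lit 1092) (nat_lit 3772174362) (nat_lit 99) (nat_lit 5) (nat_lit 98) (nat_lit 5) (nat_lit 111) (nat_lit 5) (nat_lit 356) (nat_lit 339) (nat_lit 166)))))) (XT.nd (nat_lit 470) (nat_lit 504) (nat_lit 0) (XT.nd (nat_lit 188) (nat_lit 672) (nat_lit 0) (XT.nd (nat_lit 94) (nat_lit 0) (nat_lit 0) (XT.lf (nat_lit 0) (nat_lit 3975559366) (nat_lit 1008) (nat_lit 20918451653) (nat_lit 1092) (nat_lit 2613815414) (nat_lit 87) (nat_lit 5) (nat_lit 99) (nat_lit 5) (nat_lit 100) (nat_lit 5) (nat_lit 357) (nat_lit 339) (nat_lit 165)) (XT.lf (nat_lit 0) (nat_lit 14116452328) (nat_lit 1008) (nat_lit 12551754307) (nat_lit 1092) (nat_lit 1339998986) (nat_lit 87) (nat_lit 5) (nat_lit 99) (nat_lit 5) (nat_lit 100) (nat_lit 5) (nat_lit 358) (nat_lit 339) (nat_lit 164))) (XT.nd (nat_lit 94) (nat_lit 672) (nat_lit 0) (XT.lf (nat_lit 0) (nat_lit 24569145864) (nat_lit 1008) (nat_lit 3925182214) (nat_lit 1092)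 (nat_lit 29880377) (nat_lit 87) (nat_lit 5) (nat_lit 99) (nat_lit 5) (nat_lit 100) (nat_lit 5) (nat_lit 359) (nat_lit 339) (nat_lit 163)) (XT.nd (nat_lit 94) (nat_lit 0) (nat_lit 0) (XT.lf (nat_lit 0) (nat_lit 1404809653) (nat_lit 672) (nat_lit 22701020140) (nat_lit 84) (nat_lit 4946559327) (nat_lit 79) (nat_lit 5) (nat_lit 87) (nat_lit 5) (nat_lit 80) (nat_lit 5) (nat_lit 360) (nat_lit 339) (nat_lit 162)) (XT.lf (nat_lit 0) (nat_lit 2962246677) (nat_lit 672) (nat_lit 12578044584) (nat_lit 84) (nat_lit 14054212128) (nat_lit 79) (nat_lit 5) (nat_lit 87) (nat_lit 5) (nat_lit 80) (nat_lit 5) (nat_lit 361) (nat_lit 339) (nat_lit 161))))) (XT.nd (nat_lit 188) (nat_lit 0) (nat_lit 0) (XT.nd (nat_lit 94) (nat_lit 504) (nat_lit 0) (XT.lf (nat_lit 0) (nat_lit 4565095130) (nat_lit 672) (nat_lit 2143829950) (nat_lit 84) (nat_lit 23444601746) (nat_lit 79) (nat_lit 5) (nat_lit 87) (nat_lit 5) (nat_lit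 80) (nat_lit 5) (nat_lit 362) (nat_lit 339) (nat_lit 160)) (XT.lf (nat_lit 0) (nat_lit 6326696466) (nat_lit 588) (nat_lit 21963526552) (nat_lit 84) (nat_lit 2436290211) (nat_lit 73) (nat_lit 5) (nat_lit 80) (nat_lit 5) (nat_lit 74) (nat_lit 5) (nat_lit 363) (nat_lit 339) (nat_lit 159))) (XT.nd (nat_lit 51794) (nat_lit 0) (nat_lit 1680) (XT.lf (nat_lit 0) (nat_lit 8231408846) (nat_lit 588) (nat_lit 11334622500) (nat_lit 84) (nat_lit 11748501132) (nat_lit 73) (nat_lit 5) (nat_lit 80) (nat_lit 5) (nat_lit 74) (nat_lit 5) (nat_lit 364) (nat_lit 339) (nat_lit 158)) (XT.nd (nat_lit 94) (nat_lit 0) (nat_lit 0) (XT.lf (nat_lit 0) (nat_lit 4702975799) (nat_lit 1092) (nat_lit 2912806194) (nat_lit 1092) (nat_lit 2912806194) (nat_lit 93) (nat_lit 3) (nat_lit 106) (nat_lit 3) (nat_lit 106) (nat_lit 5) (nat_lit 340) (nat_lit 340) (nat_lit 181)) (XT.lf (nat_lit 84) (nat_lit 1553320468) (nat_lit 0) (nat_lit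 8134864625) (nat_lit 1092) (nat_lit 11690476850) (nat_lit 94) (nat_lit 5) (nat_lit 93) (nat_lit 3) (nat_lit 106) (nat_lit 5) (nat_lit 341) (nat_lit 340) (nat_lit 180))))))) (XT.nd (nat_lit 846) (nat_lit 588) (nat_lit 0) (XT.nd (nat_lit 376) (nat_lit 0) (nat_lit 168) (XT.nd (nat_lit 188) (nat_lit 0) (nat_lit 84) (XT.nd (nat_lit 94) (nat_lit 0) (nat_lit 84) (XT.lf (nat_lit 84) (nat_lit 9281920552) (nat_lit 0) (nat_lit 753152076) (nat_lit 1092) (nat_lit 11673334924) (nat_lit 94) (nat_lit 5) (nat_lit 93) (nat_lit 3) (nat_lit 106) (nat_lit 5) (nat_lit 342) (nat_lit 340) (nat_lit 179)) (XT.lf (nat_lit 0) (nat_lit 10456006989) (nat_lit 1008) (nat_lit 4868992269) (nat_lit 1092) (nat_lit 6721440149) (nat_lit 94) (nat_lit 5) (nat_lit 106) (nat_lit 5) (nat_lit 107) (nat_lit 5) (nat_lit 343) (nat_lit 340) (nat_lit 178))) (XT.nd (nat_lit 94) (nat_lit 0) (nat_lit 0) (XT.lf (nat_lit 84) (nat_lit 2972351161)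 (nat_lit 0) (nat_lit 7950237646) (nat_lit 1092) (nat_lit 11471376325) (nat_lit 95) (nat_lit 5) (nat_lit 94) (nat_lit 5) (nat_lit 107) (nat_lit 5) (nat_lit 344) (nat_lit 340) (nat_lit 177)) (XT.lf (nat_lit 84) (nat_lit 11157405895) (nat_lit 0) (nat_lit 292572818) (nat_lit 1092) (nat_lit 11300873447) (nat_lit 95) (nat_lit 5) (nat_lit 94) (nat_lit 5) (nat_lit 107) (nat_lit 5) (nat_lit 345) (nat_lit 340) (nat_lit 176)))) (XT.nd (nat_lit 188) (nat_lit 0) (nat_lit 0) (XT.nd (nat_lit 94) (nat_lit 0) (nat_lit 0) (XT.lf (nat_lit 0) (nat_lit 12064809820) (nat_lit 1008) (nat_lit 3600712180) (nat_lit 1092) (nat_lit 7451100761) (nat_lit 95) (nat_lit 5) (nat_lit 107) (nat_lit 5) (nat_lit 108) (nat_lit 5) (nat_lit 346) (nat_lit 340) (nat_lit 175)) (XT.lf (nat_lit 84) (nat_lit 4729484487) (nat_lit 0) (nat_lit 8014930238) (nat_lit 1092) (nat_lit 10747923601) (nat_lit 96) (nat_lit 5) (nat_lit 95) (nat_lit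 5) (nat_lit 108) (nat_lit 5) (nat_lit 347) (nat_lit 340) (nat_lit 174))) (XT.nd (nat_lit 94) (nat_lit 0) (nat_lit 84) (XT.lf (nat_lit 84) (nat_lit 13391668447) (nat_lit 0) (nat_lit 86908147) (nat_lit 1092) (nat_lit 10400108825) (nat_lit 96) (nat_lit 5) (nat_lit 95) (nat_lit 5) (nat_lit 108) (nat_lit 5) (nat_lit 348) (nat_lit 340) (nat_lit 173)) (XT.nd (nat_lit 94) (nat_lit 0) (nat_lit 0) (XT.lf (nat_lit 0) (nat_lit 14311763202) (nat_lit 1008) (nat_lit 2037515928) (nat_lit 1092) (nat_lit 7925387741) (nat_lit 96) (nat_lit 5) (nat_lit 108) (nat_lit 5) (nat_lit 109) (nat_lit 5) (nat_lit 349) (nat_lit 340) (nat_lit 172)) (XT.lf (nat_lit 84) (nat_lit 6807605062) (nat_lit 0) (nat_lit 8427756507) (nat_lit 1092) (nat_lit 9445581286) (nat_lit 97) (nat_lit 5) (nat_lit 96) (nat_lit 5) (nat_lit 109) (nat_lit 5) (nat_lit 350) (nat_lit 340) (nat_lit 171)))))) (XT.nd (nat_lit 470) (nat_lit 840) (nat_lit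 0) (XT.nd (nat_lit 188) (nat_lit 0) (nat_lit 84) (XT.nd (nat_lit 94) (nat_lit 0) (nat_lit 84) (XT.lf (nat_lit 84) (nat_lit 15967561439) (nat_lit 0) (nat_lit 237549394) (nat_lit 1092) (nat_lit 8894180003) (nat_lit 97) (nat_lit 5) (nat_lit 96) (nat_lit 5) (nat_lit 109) (nat_lit 5) (nat_lit 351) (nat_lit 340) (nat_lit 170)) (XT.lf (nat_lit 0) (nat_lit 17282708371) (nat_lit 1008) (nat_lit 203165982) (nat_lit 1092) (nat_lit 8042341808) (nat_lit 97) (nat_lit 5) (nat_lit 109) (nat_lit 5) (nat_lit 110) (nat_lit 5) (nat_lit 352) (nat_lit 340) (nat_lit 169))) (XT.nd (nat_lit 94) (nat_lit 0) (nat_lit 0) (XT.lf (nat_lit 84) (nat_lit 9182208479) (nat_lit 0) (nat_lit 9301506147) (nat_lit 1092) (nat_lit 7483952773) (nat_lit 98) (nat_lit 5) (nat_lit 97) (nat_lit 5) (nat_lit 110) (nat_lit 5) (nat_lit 353) (nat_lit 340) (nat_lit 168)) (XT.nd (nat_lit 94) (nat_lit 0) (nat_lit 84) (XT.lf (nat_lit 84) (nat_lit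 18860316451) (nat_lit 0) (nat_lit 860321929) (nat_lit 1092) (nat_lit 6700162713) (nat_lit 98) (nat_lit 5) (nat_lit 97) (nat_lit 5) (nat_lit 110) (nat_lit 5) (nat_lit 354) (nat_lit 340) (nat_lit 167)) (XT.lf (nat_lit 84) (nat_lit 1908543196) (nat_lit 0) (nat_lit 19180773244) (nat_lit 1092) (nat_lit 5795787972) (nat_lit 99) (nat_lit 5) (nat_lit 98) (nat_lit 5) (nat_lit 111) (nat_lit 5) (nat_lit 355) (nat_lit 340) (nat_lit 166))))) (XT.nd (nat_lit 188) (nat_lit 1008) (nat_lit 0) (XT.nd (nat_lit 94) (nat_lit 0) (nat_lit 0) (XT.lf (nat_lit 84) (nat_lit 11819860692) (nat_lit 0) (nat_lit 10764941109) (nat_lit 1092) (nat_lit 4776401242) (nat_lit 99) (nat_lit 5) (nat_lit 98) (nat_lit 5) (nat_lit 111) (nat_lit 5) (nat_lit 356) (nat_lit 340) (nat_lit 165)) (XT.lf (nat_lit 84) (nat_lit 22035957147) (nat_lit 0) (nat_lit 2087540049) (nat_lit 1092) (nat_lit 3728678286) (nat_lit 99) (nat_lit 5) (nat_lit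 98) (nat_lit 5) (nat_lit 111) (nat_lit 5) (nat_lit 357) (nat_lit 340) (nat_lit 164))) (XT.nd (nat_lit 94) (nat_lit 84) (nat_lit 0) (XT.lf (nat_lit 0) (nat_lit 4224951752) (nat_lit 1008) (nat_lit 21591844416) (nat_lit 1092) (nat_lit 2538274466) (nat_lit 87) (nat_lit 5) (nat_lit 99) (nat_lit 5) (nat_lit 100) (nat_lit 5) (nat_lit 358) (nat_lit 340) (nat_lit 163)) (XT.nd (nat_lit 94) (nat_lit 84) (nat_lit 0) (XT.lf (nat_lit 0) (nat_lit 14676419330) (nat_lit 1008) (nat_lit 12965030137) (nat_lit 1092) (nat_lit 1229677436) (nat_lit 87) (nat_lit 5) (nat_lit 99) (nat_lit 5) (nat_lit 100) (nat_lit 5) (nat_lit 359) (nat_lit 340) (nat_lit 162)) (XT.lf (nat_lit 0) (nat_lit 114141705) (nat_lit 1092) (nat_lit 3954974414) (nat_lit 84) (nat_lit 25334134238) (nat_lit 86) (nat_lit 5) (nat_lit 99) (nat_lit 5) (nat_lit 87) (nat_lit 5) (nat_lit 360) (nat_lit 340) (nat_lit 161))))))))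
noncomputable def xc122 : XT := (XT.nd (nat_lit 53486) (nat_lit 0) (nat_lit 504) (XT.nd (nat_lit 52640) (nat_lit 0) (nat_lit 1764) (XT.nd (nat_lit 52170) (nat_lit 0) (nat_lit 1680) (XT.nd (nat_lit 188) (nat_lit 504) (nat_lit 0) (XT.nd (nat_lit 94) (nat_lit 0) (nat_lit 0) (XT.lf (nat_lit 0) (nat_lit 1589349845) (nat_lit 672) (nat_lit 23278304147) (nat_lit 84) (nat_lit 5080266958) (nat_lit 79) (nat_lit 5) (nat_lit 87) (nat_lit 5) (nat_lit 80) (nat_lit 5) (nat_lit 361) (nat_lit 340) (nat_lit 160)) (XT.lf (nat_lit 0) (nat_lit 3190828111) (nat_lit 672) (nat_lit 12845318363) (nat_lit 84) (nat_lit 14470847401) (nat_lit 79) (nat_lit 5) (nat_lit 87) (nat_lit 5) (nat_lit 80) (nat_lit 5) (nat_lit 362) (nat_lit 340) (nat_lit 159))) (XT.nd (nat_lit 94) (nat_lit 504) (nat_lit 0) (XT.lf (nat_lit 0) (nat_lit 4839253028) (nat_lit 672) (nat_lit 2091330770) (nat_lit 84) (nat_lit 24152911749) (nat_lit 79) (nat_lit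 5) (nat_lit 87) (nat_lit 5) (nat_lit 80) (nat_lit 5) (nat_lit 363) (nat_lit 340) (nat_lit 158)) (XT.lf (nat_lit 0) (nat_lit 6652524231) (nat_lit 588) (nat_lit 22521839830) (nat_lit 84) (nat_lit 2499992009) (nat_lit 73) (nat_lit 5) (nat_lit 80) (nat_lit 5) (nat_lit 74) (nat_lit 5) (nat_lit 364) (nat_lit 340) (nat_lit 157)))) (XT.nd (nat_lit 188) (nat_lit 0) (nat_lit 0) (XT.nd (nat_lit 94) (nat_lit 0) (nat_lit 0) (XT.lf (nat_lit 0) (nat_lit 4968599510) (nat_lit 1092) (nat_lit 2940997902) (nat_lit 1092) (nat_lit 2940997902) (nat_lit 93) (nat_lit 3) (nat_lit 106) (nat_lit 3) (nat_lit 106) (nat_lit 5) (nat_lit 341) (nat_lit 341) (nat_lit 179)) (XT.lf (nat_lit 84) (nat_lit 1724426451) (nat_lit 0) (nat_lit 8497768853) (nat_lit 1092) (nat_lit 11810672476) (nat_lit 94) (nat_lit 5) (nat_lit 93) (nat_lit 3) (nat_lit 106) (nat_lit 5) (nat_lit 342) (nat_lit 341) (nat_lit 178))) (XT.nd (nat_lit 94) (nat_lit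 0) (nat_lit 84) (XT.lf (nat_lit 84) (nat_lit 9688916198) (nat_lit 0) (nat_lit 883893994) (nat_lit 1092) (nat_lit 11800281870) (nat_lit 94) (nat_lit 5) (nat_lit 93) (nat_lit 3) (nat_lit 106) (nat_lit 5) (nat_lit 343) (nat_lit 341) (nat_lit 177)) (XT.nd (nat_lit 94) (nat_lit 0) (nat_lit 0) (XT.lf (nat_lit 0) (nat_lit 10998945290) (nat_lit 1008) (nat_lit 4895200092) (nat_lit 1092) (nat_lit 6827738402) (nat_lit 94) (nat_lit 5) (nat_lit 106) (nat_lit 5) (nat_lit 107) (nat_lit 5) (nat_lit 344) (nat_lit 341) (nat_lit 176)) (XT.lf (nat_lit 84) (nat_lit 3187962196) (nat_lit 0) (nat_lit 8286674849) (nat_lit 1092) (nat_lit 11605748191) (nat_lit 95) (nat_lit 5) (nat_lit 94) (nat_lit 5) (nat_lit 107) (nat_lit 5) (nat_lit 345) (nat_lit 341) (nat_lit 175)))))) (XT.nd (nat_lit 376) (nat_lit 0) (nat_lit 168) (XT.nd (nat_lit 188) (nat_lit 0) (nat_lit 84) (XT.nd (nat_lit 94) (nat_lit 0) (nat_lit 84) (XT.lf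 (nat_lit 84) (nat_lit 11623041199) (nat_lit 0) (nat_lit 388916908) (nat_lit 1092) (nat_lit 11436611970) (nat_lit 95) (nat_lit 5) (nat_lit 94) (nat_lit 5) (nat_lit 107) (nat_lit 5) (nat_lit 346) (nat_lit 341) (nat_lit 174)) (XT.lf (nat_lit 0) (nat_lit 12638784280) (nat_lit 1008) (nat_lit 3588008365) (nat_lit 1092) (nat_lit 7599140221) (nat_lit 95) (nat_lit 5) (nat_lit 107) (nat_lit 5) (nat_lit 108) (nat_lit 5) (nat_lit 347) (nat_lit 341) (nat_lit 173))) (XT.nd (nat_lit 94) (nat_lit 0) (nat_lit 0) (XT.lf (nat_lit 84) (nat_lit 4999165710) (nat_lit 0) (nat_lit 8335499532) (nat_lit 1092) (nat_lit 10878812178) (nat_lit 96) (nat_lit 5) (nat_lit 95) (nat_lit 5) (nat_lit 108) (nat_lit 5) (nat_lit 348) (nat_lit 341) (nat_lit 172)) (XT.lf (nat_lit 84) (nat_lit 13926177001) (nat_lit 0) (nat_lit 159540666) (nat_lit 1092) (nat_lit 10526297791) (nat_lit 96) (nat_lit 5) (nat_lit 95) (nat_lit 5) (nat_lit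 108) (nat_lit 5) (nat_lit 349) (nat_lit 341) (nat_lit 171)))) (XT.nd (nat_lit 188) (nat_lit 0) (nat_lit 0) (XT.nd (nat_lit 94) (nat_lit 0) (nat_lit 0) (XT.lf (nat_lit 0) (nat_lit 14938368115) (nat_lit 1008) (nat_lit 1977526799) (nat_lit 1092) (nat_lit 8104606028) (nat_lit 96) (nat_lit 5) (nat_lit 108) (nat_lit 5) (nat_lit 109) (nat_lit 5) (nat_lit 350) (nat_lit 341) (nat_lit 170)) (XT.lf (nat_lit 84) (nat_lit 7140546138) (nat_lit 0) (nat_lit 8745760581) (nat_lit 1092) (nat_lit 9553228144) (nat_lit 97) (nat_lit 5) (nat_lit 96) (nat_lit 5) (nat_lit 109) (nat_lit 5) (nat_lit 351) (nat_lit 341) (nat_lit 169))) (XT.nd (nat_lit 94) (nat_lit 0) (nat_lit 84) (XT.lf (nat_lit 84) (nat_lit 16580795726) (nat_lit 0) (nat_lit 299950887) (nat_lit 1092) (nat_lit 8990300978) (nat_lit 97) (nat_lit 5) (nat_lit 96) (nat_lit 5) (nat_lit 109) (nat_lit 5) (nat_lit 352) (nat_lit 341) (nat_lit 168)) (XT.nd (nat_lit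 94) (nat_lit 0) (nat_lit 0) (XT.lf (nat_lit 0) (nat_lit 17986010027) (nat_lit 1008) (nat_lit 88118714) (nat_lit 1092) (nat_lit 8239347344) (nat_lit 97) (nat_lit 5) (nat_lit 109) (nat_lit 5) (nat_lit 110) (nat_lit 5) (nat_lit 353) (nat_lit 341) (nat_lit 167)) (XT.lf (nat_lit 84) (nat_lit 9586973842) (nat_lit 0) (nat_lit 9633427702) (nat_lit 1092) (nat_lit 7546295686) (nat_lit 98) (nat_lit 5) (nat_lit 97) (nat_lit 5) (nat_lit 110) (nat_lit 5) (nat_lit 354) (nat_lit 341) (nat_lit 166))))))) (XT.nd (nat_lit 846) (nat_lit 0) (nat_lit 0) (XT.nd (nat_lit 376) (nat_lit 1512) (nat_lit 0) (XT.nd (nat_lit 188) (nat_lit 0) (nat_lit 84) (XT.nd (nat_lit 94) (nat_lit 0) (nat_lit 84) (XT.lf (nat_lit 84) (nat_lit 19561491499) (nat_lit 0) (nat_lit 929256568) (nat_lit 1092) (nat_lit 6743309442) (nat_lit 98) (nat_lit 5) (nat_lit 97) (nat_lit 5) (nat_lit 110) (nat_lit 5) (nat_lit 355) (nat_lit 341) (nat_lit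 165)) (XT.lf (nat_lit 84) (nat_lit 2089178602) (nat_lit 0) (nat_lit 19808701008) (nat_lit 1092) (nat_lit 5815023919) (nat_lit 99) (nat_lit 5) (nat_lit 98) (nat_lit 5) (nat_lit 111) (nat_lit 5) (nat_lit 356) (nat_lit 341) (nat_lit 164))) (XT.nd (nat_lit 94) (nat_lit 0) (nat_lit 0) (XT.lf (nat_lit 84) (nat_lit 12304094576) (nat_lit 0) (nat_lit 11130976099) (nat_lit 1092) (nat_lit 4768860097) (nat_lit 99) (nat_lit 5) (nat_lit 98) (nat_lit 5) (nat_lit 111) (nat_lit 5) (nat_lit 357) (nat_lit 341) (nat_lit 163)) (XT.lf (nat_lit 84) (nat_lit 22833347477) (nat_lit 0) (nat_lit 2183603758) (nat_lit 1092) (nat_lit 3693336582) (nat_lit 99) (nat_lit 5) (nat_lit 98) (nat_lit 5) (nat_lit 111) (nat_lit 5) (nat_lit 358) (nat_lit 341) (nat_lit 162)))) (XT.nd (nat_lit 188) (nat_lit 672) (nat_lit 0) (XT.nd (nat_lit 94) (nat_lit 0) (nat_lit 0) (XT.lf (nat_lit 0) (nat_lit 4474603219) (nat_lit 1008) (nat_lit 22284636256)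 (nat_lit 1092) (nat_lit 2469665612) (nat_lit 87) (nat_lit 5) (nat_lit 99) (nat_lit 5) (nat_lit 100) (nat_lit 5) (nat_lit 359) (nat_lit 341) (nat_lit 161)) (XT.lf (nat_lit 0) (nat_lit 15246497895) (nat_lit 1008) (nat_lit 13389685802) (nat_lit 1092) (nat_lit 1124930936) (nat_lit 87) (nat_lit 5) (nat_lit 99) (nat_lit 5) (nat_lit 100) (nat_lit 5) (nat_lit 360) (nat_lit 341) (nat_lit 160))) (XT.nd (nat_lit 94) (nat_lit 588) (nat_lit 0) (XT.lf (nat_lit 0) (nat_lit 253459010) (nat_lit 1092) (nat_lit 3962438450) (nat_lit 84) (nat_lit 26093944696) (nat_lit 86) (nat_lit 5) (nat_lit 99) (nat_lit 5) (nat_lit 87) (nat_lit 5) (nat_lit 361) (nat_lit 341) (nat_lit 159)) (XT.nd (nat_lit 94) (nat_lit 0) (nat_lit 0) (XT.lf (nat_lit 0) (nat_lit 1771259639) (nat_lit 672) (nat_lit 23880973667) (nat_lit 84) (nat_lit 5219282582) (nat_lit 79) (nat_lit 5) (nat_lit 87) (nat_lit 5) (nat_lit 80) (nat_lit 5) (nat_lit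 362) (nat_lit 341) (nat_lit 158)) (XT.lf (nat_lit 0) (nat_lit 3418395527) (nat_lit 672) (nat_lit 13128142138) (nat_lit 84) (nat_lit 14901526452) (nat_lit 79) (nat_lit 5) (nat_lit 87) (nat_lit 5) (nat_lit 80) (nat_lit 5) (nat_lit 363) (nat_lit 341) (nat_lit 157)))))) (XT.nd (nat_lit 52358) (nat_lit 0) (nat_lit 1260) (XT.nd (nat_lit 52076) (nat_lit 0) (nat_lit 1176) (XT.nd (nat_lit 51982) (nat_lit 0) (nat_lit 1176) (XT.lf (nat_lit 0) (nat_lit 5114053329) (nat_lit 672) (nat_lit 2044250197) (nat_lit 84) (nat_lit 24884273528) (nat_lit 79) (nat_lit 5) (nat_lit 87) (nat_lit 5) (nat_lit 80) (nat_lit 5) (nat_lit 364) (nat_lit 341) (nat_lit 156)) (XT.lf (nat_lit 0) (nat_lit 5235359733) (nat_lit 1092) (nat_lit 2973742155) (nat_lit 1092) (nat_lit 2973742155) (nat_lit 93) (nat_lit 3) (nat_lit 106) (nat_lit 3) (nat_lit 106) (nat_lit 5) (nat_lit 342) (nat_lit 342) (nat_lit 177))) (XT.nd (nat_lit 94) (nat_lit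 0) (nat_lit 0) (XT.lf (nat_lit 84) (nat_lit 1893553999) (nat_lit 0) (nat_lit 8865364774) (nat_lit 1092) (nat_lit 11948940629) (nat_lit 94) (nat_lit 5) (nat_lit 93) (nat_lit 3) (nat_lit 106) (nat_lit 5) (nat_lit 343) (nat_lit 342) (nat_lit 176)) (XT.nd (nat_lit 94) (nat_lit 0) (nat_lit 84) (XT.lf (nat_lit 84) (nat_lit 10101464965) (nat_lit 0) (nat_lit 1012327769) (nat_lit 1092) (nat_lit 11945079266) (nat_lit 94) (nat_lit 5) (nat_lit 93) (nat_lit 3) (nat_lit 106) (nat_lit 5) (nat_lit 344) (nat_lit 342) (nat_lit 175)) (XT.lf (nat_lit 0) (nat_lit 11545754656) (nat_lit 1008) (nat_lit 4929608384) (nat_lit 1092) (nat_lit 6943377467) (nat_lit 94) (nat_lit 5) (nat_lit 106) (nat_lit 5) (nat_lit 107) (nat_lit 5) (nat_lit 345) (nat_lit 342) (nat_lit 174))))) (XT.nd (nat_lit 188) (nat_lit 0) (nat_lit 84) (XT.nd (nat_lit 94) (nat_lit 0) (nat_lit 0) (XT.lf (nat_lit 84) (nat_lit 3402943943) (nat_lit 0)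 (nat_lit 8628211946) (nat_lit 1092) (nat_lit 11757390057) (nat_lit 95) (nat_lit 5) (nat_lit 94) (nat_lit 5) (nat_lit 107) (nat_lit 5) (nat_lit 346) (nat_lit 342) (nat_lit 173)) (XT.lf (nat_lit 84) (nat_lit 12096017861) (nat_lit 0) (nat_lit 483078256) (nat_lit 1092) (nat_lit 11589268834) (nat_lit 95) (nat_lit 5) (nat_lit 94) (nat_lit 5) (nat_lit 107) (nat_lit 5) (nat_lit 347) (nat_lit 342) (nat_lit 172))) (XT.nd (nat_lit 94) (nat_lit 0) (nat_lit 0) (XT.lf (nat_lit 0) (nat_lit 13218707658) (nat_lit 1008) (nat_lit 3582274768) (nat_lit 1092) (nat_lit 7756681858) (nat_lit 95) (nat_lit 5) (nat_lit 107) (nat_lit 5) (nat_lit 108) (nat_lit 5) (nat_lit 348) (nat_lit 342) (nat_lit 171)) (XT.nd (nat_lit 94) (nat_lit 0) (nat_lit 0) (XT.lf (nat_lit 84) (nat_lit 5269917569) (nat_lit 0) (nat_lit 8661735484) (nat_lit 1092) (nat_lit 11025740702) (nat_lit 96) (nat_lit 5) (nat_lit 95) (nat_lit 5) (nat_lit 108)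 (nat_lit 5) (nat_lit 349) (nat_lit 342) (nat_lit 170)) (XT.lf (nat_lit 84) (nat_lit 14470185019) (nat_lit 0) (nat_lit 230282224) (nat_lit 1092) (nat_lit 10668020729) (nat_lit 96) (nat_lit 5) (nat_lit 95) (nat_lit 5) (nat_lit 108) (nat_lit 5) (nat_lit 350) (nat_lit 342) (nat_lit 169))))))))
noncomputable def xc123 : XT := (XT.nd (nat_lit 53768) (nat_lit 0) (nat_lit 588) (XT.nd (nat_lit 846) (nat_lit 1428) (nat_lit 0) (XT.nd (nat_lit 376) (nat_lit 0) (nat_lit 84) (XT.nd (nat_lit 188) (nat_lit 0) (nat_lit 0) (XT.nd (nat_lit 94) (nat_lit 0) (nat_lit 0) (XT.lf (nat_lit 0) (nat_lit 15573561915) (nat_lit 1008) (nat_lit 1922972518) (nat_lit 1092) (nat_lit 8293317138) (nat_lit 96) (nat_lit 5) (nat_lit 108) (nat_lit 5) (nat_lit 109) (nat_lit 5) (nat_lit 351) (nat_lit 342) (nat_lit 168)) (XT.lf (nat_lit 84) (nat_lit 7476587726) (nat_lit 0) (nat_lit 9070261760) (nat_lit 1092) (nat_lit 9675179764) (nat_lit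 97) (nat_lit 5) (nat_lit 96) (nat_lit 5) (nat_lit 109) (nat_lit 5) (nat_lit 352) (nat_lit 342) (nat_lit 167))) (XT.nd (nat_lit 94) (nat_lit 0) (nat_lit 84) (XT.lf (nat_lit 84) (nat_lit 17206036725) (nat_lit 0) (nat_lit 361026863) (nat_lit 1092) (nat_lit 9100039637) (nat_lit 97) (nat_lit 5) (nat_lit 96) (nat_lit 5) (nat_lit 109) (nat_lit 5) (nat_lit 353) (nat_lit 342) (nat_lit 166)) (XT.lf (nat_lit 84) (nat_lit 23786772) (nat_lit 0) (nat_lit 18677639684) (nat_lit 1092) (nat_lit 8422007483) (nat_lit 98) (nat_lit 5) (nat_lit 97) (nat_lit 5) (nat_lit 110) (nat_lit 5) (nat_lit 354) (nat_lit 342) (nat_lit 165)))) (XT.nd (nat_lit 188) (nat_lit 0) (nat_lit 84) (XT.nd (nat_lit 94) (nat_lit 0) (nat_lit 0) (XT.lf (nat_lit 84) (nat_lit 9997172202) (nat_lit 0) (nat_lit 9973057812) (nat_lit 1092) (nat_lit 7620620459) (nat_lit 98) (nat_lit 5) (nat_lit 97) (nat_lit 5) (nat_lit 110) (nat_lit 5) (nat_lit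 355) (nat_lit 342) (nat_lit 164)) (XT.lf (nat_lit 84) (nat_lit 20277502169) (nat_lit 0) (nat_lit 997824774) (nat_lit 1092) (nat_lit 6797540790) (nat_lit 98) (nat_lit 5) (nat_lit 97) (nat_lit 5) (nat_lit 110) (nat_lit 5) (nat_lit 356) (nat_lit 342) (nat_lit 163))) (XT.nd (nat_lit 94) (nat_lit 0) (nat_lit 0) (XT.lf (nat_lit 84) (nat_lit 2268218797) (nat_lit 0) (nat_lit 20454120706) (nat_lit 1092) (nat_lit 5844358930) (nat_lit 99) (nat_lit 5) (nat_lit 98) (nat_lit 5) (nat_lit 111) (nat_lit 5) (nat_lit 357) (nat_lit 342) (nat_lit 162)) (XT.nd (nat_lit 94) (nat_lit 0) (nat_lit 0) (XT.lf (nat_lit 84) (nat_lit 12796361138) (nat_lit 0) (nat_lit 11506443698) (nat_lit 1092) (nat_lit 4770302198) (nat_lit 99) (nat_lit 5) (nat_lit 98) (nat_lit 5) (nat_lit 111) (nat_lit 5) (nat_lit 358) (nat_lit 342) (nat_lit 161)) (XT.lf (nat_lit 84) (nat_lit 23648688164) (nat_lit 0) (nat_lit 2280788530) (nat_lit 1092)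 (nat_lit 3665839171) (nat_lit 99) (nat_lit 5) (nat_lit 98) (nat_lit 5) (nat_lit 111) (nat_lit 5) (nat_lit 359) (nat_lit 342) (nat_lit 160)))))) (XT.nd (nat_lit 52452) (nat_lit 0) (nat_lit 1176) (XT.nd (nat_lit 188) (nat_lit 672) (nat_lit 0) (XT.nd (nat_lit 94) (nat_lit 0) (nat_lit 0) (XT.lf (nat_lit 0) (nat_lit 4724964383) (nat_lit 1008) (nat_lit 22997515975) (nat_lit 1092) (nat_lit 2407654440) (nat_lit 87) (nat_lit 5) (nat_lit 99) (nat_lit 5) (nat_lit 100) (nat_lit 5) (nat_lit 360) (nat_lit 342) (nat_lit 159)) (XT.lf (nat_lit 0) (nat_lit 15827430759) (nat_lit 1008) (nat_lit 13826158880) (nat_lit 1092) (nat_lit 1025399522) (nat_lit 87) (nat_lit 5) (nat_lit 99) (nat_lit 5) (nat_lit 100) (nat_lit 5) (nat_lit 361) (nat_lit 342) (nat_lit 158))) (XT.nd (nat_lit 94) (nat_lit 588) (nat_lit 0) (XT.lf (nat_lit 0) (nat_lit 389052735) (nat_lit 1092) (nat_lit 3976953820) (nat_lit 84) (nat_lit 26878822514)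 (nat_lit 86) (nat_lit 5) (nat_lit 99) (nat_lit 5) (nat_lit 87) (nat_lit 5) (nat_lit 362) (nat_lit 342) (nat_lit 157)) (XT.nd (nat_lit 94) (nat_lit 0) (nat_lit 0) (XT.lf (nat_lit 0) (nat_lit 1950952145) (nat_lit 672) (nat_lit 24509372023) (nat_lit 84) (nat_lit 5363701857) (nat_lit 79) (nat_lit 5) (nat_lit 87) (nat_lit 5) (nat_lit 80) (nat_lit 5) (nat_lit 363) (nat_lit 342) (nat_lit 156)) (XT.lf (nat_lit 0) (nat_lit 3645397270) (nat_lit 672) (nat_lit 13426567670) (nat_lit 84) (nat_lit 15346617822) (nat_lit 79) (nat_lit 5) (nat_lit 87) (nat_lit 5) (nat_lit 80) (nat_lit 5) (nat_lit 364) (nat_lit 342) (nat_lit 155))))) (XT.nd (nat_lit 188) (nat_lit 0) (nat_lit 0) (XT.nd (nat_lit 94) (nat_lit 0) (nat_lit 0) (XT.lf (nat_lit 0) (nat_lit 5503712117) (nat_lit 1092) (nat_lit 3010962193) (nat_lit 1092) (nat_lit 3010962193) (nat_lit 93) (nat_lit 3) (nat_lit 106) (nat_lit 3) (nat_lit 106) (nat_lit 5)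 (nat_lit 343) (nat_lit 343) (nat_lit 175)) (XT.lf (nat_lit 84) (nat_lit 2061073149) (nat_lit 0) (nat_lit 9238186292) (nat_lit 1092) (nat_lit 12104991793) (nat_lit 94) (nat_lit 5) (nat_lit 93) (nat_lit 3) (nat_lit 106) (nat_lit 5) (nat_lit 344) (nat_lit 343) (nat_lit 174))) (XT.nd (nat_lit 94) (nat_lit 0) (nat_lit 84) (XT.lf (nat_lit 84) (nat_lit 10520157398) (nat_lit 0) (nat_lit 1138758630) (nat_lit 1092) (nat_lit 12107456262) (nat_lit 94) (nat_lit 5) (nat_lit 93) (nat_lit 3) (nat_lit 106) (nat_lit 5) (nat_lit 345) (nat_lit 343) (nat_lit 173)) (XT.nd (nat_lit 94) (nat_lit 0) (nat_lit 0) (XT.lf (nat_lit 0) (nat_lit 12097322734) (nat_lit 1008) (nat_lit 4972033755) (nat_lit 1092) (nat_lit 7068288822) (nat_lit 94) (nat_lit 5) (nat_lit 106) (nat_lit 5) (nat_lit 107) (nat_lit 5) (nat_lit 346) (nat_lit 343) (nat_lit 172)) (XT.lf (nat_lit 84) (nat_lit 3617710069) (nat_lit 0) (nat_lit 8975322718)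 (nat_lit 1092) (nat_lit 11926061091) (nat_lit 95) (nat_lit 5) (nat_lit 94) (nat_lit 5) (nat_lit 107) (nat_lit 5) (nat_lit 347) (nat_lit 343) (nat_lit 171))))))) (XT.nd (nat_lit 846) (nat_lit 672) (nat_lit 0) (XT.nd (nat_lit 376) (nat_lit 0) (nat_lit 168) (XT.nd (nat_lit 188) (nat_lit 0) (nat_lit 84) (XT.nd (nat_lit 94) (nat_lit 0) (nat_lit 84) (XT.lf (nat_lit 84) (nat_lit 12576983614) (nat_lit 0) (nat_lit 575295391) (nat_lit 1092) (nat_lit 11758615646) (nat_lit 95) (nat_lit 5) (nat_lit 94) (nat_lit 5) (nat_lit 107) (nat_lit 5) (nat_lit 348) (nat_lit 343) (nat_lit 170)) (XT.lf (nat_lit 0) (nat_lit 13805465927) (nat_lit 1008) (nat_lit 3583291280) (nat_lit 1092) (nat_lit 7923729238) (nat_lit 95) (nat_lit 5) (nat_lit 107) (nat_lit 5) (nat_lit 108) (nat_lit 5) (nat_lit 349) (nat_lit 343) (nat_lit 169))) (XT.nd (nat_lit 94) (nat_lit 0) (nat_lit 0) (XT.lf (nat_lit 84) (nat_lit 5542205024) (nat_lit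 0) (nat_lit 8994066740) (nat_lit 1092) (nat_lit 11188496672) (nat_lit 96) (nat_lit 5) (nat_lit 95) (nat_lit 5) (nat_lit 108) (nat_lit 5) (nat_lit 350) (nat_lit 343) (nat_lit 168)) (XT.lf (nat_lit 84) (nat_lit 15024405769) (nat_lit 0) (nat_lit 299319573) (nat_lit 1092) (nat_lit 10825070797) (nat_lit 96) (nat_lit 5) (nat_lit 95) (nat_lit 5) (nat_lit 108) (nat_lit 5) (nat_lit 351) (nat_lit 343) (nat_lit 167)))) (XT.nd (nat_lit 188) (nat_lit 0) (nat_lit 0) (XT.nd (nat_lit 94) (nat_lit 0) (nat_lit 0) (XT.lf (nat_lit 0) (nat_lit 16218252686) (nat_lit 1008) (nat_lit 1873589498) (nat_lit 1092) (nat_lit 8491582151) (nat_lit 96) (nat_lit 5) (nat_lit 108) (nat_lit 5) (nat_lit 109) (nat_lit 5) (nat_lit 352) (nat_lit 343) (nat_lit 166)) (XT.lf (nat_lit 84) (nat_lit 7816253634) (nat_lit 0) (nat_lit 9401660532) (nat_lit 1092) (nat_lit 9811229957) (nat_lit 97) (nat_lit 5) (nat_lit 96) (nat_lit 5) (nat_lit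 109) (nat_lit 5) (nat_lit 353) (nat_lit 343) (nat_lit 165))) (XT.nd (nat_lit 94) (nat_lit 0) (nat_lit 84) (XT.lf (nat_lit 84) (nat_lit 17844071476) (nat_lit 0) (nat_lit 420929324) (nat_lit 1092) (nat_lit 9223188024) (nat_lit 97) (nat_lit 5) (nat_lit 96) (nat_lit 5) (nat_lit 109) (nat_lit 5) (nat_lit 354) (nat_lit 343) (nat_lit 164)) (XT.nd (nat_lit 94) (nat_lit 0) (nat_lit 0) (XT.lf (nat_lit 84) (nat_lit 134128596) (nat_lit 0) (nat_lit 19296407766) (nat_lit 1092) (nat_lit 8528278471) (nat_lit 98) (nat_lit 5) (nat_lit 97) (nat_lit 5) (nat_lit 110) (nat_lit 5) (nat_lit 355) (nat_lit 343) (nat_lit 163)) (XT.lf (nat_lit 84) (nat_lit 10413393399) (nat_lit 0) (nat_lit 10320788318) (nat_lit 1092) (nat_lit 7706703297) (nat_lit 98) (nat_lit 5) (nat_lit 97) (nat_lit 5) (nat_lit 110) (nat_lit 5) (nat_lit 356) (nat_lit 343) (nat_lit 162)))))) (XT.nd (nat_lit 470) (nat_lit 84) (nat_lit 0) (XT.nd (nat_lit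 188) (nat_lit 840) (nat_lit 0) (XT.nd (nat_lit 94) (nat_lit 0) (nat_lit 84) (XT.lf (nat_lit 84) (nat_lit 21009217111) (nat_lit 0) (nat_lit 1066163467) (nat_lit 1092) (nat_lit 6862623045) (nat_lit 98) (nat_lit 5) (nat_lit 97) (nat_lit 5) (nat_lit 110) (nat_lit 5) (nat_lit 357) (nat_lit 343) (nat_lit 161)) (XT.lf (nat_lit 84) (nat_lit 2446040495) (nat_lit 0) (nat_lit 21117691503) (nat_lit 1092) (nat_lit 5883543211) (nat_lit 99) (nat_lit 5) (nat_lit 98) (nat_lit 5) (nat_lit 111) (nat_lit 5) (nat_lit 358) (nat_lit 343) (nat_lit 160))) (XT.nd (nat_lit 94) (nat_lit 924) (nat_lit 0) (XT.lf (nat_lit 84) (nat_lit 13297322742) (nat_lit 0) (nat_lit 11891749714) (nat_lit 1092) (nat_lit 4780460087) (nat_lit 99) (nat_lit 5) (nat_lit 98) (nat_lit 5) (nat_lit 111) (nat_lit 5) (nat_lit 359) (nat_lit 343) (nat_lit 159)) (XT.nd (nat_lit 94) (nat_lit 924) (nat_lit 0) (XT.lf (nat_lit 84) (nat_lit 24482936593)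 (nat_lit 0) (nat_lit 2379239106) (nat_lit 1092) (nat_lit 3645899701) (nat_lit 99) (nat_lit 5) (nat_lit 98) (nat_lit 5) (nat_lit 111) (nat_lit 5) (nat_lit 360) (nat_lit 343) (nat_lit 158)) (XT.lf (nat_lit 0) (nat_lit 4976473612) (nat_lit 1008) (nat_lit 23731188550) (nat_lit 1092) (nat_lit 2351928708) (nat_lit 87) (nat_lit 5) (nat_lit 99) (nat_lit 5) (nat_lit 100) (nat_lit 5) (nat_lit 361) (nat_lit 343) (nat_lit 157))))) (XT.nd (nat_lit 52358) (nat_lit 0) (nat_lit 588) (XT.nd (nat_lit 94) (nat_lit 84) (nat_lit 0) (XT.lf (nat_lit 0) (nat_lit 16419958255) (nat_lit 1008) (nat_lit 14274895489) (nat_lit 1092) (nat_lit 930743629) (nat_lit 87) (nat_lit 5) (nat_lit 99) (nat_lit 5) (nat_lit 100) (nat_lit 5) (nat_lit 362) (nat_lit 343) (nat_lit 156)) (XT.lf (nat_lit 0) (nat_lit 521283814) (nat_lit 1092) (nat_lit 3998335159) (nat_lit 84) (nat_lit 27689455146) (nat_lit 86) (nat_lit 5) (nat_lit 99) (nat_lit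 5) (nat_lit 87) (nat_lit 5) (nat_lit 363) (nat_lit 343) (nat_lit 155))) (XT.nd (nat_lit 94) (nat_lit 0) (nat_lit 0) (XT.lf (nat_lit 0) (nat_lit 5774101532) (nat_lit 1092) (nat_lit 3052591780) (nat_lit 1092) (nat_lit 3052591780) (nat_lit 93) (nat_lit 3) (nat_lit 106) (nat_lit 3) (nat_lit 106) (nat_lit 5) (nat_lit 344) (nat_lit 344) (nat_lit 173)) (XT.nd (nat_lit 94) (nat_lit 0) (nat_lit 0) (XT.lf (nat_lit 84) (nat_lit 2227339859) (nat_lit 0) (nat_lit 9616760852) (nat_lit 1092) (nat_lit 12278577808) (nat_lit 94) (nat_lit 5) (nat_lit 93) (nat_lit 3) (nat_lit 106) (nat_lit 5) (nat_lit 345) (nat_lit 344) (nat_lit 172)) (XT.lf (nat_lit 84) (nat_lit 10945577566) (nat_lit 0) (nat_lit 1263478951) (nat_lit 1092) (nat_lit 12287182430) (nat_lit 94) (nat_lit 5) (nat_lit 93) (nat_lit 3) (nat_lit 106) (nat_lit 5) (nat_lit 346) (nat_lit 344) (nat_lit 171))))))))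
noncomputable def xc124 : XT := (XT.nd (nat_lit 53956) (nat_lit 0) (nat_lit 0) (XT.nd (nat_lit 846) (nat_lit 588) (nat_lit 0) (XT.nd (nat_lit 376) (nat_lit 0) (nat_lit 84) (XT.nd (nat_lit 188) (nat_lit 0) (nat_lit 0) (XT.nd (nat_lit 94) (nat_lit 0) (nat_lit 0) (XT.lf (nat_lit 0) (nat_lit 12654519221) (nat_lit 1008) (nat_lit 5022313048) (nat_lit 1092) (nat_lit 7202423027) (nat_lit 94) (nat_lit 5) (nat_lit 106) (nat_lit 5) (nat_lit 107) (nat_lit 5) (nat_lit 347) (nat_lit 344) (nat_lit 170)) (XT.lf (nat_lit 84) (nat_lit 3832661408) (nat_lit 0) (nat_lit 9328476936) (nat_lit 1092) (nat_lit 12111558975) (nat_lit 95) (nat_lit 5) (nat_lit 94) (nat_lit 5) (nat_lit 107) (nat_lit 5) (nat_lit 348) (nat_lit 344) (nat_lit 169))) (XT.nd (nat_lit 94) (nat_lit 0) (nat_lit 84) (XT.lf (nat_lit 84) (nat_lit 13066581383) (nat_lit 0) (nat_lit 665796098) (nat_lit 1092) (nat_lit 11944461528) (nat_lit 95) (nat_lit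 5) (nat_lit 94) (nat_lit 5) (nat_lit 107) (nat_lit 5) (nat_lit 349) (nat_lit 344) (nat_lit 168)) (XT.lf (nat_lit 0) (nat_lit 14399930974) (nat_lit 1008) (nat_lit 3590856807) (nat_lit 1092) (nat_lit 8100303272) (nat_lit 95) (nat_lit 5) (nat_lit 107) (nat_lit 5) (nat_lit 108) (nat_lit 5) (nat_lit 350) (nat_lit 344) (nat_lit 167)))) (XT.nd (nat_lit 188) (nat_lit 0) (nat_lit 84) (XT.nd (nat_lit 94) (nat_lit 0) (nat_lit 0) (XT.lf (nat_lit 84) (nat_lit 5816481871) (nat_lit 0) (nat_lit 9332920248) (nat_lit 1092) (nat_lit 11366903042) (nat_lit 96) (nat_lit 5) (nat_lit 95) (nat_lit 5) (nat_lit 108) (nat_lit 5) (nat_lit 351) (nat_lit 344) (nat_lit 166)) (XT.lf (nat_lit 84) (nat_lit 15589549827) (nat_lit 0) (nat_lit 366830719) (nat_lit 1092) (nat_lit 10997275511) (nat_lit 96) (nat_lit 5) (nat_lit 95) (nat_lit 5) (nat_lit 108) (nat_lit 5) (nat_lit 352) (nat_lit 344) (nat_lit 165))) (XT.nd (nat_lit 94)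 (nat_lit 0) (nat_lit 0) (XT.lf (nat_lit 0) (nat_lit 16873338644) (nat_lit 1008) (nat_lit 1829131576) (nat_lit 1092) (nat_lit 8699477852) (nat_lit 96) (nat_lit 5) (nat_lit 108) (nat_lit 5) (nat_lit 109) (nat_lit 5) (nat_lit 353) (nat_lit 344) (nat_lit 164)) (XT.nd (nat_lit 94) (nat_lit 0) (nat_lit 0) (XT.lf (nat_lit 84) (nat_lit 8160058577) (nat_lit 0) (nat_lit 9740358011) (nat_lit 1092) (nat_lit 9961204621) (nat_lit 97) (nat_lit 5) (nat_lit 96) (nat_lit 5) (nat_lit 109) (nat_lit 5) (nat_lit 354) (nat_lit 344) (nat_lit 163)) (XT.lf (nat_lit 84) (nat_lit 18495686848) (nat_lit 0) (nat_lit 479803547) (nat_lit 1092) (nat_lit 9359569060) (nat_lit 97) (nat_lit 5) (nat_lit 96) (nat_lit 5) (nat_lit 109) (nat_lit 5) (nat_lit 355) (nat_lit 344) (nat_lit 162)))))) (XT.nd (nat_lit 376) (nat_lit 840) (nat_lit 0) (XT.nd (nat_lit 188) (nat_lit 0) (nat_lit 0) (XT.nd (nat_lit 94) (nat_lit 0) (nat_lit 0) (XT.lf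 (nat_lit 84) (nat_lit 241398957) (nat_lit 0) (nat_lit 19932002532) (nat_lit 1092) (nat_lit 8647013594) (nat_lit 98) (nat_lit 5) (nat_lit 97) (nat_lit 5) (nat_lit 110) (nat_lit 5) (nat_lit 356) (nat_lit 344) (nat_lit 161)) (XT.lf (nat_lit 84) (nat_lit 10836220598) (nat_lit 0) (nat_lit 10677014158) (nat_lit 1092) (nat_lit 7804348723) (nat_lit 98) (nat_lit 5) (nat_lit 97) (nat_lit 5) (nat_lit 110) (nat_lit 5) (nat_lit 357) (nat_lit 344) (nat_lit 160))) (XT.nd (nat_lit 94) (nat_lit 0) (nat_lit 84) (XT.lf (nat_lit 84) (nat_lit 21757507694) (nat_lit 0) (nat_lit 1134405030) (nat_lit 1092) (nat_lit 6938349446) (nat_lit 98) (nat_lit 5) (nat_lit 97) (nat_lit 5) (nat_lit 110) (nat_lit 5) (nat_lit 358) (nat_lit 344) (nat_lit 159)) (XT.lf (nat_lit 84) (nat_lit 2623006847) (nat_lit 0) (nat_lit 21800086071) (nat_lit 1092) (nat_lit 5932352567) (nat_lit 99) (nat_lit 5) (nat_lit 98) (nat_lit 5) (nat_lit 111)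 (nat_lit 5) (nat_lit 359) (nat_lit 344) (nat_lit 158)))) (XT.nd (nat_lit 188) (nat_lit 924) (nat_lit 0) (XT.nd (nat_lit 94) (nat_lit 0) (nat_lit 0) (XT.lf (nat_lit 84) (nat_lit 13807637803) (nat_lit 0) (nat_lit 12287305819) (nat_lit 1092) (nat_lit 4799090350) (nat_lit 99) (nat_lit 5) (nat_lit 98) (nat_lit 5) (nat_lit 111) (nat_lit 5) (nat_lit 360) (nat_lit 344) (nat_lit 157)) (XT.lf (nat_lit 84) (nat_lit 25337056082) (nat_lit 0) (nat_lit 2479098198) (nat_lit 1092) (nat_lit 3633254309) (nat_lit 99) (nat_lit 5) (nat_lit 98) (nat_lit 5) (nat_lit 111) (nat_lit 5) (nat_lit 361) (nat_lit 344) (nat_lit 156))) (XT.nd (nat_lit 94) (nat_lit 0) (nat_lit 0) (XT.lf (nat_lit 0) (nat_lit 5229558206) (nat_lit 1008) (nat_lit 24486375943) (nat_lit 1092) (nat_lit 2302197104) (nat_lit 87) (nat_lit 5) (nat_lit 99) (nat_lit 5) (nat_lit 100) (nat_lit 5) (nat_lit 362) (nat_lit 344) (nat_lit 155)) (XT.nd (nat_lit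 52358) (nat_lit 0) (nat_lit 504) (XT.lf (nat_lit 0) (nat_lit 17024819746) (nat_lit 1008) (nat_lit 14736350855) (nat_lit 1092) (nat_lit 840642855) (nat_lit 87) (nat_lit 5) (nat_lit 99) (nat_lit 5) (nat_lit 100) (nat_lit 5) (nat_lit 363) (nat_lit 344) (nat_lit 154)) (XT.lf (nat_lit 0) (nat_lit 6046963215) (nat_lit 1092) (nat_lit 3098574770) (nat_lit 1092) (nat_lit 3098574770) (nat_lit 93) (nat_lit 3) (nat_lit 106) (nat_lit 3) (nat_lit 106) (nat_lit 5) (nat_lit 345) (nat_lit 345) (nat_lit 171))))))) (XT.nd (nat_lit 846) (nat_lit 504) (nat_lit 0) (XT.nd (nat_lit 376) (nat_lit 0) (nat_lit 84) (XT.nd (nat_lit 188) (nat_lit 0) (nat_lit 84) (XT.nd (nat_lit 94) (nat_lit 0) (nat_lit 0) (XT.lf (nat_lit 84) (nat_lit 2392697083) (nat_lit 0) (nat_lit 10001610607) (nat_lit 1092) (nat_lit 12469490174) (nat_lit 94) (nat_lit 5) (nat_lit 93) (nat_lit 3) (nat_lit 106) (nat_lit 5) (nat_lit 346) (nat_lit 345)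 (nat_lit 170)) (XT.lf (nat_lit 84) (nat_lit 11378304329) (nat_lit 0) (nat_lit 1386769173) (nat_lit 1092) (nat_lit 12484066126) (nat_lit 94) (nat_lit 5) (nat_lit 93) (nat_lit 3) (nat_lit 106) (nat_lit 5) (nat_lit 347) (nat_lit 345) (nat_lit 169))) (XT.nd (nat_lit 94) (nat_lit 0) (nat_lit 0) (XT.lf (nat_lit 0) (nat_lit 13218197996) (nat_lit 1008) (nat_lit 5080302436) (nat_lit 1092) (nat_lit 7345749067) (nat_lit 94) (nat_lit 5) (nat_lit 106) (nat_lit 5) (nat_lit 107) (nat_lit 5) (nat_lit 348) (nat_lit 345) (nat_lit 168)) (XT.lf (nat_lit 84) (nat_lit 4048187081) (nat_lit 0) (nat_lit 9688141341) (nat_lit 1092) (nat_lit 12313718366) (nat_lit 95) (nat_lit 5) (nat_lit 94) (nat_lit 5) (nat_lit 107) (nat_lit 5) (nat_lit 349) (nat_lit 345) (nat_lit 167)))) (XT.nd (nat_lit 188) (nat_lit 0) (nat_lit 84) (XT.nd (nat_lit 94) (nat_lit 0) (nat_lit 84) (XT.lf (nat_lit 84) (nat_lit 13565450614) (nat_lit 0)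 (nat_lit 754798163) (nat_lit 1092) (nat_lit 12146651633) (nat_lit 95) (nat_lit 5) (nat_lit 94) (nat_lit 5) (nat_lit 107) (nat_lit 5) (nat_lit 350) (nat_lit 345) (nat_lit 166)) (XT.lf (nat_lit 0) (nat_lit 15002962617) (nat_lit 1008) (nat_lit 3604788325) (nat_lit 1092) (nat_lit 8286441736) (nat_lit 95) (nat_lit 5) (nat_lit 107) (nat_lit 5) (nat_lit 108) (nat_lit 5) (nat_lit 351) (nat_lit 345) (nat_lit 165))) (XT.nd (nat_lit 94) (nat_lit 0) (nat_lit 0) (XT.lf (nat_lit 84) (nat_lit 6093191916) (nat_lit 0) (nat_lit 9678722094) (nat_lit 1092) (nat_lit 11560816822) (nat_lit 96) (nat_lit 5) (nat_lit 95) (nat_lit 5) (nat_lit 108) (nat_lit 5) (nat_lit 352) (nat_lit 345) (nat_lit 164)) (XT.nd (nat_lit 94) (nat_lit 0) (nat_lit 84) (XT.lf (nat_lit 84) (nat_lit 16166326461) (nat_lit 0) (nat_lit 432985516) (nat_lit 1092) (nat_lit 11184495403) (nat_lit 96) (nat_lit 5) (nat_lit 95) (nat_lit 5) (nat_lit 108)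 (nat_lit 5) (nat_lit 353) (nat_lit 345) (nat_lit 163)) (XT.lf (nat_lit 0) (nat_lit 17539710084) (nat_lit 1008) (nat_lit 1789369030) (nat_lit 1092) (nat_lit 8917096401) (nat_lit 96) (nat_lit 5) (nat_lit 108) (nat_lit 5) (nat_lit 109) (nat_lit 5) (nat_lit 354) (nat_lit 345) (nat_lit 162)))))) (XT.nd (nat_lit 470) (nat_lit 756) (nat_lit 0) (XT.nd (nat_lit 188) (nat_lit 0) (nat_lit 84) (XT.nd (nat_lit 94) (nat_lit 0) (nat_lit 0) (XT.lf (nat_lit 84) (nat_lit 8508509389) (nat_lit 0) (nat_lit 10086756650) (nat_lit 1092) (nat_lit 10124960459) (nat_lit 97) (nat_lit 5) (nat_lit 96) (nat_lit 5) (nat_lit 109) (nat_lit 5) (nat_lit 355) (nat_lit 345) (nat_lit 161)) (XT.lf (nat_lit 84) (nat_lit 19161670984) (nat_lit 0) (nat_lit 537788554) (nat_lit 1092) (nat_lit 9509035288) (nat_lit 97) (nat_lit 5) (nat_lit 96) (nat_lit 5) (nat_lit 109) (nat_lit 5) (nat_lit 356) (nat_lit 345) (nat_lit 160))) (XT.nd (nat_lit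 94) (nat_lit 0) (nat_lit 0) (XT.lf (nat_lit 84) (nat_lit 345887178) (nat_lit 0) (nat_lit 20585085106) (nat_lit 1092) (nat_lit 8778056102) (nat_lit 98) (nat_lit 5) (nat_lit 97) (nat_lit 5) (nat_lit 110) (nat_lit 5) (nat_lit 357) (nat_lit 345) (nat_lit 159)) (XT.nd (nat_lit 94) (nat_lit 0) (nat_lit 0) (XT.lf (nat_lit 84) (nat_lit 11266231557) (nat_lit 0) (nat_lit 11042133988) (nat_lit 1092) (nat_lit 7913388371) (nat_lit 98) (nat_lit 5) (nat_lit 97) (nat_lit 5) (nat_lit 110) (nat_lit 5) (nat_lit 358) (nat_lit 345) (nat_lit 158)) (XT.lf (nat_lit 84) (nat_lit 22523249522) (nat_lit 0) (nat_lit 1202677689) (nat_lit 1092) (nat_lit 7024538994) (nat_lit 98) (nat_lit 5) (nat_lit 97) (nat_lit 5) (nat_lit 110) (nat_lit 5) (nat_lit 359) (nat_lit 345) (nat_lit 157))))) (XT.nd (nat_lit 188) (nat_lit 924) (nat_lit 0) (XT.nd (nat_lit 94) (nat_lit 0) (nat_lit 0) (XT.lf (nat_lit 84) (nat_lit 2799468514) (nat_lit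 0) (nat_lit 22501991420) (nat_lit 1092) (nat_lit 5990587213) (nat_lit 99) (nat_lit 5) (nat_lit 98) (nat_lit 5) (nat_lit 111) (nat_lit 5) (nat_lit 360) (nat_lit 345) (nat_lit 156)) (XT.lf (nat_lit 84) (nat_lit 14327962116) (nat_lit 0) (nat_lit 12693530127) (nat_lit 1092) (nat_lit 4825972448) (nat_lit 99) (nat_lit 5) (nat_lit 98) (nat_lit 5) (nat_lit 111) (nat_lit 5) (nat_lit 361) (nat_lit 345) (nat_lit 155))) (XT.nd (nat_lit 94) (nat_lit 924) (nat_lit 0) (XT.lf (nat_lit 84) (nat_lit 26212017470) (nat_lit 0) (nat_lit 2580506816) (nat_lit 1092) (nat_lit 3627660456) (nat_lit 99) (nat_lit 5) (nat_lit 98) (nat_lit 5) (nat_lit 111) (nat_lit 5) (nat_lit 362) (nat_lit 345) (nat_lit 154)) (XT.nd (nat_lit 52452) (nat_lit 0) (nat_lit 504) (XT.lf (nat_lit 0) (nat_lit 5484635504) (nat_lit 1008) (nat_lit 25263817909) (nat_lit 1092) (nat_lit 2258188079) (nat_lit 87) (nat_lit 5) (nat_lit 99) (nat_lit 5)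 (nat_lit 100) (nat_lit 5) (nat_lit 363) (nat_lit 345) (nat_lit 153)) (XT.lf (nat_lit 0) (nat_lit 6322723852) (nat_lit 1092) (nat_lit 3148864699) (nat_lit 1092) (nat_lit 3148864699) (nat_lit 93) (nat_lit 3) (nat_lit 106) (nat_lit 3) (nat_lit 106) (nat_lit 5) (nat_lit 346) (nat_lit 346) (nat_lit 169))))))))
noncomputable def xc125 : XT := (XT.nd (nat_lit 54238) (nat_lit 0) (nat_lit 0) (XT.nd (nat_lit 846) (nat_lit 0) (nat_lit 0) (XT.nd (nat_lit 376) (nat_lit 0) (nat_lit 84) (XT.nd (nat_lit 188) (nat_lit 0) (nat_lit 84) (XT.nd (nat_lit 94) (nat_lit 0) (nat_lit 0) (XT.lf (nat_lit 84) (nat_lit 2557475793) (nat_lit 0) (nat_lit 10393253527) (nat_lit 1092) (nat_lit 12677558473) (nat_lit 94) (nat_lit 5) (nat_lit 93) (nat_lit 3) (nat_lit 106) (nat_lit 5) (nat_lit 347) (nat_lit 346) (nat_lit 168)) (XT.lf (nat_lit 84) (nat_lit 11818912559) (nat_lit 0) (nat_lit 1508898679) (nat_lit 1092) (nat_lit 12697952975)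 (nat_lit 94) (nat_lit 5) (nat_lit 93) (nat_lit 3) (nat_lit 106) (nat_lit 5) (nat_lit 348) (nat_lit 346) (nat_lit 167))) (XT.nd (nat_lit 94) (nat_lit 0) (nat_lit 0) (XT.lf (nat_lit 0) (nat_lit 13789199168) (nat_lit 1008) (nat_lit 5145876569) (nat_lit 1092) (nat_lit 7498253734) (nat_lit 94) (nat_lit 5) (nat_lit 106) (nat_lit 5) (nat_lit 107) (nat_lit 5) (nat_lit 349) (nat_lit 346) (nat_lit 166)) (XT.lf (nat_lit 84) (nat_lit 4264665563) (nat_lit 0) (nat_lit 10054780595) (nat_lit 1092) (nat_lit 12532409492) (nat_lit 95) (nat_lit 5) (nat_lit 94) (nat_lit 5) (nat_lit 107) (nat_lit 5) (nat_lit 350) (nat_lit 346) (nat_lit 165)))) (XT.nd (nat_lit 188) (nat_lit 0) (nat_lit 84) (XT.nd (nat_lit 94) (nat_lit 0) (nat_lit 84) (XT.lf (nat_lit 84) (nat_lit 14074228547) (nat_lit 0) (nat_lit 842510071) (nat_lit 1092) (nat_lit 12365065784) (nat_lit 95) (nat_lit 5) (nat_lit 94) (nat_lit 5) (nat_lit 107) (nat_lit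 5) (nat_lit 351) (nat_lit 346) (nat_lit 164)) (XT.lf (nat_lit 0) (nat_lit 15615410554) (nat_lit 1008) (nat_lit 3624920002) (nat_lit 1092) (nat_lit 8482198833) (nat_lit 95) (nat_lit 5) (nat_lit 107) (nat_lit 5) (nat_lit 108) (nat_lit 5) (nat_lit 352) (nat_lit 346) (nat_lit 163))) (XT.nd (nat_lit 94) (nat_lit 0) (nat_lit 0) (XT.lf (nat_lit 84) (nat_lit 6372770089) (nat_lit 0) (nat_lit 10031898313) (nat_lit 1092) (nat_lit 11770127800) (nat_lit 96) (nat_lit 5) (nat_lit 95) (nat_lit 5) (nat_lit 108) (nat_lit 5) (nat_lit 353) (nat_lit 346) (nat_lit 162)) (XT.nd (nat_lit 94) (nat_lit 0) (nat_lit 84) (XT.lf (nat_lit 84) (nat_lit 16755444970) (nat_lit 0) (nat_lit 497946218) (nat_lit 1092) (nat_lit 11386622768) (nat_lit 96) (nat_lit 5) (nat_lit 95) (nat_lit 5) (nat_lit 108) (nat_lit 5) (nat_lit 354) (nat_lit 346) (nat_lit 161)) (XT.lf (nat_lit 0) (nat_lit 18218251257) (nat_lit 1008) (nat_lit 1754087669)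 (nat_lit 1092) (nat_lit 9144545039) (nat_lit 96) (nat_lit 5) (nat_lit 108) (nat_lit 5) (nat_lit 109) (nat_lit 5) (nat_lit 355) (nat_lit 346) (nat_lit 160)))))) (XT.nd (nat_lit 470) (nat_lit 252) (nat_lit 0) (XT.nd (nat_lit 188) (nat_lit 0) (nat_lit 84) (XT.nd (nat_lit 94) (nat_lit 0) (nat_lit 0) (XT.lf (nat_lit 84) (nat_lit 8862106201) (nat_lit 0) (nat_lit 10441260943) (nat_lit 1092) (nat_lit 10302383783) (nat_lit 97) (nat_lit 5) (nat_lit 96) (nat_lit 5) (nat_lit 109) (nat_lit 5) (nat_lit 356) (nat_lit 346) (nat_lit 159)) (XT.lf (nat_lit 84) (nat_lit 19842814715) (nat_lit 0) (nat_lit 595017551) (nat_lit 1092) (nat_lit 9671467710) (nat_lit 97) (nat_lit 5) (nat_lit 96) (nat_lit 5) (nat_lit 109) (nat_lit 5) (nat_lit 357) (nat_lit 346) (nat_lit 158))) (XT.nd (nat_lit 94) (nat_lit 0) (nat_lit 0) (XT.lf (nat_lit 84) (nat_lit 447868769) (nat_lit 0) (nat_lit 21256328847) (nat_lit 1092) (nat_lit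 8921276556) (nat_lit 98) (nat_lit 5) (nat_lit 97) (nat_lit 5) (nat_lit 110) (nat_lit 5) (nat_lit 358) (nat_lit 346) (nat_lit 157)) (XT.nd (nat_lit 94) (nat_lit 0) (nat_lit 0) (XT.lf (nat_lit 84) (nat_lit 11703999856) (nat_lit 0) (nat_lit 11416550814) (nat_lit 1092) (nat_lit 8033679855) (nat_lit 98) (nat_lit 5) (nat_lit 97) (nat_lit 5) (nat_lit 110) (nat_lit 5) (nat_lit 359) (nat_lit 346) (nat_lit 156)) (XT.lf (nat_lit 84) (nat_lit 23307323914) (nat_lit 0) (nat_lit 1271105869) (nat_lit 1092) (nat_lit 7121035342) (nat_lit 98) (nat_lit 5) (nat_lit 97) (nat_lit 5) (nat_lit 110) (nat_lit 5) (nat_lit 360) (nat_lit 346) (nat_lit 155))))) (XT.nd (nat_lit 188) (nat_lit 420) (nat_lit 0) (XT.nd (nat_lit 94) (nat_lit 0) (nat_lit 0) (XT.lf (nat_lit 84) (nat_lit 2975764686) (nat_lit 0) (nat_lit 23224109727) (nat_lit 1092) (nat_lit 6058070680) (nat_lit 99) (nat_lit 5) (nat_lit 98) (nat_lit 5) (nat_lit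 111) (nat_lit 5) (nat_lit 361) (nat_lit 346) (nat_lit 154)) (XT.lf (nat_lit 84) (nat_lit 14858950133) (nat_lit 0) (nat_lit 13110847770) (nat_lit 1092) (nat_lit 4860907627) (nat_lit 99) (nat_lit 5) (nat_lit 98) (nat_lit 5) (nat_lit 111) (nat_lit 5) (nat_lit 362) (nat_lit 346) (nat_lit 153))) (XT.nd (nat_lit 52546) (nat_lit 420) (nat_lit 0) (XT.lf (nat_lit 84) (nat_lit 27108800673) (nat_lit 0) (nat_lit 2683604573) (nat_lit 1092) (nat_lit 3628895848) (nat_lit 99) (nat_lit 5) (nat_lit 98) (nat_lit 5) (nat_lit 111) (nat_lit 5) (nat_lit 363) (nat_lit 346) (nat_lit 152)) (XT.nd (nat_lit 94) (nat_lit 0) (nat_lit 0) (XT.lf (nat_lit 0) (nat_lit 6601802626) (nat_lit 1092) (nat_lit 3203424408) (nat_lit 1092) (nat_lit 3203424408) (nat_lit 93) (nat_lit 3) (nat_lit 106) (nat_lit 3) (nat_lit 106) (nat_lit 5) (nat_lit 347) (nat_lit 347) (nat_lit 167)) (XT.lf (nat_lit 84) (nat_lit 2721995948) (nat_lit 0)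 (nat_lit 10792204485) (nat_lit 1092) (nat_lit 12902648915) (nat_lit 94) (nat_lit 5) (nat_lit 93) (nat_lit 3) (nat_lit 106) (nat_lit 5) (nat_lit 348) (nat_lit 347) (nat_lit 166))))))) (XT.nd (nat_lit 846) (nat_lit 0) (nat_lit 0) (XT.nd (nat_lit 376) (nat_lit 0) (nat_lit 168) (XT.nd (nat_lit 188) (nat_lit 0) (nat_lit 84) (XT.nd (nat_lit 94) (nat_lit 0) (nat_lit 84) (XT.lf (nat_lit 84) (nat_lit 12267974314) (nat_lit 0) (nat_lit 1630126622) (nat_lit 1092) (nat_lit 12928724463) (nat_lit 94) (nat_lit 5) (nat_lit 93) (nat_lit 3) (nat_lit 106) (nat_lit 5) (nat_lit 349) (nat_lit 347) (nat_lit 165)) (XT.lf (nat_lit 0) (nat_lit 14368351031) (nat_lit 1008) (nat_lit 5218927799) (nat_lit 1092) (nat_lit 7659941073) (nat_lit 94) (nat_lit 5) (nat_lit 106) (nat_lit 5) (nat_lit 107) (nat_lit 5) (nat_lit 350) (nat_lit 347) (nat_lit 164))) (XT.nd (nat_lit 94) (nat_lit 0) (nat_lit 0) (XT.lf (nat_lit 84) (nat_lit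 4482465699) (nat_lit 0) (nat_lit 10428858197) (nat_lit 1092) (nat_lit 12767536834) (nat_lit 95) (nat_lit 5) (nat_lit 94) (nat_lit 5) (nat_lit 107) (nat_lit 5) (nat_lit 351) (nat_lit 347) (nat_lit 163)) (XT.lf (nat_lit 84) (nat_lit 14593551459) (nat_lit 0) (nat_lit 929131669) (nat_lit 1092) (nat_lit 12599617205) (nat_lit 95) (nat_lit 5) (nat_lit 94) (nat_lit 5) (nat_lit 107) (nat_lit 5) (nat_lit 352) (nat_lit 347) (nat_lit 162)))) (XT.nd (nat_lit 188) (nat_lit 0) (nat_lit 0) (XT.nd (nat_lit 94) (nat_lit 0) (nat_lit 0) (XT.lf (nat_lit 0) (nat_lit 16238116223) (nat_lit 1008) (nat_lit 3651102380) (nat_lit 1092) (nat_lit 8687644795) (nat_lit 95) (nat_lit 5) (nat_lit 107) (nat_lit 5) (nat_lit 108) (nat_lit 5) (nat_lit 353) (nat_lit 347) (nat_lit 161)) (XT.lf (nat_lit 84) (nat_lit 6655643507) (nat_lit 0) (nat_lit 10392875668) (nat_lit 1092) (nat_lit 11994757346) (nat_lit 96) (nat_lit 5) (nat_lit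 95) (nat_lit 5) (nat_lit 108) (nat_lit 5) (nat_lit 354) (nat_lit 347) (nat_lit 160))) (XT.nd (nat_lit 94) (nat_lit 0) (nat_lit 84) (XT.lf (nat_lit 84) (nat_lit 17357615990) (nat_lit 0) (nat_lit 561868008) (nat_lit 1092) (nat_lit 11603580513) (nat_lit 96) (nat_lit 5) (nat_lit 95) (nat_lit 5) (nat_lit 108) (nat_lit 5) (nat_lit 355) (nat_lit 347) (nat_lit 159)) (XT.nd (nat_lit 94) (nat_lit 0) (nat_lit 0) (XT.lf (nat_lit 0) (nat_lit 18909842169) (nat_lit 1008) (nat_lit 1723087971) (nat_lit 1092) (nat_lit 9381945834) (nat_lit 96) (nat_lit 5) (nat_lit 108) (nat_lit 5) (nat_lit 109) (nat_lit 5) (nat_lit 356) (nat_lit 347) (nat_lit 158)) (XT.lf (nat_lit 84) (nat_lit 9221343549) (nat_lit 0) (nat_lit 10804278105) (nat_lit 1092) (nat_lit 10493389425) (nat_lit 97) (nat_lit 5) (nat_lit 96) (nat_lit 5) (nat_lit 109) (nat_lit 5) (nat_lit 357) (nat_lit 347) (nat_lit 157)))))) (XT.nd (nat_lit 53110) (nat_lit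 252) (nat_lit 0) (XT.nd (nat_lit 188) (nat_lit 0) (nat_lit 84) (XT.nd (nat_lit 94) (nat_lit 0) (nat_lit 84) (XT.lf (nat_lit 84) (nat_lit 20539912928) (nat_lit 0) (nat_lit 651618355) (nat_lit 1092) (nat_lit 9846774717) (nat_lit 97) (nat_lit 5) (nat_lit 96) (nat_lit 5) (nat_lit 109) (nat_lit 5) (nat_lit 358) (nat_lit 347) (nat_lit 156)) (XT.lf (nat_lit 84) (nat_lit 547606358) (nat_lit 0) (nat_lit 21946420213) (nat_lit 1092) (nat_lit 9076571769) (nat_lit 98) (nat_lit 5) (nat_lit 97) (nat_lit 5) (nat_lit 110) (nat_lit 5) (nat_lit 359) (nat_lit 347) (nat_lit 155))) (XT.nd (nat_lit 94) (nat_lit 0) (nat_lit 0) (XT.lf (nat_lit 84) (nat_lit 12150096069) (nat_lit 0) (nat_lit 11800672591) (nat_lit 1092) (nat_lit 8165105734) (nat_lit 98) (nat_lit 5) (nat_lit 97) (nat_lit 5) (nat_lit 110) (nat_lit 5) (nat_lit 360) (nat_lit 347) (nat_lit 154)) (XT.nd (nat_lit 94) (nat_lit 0) (nat_lit 84) (XT.lf (nat_lit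 84) (nat_lit 24110619354) (nat_lit 0) (nat_lit 1339810540) (nat_lit 1092) (nat_lit 7227705774) (nat_lit 98) (nat_lit 5) (nat_lit 97) (nat_lit 5) (nat_lit 110) (nat_lit 5) (nat_lit 361) (nat_lit 347) (nat_lit 153)) (XT.lf (nat_lit 84) (nat_lit 3152224053) (nat_lit 0) (nat_lit 23967159175) (nat_lit 1092) (nat_lit 6134648789) (nat_lit 99) (nat_lit 5) (nat_lit 98) (nat_lit 5) (nat_lit 111) (nat_lit 5) (nat_lit 362) (nat_lit 347) (nat_lit 152))))) (XT.nd (nat_lit 188) (nat_lit 0) (nat_lit 0) (XT.nd (nat_lit 94) (nat_lit 0) (nat_lit 0) (XT.lf (nat_lit 0) (nat_lit 6884612207) (nat_lit 1092) (nat_lit 3262225695) (nat_lit 1092) (nat_lit 3262225695) (nat_lit 93) (nat_lit 3) (nat_lit 106) (nat_lit 3) (nat_lit 106) (nat_lit 5) (nat_lit 348) (nat_lit 348) (nat_lit 165)) (XT.lf (nat_lit 84) (nat_lit 2886567411) (nat_lit 0) (nat_lit 11198976291) (nat_lit 1092) (nat_lit 13144662986) (nat_lit 94) (nat_lit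 5) (nat_lit 93) (nat_lit 3) (nat_lit 106) (nat_lit 5) (nat_lit 349) (nat_lit 348) (nat_lit 164))) (XT.nd (nat_lit 94) (nat_lit 0) (nat_lit 84) (XT.lf (nat_lit 84) (nat_lit 12726059974) (nat_lit 0) (nat_lit 1750702707) (nat_lit 1092) (nat_lit 13176296644) (nat_lit 94) (nat_lit 5) (nat_lit 93) (nat_lit 3) (nat_lit 106) (nat_lit 5) (nat_lit 350) (nat_lit 348) (nat_lit 163)) (XT.nd (nat_lit 94) (nat_lit 0) (nat_lit 0) (XT.lf (nat_lit 0) (nat_lit 14956471939) (nat_lit 1008) (nat_lit 5299365438) (nat_lit 1092) (nat_lit 7830831869) (nat_lit 94) (nat_lit 5) (nat_lit 106) (nat_lit 5) (nat_lit 107) (nat_lit 5) (nat_lit 351) (nat_lit 348) (nat_lit 162)) (XT.lf (nat_lit 84) (nat_lit 4701947672) (nat_lit 0) (nat_lit 10810837365) (nat_lit 1092) (nat_lit 13019037927) (nat_lit 95) (nat_lit 5) (nat_lit 94) (nat_lit 5) (nat_lit 107) (nat_lit 5) (nat_lit 352) (nat_lit 348) (nat_lit 161))))))))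
noncomputable def xc126 : XT := (XT.nd (nat_lit 54426) (nat_lit 0) (nat_lit 0) (XT.nd (nat_lit 846) (nat_lit 84) (nat_lit 0) (XT.nd (nat_lit 376) (nat_lit 0) (nat_lit 168) (XT.nd (nat_lit 188) (nat_lit 0) (nat_lit 84) (XT.nd (nat_lit 94) (nat_lit 0) (nat_lit 84) (XT.lf (nat_lit 84) (nat_lit 15124055857) (nat_lit 0) (nat_lit 1014854794) (nat_lit 1092) (nat_lit 12850251362) (nat_lit 95) (nat_lit 5) (nat_lit 94) (nat_lit 5) (nat_lit 107) (nat_lit 5) (nat_lit 353) (nat_lit 348) (nat_lit 160)) (XT.lf (nat_lit 0) (nat_lit 16871914597) (nat_lit 1008) (nat_lit 3683201600) (nat_lit 1092) (nat_lit 8902865536) (nat_lit 95) (nat_lit 5) (nat_lit 107) (nat_lit 5) (nat_lit 108) (nat_lit 5) (nat_lit 354) (nat_lit 348) (nat_lit 159))) (XT.nd (nat_lit 94) (nat_lit 0) (nat_lit 0) (XT.lf (nat_lit 84) (nat_lit 6942232496) (nat_lit 0) (nat_lit 10762082415) (nat_lit 1092) (nat_lit 12234657325) (nat_lit 96) (nat_lit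 5) (nat_lit 95) (nat_lit 5) (nat_lit 108) (nat_lit 5) (nat_lit 355) (nat_lit 348) (nat_lit 158)) (XT.lf (nat_lit 84) (nat_lit 17973552756) (nat_lit 0) (nat_lit 624899498) (nat_lit 1092) (nat_lit 11835321093) (nat_lit 96) (nat_lit 5) (nat_lit 95) (nat_lit 5) (nat_lit 108) (nat_lit 5) (nat_lit 356) (nat_lit 348) (nat_lit 157)))) (XT.nd (nat_lit 188) (nat_lit 0) (nat_lit 0) (XT.nd (nat_lit 94) (nat_lit 0) (nat_lit 0) (XT.lf (nat_lit 0) (nat_lit 19615360330) (nat_lit 1008) (nat_lit 1696184273) (nat_lit 1092) (nat_lit 9629435458) (nat_lit 96) (nat_lit 5) (nat_lit 108) (nat_lit 5) (nat_lit 109) (nat_lit 5) (nat_lit 357) (nat_lit 348) (nat_lit 156)) (XT.lf (nat_lit 84) (nat_lit 9586711462) (nat_lit 0) (nat_lit 11176218737) (nat_lit 1092) (nat_lit 10697919713) (nat_lit 97) (nat_lit 5) (nat_lit 96) (nat_lit 5) (nat_lit 109) (nat_lit 5) (nat_lit 358) (nat_lit 348) (nat_lit 155))) (XT.nd (nat_lit 94)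 (nat_lit 0) (nat_lit 84) (XT.lf (nat_lit 84) (nat_lit 21253765905) (nat_lit 0) (nat_lit 707713782) (nat_lit 1092) (nat_lit 10034891092) (nat_lit 97) (nat_lit 5) (nat_lit 96) (nat_lit 5) (nat_lit 109) (nat_lit 5) (nat_lit 359) (nat_lit 348) (nat_lit 154)) (XT.nd (nat_lit 94) (nat_lit 0) (nat_lit 0) (XT.lf (nat_lit 84) (nat_lit 645350553) (nat_lit 0) (nat_lit 22656059629) (nat_lit 1092) (nat_lit 9243863829) (nat_lit 98) (nat_lit 5) (nat_lit 97) (nat_lit 5) (nat_lit 110) (nat_lit 5) (nat_lit 360) (nat_lit 348) (nat_lit 153)) (XT.lf (nat_lit 84) (nat_lit 12605088910) (nat_lit 0) (nat_lit 12194912830) (nat_lit 1092) (nat_lit 8307572543) (nat_lit 98) (nat_lit 5) (nat_lit 97) (nat_lit 5) (nat_lit 110) (nat_lit 5) (nat_lit 361) (nat_lit 348) (nat_lit 152)))))) (XT.nd (nat_lit 53110) (nat_lit 0) (nat_lit 84) (XT.nd (nat_lit 52922) (nat_lit 0) (nat_lit 0) (XT.nd (nat_lit 52828) (nat_lit 336) (nat_lit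 0) (XT.lf (nat_lit 84) (nat_lit 24934032901) (nat_lit 0) (nat_lit 1408909544) (nat_lit 1092) (nat_lit 7344440241) (nat_lit 98) (nat_lit 5) (nat_lit 97) (nat_lit 5) (nat_lit 110) (nat_lit 5) (nat_lit 362) (nat_lit 348) (nat_lit 151)) (XT.lf (nat_lit 0) (nat_lit 7171559708) (nat_lit 1092) (nat_lit 3325248995) (nat_lit 1092) (nat_lit 3325248995) (nat_lit 93) (nat_lit 3) (nat_lit 106) (nat_lit 3) (nat_lit 106) (nat_lit 5) (nat_lit 349) (nat_lit 349) (nat_lit 163))) (XT.nd (nat_lit 94) (nat_lit 0) (nat_lit 0) (XT.lf (nat_lit 84) (nat_lit 3051490822) (nat_lit 0) (nat_lit 11614080695) (nat_lit 1092) (nat_lit 13403536212) (nat_lit 94) (nat_lit 5) (nat_lit 93) (nat_lit 3) (nat_lit 106) (nat_lit 5) (nat_lit 350) (nat_lit 349) (nat_lit 162)) (XT.lf (nat_lit 84) (nat_lit 13193739338) (nat_lit 0) (nat_lit 1870867934) (nat_lit 1092) (nat_lit 13440618942) (nat_lit 94) (nat_lit 5) (nat_lit 93) (nat_lit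 3) (nat_lit 106) (nat_lit 5) (nat_lit 351) (nat_lit 349) (nat_lit 161)))) (XT.nd (nat_lit 188) (nat_lit 0) (nat_lit 0) (XT.nd (nat_lit 94) (nat_lit 0) (nat_lit 0) (XT.lf (nat_lit 0) (nat_lit 15554372110) (nat_lit 1008) (nat_lit 5387115092) (nat_lit 1092) (nat_lit 8010963179) (nat_lit 94) (nat_lit 5) (nat_lit 106) (nat_lit 5) (nat_lit 107) (nat_lit 5) (nat_lit 352) (nat_lit 349) (nat_lit 160)) (XT.lf (nat_lit 84) (nat_lit 4923463920) (nat_lit 0) (nat_lit 11201181901) (nat_lit 1092) (nat_lit 13286882248) (nat_lit 95) (nat_lit 5) (nat_lit 94) (nat_lit 5) (nat_lit 107) (nat_lit 5) (nat_lit 353) (nat_lit 349) (nat_lit 159))) (XT.nd (nat_lit 94) (nat_lit 0) (nat_lit 84) (XT.lf (nat_lit 84) (nat_lit 15666379639) (nat_lit 0) (nat_lit 1099863864) (nat_lit 1092) (nat_lit 13116944892) (nat_lit 95) (nat_lit 5) (nat_lit 94) (nat_lit 5) (nat_lit 107) (nat_lit 5) (nat_lit 354) (nat_lit 349) (nat_lit 158))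 (XT.nd (nat_lit 94) (nat_lit 0) (nat_lit 0) (XT.lf (nat_lit 0) (nat_lit 17517635913) (nat_lit 1008) (nat_lit 3721098698) (nat_lit 1092) (nat_lit 9127962334) (nat_lit 95) (nat_lit 5) (nat_lit 107) (nat_lit 5) (nat_lit 108) (nat_lit 5) (nat_lit 355) (nat_lit 349) (nat_lit 157)) (XT.lf (nat_lit 84) (nat_lit 7232951568) (nat_lit 0) (nat_lit 11139949047) (nat_lit 1092) (nat_lit 12489809087) (nat_lit 96) (nat_lit 5) (nat_lit 95) (nat_lit 5) (nat_lit 108) (nat_lit 5) (nat_lit 356) (nat_lit 349) (nat_lit 156))))))) (XT.nd (nat_lit 53674) (nat_lit 0) (nat_lit 0) (XT.nd (nat_lit 376) (nat_lit 168) (nat_lit 0) (XT.nd (nat_lit 188) (nat_lit 0) (nat_lit 84) (XT.nd (nat_lit 94) (nat_lit 0) (nat_lit 84) (XT.lf (nat_lit 84) (nat_lit 18603972333) (nat_lit 0) (nat_lit 687183193) (nat_lit 1092) (nat_lit 12081825538) (nat_lit 96) (nat_lit 5) (nat_lit 95) (nat_lit 5) (nat_lit 108) (nat_lit 5) (nat_lit 357) (nat_lit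 349) (nat_lit 155)) (XT.lf (nat_lit 0) (nat_lit 20335682438) (nat_lit 1008) (nat_lit 1673204018) (nat_lit 1092) (nat_lit 9887164995) (nat_lit 96) (nat_lit 5) (nat_lit 108) (nat_lit 5) (nat_lit 109) (nat_lit 5) (nat_lit 358) (nat_lit 349) (nat_lit 154))) (XT.nd (nat_lit 94) (nat_lit 0) (nat_lit 0) (XT.lf (nat_lit 84) (nat_lit 9958696488) (nat_lit 0) (nat_lit 11557497481) (nat_lit 1092) (nat_lit 10915943545) (nat_lit 97) (nat_lit 5) (nat_lit 96) (nat_lit 5) (nat_lit 109) (nat_lit 5) (nat_lit 359) (nat_lit 349) (nat_lit 153)) (XT.lf (nat_lit 84) (nat_lit 21985180632) (nat_lit 0) (nat_lit 763422029) (nat_lit 1092) (nat_lit 10235777101) (nat_lit 97) (nat_lit 5) (nat_lit 96) (nat_lit 5) (nat_lit 109) (nat_lit 5) (nat_lit 360) (nat_lit 349) (nat_lit 152)))) (XT.nd (nat_lit 53016) (nat_lit 336) (nat_lit 0) (XT.nd (nat_lit 94) (nat_lit 0) (nat_lit 0) (XT.lf (nat_lit 84) (nat_lit 741340768) (nat_lit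 0) (nat_lit 23385962355) (nat_lit 1092) (nat_lit 9423099196) (nat_lit 98) (nat_lit 5) (nat_lit 97) (nat_lit 5) (nat_lit 110) (nat_lit 5) (nat_lit 361) (nat_lit 349) (nat_lit 151)) (XT.lf (nat_lit 84) (nat_lit 13069546324) (nat_lit 0) (nat_lit 12599691187) (nat_lit 1092) (nat_lit 8461009899) (nat_lit 98) (nat_lit 5) (nat_lit 97) (nat_lit 5) (nat_lit 110) (nat_lit 5) (nat_lit 362) (nat_lit 349) (nat_lit 150))) (XT.nd (nat_lit 94) (nat_lit 0) (nat_lit 0) (XT.lf (nat_lit 0) (nat_lit 7463047597) (nat_lit 1092) (nat_lit 3392483083) (nat_lit 1092) (nat_lit 3392483083) (nat_lit 93) (nat_lit 3) (nat_lit 106) (nat_lit 3) (nat_lit 106) (nat_lit 5) (nat_lit 350) (nat_lit 350) (nat_lit 161)) (XT.nd (nat_lit 94) (nat_lit 0) (nat_lit 0) (XT.lf (nat_lit 84) (nat_lit 3217058430) (nat_lit 0) (nat_lit 12038029362) (nat_lit 1092) (nat_lit 13679237011) (nat_lit 94) (nat_lit 5) (nat_lit 93) (nat_lit 3) (nat_lit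 106) (nat_lit 5) (nat_lit 351) (nat_lit 350) (nat_lit 160)) (XT.lf (nat_lit 84) (nat_lit 13671582689) (nat_lit 0) (nat_lit 1990855301) (nat_lit 1092) (nat_lit 13721673063) (nat_lit 94) (nat_lit 5) (nat_lit 93) (nat_lit 3) (nat_lit 106) (nat_lit 5) (nat_lit 352) (nat_lit 350) (nat_lit 159)))))) (XT.nd (nat_lit 470) (nat_lit 84) (nat_lit 0) (XT.nd (nat_lit 188) (nat_lit 0) (nat_lit 0) (XT.nd (nat_lit 94) (nat_lit 0) (nat_lit 0) (XT.lf (nat_lit 0) (nat_lit 16162855357) (nat_lit 1008) (nat_lit 5482118028) (nat_lit 1092) (nat_lit 8200387915) (nat_lit 94) (nat_lit 5) (nat_lit 106) (nat_lit 5) (nat_lit 107) (nat_lit 5) (nat_lit 353) (nat_lit 350) (nat_lit 158)) (XT.lf (nat_lit 84) (nat_lit 5147360022) (nat_lit 0) (nat_lit 11600357018) (nat_lit 1092) (nat_lit 13571070203) (nat_lit 95) (nat_lit 5) (nat_lit 94) (nat_lit 5) (nat_lit 107) (nat_lit 5) (nat_lit 354) (nat_lit 350) (nat_lit 157))) (XT.nd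 (nat_lit 94) (nat_lit 0) (nat_lit 84) (XT.lf (nat_lit 84) (nat_lit 16221163228) (nat_lit 0) (nat_lit 1184336441) (nat_lit 1092) (nat_lit 13399704622) (nat_lit 95) (nat_lit 5) (nat_lit 94) (nat_lit 5) (nat_lit 107) (nat_lit 5) (nat_lit 355) (nat_lit 350) (nat_lit 156)) (XT.nd (nat_lit 94) (nat_lit 0) (nat_lit 0) (XT.lf (nat_lit 0) (nat_lit 18176107334) (nat_lit 1008) (nat_lit 3764688927) (nat_lit 1092) (nat_lit 9363051555) (nat_lit 95) (nat_lit 5) (nat_lit 107) (nat_lit 5) (nat_lit 108) (nat_lit 5) (nat_lit 356) (nat_lit 350) (nat_lit 155)) (XT.lf (nat_lit 84) (nat_lit 7528210352) (nat_lit 0) (nat_lit 11526909010) (nat_lit 1092) (nat_lit 12760222550) (nat_lit 96) (nat_lit 5) (nat_lit 95) (nat_lit 5) (nat_lit 108) (nat_lit 5) (nat_lit 357) (nat_lit 350) (nat_lit 154))))) (XT.nd (nat_lit 188) (nat_lit 168) (nat_lit 0) (XT.nd (nat_lit 94) (nat_lit 0) (nat_lit 84) (XT.lf (nat_lit 84) (nat_lit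 19249596819) (nat_lit 0) (nat_lit 748855942) (nat_lit 1092) (nat_lit 12343102557) (nat_lit 96) (nat_lit 5) (nat_lit 95) (nat_lit 5) (nat_lit 108) (nat_lit 5) (nat_lit 358) (nat_lit 350) (nat_lit 153)) (XT.lf (nat_lit 0) (nat_lit 21071686012) (nat_lit 1008) (nat_lit 1653987040) (nat_lit 1092) (nat_lit 10155299793) (nat_lit 96) (nat_lit 5) (nat_lit 108) (nat_lit 5) (nat_lit 109) (nat_lit 5) (nat_lit 359) (nat_lit 350) (nat_lit 152))) (XT.nd (nat_lit 94) (nat_lit 252) (nat_lit 0) (XT.lf (nat_lit 84) (nat_lit 10337782697) (nat_lit 0) (nat_lit 11948533657) (nat_lit 1092) (nat_lit 11147455530) (nat_lit 97) (nat_lit 5) (nat_lit 96) (nat_lit 5) (nat_lit 109) (nat_lit 5) (nat_lit 360) (nat_lit 350) (nat_lit 151)) (XT.nd (nat_lit 53110) (nat_lit 252) (nat_lit 0) (XT.lf (nat_lit 84) (nat_lit 22734972073) (nat_lit 0) (nat_lit 818857030) (nat_lit 1092) (nat_lit 10449417651) (nat_lit 97) (nat_lit 5) (nat_lit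 96) (nat_lit 5) (nat_lit 109) (nat_lit 5) (nat_lit 361) (nat_lit 350) (nat_lit 150)) (XT.lf (nat_lit 0) (nat_lit 7759474581) (nat_lit 1092) (nat_lit 3463924803) (nat_lit 1092) (nat_lit 3463924803) (nat_lit 93) (nat_lit 3) (nat_lit 106) (nat_lit 3) (nat_lit 106) (nat_lit 5) (nat_lit 351) (nat_lit 351) (nat_lit 159))))))))
noncomputable def xc127 : XT := (XT.nd (nat_lit 108194) (nat_lit 0) (nat_lit 0) (XT.nd (nat_lit 846) (nat_lit 0) (nat_lit 0) (XT.nd (nat_lit 376) (nat_lit 0) (nat_lit 84) (XT.nd (nat_lit 188) (nat_lit 0) (nat_lit 84) (XT.nd (nat_lit 94) (nat_lit 0) (nat_lit 0) (XT.lf (nat_lit 84) (nat_lit 3383554876) (nat_lit 0) (nat_lit 12471334811) (nat_lit 1092) (nat_lit 13971765651) (nat_lit 94) (nat_lit 5) (nat_lit 93) (nat_lit 3) (nat_lit 106) (nat_lit 5) (nat_lit 352) (nat_lit 351) (nat_lit 158)) (XT.lf (nat_lit 84) (nat_lit 14160161825) (nat_lit 0) (nat_lit 2110890475) (nat_lit 1092)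 (nat_lit 14019471982) (nat_lit 94) (nat_lit 5) (nat_lit 93) (nat_lit 3) (nat_lit 106) (nat_lit 5) (nat_lit 353) (nat_lit 351) (nat_lit 157))) (XT.nd (nat_lit 94) (nat_lit 0) (nat_lit 0) (XT.lf (nat_lit 0) (nat_lit 16782720754) (nat_lit 1008) (nat_lit 5584330598) (nat_lit 1092) (nat_lit 8399174461) (nat_lit 94) (nat_lit 5) (nat_lit 106) (nat_lit 5) (nat_lit 107) (nat_lit 5) (nat_lit 354) (nat_lit 351) (nat_lit 156)) (XT.lf (nat_lit 84) (nat_lit 5373975535) (nat_lit 0) (nat_lit 12008830159) (nat_lit 1092) (nat_lit 13871632193) (nat_lit 95) (nat_lit 5) (nat_lit 94) (nat_lit 5) (nat_lit 107) (nat_lit 5) (nat_lit 355) (nat_lit 351) (nat_lit 155)))) (XT.nd (nat_lit 188) (nat_lit 0) (nat_lit 84) (XT.nd (nat_lit 94) (nat_lit 0) (nat_lit 84) (XT.lf (nat_lit 84) (nat_lit 16789050668) (nat_lit 0) (nat_lit 1268443765) (nat_lit 1092) (nat_lit 13698566672) (nat_lit 95) (nat_lit 5) (nat_lit 94) (nat_lit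 5) (nat_lit 107) (nat_lit 5) (nat_lit 356) (nat_lit 351) (nat_lit 154)) (XT.lf (nat_lit 0) (nat_lit 18848154566) (nat_lit 1008) (nat_lit 3813881149) (nat_lit 1092) (nat_lit 9608264414) (nat_lit 95) (nat_lit 5) (nat_lit 107) (nat_lit 5) (nat_lit 108) (nat_lit 5) (nat_lit 357) (nat_lit 351) (nat_lit 153))) (XT.nd (nat_lit 94) (nat_lit 0) (nat_lit 0) (XT.lf (nat_lit 84) (nat_lit 7828414499) (nat_lit 0) (nat_lit 11923399417) (nat_lit 1092) (nat_lit 13045935353) (nat_lit 96) (nat_lit 5) (nat_lit 95) (nat_lit 5) (nat_lit 108) (nat_lit 5) (nat_lit 358) (nat_lit 351) (nat_lit 152)) (XT.nd (nat_lit 94) (nat_lit 0) (nat_lit 84) (XT.lf (nat_lit 84) (nat_lit 19911154520) (nat_lit 0) (nat_lit 810049359) (nat_lit 1092) (nat_lit 12619187721) (nat_lit 96) (nat_lit 5) (nat_lit 95) (nat_lit 5) (nat_lit 108) (nat_lit 5) (nat_lit 359) (nat_lit 351) (nat_lit 151)) (XT.lf (nat_lit 0) (nat_lit 21824250981) (nat_lit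 1008) (nat_lit 1638384898) (nat_lit 1092) (nat_lit 10434019332) (nat_lit 96) (nat_lit 5) (nat_lit 108) (nat_lit 5) (nat_lit 109) (nat_lit 5) (nat_lit 360) (nat_lit 351) (nat_lit 150)))))) (XT.nd (nat_lit 53580) (nat_lit 0) (nat_lit 84) (XT.nd (nat_lit 53298) (nat_lit 0) (nat_lit 0) (XT.nd (nat_lit 53204) (nat_lit 252) (nat_lit 0) (XT.lf (nat_lit 84) (nat_lit 10724452644) (nat_lit 0) (nat_lit 12349751893) (nat_lit 1092) (nat_lit 11392475206) (nat_lit 97) (nat_lit 5) (nat_lit 96) (nat_lit 5) (nat_lit 109) (nat_lit 5) (nat_lit 361) (nat_lit 351) (nat_lit 149)) (XT.lf (nat_lit 0) (nat_lit 8061236446) (nat_lit 1092) (nat_lit 3539578821) (nat_lit 1092) (nat_lit 3539578821) (nat_lit 93) (nat_lit 3) (nat_lit 106) (nat_lit 3) (nat_lit 106) (nat_lit 5) (nat_lit 352) (nat_lit 352) (nat_lit 157))) (XT.nd (nat_lit 94) (nat_lit 0) (nat_lit 0) (XT.lf (nat_lit 84) (nat_lit 3551257951) (nat_lit 0) (nat_lit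 12914511331) (nat_lit 1092) (nat_lit 14281153289) (nat_lit 94) (nat_lit 5) (nat_lit 93) (nat_lit 3) (nat_lit 106) (nat_lit 5) (nat_lit 353) (nat_lit 352) (nat_lit 156)) (XT.nd (nat_lit 94) (nat_lit 0) (nat_lit 84) (XT.lf (nat_lit 84) (nat_lit 14660051065) (nat_lit 0) (nat_lit 2231192426) (nat_lit 1092) (nat_lit 14334059031) (nat_lit 94) (nat_lit 5) (nat_lit 93) (nat_lit 3) (nat_lit 106) (nat_lit 5) (nat_lit 354) (nat_lit 352) (nat_lit 155)) (XT.lf (nat_lit 0) (nat_lit 17414764251) (nat_lit 1008) (nat_lit 5693723705) (nat_lit 1092) (nat_lit 8607406336) (nat_lit 94) (nat_lit 5) (nat_lit 106) (nat_lit 5) (nat_lit 107) (nat_lit 5) (nat_lit 355) (nat_lit 352) (nat_lit 154))))) (XT.nd (nat_lit 188) (nat_lit 0) (nat_lit 84) (XT.nd (nat_lit 94) (nat_lit 0) (nat_lit 0) (XT.lf (nat_lit 84) (nat_lit 5603644799) (nat_lit 0) (nat_lit 12427071784) (nat_lit 1092) (nat_lit 14188627774) (nat_lit 95) (nat_lit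 5) (nat_lit 94) (nat_lit 5) (nat_lit 107) (nat_lit 5) (nat_lit 356) (nat_lit 352) (nat_lit 153)) (XT.lf (nat_lit 84) (nat_lit 17370690698) (nat_lit 0) (nat_lit 1352351253) (nat_lit 1092) (nat_lit 14013595645) (nat_lit 95) (nat_lit 5) (nat_lit 94) (nat_lit 5) (nat_lit 107) (nat_lit 5) (nat_lit 357) (nat_lit 352) (nat_lit 152))) (XT.nd (nat_lit 94) (nat_lit 0) (nat_lit 0) (XT.lf (nat_lit 0) (nat_lit 19534603415) (nat_lit 1008) (nat_lit 3868597247) (nat_lit 1092) (nat_lit 9863746772) (nat_lit 95) (nat_lit 5) (nat_lit 107) (nat_lit 5) (nat_lit 108) (nat_lit 5) (nat_lit 358) (nat_lit 352) (nat_lit 151)) (XT.nd (nat_lit 94) (nat_lit 0) (nat_lit 0) (XT.lf (nat_lit 84) (nat_lit 8133966541) (nat_lit 0) (nat_lit 12329861737) (nat_lit 1092) (nat_lit 13347012099) (nat_lit 96) (nat_lit 5) (nat_lit 95) (nat_lit 5) (nat_lit 108) (nat_lit 5) (nat_lit 359) (nat_lit 352) (nat_lit 150)) (XT.lf (nat_lit 84)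 (nat_lit 20589381098) (nat_lit 0) (nat_lit 870890217) (nat_lit 1092) (nat_lit 12910142725) (nat_lit 96) (nat_lit 5) (nat_lit 95) (nat_lit 5) (nat_lit 108) (nat_lit 5) (nat_lit 360) (nat_lit 352) (nat_lit 149))))))) (XT.nd (nat_lit 54238) (nat_lit 0) (nat_lit 0) (XT.nd (nat_lit 376) (nat_lit 0) (nat_lit 0) (XT.nd (nat_lit 188) (nat_lit 0) (nat_lit 0) (XT.nd (nat_lit 94) (nat_lit 0) (nat_lit 0) (XT.lf (nat_lit 0) (nat_lit 8368726872) (nat_lit 1092) (nat_lit 3619457397) (nat_lit 1092) (nat_lit 3619457397) (nat_lit 93) (nat_lit 3) (nat_lit 106) (nat_lit 3) (nat_lit 106) (nat_lit 5) (nat_lit 353) (nat_lit 353) (nat_lit 155)) (XT.lf (nat_lit 84) (nat_lit 3720439307) (nat_lit 0) (nat_lit 13368075873) (nat_lit 1092) (nat_lit 14607461105) (nat_lit 94) (nat_lit 5) (nat_lit 93) (nat_lit 3) (nat_lit 106) (nat_lit 5) (nat_lit 354) (nat_lit 353) (nat_lit 154))) (XT.nd (nat_lit 94) (nat_lit 0) (nat_lit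 84) (XT.lf (nat_lit 84) (nat_lit 15171828224) (nat_lit 0) (nat_lit 2351974028) (nat_lit 1092) (nat_lit 14665507066) (nat_lit 94) (nat_lit 5) (nat_lit 93) (nat_lit 3) (nat_lit 106) (nat_lit 5) (nat_lit 355) (nat_lit 353) (nat_lit 153)) (XT.lf (nat_lit 0) (nat_lit 18059780226) (nat_lit 1008) (nat_lit 5810282310) (nat_lit 1092) (nat_lit 8825181891) (nat_lit 94) (nat_lit 5) (nat_lit 106) (nat_lit 5) (nat_lit 107) (nat_lit 5) (nat_lit 356) (nat_lit 353) (nat_lit 152)))) (XT.nd (nat_lit 188) (nat_lit 84) (nat_lit 0) (XT.nd (nat_lit 94) (nat_lit 0) (nat_lit 0) (XT.lf (nat_lit 84) (nat_lit 5836697710) (nat_lit 0) (nat_lit 12855556141) (nat_lit 1092) (nat_lit 14522144882) (nat_lit 95) (nat_lit 5) (nat_lit 94) (nat_lit 5) (nat_lit 107) (nat_lit 5) (nat_lit 357) (nat_lit 353) (nat_lit 151)) (XT.lf (nat_lit 84) (nat_lit 17966737805) (nat_lit 0) (nat_lit 1436218985) (nat_lit 1092) (nat_lit 14344883888)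 (nat_lit 95) (nat_lit 5) (nat_lit 94) (nat_lit 5) (nat_lit 107) (nat_lit 5) (nat_lit 358) (nat_lit 353) (nat_lit 150))) (XT.nd (nat_lit 94) (nat_lit 168) (nat_lit 0) (XT.lf (nat_lit 0) (nat_lit 20236281300) (nat_lit 1008) (nat_lit 3928771601) (nat_lit 1092) (nat_lit 10129658957) (nat_lit 95) (nat_lit 5) (nat_lit 107) (nat_lit 5) (nat_lit 108) (nat_lit 5) (nat_lit 359) (nat_lit 353) (nat_lit 149)) (XT.nd (nat_lit 53486) (nat_lit 168) (nat_lit 0) (XT.lf (nat_lit 84) (nat_lit 8445266727) (nat_lit 0) (nat_lit 12746742473) (nat_lit 1092) (nat_lit 13663543659) (nat_lit 96) (nat_lit 5) (nat_lit 95) (nat_lit 5) (nat_lit 108) (nat_lit 5) (nat_lit 360) (nat_lit 353) (nat_lit 148)) (XT.lf (nat_lit 0) (nat_lit 8682338223) (nat_lit 1092) (nat_lit 3703580178) (nat_lit 1092) (nat_lit 3703580178) (nat_lit 93) (nat_lit 3) (nat_lit 106) (nat_lit 3) (nat_lit 106) (nat_lit 5) (nat_lit 354) (nat_lit 354) (nat_lit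 153)))))) (XT.nd (nat_lit 54050) (nat_lit 0) (nat_lit 0) (XT.nd (nat_lit 188) (nat_lit 0) (nat_lit 84) (XT.nd (nat_lit 94) (nat_lit 0) (nat_lit 0) (XT.lf (nat_lit 84) (nat_lit 3891365143) (nat_lit 0) (nat_lit 13832548918) (nat_lit 1092) (nat_lit 14950779505) (nat_lit 94) (nat_lit 5) (nat_lit 93) (nat_lit 3) (nat_lit 106) (nat_lit 5) (nat_lit 355) (nat_lit 354) (nat_lit 152)) (XT.lf (nat_lit 84) (nat_lit 15696075576) (nat_lit 0) (nat_lit 2473442637) (nat_lit 1092) (nat_lit 15013917713) (nat_lit 94) (nat_lit 5) (nat_lit 93) (nat_lit 3) (nat_lit 106) (nat_lit 5) (nat_lit 356) (nat_lit 354) (nat_lit 151))) (XT.nd (nat_lit 94) (nat_lit 0) (nat_lit 0) (XT.lf (nat_lit 0) (nat_lit 18718562991) (nat_lit 1008) (nat_lit 5934004985) (nat_lit 1092) (nat_lit 9052614043) (nat_lit 94) (nat_lit 5) (nat_lit 106) (nat_lit 5) (nat_lit 107) (nat_lit 5) (nat_lit 357) (nat_lit 354) (nat_lit 150)) (XT.nd (nat_lit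 94) (nat_lit 0) (nat_lit 0) (XT.lf (nat_lit 84) (nat_lit 6073460455) (nat_lit 0) (nat_lit 13294762031) (nat_lit 1092) (nat_lit 14872299150) (nat_lit 95) (nat_lit 5) (nat_lit 94) (nat_lit 5) (nat_lit 107) (nat_lit 5) (nat_lit 358) (nat_lit 354) (nat_lit 149)) (XT.lf (nat_lit 84) (nat_lit 18577853249) (nat_lit 0) (nat_lit 1520202151) (nat_lit 1092) (nat_lit 14692550823) (nat_lit 95) (nat_lit 5) (nat_lit 94) (nat_lit 5) (nat_lit 107) (nat_lit 5) (nat_lit 359) (nat_lit 354) (nat_lit 148))))) (XT.nd (nat_lit 188) (nat_lit 0) (nat_lit 0) (XT.nd (nat_lit 94) (nat_lit 0) (nat_lit 0) (XT.lf (nat_lit 0) (nat_lit 9002462304) (nat_lit 1092) (nat_lit 3791974016) (nat_lit 1092) (nat_lit 3791974016) (nat_lit 93) (nat_lit 3) (nat_lit 106) (nat_lit 3) (nat_lit 106) (nat_lit 5) (nat_lit 355) (nat_lit 355) (nat_lit 151)) (XT.lf (nat_lit 84) (nat_lit 4064296858) (nat_lit 0) (nat_lit 14308455329) (nat_lit 1092)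 (nat_lit 15311227411) (nat_lit 94) (nat_lit 5) (nat_lit 93) (nat_lit 3) (nat_lit 106) (nat_lit 5) (nat_lit 356) (nat_lit 355) (nat_lit 150))) (XT.nd (nat_lit 94) (nat_lit 0) (nat_lit 0) (XT.lf (nat_lit 84) (nat_lit 16233380782) (nat_lit 0) (nat_lit 2595800633) (nat_lit 1092) (nat_lit 15379420686) (nat_lit 94) (nat_lit 5) (nat_lit 93) (nat_lit 3) (nat_lit 106) (nat_lit 5) (nat_lit 357) (nat_lit 355) (nat_lit 149)) (XT.nd (nat_lit 53956) (nat_lit 84) (nat_lit 0) (XT.lf (nat_lit 0) (nat_lit 19391908254) (nat_lit 1008) (nat_lit 6064903500) (nat_lit 1092) (nat_lit 9289830045) (nat_lit 94) (nat_lit 5) (nat_lit 106) (nat_lit 5) (nat_lit 107) (nat_lit 5) (nat_lit 358) (nat_lit 355) (nat_lit 148)) (XT.lf (nat_lit 84) (nat_lit 4239491674) (nat_lit 0) (nat_lit 14796325179) (nat_lit 1092) (nat_lit 15688951623) (nat_lit 94) (nat_lit 5) (nat_lit 93) (nat_lit 3) (nat_lit 106) (nat_lit 5) (nat_lit 357)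 (nat_lit 356) (nat_lit 148))))))))

set_option maxRecDepth 10000000 in
noncomputable def Tp : PT := (PT.nd (nat_lit 2381208) (PT.nd (nat_lit 1841272) (PT.nd (nat_lit 1356232) (PT.nd (nat_lit 1031838) pc0 pc1) (PT.nd (nat_lit 269498) pc2 pc3)) (PT.nd (nat_lit 271472) (PT.nd (nat_lit 162056) pc4 pc5) (PT.nd (nat_lit 160364) pc6 pc7))) (PT.nd (nat_lit 376846) (PT.nd (nat_lit 163936) (PT.nd (nat_lit 107630) pc8 pc9) (PT.nd (nat_lit 106784) pc10 pc11)) (PT.nd (nat_lit 110920) (PT.nd (nat_lit 55554) pc12 pc13) (PT.nd (nat_lit 108100) pc14 pc15))))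

set_option maxRecDepth 10000000 in
noncomputable def Tx : XT := (XT.nd (nat_lit 13384848) (nat_lit 0) (nat_lit 588) XT.nil (XT.nd (nat_lit 5890604) (nat_lit 0) (nat_lit 0) (XT.nd (nat_lit 2645536) (nat_lit 0) (nat_lit 840) (XT.nd (nat_lit 1783368) (nat_lit 0) (nat_lit 420) (XT.nd (nat_lit 1242022) (nat_lit 0) (nat_lit 168) (XT.nd (nat_lit 863202) (nat_lit 0) (nat_lit 168) (XT.nd (nat_lit 593046) (nat_lit 0) (nat_lit 0) (XT.nd (nat_lit 378068) (nat_lit 0) (nat_lit 0) (XT.nd (nat_lit 269498) (nat_lit 0) (nat_lit 0) xc0 xc1) (XT.nd (nat_lit 107818) (nat_lit 0) (nat_lit 0) xc2 xc3)) (XT.nd (nat_lit 161210) (nat_lit 0) (nat_lit 168) (XT.nd (nat_lit 54990) (nat_lit 0) (nat_lit 168) xc4 xc5) (XT.nd (nat_lit 54520) (nat_lit 0) (nat_lit 0) xc6 xc7))) (XT.nd (nat_lit 215542) (nat_lit 0) (nat_lit 0) (XT.nd (nat_lit 108100) (nat_lit 0) (nat_lit 0) (XT.nd (nat_lit 54144) (nat_lit 0) (nat_lit 0) xc8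 xc9) (XT.nd (nat_lit 53768) (nat_lit 0) (nat_lit 0) xc10 xc11)) (XT.nd (nat_lit 106690) (nat_lit 0) (nat_lit 0) (XT.nd (nat_lit 53392) (nat_lit 0) (nat_lit 0) xc12 xc13) (XT.nd (nat_lit 3478) (nat_lit 84) (nat_lit 0) xc14 xc15)))) (XT.nd (nat_lit 321386) (nat_lit 0) (nat_lit 84) (XT.nd (nat_lit 161492) (nat_lit 0) (nat_lit 84) (XT.nd (nat_lit 105468) (nat_lit 0) (nat_lit 84) (XT.nd (nat_lit 52828) (nat_lit 0) (nat_lit 84) xc16 xc17) (XT.nd (nat_lit 3478) (nat_lit 168) (nat_lit 0) xc18 xc19)) (XT.nd (nat_lit 55836) (nat_lit 0) (nat_lit 0) (XT.nd (nat_lit 52264) (nat_lit 0) (nat_lit 0) xc20 xc21) (XT.nd (nat_lit 52076) (nat_lit 0) (nat_lit 0) xc22 xc23))) (XT.nd (nat_lit 110356) (nat_lit 0) (nat_lit 0) (XT.nd (nat_lit 55272) (nat_lit 0) (nat_lit 0) (XT.nd (nat_lit 3478) (nat_lit 420) (nat_lit 0) xc24 xc25) (XT.nd (nat_lit 51512) (nat_lit 0) (nat_lit 1260) xc26 xc27)) (XT.nd (nat_lit 54896)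 (nat_lit 0) (nat_lit 0) (XT.nd (nat_lit 51324) (nat_lit 0) (nat_lit 588) xc28 xc29) (XT.nd (nat_lit 51136) (nat_lit 0) (nat_lit 420) xc30 xc31))))) (XT.nd (nat_lit 430990) (nat_lit 0) (nat_lit 252) (XT.nd (nat_lit 263576) (nat_lit 0) (nat_lit 0) (XT.nd (nat_lit 155852) (nat_lit 0) (nat_lit 0) (XT.nd (nat_lit 54426) (nat_lit 0) (nat_lit 0) (XT.nd (nat_lit 50948) (nat_lit 0) (nat_lit 0) xc32 xc33) (XT.nd (nat_lit 50760) (nat_lit 0) (nat_lit 0) xc34 xc35)) (XT.nd (nat_lit 53956) (nat_lit 0) (nat_lit 0) (XT.nd (nat_lit 3478) (nat_lit 2772) (nat_lit 0) xc36 xc37) (XT.nd (nat_lit 3478) (nat_lit 3108) (nat_lit 0) xc38 xc39))) (XT.nd (nat_lit 60536) (nat_lit 0) (nat_lit 84) (XT.nd (nat_lit 6956) (nat_lit 252) (nat_lit 0) (XT.nd (nat_lit 3478) (nat_lit 3276) (nat_lit 0) xc40 xc41) (XT.nd (nat_lit 50008) (nat_lit 0) (nat_lit 420) xc42 xc43)) (XT.nd (nat_lit 53392) (nat_lit 0) (nat_lit 168) (XT.nd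 (nat_lit 49820) (nat_lit 0) (nat_lit 840) xc44 xc45) (XT.nd (nat_lit 49914) (nat_lit 0) (nat_lit 1176) xc46 xc47)))) (XT.nd (nat_lit 214790) (nat_lit 0) (nat_lit 168) (XT.nd (nat_lit 107160) (nat_lit 0) (nat_lit 0) (XT.nd (nat_lit 53486) (nat_lit 0) (nat_lit 0) (XT.nd (nat_lit 50008) (nat_lit 0) (nat_lit 1764) xc48 xc49) (XT.nd (nat_lit 50102) (nat_lit 0) (nat_lit 2436) xc50 xc51)) (XT.nd (nat_lit 53768) (nat_lit 0) (nat_lit 0) (XT.nd (nat_lit 50196) (nat_lit 0) (nat_lit 2772) xc52 xc53) (XT.nd (nat_lit 50290) (nat_lit 0) (nat_lit 3276) xc54 xc55))) (XT.nd (nat_lit 108006) (nat_lit 0) (nat_lit 0) (XT.nd (nat_lit 53956) (nat_lit 0) (nat_lit 0) (XT.nd (nat_lit 50384) (nat_lit 0) (nat_lit 3444) xc56 xc57) (XT.nd (nat_lit 50478) (nat_lit 0) (nat_lit 3444) xc58 xc59)) (XT.nd (nat_lit 54144) (nat_lit 0) (nat_lit 0) (XT.nd (nat_lit 50572) (nat_lit 0) (nat_lit 3444) xc60 xc61) (XT.nd (nat_lit 50666)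 (nat_lit 0) (nat_lit 3024) xc62 xc63)))))) (XT.nd (nat_lit 1028454) (nat_lit 0) (nat_lit 1176) (XT.nd (nat_lit 485698) (nat_lit 0) (nat_lit 672) (XT.nd (nat_lit 217892) (nat_lit 0) (nat_lit 168) (XT.nd (nat_lit 108664) (nat_lit 0) (nat_lit 168) (XT.nd (nat_lit 54238) (nat_lit 0) (nat_lit 168) (XT.nd (nat_lit 50760) (nat_lit 0) (nat_lit 3024) xc64 xc65) (XT.nd (nat_lit 50854) (nat_lit 0) (nat_lit 2436) xc66 xc67)) (XT.nd (nat_lit 54520) (nat_lit 0) (nat_lit 0) (XT.nd (nat_lit 50948) (nat_lit 0) (nat_lit 1680) xc68 xc69) (XT.nd (nat_lit 51136) (nat_lit 0) (nat_lit 1092) xc70 xc71))) (XT.nd (nat_lit 157544) (nat_lit 0) (nat_lit 336) (XT.nd (nat_lit 54708) (nat_lit 0) (nat_lit 252) (XT.nd (nat_lit 51230) (nat_lit 0) (nat_lit 504) xc72 xc73) (XT.nd (nat_lit 51324) (nat_lit 0) (nat_lit 84) xc74 xc75)) (XT.nd (nat_lit 55084) (nat_lit 0) (nat_lit 0) (XT.nd (nat_lit 3478) (nat_lit 2520) (nat_lit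 0) xc76 xc77) (XT.nd (nat_lit 3478) (nat_lit 1344) (nat_lit 0) xc78 xc79)))) (XT.nd (nat_lit 270156) (nat_lit 0) (nat_lit 252) (XT.nd (nat_lit 110544) (nat_lit 0) (nat_lit 0) (XT.nd (nat_lit 55178) (nat_lit 0) (nat_lit 0) (XT.nd (nat_lit 3478) (nat_lit 0) (nat_lit 0) xc80 xc81) (XT.nd (nat_lit 51794) (nat_lit 0) (nat_lit 1176) xc82 xc83)) (XT.nd (nat_lit 103964) (nat_lit 0) (nat_lit 252) (XT.nd (nat_lit 51888) (nat_lit 0) (nat_lit 0) xc84 xc85) (XT.nd (nat_lit 3478) (nat_lit 2100) (nat_lit 0) xc86 xc87))) (XT.nd (nat_lit 111578) (nat_lit 0) (nat_lit 0) (XT.nd (nat_lit 55742) (nat_lit 0) (nat_lit 0) (XT.nd (nat_lit 3478) (nat_lit 252) (nat_lit 0) xc88 xc89) (XT.nd (nat_lit 52264) (nat_lit 0) (nat_lit 672) xc90 xc91)) (XT.nd (nat_lit 104904) (nat_lit 0) (nat_lit 252) (XT.nd (nat_lit 52358) (nat_lit 0) (nat_lit 252) xc92 xc93) (XT.nd (nat_lit 3478) (nat_lit 0) (nat_lit 0) xc94 xc95))))) (XT.nd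 (nat_lit 703684) (nat_lit 0) (nat_lit 1344) (XT.nd (nat_lit 324864) (nat_lit 0) (nat_lit 672) (XT.nd (nat_lit 161868) (nat_lit 0) (nat_lit 420) (XT.nd (nat_lit 105374) (nat_lit 0) (nat_lit 420) (XT.nd (nat_lit 52640) (nat_lit 0) (nat_lit 0) xc96 xc97) (XT.nd (nat_lit 3478) (nat_lit 588) (nat_lit 0) xc98 xc99)) (XT.nd (nat_lit 106220) (nat_lit 0) (nat_lit 252) (XT.nd (nat_lit 53016) (nat_lit 0) (nat_lit 252) xc100 xc101) (XT.nd (nat_lit 3478) (nat_lit 0) (nat_lit 0) xc102 xc103))) (XT.nd (nat_lit 213850) (nat_lit 0) (nat_lit 336) (XT.nd (nat_lit 106690) (nat_lit 0) (nat_lit 336) (XT.nd (nat_lit 53298) (nat_lit 0) (nat_lit 336) xc104 xc105) (XT.nd (nat_lit 53486) (nat_lit 0) (nat_lit 0) xc106 xc107)) (XT.nd (nat_lit 107536) (nat_lit 0) (nat_lit 336) (XT.nd (nat_lit 53674) (nat_lit 0) (nat_lit 336) xc108 xc109) (XT.nd (nat_lit 3478) (nat_lit 504) (nat_lit 0) xc110 xc111)))) (XT.nd (nat_lit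 486544) (nat_lit 0) (nat_lit 1680) (XT.nd (nat_lit 267712) (nat_lit 0) (nat_lit 840) (XT.nd (nat_lit 108100) (nat_lit 0) (nat_lit 504) (XT.nd (nat_lit 53956) (nat_lit 0) (nat_lit 504) xc112 xc113) (XT.nd (nat_lit 54238) (nat_lit 0) (nat_lit 336) xc114 xc115)) (XT.nd (nat_lit 109228) (nat_lit 0) (nat_lit 420) (XT.nd (nat_lit 54520) (nat_lit 0) (nat_lit 420) xc116 xc117) (XT.nd (nat_lit 54708) (nat_lit 0) (nat_lit 0) xc118 xc119))) (XT.nd (nat_lit 376752) (nat_lit 0) (nat_lit 1680) (XT.nd (nat_lit 161868) (nat_lit 0) (nat_lit 504) (XT.nd (nat_lit 106596) (nat_lit 0) (nat_lit 504) xc120 xc121) (XT.nd (nat_lit 107160) (nat_lit 0) (nat_lit 504) xc122 xc123)) (XT.nd (nat_lit 216764) (nat_lit 0) (nat_lit 504) (XT.nd (nat_lit 108100) (nat_lit 0) (nat_lit 504) xc124 xc125) (XT.nd (nat_lit 162056) (nat_lit 0) (nat_lit 0) xc126 xc127))))))) XT.nil))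

set_option maxRecDepth 10000000 in
noncomputable def Te : XT := XT.nil

set_option maxRecDepth 10000000 in
noncomputable def Tz : ZL := (ZL.cons (nat_lit 84) (nat_lit 3) (nat_lit 71678969508180320467) (ZL.cons (nat_lit 168) (nat_lit 6) (nat_lit 141735054983679785038) (ZL.cons (nat_lit 588) (nat_lit 3) (nat_lit 68526811642110549295) (ZL.cons (nat_lit 756) (nat_lit 6) (nat_lit 135594663085367473174) (ZL.cons (nat_lit 840) (nat_lit 6) (nat_lit 134204306764439279356) (ZL.cons (nat_lit 924) (nat_lit 3) (nat_lit 67074129836161073951) (ZL.cons (nat_lit 1008) (nat_lit 6) (nat_lit 132881258363701878918) (ZL.cons (nat_lit 1092) (nat_lit 6) (nat_lit 132770849397562311526) (ZL.cons (nat_lit 1260) (nat_lit 6) (nat_lit 131461148370424487616) (ZL.cons (nat_lit 1344) (nat_lit 3) (nat_lit 65703393248201025839) (ZL.cons (nat_lit 1428) (nat_lit 6) (nat_lit 130217935812356707746) (ZL.cons (nat_lit 1512) (nat_lit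 6) (nat_lit 130110846611445391166) (ZL.cons (nat_lit 1596) (nat_lit 6) (nat_lit 129040052919025021248) (ZL.cons (nat_lit 1680) (nat_lit 6) (nat_lit 128881821790966390762) (ZL.cons (nat_lit 1764) (nat_lit 3) (nat_lit 64414547232038755060) (ZL.cons (nat_lit 1848) (nat_lit 6) (nat_lit 127926401780186468130) (ZL.cons (nat_lit 1932) (nat_lit 6) (nat_lit 127718566455088735888) (ZL.cons (nat_lit 2016) (nat_lit 6) (nat_lit 127614697201052541340) (ZL.cons (nat_lit 2100) (nat_lit 6) (nat_lit 126619996327985289380) (ZL.cons (nat_lit 2184) (nat_lit 6) (nat_lit 126466522876909993076) (ZL.cons (nat_lit 2268) (nat_lit 3) (nat_lit 63207690474881339585) (ZL.cons (nat_lit 2352) (nat_lit 6) (nat_lit 125585087427219439778) (ZL.cons (nat_lit 2436) (nat_lit 6) (nat_lit 125383501272905441480) (ZL.cons (nat_lit 2520) (nat_lit 6) (nat_lit 125282755148719025818) (ZL.cons (nat_lit 2604) (nat_lit 6) (nat_lit 124612875109286205524)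 (ZL.cons (nat_lit 2688) (nat_lit 6) (nat_lit 124364622899454552532) (ZL.cons (nat_lit 2772) (nat_lit 6) (nat_lit 124215764072029434876) (ZL.cons (nat_lit 2856) (nat_lit 3) (nat_lit 62083079937495166560) (ZL.cons (nat_lit 3024) (nat_lit 6) (nat_lit 123408938055183042714) (ZL.cons (nat_lit 3108) (nat_lit 6) (nat_lit 123213413172240270364) (ZL.cons (nat_lit 3192) (nat_lit 6) (nat_lit 123115696271962466614) (ZL.cons (nat_lit 3276) (nat_lit 6) (nat_lit 122515555941705514436) (ZL.cons (nat_lit 3360) (nat_lit 6) (nat_lit 122274768153313998440) (ZL.cons (nat_lit 3444) (nat_lit 6) (nat_lit 122130385197518539996) (ZL.cons (nat_lit 3528) (nat_lit 3) (nat_lit 61041136247139919001) (ZL.cons (nat_lit 3612) (nat_lit 6) (nat_lit 121683643833308047320) (ZL.cons (nat_lit 3696) (nat_lit 6) (nat_lit 121398954099767410428) (ZL.cons (nat_lit 3780) (nat_lit 6) (nat_lit 121209308238523208338) (ZL.cons (nat_lit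 3864) (nat_lit 6) (nat_lit 121114529479766851650) (ZL.cons (nat_lit 3948) (nat_lit 6) (nat_lit 120912426300760602602) (ZL.cons (nat_lit 4032) (nat_lit 6) (nat_lit 120585154661158742726) (ZL.cons (nat_lit 4116) (nat_lit 6) (nat_lit 120351606854765419740) (ZL.cons (nat_lit 4200) (nat_lit 6) (nat_lit 120211565190560319406) (ZL.cons (nat_lit 4284) (nat_lit 3) (nat_lit 60082449567521332356) (ZL.cons (nat_lit 4368) (nat_lit 6) (nat_lit 120201184488535752454) (ZL.cons (nat_lit 4452) (nat_lit 6) (nat_lit 119832611291163550208) (ZL.cons (nat_lit 4536) (nat_lit 6) (nat_lit 119556481578709004238) (ZL.cons (nat_lit 4620) (nat_lit 6) (nat_lit 119372537969354783008) (ZL.cons (nat_lit 4704) (nat_lit 6) (nat_lit 119280609008388384668) (ZL.cons (nat_lit 4788) (nat_lit 6) (nat_lit 119140622540530072074) (ZL.cons (nat_lit 4872) (nat_lit 6) (nat_lit 118823191270305183734) (ZL.cons (nat_lit 4956) (nat_lit 6)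 (nat_lit 118596665754889739520) (ZL.cons (nat_lit 5040) (nat_lit 6) (nat_lit 118460834848774220284) (ZL.cons (nat_lit 5124) (nat_lit 3) (nat_lit 59207785971662738319) (ZL.cons (nat_lit 5208) (nat_lit 6) (nat_lit 118508543403255050546) (ZL.cons (nat_lit 5292) (nat_lit 6) (nat_lit 118151052426172410150) (ZL.cons (nat_lit 5376) (nat_lit 6) (nat_lit 117883225352986623566) (ZL.cons (nat_lit 5460) (nat_lit 6) (nat_lit 117704812540809881346) (ZL.cons (nat_lit 5544) (nat_lit 6) (nat_lit 117615647690212016804) (ZL.cons (nat_lit 5628) (nat_lit 6) (nat_lit 117935784715370569718) (ZL.cons (nat_lit 5712) (nat_lit 6) (nat_lit 117539438542499615010) (ZL.cons (nat_lit 5796) (nat_lit 6) (nat_lit 117231551762456076370) (ZL.cons (nat_lit 5880) (nat_lit 6) (nat_lit 117011837392508991780) (ZL.cons (nat_lit 5964) (nat_lit 6) (nat_lit 116880090635849904254) (ZL.cons (nat_lit 6048) (nat_lit 3) (nat_lit 58418094345350391679)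 (ZL.cons (nat_lit 6132) (nat_lit 6) (nat_lit 117421812605781520974) (ZL.cons (nat_lit 6216) (nat_lit 6) (nat_lit 116987779531079029588) (ZL.cons (nat_lit 6300) (nat_lit 6) (nat_lit 116641037555247176636) (ZL.cons (nat_lit 6384) (nat_lit 6) (nat_lit 116381263478442339990) (ZL.cons (nat_lit 6468) (nat_lit 6) (nat_lit 116208215164012910094) (ZL.cons (nat_lit 6552) (nat_lit 6) (nat_lit 116121731312802566214) (ZL.cons (nat_lit 6636) (nat_lit 6) (nat_lit 116966147998641817916) (ZL.cons (nat_lit 6720) (nat_lit 6) (nat_lit 116495561187924257010) (ZL.cons (nat_lit 6804) (nat_lit 6) (nat_lit 116111132310260867380) (ZL.cons (nat_lit 6888) (nat_lit 6) (nat_lit 115812503037667716422) (ZL.cons (nat_lit 6972) (nat_lit 6) (nat_lit 115599395016380534470) (ZL.cons (nat_lit 7056) (nat_lit 6) (nat_lit 115471609607399848220) (ZL.cons (nat_lit 7140) (nat_lit 3) (nat_lit 57714513850669312618) (ZL.cons (nat_lit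 7224) (nat_lit 6) (nat_lit 116568366166805523342) (ZL.cons (nat_lit 7308) (nat_lit 6) (nat_lit 116062324713978292678) (ZL.cons (nat_lit 7392) (nat_lit 6) (nat_lit 115641342100299833528) (ZL.cons (nat_lit 7476) (nat_lit 6) (nat_lit 115305025925875145892) (ZL.cons (nat_lit 7560) (nat_lit 6) (nat_lit 115053062708799649628) (ZL.cons (nat_lit 7644) (nat_lit 6) (nat_lit 114885217592961211322) (ZL.cons (nat_lit 7728) (nat_lit 6) (nat_lit 114801334129129645968) (ZL.cons (nat_lit 7812) (nat_lit 3) (nat_lit 57327041820940255283) (ZL.cons (nat_lit 7896) (nat_lit 6) (nat_lit 114682716351498615930) (ZL.cons (nat_lit 7980) (nat_lit 6) (nat_lit 114768641169037648802) (ZL.cons (nat_lit 8064) (nat_lit 6) (nat_lit 114911938185428409388) (ZL.cons (nat_lit 8148) (nat_lit 6) (nat_lit 115112740968500918560) (ZL.cons (nat_lit 8232) (nat_lit 6) (nat_lit 115371236687483627028) (ZL.cons (nat_lit 8316) (nat_lit 6)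 (nat_lit 115687666287464742730) (ZL.cons (nat_lit 8400) (nat_lit 6) (nat_lit 115231229031676613822) (ZL.cons (nat_lit 8484) (nat_lit 6) (nat_lit 114858359121236856666) (ZL.cons (nat_lit 8568) (nat_lit 6) (nat_lit 114568709002329823724) (ZL.cons (nat_lit 8652) (nat_lit 6) (nat_lit 114362008690703071106) (ZL.cons (nat_lit 8736) (nat_lit 6) (nat_lit 114238065520013753696) (ZL.cons (nat_lit 8820) (nat_lit 3) (nat_lit 57098381981121705663) (ZL.cons (nat_lit 8904) (nat_lit 6) (nat_lit 114006216757272925940) (ZL.cons (nat_lit 8988) (nat_lit 6) (nat_lit 114064369790507297936) (ZL.cons (nat_lit 9072) (nat_lit 6) (nat_lit 114180730061694701704) (ZL.cons (nat_lit 9156) (nat_lit 6) (nat_lit 114355406030796932684) (ZL.cons (nat_lit 9240) (nat_lit 6) (nat_lit 114588560514114967832) (ZL.cons (nat_lit 9324) (nat_lit 6) (nat_lit 114880410836050813584) (ZL.cons (nat_lit 9408) (nat_lit 6) (nat_lit 114472086283501386670)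 (ZL.cons (nat_lit 9492) (nat_lit 6) (nat_lit 114145882428579284208) (ZL.cons (nat_lit 9576) (nat_lit 6) (nat_lit 113901495215120994912) (ZL.cons (nat_lit 9660) (nat_lit 6) (nat_lit 113738696848643363190) (ZL.cons (nat_lit 9744) (nat_lit 6) (nat_lit 113657335584015268764) (ZL.cons (nat_lit 9828) (nat_lit 3) (nat_lit 56703231287952021654) (ZL.cons (nat_lit 9912) (nat_lit 6) (nat_lit 113435982899520309940) (ZL.cons (nat_lit 9996) (nat_lit 6) (nat_lit 113524571386403052832) (ZL.cons (nat_lit 10080) (nat_lit 6) (nat_lit 113672310610301926994) (ZL.cons (nat_lit 10164) (nat_lit 6) (nat_lit 113879338279649683950) (ZL.cons (nat_lit 10248) (nat_lit 6) (nat_lit 114145847365920856382) (ZL.cons (nat_lit 10332) (nat_lit 6) (nat_lit 113784188868889084162) (ZL.cons (nat_lit 10416) (nat_lit 6) (nat_lit 113503247919415725346) (ZL.cons (nat_lit 10500) (nat_lit 6) (nat_lit 113302762651106556946) (ZL.cons (nat_lit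 10584) (nat_lit 6) (nat_lit 113182546190690148208) (ZL.cons (nat_lit 10668) (nat_lit 3) (nat_lit 56571243241916198076) (ZL.cons (nat_lit 10752) (nat_lit 6) (nat_lit 112882894773669082002) (ZL.cons (nat_lit 10836) (nat_lit 6) (nat_lit 112942850550933719530) (ZL.cons (nat_lit 10920) (nat_lit 6) (nat_lit 113062817990527932816) (ZL.cons (nat_lit 11004) (nat_lit 6) (nat_lit 113242908914672332954) (ZL.cons (nat_lit 11088) (nat_lit 6) (nat_lit 113483291186973227194) (ZL.cons (nat_lit 11172) (nat_lit 6) (nat_lit 113166895595390198620) (ZL.cons (nat_lit 11256) (nat_lit 6) (nat_lit 112929856591065960700) (ZL.cons (nat_lit 11340) (nat_lit 6) (nat_lit 112771953228818015284) (ZL.cons (nat_lit 11424) (nat_lit 6) (nat_lit 112693038326171948916) (ZL.cons (nat_lit 11508) (nat_lit 3) (nat_lit 56202294938441432171) (ZL.cons (nat_lit 11592) (nat_lit 6) (nat_lit 112435025330531235238) (ZL.cons (nat_lit 11676)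 (nat_lit 6) (nat_lit 112526360060507343160) (ZL.cons (nat_lit 11760) (nat_lit 6) (nat_lit 112678679200347082422) (ZL.cons (nat_lit 11844) (nat_lit 6) (nat_lit 112892124727444619844) (ZL.cons (nat_lit 11928) (nat_lit 6) (nat_lit 112619631081010712166) (ZL.cons (nat_lit 12012) (nat_lit 6) (nat_lit 112425173982747697230) (ZL.cons (nat_lit 12096) (nat_lit 6) (nat_lit 112308572178270094184) (ZL.cons (nat_lit 12180) (nat_lit 3) (nat_lit 56134858491240889936) (ZL.cons (nat_lit 12264) (nat_lit 6) (nat_lit 112000622378894138474) (ZL.cons (nat_lit 12348) (nat_lit 6) (nat_lit 112062436785253979764) (ZL.cons (nat_lit 12432) (nat_lit 6) (nat_lit 112186123215475613662) (ZL.cons (nat_lit 12516) (nat_lit 6) (nat_lit 112371796958268490208) (ZL.cons (nat_lit 12600) (nat_lit 6) (nat_lit 112141885217895805514) (ZL.cons (nat_lit 12684) (nat_lit 6) (nat_lit 111988729677403132948) (ZL.cons (nat_lit 12768) (nat_lit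 6) (nat_lit 111912187579783281958) (ZL.cons (nat_lit 12852) (nat_lit 3) (nat_lit 55819618393483317795) (ZL.cons (nat_lit 12936) (nat_lit 6) (nat_lit 111670615739678105984) (ZL.cons (nat_lit 13020) (nat_lit 6) (nat_lit 111764781846283473250) (ZL.cons (nat_lit 13104) (nat_lit 6) (nat_lit 111921822879458244432) (ZL.cons (nat_lit 13188) (nat_lit 6) (nat_lit 111733212696855902108) (ZL.cons (nat_lit 13272) (nat_lit 6) (nat_lit 111620116863220981598) (ZL.cons (nat_lit 13356) (nat_lit 3) (nat_lit 55791214980694722460) (ZL.cons (nat_lit 13440) (nat_lit 6) (nat_lit 111350531705520945470) (ZL.cons (nat_lit 13524) (nat_lit 6) (nat_lit 111414262358477941840) (ZL.cons (nat_lit 13608) (nat_lit 6) (nat_lit 111541783068036446390) (ZL.cons (nat_lit 13692) (nat_lit 6) (nat_lit 111393232592291856122) (ZL.cons (nat_lit 13776) (nat_lit 6) (nat_lit 111318991954445249924) (ZL.cons (nat_lit 13860) (nat_lit 3) (nat_lit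 55550943165466503703) (ZL.cons (nat_lit 13944) (nat_lit 6) (nat_lit 111134238031178533382) (ZL.cons (nat_lit 14028) (nat_lit 6) (nat_lit 111231323287088667036) (ZL.cons (nat_lit 14112) (nat_lit 6) (nat_lit 111121628007132391080) (ZL.cons (nat_lit 14196) (nat_lit 3) (nat_lit 55542537135558660780) (ZL.cons (nat_lit 14280) (nat_lit 6) (nat_lit 110924447852378909630) (ZL.cons (nat_lit 14364) (nat_lit 6) (nat_lit 110990154155577572890) (ZL.cons (nat_lit 14448) (nat_lit 6) (nat_lit 110918145777452833612) (ZL.cons (nat_lit 14532) (nat_lit 3) (nat_lit 55392348137828174266) (ZL.cons (nat_lit 14616) (nat_lit 6) (nat_lit 110818050878609485816) (ZL.cons (nat_lit 14700) (nat_lit 3) (nat_lit 55391298118249908029) (ZL.cons (nat_lit 14784) (nat_lit 6) (nat_lit 110714853037901994238) (ZL.cons (nat_lit 14868) (nat_lit 1) (nat_lit 18446744073709551617) ZL.nil))))))))))))))))))))))))))))))))))))))))))))))))))))))))))))))))))))))))))))))))))))))))))))))))))))))))))))))))))))))))))))))))))))))))))))))))))))))))))))))))))))))))))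

noncomputable def vl : XL := ⟨(nat_lit 0), (nat_lit 84), (nat_lit 669140731), (nat_lit 168), (nat_lit 80839590), (nat_lit 168), (nat_lit 80839590), (nat_lit 1), (nat_lit 4), (nat_lit 2), (nat_lit 5), (nat_lit 2), (nat_lit 4), (nat_lit 0), (nat_lit 0), (nat_lit 0)⟩

noncomputable def cp0 : Nat := (nat_lit 8740989154193415482501449377444876935361811844801018951032824068486843218026099884736025942033845430427325750764329489453381620039445064715690112148403814289656710355494686049743946970565220791658710802662395100233272005102184491275205862392858414260165378087202271390259569070576498701700889274450866715131261750931501729544185152763802112477763760047740941080424816468271793391829644170319917400268756063779954504443819970894380454684352017438834941461806049559578091164358048886957718700323429364673658650450121893917939036801807807344057787325150610181578987643921087198256455748820393607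298544095665749081454072730181406208967039071533888626913662729196711044670429922974356677677309250054009649819031034269699757584513063305012970038993392154620856597193280255812820752017069919650113254990004628554081428895078973005143918890250506077741081561354038885038574634122476221343726817878291502579943959962170837417096628647546882043245849581452813228275371190171098483484877089476230010662621649128455385715121381285347634625162146683030682835191833214420858859115842261146991648696518833514876698680068404525511801260488690979862878723833695411652494251137380949120006526246369332033915314161590071862247593158672466110425600541885015374060505817720497576710553063178449092022269195396885265544223479091577869758219184060274391161510796792977452407329907773538696133531275818012357261882874256729800602044191441594416408843179913985400874048521489905722655503312616333521120892791462417909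460328211279881253570037568069642339403544513523995513299783644040339054399766308289931333494030096629498464178880379716613431631806018972313704055445149616121007162223932986209864610061455618551793022618224459839566588136583040464073986931929523663980093621641220043531733575558093200187804830938678224425296652580756120996932348994033852246461180621933990999648110781550977326968176040245478713056150205681324448336706489950947452619874331025030623278463389681109420504569202974623428957434590075615387422301973298834442219266029709441806180220569136928764004089613320312171162689062001526985074721595960794665034007438983458666355584618938885908255273533455576297864009425046918906630267982422433488277516805947363978898184625017686902547805138268682289196544765791532315152303770494028106687479209012239499347457539731887661698457279763963784432773917543178001146107634715441734871859092187800220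083370091687280459590814107713409918576756724185471421351750673248276162001996765200385209460758311193983621986334970271650600596897725310894122645008713347633459701902694526135551869599615797411538242233409364321322576054561785350045067442606106344176929339874467885716838025517383626768840030118970410408436886018357791993300812608044019489821665457669272762552592968195966335349737661103258079131324073221622682604334563777538908347595967411965235344311170369915799645974145933215120342039898121331062532584282338084398610035011877286576695044790540422168020831169191148902126662736503237926265069233094405080036883619722312988652787055158235722018721276247970771041564608968280866357968754970641899810885657845581461199753972579782234558293658086200662021715146489273064758549629622592426315137203995545983671778975915392191690364623478837128860334484556876916210849998339493366458417596743591328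4225319201341636689838040139493806146988784401425805591088040575312646682997685590504510652095087163173684798046060035792858979572297266269161682047425247449555256042484720747934958997796340556257035515098916867634932392881729218793786383104269925516447134401699377800842292938145903442977154538702425278298977998213167413440462263544189517373817681071044133820818870051933852911877637146892323133310441744014754880776643848504123711065793592262201513004910190227597253865856202038643471220095470153131361899558381702861810721575363218900493257921026499552257624923633297838818497646226695883821177833425018288862924232570275638514576155343456880903403843225210203548505298167407429306561153370104917023522194230537118964360082370840429636531982778064561425318488822130038694316393310182557912869220428592392003834299682364189206125926595989410638857909237301663964082120086448365291351221860607847899900600258388717708989284590254248856021117744099925842014393495915545812160622693136958125996059798024630355576787868368389061478650752032993528981616492698687646598148134877910969843327764663193948673979537507997784658969076462358427930036271216059226195557112252507923299671338752040861072594758008832)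

noncomputable def cp1 : Nat := (nat_lit 351723870587198632555592780218161674935010626487335307001654194424688700836953189430618468208451854195143324969410425705721190094770166650044426210882706188150080947183534446930867202620819973503435955948204407004521870967180647129919696019826701751002922387867866598549246236016588113712872610197590923921967619286410110615339794513475559110085320316349158607189324288181637783099297484586007324652397680373072506484707835876520744431541539896718279661784969498863684030261883142420829714608488677146611048035213452827982907649943010187916887052319693693718477821271421955416806302516296918756392204356671473385577332831965990599954645648299221960558778991080160435973897441278529334045169755118927159679086771460791076792559756981406682430796906149895863679966258257498045381562842169350152583892581238513966713738834625617428422195421279734844338035168344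314419366968439968480207671918501241918172982095369673068078067426204850581751006568439380186030715895811923394545445234464608427092181312016118826607562286105337923797865047612870018142314985581264464112086873871530313132581751775036333399632294077024895739784723054093216066429076617156351028574440650628582706467226974108572756786489444997723880376706708590653121294231544481845405746417957439109801178323414916716766375150620461964426317810718055125292075035693043604759449215011287845796595705839654502820758633830441855313180351787840291640993492338556187090073107670080856686785135910503393497443538986949656594056082754943110338348684330577308781371088298363712139378314393151009510364626580103250661573332448565237297347463812068676293034143429131965444087293222015568409296207027387745164383114851449994471814957240926481318637914425191099325948954307690397112192090277967721335211244971830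182827889870301562986569980806292355080712719570510553571841763087287735080188227059592346498561996373501735225058154902519185289505065585850862525033372632302855193604821194684800709735093399466889393385782204098061767550911255814426312368553025115880426658149157524990604093742868782445651248991751680396670398407151322586028485311578047279742410449983729287575601392949127145119166230475305590886969423073699755017758758153891215300603885431350782524909315995490448303745284809997246404258474753876343832022915790204949317602761341809326928335193874794398968129222902913740763078511211677531848412430626524701176014740517351688089186031928018609455332310847021366692580018874986093788465716698647897434156579780666964225823150725270461174287875390205697299577414923917960925350845900740592919403751129869030893325714225657311809429392157649986404591184656362144760581524910729970610760283024543298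902225404038083929344709385958424429929863316165459675419887242672141134508267298179158532972196570034874133567970219325888877434912926772019388132261243348039610576967573926228683314449005476995526380306735628765107112563946194628550091485837258015507981787035908103747314044191506483549997522838542395813168446222920642655967277189887451540032228023744093882632280481187869785186270958883851329514508053755809843553020015153976881384351924267125201014488043397443917877999251626121328333447877121653117483910535119080253006527738159568610740384130574479575169909920857816836988566819147265793194885248962526121219795857091022433432661844467833529979411508067060193706677776267645497903056756965127038081607781622735157880280969513316824590531087591238942318134377302607826488098860626406241882566412680457971829323718774503050293572760526821977671978384335986474836166507824915886066244206547228180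548262499466234432812360105554507293167984387080336955493915879706023806697751444475428943579979179075262187702886682351758543736662214884808030211242306787822104383843089416164200173597893820380144383039967226399606775056407599448092577351211549972848268483814916647355518244727816386905482197622122921111425328843951538532715404261058159487664829192933940567774755915881016900604657029358323210693858925255373564629465406772741391907215708715082859403019643027812798219407689481242816616860668370865478417007351291953367769895921461842753817427534019614070422951672207565209162200455581564689555140873717625821334288374610307514181378447330326195016114783808489775238151437037003049661325779626746652792141950518923103400738750890071972621880658240331341052180547411976003956450358467340109180210441055042964184730522930732647624030505806224572382359453374212660085543509165944577991262605289209876222919175473416188115755821224911962112)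

noncomputable def rc0 : Nat := (nat_lit 206119248448985437934316430325100908903877222010361983965983464858187627445441949056360218309222056346447230232299039824437799858460739084039642234430131436287747735328736505055406247627031092805144542918168802818695323575288500379280876601188022222650231879797755715701538748881199499609129996699330325289093800809474727650078445276657600201333908218816047533729764478051787781861737794955224055900407692831526946973650227663938600620955294505154792183091266282117877947761266070654285507254170792325142050369944626940658914938778303229858165717657494760551588891094981547685644986431264487499130000044449446871094123518439556498185426906802198074456393604612056102747273343997695194445626063276547438348154917732574667681896947964405640195564811630320501133469255099868388090784824937079200832341968470891217561247078197221225686687036656010237537014901832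774013453353368842681443633104047181375034348118478952213633833611160482444451175709469436883760926459281061961262646074786508590737552220186856418547345803412210796309733172608224581123868092289050511778509519104194337234152925259636506528396846989997344902671019934799309503874568563819459910887200179535656947899159064062059849716388132384971026878749304444485009156569200409671347896660383357175112964558421785713411786016993266748823985238379279601381642343856727539533946930576405069704492784357403339827976023964022587649554103327872762592936136046938200675950522503811853148402903837977066417651821702232919350930908315212890497702939933998315640528675815792512682765065078883570576274879314984198120628653020924400781772996312069989157369919524148008730649380677707670210459246984587314523764557512501933927369511467760150836841608283374129001749477600009093063834805038843779669696661125850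094232728615161888767061509068221461894210896024568675495302451521617234987441368256653390030130627169206258535303219453493789529074812305368759810072660727469491396382016235938285372052815468351380474989672124772493663724446626626104279744681029831219339286255007230345324964477916712968128058476561943694498336237097228298283670927065951577989141847961559942581412462058596892369201175197965838179742702335067917501411784344225326890669235049750437279566286819479620471742160637365226885617417891805471410559326414642734980710154803129224891581692150745865974438052713132862326045883072695062317601910192861926641693026755762215381012081607511420772620340613512895503434903696667469877056060556276049117540459627335990306354317099638173448403110342288980002321862200565359839991248843870352183888861924691378801735379789243475338712682066154458964269274337331754513034654241456262524846228428395547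174030001634039253300836643879490452270644484333632285689005139876486036305841481854498986495595941784858853895273610693755524855958265266337881381694883051082673201473155245411141535419848072370435239254087050243139426479814562461065692390048016727560203048713886083176136638408191363245390173875503499231403557159303391453029519214244518891374317736197452353553737789460847070583659289143012715339372197090321646714732628115090818638032868636898450703843354471294458241557615805961186342566705386166918262626179628082363425715150058955271387094292597034281104415220417999963023814280632819429476199716792133386665919179100660091116552097069378774127625323706819621940502235833899865678557699988944049130195633673707512653258987769998581469111760727076965582984471642933897023074406962359482487314339586526213304001669959171077957588584638662516219789263816873547049534241172495778041083904391583761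029070086392863547553123747657807926236155505233181266888887538965484896603998742514512857030498756257907375392551403296152941727186314650252327665461762263479703178746977364095678583255789281604905965418063360523435018069522118991290307323470494553860813502136472801255600265705387338704749094125906655845421289639326648694956503233258184444730002937096221556627286389905511395577256397208972013538339928744946753132116792468385951418967023739281245924056305644900754645028975606901034832027867799550528097868740829811852053962420146676377644015462131535804854513526014611462487695679247301911519818284046848949620568846317787541208223864432439131595090952914197807380867856160723708542321393130110637795078236024854406651659118270944754525765852720700856622225094677446220417397588000985261342814529173259991403846982045622442930625417194804211526279186385805222277848563073785431862949520179937161164430521580347665887836107299081945088)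

noncomputable def rc1 : Nat := (nat_lit 317276150434346505561558874716841186250059575962565964246739591533432618961865979069021953065766776604049663759533929585141148831413459060549569836636529497952802357507640646203655555047532858527812161167263878676980060607982359886339728156379697060537143872278594323303527350557751129870456850374844341107580463226661288444298115420891007513733674313399074596268100620967566946525529880429485240392731746579246636273657626108198496270803903446514711617317576374020274155837300824289945630491826552143845336121776935293707790588295209615296022973116168253853021424406823729378828792324330458195460626786164221284652443069060872399748757885971259007640201738569840752124078310725745861109814324538392660674121714170779367311645159836032240558041369443526096078145857918289003965765721607135438658881563401585146203421486780849971385847667283561745362290090976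707468423466694920985448945993659949465670027721749951040574062405048363529836701872477097116625141541760692279227750233512404797276899925145380868943652476105679888820813290171132059606236637089702183299582165850042762851121554517375800815891064416965462542017136646686548161808469852058824937310510508073835817644368520502342500387653567472529125314119282511251872186666582883987913413313309316654399196082265129684844262160964372110339303901267907948745975753736015183418844935781030140768879947289602590672117529841765064354305495168305811390541968023051117649296843074722057323314684189434471252732356907046531644384591194134984052610594070548357149019569881078097692937820889414934353090572478874086975948828350029592374591402586425990714677434532311886805056166035640343987424120565736321622477603765829786146092960096386944076264016060270198694546875208584882419439470418325093999291115392494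732582958920226825885026857676265970161494753784602950408301458407437778881848729046025246561457000178686411809735090155982048255759421189578751498791922550445281250734151309571208818070657045288358961727239803664609897139957623495064599748636832403803523948403015369222668406127790893901874224220088491120053231036700174774444490826100891497616083975738407051924121811698134988764570470529187600125658271027657864042695624460187283743821444430973064598536564149458010360575611046586504524172917183767703776256861084125204958761022105023776403077180123036082119048523010604683917861545255843432243362116519816640611029606418284074668394229837280475062228694003335784850770765161815647455556197453764383457767030604522757707253871863127981721384626693687643802328840961479875955818496419335775205490696378022067120842843895572165878215482022489365382645751612222524594781315903801858256235713753036377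164539995815925533534243238086823182000222448415984536568854966122824186256965961321464813223393158300054732015577206021128442900044292193097305481023499825990521416291035580952022393801529898354818187718026613151591817492490002993679621495897629432008672932063468984885788608180264076455789290309486114921145271755169930143735359455531973677111894051921535778885657237708701086366378107441438550571048954736990436545587713006279813247687001490435922098521544726673725530729858661707324284528358066703542135711379107515037754453071895237489005902867534469049404364502798582995891859147209844404656185596637787441551289323867423989141598669195620598268320403369630942352917087842986526557204029155559463803030505448926311159856108873367251876664061283841191087404425247560081397713187126985536221922151586767239348675711436440336594824940565652279760307528935071311148443927747281642377346379922835543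638099872853940143626350903858668810959108957599781179696870322506496895329298969212576678416767231913608106488407341731293808994061869091131870643877388337545436666483104349378716325627336629053082479806883435294203452765372892524193120617259865688484825874489497130566013059280882691470251599126278809422067259317477186137651347493323319859438659842605888241763912724911322005325346457238662934298413661910600016092397845710798010092155057642567903143835310637342659213427640397750948107922104317376256412767211168377080450998157423587326639263745093589660417483675603909513569995188819540543686187156292308731232185166449692558921931537544689891783153147951146305380840877591930155975008329171669752967259126792434957289435029101025080936474328327118133427042795638440212113120924120672351431503303487012541304029984760241422084723401576396467100219800992866514497077054350425190130118992353876479622662768683257096706142373902188281856)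

noncomputable def rc2 : Nat := (nat_lit 351723870587198632555592780218161674935010626487335307001654194424688700836953189430618468208451854195143324969410425705721190094770166650044426210882706188150080947183534446930867202620819973503435955948204407004521870967180647129919696019826701751002922387867866598549246236016588113712872610197590923921967619286410110615339794513475559110085320316349158607189324288181637783099297484586007324652397680373072506484707835876520744431541539896718279661784969498863684030261883142420829714608488677146611048035213452827982907649943010187916887052319693693718477821271421955416806302516296918756392204356671473385577332831965990599954645648299221960558778991080160435973897441278529334045169755118927159679086771460791076792559756981406682430796906149895863679966258257498045381562842169350152583892581238513966713738834625617428422195421279734844338035168344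314419366968439968480207671918501241918172982095369673068078067426204850581751006568439380186030715895811923394545445234464608427092181312016118826607562286105337923797865047612870018142314985581264464112086873871530313132581751775036333399632294077024895739784723054093216066429076617156351028574440650628582706467226974108572756786489444997723880376706708590653121294231544481845405746417957439109801178323414916716766375150620461964426317810718055125292075035693043604759449215011287845796595705839654502820758633830441855313180351787840291640993492338556187090073107670080856686785135910503393497443538986949656594056082754943110338348684330577308781371088298363712139378314393151009510364626580103250661573332448565237297347463812068676293034143429131965444087293222015568409296207027387745164383114851449994471814957240926481318637914425191099325948954307690397112192090277967721335211244971830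182827889870301562986569980806292355080712719570510553571841763087287735080188227059592346498561996373501735225058154902519185289505065585850862525033372632302855193604821194684800709735093399466889393385782204098061767550911255814426312368553025115880426658149157524990604093742868782445651248991751680396670398407151322586028485311578047279742410449983729287575601392949127145119166230475305590886969423073699755017758758153891215300603885431350782524909315995490448303745284809997246404258474753876343832022915790204949317602761341809326928335193874794398968129222902913740763078511211677531848412430626524701176014740517351688089186031928018609455332310847021366692580018874986093788465716698647897434156579780666964225823150725270461174287875390205697299577414923917960925350845900740592919403751129869030893325714225657311809429392157649986404591184656362144760581524910729970610760283024543298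902225404038083929344709385958424429929863316165459675419887242672141134508267298179158532972196570034874133567970219325888877434912926772019388132261243348039610576967573926228683314449005476995526380306735628765107112563946194628550091485837258015507981787035908103747314044191506483549997522838542395813168446222920642655967277189887451540032228023744093882632280481187869785186270958883851329514508053755809843553020015153976881384351924267125201014488043397443917877999251626121328333447877121653117483910535119080253006527738159568610740384130574479575169909920857816836988566819147265793194885248962526121219795857091022433432661844467833529979411508067060193706677776267645497903056756965127038081607781622735157880280969513316824590531087591238942318134377302607826488098860626406241882566412680457971829323718774503050293572760526821977671978384335986474836166507824915886066244206547228180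548262499466234432812360105554507293167984387080336955493915879706023806697751444475428943579979179075262187702886682351758543736662214884808030211242306787822104383843089416164200173597893820380144383039967226399606775056407599448092577351211549972848268483814916647355518244727816386905482197622122921111425328843951538532715404261058159487664829192933940567774755915881016900604657029358323210693858925255373564629465406772741391907215708715082859403019643027812798219407689481242816616860668370865478417007351291953367769895921461842753817427534019614070422951672207565209162200455581564689555140873717625821334288374610307514181378447330326195016114783808489775238151437037003049661325779626746652792141950518923103400738750890071972621880658240331341052180547411976003956450358467340109180210441055042964184730522930732647624030505806224572382359453374212660085543509165944577991262605289209876222919175473416188115755821224911962112)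

end Vale.Agent.Lib.P154.Chain.D7.S1
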