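import Vale.Agent.Lib.P154.Chain.D7.R1_2

set_option linter.all false

namespace Vale.Agent.Lib.P154.Chain.D7.S2

noncomputable def pc0 : PT := (PT.nd (nat_lit 1085982) (PT.nd (nat_lit 977788) (PT.nd (nat_lit 869876) (PT.nd (nat_lit 815826) (PT.nd (nat_lit 221746) (PT.nd (nat_lit 167790) PT.nil (PT.lf (nat_lit 84) (nat_lit 3) (nat_lit 1) (nat_lit 1) (nat_lit 60) (nat_lit 3) (nat_lit 60))) (PT.nd (nat_lit 94) (PT.lf (nat_lit 168) (nat_lit 6) (nat_lit 2) (nat_lit 3) (nat_lit 59) (nat_lit 4) (nat_lit 60)) (PT.lf (nat_lit 168) (nat_lit 6) (nat_lit 2) (nat_lit 1) (nat_lit 60) (nat_lit 4) (nat_lit 59)))) (PT.nd (nat_lit 53862) (PT.lf (nat_lit 2268) (nat_lit 3) (nat_lit 27) (nat_lit 1) (nat_lit 54) (nat_lit 15) (nat_lit 54)) (PT.nd (nat_lit 94) (PT.lf (nat_lit 2436) (nat_lit 6) (nat_lit 29) (nat_lit 3) (nat_lit 52) (nat_lit 16) (nat_lit 55)) (PT.lf (nat_lit 2520) (nat_lit 6) (nat_lit 30) (nat_lit 3) (nat_lit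 53) (nat_lit 16) (nat_lit 54))))) (PT.nd (nat_lit 53956) (PT.nd (nat_lit 94) (PT.lf (nat_lit 2520) (nat_lit 6) (nat_lit 30) (nat_lit 1) (nat_lit 54) (nat_lit 16) (nat_lit 53)) (PT.nd (nat_lit 53768) (PT.lf (nat_lit 2436) (nat_lit 6) (nat_lit 29) (nat_lit 1) (nat_lit 55) (nat_lit 16) (nat_lit 52)) (PT.lf (nat_lit 2772) (nat_lit 6) (nat_lit 33) (nat_lit 3) (nat_lit 52) (nat_lit 17) (nat_lit 54)))) (PT.nd (nat_lit 94) (PT.lf (nat_lit 2856) (nat_lit 3) (nat_lit 34) (nat_lit 1) (nat_lit 53) (nat_lit 17) (nat_lit 53)) (PT.nd (nat_lit 53768) (PT.lf (nat_lit 2772) (nat_lit 6) (nat_lit 33) (nat_lit 1) (nat_lit 54) (nat_lit 17) (nat_lit 52)) (PT.lf (nat_lit 3108) (nat_lit 6) (nat_lit 37) (nat_lit 3) (nat_lit 51) (nat_lit 18) (nat_lit 54)))))) (PT.nd (nat_lit 54144) (PT.nd (nat_lit 53862) (PT.nd (nat_lit 94) (PT.lf (nat_lit 3192) (nat_lit 6) (nat_lit 38) (nat_lit 3) (nat_lit 52) (nat_lit 18) (nat_lit 53))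 (PT.nd (nat_lit 94) (PT.lf (nat_lit 3192) (nat_lit 6) (nat_lit 38) (nat_lit 1) (nat_lit 53) (nat_lit 18) (nat_lit 52)) (PT.lf (nat_lit 3108) (nat_lit 6) (nat_lit 37) (nat_lit 1) (nat_lit 54) (nat_lit 18) (nat_lit 51)))) (PT.nd (nat_lit 94) (PT.lf (nat_lit 3360) (nat_lit 6) (nat_lit 40) (nat_lit 3) (nat_lit 50) (nat_lit 19) (nat_lit 54)) (PT.nd (nat_lit 94) (PT.lf (nat_lit 3444) (nat_lit 6) (nat_lit 41) (nat_lit 3) (nat_lit 51) (nat_lit 19) (nat_lit 53)) (PT.lf (nat_lit 3528) (nat_lit 3) (nat_lit 42) (nat_lit 1) (nat_lit 52) (nat_lit 19) (nat_lit 52))))) (PT.nd (nat_lit 53768) (PT.nd (nat_lit 94) (PT.lf (nat_lit 3444) (nat_lit 6) (nat_lit 41) (nat_lit 1) (nat_lit 53) (nat_lit 19) (nat_lit 51)) (PT.nd (nat_lit 53580) (PT.lf (nat_lit 3360) (nat_lit 6) (nat_lit 40) (nat_lit 1) (nat_lit 54) (nat_lit 19) (nat_lit 50)) (PT.lf (nat_lit 3696) (nat_lit 6) (nat_lit 44) (nat_lit 3) (nat_lit 49) (nat_lit 20)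 (nat_lit 54)))) (PT.nd (nat_lit 94) (PT.lf (nat_lit 3780) (nat_lit 6) (nat_lit 45) (nat_lit 3) (nat_lit 50) (nat_lit 20) (nat_lit 53)) (PT.nd (nat_lit 94) (PT.lf (nat_lit 3864) (nat_lit 6) (nat_lit 46) (nat_lit 3) (nat_lit 51) (nat_lit 20) (nat_lit 52)) (PT.lf (nat_lit 3864) (nat_lit 6) (nat_lit 46) (nat_lit 1) (nat_lit 52) (nat_lit 20) (nat_lit 51))))))) (PT.nd (nat_lit 107818) (PT.nd (nat_lit 53956) (PT.nd (nat_lit 53674) (PT.nd (nat_lit 94) (PT.lf (nat_lit 3780) (nat_lit 6) (nat_lit 45) (nat_lit 1) (nat_lit 53) (nat_lit 20) (nat_lit 50)) (PT.nd (nat_lit 53486) (PT.lf (nat_lit 3696) (nat_lit 6) (nat_lit 44) (nat_lit 1) (nat_lit 54) (nat_lit 20) (nat_lit 49)) (PT.lf (nat_lit 4032) (nat_lit 6) (nat_lit 48) (nat_lit 3) (nat_lit 48) (nat_lit 21) (nat_lit 54)))) (PT.nd (nat_lit 94) (PT.lf (nat_lit 4116) (nat_lit 6) (nat_lit 49) (nat_lit 3) (nat_lit 49) (nat_lit 21) (nat_lit 53)) (PT.nd (nat_lit 94)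 (PT.lf (nat_lit 4200) (nat_lit 6) (nat_lit 50) (nat_lit 3) (nat_lit 50) (nat_lit 21) (nat_lit 52)) (PT.lf (nat_lit 4284) (nat_lit 3) (nat_lit 51) (nat_lit 1) (nat_lit 51) (nat_lit 21) (nat_lit 51))))) (PT.nd (nat_lit 53580) (PT.nd (nat_lit 94) (PT.lf (nat_lit 4200) (nat_lit 6) (nat_lit 50) (nat_lit 1) (nat_lit 52) (nat_lit 21) (nat_lit 50)) (PT.nd (nat_lit 94) (PT.lf (nat_lit 4116) (nat_lit 6) (nat_lit 49) (nat_lit 1) (nat_lit 53) (nat_lit 21) (nat_lit 49)) (PT.lf (nat_lit 4032) (nat_lit 6) (nat_lit 48) (nat_lit 1) (nat_lit 54) (nat_lit 21) (nat_lit 48)))) (PT.nd (nat_lit 94) (PT.lf (nat_lit 4452) (nat_lit 6) (nat_lit 53) (nat_lit 3) (nat_lit 47) (nat_lit 22) (nat_lit 54)) (PT.nd (nat_lit 94) (PT.lf (nat_lit 4536) (nat_lit 6) (nat_lit 54) (nat_lit 3) (nat_lit 48) (nat_lit 22) (nat_lit 53)) (PT.lf (nat_lit 4620) (nat_lit 6) (nat_lit 55) (nat_lit 3) (nat_lit 49) (nat_lit 22) (nat_lit 52)))))) (PT.nd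 (nat_lit 53768) (PT.nd (nat_lit 282) (PT.nd (nat_lit 94) (PT.lf (nat_lit 4704) (nat_lit 6) (nat_lit 56) (nat_lit 3) (nat_lit 50) (nat_lit 22) (nat_lit 51)) (PT.nd (nat_lit 94) (PT.lf (nat_lit 4704) (nat_lit 6) (nat_lit 56) (nat_lit 1) (nat_lit 51) (nat_lit 22) (nat_lit 50)) (PT.lf (nat_lit 4620) (nat_lit 6) (nat_lit 55) (nat_lit 1) (nat_lit 52) (nat_lit 22) (nat_lit 49)))) (PT.nd (nat_lit 94) (PT.lf (nat_lit 4536) (nat_lit 6) (nat_lit 54) (nat_lit 1) (nat_lit 53) (nat_lit 22) (nat_lit 48)) (PT.nd (nat_lit 53298) (PT.lf (nat_lit 4452) (nat_lit 6) (nat_lit 53) (nat_lit 1) (nat_lit 54) (nat_lit 22) (nat_lit 47)) (PT.lf (nat_lit 4788) (nat_lit 6) (nat_lit 57) (nat_lit 3) (nat_lit 46) (nat_lit 23) (nat_lit 54))))) (PT.nd (nat_lit 282) (PT.nd (nat_lit 94) (PT.lf (nat_lit 4872) (nat_lit 6) (nat_lit 58) (nat_lit 3) (nat_lit 47) (nat_lit 23) (nat_lit 53)) (PT.nd (nat_lit 94) (PT.lf (nat_lit 4956) (nat_lit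 6) (nat_lit 59) (nat_lit 3) (nat_lit 48) (nat_lit 23) (nat_lit 52)) (PT.lf (nat_lit 5040) (nat_lit 6) (nat_lit 60) (nat_lit 3) (nat_lit 49) (nat_lit 23) (nat_lit 51)))) (PT.nd (nat_lit 94) (PT.lf (nat_lit 5124) (nat_lit 3) (nat_lit 61) (nat_lit 1) (nat_lit 50) (nat_lit 23) (nat_lit 50)) (PT.nd (nat_lit 94) (PT.lf (nat_lit 5040) (nat_lit 6) (nat_lit 60) (nat_lit 1) (nat_lit 51) (nat_lit 23) (nat_lit 49)) (PT.lf (nat_lit 4956) (nat_lit 6) (nat_lit 59) (nat_lit 1) (nat_lit 52) (nat_lit 23) (nat_lit 48))))))))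
noncomputable def pc1 : PT := (PT.nd (nat_lit 161586) (PT.nd (nat_lit 107348) (PT.nd (nat_lit 53674) (PT.nd (nat_lit 53392) (PT.nd (nat_lit 94) (PT.lf (nat_lit 4872) (nat_lit 6) (nat_lit 58) (nat_lit 1) (nat_lit 53) (nat_lit 23) (nat_lit 47)) (PT.nd (nat_lit 53204) (PT.lf (nat_lit 4788) (nat_lit 6) (nat_lit 57) (nat_lit 1) (nat_lit 54) (nat_lit 23) (nat_lit 46)) (PT.lf (nat_lit 5208) (nat_lit 6) (nat_lit 62) (nat_lit 3) (nat_lit 45) (nat_lit 24) (nat_lit 54)))) (PT.nd (nat_lit 94) (PT.lf (nat_lit 5292) (nat_lit 6) (nat_lit 63) (nat_lit 3) (nat_lit 46) (nat_lit 24) (nat_lit 53)) (PT.nd (nat_lit 94) (PT.lf (nat_lit 5376) (nat_lit 6) (nat_lit 64) (nat_lit 3) (nat_lit 47) (nat_lit 24) (nat_lit 52)) (PT.lf (nat_lit 5460) (nat_lit 6) (nat_lit 65) (nat_lit 3) (nat_lit 48) (nat_lit 24) (nat_lit 51))))) (PT.nd (nat_lit 282) (PT.nd (nat_lit 94) (PT.lf (nat_lit 5544) (nat_lit 6) (nat_lit 66) (nat_lit 3) (nat_lit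 49) (nat_lit 24) (nat_lit 50)) (PT.nd (nat_lit 94) (PT.lf (nat_lit 5544) (nat_lit 6) (nat_lit 66) (nat_lit 1) (nat_lit 50) (nat_lit 24) (nat_lit 49)) (PT.lf (nat_lit 5460) (nat_lit 6) (nat_lit 65) (nat_lit 1) (nat_lit 51) (nat_lit 24) (nat_lit 48)))) (PT.nd (nat_lit 94) (PT.lf (nat_lit 5376) (nat_lit 6) (nat_lit 64) (nat_lit 1) (nat_lit 52) (nat_lit 24) (nat_lit 47)) (PT.nd (nat_lit 94) (PT.lf (nat_lit 5292) (nat_lit 6) (nat_lit 63) (nat_lit 1) (nat_lit 53) (nat_lit 24) (nat_lit 46)) (PT.lf (nat_lit 5208) (nat_lit 6) (nat_lit 62) (nat_lit 1) (nat_lit 54) (nat_lit 24) (nat_lit 45)))))) (PT.nd (nat_lit 564) (PT.nd (nat_lit 282) (PT.nd (nat_lit 94) (PT.lf (nat_lit 5712) (nat_lit 6) (nat_lit 68) (nat_lit 3) (nat_lit 45) (nat_lit 25) (nat_lit 53)) (PT.nd (nat_lit 94) (PT.lf (nat_lit 5796) (nat_lit 6) (nat_lit 69) (nat_lit 3) (nat_lit 46) (nat_lit 25) (nat_lit 52)) (PT.lf (nat_lit 5880) (nat_lit 6) (nat_lit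 70) (nat_lit 3) (nat_lit 47) (nat_lit 25) (nat_lit 51)))) (PT.nd (nat_lit 94) (PT.lf (nat_lit 5964) (nat_lit 6) (nat_lit 71) (nat_lit 3) (nat_lit 48) (nat_lit 25) (nat_lit 50)) (PT.nd (nat_lit 94) (PT.lf (nat_lit 6048) (nat_lit 3) (nat_lit 72) (nat_lit 1) (nat_lit 49) (nat_lit 25) (nat_lit 49)) (PT.lf (nat_lit 5964) (nat_lit 6) (nat_lit 71) (nat_lit 1) (nat_lit 50) (nat_lit 25) (nat_lit 48))))) (PT.nd (nat_lit 53392) (PT.nd (nat_lit 94) (PT.lf (nat_lit 5880) (nat_lit 6) (nat_lit 70) (nat_lit 1) (nat_lit 51) (nat_lit 25) (nat_lit 47)) (PT.nd (nat_lit 94) (PT.lf (nat_lit 5796) (nat_lit 6) (nat_lit 69) (nat_lit 1) (nat_lit 52) (nat_lit 25) (nat_lit 46)) (PT.lf (nat_lit 5712) (nat_lit 6) (nat_lit 68) (nat_lit 1) (nat_lit 53) (nat_lit 25) (nat_lit 45)))) (PT.nd (nat_lit 94) (PT.lf (nat_lit 6216) (nat_lit 6) (nat_lit 74) (nat_lit 3) (nat_lit 44) (nat_lit 26) (nat_lit 53)) (PT.nd (nat_lit 94) (PT.lf (nat_lit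 6300) (nat_lit 6) (nat_lit 75) (nat_lit 3) (nat_lit 45) (nat_lit 26) (nat_lit 52)) (PT.lf (nat_lit 6384) (nat_lit 6) (nat_lit 76) (nat_lit 3) (nat_lit 46) (nat_lit 26) (nat_lit 51))))))) (PT.nd (nat_lit 54144) (PT.nd (nat_lit 564) (PT.nd (nat_lit 282) (PT.nd (nat_lit 94) (PT.lf (nat_lit 6468) (nat_lit 6) (nat_lit 77) (nat_lit 3) (nat_lit 47) (nat_lit 26) (nat_lit 50)) (PT.nd (nat_lit 94) (PT.lf (nat_lit 6552) (nat_lit 6) (nat_lit 78) (nat_lit 3) (nat_lit 48) (nat_lit 26) (nat_lit 49)) (PT.lf (nat_lit 6552) (nat_lit 6) (nat_lit 78) (nat_lit 1) (nat_lit 49) (nat_lit 26) (nat_lit 48)))) (PT.nd (nat_lit 94) (PT.lf (nat_lit 6468) (nat_lit 6) (nat_lit 77) (nat_lit 1) (nat_lit 50) (nat_lit 26) (nat_lit 47)) (PT.nd (nat_lit 94) (PT.lf (nat_lit 6384) (nat_lit 6) (nat_lit 76) (nat_lit 1) (nat_lit 51) (nat_lit 26) (nat_lit 46)) (PT.lf (nat_lit 6300) (nat_lit 6) (nat_lit 75) (nat_lit 1) (nat_lit 52) (nat_lit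 26) (nat_lit 45))))) (PT.nd (nat_lit 53298) (PT.nd (nat_lit 53110) (PT.lf (nat_lit 6216) (nat_lit 6) (nat_lit 74) (nat_lit 1) (nat_lit 53) (nat_lit 26) (nat_lit 44)) (PT.nd (nat_lit 94) (PT.lf (nat_lit 6720) (nat_lit 6) (nat_lit 80) (nat_lit 3) (nat_lit 43) (nat_lit 27) (nat_lit 53)) (PT.lf (nat_lit 6804) (nat_lit 6) (nat_lit 81) (nat_lit 3) (nat_lit 44) (nat_lit 27) (nat_lit 52)))) (PT.nd (nat_lit 94) (PT.lf (nat_lit 6888) (nat_lit 6) (nat_lit 82) (nat_lit 3) (nat_lit 45) (nat_lit 27) (nat_lit 51)) (PT.nd (nat_lit 94) (PT.lf (nat_lit 6972) (nat_lit 6) (nat_lit 83) (nat_lit 3) (nat_lit 46) (nat_lit 27) (nat_lit 50)) (PT.lf (nat_lit 7056) (nat_lit 6) (nat_lit 84) (nat_lit 3) (nat_lit 47) (nat_lit 27) (nat_lit 49)))))) (PT.nd (nat_lit 53486) (PT.nd (nat_lit 282) (PT.nd (nat_lit 94) (PT.lf (nat_lit 7140) (nat_lit 3) (nat_lit 85) (nat_lit 1) (nat_lit 48) (nat_lit 27) (nat_lit 48)) (PT.nd (nat_lit 94)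 (PT.lf (nat_lit 7056) (nat_lit 6) (nat_lit 84) (nat_lit 1) (nat_lit 49) (nat_lit 27) (nat_lit 47)) (PT.lf (nat_lit 6972) (nat_lit 6) (nat_lit 83) (nat_lit 1) (nat_lit 50) (nat_lit 27) (nat_lit 46)))) (PT.nd (nat_lit 94) (PT.lf (nat_lit 6888) (nat_lit 6) (nat_lit 82) (nat_lit 1) (nat_lit 51) (nat_lit 27) (nat_lit 45)) (PT.nd (nat_lit 94) (PT.lf (nat_lit 6804) (nat_lit 6) (nat_lit 81) (nat_lit 1) (nat_lit 52) (nat_lit 27) (nat_lit 44)) (PT.lf (nat_lit 6720) (nat_lit 6) (nat_lit 80) (nat_lit 1) (nat_lit 53) (nat_lit 27) (nat_lit 43))))) (PT.nd (nat_lit 282) (PT.nd (nat_lit 94) (PT.lf (nat_lit 7308) (nat_lit 6) (nat_lit 87) (nat_lit 3) (nat_lit 42) (nat_lit 28) (nat_lit 53)) (PT.nd (nat_lit 94) (PT.lf (nat_lit 7392) (nat_lit 6) (nat_lit 88) (nat_lit 3) (nat_lit 43) (nat_lit 28) (nat_lit 52)) (PT.lf (nat_lit 7476) (nat_lit 6) (nat_lit 89) (nat_lit 3) (nat_lit 44) (nat_lit 28) (nat_lit 51)))) (PT.nd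 (nat_lit 94) (PT.lf (nat_lit 7560) (nat_lit 6) (nat_lit 90) (nat_lit 3) (nat_lit 45) (nat_lit 28) (nat_lit 50)) (PT.nd (nat_lit 94) (PT.lf (nat_lit 7644) (nat_lit 6) (nat_lit 91) (nat_lit 3) (nat_lit 46) (nat_lit 28) (nat_lit 49)) (PT.lf (nat_lit 7728) (nat_lit 6) (nat_lit 92) (nat_lit 3) (nat_lit 47) (nat_lit 28) (nat_lit 48))))))))
noncomputable def pc2 : PT := (PT.nd (nat_lit 107818) (PT.nd (nat_lit 53956) (PT.nd (nat_lit 53392) (PT.nd (nat_lit 282) (PT.nd (nat_lit 94) (PT.lf (nat_lit 7728) (nat_lit 6) (nat_lit 92) (nat_lit 1) (nat_lit 48) (nat_lit 28) (nat_lit 47)) (PT.nd (nat_lit 94) (PT.lf (nat_lit 7644) (nat_lit 6) (nat_lit 91) (nat_lit 1) (nat_lit 49) (nat_lit 28) (nat_lit 46)) (PT.lf (nat_lit 7560) (nat_lit 6) (nat_lit 90) (nat_lit 1) (nat_lit 50) (nat_lit 28) (nat_lit 45)))) (PT.nd (nat_lit 94) (PT.lf (nat_lit 7476) (nat_lit 6) (nat_lit 89) (nat_lit 1) (nat_lit 51) (nat_lit 28) (nat_lit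 44)) (PT.nd (nat_lit 94) (PT.lf (nat_lit 7392) (nat_lit 6) (nat_lit 88) (nat_lit 1) (nat_lit 52) (nat_lit 28) (nat_lit 43)) (PT.lf (nat_lit 7308) (nat_lit 6) (nat_lit 87) (nat_lit 1) (nat_lit 53) (nat_lit 28) (nat_lit 42))))) (PT.nd (nat_lit 282) (PT.nd (nat_lit 94) (PT.lf (nat_lit 8316) (nat_lit 6) (nat_lit 99) (nat_lit 3) (nat_lit 41) (nat_lit 29) (nat_lit 53)) (PT.nd (nat_lit 94) (PT.lf (nat_lit 8400) (nat_lit 6) (nat_lit 100) (nat_lit 3) (nat_lit 42) (nat_lit 29) (nat_lit 52)) (PT.lf (nat_lit 8484) (nat_lit 6) (nat_lit 101) (nat_lit 3) (nat_lit 43) (nat_lit 29) (nat_lit 51)))) (PT.nd (nat_lit 94) (PT.lf (nat_lit 8568) (nat_lit 6) (nat_lit 102) (nat_lit 3) (nat_lit 44) (nat_lit 29) (nat_lit 50)) (PT.nd (nat_lit 94) (PT.lf (nat_lit 8652) (nat_lit 6) (nat_lit 103) (nat_lit 3) (nat_lit 45) (nat_lit 29) (nat_lit 49)) (PT.lf (nat_lit 8736) (nat_lit 6) (nat_lit 104) (nat_lit 3) (nat_lit 46) (nat_lit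 29) (nat_lit 48)))))) (PT.nd (nat_lit 564) (PT.nd (nat_lit 282) (PT.nd (nat_lit 94) (PT.lf (nat_lit 8820) (nat_lit 3) (nat_lit 105) (nat_lit 1) (nat_lit 47) (nat_lit 29) (nat_lit 47)) (PT.nd (nat_lit 94) (PT.lf (nat_lit 8736) (nat_lit 6) (nat_lit 104) (nat_lit 1) (nat_lit 48) (nat_lit 29) (nat_lit 46)) (PT.lf (nat_lit 8652) (nat_lit 6) (nat_lit 103) (nat_lit 1) (nat_lit 49) (nat_lit 29) (nat_lit 45)))) (PT.nd (nat_lit 94) (PT.lf (nat_lit 8568) (nat_lit 6) (nat_lit 102) (nat_lit 1) (nat_lit 50) (nat_lit 29) (nat_lit 44)) (PT.nd (nat_lit 94) (PT.lf (nat_lit 8484) (nat_lit 6) (nat_lit 101) (nat_lit 1) (nat_lit 51) (nat_lit 29) (nat_lit 43)) (PT.lf (nat_lit 8400) (nat_lit 6) (nat_lit 100) (nat_lit 1) (nat_lit 52) (nat_lit 29) (nat_lit 42))))) (PT.nd (nat_lit 53016) (PT.nd (nat_lit 52828) (PT.lf (nat_lit 8316) (nat_lit 6) (nat_lit 99) (nat_lit 1) (nat_lit 53) (nat_lit 29) (nat_lit 41)) (PT.nd (nat_lit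 94) (PT.lf (nat_lit 8232) (nat_lit 6) (nat_lit 98) (nat_lit 3) (nat_lit 40) (nat_lit 30) (nat_lit 53)) (PT.lf (nat_lit 9324) (nat_lit 6) (nat_lit 111) (nat_lit 3) (nat_lit 41) (nat_lit 30) (nat_lit 52)))) (PT.nd (nat_lit 94) (PT.lf (nat_lit 9408) (nat_lit 6) (nat_lit 112) (nat_lit 3) (nat_lit 42) (nat_lit 30) (nat_lit 51)) (PT.nd (nat_lit 94) (PT.lf (nat_lit 9492) (nat_lit 6) (nat_lit 113) (nat_lit 3) (nat_lit 43) (nat_lit 30) (nat_lit 50)) (PT.lf (nat_lit 9576) (nat_lit 6) (nat_lit 114) (nat_lit 3) (nat_lit 44) (nat_lit 30) (nat_lit 49))))))) (PT.nd (nat_lit 53768) (PT.nd (nat_lit 564) (PT.nd (nat_lit 282) (PT.nd (nat_lit 94) (PT.lf (nat_lit 9660) (nat_lit 6) (nat_lit 115) (nat_lit 3) (nat_lit 45) (nat_lit 30) (nat_lit 48)) (PT.nd (nat_lit 94) (PT.lf (nat_lit 9744) (nat_lit 6) (nat_lit 116) (nat_lit 3) (nat_lit 46) (nat_lit 30) (nat_lit 47)) (PT.lf (nat_lit 9744) (nat_lit 6) (nat_lit 116) (nat_lit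 1) (nat_lit 47) (nat_lit 30) (nat_lit 46)))) (PT.nd (nat_lit 94) (PT.lf (nat_lit 9660) (nat_lit 6) (nat_lit 115) (nat_lit 1) (nat_lit 48) (nat_lit 30) (nat_lit 45)) (PT.nd (nat_lit 94) (PT.lf (nat_lit 9576) (nat_lit 6) (nat_lit 114) (nat_lit 1) (nat_lit 49) (nat_lit 30) (nat_lit 44)) (PT.lf (nat_lit 9492) (nat_lit 6) (nat_lit 113) (nat_lit 1) (nat_lit 50) (nat_lit 30) (nat_lit 43))))) (PT.nd (nat_lit 52922) (PT.nd (nat_lit 94) (PT.lf (nat_lit 9408) (nat_lit 6) (nat_lit 112) (nat_lit 1) (nat_lit 51) (nat_lit 30) (nat_lit 42)) (PT.nd (nat_lit 94) (PT.lf (nat_lit 9324) (nat_lit 6) (nat_lit 111) (nat_lit 1) (nat_lit 52) (nat_lit 30) (nat_lit 41)) (PT.lf (nat_lit 8232) (nat_lit 6) (nat_lit 98) (nat_lit 1) (nat_lit 53) (nat_lit 30) (nat_lit 40)))) (PT.nd (nat_lit 94) (PT.lf (nat_lit 8148) (nat_lit 6) (nat_lit 97) (nat_lit 3) (nat_lit 39) (nat_lit 31) (nat_lit 53)) (PT.nd (nat_lit 94) (PT.lf (nat_lit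 9240) (nat_lit 6) (nat_lit 110) (nat_lit 3) (nat_lit 40) (nat_lit 31) (nat_lit 52)) (PT.lf (nat_lit 10248) (nat_lit 6) (nat_lit 122) (nat_lit 3) (nat_lit 41) (nat_lit 31) (nat_lit 51)))))) (PT.nd (nat_lit 564) (PT.nd (nat_lit 282) (PT.nd (nat_lit 94) (PT.lf (nat_lit 10332) (nat_lit 6) (nat_lit 123) (nat_lit 3) (nat_lit 42) (nat_lit 31) (nat_lit 50)) (PT.nd (nat_lit 94) (PT.lf (nat_lit 10416) (nat_lit 6) (nat_lit 124) (nat_lit 3) (nat_lit 43) (nat_lit 31) (nat_lit 49)) (PT.lf (nat_lit 10500) (nat_lit 6) (nat_lit 125) (nat_lit 3) (nat_lit 44) (nat_lit 31) (nat_lit 48)))) (PT.nd (nat_lit 94) (PT.lf (nat_lit 10584) (nat_lit 6) (nat_lit 126) (nat_lit 3) (nat_lit 45) (nat_lit 31) (nat_lit 47)) (PT.nd (nat_lit 94) (PT.lf (nat_lit 10668) (nat_lit 3) (nat_lit 127) (nat_lit 1) (nat_lit 46) (nat_lit 31) (nat_lit 46)) (PT.lf (nat_lit 10584) (nat_lit 6) (nat_lit 126) (nat_lit 1) (nat_lit 47) (nat_lit 31) (nat_lit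 45))))) (PT.nd (nat_lit 282) (PT.nd (nat_lit 94) (PT.lf (nat_lit 10500) (nat_lit 6) (nat_lit 125) (nat_lit 1) (nat_lit 48) (nat_lit 31) (nat_lit 44)) (PT.nd (nat_lit 94) (PT.lf (nat_lit 10416) (nat_lit 6) (nat_lit 124) (nat_lit 1) (nat_lit 49) (nat_lit 31) (nat_lit 43)) (PT.lf (nat_lit 10332) (nat_lit 6) (nat_lit 123) (nat_lit 1) (nat_lit 50) (nat_lit 31) (nat_lit 42)))) (PT.nd (nat_lit 94) (PT.lf (nat_lit 10248) (nat_lit 6) (nat_lit 122) (nat_lit 1) (nat_lit 51) (nat_lit 31) (nat_lit 41)) (PT.nd (nat_lit 94) (PT.lf (nat_lit 9240) (nat_lit 6) (nat_lit 110) (nat_lit 1) (nat_lit 52) (nat_lit 31) (nat_lit 40)) (PT.lf (nat_lit 8148) (nat_lit 6) (nat_lit 97) (nat_lit 1) (nat_lit 53) (nat_lit 31) (nat_lit 39))))))))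
noncomputable def pc3 : PT := (PT.nd (nat_lit 54708) (PT.nd (nat_lit 1128) (PT.nd (nat_lit 564) (PT.nd (nat_lit 282) (PT.nd (nat_lit 94) (PT.lf (nat_lit 8064) (nat_lit 6) (nat_lit 96) (nat_lit 3) (nat_lit 38) (nat_lit 32) (nat_lit 53)) (PT.nd (nat_lit 94) (PT.lf (nat_lit 9156) (nat_lit 6) (nat_lit 109) (nat_lit 3) (nat_lit 39) (nat_lit 32) (nat_lit 52)) (PT.lf (nat_lit 10164) (nat_lit 6) (nat_lit 121) (nat_lit 3) (nat_lit 40) (nat_lit 32) (nat_lit 51)))) (PT.nd (nat_lit 94) (PT.lf (nat_lit 11088) (nat_lit 6) (nat_lit 132) (nat_lit 3) (nat_lit 41) (nat_lit 32) (nat_lit 50)) (PT.nd (nat_lit 94) (PT.lf (nat_lit 11172) (nat_lit 6) (nat_lit 133) (nat_lit 3) (nat_lit 42) (nat_lit 32) (nat_lit 49)) (PT.lf (nat_lit 11256) (nat_lit 6) (nat_lit 134) (nat_lit 3) (nat_lit 43) (nat_lit 32) (nat_lit 48))))) (PT.nd (nat_lit 282) (PT.nd (nat_lit 94) (PT.lf (nat_lit 11340) (nat_lit 6) (nat_lit 135) (nat_lit 3)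 (nat_lit 44) (nat_lit 32) (nat_lit 47)) (PT.nd (nat_lit 94) (PT.lf (nat_lit 11424) (nat_lit 6) (nat_lit 136) (nat_lit 3) (nat_lit 45) (nat_lit 32) (nat_lit 46)) (PT.lf (nat_lit 11424) (nat_lit 6) (nat_lit 136) (nat_lit 1) (nat_lit 46) (nat_lit 32) (nat_lit 45)))) (PT.nd (nat_lit 94) (PT.lf (nat_lit 11340) (nat_lit 6) (nat_lit 135) (nat_lit 1) (nat_lit 47) (nat_lit 32) (nat_lit 44)) (PT.nd (nat_lit 94) (PT.lf (nat_lit 11256) (nat_lit 6) (nat_lit 134) (nat_lit 1) (nat_lit 48) (nat_lit 32) (nat_lit 43)) (PT.lf (nat_lit 11172) (nat_lit 6) (nat_lit 133) (nat_lit 1) (nat_lit 49) (nat_lit 32) (nat_lit 42)))))) (PT.nd (nat_lit 53016) (PT.nd (nat_lit 282) (PT.nd (nat_lit 94) (PT.lf (nat_lit 11088) (nat_lit 6) (nat_lit 132) (nat_lit 1) (nat_lit 50) (nat_lit 32) (nat_lit 41)) (PT.nd (nat_lit 94) (PT.lf (nat_lit 10164) (nat_lit 6) (nat_lit 121) (nat_lit 1) (nat_lit 51) (nat_lit 32) (nat_lit 40)) (PT.lf (nat_lit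 9156) (nat_lit 6) (nat_lit 109) (nat_lit 1) (nat_lit 52) (nat_lit 32) (nat_lit 39)))) (PT.nd (nat_lit 52546) (PT.lf (nat_lit 8064) (nat_lit 6) (nat_lit 96) (nat_lit 1) (nat_lit 53) (nat_lit 32) (nat_lit 38)) (PT.nd (nat_lit 94) (PT.lf (nat_lit 7980) (nat_lit 6) (nat_lit 95) (nat_lit 3) (nat_lit 37) (nat_lit 33) (nat_lit 53)) (PT.lf (nat_lit 9072) (nat_lit 6) (nat_lit 108) (nat_lit 3) (nat_lit 38) (nat_lit 33) (nat_lit 52))))) (PT.nd (nat_lit 282) (PT.nd (nat_lit 94) (PT.lf (nat_lit 10080) (nat_lit 6) (nat_lit 120) (nat_lit 3) (nat_lit 39) (nat_lit 33) (nat_lit 51)) (PT.nd (nat_lit 94) (PT.lf (nat_lit 11004) (nat_lit 6) (nat_lit 131) (nat_lit 3) (nat_lit 40) (nat_lit 33) (nat_lit 50)) (PT.lf (nat_lit 11844) (nat_lit 6) (nat_lit 141) (nat_lit 3) (nat_lit 41) (nat_lit 33) (nat_lit 49)))) (PT.nd (nat_lit 94) (PT.lf (nat_lit 11928) (nat_lit 6) (nat_lit 142) (nat_lit 3) (nat_lit 42) (nat_lit 33) (nat_lit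 48)) (PT.nd (nat_lit 94) (PT.lf (nat_lit 12012) (nat_lit 6) (nat_lit 143) (nat_lit 3) (nat_lit 43) (nat_lit 33) (nat_lit 47)) (PT.lf (nat_lit 12096) (nat_lit 6) (nat_lit 144) (nat_lit 3) (nat_lit 44) (nat_lit 33) (nat_lit 46))))))) (PT.nd (nat_lit 53486) (PT.nd (nat_lit 564) (PT.nd (nat_lit 282) (PT.nd (nat_lit 94) (PT.lf (nat_lit 12180) (nat_lit 3) (nat_lit 145) (nat_lit 1) (nat_lit 45) (nat_lit 33) (nat_lit 45)) (PT.nd (nat_lit 94) (PT.lf (nat_lit 12096) (nat_lit 6) (nat_lit 144) (nat_lit 1) (nat_lit 46) (nat_lit 33) (nat_lit 44)) (PT.lf (nat_lit 12012) (nat_lit 6) (nat_lit 143) (nat_lit 1) (nat_lit 47) (nat_lit 33) (nat_lit 43)))) (PT.nd (nat_lit 94) (PT.lf (nat_lit 11928) (nat_lit 6) (nat_lit 142) (nat_lit 1) (nat_lit 48) (nat_lit 33) (nat_lit 42)) (PT.nd (nat_lit 94) (PT.lf (nat_lit 11844) (nat_lit 6) (nat_lit 141) (nat_lit 1) (nat_lit 49) (nat_lit 33) (nat_lit 41)) (PT.lf (nat_lit 11004)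 (nat_lit 6) (nat_lit 131) (nat_lit 1) (nat_lit 50) (nat_lit 33) (nat_lit 40))))) (PT.nd (nat_lit 52640) (PT.nd (nat_lit 94) (PT.lf (nat_lit 10080) (nat_lit 6) (nat_lit 120) (nat_lit 1) (nat_lit 51) (nat_lit 33) (nat_lit 39)) (PT.nd (nat_lit 94) (PT.lf (nat_lit 9072) (nat_lit 6) (nat_lit 108) (nat_lit 1) (nat_lit 52) (nat_lit 33) (nat_lit 38)) (PT.lf (nat_lit 7980) (nat_lit 6) (nat_lit 95) (nat_lit 1) (nat_lit 53) (nat_lit 33) (nat_lit 37)))) (PT.nd (nat_lit 94) (PT.lf (nat_lit 7896) (nat_lit 6) (nat_lit 94) (nat_lit 3) (nat_lit 36) (nat_lit 34) (nat_lit 53)) (PT.nd (nat_lit 94) (PT.lf (nat_lit 8988) (nat_lit 6) (nat_lit 107) (nat_lit 3) (nat_lit 37) (nat_lit 34) (nat_lit 52)) (PT.lf (nat_lit 9996) (nat_lit 6) (nat_lit 119) (nat_lit 3) (nat_lit 38) (nat_lit 34) (nat_lit 51)))))) (PT.nd (nat_lit 564) (PT.nd (nat_lit 282) (PT.nd (nat_lit 94) (PT.lf (nat_lit 10920) (nat_lit 6) (nat_lit 130) (nat_lit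 3) (nat_lit 39) (nat_lit 34) (nat_lit 50)) (PT.nd (nat_lit 94) (PT.lf (nat_lit 11760) (nat_lit 6) (nat_lit 140) (nat_lit 3) (nat_lit 40) (nat_lit 34) (nat_lit 49)) (PT.lf (nat_lit 12516) (nat_lit 6) (nat_lit 149) (nat_lit 3) (nat_lit 41) (nat_lit 34) (nat_lit 48)))) (PT.nd (nat_lit 94) (PT.lf (nat_lit 12600) (nat_lit 6) (nat_lit 150) (nat_lit 3) (nat_lit 42) (nat_lit 34) (nat_lit 47)) (PT.nd (nat_lit 94) (PT.lf (nat_lit 12684) (nat_lit 6) (nat_lit 151) (nat_lit 3) (nat_lit 43) (nat_lit 34) (nat_lit 46)) (PT.lf (nat_lit 12768) (nat_lit 6) (nat_lit 152) (nat_lit 3) (nat_lit 44) (nat_lit 34) (nat_lit 45))))) (PT.nd (nat_lit 282) (PT.nd (nat_lit 94) (PT.lf (nat_lit 12768) (nat_lit 6) (nat_lit 152) (nat_lit 1) (nat_lit 45) (nat_lit 34) (nat_lit 44)) (PT.nd (nat_lit 94) (PT.lf (nat_lit 12684) (nat_lit 6) (nat_lit 151) (nat_lit 1) (nat_lit 46) (nat_lit 34) (nat_lit 43)) (PT.lf (nat_lit 12600) (nat_lit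 6) (nat_lit 150) (nat_lit 1) (nat_lit 47) (nat_lit 34) (nat_lit 42)))) (PT.nd (nat_lit 188) (PT.nd (nat_lit 94) (PT.lf (nat_lit 12516) (nat_lit 6) (nat_lit 149) (nat_lit 1) (nat_lit 48) (nat_lit 34) (nat_lit 41)) (PT.lf (nat_lit 11760) (nat_lit 6) (nat_lit 140) (nat_lit 1) (nat_lit 49) (nat_lit 34) (nat_lit 40))) (PT.nd (nat_lit 94) (PT.lf (nat_lit 10920) (nat_lit 6) (nat_lit 130) (nat_lit 1) (nat_lit 50) (nat_lit 34) (nat_lit 39)) (PT.lf (nat_lit 9996) (nat_lit 6) (nat_lit 119) (nat_lit 1) (nat_lit 51) (nat_lit 34) (nat_lit 38))))))))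
noncomputable def pc4 : PT := (PT.nd (nat_lit 106690) (PT.nd (nat_lit 53392) (PT.nd (nat_lit 52828) (PT.nd (nat_lit 52546) (PT.nd (nat_lit 94) (PT.lf (nat_lit 8988) (nat_lit 6) (nat_lit 107) (nat_lit 1) (nat_lit 52) (nat_lit 34) (nat_lit 37)) (PT.nd (nat_lit 52358) (PT.lf (nat_lit 7896) (nat_lit 6) (nat_lit 94) (nat_lit 1) (nat_lit 53) (nat_lit 34) (nat_lit 36)) (PT.lf (nat_lit 7812) (nat_lit 3) (nat_lit 93) (nat_lit 3) (nat_lit 35) (nat_lit 35) (nat_lit 53)))) (PT.nd (nat_lit 94) (PT.lf (nat_lit 8904) (nat_lit 6) (nat_lit 106) (nat_lit 3) (nat_lit 36) (nat_lit 35) (nat_lit 52)) (PT.nd (nat_lit 94) (PT.lf (nat_lit 9912) (nat_lit 6) (nat_lit 118) (nat_lit 3) (nat_lit 37) (nat_lit 35) (nat_lit 51)) (PT.lf (nat_lit 10836) (nat_lit 6) (nat_lit 129) (nat_lit 3) (nat_lit 38) (nat_lit 35) (nat_lit 50))))) (PT.nd (nat_lit 282) (PT.nd (nat_lit 94) (PT.lf (nat_lit 11676) (nat_lit 6) (nat_lit 139) (nat_lit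 3) (nat_lit 39) (nat_lit 35) (nat_lit 49)) (PT.nd (nat_lit 94) (PT.lf (nat_lit 12432) (nat_lit 6) (nat_lit 148) (nat_lit 3) (nat_lit 40) (nat_lit 35) (nat_lit 48)) (PT.lf (nat_lit 13104) (nat_lit 6) (nat_lit 156) (nat_lit 3) (nat_lit 41) (nat_lit 35) (nat_lit 47)))) (PT.nd (nat_lit 94) (PT.lf (nat_lit 13188) (nat_lit 6) (nat_lit 157) (nat_lit 3) (nat_lit 42) (nat_lit 35) (nat_lit 46)) (PT.nd (nat_lit 94) (PT.lf (nat_lit 13272) (nat_lit 6) (nat_lit 158) (nat_lit 3) (nat_lit 43) (nat_lit 35) (nat_lit 45)) (PT.lf (nat_lit 13356) (nat_lit 3) (nat_lit 159) (nat_lit 1) (nat_lit 44) (nat_lit 35) (nat_lit 44)))))) (PT.nd (nat_lit 564) (PT.nd (nat_lit 282) (PT.nd (nat_lit 94) (PT.lf (nat_lit 13272) (nat_lit 6) (nat_lit 158) (nat_lit 1) (nat_lit 45) (nat_lit 35) (nat_lit 43)) (PT.nd (nat_lit 94) (PT.lf (nat_lit 13188) (nat_lit 6) (nat_lit 157) (nat_lit 1) (nat_lit 46) (nat_lit 35) (nat_lit 42)) (PT.lf (nat_lit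 13104) (nat_lit 6) (nat_lit 156) (nat_lit 1) (nat_lit 47) (nat_lit 35) (nat_lit 41)))) (PT.nd (nat_lit 94) (PT.lf (nat_lit 12432) (nat_lit 6) (nat_lit 148) (nat_lit 1) (nat_lit 48) (nat_lit 35) (nat_lit 40)) (PT.nd (nat_lit 94) (PT.lf (nat_lit 11676) (nat_lit 6) (nat_lit 139) (nat_lit 1) (nat_lit 49) (nat_lit 35) (nat_lit 39)) (PT.lf (nat_lit 10836) (nat_lit 6) (nat_lit 129) (nat_lit 1) (nat_lit 50) (nat_lit 35) (nat_lit 38))))) (PT.nd (nat_lit 52452) (PT.nd (nat_lit 94) (PT.lf (nat_lit 9912) (nat_lit 6) (nat_lit 118) (nat_lit 1) (nat_lit 51) (nat_lit 35) (nat_lit 37)) (PT.nd (nat_lit 94) (PT.lf (nat_lit 8904) (nat_lit 6) (nat_lit 106) (nat_lit 1) (nat_lit 52) (nat_lit 35) (nat_lit 36)) (PT.lf (nat_lit 7812) (nat_lit 3) (nat_lit 93) (nat_lit 0) (nat_lit 53) (nat_lit 35) (nat_lit 35)))) (PT.nd (nat_lit 94) (PT.lf (nat_lit 7896) (nat_lit 6) (nat_lit 94) (nat_lit 5) (nat_lit 34) (nat_lit 36) (nat_lit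 53)) (PT.nd (nat_lit 94) (PT.lf (nat_lit 8904) (nat_lit 6) (nat_lit 106) (nat_lit 5) (nat_lit 35) (nat_lit 36) (nat_lit 52)) (PT.lf (nat_lit 9828) (nat_lit 3) (nat_lit 117) (nat_lit 3) (nat_lit 36) (nat_lit 36) (nat_lit 51))))))) (PT.nd (nat_lit 1128) (PT.nd (nat_lit 564) (PT.nd (nat_lit 282) (PT.nd (nat_lit 94) (PT.lf (nat_lit 10752) (nat_lit 6) (nat_lit 128) (nat_lit 3) (nat_lit 37) (nat_lit 36) (nat_lit 50)) (PT.nd (nat_lit 94) (PT.lf (nat_lit 11592) (nat_lit 6) (nat_lit 138) (nat_lit 3) (nat_lit 38) (nat_lit 36) (nat_lit 49)) (PT.lf (nat_lit 12348) (nat_lit 6) (nat_lit 147) (nat_lit 3) (nat_lit 39) (nat_lit 36) (nat_lit 48)))) (PT.nd (nat_lit 94) (PT.lf (nat_lit 13020) (nat_lit 6) (nat_lit 155) (nat_lit 3) (nat_lit 40) (nat_lit 36) (nat_lit 47)) (PT.nd (nat_lit 94) (PT.lf (nat_lit 13608) (nat_lit 6) (nat_lit 162) (nat_lit 3) (nat_lit 41) (nat_lit 36) (nat_lit 46)) (PT.lf (nat_lit 13692) (nat_lit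 6) (nat_lit 163) (nat_lit 3) (nat_lit 42) (nat_lit 36) (nat_lit 45))))) (PT.nd (nat_lit 282) (PT.nd (nat_lit 94) (PT.lf (nat_lit 13776) (nat_lit 6) (nat_lit 164) (nat_lit 3) (nat_lit 43) (nat_lit 36) (nat_lit 44)) (PT.nd (nat_lit 94) (PT.lf (nat_lit 13776) (nat_lit 6) (nat_lit 164) (nat_lit 1) (nat_lit 44) (nat_lit 36) (nat_lit 43)) (PT.lf (nat_lit 13692) (nat_lit 6) (nat_lit 163) (nat_lit 1) (nat_lit 45) (nat_lit 36) (nat_lit 42)))) (PT.nd (nat_lit 94) (PT.lf (nat_lit 13608) (nat_lit 6) (nat_lit 162) (nat_lit 1) (nat_lit 46) (nat_lit 36) (nat_lit 41)) (PT.nd (nat_lit 94) (PT.lf (nat_lit 13020) (nat_lit 6) (nat_lit 155) (nat_lit 1) (nat_lit 47) (nat_lit 36) (nat_lit 40)) (PT.lf (nat_lit 12348) (nat_lit 6) (nat_lit 147) (nat_lit 1) (nat_lit 48) (nat_lit 36) (nat_lit 39)))))) (PT.nd (nat_lit 52640) (PT.nd (nat_lit 282) (PT.nd (nat_lit 94) (PT.lf (nat_lit 11592) (nat_lit 6) (nat_lit 138) (nat_lit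 1) (nat_lit 49) (nat_lit 36) (nat_lit 38)) (PT.nd (nat_lit 94) (PT.lf (nat_lit 10752) (nat_lit 6) (nat_lit 128) (nat_lit 1) (nat_lit 50) (nat_lit 36) (nat_lit 37)) (PT.lf (nat_lit 9828) (nat_lit 3) (nat_lit 117) (nat_lit 0) (nat_lit 51) (nat_lit 36) (nat_lit 36)))) (PT.nd (nat_lit 94) (PT.lf (nat_lit 8904) (nat_lit 6) (nat_lit 106) (nat_lit 0) (nat_lit 52) (nat_lit 36) (nat_lit 35)) (PT.nd (nat_lit 52170) (PT.lf (nat_lit 7896) (nat_lit 6) (nat_lit 94) (nat_lit 0) (nat_lit 53) (nat_lit 36) (nat_lit 34)) (PT.lf (nat_lit 7980) (nat_lit 6) (nat_lit 95) (nat_lit 5) (nat_lit 33) (nat_lit 37) (nat_lit 53))))) (PT.nd (nat_lit 282) (PT.nd (nat_lit 94) (PT.lf (nat_lit 8988) (nat_lit 6) (nat_lit 107) (nat_lit 5) (nat_lit 34) (nat_lit 37) (nat_lit 52)) (PT.nd (nat_lit 94) (PT.lf (nat_lit 9912) (nat_lit 6) (nat_lit 118) (nat_lit 5) (nat_lit 35) (nat_lit 37) (nat_lit 51)) (PT.lf (nat_lit 10752) (nat_lit 6) (nat_lit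 128) (nat_lit 5) (nat_lit 36) (nat_lit 37) (nat_lit 50)))) (PT.nd (nat_lit 94) (PT.lf (nat_lit 11508) (nat_lit 3) (nat_lit 137) (nat_lit 3) (nat_lit 37) (nat_lit 37) (nat_lit 49)) (PT.nd (nat_lit 94) (PT.lf (nat_lit 12264) (nat_lit 6) (nat_lit 146) (nat_lit 3) (nat_lit 38) (nat_lit 37) (nat_lit 48)) (PT.lf (nat_lit 12936) (nat_lit 6) (nat_lit 154) (nat_lit 3) (nat_lit 39) (nat_lit 37) (nat_lit 47))))))))
noncomputable def pc5 : PT := (PT.nd (nat_lit 54238) (PT.nd (nat_lit 1128) (PT.nd (nat_lit 564) (PT.nd (nat_lit 282) (PT.nd (nat_lit 94) (PT.lf (nat_lit 13524) (nat_lit 6) (nat_lit 161) (nat_lit 3) (nat_lit 40) (nat_lit 37) (nat_lit 46)) (PT.nd (nat_lit 94) (PT.lf (nat_lit 14028) (nat_lit 6) (nat_lit 167) (nat_lit 3) (nat_lit 41) (nat_lit 37) (nat_lit 45)) (PT.lf (nat_lit 14112) (nat_lit 6) (nat_lit 168) (nat_lit 3) (nat_lit 42) (nat_lit 37) (nat_lit 44)))) (PT.nd (nat_lit 94) (PT.lf (nat_lit 14196)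 (nat_lit 3) (nat_lit 169) (nat_lit 1) (nat_lit 43) (nat_lit 37) (nat_lit 43)) (PT.nd (nat_lit 94) (PT.lf (nat_lit 14112) (nat_lit 6) (nat_lit 168) (nat_lit 1) (nat_lit 44) (nat_lit 37) (nat_lit 42)) (PT.lf (nat_lit 14028) (nat_lit 6) (nat_lit 167) (nat_lit 1) (nat_lit 45) (nat_lit 37) (nat_lit 41))))) (PT.nd (nat_lit 282) (PT.nd (nat_lit 94) (PT.lf (nat_lit 13524) (nat_lit 6) (nat_lit 161) (nat_lit 1) (nat_lit 46) (nat_lit 37) (nat_lit 40)) (PT.nd (nat_lit 94) (PT.lf (nat_lit 12936) (nat_lit 6) (nat_lit 154) (nat_lit 1) (nat_lit 47) (nat_lit 37) (nat_lit 39)) (PT.lf (nat_lit 12264) (nat_lit 6) (nat_lit 146) (nat_lit 1) (nat_lit 48) (nat_lit 37) (nat_lit 38)))) (PT.nd (nat_lit 94) (PT.lf (nat_lit 11508) (nat_lit 3) (nat_lit 137) (nat_lit 0) (nat_lit 49) (nat_lit 37) (nat_lit 37)) (PT.nd (nat_lit 94) (PT.lf (nat_lit 10752) (nat_lit 6) (nat_lit 128) (nat_lit 0) (nat_lit 50) (nat_lit 37) (nat_lit 36))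 (PT.lf (nat_lit 9912) (nat_lit 6) (nat_lit 118) (nat_lit 0) (nat_lit 51) (nat_lit 37) (nat_lit 35)))))) (PT.nd (nat_lit 52546) (PT.nd (nat_lit 52264) (PT.nd (nat_lit 94) (PT.lf (nat_lit 8988) (nat_lit 6) (nat_lit 107) (nat_lit 0) (nat_lit 52) (nat_lit 37) (nat_lit 34)) (PT.nd (nat_lit 52076) (PT.lf (nat_lit 7980) (nat_lit 6) (nat_lit 95) (nat_lit 0) (nat_lit 53) (nat_lit 37) (nat_lit 33)) (PT.lf (nat_lit 8064) (nat_lit 6) (nat_lit 96) (nat_lit 5) (nat_lit 32) (nat_lit 38) (nat_lit 53)))) (PT.nd (nat_lit 94) (PT.lf (nat_lit 9072) (nat_lit 6) (nat_lit 108) (nat_lit 5) (nat_lit 33) (nat_lit 38) (nat_lit 52)) (PT.nd (nat_lit 94) (PT.lf (nat_lit 9996) (nat_lit 6) (nat_lit 119) (nat_lit 5) (nat_lit 34) (nat_lit 38) (nat_lit 51)) (PT.lf (nat_lit 10836) (nat_lit 6) (nat_lit 129) (nat_lit 5) (nat_lit 35) (nat_lit 38) (nat_lit 50))))) (PT.nd (nat_lit 282) (PT.nd (nat_lit 94) (PT.lf (nat_lit 11592) (nat_lit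 6) (nat_lit 138) (nat_lit 5) (nat_lit 36) (nat_lit 38) (nat_lit 49)) (PT.nd (nat_lit 94) (PT.lf (nat_lit 12264) (nat_lit 6) (nat_lit 146) (nat_lit 5) (nat_lit 37) (nat_lit 38) (nat_lit 48)) (PT.lf (nat_lit 12852) (nat_lit 3) (nat_lit 153) (nat_lit 3) (nat_lit 38) (nat_lit 38) (nat_lit 47)))) (PT.nd (nat_lit 94) (PT.lf (nat_lit 13440) (nat_lit 6) (nat_lit 160) (nat_lit 3) (nat_lit 39) (nat_lit 38) (nat_lit 46)) (PT.nd (nat_lit 94) (PT.lf (nat_lit 13944) (nat_lit 6) (nat_lit 166) (nat_lit 3) (nat_lit 40) (nat_lit 38) (nat_lit 45)) (PT.lf (nat_lit 14364) (nat_lit 6) (nat_lit 171) (nat_lit 3) (nat_lit 41) (nat_lit 38) (nat_lit 44))))))) (PT.nd (nat_lit 53016) (PT.nd (nat_lit 564) (PT.nd (nat_lit 282) (PT.nd (nat_lit 94) (PT.lf (nat_lit 14448) (nat_lit 6) (nat_lit 172) (nat_lit 3) (nat_lit 42) (nat_lit 38) (nat_lit 43)) (PT.nd (nat_lit 94) (PT.lf (nat_lit 14448) (nat_lit 6) (nat_lit 172) (nat_lit 1)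 (nat_lit 43) (nat_lit 38) (nat_lit 42)) (PT.lf (nat_lit 14364) (nat_lit 6) (nat_lit 171) (nat_lit 1) (nat_lit 44) (nat_lit 38) (nat_lit 41)))) (PT.nd (nat_lit 94) (PT.lf (nat_lit 13944) (nat_lit 6) (nat_lit 166) (nat_lit 1) (nat_lit 45) (nat_lit 38) (nat_lit 40)) (PT.nd (nat_lit 94) (PT.lf (nat_lit 13440) (nat_lit 6) (nat_lit 160) (nat_lit 1) (nat_lit 46) (nat_lit 38) (nat_lit 39)) (PT.lf (nat_lit 12852) (nat_lit 3) (nat_lit 153) (nat_lit 0) (nat_lit 47) (nat_lit 38) (nat_lit 38))))) (PT.nd (nat_lit 282) (PT.nd (nat_lit 94) (PT.lf (nat_lit 12264) (nat_lit 6) (nat_lit 146) (nat_lit 0) (nat_lit 48) (nat_lit 38) (nat_lit 37)) (PT.nd (nat_lit 94) (PT.lf (nat_lit 11592) (nat_lit 6) (nat_lit 138) (nat_lit 0) (nat_lit 49) (nat_lit 38) (nat_lit 36)) (PT.lf (nat_lit 10836) (nat_lit 6) (nat_lit 129) (nat_lit 0) (nat_lit 50) (nat_lit 38) (nat_lit 35)))) (PT.nd (nat_lit 94) (PT.lf (nat_lit 9996) (nat_lit 6)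 (nat_lit 119) (nat_lit 0) (nat_lit 51) (nat_lit 38) (nat_lit 34)) (PT.nd (nat_lit 94) (PT.lf (nat_lit 9072) (nat_lit 6) (nat_lit 108) (nat_lit 0) (nat_lit 52) (nat_lit 38) (nat_lit 33)) (PT.lf (nat_lit 8064) (nat_lit 6) (nat_lit 96) (nat_lit 0) (nat_lit 53) (nat_lit 38) (nat_lit 32)))))) (PT.nd (nat_lit 564) (PT.nd (nat_lit 282) (PT.nd (nat_lit 94) (PT.lf (nat_lit 8148) (nat_lit 6) (nat_lit 97) (nat_lit 5) (nat_lit 31) (nat_lit 39) (nat_lit 53)) (PT.nd (nat_lit 94) (PT.lf (nat_lit 9156) (nat_lit 6) (nat_lit 109) (nat_lit 5) (nat_lit 32) (nat_lit 39) (nat_lit 52)) (PT.lf (nat_lit 10080) (nat_lit 6) (nat_lit 120) (nat_lit 5) (nat_lit 33) (nat_lit 39) (nat_lit 51)))) (PT.nd (nat_lit 94) (PT.lf (nat_lit 10920) (nat_lit 6) (nat_lit 130) (nat_lit 5) (nat_lit 34) (nat_lit 39) (nat_lit 50)) (PT.nd (nat_lit 94) (PT.lf (nat_lit 11676) (nat_lit 6) (nat_lit 139) (nat_lit 5) (nat_lit 35) (nat_lit 39) (nat_lit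 49)) (PT.lf (nat_lit 12348) (nat_lit 6) (nat_lit 147) (nat_lit 5) (nat_lit 36) (nat_lit 39) (nat_lit 48))))) (PT.nd (nat_lit 282) (PT.nd (nat_lit 94) (PT.lf (nat_lit 12936) (nat_lit 6) (nat_lit 154) (nat_lit 5) (nat_lit 37) (nat_lit 39) (nat_lit 47)) (PT.nd (nat_lit 94) (PT.lf (nat_lit 13440) (nat_lit 6) (nat_lit 160) (nat_lit 5) (nat_lit 38) (nat_lit 39) (nat_lit 46)) (PT.lf (nat_lit 13860) (nat_lit 3) (nat_lit 165) (nat_lit 3) (nat_lit 39) (nat_lit 39) (nat_lit 45)))) (PT.nd (nat_lit 188) (PT.nd (nat_lit 94) (PT.lf (nat_lit 14280) (nat_lit 6) (nat_lit 170) (nat_lit 3) (nat_lit 40) (nat_lit 39) (nat_lit 44)) (PT.lf (nat_lit 14616) (nat_lit 6) (nat_lit 174) (nat_lit 3) (nat_lit 41) (nat_lit 39) (nat_lit 43))) (PT.nd (nat_lit 94) (PT.lf (nat_lit 14700) (nat_lit 3) (nat_lit 175) (nat_lit 1) (nat_lit 42) (nat_lit 39) (nat_lit 42)) (PT.lf (nat_lit 14616) (nat_lit 6) (nat_lit 174) (nat_lit 1) (nat_lit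 43) (nat_lit 39) (nat_lit 41))))))))
noncomputable def pc6 : PT := (PT.nd (nat_lit 54050) (PT.nd (nat_lit 52922) (PT.nd (nat_lit 564) (PT.nd (nat_lit 282) (PT.nd (nat_lit 94) (PT.lf (nat_lit 14280) (nat_lit 6) (nat_lit 170) (nat_lit 1) (nat_lit 44) (nat_lit 39) (nat_lit 40)) (PT.nd (nat_lit 94) (PT.lf (nat_lit 13860) (nat_lit 3) (nat_lit 165) (nat_lit 0) (nat_lit 45) (nat_lit 39) (nat_lit 39)) (PT.lf (nat_lit 13440) (nat_lit 6) (nat_lit 160) (nat_lit 0) (nat_lit 46) (nat_lit 39) (nat_lit 38)))) (PT.nd (nat_lit 94) (PT.lf (nat_lit 12936) (nat_lit 6) (nat_lit 154) (nat_lit 0) (nat_lit 47) (nat_lit 39) (nat_lit 37)) (PT.nd (nat_lit 94) (PT.lf (nat_lit 12348) (nat_lit 6) (nat_lit 147) (nat_lit 0) (nat_lit 48) (nat_lit 39) (nat_lit 36)) (PT.lf (nat_lit 11676) (nat_lit 6) (nat_lit 139) (nat_lit 0) (nat_lit 49) (nat_lit 39) (nat_lit 35))))) (PT.nd (nat_lit 282) (PT.nd (nat_lit 94) (PT.lf (nat_lit 10920)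 (nat_lit 6) (nat_lit 130) (nat_lit 0) (nat_lit 50) (nat_lit 39) (nat_lit 34)) (PT.nd (nat_lit 94) (PT.lf (nat_lit 10080) (nat_lit 6) (nat_lit 120) (nat_lit 0) (nat_lit 51) (nat_lit 39) (nat_lit 33)) (PT.lf (nat_lit 9156) (nat_lit 6) (nat_lit 109) (nat_lit 0) (nat_lit 52) (nat_lit 39) (nat_lit 32)))) (PT.nd (nat_lit 51888) (PT.lf (nat_lit 8148) (nat_lit 6) (nat_lit 97) (nat_lit 0) (nat_lit 53) (nat_lit 39) (nat_lit 31)) (PT.nd (nat_lit 94) (PT.lf (nat_lit 8232) (nat_lit 6) (nat_lit 98) (nat_lit 5) (nat_lit 30) (nat_lit 40) (nat_lit 53)) (PT.lf (nat_lit 9240) (nat_lit 6) (nat_lit 110) (nat_lit 5) (nat_lit 31) (nat_lit 40) (nat_lit 52)))))) (PT.nd (nat_lit 564) (PT.nd (nat_lit 282) (PT.nd (nat_lit 94) (PT.lf (nat_lit 10164) (nat_lit 6) (nat_lit 121) (nat_lit 5) (nat_lit 32) (nat_lit 40) (nat_lit 51)) (PT.nd (nat_lit 94) (PT.lf (nat_lit 11004) (nat_lit 6) (nat_lit 131) (nat_lit 5) (nat_lit 33) (nat_lit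 40) (nat_lit 50)) (PT.lf (nat_lit 11760) (nat_lit 6) (nat_lit 140) (nat_lit 5) (nat_lit 34) (nat_lit 40) (nat_lit 49)))) (PT.nd (nat_lit 94) (PT.lf (nat_lit 12432) (nat_lit 6) (nat_lit 148) (nat_lit 5) (nat_lit 35) (nat_lit 40) (nat_lit 48)) (PT.nd (nat_lit 94) (PT.lf (nat_lit 13020) (nat_lit 6) (nat_lit 155) (nat_lit 5) (nat_lit 36) (nat_lit 40) (nat_lit 47)) (PT.lf (nat_lit 13524) (nat_lit 6) (nat_lit 161) (nat_lit 5) (nat_lit 37) (nat_lit 40) (nat_lit 46))))) (PT.nd (nat_lit 282) (PT.nd (nat_lit 94) (PT.lf (nat_lit 13944) (nat_lit 6) (nat_lit 166) (nat_lit 5) (nat_lit 38) (nat_lit 40) (nat_lit 45)) (PT.nd (nat_lit 94) (PT.lf (nat_lit 14280) (nat_lit 6) (nat_lit 170) (nat_lit 5) (nat_lit 39) (nat_lit 40) (nat_lit 44)) (PT.lf (nat_lit 14532) (nat_lit 3) (nat_lit 173) (nat_lit 3) (nat_lit 40) (nat_lit 40) (nat_lit 43)))) (PT.nd (nat_lit 94) (PT.lf (nat_lit 14784) (nat_lit 6) (nat_lit 176) (nat_lit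 3) (nat_lit 41) (nat_lit 40) (nat_lit 42)) (PT.nd (nat_lit 94) (PT.lf (nat_lit 14784) (nat_lit 6) (nat_lit 176) (nat_lit 1) (nat_lit 42) (nat_lit 40) (nat_lit 41)) (PT.lf (nat_lit 14532) (nat_lit 3) (nat_lit 173) (nat_lit 0) (nat_lit 43) (nat_lit 40) (nat_lit 40))))))) (PT.nd (nat_lit 52828) (PT.nd (nat_lit 564) (PT.nd (nat_lit 282) (PT.nd (nat_lit 94) (PT.lf (nat_lit 14280) (nat_lit 6) (nat_lit 170) (nat_lit 0) (nat_lit 44) (nat_lit 40) (nat_lit 39)) (PT.nd (nat_lit 94) (PT.lf (nat_lit 13944) (nat_lit 6) (nat_lit 166) (nat_lit 0) (nat_lit 45) (nat_lit 40) (nat_lit 38)) (PT.lf (nat_lit 13524) (nat_lit 6) (nat_lit 161) (nat_lit 0) (nat_lit 46) (nat_lit 40) (nat_lit 37)))) (PT.nd (nat_lit 94) (PT.lf (nat_lit 13020) (nat_lit 6) (nat_lit 155) (nat_lit 0) (nat_lit 47) (nat_lit 40) (nat_lit 36)) (PT.nd (nat_lit 94) (PT.lf (nat_lit 12432) (nat_lit 6) (nat_lit 148) (nat_lit 0) (nat_lit 48) (nat_lit 40)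 (nat_lit 35)) (PT.lf (nat_lit 11760) (nat_lit 6) (nat_lit 140) (nat_lit 0) (nat_lit 49) (nat_lit 40) (nat_lit 34))))) (PT.nd (nat_lit 282) (PT.nd (nat_lit 94) (PT.lf (nat_lit 11004) (nat_lit 6) (nat_lit 131) (nat_lit 0) (nat_lit 50) (nat_lit 40) (nat_lit 33)) (PT.nd (nat_lit 94) (PT.lf (nat_lit 10164) (nat_lit 6) (nat_lit 121) (nat_lit 0) (nat_lit 51) (nat_lit 40) (nat_lit 32)) (PT.lf (nat_lit 9240) (nat_lit 6) (nat_lit 110) (nat_lit 0) (nat_lit 52) (nat_lit 40) (nat_lit 31)))) (PT.nd (nat_lit 51794) (PT.lf (nat_lit 8232) (nat_lit 6) (nat_lit 98) (nat_lit 0) (nat_lit 53) (nat_lit 40) (nat_lit 30)) (PT.nd (nat_lit 94) (PT.lf (nat_lit 8316) (nat_lit 6) (nat_lit 99) (nat_lit 5) (nat_lit 29) (nat_lit 41) (nat_lit 53)) (PT.lf (nat_lit 9324) (nat_lit 6) (nat_lit 111) (nat_lit 5) (nat_lit 30) (nat_lit 41) (nat_lit 52)))))) (PT.nd (nat_lit 564) (PT.nd (nat_lit 282) (PT.nd (nat_lit 94) (PT.lf (nat_lit 10248)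 (nat_lit 6) (nat_lit 122) (nat_lit 5) (nat_lit 31) (nat_lit 41) (nat_lit 51)) (PT.nd (nat_lit 94) (PT.lf (nat_lit 11088) (nat_lit 6) (nat_lit 132) (nat_lit 5) (nat_lit 32) (nat_lit 41) (nat_lit 50)) (PT.lf (nat_lit 11844) (nat_lit 6) (nat_lit 141) (nat_lit 5) (nat_lit 33) (nat_lit 41) (nat_lit 49)))) (PT.nd (nat_lit 94) (PT.lf (nat_lit 12516) (nat_lit 6) (nat_lit 149) (nat_lit 5) (nat_lit 34) (nat_lit 41) (nat_lit 48)) (PT.nd (nat_lit 94) (PT.lf (nat_lit 13104) (nat_lit 6) (nat_lit 156) (nat_lit 5) (nat_lit 35) (nat_lit 41) (nat_lit 47)) (PT.lf (nat_lit 13608) (nat_lit 6) (nat_lit 162) (nat_lit 5) (nat_lit 36) (nat_lit 41) (nat_lit 46))))) (PT.nd (nat_lit 282) (PT.nd (nat_lit 94) (PT.lf (nat_lit 14028) (nat_lit 6) (nat_lit 167) (nat_lit 5) (nat_lit 37) (nat_lit 41) (nat_lit 45)) (PT.nd (nat_lit 94) (PT.lf (nat_lit 14364) (nat_lit 6) (nat_lit 171) (nat_lit 5) (nat_lit 38) (nat_lit 41) (nat_lit 44))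 (PT.lf (nat_lit 14616) (nat_lit 6) (nat_lit 174) (nat_lit 5) (nat_lit 39) (nat_lit 41) (nat_lit 43)))) (PT.nd (nat_lit 94) (PT.lf (nat_lit 14784) (nat_lit 6) (nat_lit 176) (nat_lit 5) (nat_lit 40) (nat_lit 41) (nat_lit 42)) (PT.nd (nat_lit 94) (PT.lf (nat_lit 14868) (nat_lit 1) (nat_lit 177) (nat_lit 0) (nat_lit 41) (nat_lit 41) (nat_lit 41)) (PT.lf (nat_lit 14784) (nat_lit 6) (nat_lit 176) (nat_lit 0) (nat_lit 42) (nat_lit 41) (nat_lit 40))))))))
noncomputable def pc7 : PT := (PT.nd (nat_lit 53862) (PT.nd (nat_lit 52734) (PT.nd (nat_lit 564) (PT.nd (nat_lit 282) (PT.nd (nat_lit 94) (PT.lf (nat_lit 14616) (nat_lit 6) (nat_lit 174) (nat_lit 0) (nat_lit 43) (nat_lit 41) (nat_lit 39)) (PT.nd (nat_lit 94) (PT.lf (nat_lit 14364) (nat_lit 6) (nat_lit 171) (nat_lit 0) (nat_lit 44) (nat_lit 41) (nat_lit 38)) (PT.lf (nat_lit 14028) (nat_lit 6) (nat_lit 167) (nat_lit 0) (nat_lit 45) (nat_lit 41) (nat_lit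 37)))) (PT.nd (nat_lit 94) (PT.lf (nat_lit 13608) (nat_lit 6) (nat_lit 162) (nat_lit 0) (nat_lit 46) (nat_lit 41) (nat_lit 36)) (PT.nd (nat_lit 94) (PT.lf (nat_lit 13104) (nat_lit 6) (nat_lit 156) (nat_lit 0) (nat_lit 47) (nat_lit 41) (nat_lit 35)) (PT.lf (nat_lit 12516) (nat_lit 6) (nat_lit 149) (nat_lit 0) (nat_lit 48) (nat_lit 41) (nat_lit 34))))) (PT.nd (nat_lit 282) (PT.nd (nat_lit 94) (PT.lf (nat_lit 11844) (nat_lit 6) (nat_lit 141) (nat_lit 0) (nat_lit 49) (nat_lit 41) (nat_lit 33)) (PT.nd (nat_lit 94) (PT.lf (nat_lit 11088) (nat_lit 6) (nat_lit 132) (nat_lit 0) (nat_lit 50) (nat_lit 41) (nat_lit 32)) (PT.lf (nat_lit 10248) (nat_lit 6) (nat_lit 122) (nat_lit 0) (nat_lit 51) (nat_lit 41) (nat_lit 31)))) (PT.nd (nat_lit 94) (PT.lf (nat_lit 9324) (nat_lit 6) (nat_lit 111) (nat_lit 0) (nat_lit 52) (nat_lit 41) (nat_lit 30)) (PT.nd (nat_lit 51700) (PT.lf (nat_lit 8316) (nat_lit 6) (nat_lit 99)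 (nat_lit 0) (nat_lit 53) (nat_lit 41) (nat_lit 29)) (PT.lf (nat_lit 7308) (nat_lit 6) (nat_lit 87) (nat_lit 5) (nat_lit 28) (nat_lit 42) (nat_lit 53)))))) (PT.nd (nat_lit 564) (PT.nd (nat_lit 282) (PT.nd (nat_lit 94) (PT.lf (nat_lit 8400) (nat_lit 6) (nat_lit 100) (nat_lit 5) (nat_lit 29) (nat_lit 42) (nat_lit 52)) (PT.nd (nat_lit 94) (PT.lf (nat_lit 9408) (nat_lit 6) (nat_lit 112) (nat_lit 5) (nat_lit 30) (nat_lit 42) (nat_lit 51)) (PT.lf (nat_lit 10332) (nat_lit 6) (nat_lit 123) (nat_lit 5) (nat_lit 31) (nat_lit 42) (nat_lit 50)))) (PT.nd (nat_lit 94) (PT.lf (nat_lit 11172) (nat_lit 6) (nat_lit 133) (nat_lit 5) (nat_lit 32) (nat_lit 42) (nat_lit 49)) (PT.nd (nat_lit 94) (PT.lf (nat_lit 11928) (nat_lit 6) (nat_lit 142) (nat_lit 5) (nat_lit 33) (nat_lit 42) (nat_lit 48)) (PT.lf (nat_lit 12600) (nat_lit 6) (nat_lit 150) (nat_lit 5) (nat_lit 34) (nat_lit 42) (nat_lit 47))))) (PT.nd (nat_lit 282)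 (PT.nd (nat_lit 94) (PT.lf (nat_lit 13188) (nat_lit 6) (nat_lit 157) (nat_lit 5) (nat_lit 35) (nat_lit 42) (nat_lit 46)) (PT.nd (nat_lit 94) (PT.lf (nat_lit 13692) (nat_lit 6) (nat_lit 163) (nat_lit 5) (nat_lit 36) (nat_lit 42) (nat_lit 45)) (PT.lf (nat_lit 14112) (nat_lit 6) (nat_lit 168) (nat_lit 5) (nat_lit 37) (nat_lit 42) (nat_lit 44)))) (PT.nd (nat_lit 94) (PT.lf (nat_lit 14448) (nat_lit 6) (nat_lit 172) (nat_lit 5) (nat_lit 38) (nat_lit 42) (nat_lit 43)) (PT.nd (nat_lit 94) (PT.lf (nat_lit 14700) (nat_lit 3) (nat_lit 175) (nat_lit 4) (nat_lit 39) (nat_lit 42) (nat_lit 42)) (PT.lf (nat_lit 14784) (nat_lit 6) (nat_lit 176) (nat_lit 4) (nat_lit 40) (nat_lit 42) (nat_lit 41))))))) (PT.nd (nat_lit 1128) (PT.nd (nat_lit 564) (PT.nd (nat_lit 282) (PT.nd (nat_lit 94) (PT.lf (nat_lit 14784) (nat_lit 6) (nat_lit 176) (nat_lit 2) (nat_lit 41) (nat_lit 42) (nat_lit 40)) (PT.nd (nat_lit 94) (PT.lf (nat_lit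 14700) (nat_lit 3) (nat_lit 175) (nat_lit 0) (nat_lit 42) (nat_lit 42) (nat_lit 39)) (PT.lf (nat_lit 14448) (nat_lit 6) (nat_lit 172) (nat_lit 0) (nat_lit 43) (nat_lit 42) (nat_lit 38)))) (PT.nd (nat_lit 94) (PT.lf (nat_lit 14112) (nat_lit 6) (nat_lit 168) (nat_lit 0) (nat_lit 44) (nat_lit 42) (nat_lit 37)) (PT.nd (nat_lit 94) (PT.lf (nat_lit 13692) (nat_lit 6) (nat_lit 163) (nat_lit 0) (nat_lit 45) (nat_lit 42) (nat_lit 36)) (PT.lf (nat_lit 13188) (nat_lit 6) (nat_lit 157) (nat_lit 0) (nat_lit 46) (nat_lit 42) (nat_lit 35))))) (PT.nd (nat_lit 282) (PT.nd (nat_lit 94) (PT.lf (nat_lit 12600) (nat_lit 6) (nat_lit 150) (nat_lit 0) (nat_lit 47) (nat_lit 42) (nat_lit 34)) (PT.nd (nat_lit 94) (PT.lf (nat_lit 11928) (nat_lit 6) (nat_lit 142) (nat_lit 0) (nat_lit 48) (nat_lit 42) (nat_lit 33)) (PT.lf (nat_lit 11172) (nat_lit 6) (nat_lit 133) (nat_lit 0) (nat_lit 49) (nat_lit 42) (nat_lit 32)))) (PT.nd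 (nat_lit 94) (PT.lf (nat_lit 10332) (nat_lit 6) (nat_lit 123) (nat_lit 0) (nat_lit 50) (nat_lit 42) (nat_lit 31)) (PT.nd (nat_lit 94) (PT.lf (nat_lit 9408) (nat_lit 6) (nat_lit 112) (nat_lit 0) (nat_lit 51) (nat_lit 42) (nat_lit 30)) (PT.lf (nat_lit 8400) (nat_lit 6) (nat_lit 100) (nat_lit 0) (nat_lit 52) (nat_lit 42) (nat_lit 29)))))) (PT.nd (nat_lit 52076) (PT.nd (nat_lit 51794) (PT.nd (nat_lit 51606) (PT.lf (nat_lit 7308) (nat_lit 6) (nat_lit 87) (nat_lit 0) (nat_lit 53) (nat_lit 42) (nat_lit 28)) (PT.nd (nat_lit 94) (PT.lf (nat_lit 6720) (nat_lit 6) (nat_lit 80) (nat_lit 5) (nat_lit 27) (nat_lit 43) (nat_lit 53)) (PT.lf (nat_lit 7392) (nat_lit 6) (nat_lit 88) (nat_lit 5) (nat_lit 28) (nat_lit 43) (nat_lit 52)))) (PT.nd (nat_lit 94) (PT.lf (nat_lit 8484) (nat_lit 6) (nat_lit 101) (nat_lit 5) (nat_lit 29) (nat_lit 43) (nat_lit 51)) (PT.nd (nat_lit 94) (PT.lf (nat_lit 9492) (nat_lit 6) (nat_lit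 113) (nat_lit 5) (nat_lit 30) (nat_lit 43) (nat_lit 50)) (PT.lf (nat_lit 10416) (nat_lit 6) (nat_lit 124) (nat_lit 5) (nat_lit 31) (nat_lit 43) (nat_lit 49))))) (PT.nd (nat_lit 282) (PT.nd (nat_lit 94) (PT.lf (nat_lit 11256) (nat_lit 6) (nat_lit 134) (nat_lit 5) (nat_lit 32) (nat_lit 43) (nat_lit 48)) (PT.nd (nat_lit 94) (PT.lf (nat_lit 12012) (nat_lit 6) (nat_lit 143) (nat_lit 5) (nat_lit 33) (nat_lit 43) (nat_lit 47)) (PT.lf (nat_lit 12684) (nat_lit 6) (nat_lit 151) (nat_lit 5) (nat_lit 34) (nat_lit 43) (nat_lit 46)))) (PT.nd (nat_lit 188) (PT.nd (nat_lit 94) (PT.lf (nat_lit 13272) (nat_lit 6) (nat_lit 158) (nat_lit 5) (nat_lit 35) (nat_lit 43) (nat_lit 45)) (PT.lf (nat_lit 13776) (nat_lit 6) (nat_lit 164) (nat_lit 5) (nat_lit 36) (nat_lit 43) (nat_lit 44))) (PT.nd (nat_lit 94) (PT.lf (nat_lit 14196) (nat_lit 3) (nat_lit 169) (nat_lit 4) (nat_lit 37) (nat_lit 43) (nat_lit 43)) (PT.lf (nat_lit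 14448) (nat_lit 6) (nat_lit 172) (nat_lit 4) (nat_lit 38) (nat_lit 43) (nat_lit 42))))))))
noncomputable def pc8 : PT := (PT.nd (nat_lit 53674) (PT.nd (nat_lit 1128) (PT.nd (nat_lit 564) (PT.nd (nat_lit 282) (PT.nd (nat_lit 94) (PT.lf (nat_lit 14616) (nat_lit 6) (nat_lit 174) (nat_lit 4) (nat_lit 39) (nat_lit 43) (nat_lit 41)) (PT.nd (nat_lit 94) (PT.lf (nat_lit 14532) (nat_lit 3) (nat_lit 173) (nat_lit 2) (nat_lit 40) (nat_lit 43) (nat_lit 40)) (PT.lf (nat_lit 14616) (nat_lit 6) (nat_lit 174) (nat_lit 2) (nat_lit 41) (nat_lit 43) (nat_lit 39)))) (PT.nd (nat_lit 94) (PT.lf (nat_lit 14448) (nat_lit 6) (nat_lit 172) (nat_lit 2) (nat_lit 42) (nat_lit 43) (nat_lit 38)) (PT.nd (nat_lit 94) (PT.lf (nat_lit 14196) (nat_lit 3) (nat_lit 169) (nat_lit 0) (nat_lit 43) (nat_lit 43) (nat_lit 37)) (PT.lf (nat_lit 13776) (nat_lit 6) (nat_lit 164) (nat_lit 0) (nat_lit 44) (nat_lit 43) (nat_lit 36))))) (PT.nd (nat_lit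 282) (PT.nd (nat_lit 94) (PT.lf (nat_lit 13272) (nat_lit 6) (nat_lit 158) (nat_lit 0) (nat_lit 45) (nat_lit 43) (nat_lit 35)) (PT.nd (nat_lit 94) (PT.lf (nat_lit 12684) (nat_lit 6) (nat_lit 151) (nat_lit 0) (nat_lit 46) (nat_lit 43) (nat_lit 34)) (PT.lf (nat_lit 12012) (nat_lit 6) (nat_lit 143) (nat_lit 0) (nat_lit 47) (nat_lit 43) (nat_lit 33)))) (PT.nd (nat_lit 94) (PT.lf (nat_lit 11256) (nat_lit 6) (nat_lit 134) (nat_lit 0) (nat_lit 48) (nat_lit 43) (nat_lit 32)) (PT.nd (nat_lit 94) (PT.lf (nat_lit 10416) (nat_lit 6) (nat_lit 124) (nat_lit 0) (nat_lit 49) (nat_lit 43) (nat_lit 31)) (PT.lf (nat_lit 9492) (nat_lit 6) (nat_lit 113) (nat_lit 0) (nat_lit 50) (nat_lit 43) (nat_lit 30)))))) (PT.nd (nat_lit 51982) (PT.nd (nat_lit 51700) (PT.nd (nat_lit 94) (PT.lf (nat_lit 8484) (nat_lit 6) (nat_lit 101) (nat_lit 0) (nat_lit 51) (nat_lit 43) (nat_lit 29)) (PT.nd (nat_lit 94) (PT.lf (nat_lit 7392) (nat_lit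 6) (nat_lit 88) (nat_lit 0) (nat_lit 52) (nat_lit 43) (nat_lit 28)) (PT.lf (nat_lit 6720) (nat_lit 6) (nat_lit 80) (nat_lit 0) (nat_lit 53) (nat_lit 43) (nat_lit 27)))) (PT.nd (nat_lit 94) (PT.lf (nat_lit 6216) (nat_lit 6) (nat_lit 74) (nat_lit 5) (nat_lit 26) (nat_lit 44) (nat_lit 53)) (PT.nd (nat_lit 94) (PT.lf (nat_lit 6804) (nat_lit 6) (nat_lit 81) (nat_lit 5) (nat_lit 27) (nat_lit 44) (nat_lit 52)) (PT.lf (nat_lit 7476) (nat_lit 6) (nat_lit 89) (nat_lit 5) (nat_lit 28) (nat_lit 44) (nat_lit 51))))) (PT.nd (nat_lit 282) (PT.nd (nat_lit 94) (PT.lf (nat_lit 8568) (nat_lit 6) (nat_lit 102) (nat_lit 5) (nat_lit 29) (nat_lit 44) (nat_lit 50)) (PT.nd (nat_lit 94) (PT.lf (nat_lit 9576) (nat_lit 6) (nat_lit 114) (nat_lit 5) (nat_lit 30) (nat_lit 44) (nat_lit 49)) (PT.lf (nat_lit 10500) (nat_lit 6) (nat_lit 125) (nat_lit 5) (nat_lit 31) (nat_lit 44) (nat_lit 48)))) (PT.nd (nat_lit 94) (PT.lf (nat_lit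 11340) (nat_lit 6) (nat_lit 135) (nat_lit 5) (nat_lit 32) (nat_lit 44) (nat_lit 47)) (PT.nd (nat_lit 94) (PT.lf (nat_lit 12096) (nat_lit 6) (nat_lit 144) (nat_lit 5) (nat_lit 33) (nat_lit 44) (nat_lit 46)) (PT.lf (nat_lit 12768) (nat_lit 6) (nat_lit 152) (nat_lit 5) (nat_lit 34) (nat_lit 44) (nat_lit 45))))))) (PT.nd (nat_lit 1128) (PT.nd (nat_lit 564) (PT.nd (nat_lit 282) (PT.nd (nat_lit 94) (PT.lf (nat_lit 13356) (nat_lit 3) (nat_lit 159) (nat_lit 4) (nat_lit 35) (nat_lit 44) (nat_lit 44)) (PT.nd (nat_lit 94) (PT.lf (nat_lit 13776) (nat_lit 6) (nat_lit 164) (nat_lit 4) (nat_lit 36) (nat_lit 44) (nat_lit 43)) (PT.lf (nat_lit 14112) (nat_lit 6) (nat_lit 168) (nat_lit 4) (nat_lit 37) (nat_lit 44) (nat_lit 42)))) (PT.nd (nat_lit 94) (PT.lf (nat_lit 14364) (nat_lit 6) (nat_lit 171) (nat_lit 4) (nat_lit 38) (nat_lit 44) (nat_lit 41)) (PT.nd (nat_lit 94) (PT.lf (nat_lit 14280) (nat_lit 6) (nat_lit 170)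 (nat_lit 4) (nat_lit 39) (nat_lit 44) (nat_lit 40)) (PT.lf (nat_lit 14280) (nat_lit 6) (nat_lit 170) (nat_lit 2) (nat_lit 40) (nat_lit 44) (nat_lit 39))))) (PT.nd (nat_lit 282) (PT.nd (nat_lit 94) (PT.lf (nat_lit 14364) (nat_lit 6) (nat_lit 171) (nat_lit 2) (nat_lit 41) (nat_lit 44) (nat_lit 38)) (PT.nd (nat_lit 94) (PT.lf (nat_lit 14112) (nat_lit 6) (nat_lit 168) (nat_lit 2) (nat_lit 42) (nat_lit 44) (nat_lit 37)) (PT.lf (nat_lit 13776) (nat_lit 6) (nat_lit 164) (nat_lit 2) (nat_lit 43) (nat_lit 44) (nat_lit 36)))) (PT.nd (nat_lit 94) (PT.lf (nat_lit 13356) (nat_lit 3) (nat_lit 159) (nat_lit 0) (nat_lit 44) (nat_lit 44) (nat_lit 35)) (PT.nd (nat_lit 94) (PT.lf (nat_lit 12768) (nat_lit 6) (nat_lit 152) (nat_lit 0) (nat_lit 45) (nat_lit 44) (nat_lit 34)) (PT.lf (nat_lit 12096) (nat_lit 6) (nat_lit 144) (nat_lit 0) (nat_lit 46) (nat_lit 44) (nat_lit 33)))))) (PT.nd (nat_lit 564) (PT.nd (nat_lit 282)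 (PT.nd (nat_lit 94) (PT.lf (nat_lit 11340) (nat_lit 6) (nat_lit 135) (nat_lit 0) (nat_lit 47) (nat_lit 44) (nat_lit 32)) (PT.nd (nat_lit 94) (PT.lf (nat_lit 10500) (nat_lit 6) (nat_lit 125) (nat_lit 0) (nat_lit 48) (nat_lit 44) (nat_lit 31)) (PT.lf (nat_lit 9576) (nat_lit 6) (nat_lit 114) (nat_lit 0) (nat_lit 49) (nat_lit 44) (nat_lit 30)))) (PT.nd (nat_lit 94) (PT.lf (nat_lit 8568) (nat_lit 6) (nat_lit 102) (nat_lit 0) (nat_lit 50) (nat_lit 44) (nat_lit 29)) (PT.nd (nat_lit 94) (PT.lf (nat_lit 7476) (nat_lit 6) (nat_lit 89) (nat_lit 0) (nat_lit 51) (nat_lit 44) (nat_lit 28)) (PT.lf (nat_lit 6804) (nat_lit 6) (nat_lit 81) (nat_lit 0) (nat_lit 52) (nat_lit 44) (nat_lit 27))))) (PT.nd (nat_lit 51512) (PT.nd (nat_lit 51324) (PT.lf (nat_lit 6216) (nat_lit 6) (nat_lit 74) (nat_lit 0) (nat_lit 53) (nat_lit 44) (nat_lit 26)) (PT.nd (nat_lit 94) (PT.lf (nat_lit 5208) (nat_lit 6) (nat_lit 62) (nat_lit 5)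 (nat_lit 24) (nat_lit 45) (nat_lit 54)) (PT.lf (nat_lit 5712) (nat_lit 6) (nat_lit 68) (nat_lit 5) (nat_lit 25) (nat_lit 45) (nat_lit 53)))) (PT.nd (nat_lit 94) (PT.lf (nat_lit 6300) (nat_lit 6) (nat_lit 75) (nat_lit 5) (nat_lit 26) (nat_lit 45) (nat_lit 52)) (PT.nd (nat_lit 94) (PT.lf (nat_lit 6888) (nat_lit 6) (nat_lit 82) (nat_lit 5) (nat_lit 27) (nat_lit 45) (nat_lit 51)) (PT.lf (nat_lit 7560) (nat_lit 6) (nat_lit 90) (nat_lit 5) (nat_lit 28) (nat_lit 45) (nat_lit 50))))))))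
noncomputable def pc9 : PT := (PT.nd (nat_lit 2256) (PT.nd (nat_lit 1128) (PT.nd (nat_lit 564) (PT.nd (nat_lit 282) (PT.nd (nat_lit 94) (PT.lf (nat_lit 8652) (nat_lit 6) (nat_lit 103) (nat_lit 5) (nat_lit 29) (nat_lit 45) (nat_lit 49)) (PT.nd (nat_lit 94) (PT.lf (nat_lit 9660) (nat_lit 6) (nat_lit 115) (nat_lit 5) (nat_lit 30) (nat_lit 45) (nat_lit 48)) (PT.lf (nat_lit 10584) (nat_lit 6) (nat_lit 126) (nat_lit 5) (nat_lit 31) (nat_lit 45) (nat_lit 47)))) (PT.nd (nat_lit 94) (PT.lf (nat_lit 11424) (nat_lit 6) (nat_lit 136) (nat_lit 5) (nat_lit 32) (nat_lit 45) (nat_lit 46)) (PT.nd (nat_lit 94) (PT.lf (nat_lit 12180) (nat_lit 3) (nat_lit 145) (nat_lit 4) (nat_lit 33) (nat_lit 45) (nat_lit 45)) (PT.lf (nat_lit 12768) (nat_lit 6) (nat_lit 152) (nat_lit 4) (nat_lit 34) (nat_lit 45) (nat_lit 44))))) (PT.nd (nat_lit 282) (PT.nd (nat_lit 94) (PT.lf (nat_lit 13272) (nat_lit 6) (nat_lit 158) (nat_lit 4)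 (nat_lit 35) (nat_lit 45) (nat_lit 43)) (PT.nd (nat_lit 94) (PT.lf (nat_lit 13692) (nat_lit 6) (nat_lit 163) (nat_lit 4) (nat_lit 36) (nat_lit 45) (nat_lit 42)) (PT.lf (nat_lit 14028) (nat_lit 6) (nat_lit 167) (nat_lit 4) (nat_lit 37) (nat_lit 45) (nat_lit 41)))) (PT.nd (nat_lit 94) (PT.lf (nat_lit 13944) (nat_lit 6) (nat_lit 166) (nat_lit 4) (nat_lit 38) (nat_lit 45) (nat_lit 40)) (PT.nd (nat_lit 94) (PT.lf (nat_lit 13860) (nat_lit 3) (nat_lit 165) (nat_lit 2) (nat_lit 39) (nat_lit 45) (nat_lit 39)) (PT.lf (nat_lit 13944) (nat_lit 6) (nat_lit 166) (nat_lit 2) (nat_lit 40) (nat_lit 45) (nat_lit 38)))))) (PT.nd (nat_lit 564) (PT.nd (nat_lit 282) (PT.nd (nat_lit 94) (PT.lf (nat_lit 14028) (nat_lit 6) (nat_lit 167) (nat_lit 2) (nat_lit 41) (nat_lit 45) (nat_lit 37)) (PT.nd (nat_lit 94) (PT.lf (nat_lit 13692) (nat_lit 6) (nat_lit 163) (nat_lit 2) (nat_lit 42) (nat_lit 45) (nat_lit 36)) (PT.lf (nat_lit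 13272) (nat_lit 6) (nat_lit 158) (nat_lit 2) (nat_lit 43) (nat_lit 45) (nat_lit 35)))) (PT.nd (nat_lit 94) (PT.lf (nat_lit 12768) (nat_lit 6) (nat_lit 152) (nat_lit 2) (nat_lit 44) (nat_lit 45) (nat_lit 34)) (PT.nd (nat_lit 94) (PT.lf (nat_lit 12180) (nat_lit 3) (nat_lit 145) (nat_lit 0) (nat_lit 45) (nat_lit 45) (nat_lit 33)) (PT.lf (nat_lit 11424) (nat_lit 6) (nat_lit 136) (nat_lit 0) (nat_lit 46) (nat_lit 45) (nat_lit 32))))) (PT.nd (nat_lit 282) (PT.nd (nat_lit 94) (PT.lf (nat_lit 10584) (nat_lit 6) (nat_lit 126) (nat_lit 0) (nat_lit 47) (nat_lit 45) (nat_lit 31)) (PT.nd (nat_lit 94) (PT.lf (nat_lit 9660) (nat_lit 6) (nat_lit 115) (nat_lit 0) (nat_lit 48) (nat_lit 45) (nat_lit 30)) (PT.lf (nat_lit 8652) (nat_lit 6) (nat_lit 103) (nat_lit 0) (nat_lit 49) (nat_lit 45) (nat_lit 29)))) (PT.nd (nat_lit 94) (PT.lf (nat_lit 7560) (nat_lit 6) (nat_lit 90) (nat_lit 0) (nat_lit 50) (nat_lit 45) (nat_lit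 28)) (PT.nd (nat_lit 94) (PT.lf (nat_lit 6888) (nat_lit 6) (nat_lit 82) (nat_lit 0) (nat_lit 51) (nat_lit 45) (nat_lit 27)) (PT.lf (nat_lit 6300) (nat_lit 6) (nat_lit 75) (nat_lit 0) (nat_lit 52) (nat_lit 45) (nat_lit 26))))))) (PT.nd (nat_lit 52170) (PT.nd (nat_lit 51606) (PT.nd (nat_lit 51324) (PT.nd (nat_lit 94) (PT.lf (nat_lit 5712) (nat_lit 6) (nat_lit 68) (nat_lit 0) (nat_lit 53) (nat_lit 45) (nat_lit 25)) (PT.nd (nat_lit 51136) (PT.lf (nat_lit 5208) (nat_lit 6) (nat_lit 62) (nat_lit 0) (nat_lit 54) (nat_lit 45) (nat_lit 24)) (PT.lf (nat_lit 4788) (nat_lit 6) (nat_lit 57) (nat_lit 5) (nat_lit 23) (nat_lit 46) (nat_lit 54)))) (PT.nd (nat_lit 94) (PT.lf (nat_lit 5292) (nat_lit 6) (nat_lit 63) (nat_lit 5) (nat_lit 24) (nat_lit 46) (nat_lit 53)) (PT.nd (nat_lit 94) (PT.lf (nat_lit 5796) (nat_lit 6) (nat_lit 69) (nat_lit 5) (nat_lit 25) (nat_lit 46) (nat_lit 52)) (PT.lf (nat_lit 6384) (nat_lit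 6) (nat_lit 76) (nat_lit 5) (nat_lit 26) (nat_lit 46) (nat_lit 51))))) (PT.nd (nat_lit 282) (PT.nd (nat_lit 94) (PT.lf (nat_lit 6972) (nat_lit 6) (nat_lit 83) (nat_lit 5) (nat_lit 27) (nat_lit 46) (nat_lit 50)) (PT.nd (nat_lit 94) (PT.lf (nat_lit 7644) (nat_lit 6) (nat_lit 91) (nat_lit 5) (nat_lit 28) (nat_lit 46) (nat_lit 49)) (PT.lf (nat_lit 8736) (nat_lit 6) (nat_lit 104) (nat_lit 5) (nat_lit 29) (nat_lit 46) (nat_lit 48)))) (PT.nd (nat_lit 94) (PT.lf (nat_lit 9744) (nat_lit 6) (nat_lit 116) (nat_lit 5) (nat_lit 30) (nat_lit 46) (nat_lit 47)) (PT.nd (nat_lit 94) (PT.lf (nat_lit 10668) (nat_lit 3) (nat_lit 127) (nat_lit 4) (nat_lit 31) (nat_lit 46) (nat_lit 46)) (PT.lf (nat_lit 11424) (nat_lit 6) (nat_lit 136) (nat_lit 4) (nat_lit 32) (nat_lit 46) (nat_lit 45)))))) (PT.nd (nat_lit 564) (PT.nd (nat_lit 282) (PT.nd (nat_lit 94) (PT.lf (nat_lit 12096) (nat_lit 6) (nat_lit 144) (nat_lit 4) (nat_lit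 33) (nat_lit 46) (nat_lit 44)) (PT.nd (nat_lit 94) (PT.lf (nat_lit 12684) (nat_lit 6) (nat_lit 151) (nat_lit 4) (nat_lit 34) (nat_lit 46) (nat_lit 43)) (PT.lf (nat_lit 13188) (nat_lit 6) (nat_lit 157) (nat_lit 4) (nat_lit 35) (nat_lit 46) (nat_lit 42)))) (PT.nd (nat_lit 94) (PT.lf (nat_lit 13608) (nat_lit 6) (nat_lit 162) (nat_lit 4) (nat_lit 36) (nat_lit 46) (nat_lit 41)) (PT.nd (nat_lit 94) (PT.lf (nat_lit 13524) (nat_lit 6) (nat_lit 161) (nat_lit 4) (nat_lit 37) (nat_lit 46) (nat_lit 40)) (PT.lf (nat_lit 13440) (nat_lit 6) (nat_lit 160) (nat_lit 4) (nat_lit 38) (nat_lit 46) (nat_lit 39))))) (PT.nd (nat_lit 282) (PT.nd (nat_lit 94) (PT.lf (nat_lit 13440) (nat_lit 6) (nat_lit 160) (nat_lit 2) (nat_lit 39) (nat_lit 46) (nat_lit 38)) (PT.nd (nat_lit 94) (PT.lf (nat_lit 13524) (nat_lit 6) (nat_lit 161) (nat_lit 2) (nat_lit 40) (nat_lit 46) (nat_lit 37)) (PT.lf (nat_lit 13608) (nat_lit 6) (nat_lit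 162) (nat_lit 2) (nat_lit 41) (nat_lit 46) (nat_lit 36)))) (PT.nd (nat_lit 188) (PT.nd (nat_lit 94) (PT.lf (nat_lit 13188) (nat_lit 6) (nat_lit 157) (nat_lit 2) (nat_lit 42) (nat_lit 46) (nat_lit 35)) (PT.lf (nat_lit 12684) (nat_lit 6) (nat_lit 151) (nat_lit 2) (nat_lit 43) (nat_lit 46) (nat_lit 34))) (PT.nd (nat_lit 94) (PT.lf (nat_lit 12096) (nat_lit 6) (nat_lit 144) (nat_lit 2) (nat_lit 44) (nat_lit 46) (nat_lit 33)) (PT.lf (nat_lit 11424) (nat_lit 6) (nat_lit 136) (nat_lit 2) (nat_lit 45) (nat_lit 46) (nat_lit 32))))))))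
noncomputable def pc10 : PT := (PT.nd (nat_lit 53204) (PT.nd (nat_lit 52076) (PT.nd (nat_lit 564) (PT.nd (nat_lit 282) (PT.nd (nat_lit 94) (PT.lf (nat_lit 10668) (nat_lit 3) (nat_lit 127) (nat_lit 0) (nat_lit 46) (nat_lit 46) (nat_lit 31)) (PT.nd (nat_lit 94) (PT.lf (nat_lit 9744) (nat_lit 6) (nat_lit 116) (nat_lit 0) (nat_lit 47) (nat_lit 46) (nat_lit 30)) (PT.lf (nat_lit 8736) (nat_lit 6) (nat_lit 104) (nat_lit 0) (nat_lit 48) (nat_lit 46) (nat_lit 29)))) (PT.nd (nat_lit 94) (PT.lf (nat_lit 7644) (nat_lit 6) (nat_lit 91) (nat_lit 0) (nat_lit 49) (nat_lit 46) (nat_lit 28)) (PT.nd (nat_lit 94) (PT.lf (nat_lit 6972) (nat_lit 6) (nat_lit 83) (nat_lit 0) (nat_lit 50) (nat_lit 46) (nat_lit 27)) (PT.lf (nat_lit 6384) (nat_lit 6) (nat_lit 76) (nat_lit 0) (nat_lit 51) (nat_lit 46) (nat_lit 26))))) (PT.nd (nat_lit 51230) (PT.nd (nat_lit 94) (PT.lf (nat_lit 5796) (nat_lit 6) (nat_lit 69) (nat_lit 0) (nat_lit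 52) (nat_lit 46) (nat_lit 25)) (PT.nd (nat_lit 94) (PT.lf (nat_lit 5292) (nat_lit 6) (nat_lit 63) (nat_lit 0) (nat_lit 53) (nat_lit 46) (nat_lit 24)) (PT.lf (nat_lit 4788) (nat_lit 6) (nat_lit 57) (nat_lit 0) (nat_lit 54) (nat_lit 46) (nat_lit 23)))) (PT.nd (nat_lit 94) (PT.lf (nat_lit 4452) (nat_lit 6) (nat_lit 53) (nat_lit 5) (nat_lit 22) (nat_lit 47) (nat_lit 54)) (PT.nd (nat_lit 94) (PT.lf (nat_lit 4872) (nat_lit 6) (nat_lit 58) (nat_lit 5) (nat_lit 23) (nat_lit 47) (nat_lit 53)) (PT.lf (nat_lit 5376) (nat_lit 6) (nat_lit 64) (nat_lit 5) (nat_lit 24) (nat_lit 47) (nat_lit 52)))))) (PT.nd (nat_lit 564) (PT.nd (nat_lit 282) (PT.nd (nat_lit 94) (PT.lf (nat_lit 5880) (nat_lit 6) (nat_lit 70) (nat_lit 5) (nat_lit 25) (nat_lit 47) (nat_lit 51)) (PT.nd (nat_lit 94) (PT.lf (nat_lit 6468) (nat_lit 6) (nat_lit 77) (nat_lit 5) (nat_lit 26) (nat_lit 47) (nat_lit 50)) (PT.lf (nat_lit 7056) (nat_lit 6) (nat_lit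 84) (nat_lit 5) (nat_lit 27) (nat_lit 47) (nat_lit 49)))) (PT.nd (nat_lit 94) (PT.lf (nat_lit 7728) (nat_lit 6) (nat_lit 92) (nat_lit 5) (nat_lit 28) (nat_lit 47) (nat_lit 48)) (PT.nd (nat_lit 94) (PT.lf (nat_lit 8820) (nat_lit 3) (nat_lit 105) (nat_lit 4) (nat_lit 29) (nat_lit 47) (nat_lit 47)) (PT.lf (nat_lit 9744) (nat_lit 6) (nat_lit 116) (nat_lit 4) (nat_lit 30) (nat_lit 47) (nat_lit 46))))) (PT.nd (nat_lit 282) (PT.nd (nat_lit 94) (PT.lf (nat_lit 10584) (nat_lit 6) (nat_lit 126) (nat_lit 4) (nat_lit 31) (nat_lit 47) (nat_lit 45)) (PT.nd (nat_lit 94) (PT.lf (nat_lit 11340) (nat_lit 6) (nat_lit 135) (nat_lit 4) (nat_lit 32) (nat_lit 47) (nat_lit 44)) (PT.lf (nat_lit 12012) (nat_lit 6) (nat_lit 143) (nat_lit 4) (nat_lit 33) (nat_lit 47) (nat_lit 43)))) (PT.nd (nat_lit 94) (PT.lf (nat_lit 12600) (nat_lit 6) (nat_lit 150) (nat_lit 4) (nat_lit 34) (nat_lit 47) (nat_lit 42)) (PT.nd (nat_lit 94)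 (PT.lf (nat_lit 13104) (nat_lit 6) (nat_lit 156) (nat_lit 4) (nat_lit 35) (nat_lit 47) (nat_lit 41)) (PT.lf (nat_lit 13020) (nat_lit 6) (nat_lit 155) (nat_lit 4) (nat_lit 36) (nat_lit 47) (nat_lit 40))))))) (PT.nd (nat_lit 1128) (PT.nd (nat_lit 564) (PT.nd (nat_lit 282) (PT.nd (nat_lit 94) (PT.lf (nat_lit 12936) (nat_lit 6) (nat_lit 154) (nat_lit 4) (nat_lit 37) (nat_lit 47) (nat_lit 39)) (PT.nd (nat_lit 94) (PT.lf (nat_lit 12852) (nat_lit 3) (nat_lit 153) (nat_lit 2) (nat_lit 38) (nat_lit 47) (nat_lit 38)) (PT.lf (nat_lit 12936) (nat_lit 6) (nat_lit 154) (nat_lit 2) (nat_lit 39) (nat_lit 47) (nat_lit 37)))) (PT.nd (nat_lit 94) (PT.lf (nat_lit 13020) (nat_lit 6) (nat_lit 155) (nat_lit 2) (nat_lit 40) (nat_lit 47) (nat_lit 36)) (PT.nd (nat_lit 94) (PT.lf (nat_lit 13104) (nat_lit 6) (nat_lit 156) (nat_lit 2) (nat_lit 41) (nat_lit 47) (nat_lit 35)) (PT.lf (nat_lit 12600) (nat_lit 6) (nat_lit 150)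 (nat_lit 2) (nat_lit 42) (nat_lit 47) (nat_lit 34))))) (PT.nd (nat_lit 282) (PT.nd (nat_lit 94) (PT.lf (nat_lit 12012) (nat_lit 6) (nat_lit 143) (nat_lit 2) (nat_lit 43) (nat_lit 47) (nat_lit 33)) (PT.nd (nat_lit 94) (PT.lf (nat_lit 11340) (nat_lit 6) (nat_lit 135) (nat_lit 2) (nat_lit 44) (nat_lit 47) (nat_lit 32)) (PT.lf (nat_lit 10584) (nat_lit 6) (nat_lit 126) (nat_lit 2) (nat_lit 45) (nat_lit 47) (nat_lit 31)))) (PT.nd (nat_lit 94) (PT.lf (nat_lit 9744) (nat_lit 6) (nat_lit 116) (nat_lit 2) (nat_lit 46) (nat_lit 47) (nat_lit 30)) (PT.nd (nat_lit 94) (PT.lf (nat_lit 8820) (nat_lit 3) (nat_lit 105) (nat_lit 0) (nat_lit 47) (nat_lit 47) (nat_lit 29)) (PT.lf (nat_lit 7728) (nat_lit 6) (nat_lit 92) (nat_lit 0) (nat_lit 48) (nat_lit 47) (nat_lit 28)))))) (PT.nd (nat_lit 51418) (PT.nd (nat_lit 282) (PT.nd (nat_lit 94) (PT.lf (nat_lit 7056) (nat_lit 6) (nat_lit 84) (nat_lit 0) (nat_lit 49) (nat_lit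 47) (nat_lit 27)) (PT.nd (nat_lit 94) (PT.lf (nat_lit 6468) (nat_lit 6) (nat_lit 77) (nat_lit 0) (nat_lit 50) (nat_lit 47) (nat_lit 26)) (PT.lf (nat_lit 5880) (nat_lit 6) (nat_lit 70) (nat_lit 0) (nat_lit 51) (nat_lit 47) (nat_lit 25)))) (PT.nd (nat_lit 94) (PT.lf (nat_lit 5376) (nat_lit 6) (nat_lit 64) (nat_lit 0) (nat_lit 52) (nat_lit 47) (nat_lit 24)) (PT.nd (nat_lit 94) (PT.lf (nat_lit 4872) (nat_lit 6) (nat_lit 58) (nat_lit 0) (nat_lit 53) (nat_lit 47) (nat_lit 23)) (PT.lf (nat_lit 4452) (nat_lit 6) (nat_lit 53) (nat_lit 0) (nat_lit 54) (nat_lit 47) (nat_lit 22))))) (PT.nd (nat_lit 282) (PT.nd (nat_lit 94) (PT.lf (nat_lit 4032) (nat_lit 6) (nat_lit 48) (nat_lit 5) (nat_lit 21) (nat_lit 48) (nat_lit 54)) (PT.nd (nat_lit 94) (PT.lf (nat_lit 4536) (nat_lit 6) (nat_lit 54) (nat_lit 5) (nat_lit 22) (nat_lit 48) (nat_lit 53)) (PT.lf (nat_lit 4956) (nat_lit 6) (nat_lit 59) (nat_lit 5) (nat_lit 23)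 (nat_lit 48) (nat_lit 52)))) (PT.nd (nat_lit 94) (PT.lf (nat_lit 5460) (nat_lit 6) (nat_lit 65) (nat_lit 5) (nat_lit 24) (nat_lit 48) (nat_lit 51)) (PT.nd (nat_lit 94) (PT.lf (nat_lit 5964) (nat_lit 6) (nat_lit 71) (nat_lit 5) (nat_lit 25) (nat_lit 48) (nat_lit 50)) (PT.lf (nat_lit 6552) (nat_lit 6) (nat_lit 78) (nat_lit 5) (nat_lit 26) (nat_lit 48) (nat_lit 49))))))))
noncomputable def pc11 : PT := (PT.nd (nat_lit 2256) (PT.nd (nat_lit 1128) (PT.nd (nat_lit 564) (PT.nd (nat_lit 282) (PT.nd (nat_lit 94) (PT.lf (nat_lit 7140) (nat_lit 3) (nat_lit 85) (nat_lit 4) (nat_lit 27) (nat_lit 48) (nat_lit 48)) (PT.nd (nat_lit 94) (PT.lf (nat_lit 7728) (nat_lit 6) (nat_lit 92) (nat_lit 4) (nat_lit 28) (nat_lit 48) (nat_lit 47)) (PT.lf (nat_lit 8736) (nat_lit 6) (nat_lit 104) (nat_lit 4) (nat_lit 29) (nat_lit 48) (nat_lit 46)))) (PT.nd (nat_lit 94) (PT.lf (nat_lit 9660) (nat_lit 6) (nat_lit 115) (nat_lit 4)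 (nat_lit 30) (nat_lit 48) (nat_lit 45)) (PT.nd (nat_lit 94) (PT.lf (nat_lit 10500) (nat_lit 6) (nat_lit 125) (nat_lit 4) (nat_lit 31) (nat_lit 48) (nat_lit 44)) (PT.lf (nat_lit 11256) (nat_lit 6) (nat_lit 134) (nat_lit 4) (nat_lit 32) (nat_lit 48) (nat_lit 43))))) (PT.nd (nat_lit 282) (PT.nd (nat_lit 94) (PT.lf (nat_lit 11928) (nat_lit 6) (nat_lit 142) (nat_lit 4) (nat_lit 33) (nat_lit 48) (nat_lit 42)) (PT.nd (nat_lit 94) (PT.lf (nat_lit 12516) (nat_lit 6) (nat_lit 149) (nat_lit 4) (nat_lit 34) (nat_lit 48) (nat_lit 41)) (PT.lf (nat_lit 12432) (nat_lit 6) (nat_lit 148) (nat_lit 4) (nat_lit 35) (nat_lit 48) (nat_lit 40)))) (PT.nd (nat_lit 94) (PT.lf (nat_lit 12348) (nat_lit 6) (nat_lit 147) (nat_lit 4) (nat_lit 36) (nat_lit 48) (nat_lit 39)) (PT.nd (nat_lit 94) (PT.lf (nat_lit 12264) (nat_lit 6) (nat_lit 146) (nat_lit 4) (nat_lit 37) (nat_lit 48) (nat_lit 38)) (PT.lf (nat_lit 12264) (nat_lit 6)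 (nat_lit 146) (nat_lit 2) (nat_lit 38) (nat_lit 48) (nat_lit 37)))))) (PT.nd (nat_lit 564) (PT.nd (nat_lit 282) (PT.nd (nat_lit 94) (PT.lf (nat_lit 12348) (nat_lit 6) (nat_lit 147) (nat_lit 2) (nat_lit 39) (nat_lit 48) (nat_lit 36)) (PT.nd (nat_lit 94) (PT.lf (nat_lit 12432) (nat_lit 6) (nat_lit 148) (nat_lit 2) (nat_lit 40) (nat_lit 48) (nat_lit 35)) (PT.lf (nat_lit 12516) (nat_lit 6) (nat_lit 149) (nat_lit 2) (nat_lit 41) (nat_lit 48) (nat_lit 34)))) (PT.nd (nat_lit 94) (PT.lf (nat_lit 11928) (nat_lit 6) (nat_lit 142) (nat_lit 2) (nat_lit 42) (nat_lit 48) (nat_lit 33)) (PT.nd (nat_lit 94) (PT.lf (nat_lit 11256) (nat_lit 6) (nat_lit 134) (nat_lit 2) (nat_lit 43) (nat_lit 48) (nat_lit 32)) (PT.lf (nat_lit 10500) (nat_lit 6) (nat_lit 125) (nat_lit 2) (nat_lit 44) (nat_lit 48) (nat_lit 31))))) (PT.nd (nat_lit 282) (PT.nd (nat_lit 94) (PT.lf (nat_lit 9660) (nat_lit 6) (nat_lit 115) (nat_lit 2) (nat_lit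 45) (nat_lit 48) (nat_lit 30)) (PT.nd (nat_lit 94) (PT.lf (nat_lit 8736) (nat_lit 6) (nat_lit 104) (nat_lit 2) (nat_lit 46) (nat_lit 48) (nat_lit 29)) (PT.lf (nat_lit 7728) (nat_lit 6) (nat_lit 92) (nat_lit 2) (nat_lit 47) (nat_lit 48) (nat_lit 28)))) (PT.nd (nat_lit 94) (PT.lf (nat_lit 7140) (nat_lit 3) (nat_lit 85) (nat_lit 0) (nat_lit 48) (nat_lit 48) (nat_lit 27)) (PT.nd (nat_lit 94) (PT.lf (nat_lit 6552) (nat_lit 6) (nat_lit 78) (nat_lit 0) (nat_lit 49) (nat_lit 48) (nat_lit 26)) (PT.lf (nat_lit 5964) (nat_lit 6) (nat_lit 71) (nat_lit 0) (nat_lit 50) (nat_lit 48) (nat_lit 25))))))) (PT.nd (nat_lit 51888) (PT.nd (nat_lit 51324) (PT.nd (nat_lit 282) (PT.nd (nat_lit 94) (PT.lf (nat_lit 5460) (nat_lit 6) (nat_lit 65) (nat_lit 0) (nat_lit 51) (nat_lit 48) (nat_lit 24)) (PT.nd (nat_lit 94) (PT.lf (nat_lit 4956) (nat_lit 6) (nat_lit 59) (nat_lit 0) (nat_lit 52) (nat_lit 48) (nat_lit 23)) (PT.lf (nat_lit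 4536) (nat_lit 6) (nat_lit 54) (nat_lit 0) (nat_lit 53) (nat_lit 48) (nat_lit 22)))) (PT.nd (nat_lit 50854) (PT.lf (nat_lit 4032) (nat_lit 6) (nat_lit 48) (nat_lit 0) (nat_lit 54) (nat_lit 48) (nat_lit 21)) (PT.nd (nat_lit 94) (PT.lf (nat_lit 3696) (nat_lit 6) (nat_lit 44) (nat_lit 5) (nat_lit 20) (nat_lit 49) (nat_lit 54)) (PT.lf (nat_lit 4116) (nat_lit 6) (nat_lit 49) (nat_lit 5) (nat_lit 21) (nat_lit 49) (nat_lit 53))))) (PT.nd (nat_lit 282) (PT.nd (nat_lit 94) (PT.lf (nat_lit 4620) (nat_lit 6) (nat_lit 55) (nat_lit 5) (nat_lit 22) (nat_lit 49) (nat_lit 52)) (PT.nd (nat_lit 94) (PT.lf (nat_lit 5040) (nat_lit 6) (nat_lit 60) (nat_lit 5) (nat_lit 23) (nat_lit 49) (nat_lit 51)) (PT.lf (nat_lit 5544) (nat_lit 6) (nat_lit 66) (nat_lit 5) (nat_lit 24) (nat_lit 49) (nat_lit 50)))) (PT.nd (nat_lit 94) (PT.lf (nat_lit 6048) (nat_lit 3) (nat_lit 72) (nat_lit 4) (nat_lit 25) (nat_lit 49) (nat_lit 49))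 (PT.nd (nat_lit 94) (PT.lf (nat_lit 6552) (nat_lit 6) (nat_lit 78) (nat_lit 4) (nat_lit 26) (nat_lit 49) (nat_lit 48)) (PT.lf (nat_lit 7056) (nat_lit 6) (nat_lit 84) (nat_lit 4) (nat_lit 27) (nat_lit 49) (nat_lit 47)))))) (PT.nd (nat_lit 564) (PT.nd (nat_lit 282) (PT.nd (nat_lit 94) (PT.lf (nat_lit 7644) (nat_lit 6) (nat_lit 91) (nat_lit 4) (nat_lit 28) (nat_lit 49) (nat_lit 46)) (PT.nd (nat_lit 94) (PT.lf (nat_lit 8652) (nat_lit 6) (nat_lit 103) (nat_lit 4) (nat_lit 29) (nat_lit 49) (nat_lit 45)) (PT.lf (nat_lit 9576) (nat_lit 6) (nat_lit 114) (nat_lit 4) (nat_lit 30) (nat_lit 49) (nat_lit 44)))) (PT.nd (nat_lit 94) (PT.lf (nat_lit 10416) (nat_lit 6) (nat_lit 124) (nat_lit 4) (nat_lit 31) (nat_lit 49) (nat_lit 43)) (PT.nd (nat_lit 94) (PT.lf (nat_lit 11172) (nat_lit 6) (nat_lit 133) (nat_lit 4) (nat_lit 32) (nat_lit 49) (nat_lit 42)) (PT.lf (nat_lit 11844) (nat_lit 6) (nat_lit 141) (nat_lit 4)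 (nat_lit 33) (nat_lit 49) (nat_lit 41))))) (PT.nd (nat_lit 282) (PT.nd (nat_lit 94) (PT.lf (nat_lit 11760) (nat_lit 6) (nat_lit 140) (nat_lit 4) (nat_lit 34) (nat_lit 49) (nat_lit 40)) (PT.nd (nat_lit 94) (PT.lf (nat_lit 11676) (nat_lit 6) (nat_lit 139) (nat_lit 4) (nat_lit 35) (nat_lit 49) (nat_lit 39)) (PT.lf (nat_lit 11592) (nat_lit 6) (nat_lit 138) (nat_lit 4) (nat_lit 36) (nat_lit 49) (nat_lit 38)))) (PT.nd (nat_lit 188) (PT.nd (nat_lit 94) (PT.lf (nat_lit 11508) (nat_lit 3) (nat_lit 137) (nat_lit 2) (nat_lit 37) (nat_lit 49) (nat_lit 37)) (PT.lf (nat_lit 11592) (nat_lit 6) (nat_lit 138) (nat_lit 2) (nat_lit 38) (nat_lit 49) (nat_lit 36))) (PT.nd (nat_lit 94) (PT.lf (nat_lit 11676) (nat_lit 6) (nat_lit 139) (nat_lit 2) (nat_lit 39) (nat_lit 49) (nat_lit 35)) (PT.lf (nat_lit 11760) (nat_lit 6) (nat_lit 140) (nat_lit 2) (nat_lit 40) (nat_lit 49) (nat_lit 34))))))))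
noncomputable def pc12 : PT := (PT.nd (nat_lit 52922) (PT.nd (nat_lit 1128) (PT.nd (nat_lit 564) (PT.nd (nat_lit 282) (PT.nd (nat_lit 94) (PT.lf (nat_lit 11844) (nat_lit 6) (nat_lit 141) (nat_lit 2) (nat_lit 41) (nat_lit 49) (nat_lit 33)) (PT.nd (nat_lit 94) (PT.lf (nat_lit 11172) (nat_lit 6) (nat_lit 133) (nat_lit 2) (nat_lit 42) (nat_lit 49) (nat_lit 32)) (PT.lf (nat_lit 10416) (nat_lit 6) (nat_lit 124) (nat_lit 2) (nat_lit 43) (nat_lit 49) (nat_lit 31)))) (PT.nd (nat_lit 94) (PT.lf (nat_lit 9576) (nat_lit 6) (nat_lit 114) (nat_lit 2) (nat_lit 44) (nat_lit 49) (nat_lit 30)) (PT.nd (nat_lit 94) (PT.lf (nat_lit 8652) (nat_lit 6) (nat_lit 103) (nat_lit 2) (nat_lit 45) (nat_lit 49) (nat_lit 29)) (PT.lf (nat_lit 7644) (nat_lit 6) (nat_lit 91) (nat_lit 2) (nat_lit 46) (nat_lit 49) (nat_lit 28))))) (PT.nd (nat_lit 282) (PT.nd (nat_lit 94) (PT.lf (nat_lit 7056) (nat_lit 6) (nat_lit 84) (nat_lit 2) (nat_lit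 47) (nat_lit 49) (nat_lit 27)) (PT.nd (nat_lit 94) (PT.lf (nat_lit 6552) (nat_lit 6) (nat_lit 78) (nat_lit 2) (nat_lit 48) (nat_lit 49) (nat_lit 26)) (PT.lf (nat_lit 6048) (nat_lit 3) (nat_lit 72) (nat_lit 0) (nat_lit 49) (nat_lit 49) (nat_lit 25)))) (PT.nd (nat_lit 94) (PT.lf (nat_lit 5544) (nat_lit 6) (nat_lit 66) (nat_lit 0) (nat_lit 50) (nat_lit 49) (nat_lit 24)) (PT.nd (nat_lit 94) (PT.lf (nat_lit 5040) (nat_lit 6) (nat_lit 60) (nat_lit 0) (nat_lit 51) (nat_lit 49) (nat_lit 23)) (PT.lf (nat_lit 4620) (nat_lit 6) (nat_lit 55) (nat_lit 0) (nat_lit 52) (nat_lit 49) (nat_lit 22)))))) (PT.nd (nat_lit 51230) (PT.nd (nat_lit 50948) (PT.nd (nat_lit 94) (PT.lf (nat_lit 4116) (nat_lit 6) (nat_lit 49) (nat_lit 0) (nat_lit 53) (nat_lit 49) (nat_lit 21)) (PT.nd (nat_lit 50760) (PT.lf (nat_lit 3696) (nat_lit 6) (nat_lit 44) (nat_lit 0) (nat_lit 54) (nat_lit 49) (nat_lit 20)) (PT.lf (nat_lit 3360) (nat_lit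 6) (nat_lit 40) (nat_lit 5) (nat_lit 19) (nat_lit 50) (nat_lit 54)))) (PT.nd (nat_lit 94) (PT.lf (nat_lit 3780) (nat_lit 6) (nat_lit 45) (nat_lit 5) (nat_lit 20) (nat_lit 50) (nat_lit 53)) (PT.nd (nat_lit 94) (PT.lf (nat_lit 4200) (nat_lit 6) (nat_lit 50) (nat_lit 5) (nat_lit 21) (nat_lit 50) (nat_lit 52)) (PT.lf (nat_lit 4704) (nat_lit 6) (nat_lit 56) (nat_lit 5) (nat_lit 22) (nat_lit 50) (nat_lit 51))))) (PT.nd (nat_lit 282) (PT.nd (nat_lit 94) (PT.lf (nat_lit 5124) (nat_lit 3) (nat_lit 61) (nat_lit 4) (nat_lit 23) (nat_lit 50) (nat_lit 50)) (PT.nd (nat_lit 94) (PT.lf (nat_lit 5544) (nat_lit 6) (nat_lit 66) (nat_lit 4) (nat_lit 24) (nat_lit 50) (nat_lit 49)) (PT.lf (nat_lit 5964) (nat_lit 6) (nat_lit 71) (nat_lit 4) (nat_lit 25) (nat_lit 50) (nat_lit 48)))) (PT.nd (nat_lit 94) (PT.lf (nat_lit 6468) (nat_lit 6) (nat_lit 77) (nat_lit 4) (nat_lit 26) (nat_lit 50) (nat_lit 47)) (PT.nd (nat_lit 94)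 (PT.lf (nat_lit 6972) (nat_lit 6) (nat_lit 83) (nat_lit 4) (nat_lit 27) (nat_lit 50) (nat_lit 46)) (PT.lf (nat_lit 7560) (nat_lit 6) (nat_lit 90) (nat_lit 4) (nat_lit 28) (nat_lit 50) (nat_lit 45))))))) (PT.nd (nat_lit 1128) (PT.nd (nat_lit 564) (PT.nd (nat_lit 282) (PT.nd (nat_lit 94) (PT.lf (nat_lit 8568) (nat_lit 6) (nat_lit 102) (nat_lit 4) (nat_lit 29) (nat_lit 50) (nat_lit 44)) (PT.nd (nat_lit 94) (PT.lf (nat_lit 9492) (nat_lit 6) (nat_lit 113) (nat_lit 4) (nat_lit 30) (nat_lit 50) (nat_lit 43)) (PT.lf (nat_lit 10332) (nat_lit 6) (nat_lit 123) (nat_lit 4) (nat_lit 31) (nat_lit 50) (nat_lit 42)))) (PT.nd (nat_lit 94) (PT.lf (nat_lit 11088) (nat_lit 6) (nat_lit 132) (nat_lit 4) (nat_lit 32) (nat_lit 50) (nat_lit 41)) (PT.nd (nat_lit 94) (PT.lf (nat_lit 11004) (nat_lit 6) (nat_lit 131) (nat_lit 4) (nat_lit 33) (nat_lit 50) (nat_lit 40)) (PT.lf (nat_lit 10920) (nat_lit 6) (nat_lit 130) (nat_lit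 4) (nat_lit 34) (nat_lit 50) (nat_lit 39))))) (PT.nd (nat_lit 282) (PT.nd (nat_lit 94) (PT.lf (nat_lit 10836) (nat_lit 6) (nat_lit 129) (nat_lit 4) (nat_lit 35) (nat_lit 50) (nat_lit 38)) (PT.nd (nat_lit 94) (PT.lf (nat_lit 10752) (nat_lit 6) (nat_lit 128) (nat_lit 4) (nat_lit 36) (nat_lit 50) (nat_lit 37)) (PT.lf (nat_lit 10752) (nat_lit 6) (nat_lit 128) (nat_lit 2) (nat_lit 37) (nat_lit 50) (nat_lit 36)))) (PT.nd (nat_lit 94) (PT.lf (nat_lit 10836) (nat_lit 6) (nat_lit 129) (nat_lit 2) (nat_lit 38) (nat_lit 50) (nat_lit 35)) (PT.nd (nat_lit 94) (PT.lf (nat_lit 10920) (nat_lit 6) (nat_lit 130) (nat_lit 2) (nat_lit 39) (nat_lit 50) (nat_lit 34)) (PT.lf (nat_lit 11004) (nat_lit 6) (nat_lit 131) (nat_lit 2) (nat_lit 40) (nat_lit 50) (nat_lit 33)))))) (PT.nd (nat_lit 564) (PT.nd (nat_lit 282) (PT.nd (nat_lit 94) (PT.lf (nat_lit 11088) (nat_lit 6) (nat_lit 132) (nat_lit 2) (nat_lit 41) (nat_lit 50)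 (nat_lit 32)) (PT.nd (nat_lit 94) (PT.lf (nat_lit 10332) (nat_lit 6) (nat_lit 123) (nat_lit 2) (nat_lit 42) (nat_lit 50) (nat_lit 31)) (PT.lf (nat_lit 9492) (nat_lit 6) (nat_lit 113) (nat_lit 2) (nat_lit 43) (nat_lit 50) (nat_lit 30)))) (PT.nd (nat_lit 94) (PT.lf (nat_lit 8568) (nat_lit 6) (nat_lit 102) (nat_lit 2) (nat_lit 44) (nat_lit 50) (nat_lit 29)) (PT.nd (nat_lit 94) (PT.lf (nat_lit 7560) (nat_lit 6) (nat_lit 90) (nat_lit 2) (nat_lit 45) (nat_lit 50) (nat_lit 28)) (PT.lf (nat_lit 6972) (nat_lit 6) (nat_lit 83) (nat_lit 2) (nat_lit 46) (nat_lit 50) (nat_lit 27))))) (PT.nd (nat_lit 282) (PT.nd (nat_lit 94) (PT.lf (nat_lit 6468) (nat_lit 6) (nat_lit 77) (nat_lit 2) (nat_lit 47) (nat_lit 50) (nat_lit 26)) (PT.nd (nat_lit 94) (PT.lf (nat_lit 5964) (nat_lit 6) (nat_lit 71) (nat_lit 2) (nat_lit 48) (nat_lit 50) (nat_lit 25)) (PT.lf (nat_lit 5544) (nat_lit 6) (nat_lit 66) (nat_lit 2) (nat_lit 49)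 (nat_lit 50) (nat_lit 24)))) (PT.nd (nat_lit 94) (PT.lf (nat_lit 5124) (nat_lit 3) (nat_lit 61) (nat_lit 0) (nat_lit 50) (nat_lit 50) (nat_lit 23)) (PT.nd (nat_lit 94) (PT.lf (nat_lit 4704) (nat_lit 6) (nat_lit 56) (nat_lit 0) (nat_lit 51) (nat_lit 50) (nat_lit 22)) (PT.lf (nat_lit 4200) (nat_lit 6) (nat_lit 50) (nat_lit 0) (nat_lit 52) (nat_lit 50) (nat_lit 21))))))))
noncomputable def pc13 : PT := (PT.nd (nat_lit 52828) (PT.nd (nat_lit 51700) (PT.nd (nat_lit 51136) (PT.nd (nat_lit 50854) (PT.nd (nat_lit 94) (PT.lf (nat_lit 3780) (nat_lit 6) (nat_lit 45) (nat_lit 0) (nat_lit 53) (nat_lit 50) (nat_lit 20)) (PT.nd (nat_lit 50666) (PT.lf (nat_lit 3360) (nat_lit 6) (nat_lit 40) (nat_lit 0) (nat_lit 54) (nat_lit 50) (nat_lit 19)) (PT.lf (nat_lit 3108) (nat_lit 6) (nat_lit 37) (nat_lit 5) (nat_lit 18) (nat_lit 51) (nat_lit 54)))) (PT.nd (nat_lit 94) (PT.lf (nat_lit 3444) (nat_lit 6) (nat_lit 41) (nat_lit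 5) (nat_lit 19) (nat_lit 51) (nat_lit 53)) (PT.nd (nat_lit 94) (PT.lf (nat_lit 3864) (nat_lit 6) (nat_lit 46) (nat_lit 5) (nat_lit 20) (nat_lit 51) (nat_lit 52)) (PT.lf (nat_lit 4284) (nat_lit 3) (nat_lit 51) (nat_lit 4) (nat_lit 21) (nat_lit 51) (nat_lit 51))))) (PT.nd (nat_lit 282) (PT.nd (nat_lit 94) (PT.lf (nat_lit 4704) (nat_lit 6) (nat_lit 56) (nat_lit 4) (nat_lit 22) (nat_lit 51) (nat_lit 50)) (PT.nd (nat_lit 94) (PT.lf (nat_lit 5040) (nat_lit 6) (nat_lit 60) (nat_lit 4) (nat_lit 23) (nat_lit 51) (nat_lit 49)) (PT.lf (nat_lit 5460) (nat_lit 6) (nat_lit 65) (nat_lit 4) (nat_lit 24) (nat_lit 51) (nat_lit 48)))) (PT.nd (nat_lit 94) (PT.lf (nat_lit 5880) (nat_lit 6) (nat_lit 70) (nat_lit 4) (nat_lit 25) (nat_lit 51) (nat_lit 47)) (PT.nd (nat_lit 94) (PT.lf (nat_lit 6384) (nat_lit 6) (nat_lit 76) (nat_lit 4) (nat_lit 26) (nat_lit 51) (nat_lit 46)) (PT.lf (nat_lit 6888) (nat_lit 6) (nat_lit 82)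 (nat_lit 4) (nat_lit 27) (nat_lit 51) (nat_lit 45)))))) (PT.nd (nat_lit 564) (PT.nd (nat_lit 282) (PT.nd (nat_lit 94) (PT.lf (nat_lit 7476) (nat_lit 6) (nat_lit 89) (nat_lit 4) (nat_lit 28) (nat_lit 51) (nat_lit 44)) (PT.nd (nat_lit 94) (PT.lf (nat_lit 8484) (nat_lit 6) (nat_lit 101) (nat_lit 4) (nat_lit 29) (nat_lit 51) (nat_lit 43)) (PT.lf (nat_lit 9408) (nat_lit 6) (nat_lit 112) (nat_lit 4) (nat_lit 30) (nat_lit 51) (nat_lit 42)))) (PT.nd (nat_lit 94) (PT.lf (nat_lit 10248) (nat_lit 6) (nat_lit 122) (nat_lit 4) (nat_lit 31) (nat_lit 51) (nat_lit 41)) (PT.nd (nat_lit 94) (PT.lf (nat_lit 10164) (nat_lit 6) (nat_lit 121) (nat_lit 4) (nat_lit 32) (nat_lit 51) (nat_lit 40)) (PT.lf (nat_lit 10080) (nat_lit 6) (nat_lit 120) (nat_lit 4) (nat_lit 33) (nat_lit 51) (nat_lit 39))))) (PT.nd (nat_lit 282) (PT.nd (nat_lit 94) (PT.lf (nat_lit 9996) (nat_lit 6) (nat_lit 119) (nat_lit 4) (nat_lit 34) (nat_lit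 51) (nat_lit 38)) (PT.nd (nat_lit 94) (PT.lf (nat_lit 9912) (nat_lit 6) (nat_lit 118) (nat_lit 4) (nat_lit 35) (nat_lit 51) (nat_lit 37)) (PT.lf (nat_lit 9828) (nat_lit 3) (nat_lit 117) (nat_lit 2) (nat_lit 36) (nat_lit 51) (nat_lit 36)))) (PT.nd (nat_lit 94) (PT.lf (nat_lit 9912) (nat_lit 6) (nat_lit 118) (nat_lit 2) (nat_lit 37) (nat_lit 51) (nat_lit 35)) (PT.nd (nat_lit 94) (PT.lf (nat_lit 9996) (nat_lit 6) (nat_lit 119) (nat_lit 2) (nat_lit 38) (nat_lit 51) (nat_lit 34)) (PT.lf (nat_lit 10080) (nat_lit 6) (nat_lit 120) (nat_lit 2) (nat_lit 39) (nat_lit 51) (nat_lit 33))))))) (PT.nd (nat_lit 1128) (PT.nd (nat_lit 564) (PT.nd (nat_lit 282) (PT.nd (nat_lit 94) (PT.lf (nat_lit 10164) (nat_lit 6) (nat_lit 121) (nat_lit 2) (nat_lit 40) (nat_lit 51) (nat_lit 32)) (PT.nd (nat_lit 94) (PT.lf (nat_lit 10248) (nat_lit 6) (nat_lit 122) (nat_lit 2) (nat_lit 41) (nat_lit 51) (nat_lit 31)) (PT.lf (nat_lit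 9408) (nat_lit 6) (nat_lit 112) (nat_lit 2) (nat_lit 42) (nat_lit 51) (nat_lit 30)))) (PT.nd (nat_lit 94) (PT.lf (nat_lit 8484) (nat_lit 6) (nat_lit 101) (nat_lit 2) (nat_lit 43) (nat_lit 51) (nat_lit 29)) (PT.nd (nat_lit 94) (PT.lf (nat_lit 7476) (nat_lit 6) (nat_lit 89) (nat_lit 2) (nat_lit 44) (nat_lit 51) (nat_lit 28)) (PT.lf (nat_lit 6888) (nat_lit 6) (nat_lit 82) (nat_lit 2) (nat_lit 45) (nat_lit 51) (nat_lit 27))))) (PT.nd (nat_lit 282) (PT.nd (nat_lit 94) (PT.lf (nat_lit 6384) (nat_lit 6) (nat_lit 76) (nat_lit 2) (nat_lit 46) (nat_lit 51) (nat_lit 26)) (PT.nd (nat_lit 94) (PT.lf (nat_lit 5880) (nat_lit 6) (nat_lit 70) (nat_lit 2) (nat_lit 47) (nat_lit 51) (nat_lit 25)) (PT.lf (nat_lit 5460) (nat_lit 6) (nat_lit 65) (nat_lit 2) (nat_lit 48) (nat_lit 51) (nat_lit 24)))) (PT.nd (nat_lit 94) (PT.lf (nat_lit 5040) (nat_lit 6) (nat_lit 60) (nat_lit 2) (nat_lit 49) (nat_lit 51) (nat_lit 23)) (PT.nd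 (nat_lit 94) (PT.lf (nat_lit 4704) (nat_lit 6) (nat_lit 56) (nat_lit 2) (nat_lit 50) (nat_lit 51) (nat_lit 22)) (PT.lf (nat_lit 4284) (nat_lit 3) (nat_lit 51) (nat_lit 0) (nat_lit 51) (nat_lit 51) (nat_lit 21)))))) (PT.nd (nat_lit 50948) (PT.nd (nat_lit 50666) (PT.nd (nat_lit 94) (PT.lf (nat_lit 3864) (nat_lit 6) (nat_lit 46) (nat_lit 0) (nat_lit 52) (nat_lit 51) (nat_lit 20)) (PT.nd (nat_lit 94) (PT.lf (nat_lit 3444) (nat_lit 6) (nat_lit 41) (nat_lit 0) (nat_lit 53) (nat_lit 51) (nat_lit 19)) (PT.lf (nat_lit 3108) (nat_lit 6) (nat_lit 37) (nat_lit 0) (nat_lit 54) (nat_lit 51) (nat_lit 18)))) (PT.nd (nat_lit 94) (PT.lf (nat_lit 2436) (nat_lit 6) (nat_lit 29) (nat_lit 5) (nat_lit 16) (nat_lit 52) (nat_lit 55)) (PT.nd (nat_lit 94) (PT.lf (nat_lit 2772) (nat_lit 6) (nat_lit 33) (nat_lit 5) (nat_lit 17) (nat_lit 52) (nat_lit 54)) (PT.lf (nat_lit 3192) (nat_lit 6) (nat_lit 38) (nat_lit 5) (nat_lit 18)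 (nat_lit 52) (nat_lit 53))))) (PT.nd (nat_lit 282) (PT.nd (nat_lit 94) (PT.lf (nat_lit 3528) (nat_lit 3) (nat_lit 42) (nat_lit 4) (nat_lit 19) (nat_lit 52) (nat_lit 52)) (PT.nd (nat_lit 94) (PT.lf (nat_lit 3864) (nat_lit 6) (nat_lit 46) (nat_lit 4) (nat_lit 20) (nat_lit 52) (nat_lit 51)) (PT.lf (nat_lit 4200) (nat_lit 6) (nat_lit 50) (nat_lit 4) (nat_lit 21) (nat_lit 52) (nat_lit 50)))) (PT.nd (nat_lit 188) (PT.nd (nat_lit 94) (PT.lf (nat_lit 4620) (nat_lit 6) (nat_lit 55) (nat_lit 4) (nat_lit 22) (nat_lit 52) (nat_lit 49)) (PT.lf (nat_lit 4956) (nat_lit 6) (nat_lit 59) (nat_lit 4) (nat_lit 23) (nat_lit 52) (nat_lit 48))) (PT.nd (nat_lit 94) (PT.lf (nat_lit 5376) (nat_lit 6) (nat_lit 64) (nat_lit 4) (nat_lit 24) (nat_lit 52) (nat_lit 47)) (PT.lf (nat_lit 5796) (nat_lit 6) (nat_lit 69) (nat_lit 4) (nat_lit 25) (nat_lit 52) (nat_lit 46))))))))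
noncomputable def pc14 : PT := (PT.nd (nat_lit 2256) (PT.nd (nat_lit 1128) (PT.nd (nat_lit 564) (PT.nd (nat_lit 282) (PT.nd (nat_lit 94) (PT.lf (nat_lit 6300) (nat_lit 6) (nat_lit 75) (nat_lit 4) (nat_lit 26) (nat_lit 52) (nat_lit 45)) (PT.nd (nat_lit 94) (PT.lf (nat_lit 6804) (nat_lit 6) (nat_lit 81) (nat_lit 4) (nat_lit 27) (nat_lit 52) (nat_lit 44)) (PT.lf (nat_lit 7392) (nat_lit 6) (nat_lit 88) (nat_lit 4) (nat_lit 28) (nat_lit 52) (nat_lit 43)))) (PT.nd (nat_lit 94) (PT.lf (nat_lit 8400) (nat_lit 6) (nat_lit 100) (nat_lit 4) (nat_lit 29) (nat_lit 52) (nat_lit 42)) (PT.nd (nat_lit 94) (PT.lf (nat_lit 9324) (nat_lit 6) (nat_lit 111) (nat_lit 4) (nat_lit 30) (nat_lit 52) (nat_lit 41)) (PT.lf (nat_lit 9240) (nat_lit 6) (nat_lit 110) (nat_lit 4) (nat_lit 31) (nat_lit 52) (nat_lit 40))))) (PT.nd (nat_lit 282) (PT.nd (nat_lit 94) (PT.lf (nat_lit 9156) (nat_lit 6) (nat_lit 109) (nat_lit 4) (nat_lit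 32) (nat_lit 52) (nat_lit 39)) (PT.nd (nat_lit 94) (PT.lf (nat_lit 9072) (nat_lit 6) (nat_lit 108) (nat_lit 4) (nat_lit 33) (nat_lit 52) (nat_lit 38)) (PT.lf (nat_lit 8988) (nat_lit 6) (nat_lit 107) (nat_lit 4) (nat_lit 34) (nat_lit 52) (nat_lit 37)))) (PT.nd (nat_lit 94) (PT.lf (nat_lit 8904) (nat_lit 6) (nat_lit 106) (nat_lit 4) (nat_lit 35) (nat_lit 52) (nat_lit 36)) (PT.nd (nat_lit 94) (PT.lf (nat_lit 8904) (nat_lit 6) (nat_lit 106) (nat_lit 2) (nat_lit 36) (nat_lit 52) (nat_lit 35)) (PT.lf (nat_lit 8988) (nat_lit 6) (nat_lit 107) (nat_lit 2) (nat_lit 37) (nat_lit 52) (nat_lit 34)))))) (PT.nd (nat_lit 564) (PT.nd (nat_lit 282) (PT.nd (nat_lit 94) (PT.lf (nat_lit 9072) (nat_lit 6) (nat_lit 108) (nat_lit 2) (nat_lit 38) (nat_lit 52) (nat_lit 33)) (PT.nd (nat_lit 94) (PT.lf (nat_lit 9156) (nat_lit 6) (nat_lit 109) (nat_lit 2) (nat_lit 39) (nat_lit 52) (nat_lit 32)) (PT.lf (nat_lit 9240) (nat_lit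 6) (nat_lit 110) (nat_lit 2) (nat_lit 40) (nat_lit 52) (nat_lit 31)))) (PT.nd (nat_lit 94) (PT.lf (nat_lit 9324) (nat_lit 6) (nat_lit 111) (nat_lit 2) (nat_lit 41) (nat_lit 52) (nat_lit 30)) (PT.nd (nat_lit 94) (PT.lf (nat_lit 8400) (nat_lit 6) (nat_lit 100) (nat_lit 2) (nat_lit 42) (nat_lit 52) (nat_lit 29)) (PT.lf (nat_lit 7392) (nat_lit 6) (nat_lit 88) (nat_lit 2) (nat_lit 43) (nat_lit 52) (nat_lit 28))))) (PT.nd (nat_lit 282) (PT.nd (nat_lit 94) (PT.lf (nat_lit 6804) (nat_lit 6) (nat_lit 81) (nat_lit 2) (nat_lit 44) (nat_lit 52) (nat_lit 27)) (PT.nd (nat_lit 94) (PT.lf (nat_lit 6300) (nat_lit 6) (nat_lit 75) (nat_lit 2) (nat_lit 45) (nat_lit 52) (nat_lit 26)) (PT.lf (nat_lit 5796) (nat_lit 6) (nat_lit 69) (nat_lit 2) (nat_lit 46) (nat_lit 52) (nat_lit 25)))) (PT.nd (nat_lit 94) (PT.lf (nat_lit 5376) (nat_lit 6) (nat_lit 64) (nat_lit 2) (nat_lit 47) (nat_lit 52) (nat_lit 24)) (PT.nd (nat_lit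 94) (PT.lf (nat_lit 4956) (nat_lit 6) (nat_lit 59) (nat_lit 2) (nat_lit 48) (nat_lit 52) (nat_lit 23)) (PT.lf (nat_lit 4620) (nat_lit 6) (nat_lit 55) (nat_lit 2) (nat_lit 49) (nat_lit 52) (nat_lit 22))))))) (PT.nd (nat_lit 51418) (PT.nd (nat_lit 50854) (PT.nd (nat_lit 282) (PT.nd (nat_lit 94) (PT.lf (nat_lit 4200) (nat_lit 6) (nat_lit 50) (nat_lit 2) (nat_lit 50) (nat_lit 52) (nat_lit 21)) (PT.nd (nat_lit 94) (PT.lf (nat_lit 3864) (nat_lit 6) (nat_lit 46) (nat_lit 2) (nat_lit 51) (nat_lit 52) (nat_lit 20)) (PT.lf (nat_lit 3528) (nat_lit 3) (nat_lit 42) (nat_lit 0) (nat_lit 52) (nat_lit 52) (nat_lit 19)))) (PT.nd (nat_lit 94) (PT.lf (nat_lit 3192) (nat_lit 6) (nat_lit 38) (nat_lit 0) (nat_lit 53) (nat_lit 52) (nat_lit 18)) (PT.nd (nat_lit 94) (PT.lf (nat_lit 2772) (nat_lit 6) (nat_lit 33) (nat_lit 0) (nat_lit 54) (nat_lit 52) (nat_lit 17)) (PT.lf (nat_lit 2436) (nat_lit 6) (nat_lit 29) (nat_lit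 0) (nat_lit 55) (nat_lit 52) (nat_lit 16))))) (PT.nd (nat_lit 282) (PT.nd (nat_lit 94) (PT.lf (nat_lit 2520) (nat_lit 6) (nat_lit 30) (nat_lit 5) (nat_lit 16) (nat_lit 53) (nat_lit 54)) (PT.nd (nat_lit 94) (PT.lf (nat_lit 2856) (nat_lit 3) (nat_lit 34) (nat_lit 4) (nat_lit 17) (nat_lit 53) (nat_lit 53)) (PT.lf (nat_lit 3192) (nat_lit 6) (nat_lit 38) (nat_lit 4) (nat_lit 18) (nat_lit 53) (nat_lit 52)))) (PT.nd (nat_lit 94) (PT.lf (nat_lit 3444) (nat_lit 6) (nat_lit 41) (nat_lit 4) (nat_lit 19) (nat_lit 53) (nat_lit 51)) (PT.nd (nat_lit 94) (PT.lf (nat_lit 3780) (nat_lit 6) (nat_lit 45) (nat_lit 4) (nat_lit 20) (nat_lit 53) (nat_lit 50)) (PT.lf (nat_lit 4116) (nat_lit 6) (nat_lit 49) (nat_lit 4) (nat_lit 21) (nat_lit 53) (nat_lit 49)))))) (PT.nd (nat_lit 564) (PT.nd (nat_lit 282) (PT.nd (nat_lit 94) (PT.lf (nat_lit 4536) (nat_lit 6) (nat_lit 54) (nat_lit 4) (nat_lit 22) (nat_lit 53) (nat_lit 48))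 (PT.nd (nat_lit 94) (PT.lf (nat_lit 4872) (nat_lit 6) (nat_lit 58) (nat_lit 4) (nat_lit 23) (nat_lit 53) (nat_lit 47)) (PT.lf (nat_lit 5292) (nat_lit 6) (nat_lit 63) (nat_lit 4) (nat_lit 24) (nat_lit 53) (nat_lit 46)))) (PT.nd (nat_lit 94) (PT.lf (nat_lit 5712) (nat_lit 6) (nat_lit 68) (nat_lit 4) (nat_lit 25) (nat_lit 53) (nat_lit 45)) (PT.nd (nat_lit 94) (PT.lf (nat_lit 6216) (nat_lit 6) (nat_lit 74) (nat_lit 4) (nat_lit 26) (nat_lit 53) (nat_lit 44)) (PT.lf (nat_lit 6720) (nat_lit 6) (nat_lit 80) (nat_lit 4) (nat_lit 27) (nat_lit 53) (nat_lit 43))))) (PT.nd (nat_lit 282) (PT.nd (nat_lit 94) (PT.lf (nat_lit 7308) (nat_lit 6) (nat_lit 87) (nat_lit 4) (nat_lit 28) (nat_lit 53) (nat_lit 42)) (PT.nd (nat_lit 94) (PT.lf (nat_lit 8316) (nat_lit 6) (nat_lit 99) (nat_lit 4) (nat_lit 29) (nat_lit 53) (nat_lit 41)) (PT.lf (nat_lit 8232) (nat_lit 6) (nat_lit 98) (nat_lit 4) (nat_lit 30) (nat_lit 53) (nat_lit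 40)))) (PT.nd (nat_lit 94) (PT.lf (nat_lit 8148) (nat_lit 6) (nat_lit 97) (nat_lit 4) (nat_lit 31) (nat_lit 53) (nat_lit 39)) (PT.nd (nat_lit 94) (PT.lf (nat_lit 8064) (nat_lit 6) (nat_lit 96) (nat_lit 4) (nat_lit 32) (nat_lit 53) (nat_lit 38)) (PT.lf (nat_lit 7980) (nat_lit 6) (nat_lit 95) (nat_lit 4) (nat_lit 33) (nat_lit 53) (nat_lit 37))))))))
noncomputable def pc15 : PT := (PT.nd (nat_lit 52546) (PT.nd (nat_lit 1128) (PT.nd (nat_lit 564) (PT.nd (nat_lit 282) (PT.nd (nat_lit 94) (PT.lf (nat_lit 7896) (nat_lit 6) (nat_lit 94) (nat_lit 4) (nat_lit 34) (nat_lit 53) (nat_lit 36)) (PT.nd (nat_lit 94) (PT.lf (nat_lit 7812) (nat_lit 3) (nat_lit 93) (nat_lit 2) (nat_lit 35) (nat_lit 53) (nat_lit 35)) (PT.lf (nat_lit 7896) (nat_lit 6) (nat_lit 94) (nat_lit 2) (nat_lit 36) (nat_lit 53) (nat_lit 34)))) (PT.nd (nat_lit 94) (PT.lf (nat_lit 7980) (nat_lit 6) (nat_lit 95) (nat_lit 2) (nat_lit 37) (nat_lit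 53) (nat_lit 33)) (PT.nd (nat_lit 94) (PT.lf (nat_lit 8064) (nat_lit 6) (nat_lit 96) (nat_lit 2) (nat_lit 38) (nat_lit 53) (nat_lit 32)) (PT.lf (nat_lit 8148) (nat_lit 6) (nat_lit 97) (nat_lit 2) (nat_lit 39) (nat_lit 53) (nat_lit 31))))) (PT.nd (nat_lit 282) (PT.nd (nat_lit 94) (PT.lf (nat_lit 8232) (nat_lit 6) (nat_lit 98) (nat_lit 2) (nat_lit 40) (nat_lit 53) (nat_lit 30)) (PT.nd (nat_lit 94) (PT.lf (nat_lit 8316) (nat_lit 6) (nat_lit 99) (nat_lit 2) (nat_lit 41) (nat_lit 53) (nat_lit 29)) (PT.lf (nat_lit 7308) (nat_lit 6) (nat_lit 87) (nat_lit 2) (nat_lit 42) (nat_lit 53) (nat_lit 28)))) (PT.nd (nat_lit 94) (PT.lf (nat_lit 6720) (nat_lit 6) (nat_lit 80) (nat_lit 2) (nat_lit 43) (nat_lit 53) (nat_lit 27)) (PT.nd (nat_lit 94) (PT.lf (nat_lit 6216) (nat_lit 6) (nat_lit 74) (nat_lit 2) (nat_lit 44) (nat_lit 53) (nat_lit 26)) (PT.lf (nat_lit 5712) (nat_lit 6) (nat_lit 68) (nat_lit 2) (nat_lit 45)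 (nat_lit 53) (nat_lit 25)))))) (PT.nd (nat_lit 564) (PT.nd (nat_lit 282) (PT.nd (nat_lit 94) (PT.lf (nat_lit 5292) (nat_lit 6) (nat_lit 63) (nat_lit 2) (nat_lit 46) (nat_lit 53) (nat_lit 24)) (PT.nd (nat_lit 94) (PT.lf (nat_lit 4872) (nat_lit 6) (nat_lit 58) (nat_lit 2) (nat_lit 47) (nat_lit 53) (nat_lit 23)) (PT.lf (nat_lit 4536) (nat_lit 6) (nat_lit 54) (nat_lit 2) (nat_lit 48) (nat_lit 53) (nat_lit 22)))) (PT.nd (nat_lit 94) (PT.lf (nat_lit 4116) (nat_lit 6) (nat_lit 49) (nat_lit 2) (nat_lit 49) (nat_lit 53) (nat_lit 21)) (PT.nd (nat_lit 94) (PT.lf (nat_lit 3780) (nat_lit 6) (nat_lit 45) (nat_lit 2) (nat_lit 50) (nat_lit 53) (nat_lit 20)) (PT.lf (nat_lit 3444) (nat_lit 6) (nat_lit 41) (nat_lit 2) (nat_lit 51) (nat_lit 53) (nat_lit 19))))) (PT.nd (nat_lit 50572) (PT.nd (nat_lit 94) (PT.lf (nat_lit 3192) (nat_lit 6) (nat_lit 38) (nat_lit 2) (nat_lit 52) (nat_lit 53) (nat_lit 18)) (PT.nd (nat_lit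 94) (PT.lf (nat_lit 2856) (nat_lit 3) (nat_lit 34) (nat_lit 0) (nat_lit 53) (nat_lit 53) (nat_lit 17)) (PT.lf (nat_lit 2520) (nat_lit 6) (nat_lit 30) (nat_lit 0) (nat_lit 54) (nat_lit 53) (nat_lit 16)))) (PT.nd (nat_lit 94) (PT.lf (nat_lit 2268) (nat_lit 3) (nat_lit 27) (nat_lit 4) (nat_lit 15) (nat_lit 54) (nat_lit 54)) (PT.nd (nat_lit 94) (PT.lf (nat_lit 2520) (nat_lit 6) (nat_lit 30) (nat_lit 4) (nat_lit 16) (nat_lit 54) (nat_lit 53)) (PT.lf (nat_lit 2772) (nat_lit 6) (nat_lit 33) (nat_lit 4) (nat_lit 17) (nat_lit 54) (nat_lit 52))))))) (PT.nd (nat_lit 3008) (PT.nd (nat_lit 564) (PT.nd (nat_lit 282) (PT.nd (nat_lit 94) (PT.lf (nat_lit 3108) (nat_lit 6) (nat_lit 37) (nat_lit 4) (nat_lit 18) (nat_lit 54) (nat_lit 51)) (PT.nd (nat_lit 94) (PT.lf (nat_lit 3360) (nat_lit 6) (nat_lit 40) (nat_lit 4) (nat_lit 19) (nat_lit 54) (nat_lit 50)) (PT.lf (nat_lit 3696) (nat_lit 6) (nat_lit 44) (nat_lit 4)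 (nat_lit 20) (nat_lit 54) (nat_lit 49)))) (PT.nd (nat_lit 94) (PT.lf (nat_lit 4032) (nat_lit 6) (nat_lit 48) (nat_lit 4) (nat_lit 21) (nat_lit 54) (nat_lit 48)) (PT.nd (nat_lit 94) (PT.lf (nat_lit 4452) (nat_lit 6) (nat_lit 53) (nat_lit 4) (nat_lit 22) (nat_lit 54) (nat_lit 47)) (PT.lf (nat_lit 4788) (nat_lit 6) (nat_lit 57) (nat_lit 4) (nat_lit 23) (nat_lit 54) (nat_lit 46))))) (PT.nd (nat_lit 2162) (PT.nd (nat_lit 1974) (PT.lf (nat_lit 5208) (nat_lit 6) (nat_lit 62) (nat_lit 4) (nat_lit 24) (nat_lit 54) (nat_lit 45)) (PT.nd (nat_lit 94) (PT.lf (nat_lit 5208) (nat_lit 6) (nat_lit 62) (nat_lit 2) (nat_lit 45) (nat_lit 54) (nat_lit 24)) (PT.lf (nat_lit 4788) (nat_lit 6) (nat_lit 57) (nat_lit 2) (nat_lit 46) (nat_lit 54) (nat_lit 23)))) (PT.nd (nat_lit 94) (PT.lf (nat_lit 4452) (nat_lit 6) (nat_lit 53) (nat_lit 2) (nat_lit 47) (nat_lit 54) (nat_lit 22)) (PT.nd (nat_lit 94) (PT.lf (nat_lit 4032) (nat_lit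 6) (nat_lit 48) (nat_lit 2) (nat_lit 48) (nat_lit 54) (nat_lit 21)) (PT.lf (nat_lit 3696) (nat_lit 6) (nat_lit 44) (nat_lit 2) (nat_lit 49) (nat_lit 54) (nat_lit 20)))))) (PT.nd (nat_lit 54238) (PT.nd (nat_lit 282) (PT.nd (nat_lit 94) (PT.lf (nat_lit 3360) (nat_lit 6) (nat_lit 40) (nat_lit 2) (nat_lit 50) (nat_lit 54) (nat_lit 19)) (PT.nd (nat_lit 94) (PT.lf (nat_lit 3108) (nat_lit 6) (nat_lit 37) (nat_lit 2) (nat_lit 51) (nat_lit 54) (nat_lit 18)) (PT.lf (nat_lit 2772) (nat_lit 6) (nat_lit 33) (nat_lit 2) (nat_lit 52) (nat_lit 54) (nat_lit 17)))) (PT.nd (nat_lit 94) (PT.lf (nat_lit 2520) (nat_lit 6) (nat_lit 30) (nat_lit 2) (nat_lit 53) (nat_lit 54) (nat_lit 16)) (PT.nd (nat_lit 50478) (PT.lf (nat_lit 2268) (nat_lit 3) (nat_lit 27) (nat_lit 0) (nat_lit 54) (nat_lit 54) (nat_lit 15)) (PT.lf (nat_lit 2436) (nat_lit 6) (nat_lit 29) (nat_lit 4) (nat_lit 16) (nat_lit 55) (nat_lit 52))))) (PT.nd (nat_lit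 265644) (PT.nd (nat_lit 211688) (PT.lf (nat_lit 2436) (nat_lit 6) (nat_lit 29) (nat_lit 2) (nat_lit 52) (nat_lit 55) (nat_lit 16)) (PT.nd (nat_lit 5264) (PT.lf (nat_lit 168) (nat_lit 6) (nat_lit 2) (nat_lit 5) (nat_lit 4) (nat_lit 59) (nat_lit 60)) (PT.lf (nat_lit 168) (nat_lit 6) (nat_lit 2) (nat_lit 0) (nat_lit 60) (nat_lit 59) (nat_lit 4)))) (PT.nd (nat_lit 5264) (PT.nd (nat_lit 94) (PT.lf (nat_lit 84) (nat_lit 3) (nat_lit 1) (nat_lit 4) (nat_lit 3) (nat_lit 60) (nat_lit 60)) (PT.lf (nat_lit 168) (nat_lit 6) (nat_lit 2) (nat_lit 4) (nat_lit 4) (nat_lit 60) (nat_lit 59))) (PT.nd (nat_lit 94) (PT.lf (nat_lit 168) (nat_lit 6) (nat_lit 2) (nat_lit 2) (nat_lit 59) (nat_lit 60) (nat_lit 4)) (PT.lf (nat_lit 84) (nat_lit 3) (nat_lit 1) (nat_lit 0) (nat_lit 60) (nat_lit 60) (nat_lit 3))))))))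
noncomputable def xc0 : XT := (XT.nd (nat_lit 215824) (nat_lit 0) (nat_lit 252) (XT.nd (nat_lit 108288) (nat_lit 0) (nat_lit 0) (XT.nd (nat_lit 54238) (nat_lit 0) (nat_lit 0) (XT.nd (nat_lit 53862) (nat_lit 0) (nat_lit 252) (XT.nd (nat_lit 94) (nat_lit 252) (nat_lit 0) (XT.lf (nat_lit 0) (nat_lit 1240056979) (nat_lit 336) (nat_lit 3044950860) (nat_lit 0) (nat_lit 1240056979) (nat_lit 30) (nat_lit 5) (nat_lit 34) (nat_lit 4) (nat_lit 30) (nat_lit 4) (nat_lit 339) (nat_lit 261) (nat_lit 261)) (XT.nd (nat_lit 94) (nat_lit 252) (nat_lit 0) (XT.lf (nat_lit 0) (nat_lit 5188119216) (nat_lit 336) (nat_lit 1636476023) (nat_lit 0) (nat_lit 4447738712) (nat_lit 30) (nat_lit 5) (nat_lit 34) (nat_lit 4) (nat_lit 30) (nat_lit 4) (nat_lit 340) (nat_lit 261) (nat_lit 260)) (XT.lf (nat_lit 0) (nat_lit 2921279818) (nat_lit 252) (nat_lit 5020073986) (nat_lit 252) (nat_lit 3561574661) (nat_lit 27) (nat_lit 4) (nat_lit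 30) (nat_lit 5) (nat_lit 30) (nat_lit 4) (nat_lit 341) (nat_lit 261) (nat_lit 259)))) (XT.nd (nat_lit 188) (nat_lit 0) (nat_lit 0) (XT.nd (nat_lit 94) (nat_lit 336) (nat_lit 0) (XT.lf (nat_lit 0) (nat_lit 3237235667) (nat_lit 336) (nat_lit 1038611092) (nat_lit 336) (nat_lit 1038611092) (nat_lit 34) (nat_lit 4) (nat_lit 38) (nat_lit 5) (nat_lit 38) (nat_lit 4) (nat_lit 337) (nat_lit 262) (nat_lit 262)) (XT.lf (nat_lit 0) (nat_lit 332765711) (nat_lit 252) (nat_lit 218569252) (nat_lit 336) (nat_lit 10285604591) (nat_lit 30) (nat_lit 5) (nat_lit 33) (nat_lit 5) (nat_lit 34) (nat_lit 4) (nat_lit 338) (nat_lit 262) (nat_lit 261))) (XT.nd (nat_lit 94) (nat_lit 0) (nat_lit 0) (XT.lf (nat_lit 0) (nat_lit 3209080460) (nat_lit 336) (nat_lit 6136899954) (nat_lit 0) (nat_lit 1705367657) (nat_lit 30) (nat_lit 5) (nat_lit 34) (nat_lit 4) (nat_lit 30) (nat_lit 4) (nat_lit 339) (nat_lit 262) (nat_lit 260)) (XT.lf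 (nat_lit 0) (nat_lit 5883753226) (nat_lit 336) (nat_lit 1729059353) (nat_lit 0) (nat_lit 3661921602) (nat_lit 30) (nat_lit 5) (nat_lit 34) (nat_lit 4) (nat_lit 30) (nat_lit 4) (nat_lit 340) (nat_lit 262) (nat_lit 259))))) (XT.nd (nat_lit 53674) (nat_lit 0) (nat_lit 252) (XT.nd (nat_lit 53486) (nat_lit 0) (nat_lit 588) (XT.lf (nat_lit 0) (nat_lit 2781669197) (nat_lit 252) (nat_lit 5821603408) (nat_lit 252) (nat_lit 2903245286) (nat_lit 27) (nat_lit 4) (nat_lit 30) (nat_lit 5) (nat_lit 30) (nat_lit 4) (nat_lit 341) (nat_lit 262) (nat_lit 258)) (XT.nd (nat_lit 94) (nat_lit 336) (nat_lit 0) (XT.lf (nat_lit 0) (nat_lit 1893436783) (nat_lit 336) (nat_lit 1331163119) (nat_lit 0) (nat_lit 1893436783) (nat_lit 38) (nat_lit 5) (nat_lit 42) (nat_lit 4) (nat_lit 38) (nat_lit 4) (nat_lit 335) (nat_lit 263) (nat_lit 263)) (XT.lf (nat_lit 0) (nat_lit 1831648197) (nat_lit 336) (nat_lit 4704521015) (nat_lit 336)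 (nat_lit 3893128550) (nat_lit 34) (nat_lit 4) (nat_lit 38) (nat_lit 5) (nat_lit 38) (nat_lit 4) (nat_lit 336) (nat_lit 263) (nat_lit 262)))) (XT.nd (nat_lit 188) (nat_lit 0) (nat_lit 0) (XT.nd (nat_lit 94) (nat_lit 336) (nat_lit 0) (XT.lf (nat_lit 0) (nat_lit 6428977230) (nat_lit 336) (nat_lit 2899776781) (nat_lit 336) (nat_lit 1301388716) (nat_lit 34) (nat_lit 4) (nat_lit 38) (nat_lit 5) (nat_lit 38) (nat_lit 4) (nat_lit 337) (nat_lit 263) (nat_lit 261)) (XT.lf (nat_lit 0) (nat_lit 231330344) (nat_lit 252) (nat_lit 1045405602) (nat_lit 336) (nat_lit 9562423973) (nat_lit 30) (nat_lit 5) (nat_lit 33) (nat_lit 5) (nat_lit 34) (nat_lit 4) (nat_lit 338) (nat_lit 263) (nat_lit 260))) (XT.nd (nat_lit 94) (nat_lit 0) (nat_lit 0) (XT.lf (nat_lit 0) (nat_lit 3892946633) (nat_lit 336) (nat_lit 6277938463) (nat_lit 0) (nat_lit 884119408) (nat_lit 30) (nat_lit 5) (nat_lit 34) (nat_lit 4) (nat_lit 30) (nat_lit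 4) (nat_lit 339) (nat_lit 263) (nat_lit 259)) (XT.lf (nat_lit 0) (nat_lit 6535289145) (nat_lit 336) (nat_lit 1914312310) (nat_lit 0) (nat_lit 2829935422) (nat_lit 30) (nat_lit 5) (nat_lit 34) (nat_lit 4) (nat_lit 30) (nat_lit 4) (nat_lit 340) (nat_lit 263) (nat_lit 258)))))) (XT.nd (nat_lit 53862) (nat_lit 0) (nat_lit 0) (XT.nd (nat_lit 53486) (nat_lit 0) (nat_lit 252) (XT.nd (nat_lit 53298) (nat_lit 0) (nat_lit 924) (XT.lf (nat_lit 0) (nat_lit 2548840243) (nat_lit 252) (nat_lit 6672300439) (nat_lit 252) (nat_lit 2291363303) (nat_lit 27) (nat_lit 4) (nat_lit 30) (nat_lit 5) (nat_lit 30) (nat_lit 4) (nat_lit 341) (nat_lit 263) (nat_lit 257)) (XT.nd (nat_lit 94) (nat_lit 336) (nat_lit 0) (XT.lf (nat_lit 0) (nat_lit 4177801074) (nat_lit 336) (nat_lit 378839620) (nat_lit 336) (nat_lit 378839620) (nat_lit 42) (nat_lit 4) (nat_lit 46) (nat_lit 5) (nat_lit 46) (nat_lit 4) (nat_lit 333) (nat_lit 264) (nat_lit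 264)) (XT.lf (nat_lit 0) (nat_lit 1905601290) (nat_lit 336) (nat_lit 7075919209) (nat_lit 0) (nat_lit 1069055659) (nat_lit 38) (nat_lit 5) (nat_lit 42) (nat_lit 4) (nat_lit 38) (nat_lit 4) (nat_lit 334) (nat_lit 264) (nat_lit 263)))) (XT.nd (nat_lit 188) (nat_lit 336) (nat_lit 0) (XT.nd (nat_lit 94) (nat_lit 336) (nat_lit 0) (XT.lf (nat_lit 0) (nat_lit 4588488230) (nat_lit 336) (nat_lit 2708285640) (nat_lit 0) (nat_lit 2940550135) (nat_lit 38) (nat_lit 5) (nat_lit 42) (nat_lit 4) (nat_lit 38) (nat_lit 4) (nat_lit 335) (nat_lit 264) (nat_lit 262)) (XT.lf (nat_lit 0) (nat_lit 1739249670) (nat_lit 336) (nat_lit 5563736936) (nat_lit 336) (nat_lit 3128803240) (nat_lit 34) (nat_lit 4) (nat_lit 38) (nat_lit 5) (nat_lit 38) (nat_lit 4) (nat_lit 336) (nat_lit 264) (nat_lit 261))) (XT.nd (nat_lit 94) (nat_lit 336) (nat_lit 0) (XT.lf (nat_lit 0) (nat_lit 6292452510) (nat_lit 336) (nat_lit 3769819212) (nat_lit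 336) (nat_lit 571553217) (nat_lit 34) (nat_lit 4) (nat_lit 38) (nat_lit 5) (nat_lit 38) (nat_lit 4) (nat_lit 337) (nat_lit 264) (nat_lit 260)) (XT.lf (nat_lit 0) (nat_lit 36332685) (nat_lit 252) (nat_lit 1920821023) (nat_lit 336) (nat_lit 8886688580) (nat_lit 30) (nat_lit 5) (nat_lit 33) (nat_lit 5) (nat_lit 34) (nat_lit 4) (nat_lit 338) (nat_lit 264) (nat_lit 259))))) (XT.nd (nat_lit 53298) (nat_lit 0) (nat_lit 924) (XT.nd (nat_lit 94) (nat_lit 252) (nat_lit 0) (XT.lf (nat_lit 0) (nat_lit 4532349912) (nat_lit 336) (nat_lit 6513148710) (nat_lit 0) (nat_lit 15603725) (nat_lit 30) (nat_lit 5) (nat_lit 34) (nat_lit 4) (nat_lit 30) (nat_lit 4) (nat_lit 339) (nat_lit 264) (nat_lit 258)) (XT.nd (nat_lit 94) (nat_lit 252) (nat_lit 0) (XT.lf (nat_lit 0) (nat_lit 7143334274) (nat_lit 336) (nat_lit 2192407569) (nat_lit 0) (nat_lit 1951004674) (nat_lit 30) (nat_lit 5) (nat_lit 34) (nat_lit 4) (nat_lit 30)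 (nat_lit 4) (nat_lit 340) (nat_lit 264) (nat_lit 257)) (XT.lf (nat_lit 0) (nat_lit 2222575934) (nat_lit 252) (nat_lit 7572958017) (nat_lit 252) (nat_lit 1725358375) (nat_lit 27) (nat_lit 4) (nat_lit 30) (nat_lit 5) (nat_lit 30) (nat_lit 4) (nat_lit 341) (nat_lit 264) (nat_lit 256)))) (XT.nd (nat_lit 188) (nat_lit 336) (nat_lit 0) (XT.nd (nat_lit 94) (nat_lit 336) (nat_lit 0) (XT.lf (nat_lit 0) (nat_lit 2203925255) (nat_lit 420) (nat_lit 357241980) (nat_lit 0) (nat_lit 2203925255) (nat_lit 46) (nat_lit 5) (nat_lit 51) (nat_lit 4) (nat_lit 46) (nat_lit 4) (nat_lit 331) (nat_lit 265) (nat_lit 265)) (XT.lf (nat_lit 0) (nat_lit 3766403271) (nat_lit 336) (nat_lit 3410128984) (nat_lit 336) (nat_lit 2520913604) (nat_lit 42) (nat_lit 4) (nat_lit 46) (nat_lit 5) (nat_lit 46) (nat_lit 4) (nat_lit 332) (nat_lit 265) (nat_lit 264))) (XT.nd (nat_lit 94) (nat_lit 252) (nat_lit 0) (XT.lf (nat_lit 0) (nat_lit 93432521)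 (nat_lit 420) (nat_lit 1561932473) (nat_lit 84) (nat_lit 8216827220) (nat_lit 41) (nat_lit 5) (nat_lit 46) (nat_lit 5) (nat_lit 42) (nat_lit 4) (nat_lit 333) (nat_lit 265) (nat_lit 263)) (XT.lf (nat_lit 0) (nat_lit 2697135043) (nat_lit 336) (nat_lit 7169262755) (nat_lit 0) (nat_lit 186718403) (nat_lit 38) (nat_lit 5) (nat_lit 42) (nat_lit 4) (nat_lit 38) (nat_lit 4) (nat_lit 334) (nat_lit 265) (nat_lit 262))))))) (XT.nd (nat_lit 54238) (nat_lit 0) (nat_lit 0) (XT.nd (nat_lit 53580) (nat_lit 0) (nat_lit 336) (XT.nd (nat_lit 282) (nat_lit 252) (nat_lit 0) (XT.nd (nat_lit 94) (nat_lit 420) (nat_lit 0) (XT.lf (nat_lit 0) (nat_lit 5346141317) (nat_lit 336) (nat_lit 2846206687) (nat_lit 0) (nat_lit 2048729077) (nat_lit 38) (nat_lit 5) (nat_lit 42) (nat_lit 4) (nat_lit 38) (nat_lit 4) (nat_lit 335) (nat_lit 265) (nat_lit 261)) (XT.nd (nat_lit 94) (nat_lit 84) (nat_lit 0) (XT.lf (nat_lit 0) (nat_lit 1554366491)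 (nat_lit 336) (nat_lit 6471577192) (nat_lit 336) (nat_lit 2410832652) (nat_lit 34) (nat_lit 4) (nat_lit 38) (nat_lit 5) (nat_lit 38) (nat_lit 4) (nat_lit 336) (nat_lit 265) (nat_lit 260)) (XT.lf (nat_lit 0) (nat_lit 110688609) (nat_lit 420) (nat_lit 4576316478) (nat_lit 84) (nat_lit 5952925948) (nat_lit 33) (nat_lit 5) (nat_lit 38) (nat_lit 5) (nat_lit 34) (nat_lit 4) (nat_lit 337) (nat_lit 265) (nat_lit 259)))) (XT.nd (nat_lit 188) (nat_lit 0) (nat_lit 0) (XT.nd (nat_lit 94) (nat_lit 252) (nat_lit 0) (XT.lf (nat_lit 0) (nat_lit 2595726401) (nat_lit 420) (nat_lit 247323543) (nat_lit 84) (nat_lit 8007863461) (nat_lit 33) (nat_lit 5) (nat_lit 38) (nat_lit 5) (nat_lit 34) (nat_lit 4) (nat_lit 338) (nat_lit 265) (nat_lit 258)) (XT.lf (nat_lit 0) (nat_lit 4217492872) (nat_lit 252) (nat_lit 919515121) (nat_lit 336) (nat_lit 5932356517) (nat_lit 30) (nat_lit 5) (nat_lit 33) (nat_lit 5) (nat_lit 34) (nat_lit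 4) (nat_lit 339) (nat_lit 265) (nat_lit 257))) (XT.nd (nat_lit 53016) (nat_lit 0) (nat_lit 1764) (XT.lf (nat_lit 0) (nat_lit 7708455375) (nat_lit 336) (nat_lit 2563604345) (nat_lit 0) (nat_lit 1024310102) (nat_lit 30) (nat_lit 5) (nat_lit 34) (nat_lit 4) (nat_lit 30) (nat_lit 4) (nat_lit 340) (nat_lit 265) (nat_lit 256)) (XT.lf (nat_lit 0) (nat_lit 4540365957) (nat_lit 420) (nat_lit 33461776) (nat_lit 420) (nat_lit 33461776) (nat_lit 51) (nat_lit 4) (nat_lit 56) (nat_lit 5) (nat_lit 56) (nat_lit 4) (nat_lit 329) (nat_lit 266) (nat_lit 266))))) (XT.nd (nat_lit 282) (nat_lit 672) (nat_lit 0) (XT.nd (nat_lit 94) (nat_lit 336) (nat_lit 0) (XT.lf (nat_lit 0) (nat_lit 2605406251) (nat_lit 420) (nat_lit 5075331601) (nat_lit 0) (nat_lit 1688625194) (nat_lit 46) (nat_lit 5) (nat_lit 51) (nat_lit 4) (nat_lit 46) (nat_lit 4) (nat_lit 330) (nat_lit 266) (nat_lit 265)) (XT.nd (nat_lit 94) (nat_lit 336) (nat_lit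 0) (XT.lf (nat_lit 0) (nat_lit 5289081227) (nat_lit 420) (nat_lit 759304895) (nat_lit 0) (nat_lit 3483084789) (nat_lit 46) (nat_lit 5) (nat_lit 51) (nat_lit 4) (nat_lit 46) (nat_lit 4) (nat_lit 331) (nat_lit 266) (nat_lit 264)) (XT.lf (nat_lit 0) (nat_lit 3676293565) (nat_lit 336) (nat_lit 4346094090) (nat_lit 336) (nat_lit 1677619108) (nat_lit 42) (nat_lit 4) (nat_lit 46) (nat_lit 5) (nat_lit 46) (nat_lit 4) (nat_lit 332) (nat_lit 266) (nat_lit 263)))) (XT.nd (nat_lit 188) (nat_lit 336) (nat_lit 0) (XT.nd (nat_lit 94) (nat_lit 252) (nat_lit 0) (XT.lf (nat_lit 0) (nat_lit 885349067) (nat_lit 420) (nat_lit 1706876657) (nat_lit 84) (nat_lit 7283501849) (nat_lit 41) (nat_lit 5) (nat_lit 46) (nat_lit 5) (nat_lit 42) (nat_lit 4) (nat_lit 333) (nat_lit 266) (nat_lit 262)) (XT.lf (nat_lit 0) (nat_lit 2694414411) (nat_lit 252) (nat_lit 757494741) (nat_lit 336) (nat_lit 6606056555) (nat_lit 38) (nat_lit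 5) (nat_lit 41) (nat_lit 5) (nat_lit 42) (nat_lit 4) (nat_lit 334) (nat_lit 266) (nat_lit 261))) (XT.nd (nat_lit 94) (nat_lit 336) (nat_lit 0) (XT.lf (nat_lit 0) (nat_lit 6060539040) (nat_lit 336) (nat_lit 3076217934) (nat_lit 0) (nat_lit 1110579119) (nat_lit 38) (nat_lit 5) (nat_lit 42) (nat_lit 4) (nat_lit 38) (nat_lit 4) (nat_lit 335) (nat_lit 266) (nat_lit 260)) (XT.lf (nat_lit 0) (nat_lit 1276826329) (nat_lit 336) (nat_lit 7428887988) (nat_lit 336) (nat_lit 1738547563) (nat_lit 34) (nat_lit 4) (nat_lit 38) (nat_lit 5) (nat_lit 38) (nat_lit 4) (nat_lit 336) (nat_lit 266) (nat_lit 259)))))) (XT.nd (nat_lit 53392) (nat_lit 0) (nat_lit 252) (XT.nd (nat_lit 282) (nat_lit 0) (nat_lit 0) (XT.nd (nat_lit 94) (nat_lit 252) (nat_lit 0) (XT.lf (nat_lit 0) (nat_lit 737635464) (nat_lit 420) (nat_lit 4910321616) (nat_lit 84) (nat_lit 5000382370) (nat_lit 33) (nat_lit 5) (nat_lit 38) (nat_lit 5) (nat_lit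 34) (nat_lit 4) (nat_lit 337) (nat_lit 266) (nat_lit 258)) (XT.nd (nat_lit 94) (nat_lit 252) (nat_lit 0) (XT.lf (nat_lit 0) (nat_lit 3191836022) (nat_lit 420) (nat_lit 622366782) (nat_lit 84) (nat_lit 7046214665) (nat_lit 33) (nat_lit 5) (nat_lit 38) (nat_lit 5) (nat_lit 34) (nat_lit 4) (nat_lit 338) (nat_lit 266) (nat_lit 257)) (XT.lf (nat_lit 0) (nat_lit 3794115350) (nat_lit 252) (nat_lit 1904892284) (nat_lit 336) (nat_lit 5381053843) (nat_lit 30) (nat_lit 5) (nat_lit 33) (nat_lit 5) (nat_lit 34) (nat_lit 4) (nat_lit 339) (nat_lit 266) (nat_lit 256)))) (XT.nd (nat_lit 52922) (nat_lit 0) (nat_lit 1680) (XT.nd (nat_lit 52828) (nat_lit 0) (nat_lit 1764) (XT.lf (nat_lit 0) (nat_lit 8231179198) (nat_lit 336) (nat_lit 3028248631) (nat_lit 0) (nat_lit 48987930) (nat_lit 30) (nat_lit 5) (nat_lit 34) (nat_lit 4) (nat_lit 30) (nat_lit 4) (nat_lit 340) (nat_lit 266) (nat_lit 255)) (XT.lf (nat_lit 0) (nat_lit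 96058183) (nat_lit 420) (nat_lit 2181994865) (nat_lit 420) (nat_lit 2181994865) (nat_lit 51) (nat_lit 4) (nat_lit 56) (nat_lit 5) (nat_lit 56) (nat_lit 4) (nat_lit 327) (nat_lit 267) (nat_lit 267))) (XT.nd (nat_lit 94) (nat_lit 84) (nat_lit 0) (XT.lf (nat_lit 0) (nat_lit 4590484055) (nat_lit 420) (nat_lit 2724224770) (nat_lit 420) (nat_lit 1749722261) (nat_lit 51) (nat_lit 4) (nat_lit 56) (nat_lit 5) (nat_lit 56) (nat_lit 4) (nat_lit 328) (nat_lit 267) (nat_lit 266)) (XT.lf (nat_lit 0) (nat_lit 853170318) (nat_lit 504) (nat_lit 186914862) (nat_lit 84) (nat_lit 8175524117) (nat_lit 50) (nat_lit 5) (nat_lit 56) (nat_lit 5) (nat_lit 51) (nat_lit 4) (nat_lit 329) (nat_lit 267) (nat_lit 265))))) (XT.nd (nat_lit 376) (nat_lit 672) (nat_lit 0) (XT.nd (nat_lit 188) (nat_lit 420) (nat_lit 0) (XT.nd (nat_lit 94) (nat_lit 0) (nat_lit 0) (XT.lf (nat_lit 0) (nat_lit 3478404779) (nat_lit 420) (nat_lit 5166362918)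 (nat_lit 0) (nat_lit 727207072) (nat_lit 46) (nat_lit 5) (nat_lit 51) (nat_lit 4) (nat_lit 46) (nat_lit 4) (nat_lit 330) (nat_lit 267) (nat_lit 264)) (XT.lf (nat_lit 0) (nat_lit 6127598337) (nat_lit 420) (nat_lit 893809474) (nat_lit 0) (nat_lit 2513922085) (nat_lit 46) (nat_lit 5) (nat_lit 51) (nat_lit 4) (nat_lit 46) (nat_lit 4) (nat_lit 331) (nat_lit 267) (nat_lit 263))) (XT.nd (nat_lit 94) (nat_lit 84) (nat_lit 0) (XT.lf (nat_lit 0) (nat_lit 3495990160) (nat_lit 336) (nat_lit 5329681340) (nat_lit 336) (nat_lit 879459457) (nat_lit 42) (nat_lit 4) (nat_lit 46) (nat_lit 5) (nat_lit 46) (nat_lit 4) (nat_lit 332) (nat_lit 267) (nat_lit 262)) (XT.lf (nat_lit 0) (nat_lit 1634074092) (nat_lit 420) (nat_lit 1942809865) (nat_lit 84) (nat_lit 6304919046) (nat_lit 41) (nat_lit 5) (nat_lit 46) (nat_lit 5) (nat_lit 42) (nat_lit 4) (nat_lit 333) (nat_lit 267) (nat_lit 261)))) (XT.nd (nat_lit 188) (nat_lit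 420) (nat_lit 0) (XT.nd (nat_lit 94) (nat_lit 0) (nat_lit 0) (XT.lf (nat_lit 0) (nat_lit 2411473327) (nat_lit 252) (nat_lit 1754003420) (nat_lit 336) (nat_lit 5899812109) (nat_lit 38) (nat_lit 5) (nat_lit 41) (nat_lit 5) (nat_lit 42) (nat_lit 4) (nat_lit 334) (nat_lit 267) (nat_lit 260)) (XT.lf (nat_lit 0) (nat_lit 6732347290) (nat_lit 336) (nat_lit 3398533777) (nat_lit 0) (nat_lit 125225809) (nat_lit 38) (nat_lit 5) (nat_lit 42) (nat_lit 4) (nat_lit 38) (nat_lit 4) (nat_lit 335) (nat_lit 267) (nat_lit 259))) (XT.nd (nat_lit 94) (nat_lit 84) (nat_lit 0) (XT.lf (nat_lit 0) (nat_lit 906370489) (nat_lit 336) (nat_lit 8436561635) (nat_lit 336) (nat_lit 1111321333) (nat_lit 34) (nat_lit 4) (nat_lit 38) (nat_lit 5) (nat_lit 38) (nat_lit 4) (nat_lit 336) (nat_lit 267) (nat_lit 258)) (XT.lf (nat_lit 0) (nat_lit 1321387250) (nat_lit 420) (nat_lit 5338029295) (nat_lit 84) (nat_lit 3999817243) (nat_lit 33)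 (nat_lit 5) (nat_lit 38) (nat_lit 5) (nat_lit 34) (nat_lit 4) (nat_lit 337) (nat_lit 267) (nat_lit 257))))))))
noncomputable def xc1 : XT := (XT.nd (nat_lit 107630) (nat_lit 0) (nat_lit 0) (XT.nd (nat_lit 53862) (nat_lit 0) (nat_lit 0) (XT.nd (nat_lit 53204) (nat_lit 0) (nat_lit 672) (XT.nd (nat_lit 52828) (nat_lit 0) (nat_lit 1764) (XT.nd (nat_lit 94) (nat_lit 252) (nat_lit 0) (XT.lf (nat_lit 0) (nat_lit 3745677785) (nat_lit 420) (nat_lit 1089878631) (nat_lit 84) (nat_lit 6036818095) (nat_lit 33) (nat_lit 5) (nat_lit 38) (nat_lit 5) (nat_lit 34) (nat_lit 4) (nat_lit 338) (nat_lit 267) (nat_lit 256)) (XT.nd (nat_lit 94) (nat_lit 0) (nat_lit 0) (XT.lf (nat_lit 0) (nat_lit 3277589309) (nat_lit 252) (nat_lit 2941125395) (nat_lit 336) (nat_lit 4874493413) (nat_lit 30) (nat_lit 5) (nat_lit 33) (nat_lit 5) (nat_lit 34) (nat_lit 4) (nat_lit 339) (nat_lit 267) (nat_lit 255)) (XT.lf (nat_lit 0) (nat_lit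 7725935943) (nat_lit 252) (nat_lit 995936853) (nat_lit 336) (nat_lit 2600716488) (nat_lit 30) (nat_lit 5) (nat_lit 33) (nat_lit 5) (nat_lit 34) (nat_lit 4) (nat_lit 340) (nat_lit 267) (nat_lit 254)))) (XT.nd (nat_lit 188) (nat_lit 420) (nat_lit 0) (XT.nd (nat_lit 94) (nat_lit 0) (nat_lit 0) (XT.lf (nat_lit 0) (nat_lit 97298186) (nat_lit 420) (nat_lit 4129530611) (nat_lit 0) (nat_lit 97298186) (nat_lit 56) (nat_lit 5) (nat_lit 61) (nat_lit 4) (nat_lit 56) (nat_lit 4) (nat_lit 325) (nat_lit 268) (nat_lit 268)) (XT.lf (nat_lit 0) (nat_lit 2854206524) (nat_lit 420) (nat_lit 4077755996) (nat_lit 0) (nat_lit 1849494437) (nat_lit 56) (nat_lit 5) (nat_lit 61) (nat_lit 4) (nat_lit 56) (nat_lit 4) (nat_lit 326) (nat_lit 268) (nat_lit 267))) (XT.nd (nat_lit 94) (nat_lit 0) (nat_lit 0) (XT.lf (nat_lit 0) (nat_lit 147647138) (nat_lit 420) (nat_lit 5376500783) (nat_lit 420) (nat_lit 3397286187) (nat_lit 51)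 (nat_lit 4) (nat_lit 56) (nat_lit 5) (nat_lit 56) (nat_lit 4) (nat_lit 327) (nat_lit 268) (nat_lit 266)) (XT.lf (nat_lit 0) (nat_lit 4502882696) (nat_lit 420) (nat_lit 3744300289) (nat_lit 420) (nat_lit 819884424) (nat_lit 51) (nat_lit 4) (nat_lit 56) (nat_lit 5) (nat_lit 56) (nat_lit 4) (nat_lit 328) (nat_lit 268) (nat_lit 265))))) (XT.nd (nat_lit 282) (nat_lit 672) (nat_lit 0) (XT.nd (nat_lit 94) (nat_lit 336) (nat_lit 0) (XT.lf (nat_lit 0) (nat_lit 1729237190) (nat_lit 504) (nat_lit 329116188) (nat_lit 84) (nat_lit 7160876306) (nat_lit 50) (nat_lit 5) (nat_lit 56) (nat_lit 5) (nat_lit 51) (nat_lit 4) (nat_lit 329) (nat_lit 268) (nat_lit 264)) (XT.nd (nat_lit 94) (nat_lit 0) (nat_lit 0) (XT.lf (nat_lit 0) (nat_lit 4025770288) (nat_lit 336) (nat_lit 285496373) (nat_lit 420) (nat_lit 5065846188) (nat_lit 46) (nat_lit 5) (nat_lit 50) (nat_lit 5) (nat_lit 51) (nat_lit 4) (nat_lit 330) (nat_lit 268)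 (nat_lit 263)) (XT.lf (nat_lit 0) (nat_lit 6924183428) (nat_lit 420) (nat_lit 1118123072) (nat_lit 0) (nat_lit 1499459036) (nat_lit 46) (nat_lit 5) (nat_lit 51) (nat_lit 4) (nat_lit 46) (nat_lit 4) (nat_lit 331) (nat_lit 268) (nat_lit 262)))) (XT.nd (nat_lit 188) (nat_lit 252) (nat_lit 0) (XT.nd (nat_lit 94) (nat_lit 84) (nat_lit 0) (XT.lf (nat_lit 0) (nat_lit 3225324995) (nat_lit 336) (nat_lit 6361807540) (nat_lit 336) (nat_lit 125690684) (nat_lit 42) (nat_lit 4) (nat_lit 46) (nat_lit 5) (nat_lit 46) (nat_lit 4) (nat_lit 332) (nat_lit 268) (nat_lit 261)) (XT.lf (nat_lit 0) (nat_lit 2340305486) (nat_lit 420) (nat_lit 2269952014) (nat_lit 84) (nat_lit 5280166672) (nat_lit 41) (nat_lit 5) (nat_lit 46) (nat_lit 5) (nat_lit 42) (nat_lit 4) (nat_lit 333) (nat_lit 268) (nat_lit 260))) (XT.nd (nat_lit 94) (nat_lit 0) (nat_lit 0) (XT.lf (nat_lit 0) (nat_lit 2036715422) (nat_lit 252) (nat_lit 2799897171)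 (nat_lit 336) (nat_lit 5238538486) (nat_lit 38) (nat_lit 5) (nat_lit 41) (nat_lit 5) (nat_lit 42) (nat_lit 4) (nat_lit 334) (nat_lit 268) (nat_lit 259)) (XT.lf (nat_lit 0) (nat_lit 6444462698) (nat_lit 252) (nat_lit 926924774) (nat_lit 336) (nat_lit 2895725081) (nat_lit 38) (nat_lit 5) (nat_lit 41) (nat_lit 5) (nat_lit 42) (nat_lit 4) (nat_lit 335) (nat_lit 268) (nat_lit 258)))))) (XT.nd (nat_lit 53016) (nat_lit 0) (nat_lit 924) (XT.nd (nat_lit 282) (nat_lit 252) (nat_lit 0) (XT.nd (nat_lit 94) (nat_lit 84) (nat_lit 0) (XT.lf (nat_lit 0) (nat_lit 442653665) (nat_lit 336) (nat_lit 9495537391) (nat_lit 336) (nat_lit 528569321) (nat_lit 34) (nat_lit 4) (nat_lit 38) (nat_lit 5) (nat_lit 38) (nat_lit 4) (nat_lit 336) (nat_lit 268) (nat_lit 257)) (XT.nd (nat_lit 94) (nat_lit 0) (nat_lit 0) (XT.lf (nat_lit 0) (nat_lit 1862488084) (nat_lit 420) (nat_lit 5859838182) (nat_lit 84) (nat_lit 2950297937) (nat_lit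 33) (nat_lit 5) (nat_lit 38) (nat_lit 5) (nat_lit 34) (nat_lit 4) (nat_lit 337) (nat_lit 268) (nat_lit 256)) (XT.lf (nat_lit 0) (nat_lit 4257767928) (nat_lit 420) (nat_lit 1650294862) (nat_lit 84) (nat_lit 4978732889) (nat_lit 33) (nat_lit 5) (nat_lit 38) (nat_lit 5) (nat_lit 34) (nat_lit 4) (nat_lit 338) (nat_lit 268) (nat_lit 255)))) (XT.nd (nat_lit 52546) (nat_lit 0) (nat_lit 2604) (XT.nd (nat_lit 94) (nat_lit 0) (nat_lit 0) (XT.lf (nat_lit 0) (nat_lit 2667433293) (nat_lit 252) (nat_lit 4029180329) (nat_lit 336) (nat_lit 4412203058) (nat_lit 30) (nat_lit 5) (nat_lit 33) (nat_lit 5) (nat_lit 34) (nat_lit 4) (nat_lit 339) (nat_lit 268) (nat_lit 254)) (XT.lf (nat_lit 0) (nat_lit 7078712538) (nat_lit 252) (nat_lit 2093399125) (nat_lit 336) (nat_lit 2167067282) (nat_lit 30) (nat_lit 5) (nat_lit 33) (nat_lit 5) (nat_lit 34) (nat_lit 4) (nat_lit 340) (nat_lit 268) (nat_lit 253))) (XT.nd (nat_lit 94)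 (nat_lit 0) (nat_lit 0) (XT.lf (nat_lit 0) (nat_lit 204980495) (nat_lit 420) (nat_lit 1996364935) (nat_lit 420) (nat_lit 1996364935) (nat_lit 61) (nat_lit 4) (nat_lit 66) (nat_lit 5) (nat_lit 66) (nat_lit 4) (nat_lit 323) (nat_lit 269) (nat_lit 269)) (XT.lf (nat_lit 0) (nat_lit 4677247993) (nat_lit 420) (nat_lit 2455034229) (nat_lit 420) (nat_lit 1387064465) (nat_lit 61) (nat_lit 4) (nat_lit 66) (nat_lit 5) (nat_lit 66) (nat_lit 4) (nat_lit 324) (nat_lit 269) (nat_lit 268))))) (XT.nd (nat_lit 376) (nat_lit 756) (nat_lit 0) (XT.nd (nat_lit 188) (nat_lit 504) (nat_lit 0) (XT.nd (nat_lit 94) (nat_lit 0) (nat_lit 0) (XT.lf (nat_lit 0) (nat_lit 336788545) (nat_lit 336) (nat_lit 864893616) (nat_lit 420) (nat_lit 7447671501) (nat_lit 56) (nat_lit 5) (nat_lit 60) (nat_lit 5) (nat_lit 61) (nat_lit 4) (nat_lit 325) (nat_lit 269) (nat_lit 267)) (XT.lf (nat_lit 0) (nat_lit 3816483339) (nat_lit 420) (nat_lit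 4166253310) (nat_lit 0) (nat_lit 801410582) (nat_lit 56) (nat_lit 5) (nat_lit 61) (nat_lit 4) (nat_lit 56) (nat_lit 4) (nat_lit 326) (nat_lit 269) (nat_lit 266))) (XT.nd (nat_lit 94) (nat_lit 84) (nat_lit 0) (XT.lf (nat_lit 0) (nat_lit 14198006) (nat_lit 420) (nat_lit 6435763111) (nat_lit 420) (nat_lit 2475489084) (nat_lit 51) (nat_lit 4) (nat_lit 56) (nat_lit 5) (nat_lit 56) (nat_lit 4) (nat_lit 327) (nat_lit 269) (nat_lit 265)) (XT.lf (nat_lit 0) (nat_lit 64822561) (nat_lit 504) (nat_lit 4745400462) (nat_lit 84) (nat_lit 4262099149) (nat_lit 50) (nat_lit 5) (nat_lit 56) (nat_lit 5) (nat_lit 51) (nat_lit 4) (nat_lit 328) (nat_lit 269) (nat_lit 264)))) (XT.nd (nat_lit 188) (nat_lit 420) (nat_lit 0) (XT.nd (nat_lit 94) (nat_lit 336) (nat_lit 0) (XT.lf (nat_lit 0) (nat_lit 2563442011) (nat_lit 504) (nat_lit 559919739) (nat_lit 84) (nat_lit 6102102385) (nat_lit 50) (nat_lit 5) (nat_lit 56) (nat_lit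 5) (nat_lit 51) (nat_lit 4) (nat_lit 329) (nat_lit 269) (nat_lit 263)) (XT.lf (nat_lit 0) (nat_lit 3749186184) (nat_lit 336) (nat_lit 1360580035) (nat_lit 420) (nat_lit 4274860921) (nat_lit 46) (nat_lit 5) (nat_lit 50) (nat_lit 5) (nat_lit 51) (nat_lit 4) (nat_lit 330) (nat_lit 269) (nat_lit 262))) (XT.nd (nat_lit 94) (nat_lit 420) (nat_lit 0) (XT.lf (nat_lit 0) (nat_lit 7679578999) (nat_lit 420) (nat_lit 1432454771) (nat_lit 0) (nat_lit 438750056) (nat_lit 46) (nat_lit 5) (nat_lit 51) (nat_lit 4) (nat_lit 46) (nat_lit 4) (nat_lit 331) (nat_lit 269) (nat_lit 261)) (XT.lf (nat_lit 0) (nat_lit 572615651) (nat_lit 420) (nat_lit 6864842154) (nat_lit 84) (nat_lit 2285453198) (nat_lit 41) (nat_lit 5) (nat_lit 46) (nat_lit 5) (nat_lit 42) (nat_lit 4) (nat_lit 332) (nat_lit 269) (nat_lit 260))))))) (XT.nd (nat_lit 53486) (nat_lit 0) (nat_lit 0) (XT.nd (nat_lit 658) (nat_lit 0) (nat_lit 0) (XT.nd (nat_lit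 282) (nat_lit 672) (nat_lit 0) (XT.nd (nat_lit 94) (nat_lit 252) (nat_lit 0) (XT.lf (nat_lit 0) (nat_lit 3004701531) (nat_lit 420) (nat_lit 2688608032) (nat_lit 84) (nat_lit 4208289548) (nat_lit 41) (nat_lit 5) (nat_lit 46) (nat_lit 5) (nat_lit 42) (nat_lit 4) (nat_lit 333) (nat_lit 269) (nat_lit 259)) (XT.nd (nat_lit 94) (nat_lit 0) (nat_lit 0) (XT.lf (nat_lit 0) (nat_lit 1569791381) (nat_lit 252) (nat_lit 3896150877) (nat_lit 336) (nat_lit 4621619308) (nat_lit 38) (nat_lit 5) (nat_lit 41) (nat_lit 5) (nat_lit 42) (nat_lit 4) (nat_lit 334) (nat_lit 269) (nat_lit 258)) (XT.lf (nat_lit 0) (nat_lit 5939071541) (nat_lit 252) (nat_lit 2031744661) (nat_lit 336) (nat_lit 2309777793) (nat_lit 38) (nat_lit 5) (nat_lit 41) (nat_lit 5) (nat_lit 42) (nat_lit 4) (nat_lit 335) (nat_lit 269) (nat_lit 257)))) (XT.nd (nat_lit 188) (nat_lit 252) (nat_lit 0) (XT.nd (nat_lit 94) (nat_lit 336) (nat_lit 0) (XT.lf (nat_lit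 0) (nat_lit 12462045) (nat_lit 336) (nat_lit 113824523) (nat_lit 84) (nat_lit 10355429657) (nat_lit 37) (nat_lit 5) (nat_lit 41) (nat_lit 5) (nat_lit 38) (nat_lit 5) (nat_lit 336) (nat_lit 269) (nat_lit 256)) (XT.lf (nat_lit 0) (nat_lit 2361442331) (nat_lit 420) (nat_lit 6476234659) (nat_lit 84) (nat_lit 1850846190) (nat_lit 33) (nat_lit 5) (nat_lit 38) (nat_lit 5) (nat_lit 34) (nat_lit 4) (nat_lit 337) (nat_lit 269) (nat_lit 255))) (XT.nd (nat_lit 94) (nat_lit 252) (nat_lit 0) (XT.lf (nat_lit 0) (nat_lit 4728583773) (nat_lit 420) (nat_lit 2304137840) (nat_lit 84) (nat_lit 3870972800) (nat_lit 33) (nat_lit 5) (nat_lit 38) (nat_lit 5) (nat_lit 34) (nat_lit 4) (nat_lit 338) (nat_lit 269) (nat_lit 254)) (XT.lf (nat_lit 0) (nat_lit 1963078573) (nat_lit 252) (nat_lit 5170071270) (nat_lit 336) (nat_lit 3993751876) (nat_lit 30) (nat_lit 5) (nat_lit 33) (nat_lit 5) (nat_lit 34) (nat_lit 4) (nat_lit 339)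 (nat_lit 269) (nat_lit 253))))) (XT.nd (nat_lit 52452) (nat_lit 0) (nat_lit 2184) (XT.nd (nat_lit 52264) (nat_lit 0) (nat_lit 3024) (XT.lf (nat_lit 0) (nat_lit 6338404967) (nat_lit 252) (nat_lit 3243414545) (nat_lit 336) (nat_lit 1776396070) (nat_lit 30) (nat_lit 5) (nat_lit 33) (nat_lit 5) (nat_lit 34) (nat_lit 4) (nat_lit 340) (nat_lit 269) (nat_lit 252)) (XT.nd (nat_lit 94) (nat_lit 0) (nat_lit 0) (XT.lf (nat_lit 0) (nat_lit 92350841) (nat_lit 504) (nat_lit 3896761229) (nat_lit 0) (nat_lit 92350841) (nat_lit 66) (nat_lit 5) (nat_lit 72) (nat_lit 4) (nat_lit 66) (nat_lit 4) (nat_lit 321) (nat_lit 270) (nat_lit 270)) (XT.lf (nat_lit 0) (nat_lit 2820407400) (nat_lit 504) (nat_lit 3737029117) (nat_lit 0) (nat_lit 1719330572) (nat_lit 66) (nat_lit 5) (nat_lit 72) (nat_lit 4) (nat_lit 66) (nat_lit 4) (nat_lit 322) (nat_lit 270) (nat_lit 269)))) (XT.nd (nat_lit 188) (nat_lit 420) (nat_lit 0) (XT.nd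 (nat_lit 94) (nat_lit 0) (nat_lit 0) (XT.lf (nat_lit 0) (nat_lit 366887208) (nat_lit 420) (nat_lit 5099480177) (nat_lit 420) (nat_lit 2930433585) (nat_lit 61) (nat_lit 4) (nat_lit 66) (nat_lit 5) (nat_lit 66) (nat_lit 4) (nat_lit 323) (nat_lit 270) (nat_lit 268)) (XT.lf (nat_lit 0) (nat_lit 4592395565) (nat_lit 420) (nat_lit 3567287427) (nat_lit 420) (nat_lit 362382674) (nat_lit 61) (nat_lit 4) (nat_lit 66) (nat_lit 5) (nat_lit 66) (nat_lit 4) (nat_lit 324) (nat_lit 270) (nat_lit 267))) (XT.nd (nat_lit 94) (nat_lit 0) (nat_lit 0) (XT.lf (nat_lit 0) (nat_lit 194731010) (nat_lit 336) (nat_lit 1973830215) (nat_lit 420) (nat_lit 6484549693) (nat_lit 56) (nat_lit 5) (nat_lit 60) (nat_lit 5) (nat_lit 61) (nat_lit 4) (nat_lit 325) (nat_lit 270) (nat_lit 266)) (XT.lf (nat_lit 0) (nat_lit 4443162191) (nat_lit 336) (nat_lit 297005972) (nat_lit 420) (nat_lit 4049270792) (nat_lit 56) (nat_lit 5) (nat_lit 60)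 (nat_lit 5) (nat_lit 61) (nat_lit 4) (nat_lit 326) (nat_lit 270) (nat_lit 265)))))) (XT.nd (nat_lit 658) (nat_lit 924) (nat_lit 0) (XT.nd (nat_lit 282) (nat_lit 756) (nat_lit 0) (XT.nd (nat_lit 94) (nat_lit 504) (nat_lit 0) (XT.lf (nat_lit 0) (nat_lit 7336475550) (nat_lit 420) (nat_lit 204157522) (nat_lit 0) (nat_lit 1391450702) (nat_lit 56) (nat_lit 5) (nat_lit 61) (nat_lit 4) (nat_lit 56) (nat_lit 4) (nat_lit 327) (nat_lit 270) (nat_lit 264)) (XT.nd (nat_lit 94) (nat_lit 0) (nat_lit 0) (XT.lf (nat_lit 0) (nat_lit 890904410) (nat_lit 504) (nat_lit 5024813371) (nat_lit 84) (nat_lit 3164263932) (nat_lit 50) (nat_lit 5) (nat_lit 56) (nat_lit 5) (nat_lit 51) (nat_lit 4) (nat_lit 328) (nat_lit 270) (nat_lit 263)) (XT.lf (nat_lit 0) (nat_lit 3356562346) (nat_lit 504) (nat_lit 879540648) (nat_lit 84) (nat_lit 4998215466) (nat_lit 50) (nat_lit 5) (nat_lit 56) (nat_lit 5) (nat_lit 51) (nat_lit 4) (nat_lit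 329) (nat_lit 270) (nat_lit 262)))) (XT.nd (nat_lit 188) (nat_lit 420) (nat_lit 0) (XT.nd (nat_lit 94) (nat_lit 0) (nat_lit 0) (XT.lf (nat_lit 0) (nat_lit 3383192284) (nat_lit 336) (nat_lit 2484093136) (nat_lit 420) (nat_lit 3527467459) (nat_lit 46) (nat_lit 5) (nat_lit 50) (nat_lit 5) (nat_lit 51) (nat_lit 4) (nat_lit 330) (nat_lit 270) (nat_lit 261)) (XT.lf (nat_lit 0) (nat_lit 7718310606) (nat_lit 336) (nat_lit 682953536) (nat_lit 420) (nat_lit 1160919009) (nat_lit 46) (nat_lit 5) (nat_lit 50) (nat_lit 5) (nat_lit 51) (nat_lit 4) (nat_lit 331) (nat_lit 270) (nat_lit 260))) (XT.nd (nat_lit 94) (nat_lit 0) (nat_lit 0) (XT.lf (nat_lit 0) (nat_lit 1226230071) (nat_lit 420) (nat_lit 7336541729) (nat_lit 84) (nat_lit 1172786374) (nat_lit 41) (nat_lit 5) (nat_lit 46) (nat_lit 5) (nat_lit 42) (nat_lit 4) (nat_lit 332) (nat_lit 270) (nat_lit 259)) (XT.lf (nat_lit 0) (nat_lit 3627881514) (nat_lit 420)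 (nat_lit 3199168151) (nat_lit 84) (nat_lit 3088288573) (nat_lit 41) (nat_lit 5) (nat_lit 46) (nat_lit 5) (nat_lit 42) (nat_lit 4) (nat_lit 333) (nat_lit 270) (nat_lit 258))))) (XT.nd (nat_lit 376) (nat_lit 252) (nat_lit 0) (XT.nd (nat_lit 188) (nat_lit 420) (nat_lit 0) (XT.nd (nat_lit 94) (nat_lit 0) (nat_lit 0) (XT.lf (nat_lit 0) (nat_lit 1010265982) (nat_lit 252) (nat_lit 5043786361) (nat_lit 336) (nat_lit 4048479542) (nat_lit 38) (nat_lit 5) (nat_lit 41) (nat_lit 5) (nat_lit 42) (nat_lit 4) (nat_lit 334) (nat_lit 270) (nat_lit 257)) (XT.lf (nat_lit 0) (nat_lit 5342235652) (nat_lit 252) (nat_lit 3187688758) (nat_lit 336) (nat_lit 1766678656) (nat_lit 38) (nat_lit 5) (nat_lit 41) (nat_lit 5) (nat_lit 42) (nat_lit 4) (nat_lit 335) (nat_lit 270) (nat_lit 256))) (XT.nd (nat_lit 94) (nat_lit 336) (nat_lit 0) (XT.lf (nat_lit 0) (nat_lit 516068626) (nat_lit 336) (nat_lit 768964211) (nat_lit 84) (nat_lit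 9213541924) (nat_lit 37) (nat_lit 5) (nat_lit 41) (nat_lit 5) (nat_lit 38) (nat_lit 5) (nat_lit 336) (nat_lit 270) (nat_lit 255)) (XT.lf (nat_lit 0) (nat_lit 2818715066) (nat_lit 420) (nat_lit 7187793271) (nat_lit 84) (nat_lit 700437197) (nat_lit 33) (nat_lit 5) (nat_lit 38) (nat_lit 5) (nat_lit 34) (nat_lit 4) (nat_lit 337) (nat_lit 270) (nat_lit 254)))) (XT.nd (nat_lit 188) (nat_lit 0) (nat_lit 0) (XT.nd (nat_lit 94) (nat_lit 252) (nat_lit 0) (XT.lf (nat_lit 0) (nat_lit 5158564170) (nat_lit 420) (nat_lit 3052017015) (nat_lit 84) (nat_lit 2712505280) (nat_lit 33) (nat_lit 5) (nat_lit 38) (nat_lit 5) (nat_lit 34) (nat_lit 4) (nat_lit 338) (nat_lit 270) (nat_lit 253)) (XT.lf (nat_lit 0) (nat_lit 1163868617) (nat_lit 252) (nat_lit 6364861646) (nat_lit 336) (nat_lit 3618749826) (nat_lit 30) (nat_lit 5) (nat_lit 33) (nat_lit 5) (nat_lit 34) (nat_lit 4) (nat_lit 339) (nat_lit 270) (nat_lit 252))) (XT.nd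 (nat_lit 52076) (nat_lit 0) (nat_lit 3528) (XT.lf (nat_lit 0) (nat_lit 5504323186) (nat_lit 252) (nat_lit 4447055046) (nat_lit 336) (nat_lit 1428338705) (nat_lit 30) (nat_lit 5) (nat_lit 33) (nat_lit 5) (nat_lit 34) (nat_lit 4) (nat_lit 340) (nat_lit 270) (nat_lit 251)) (XT.lf (nat_lit 0) (nat_lit 111059731) (nat_lit 504) (nat_lit 1931335833) (nat_lit 504) (nat_lit 1931335833) (nat_lit 72) (nat_lit 4) (nat_lit 78) (nat_lit 5) (nat_lit 78) (nat_lit 4) (nat_lit 319) (nat_lit 271) (nat_lit 271))))))))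
noncomputable def xc2 : XT := (XT.nd (nat_lit 54520) (nat_lit 0) (nat_lit 0) (XT.nd (nat_lit 1316) (nat_lit 924) (nat_lit 0) (XT.nd (nat_lit 658) (nat_lit 1260) (nat_lit 0) (XT.nd (nat_lit 282) (nat_lit 840) (nat_lit 0) (XT.nd (nat_lit 94) (nat_lit 504) (nat_lit 0) (XT.lf (nat_lit 0) (nat_lit 4332529475) (nat_lit 504) (nat_lit 2445416216) (nat_lit 504) (nat_lit 1275014490) (nat_lit 72) (nat_lit 4) (nat_lit 78) (nat_lit 5) (nat_lit 78) (nat_lit 4) (nat_lit 320) (nat_lit 271) (nat_lit 270)) (XT.nd (nat_lit 94) (nat_lit 0) (nat_lit 0) (XT.lf (nat_lit 0) (nat_lit 317335446) (nat_lit 420) (nat_lit 974120673) (nat_lit 504) (nat_lit 6872579510) (nat_lit 66) (nat_lit 5) (nat_lit 71) (nat_lit 5) (nat_lit 72) (nat_lit 4) (nat_lit 321) (nat_lit 271) (nat_lit 269)) (XT.lf (nat_lit 0) (nat_lit 3880525434) (nat_lit 504) (nat_lit 3822749387) (nat_lit 0) (nat_lit 576268633) (nat_lit 66) (nat_lit 5) (nat_lit 72)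 (nat_lit 4) (nat_lit 66) (nat_lit 4) (nat_lit 322) (nat_lit 271) (nat_lit 268)))) (XT.nd (nat_lit 188) (nat_lit 336) (nat_lit 0) (XT.nd (nat_lit 94) (nat_lit 84) (nat_lit 0) (XT.lf (nat_lit 0) (nat_lit 237625709) (nat_lit 420) (nat_lit 6251716115) (nat_lit 420) (nat_lit 1911601153) (nat_lit 61) (nat_lit 4) (nat_lit 66) (nat_lit 5) (nat_lit 66) (nat_lit 4) (nat_lit 323) (nat_lit 271) (nat_lit 267)) (XT.lf (nat_lit 0) (nat_lit 607475314) (nat_lit 504) (nat_lit 4111044685) (nat_lit 84) (nat_lit 3808795505) (nat_lit 60) (nat_lit 5) (nat_lit 66) (nat_lit 5) (nat_lit 61) (nat_lit 4) (nat_lit 324) (nat_lit 271) (nat_lit 266))) (XT.nd (nat_lit 94) (nat_lit 336) (nat_lit 0) (XT.lf (nat_lit 0) (nat_lit 3094512692) (nat_lit 504) (nat_lit 34374278) (nat_lit 84) (nat_lit 5530692554) (nat_lit 60) (nat_lit 5) (nat_lit 66) (nat_lit 5) (nat_lit 61) (nat_lit 4) (nat_lit 325) (nat_lit 271) (nat_lit 265)) (XT.lf (nat_lit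 0) (nat_lit 4173544782) (nat_lit 336) (nat_lit 1458200963) (nat_lit 420) (nat_lit 3165416975) (nat_lit 56) (nat_lit 5) (nat_lit 60) (nat_lit 5) (nat_lit 61) (nat_lit 4) (nat_lit 326) (nat_lit 271) (nat_lit 264))))) (XT.nd (nat_lit 282) (nat_lit 756) (nat_lit 0) (XT.nd (nat_lit 94) (nat_lit 504) (nat_lit 0) (XT.lf (nat_lit 0) (nat_lit 8183475536) (nat_lit 420) (nat_lit 509739296) (nat_lit 0) (nat_lit 248158480) (nat_lit 56) (nat_lit 5) (nat_lit 61) (nat_lit 4) (nat_lit 56) (nat_lit 4) (nat_lit 327) (nat_lit 271) (nat_lit 263)) (XT.nd (nat_lit 94) (nat_lit 0) (nat_lit 0) (XT.lf (nat_lit 0) (nat_lit 1675649961) (nat_lit 504) (nat_lit 5394550528) (nat_lit 84) (nat_lit 2020104818) (nat_lit 50) (nat_lit 5) (nat_lit 56) (nat_lit 5) (nat_lit 51) (nat_lit 4) (nat_lit 328) (nat_lit 271) (nat_lit 262)) (XT.lf (nat_lit 0) (nat_lit 4109337467) (nat_lit 504) (nat_lit 1288276835) (nat_lit 84) (nat_lit 3848186612)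 (nat_lit 50) (nat_lit 5) (nat_lit 56) (nat_lit 5) (nat_lit 51) (nat_lit 4) (nat_lit 329) (nat_lit 271) (nat_lit 261)))) (XT.nd (nat_lit 188) (nat_lit 420) (nat_lit 0) (XT.nd (nat_lit 94) (nat_lit 0) (nat_lit 0) (XT.lf (nat_lit 0) (nat_lit 2927447442) (nat_lit 336) (nat_lit 3657082906) (nat_lit 420) (nat_lit 2822969153) (nat_lit 46) (nat_lit 5) (nat_lit 50) (nat_lit 5) (nat_lit 51) (nat_lit 4) (nat_lit 330) (nat_lit 271) (nat_lit 260)) (XT.lf (nat_lit 0) (nat_lit 7225122311) (nat_lit 336) (nat_lit 1862938549) (nat_lit 420) (nat_lit 487970647) (nat_lit 46) (nat_lit 5) (nat_lit 50) (nat_lit 5) (nat_lit 51) (nat_lit 4) (nat_lit 331) (nat_lit 271) (nat_lit 259))) (XT.nd (nat_lit 94) (nat_lit 0) (nat_lit 0) (XT.lf (nat_lit 0) (nat_lit 1838294197) (nat_lit 420) (nat_lit 7901789757) (nat_lit 84) (nat_lit 10731218) (nat_lit 41) (nat_lit 5) (nat_lit 46) (nat_lit 5) (nat_lit 42) (nat_lit 4) (nat_lit 332)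 (nat_lit 271) (nat_lit 258)) (XT.lf (nat_lit 0) (nat_lit 4210426304) (nat_lit 420) (nat_lit 3802108267) (nat_lit 84) (nat_lit 1919119789) (nat_lit 41) (nat_lit 5) (nat_lit 46) (nat_lit 5) (nat_lit 42) (nat_lit 4) (nat_lit 333) (nat_lit 271) (nat_lit 257)))))) (XT.nd (nat_lit 52452) (nat_lit 0) (nat_lit 2520) (XT.nd (nat_lit 282) (nat_lit 588) (nat_lit 0) (XT.nd (nat_lit 94) (nat_lit 84) (nat_lit 0) (XT.lf (nat_lit 0) (nat_lit 357617690) (nat_lit 252) (nat_lit 6243873339) (nat_lit 336) (nat_lit 3518584962) (nat_lit 38) (nat_lit 5) (nat_lit 41) (nat_lit 5) (nat_lit 42) (nat_lit 4) (nat_lit 334) (nat_lit 271) (nat_lit 256)) (XT.nd (nat_lit 94) (nat_lit 84) (nat_lit 0) (XT.lf (nat_lit 0) (nat_lit 4653398717) (nat_lit 252) (nat_lit 4395834528) (nat_lit 336) (nat_lit 1265921448) (nat_lit 38) (nat_lit 5) (nat_lit 41) (nat_lit 5) (nat_lit 42) (nat_lit 4) (nat_lit 335) (nat_lit 271) (nat_lit 255)) (XT.lf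 (nat_lit 0) (nat_lit 979044823) (nat_lit 336) (nat_lit 1517117742) (nat_lit 84) (nat_lit 8021795744) (nat_lit 37) (nat_lit 5) (nat_lit 41) (nat_lit 5) (nat_lit 38) (nat_lit 5) (nat_lit 336) (nat_lit 271) (nat_lit 254)))) (XT.nd (nat_lit 188) (nat_lit 252) (nat_lit 0) (XT.nd (nat_lit 94) (nat_lit 0) (nat_lit 0) (XT.lf (nat_lit 0) (nat_lit 2727491309) (nat_lit 336) (nat_lit 512323520) (nat_lit 420) (nat_lit 7487936057) (nat_lit 33) (nat_lit 5) (nat_lit 37) (nat_lit 5) (nat_lit 38) (nat_lit 5) (nat_lit 337) (nat_lit 271) (nat_lit 253)) (XT.lf (nat_lit 0) (nat_lit 5548109906) (nat_lit 420) (nat_lit 3894629491) (nat_lit 84) (nat_lit 1502250515) (nat_lit 33) (nat_lit 5) (nat_lit 38) (nat_lit 5) (nat_lit 34) (nat_lit 4) (nat_lit 338) (nat_lit 271) (nat_lit 252))) (XT.nd (nat_lit 94) (nat_lit 0) (nat_lit 0) (XT.lf (nat_lit 0) (nat_lit 269058476) (nat_lit 252) (nat_lit 7614665128) (nat_lit 336) (nat_lit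 3286847367) (nat_lit 30) (nat_lit 5) (nat_lit 33) (nat_lit 5) (nat_lit 34) (nat_lit 4) (nat_lit 339) (nat_lit 271) (nat_lit 251)) (XT.lf (nat_lit 0) (nat_lit 4575689744) (nat_lit 252) (nat_lit 5705442548) (nat_lit 336) (nat_lit 1122570762) (nat_lit 30) (nat_lit 5) (nat_lit 33) (nat_lit 5) (nat_lit 34) (nat_lit 4) (nat_lit 340) (nat_lit 271) (nat_lit 250))))) (XT.nd (nat_lit 376) (nat_lit 1008) (nat_lit 0) (XT.nd (nat_lit 188) (nat_lit 504) (nat_lit 0) (XT.nd (nat_lit 94) (nat_lit 0) (nat_lit 0) (XT.lf (nat_lit 0) (nat_lit 18470080) (nat_lit 588) (nat_lit 3838280085) (nat_lit 0) (nat_lit 18470080) (nat_lit 78) (nat_lit 5) (nat_lit 85) (nat_lit 4) (nat_lit 78) (nat_lit 4) (nat_lit 317) (nat_lit 272) (nat_lit 272)) (XT.lf (nat_lit 0) (nat_lit 2642204251) (nat_lit 588) (nat_lit 3769039825) (nat_lit 0) (nat_lit 1435520072) (nat_lit 78) (nat_lit 5) (nat_lit 85) (nat_lit 4) (nat_lit 78) (nat_lit 4) (nat_lit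 318) (nat_lit 272) (nat_lit 271))) (XT.nd (nat_lit 94) (nat_lit 0) (nat_lit 0) (XT.lf (nat_lit 0) (nat_lit 180574964) (nat_lit 504) (nat_lit 5072699978) (nat_lit 504) (nat_lit 2695614074) (nat_lit 72) (nat_lit 4) (nat_lit 78) (nat_lit 5) (nat_lit 78) (nat_lit 4) (nat_lit 319) (nat_lit 272) (nat_lit 270)) (XT.lf (nat_lit 0) (nat_lit 4250689634) (nat_lit 504) (nat_lit 3658688111) (nat_lit 504) (nat_lit 146391998) (nat_lit 72) (nat_lit 4) (nat_lit 78) (nat_lit 5) (nat_lit 78) (nat_lit 4) (nat_lit 320) (nat_lit 272) (nat_lit 269)))) (XT.nd (nat_lit 188) (nat_lit 504) (nat_lit 0) (XT.nd (nat_lit 94) (nat_lit 0) (nat_lit 0) (XT.lf (nat_lit 0) (nat_lit 178639889) (nat_lit 420) (nat_lit 2180795280) (nat_lit 504) (nat_lit 5808458805) (nat_lit 66) (nat_lit 5) (nat_lit 71) (nat_lit 5) (nat_lit 72) (nat_lit 4) (nat_lit 321) (nat_lit 272) (nat_lit 268)) (XT.lf (nat_lit 0) (nat_lit 4284463425) (nat_lit 420)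 (nat_lit 622383512) (nat_lit 504) (nat_lit 3378060435) (nat_lit 66) (nat_lit 5) (nat_lit 71) (nat_lit 5) (nat_lit 72) (nat_lit 4) (nat_lit 322) (nat_lit 272) (nat_lit 267))) (XT.nd (nat_lit 94) (nat_lit 84) (nat_lit 0) (XT.lf (nat_lit 0) (nat_lit 22056008) (nat_lit 420) (nat_lit 7450511688) (nat_lit 420) (nat_lit 935282914) (nat_lit 61) (nat_lit 4) (nat_lit 66) (nat_lit 5) (nat_lit 66) (nat_lit 4) (nat_lit 323) (nat_lit 272) (nat_lit 266)) (XT.lf (nat_lit 0) (nat_lit 1529449353) (nat_lit 504) (nat_lit 4383419646) (nat_lit 84) (nat_lit 2622324223) (nat_lit 60) (nat_lit 5) (nat_lit 66) (nat_lit 5) (nat_lit 61) (nat_lit 4) (nat_lit 324) (nat_lit 272) (nat_lit 265))))))) (XT.nd (nat_lit 1316) (nat_lit 252) (nat_lit 0) (XT.nd (nat_lit 658) (nat_lit 1008) (nat_lit 0) (XT.nd (nat_lit 282) (nat_lit 840) (nat_lit 0) (XT.nd (nat_lit 94) (nat_lit 420) (nat_lit 0) (XT.lf (nat_lit 0) (nat_lit 3982855729) (nat_lit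 504) (nat_lit 345752565) (nat_lit 84) (nat_lit 4340081077) (nat_lit 60) (nat_lit 5) (nat_lit 66) (nat_lit 5) (nat_lit 61) (nat_lit 4) (nat_lit 325) (nat_lit 272) (nat_lit 264)) (XT.nd (nat_lit 94) (nat_lit 84) (nat_lit 0) (XT.lf (nat_lit 0) (nat_lit 3817155466) (nat_lit 336) (nat_lit 2666778101) (nat_lit 420) (nat_lit 2323643680) (nat_lit 56) (nat_lit 5) (nat_lit 60) (nat_lit 5) (nat_lit 61) (nat_lit 4) (nat_lit 326) (nat_lit 272) (nat_lit 263)) (XT.lf (nat_lit 0) (nat_lit 47134931) (nat_lit 420) (nat_lit 913126198) (nat_lit 84) (nat_lit 7992760466) (nat_lit 55) (nat_lit 5) (nat_lit 60) (nat_lit 5) (nat_lit 56) (nat_lit 5) (nat_lit 327) (nat_lit 272) (nat_lit 262)))) (XT.nd (nat_lit 188) (nat_lit 420) (nat_lit 0) (XT.nd (nat_lit 94) (nat_lit 0) (nat_lit 0) (XT.lf (nat_lit 0) (nat_lit 2419790680) (nat_lit 504) (nat_lit 5854956567) (nat_lit 84) (nat_lit 828555330) (nat_lit 50) (nat_lit 5) (nat_lit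 56) (nat_lit 5) (nat_lit 51) (nat_lit 4) (nat_lit 328) (nat_lit 272) (nat_lit 261)) (XT.lf (nat_lit 0) (nat_lit 4822469039) (nat_lit 504) (nat_lit 1786509286) (nat_lit 84) (nat_lit 2650943875) (nat_lit 50) (nat_lit 5) (nat_lit 56) (nat_lit 5) (nat_lit 51) (nat_lit 4) (nat_lit 329) (nat_lit 272) (nat_lit 260))) (XT.nd (nat_lit 94) (nat_lit 84) (nat_lit 0) (XT.lf (nat_lit 0) (nat_lit 2381526857) (nat_lit 336) (nat_lit 4880642695) (nat_lit 420) (nat_lit 2160709336) (nat_lit 46) (nat_lit 5) (nat_lit 50) (nat_lit 5) (nat_lit 51) (nat_lit 4) (nat_lit 330) (nat_lit 272) (nat_lit 259)) (XT.lf (nat_lit 0) (nat_lit 140792875) (nat_lit 420) (nat_lit 2951020784) (nat_lit 84) (nat_lit 6500621656) (nat_lit 45) (nat_lit 5) (nat_lit 50) (nat_lit 5) (nat_lit 46) (nat_lit 5) (nat_lit 331) (nat_lit 272) (nat_lit 258))))) (XT.nd (nat_lit 282) (nat_lit 672) (nat_lit 0) (XT.nd (nat_lit 94) (nat_lit 0) (nat_lit 0) (XT.lf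 (nat_lit 0) (nat_lit 1195038834) (nat_lit 336) (nat_lit 1226506804) (nat_lit 420) (nat_lit 7346773401) (nat_lit 41) (nat_lit 5) (nat_lit 45) (nat_lit 5) (nat_lit 46) (nat_lit 5) (nat_lit 332) (nat_lit 272) (nat_lit 257)) (XT.nd (nat_lit 94) (nat_lit 0) (nat_lit 0) (XT.lf (nat_lit 0) (nat_lit 4752878894) (nat_lit 420) (nat_lit 4497990384) (nat_lit 84) (nat_lit 699693409) (nat_lit 41) (nat_lit 5) (nat_lit 46) (nat_lit 5) (nat_lit 42) (nat_lit 4) (nat_lit 333) (nat_lit 272) (nat_lit 256)) (XT.lf (nat_lit 0) (nat_lit 7112625152) (nat_lit 420) (nat_lit 380929147) (nat_lit 84) (nat_lit 2646536385) (nat_lit 41) (nat_lit 5) (nat_lit 46) (nat_lit 5) (nat_lit 42) (nat_lit 4) (nat_lit 334) (nat_lit 272) (nat_lit 255)))) (XT.nd (nat_lit 188) (nat_lit 336) (nat_lit 0) (XT.nd (nat_lit 94) (nat_lit 84) (nat_lit 0) (XT.lf (nat_lit 0) (nat_lit 3871918668) (nat_lit 252) (nat_lit 5657308087) (nat_lit 336) (nat_lit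 807039408) (nat_lit 38) (nat_lit 5) (nat_lit 41) (nat_lit 5) (nat_lit 42) (nat_lit 4) (nat_lit 335) (nat_lit 272) (nat_lit 254)) (XT.lf (nat_lit 0) (nat_lit 1401822178) (nat_lit 336) (nat_lit 2358982473) (nat_lit 84) (nat_lit 6779080284) (nat_lit 37) (nat_lit 5) (nat_lit 41) (nat_lit 5) (nat_lit 38) (nat_lit 5) (nat_lit 336) (nat_lit 272) (nat_lit 253))) (XT.nd (nat_lit 94) (nat_lit 0) (nat_lit 0) (XT.lf (nat_lit 0) (nat_lit 1833946588) (nat_lit 336) (nat_lit 1793729889) (nat_lit 420) (nat_lit 7123203341) (nat_lit 33) (nat_lit 5) (nat_lit 37) (nat_lit 5) (nat_lit 38) (nat_lit 5) (nat_lit 337) (nat_lit 272) (nat_lit 252)) (XT.lf (nat_lit 0) (nat_lit 5897584077) (nat_lit 420) (nat_lit 4832760669) (nat_lit 84) (nat_lit 239080422) (nat_lit 33) (nat_lit 5) (nat_lit 38) (nat_lit 5) (nat_lit 34) (nat_lit 4) (nat_lit 338) (nat_lit 272) (nat_lit 251)))))) (XT.nd (nat_lit 52264) (nat_lit 0) (nat_lit 2100)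 (XT.nd (nat_lit 51888) (nat_lit 0) (nat_lit 3528) (XT.nd (nat_lit 94) (nat_lit 252) (nat_lit 0) (XT.lf (nat_lit 0) (nat_lit 8205624933) (nat_lit 420) (nat_lit 707635467) (nat_lit 84) (nat_lit 2282713402) (nat_lit 33) (nat_lit 5) (nat_lit 38) (nat_lit 5) (nat_lit 34) (nat_lit 4) (nat_lit 339) (nat_lit 272) (nat_lit 250)) (XT.nd (nat_lit 51700) (nat_lit 0) (nat_lit 5208) (XT.lf (nat_lit 0) (nat_lit 3551639056) (nat_lit 252) (nat_lit 7019750000) (nat_lit 336) (nat_lit 858807231) (nat_lit 30) (nat_lit 5) (nat_lit 33) (nat_lit 5) (nat_lit 34) (nat_lit 4) (nat_lit 340) (nat_lit 272) (nat_lit 249)) (XT.lf (nat_lit 0) (nat_lit 1861156773) (nat_lit 1092) (nat_lit 62017432) (nat_lit 0) (nat_lit 1861156773) (nat_lit 92) (nat_lit 5) (nat_lit 105) (nat_lit 4) (nat_lit 92) (nat_lit 4) (nat_lit 315) (nat_lit 273) (nat_lit 273)))) (XT.nd (nat_lit 188) (nat_lit 504) (nat_lit 0) (XT.nd (nat_lit 94) (nat_lit 588)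 (nat_lit 0) (XT.lf (nat_lit 0) (nat_lit 3807472987) (nat_lit 588) (nat_lit 2566332195) (nat_lit 588) (nat_lit 1283673974) (nat_lit 85) (nat_lit 4) (nat_lit 92) (nat_lit 5) (nat_lit 92) (nat_lit 4) (nat_lit 316) (nat_lit 273) (nat_lit 272)) (XT.lf (nat_lit 0) (nat_lit 20751798) (nat_lit 504) (nat_lit 1233557117) (nat_lit 588) (nat_lit 6497209493) (nat_lit 78) (nat_lit 5) (nat_lit 84) (nat_lit 5) (nat_lit 85) (nat_lit 4) (nat_lit 317) (nat_lit 273) (nat_lit 271))) (XT.nd (nat_lit 94) (nat_lit 504) (nat_lit 0) (XT.lf (nat_lit 0) (nat_lit 3809547728) (nat_lit 588) (nat_lit 3851716695) (nat_lit 0) (nat_lit 188370435) (nat_lit 78) (nat_lit 5) (nat_lit 85) (nat_lit 4) (nat_lit 78) (nat_lit 4) (nat_lit 318) (nat_lit 273) (nat_lit 270)) (XT.lf (nat_lit 0) (nat_lit 55902745) (nat_lit 504) (nat_lit 6326826884) (nat_lit 504) (nat_lit 1570439383) (nat_lit 72) (nat_lit 4) (nat_lit 78) (nat_lit 5) (nat_lit 78)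 (nat_lit 4) (nat_lit 319) (nat_lit 273) (nat_lit 269))))) (XT.nd (nat_lit 376) (nat_lit 840) (nat_lit 0) (XT.nd (nat_lit 188) (nat_lit 504) (nat_lit 0) (XT.nd (nat_lit 94) (nat_lit 0) (nat_lit 0) (XT.lf (nat_lit 0) (nat_lit 922534064) (nat_lit 588) (nat_lit 3983797644) (nat_lit 84) (nat_lit 3154770241) (nat_lit 71) (nat_lit 5) (nat_lit 78) (nat_lit 5) (nat_lit 72) (nat_lit 4) (nat_lit 320) (nat_lit 273) (nat_lit 268)) (XT.lf (nat_lit 0) (nat_lit 3388209620) (nat_lit 588) (nat_lit 43980352) (nat_lit 84) (nat_lit 4742358645) (nat_lit 71) (nat_lit 5) (nat_lit 78) (nat_lit 5) (nat_lit 72) (nat_lit 4) (nat_lit 321) (nat_lit 273) (nat_lit 267))) (XT.nd (nat_lit 94) (nat_lit 84) (nat_lit 0) (XT.lf (nat_lit 0) (nat_lit 4022480906) (nat_lit 420) (nat_lit 1877949010) (nat_lit 504) (nat_lit 2392430786) (nat_lit 66) (nat_lit 5) (nat_lit 71) (nat_lit 5) (nat_lit 72) (nat_lit 4) (nat_lit 322) (nat_lit 273) (nat_lit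 266)) (XT.lf (nat_lit 0) (nat_lit 5078641) (nat_lit 504) (nat_lit 277233504) (nat_lit 84) (nat_lit 8135043623) (nat_lit 65) (nat_lit 5) (nat_lit 71) (nat_lit 5) (nat_lit 66) (nat_lit 5) (nat_lit 323) (nat_lit 273) (nat_lit 265)))) (XT.nd (nat_lit 188) (nat_lit 420) (nat_lit 0) (XT.nd (nat_lit 94) (nat_lit 0) (nat_lit 0) (XT.lf (nat_lit 0) (nat_lit 2411700022) (nat_lit 504) (nat_lit 4743453986) (nat_lit 84) (nat_lit 1390663596) (nat_lit 60) (nat_lit 5) (nat_lit 66) (nat_lit 5) (nat_lit 61) (nat_lit 4) (nat_lit 324) (nat_lit 273) (nat_lit 264)) (XT.lf (nat_lit 0) (nat_lit 4832486610) (nat_lit 504) (nat_lit 743617483) (nat_lit 84) (nat_lit 3104404743) (nat_lit 60) (nat_lit 5) (nat_lit 66) (nat_lit 5) (nat_lit 61) (nat_lit 4) (nat_lit 325) (nat_lit 273) (nat_lit 263))) (XT.nd (nat_lit 94) (nat_lit 84) (nat_lit 0) (XT.lf (nat_lit 0) (nat_lit 3373662052) (nat_lit 336) (nat_lit 3923863905) (nat_lit 420)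 (nat_lit 1523166287) (nat_lit 56) (nat_lit 5) (nat_lit 60) (nat_lit 5) (nat_lit 61) (nat_lit 4) (nat_lit 326) (nat_lit 273) (nat_lit 262)) (XT.lf (nat_lit 0) (nat_lit 799949471) (nat_lit 420) (nat_lit 1414813252) (nat_lit 84) (nat_lit 6752273064) (nat_lit 55) (nat_lit 5) (nat_lit 60) (nat_lit 5) (nat_lit 56) (nat_lit 5) (nat_lit 327) (nat_lit 273) (nat_lit 261))))))))
noncomputable def xc3 : XT := (XT.nd (nat_lit 54144) (nat_lit 0) (nat_lit 0) (XT.nd (nat_lit 52734) (nat_lit 0) (nat_lit 1680) (XT.nd (nat_lit 658) (nat_lit 924) (nat_lit 0) (XT.nd (nat_lit 282) (nat_lit 420) (nat_lit 0) (XT.nd (nat_lit 94) (nat_lit 336) (nat_lit 0) (XT.lf (nat_lit 0) (nat_lit 2708229838) (nat_lit 420) (nat_lit 419956365) (nat_lit 504) (nat_lit 5990670289) (nat_lit 50) (nat_lit 5) (nat_lit 55) (nat_lit 5) (nat_lit 56) (nat_lit 5) (nat_lit 328) (nat_lit 273) (nat_lit 260)) (XT.nd (nat_lit 94) (nat_lit 336) (nat_lit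 0) (XT.lf (nat_lit 0) (nat_lit 5496621775) (nat_lit 504) (nat_lit 2374702404) (nat_lit 84) (nat_lit 1405371300) (nat_lit 50) (nat_lit 5) (nat_lit 56) (nat_lit 5) (nat_lit 51) (nat_lit 4) (nat_lit 329) (nat_lit 273) (nat_lit 259)) (XT.lf (nat_lit 0) (nat_lit 1744921674) (nat_lit 336) (nat_lit 6155912990) (nat_lit 420) (nat_lit 1540070713) (nat_lit 46) (nat_lit 5) (nat_lit 50) (nat_lit 5) (nat_lit 51) (nat_lit 4) (nat_lit 330) (nat_lit 273) (nat_lit 258)))) (XT.nd (nat_lit 188) (nat_lit 0) (nat_lit 0) (XT.nd (nat_lit 94) (nat_lit 336) (nat_lit 0) (XT.lf (nat_lit 0) (nat_lit 719843835) (nat_lit 420) (nat_lit 3647776915) (nat_lit 84) (nat_lit 5243695795) (nat_lit 45) (nat_lit 5) (nat_lit 50) (nat_lit 5) (nat_lit 46) (nat_lit 5) (nat_lit 331) (nat_lit 273) (nat_lit 257)) (XT.lf (nat_lit 0) (nat_lit 448352460) (nat_lit 336) (nat_lit 2516628210) (nat_lit 420) (nat_lit 6823463388) (nat_lit 41) (nat_lit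 5) (nat_lit 45) (nat_lit 5) (nat_lit 46) (nat_lit 5) (nat_lit 332) (nat_lit 273) (nat_lit 256))) (XT.nd (nat_lit 94) (nat_lit 0) (nat_lit 0) (XT.lf (nat_lit 0) (nat_lit 4678656308) (nat_lit 336) (nat_lit 582870748) (nat_lit 420) (nat_lit 4710374537) (nat_lit 41) (nat_lit 5) (nat_lit 45) (nat_lit 5) (nat_lit 46) (nat_lit 5) (nat_lit 333) (nat_lit 273) (nat_lit 255)) (XT.lf (nat_lit 0) (nat_lit 7588555319) (nat_lit 420) (nat_lit 1204795228) (nat_lit 84) (nat_lit 1369224721) (nat_lit 41) (nat_lit 5) (nat_lit 46) (nat_lit 5) (nat_lit 42) (nat_lit 4) (nat_lit 334) (nat_lit 273) (nat_lit 254))))) (XT.nd (nat_lit 282) (nat_lit 252) (nat_lit 0) (XT.nd (nat_lit 94) (nat_lit 420) (nat_lit 0) (XT.lf (nat_lit 0) (nat_lit 2997067084) (nat_lit 252) (nat_lit 6973285263) (nat_lit 336) (nat_lit 389604812) (nat_lit 38) (nat_lit 5) (nat_lit 41) (nat_lit 5) (nat_lit 42) (nat_lit 4) (nat_lit 335) (nat_lit 273) (nat_lit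 253)) (XT.nd (nat_lit 94) (nat_lit 336) (nat_lit 0) (XT.lf (nat_lit 0) (nat_lit 1784794764) (nat_lit 336) (nat_lit 3295343110) (nat_lit 84) (nat_lit 5484237203) (nat_lit 37) (nat_lit 5) (nat_lit 41) (nat_lit 5) (nat_lit 38) (nat_lit 5) (nat_lit 336) (nat_lit 273) (nat_lit 252)) (XT.lf (nat_lit 0) (nat_lit 844996350) (nat_lit 336) (nat_lit 3130573889) (nat_lit 420) (nat_lit 6801003478) (nat_lit 33) (nat_lit 5) (nat_lit 37) (nat_lit 5) (nat_lit 38) (nat_lit 5) (nat_lit 337) (nat_lit 273) (nat_lit 251)))) (XT.nd (nat_lit 188) (nat_lit 252) (nat_lit 0) (XT.nd (nat_lit 94) (nat_lit 0) (nat_lit 0) (XT.lf (nat_lit 0) (nat_lit 5117876012) (nat_lit 336) (nat_lit 1100352047) (nat_lit 420) (nat_lit 4777848566) (nat_lit 33) (nat_lit 5) (nat_lit 37) (nat_lit 5) (nat_lit 38) (nat_lit 5) (nat_lit 338) (nat_lit 273) (nat_lit 250)) (XT.lf (nat_lit 0) (nat_lit 8491198340) (nat_lit 420) (nat_lit 1774305116) (nat_lit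 84) (nat_lit 958318414) (nat_lit 33) (nat_lit 5) (nat_lit 38) (nat_lit 5) (nat_lit 34) (nat_lit 4) (nat_lit 339) (nat_lit 273) (nat_lit 249))) (XT.nd (nat_lit 51512) (nat_lit 0) (nat_lit 6300) (XT.lf (nat_lit 0) (nat_lit 2431216601) (nat_lit 252) (nat_lit 8391202474) (nat_lit 336) (nat_lit 636802259) (nat_lit 30) (nat_lit 5) (nat_lit 33) (nat_lit 5) (nat_lit 34) (nat_lit 4) (nat_lit 340) (nat_lit 273) (nat_lit 248)) (XT.lf (nat_lit 0) (nat_lit 3565152425) (nat_lit 924) (nat_lit 68348262) (nat_lit 924) (nat_lit 68348262) (nat_lit 105) (nat_lit 4) (nat_lit 116) (nat_lit 5) (nat_lit 116) (nat_lit 4) (nat_lit 313) (nat_lit 274) (nat_lit 274)))))) (XT.nd (nat_lit 658) (nat_lit 1764) (nat_lit 0) (XT.nd (nat_lit 282) (nat_lit 1176) (nat_lit 0) (XT.nd (nat_lit 94) (nat_lit 588) (nat_lit 0) (XT.lf (nat_lit 0) (nat_lit 2433401981) (nat_lit 1092) (nat_lit 3939880962) (nat_lit 0) (nat_lit 1110981355) (nat_lit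 92) (nat_lit 5) (nat_lit 105) (nat_lit 4) (nat_lit 92) (nat_lit 4) (nat_lit 314) (nat_lit 274) (nat_lit 273)) (XT.nd (nat_lit 94) (nat_lit 588) (nat_lit 0) (XT.lf (nat_lit 0) (nat_lit 5006052510) (nat_lit 1092) (nat_lit 163100137) (nat_lit 0) (nat_lit 2400973662) (nat_lit 92) (nat_lit 5) (nat_lit 105) (nat_lit 4) (nat_lit 92) (nat_lit 4) (nat_lit 315) (nat_lit 274) (nat_lit 272)) (XT.lf (nat_lit 0) (nat_lit 3728934680) (nat_lit 588) (nat_lit 3890311772) (nat_lit 588) (nat_lit 41141536) (nat_lit 85) (nat_lit 4) (nat_lit 92) (nat_lit 5) (nat_lit 92) (nat_lit 4) (nat_lit 316) (nat_lit 274) (nat_lit 271)))) (XT.nd (nat_lit 188) (nat_lit 588) (nat_lit 0) (XT.nd (nat_lit 94) (nat_lit 504) (nat_lit 0) (XT.lf (nat_lit 0) (nat_lit 2434218197) (nat_lit 672) (nat_lit 111957254) (nat_lit 84) (nat_lit 5209276945) (nat_lit 84) (nat_lit 5) (nat_lit 92) (nat_lit 5) (nat_lit 85) (nat_lit 4) (nat_lit 317) (nat_lit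 274) (nat_lit 270)) (XT.lf (nat_lit 0) (nat_lit 3826745462) (nat_lit 504) (nat_lit 1123033761) (nat_lit 588) (nat_lit 2905254371) (nat_lit 78) (nat_lit 5) (nat_lit 84) (nat_lit 5) (nat_lit 85) (nat_lit 4) (nat_lit 318) (nat_lit 274) (nat_lit 269))) (XT.nd (nat_lit 94) (nat_lit 588) (nat_lit 0) (XT.lf (nat_lit 0) (nat_lit 7475715952) (nat_lit 588) (nat_lit 148950669) (nat_lit 0) (nat_lit 335593402) (nat_lit 78) (nat_lit 5) (nat_lit 85) (nat_lit 4) (nat_lit 78) (nat_lit 4) (nat_lit 319) (nat_lit 274) (nat_lit 268)) (XT.lf (nat_lit 0) (nat_lit 1949597580) (nat_lit 588) (nat_lit 4248459627) (nat_lit 84) (nat_lit 1871161561) (nat_lit 71) (nat_lit 5) (nat_lit 78) (nat_lit 5) (nat_lit 72) (nat_lit 4) (nat_lit 320) (nat_lit 274) (nat_lit 267))))) (XT.nd (nat_lit 376) (nat_lit 840) (nat_lit 0) (XT.nd (nat_lit 188) (nat_lit 504) (nat_lit 0) (XT.nd (nat_lit 94) (nat_lit 420) (nat_lit 0) (XT.lf (nat_lit 0)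 (nat_lit 4380908434) (nat_lit 588) (nat_lit 346325444) (nat_lit 84) (nat_lit 3456704615) (nat_lit 71) (nat_lit 5) (nat_lit 78) (nat_lit 5) (nat_lit 72) (nat_lit 4) (nat_lit 321) (nat_lit 274) (nat_lit 266)) (XT.lf (nat_lit 0) (nat_lit 3676617378) (nat_lit 420) (nat_lit 3179748914) (nat_lit 504) (nat_lit 1447225425) (nat_lit 66) (nat_lit 5) (nat_lit 71) (nat_lit 5) (nat_lit 72) (nat_lit 4) (nat_lit 322) (nat_lit 274) (nat_lit 265))) (XT.nd (nat_lit 94) (nat_lit 420) (nat_lit 0) (XT.lf (nat_lit 0) (nat_lit 898026257) (nat_lit 504) (nat_lit 680257138) (nat_lit 84) (nat_lit 6850731917) (nat_lit 65) (nat_lit 5) (nat_lit 71) (nat_lit 5) (nat_lit 66) (nat_lit 5) (nat_lit 323) (nat_lit 274) (nat_lit 264)) (XT.lf (nat_lit 0) (nat_lit 3255049671) (nat_lit 504) (nat_lit 5191483294) (nat_lit 84) (nat_lit 112665588) (nat_lit 60) (nat_lit 5) (nat_lit 66) (nat_lit 5) (nat_lit 61) (nat_lit 4) (nat_lit 324) (nat_lit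 274) (nat_lit 263)))) (XT.nd (nat_lit 188) (nat_lit 504) (nat_lit 0) (XT.nd (nat_lit 94) (nat_lit 336) (nat_lit 0) (XT.lf (nat_lit 0) (nat_lit 5644197278) (nat_lit 504) (nat_lit 1228339884) (nat_lit 84) (nat_lit 1822511771) (nat_lit 60) (nat_lit 5) (nat_lit 66) (nat_lit 5) (nat_lit 61) (nat_lit 4) (nat_lit 325) (nat_lit 274) (nat_lit 262)) (XT.lf (nat_lit 0) (nat_lit 2842651157) (nat_lit 336) (nat_lit 5230630113) (nat_lit 420) (nat_lit 763238665) (nat_lit 56) (nat_lit 5) (nat_lit 60) (nat_lit 5) (nat_lit 61) (nat_lit 4) (nat_lit 326) (nat_lit 274) (nat_lit 261))) (XT.nd (nat_lit 94) (nat_lit 420) (nat_lit 0) (XT.lf (nat_lit 0) (nat_lit 1513979418) (nat_lit 420) (nat_lit 2005211567) (nat_lit 84) (nat_lit 5464549721) (nat_lit 55) (nat_lit 5) (nat_lit 60) (nat_lit 5) (nat_lit 56) (nat_lit 5) (nat_lit 327) (nat_lit 274) (nat_lit 260)) (XT.lf (nat_lit 0) (nat_lit 2070035251) (nat_lit 420) (nat_lit 1736182784)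 (nat_lit 504) (nat_lit 5330617155) (nat_lit 50) (nat_lit 5) (nat_lit 55) (nat_lit 5) (nat_lit 56) (nat_lit 5) (nat_lit 328) (nat_lit 274) (nat_lit 259))))))) (XT.nd (nat_lit 52546) (nat_lit 0) (nat_lit 2100) (XT.nd (nat_lit 658) (nat_lit 672) (nat_lit 0) (XT.nd (nat_lit 282) (nat_lit 588) (nat_lit 0) (XT.nd (nat_lit 94) (nat_lit 420) (nat_lit 0) (XT.lf (nat_lit 0) (nat_lit 6132424056) (nat_lit 504) (nat_lit 3053404449) (nat_lit 84) (nat_lit 110307882) (nat_lit 50) (nat_lit 5) (nat_lit 56) (nat_lit 5) (nat_lit 51) (nat_lit 4) (nat_lit 329) (nat_lit 274) (nat_lit 258)) (XT.nd (nat_lit 94) (nat_lit 84) (nat_lit 0) (XT.lf (nat_lit 0) (nat_lit 1017038511) (nat_lit 336) (nat_lit 7484082475) (nat_lit 420) (nat_lit 960474783) (nat_lit 46) (nat_lit 5) (nat_lit 50) (nat_lit 5) (nat_lit 51) (nat_lit 4) (nat_lit 330) (nat_lit 274) (nat_lit 257)) (XT.lf (nat_lit 0) (nat_lit 1259553491) (nat_lit 420) (nat_lit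 4436986311) (nat_lit 84) (nat_lit 3936303061) (nat_lit 45) (nat_lit 5) (nat_lit 50) (nat_lit 5) (nat_lit 46) (nat_lit 5) (nat_lit 331) (nat_lit 274) (nat_lit 256)))) (XT.nd (nat_lit 188) (nat_lit 252) (nat_lit 0) (XT.nd (nat_lit 94) (nat_lit 336) (nat_lit 0) (XT.lf (nat_lit 0) (nat_lit 3472882083) (nat_lit 420) (nat_lit 383727460) (nat_lit 84) (nat_lit 5954482382) (nat_lit 45) (nat_lit 5) (nat_lit 50) (nat_lit 5) (nat_lit 46) (nat_lit 5) (nat_lit 332) (nat_lit 274) (nat_lit 255)) (XT.lf (nat_lit 0) (nat_lit 3805191512) (nat_lit 336) (nat_lit 1933481931) (nat_lit 420) (nat_lit 4256960842) (nat_lit 41) (nat_lit 5) (nat_lit 45) (nat_lit 5) (nat_lit 46) (nat_lit 5) (nat_lit 333) (nat_lit 274) (nat_lit 254))) (XT.nd (nat_lit 94) (nat_lit 252) (nat_lit 0) (XT.lf (nat_lit 0) (nat_lit 8026177537) (nat_lit 420) (nat_lit 2121953680) (nat_lit 84) (nat_lit 39529462) (nat_lit 41) (nat_lit 5) (nat_lit 46) (nat_lit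 5) (nat_lit 42) (nat_lit 4) (nat_lit 334) (nat_lit 274) (nat_lit 253)) (XT.lf (nat_lit 0) (nat_lit 2028028511) (nat_lit 252) (nat_lit 8344992682) (nat_lit 336) (nat_lit 13228566) (nat_lit 38) (nat_lit 5) (nat_lit 41) (nat_lit 5) (nat_lit 42) (nat_lit 4) (nat_lit 335) (nat_lit 274) (nat_lit 252))))) (XT.nd (nat_lit 282) (nat_lit 252) (nat_lit 0) (XT.nd (nat_lit 94) (nat_lit 336) (nat_lit 0) (XT.lf (nat_lit 0) (nat_lit 2128319552) (nat_lit 336) (nat_lit 4327072440) (nat_lit 84) (nat_lit 4136059571) (nat_lit 37) (nat_lit 5) (nat_lit 41) (nat_lit 5) (nat_lit 38) (nat_lit 5) (nat_lit 336) (nat_lit 274) (nat_lit 251)) (XT.nd (nat_lit 94) (nat_lit 336) (nat_lit 0) (XT.lf (nat_lit 0) (nat_lit 4286204009) (nat_lit 336) (nat_lit 235440079) (nat_lit 84) (nat_lit 6283138553) (nat_lit 37) (nat_lit 5) (nat_lit 41) (nat_lit 5) (nat_lit 38) (nat_lit 5) (nat_lit 337) (nat_lit 274) (nat_lit 250)) (XT.lf (nat_lit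 0) (nat_lit 4001236900) (nat_lit 336) (nat_lit 2501158568) (nat_lit 420) (nat_lit 4522819961) (nat_lit 33) (nat_lit 5) (nat_lit 37) (nat_lit 5) (nat_lit 38) (nat_lit 5) (nat_lit 338) (nat_lit 274) (nat_lit 249)))) (XT.nd (nat_lit 51418) (nat_lit 0) (nat_lit 6300) (XT.nd (nat_lit 94) (nat_lit 252) (nat_lit 0) (XT.lf (nat_lit 0) (nat_lit 8312461947) (nat_lit 336) (nat_lit 429843066) (nat_lit 420) (nat_lit 2511786678) (nat_lit 33) (nat_lit 5) (nat_lit 37) (nat_lit 5) (nat_lit 38) (nat_lit 5) (nat_lit 339) (nat_lit 274) (nat_lit 248)) (XT.lf (nat_lit 0) (nat_lit 1213378028) (nat_lit 252) (nat_lit 9821078307) (nat_lit 336) (nat_lit 456348914) (nat_lit 30) (nat_lit 5) (nat_lit 33) (nat_lit 5) (nat_lit 34) (nat_lit 4) (nat_lit 340) (nat_lit 274) (nat_lit 247))) (XT.nd (nat_lit 94) (nat_lit 924) (nat_lit 0) (XT.lf (nat_lit 0) (nat_lit 1706877728) (nat_lit 924) (nat_lit 212589925) (nat_lit 0) (nat_lit 1706877728)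 (nat_lit 116) (nat_lit 5) (nat_lit 127) (nat_lit 4) (nat_lit 116) (nat_lit 4) (nat_lit 311) (nat_lit 275) (nat_lit 275)) (XT.lf (nat_lit 0) (nat_lit 3309188902) (nat_lit 924) (nat_lit 2711424023) (nat_lit 924) (nat_lit 1305742472) (nat_lit 105) (nat_lit 4) (nat_lit 116) (nat_lit 5) (nat_lit 116) (nat_lit 4) (nat_lit 312) (nat_lit 275) (nat_lit 274)))))) (XT.nd (nat_lit 658) (nat_lit 1848) (nat_lit 0) (XT.nd (nat_lit 282) (nat_lit 1260) (nat_lit 0) (XT.nd (nat_lit 94) (nat_lit 1008) (nat_lit 0) (XT.lf (nat_lit 0) (nat_lit 1203910186) (nat_lit 1008) (nat_lit 323955628) (nat_lit 84) (nat_lit 5876940022) (nat_lit 104) (nat_lit 5) (nat_lit 116) (nat_lit 5) (nat_lit 105) (nat_lit 4) (nat_lit 313) (nat_lit 275) (nat_lit 273)) (XT.nd (nat_lit 94) (nat_lit 0) (nat_lit 0) (XT.lf (nat_lit 0) (nat_lit 3465403886) (nat_lit 1008) (nat_lit 255384754) (nat_lit 1092) (nat_lit 3766371225) (nat_lit 92) (nat_lit 5)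 (nat_lit 104) (nat_lit 5) (nat_lit 105) (nat_lit 4) (nat_lit 314) (nat_lit 275) (nat_lit 272)) (XT.lf (nat_lit 0) (nat_lit 6253387135) (nat_lit 1092) (nat_lit 280332369) (nat_lit 0) (nat_lit 1040801234) (nat_lit 92) (nat_lit 5) (nat_lit 105) (nat_lit 4) (nat_lit 92) (nat_lit 4) (nat_lit 315) (nat_lit 275) (nat_lit 271)))) (XT.nd (nat_lit 188) (nat_lit 588) (nat_lit 0) (XT.nd (nat_lit 94) (nat_lit 0) (nat_lit 0) (XT.lf (nat_lit 0) (nat_lit 1139003050) (nat_lit 672) (nat_lit 4105954885) (nat_lit 84) (nat_lit 2420892953) (nat_lit 84) (nat_lit 5) (nat_lit 92) (nat_lit 5) (nat_lit 85) (nat_lit 4) (nat_lit 316) (nat_lit 275) (nat_lit 270)) (XT.lf (nat_lit 0) (nat_lit 3577274867) (nat_lit 672) (nat_lit 324226550) (nat_lit 84) (nat_lit 3860759993) (nat_lit 84) (nat_lit 5) (nat_lit 92) (nat_lit 5) (nat_lit 85) (nat_lit 4) (nat_lit 317) (nat_lit 275) (nat_lit 269))) (XT.nd (nat_lit 94) (nat_lit 84) (nat_lit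 0) (XT.lf (nat_lit 0) (nat_lit 3573130117) (nat_lit 504) (nat_lit 2482021104) (nat_lit 588) (nat_lit 1808087285) (nat_lit 78) (nat_lit 5) (nat_lit 84) (nat_lit 5) (nat_lit 85) (nat_lit 4) (nat_lit 318) (nat_lit 275) (nat_lit 268)) (XT.lf (nat_lit 0) (nat_lit 561811641) (nat_lit 588) (nat_lit 450219901) (nat_lit 84) (nat_lit 6957651709) (nat_lit 77) (nat_lit 5) (nat_lit 84) (nat_lit 5) (nat_lit 78) (nat_lit 5) (nat_lit 319) (nat_lit 275) (nat_lit 267))))) (XT.nd (nat_lit 376) (nat_lit 840) (nat_lit 0) (XT.nd (nat_lit 188) (nat_lit 504) (nat_lit 0) (XT.nd (nat_lit 94) (nat_lit 0) (nat_lit 0) (XT.lf (nat_lit 0) (nat_lit 2938705355) (nat_lit 588) (nat_lit 4597860525) (nat_lit 84) (nat_lit 543606907) (nat_lit 71) (nat_lit 5) (nat_lit 78) (nat_lit 5) (nat_lit 72) (nat_lit 4) (nat_lit 320) (nat_lit 275) (nat_lit 266)) (XT.lf (nat_lit 0) (nat_lit 5336684780) (nat_lit 588) (nat_lit 732276399) (nat_lit 84)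 (nat_lit 2127166111) (nat_lit 71) (nat_lit 5) (nat_lit 78) (nat_lit 5) (nat_lit 72) (nat_lit 4) (nat_lit 321) (nat_lit 275) (nat_lit 265))) (XT.nd (nat_lit 94) (nat_lit 84) (nat_lit 0) (XT.lf (nat_lit 0) (nat_lit 3246550460) (nat_lit 420) (nat_lit 4528996638) (nat_lit 504) (nat_lit 541563322) (nat_lit 66) (nat_lit 5) (nat_lit 71) (nat_lit 5) (nat_lit 72) (nat_lit 4) (nat_lit 322) (nat_lit 275) (nat_lit 264)) (XT.lf (nat_lit 0) (nat_lit 1753225998) (nat_lit 504) (nat_lit 1168765483) (nat_lit 84) (nat_lit 5521446563) (nat_lit 65) (nat_lit 5) (nat_lit 71) (nat_lit 5) (nat_lit 66) (nat_lit 5) (nat_lit 323) (nat_lit 275) (nat_lit 263)))) (XT.nd (nat_lit 188) (nat_lit 420) (nat_lit 0) (XT.nd (nat_lit 94) (nat_lit 0) (nat_lit 0) (XT.lf (nat_lit 0) (nat_lit 2834763578) (nat_lit 420) (nat_lit 1237799940) (nat_lit 504) (nat_lit 4502404371) (nat_lit 60) (nat_lit 5) (nat_lit 65) (nat_lit 5) (nat_lit 66) (nat_lit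 5) (nat_lit 324) (nat_lit 275) (nat_lit 262)) (XT.lf (nat_lit 0) (nat_lit 6418744334) (nat_lit 504) (nat_lit 1800371580) (nat_lit 84) (nat_lit 493207302) (nat_lit 60) (nat_lit 5) (nat_lit 66) (nat_lit 5) (nat_lit 61) (nat_lit 4) (nat_lit 325) (nat_lit 275) (nat_lit 261))) (XT.nd (nat_lit 94) (nat_lit 84) (nat_lit 0) (XT.lf (nat_lit 0) (nat_lit 2223627823) (nat_lit 336) (nat_lit 6588294765) (nat_lit 420) (nat_lit 43152485) (nat_lit 56) (nat_lit 5) (nat_lit 60) (nat_lit 5) (nat_lit 61) (nat_lit 4) (nat_lit 326) (nat_lit 275) (nat_lit 260)) (XT.lf (nat_lit 0) (nat_lit 2189890322) (nat_lit 420) (nat_lit 2684871456) (nat_lit 84) (nat_lit 4128390142) (nat_lit 55) (nat_lit 5) (nat_lit 60) (nat_lit 5) (nat_lit 56) (nat_lit 5) (nat_lit 327) (nat_lit 275) (nat_lit 259))))))))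
noncomputable def xc4 : XT := (XT.nd (nat_lit 53674) (nat_lit 0) (nat_lit 0) (XT.nd (nat_lit 52358) (nat_lit 0) (nat_lit 2688) (XT.nd (nat_lit 658) (nat_lit 672) (nat_lit 0) (XT.nd (nat_lit 282) (nat_lit 420) (nat_lit 0) (XT.nd (nat_lit 94) (nat_lit 336) (nat_lit 0) (XT.lf (nat_lit 0) (nat_lit 1341815805) (nat_lit 420) (nat_lit 3104313991) (nat_lit 504) (nat_lit 4711385675) (nat_lit 50) (nat_lit 5) (nat_lit 55) (nat_lit 5) (nat_lit 56) (nat_lit 5) (nat_lit 328) (nat_lit 275) (nat_lit 258)) (XT.nd (nat_lit 94) (nat_lit 336) (nat_lit 0) (XT.lf (nat_lit 0) (nat_lit 5482119403) (nat_lit 420) (nat_lit 1260856971) (nat_lit 504) (nat_lit 2574898926) (nat_lit 50) (nat_lit 5) (nat_lit 55) (nat_lit 5) (nat_lit 56) (nat_lit 5) (nat_lit 329) (nat_lit 275) (nat_lit 257)) (XT.lf (nat_lit 0) (nat_lit 197198903) (nat_lit 336) (nat_lit 8866389144) (nat_lit 420) (nat_lit 421381304) (nat_lit 46) (nat_lit 5) (nat_lit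 50) (nat_lit 5) (nat_lit 51) (nat_lit 4) (nat_lit 330) (nat_lit 275) (nat_lit 256)))) (XT.nd (nat_lit 188) (nat_lit 336) (nat_lit 0) (XT.nd (nat_lit 94) (nat_lit 0) (nat_lit 0) (XT.lf (nat_lit 0) (nat_lit 1760424907) (nat_lit 420) (nat_lit 5319384597) (nat_lit 84) (nat_lit 2577224826) (nat_lit 45) (nat_lit 5) (nat_lit 50) (nat_lit 5) (nat_lit 46) (nat_lit 5) (nat_lit 331) (nat_lit 275) (nat_lit 255)) (XT.lf (nat_lit 0) (nat_lit 3947215642) (nat_lit 420) (nat_lit 1298945554) (nat_lit 84) (nat_lit 4590076290) (nat_lit 45) (nat_lit 5) (nat_lit 50) (nat_lit 5) (nat_lit 46) (nat_lit 5) (nat_lit 332) (nat_lit 275) (nat_lit 254))) (XT.nd (nat_lit 94) (nat_lit 0) (nat_lit 0) (XT.lf (nat_lit 0) (nat_lit 2838667120) (nat_lit 336) (nat_lit 3339011922) (nat_lit 420) (nat_lit 3844323441) (nat_lit 41) (nat_lit 5) (nat_lit 45) (nat_lit 5) (nat_lit 46) (nat_lit 5) (nat_lit 333) (nat_lit 275) (nat_lit 253)) (XT.lf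 (nat_lit 0) (nat_lit 7068084508) (nat_lit 336) (nat_lit 1371419861) (nat_lit 420) (nat_lit 1775444184) (nat_lit 41) (nat_lit 5) (nat_lit 45) (nat_lit 5) (nat_lit 46) (nat_lit 5) (nat_lit 334) (nat_lit 275) (nat_lit 252))))) (XT.nd (nat_lit 282) (nat_lit 336) (nat_lit 0) (XT.nd (nat_lit 94) (nat_lit 0) (nat_lit 0) (XT.lf (nat_lit 0) (nat_lit 315943700) (nat_lit 336) (nat_lit 9454467417) (nat_lit 84) (nat_lit 644658199) (nat_lit 37) (nat_lit 5) (nat_lit 41) (nat_lit 5) (nat_lit 38) (nat_lit 5) (nat_lit 335) (nat_lit 275) (nat_lit 251)) (XT.nd (nat_lit 94) (nat_lit 0) (nat_lit 0) (XT.lf (nat_lit 0) (nat_lit 2432716743) (nat_lit 336) (nat_lit 5455132143) (nat_lit 84) (nat_lit 2733290747) (nat_lit 37) (nat_lit 5) (nat_lit 41) (nat_lit 5) (nat_lit 38) (nat_lit 5) (nat_lit 336) (nat_lit 275) (nat_lit 250)) (XT.lf (nat_lit 0) (nat_lit 4566829570) (nat_lit 336) (nat_lit 1394229467) (nat_lit 84) (nat_lit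 4874258016) (nat_lit 37) (nat_lit 5) (nat_lit 41) (nat_lit 5) (nat_lit 38) (nat_lit 5) (nat_lit 337) (nat_lit 275) (nat_lit 249)))) (XT.nd (nat_lit 188) (nat_lit 0) (nat_lit 0) (XT.nd (nat_lit 94) (nat_lit 0) (nat_lit 0) (XT.lf (nat_lit 0) (nat_lit 2788201851) (nat_lit 336) (nat_lit 3959728854) (nat_lit 420) (nat_lit 4309013070) (nat_lit 33) (nat_lit 5) (nat_lit 37) (nat_lit 5) (nat_lit 38) (nat_lit 5) (nat_lit 338) (nat_lit 275) (nat_lit 248)) (XT.lf (nat_lit 0) (nat_lit 7069922944) (nat_lit 336) (nat_lit 1895261026) (nat_lit 420) (nat_lit 2321441352) (nat_lit 33) (nat_lit 5) (nat_lit 37) (nat_lit 5) (nat_lit 38) (nat_lit 5) (nat_lit 339) (nat_lit 275) (nat_lit 247))) (XT.nd (nat_lit 51136) (nat_lit 0) (nat_lit 7896) (XT.lf (nat_lit 0) (nat_lit 11208720366) (nat_lit 420) (nat_lit 100936359) (nat_lit 84) (nat_lit 215289065) (nat_lit 33) (nat_lit 5) (nat_lit 38) (nat_lit 5) (nat_lit 34) (nat_lit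 4) (nat_lit 340) (nat_lit 275) (nat_lit 246)) (XT.lf (nat_lit 0) (nat_lit 3312315429) (nat_lit 756) (nat_lit 123119026) (nat_lit 756) (nat_lit 123119026) (nat_lit 127) (nat_lit 4) (nat_lit 136) (nat_lit 5) (nat_lit 136) (nat_lit 4) (nat_lit 309) (nat_lit 276) (nat_lit 276)))))) (XT.nd (nat_lit 658) (nat_lit 1596) (nat_lit 0) (XT.nd (nat_lit 282) (nat_lit 1680) (nat_lit 0) (XT.nd (nat_lit 94) (nat_lit 1008) (nat_lit 0) (XT.lf (nat_lit 0) (nat_lit 2288249855) (nat_lit 924) (nat_lit 4056006566) (nat_lit 0) (nat_lit 838992175) (nat_lit 116) (nat_lit 5) (nat_lit 127) (nat_lit 4) (nat_lit 116) (nat_lit 4) (nat_lit 310) (nat_lit 276) (nat_lit 275)) (XT.nd (nat_lit 94) (nat_lit 1008) (nat_lit 0) (XT.lf (nat_lit 0) (nat_lit 4823352359) (nat_lit 924) (nat_lit 462445420) (nat_lit 0) (nat_lit 1968413129) (nat_lit 116) (nat_lit 5) (nat_lit 127) (nat_lit 4) (nat_lit 116) (nat_lit 4) (nat_lit 311) (nat_lit 276)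 (nat_lit 274)) (XT.lf (nat_lit 0) (nat_lit 60383718) (nat_lit 1008) (nat_lit 4095715564) (nat_lit 84) (nat_lit 3173254787) (nat_lit 104) (nat_lit 5) (nat_lit 116) (nat_lit 5) (nat_lit 105) (nat_lit 4) (nat_lit 312) (nat_lit 276) (nat_lit 273)))) (XT.nd (nat_lit 188) (nat_lit 672) (nat_lit 0) (XT.nd (nat_lit 94) (nat_lit 1008) (nat_lit 0) (XT.lf (nat_lit 0) (nat_lit 2505408866) (nat_lit 1008) (nat_lit 452290113) (nat_lit 84) (nat_lit 4451157115) (nat_lit 104) (nat_lit 5) (nat_lit 116) (nat_lit 5) (nat_lit 105) (nat_lit 4) (nat_lit 313) (nat_lit 276) (nat_lit 272)) (XT.lf (nat_lit 0) (nat_lit 3297971183) (nat_lit 1008) (nat_lit 1685487667) (nat_lit 1092) (nat_lit 2509212203) (nat_lit 92) (nat_lit 5) (nat_lit 104) (nat_lit 5) (nat_lit 105) (nat_lit 4) (nat_lit 314) (nat_lit 276) (nat_lit 271))) (XT.nd (nat_lit 94) (nat_lit 672) (nat_lit 0) (XT.lf (nat_lit 0) (nat_lit 7102256358) (nat_lit 1008) (nat_lit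 366863036) (nat_lit 1092) (nat_lit 112617123) (nat_lit 92) (nat_lit 5) (nat_lit 104) (nat_lit 5) (nat_lit 105) (nat_lit 4) (nat_lit 315) (nat_lit 276) (nat_lit 270)) (XT.lf (nat_lit 0) (nat_lit 2281235469) (nat_lit 672) (nat_lit 4362164118) (nat_lit 84) (nat_lit 1030830156) (nat_lit 84) (nat_lit 5) (nat_lit 92) (nat_lit 5) (nat_lit 85) (nat_lit 4) (nat_lit 316) (nat_lit 276) (nat_lit 269))))) (XT.nd (nat_lit 282) (nat_lit 1008) (nat_lit 0) (XT.nd (nat_lit 94) (nat_lit 588) (nat_lit 0) (XT.lf (nat_lit 0) (nat_lit 4684338511) (nat_lit 672) (nat_lit 616672048) (nat_lit 84) (nat_lit 2470947614) (nat_lit 84) (nat_lit 5) (nat_lit 92) (nat_lit 5) (nat_lit 85) (nat_lit 4) (nat_lit 317) (nat_lit 276) (nat_lit 268)) (XT.nd (nat_lit 94) (nat_lit 84) (nat_lit 0) (XT.lf (nat_lit 0) (nat_lit 3238801934) (nat_lit 504) (nat_lit 3885985031) (nat_lit 588) (nat_lit 749529401) (nat_lit 78) (nat_lit 5) (nat_lit 84)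 (nat_lit 5) (nat_lit 85) (nat_lit 4) (nat_lit 318) (nat_lit 276) (nat_lit 267)) (XT.lf (nat_lit 0) (nat_lit 1565059352) (nat_lit 588) (nat_lit 841824358) (nat_lit 84) (nat_lit 5574813079) (nat_lit 77) (nat_lit 5) (nat_lit 84) (nat_lit 5) (nat_lit 78) (nat_lit 5) (nat_lit 319) (nat_lit 276) (nat_lit 266)))) (XT.nd (nat_lit 188) (nat_lit 504) (nat_lit 0) (XT.nd (nat_lit 94) (nat_lit 0) (nat_lit 0) (XT.lf (nat_lit 0) (nat_lit 3052993770) (nat_lit 504) (nat_lit 846179776) (nat_lit 588) (nat_lit 4194540448) (nat_lit 71) (nat_lit 5) (nat_lit 77) (nat_lit 5) (nat_lit 78) (nat_lit 5) (nat_lit 320) (nat_lit 276) (nat_lit 265)) (XT.lf (nat_lit 0) (nat_lit 6256429541) (nat_lit 588) (nat_lit 1202192964) (nat_lit 84) (nat_lit 752503863) (nat_lit 71) (nat_lit 5) (nat_lit 78) (nat_lit 5) (nat_lit 72) (nat_lit 4) (nat_lit 321) (nat_lit 276) (nat_lit 264))) (XT.nd (nat_lit 94) (nat_lit 0) (nat_lit 0) (XT.lf (nat_lit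 0) (nat_lit 318843615) (nat_lit 504) (nat_lit 5604778134) (nat_lit 84) (nat_lit 2409707595) (nat_lit 65) (nat_lit 5) (nat_lit 71) (nat_lit 5) (nat_lit 66) (nat_lit 5) (nat_lit 322) (nat_lit 276) (nat_lit 263)) (XT.lf (nat_lit 0) (nat_lit 2571474999) (nat_lit 504) (nat_lit 1743213882) (nat_lit 84) (nat_lit 4145948529) (nat_lit 65) (nat_lit 5) (nat_lit 71) (nat_lit 5) (nat_lit 66) (nat_lit 5) (nat_lit 323) (nat_lit 276) (nat_lit 262))))))) (XT.nd (nat_lit 1316) (nat_lit 336) (nat_lit 0) (XT.nd (nat_lit 658) (nat_lit 1008) (nat_lit 0) (XT.nd (nat_lit 282) (nat_lit 504) (nat_lit 0) (XT.nd (nat_lit 94) (nat_lit 420) (nat_lit 0) (XT.lf (nat_lit 0) (nat_lit 2213998396) (nat_lit 420) (nat_lit 2640348933) (nat_lit 504) (nat_lit 3739123323) (nat_lit 60) (nat_lit 5) (nat_lit 65) (nat_lit 5) (nat_lit 66) (nat_lit 5) (nat_lit 324) (nat_lit 276) (nat_lit 261)) (XT.nd (nat_lit 94) (nat_lit 420) (nat_lit 0) (XT.lf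 (nat_lit 0) (nat_lit 6262867073) (nat_lit 420) (nat_lit 902939940) (nat_lit 504) (nat_lit 1566263100) (nat_lit 60) (nat_lit 5) (nat_lit 65) (nat_lit 5) (nat_lit 66) (nat_lit 5) (nat_lit 325) (nat_lit 276) (nat_lit 260)) (XT.lf (nat_lit 0) (nat_lit 624913938) (nat_lit 420) (nat_lit 7366686591) (nat_lit 84) (nat_lit 884578297) (nat_lit 55) (nat_lit 5) (nat_lit 60) (nat_lit 5) (nat_lit 56) (nat_lit 5) (nat_lit 326) (nat_lit 276) (nat_lit 259)))) (XT.nd (nat_lit 188) (nat_lit 84) (nat_lit 0) (XT.nd (nat_lit 94) (nat_lit 420) (nat_lit 0) (XT.lf (nat_lit 0) (nat_lit 2828312203) (nat_lit 420) (nat_lit 3454426433) (nat_lit 84) (nat_lit 2742548889) (nat_lit 55) (nat_lit 5) (nat_lit 60) (nat_lit 5) (nat_lit 56) (nat_lit 5) (nat_lit 327) (nat_lit 276) (nat_lit 258)) (XT.lf (nat_lit 0) (nat_lit 522892722) (nat_lit 420) (nat_lit 4525625228) (nat_lit 504) (nat_lit 4132398661) (nat_lit 50) (nat_lit 5) (nat_lit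 55) (nat_lit 5) (nat_lit 56) (nat_lit 5) (nat_lit 328) (nat_lit 276) (nat_lit 257))) (XT.nd (nat_lit 94) (nat_lit 84) (nat_lit 0) (XT.lf (nat_lit 0) (nat_lit 4630660455) (nat_lit 420) (nat_lit 2687310597) (nat_lit 504) (nat_lit 2024298611) (nat_lit 50) (nat_lit 5) (nat_lit 55) (nat_lit 5) (nat_lit 56) (nat_lit 5) (nat_lit 329) (nat_lit 276) (nat_lit 256)) (XT.lf (nat_lit 0) (nat_lit 91354238) (nat_lit 504) (nat_lit 709830580) (nat_lit 84) (nat_lit 8709367751) (nat_lit 49) (nat_lit 5) (nat_lit 55) (nat_lit 5) (nat_lit 50) (nat_lit 5) (nat_lit 330) (nat_lit 276) (nat_lit 255))))) (XT.nd (nat_lit 282) (nat_lit 336) (nat_lit 0) (XT.nd (nat_lit 94) (nat_lit 336) (nat_lit 0) (XT.lf (nat_lit 0) (nat_lit 2222924949) (nat_lit 420) (nat_lit 6295794260) (nat_lit 84) (nat_lit 1165194288) (nat_lit 45) (nat_lit 5) (nat_lit 50) (nat_lit 5) (nat_lit 46) (nat_lit 5) (nat_lit 331) (nat_lit 276) (nat_lit 254)) (XT.nd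 (nat_lit 94) (nat_lit 336) (nat_lit 0) (XT.lf (nat_lit 0) (nat_lit 4383975764) (nat_lit 420) (nat_lit 2307188204) (nat_lit 84) (nat_lit 3172878092) (nat_lit 45) (nat_lit 5) (nat_lit 50) (nat_lit 5) (nat_lit 46) (nat_lit 5) (nat_lit 332) (nat_lit 276) (nat_lit 253)) (XT.lf (nat_lit 0) (nat_lit 1778182228) (nat_lit 336) (nat_lit 4800770819) (nat_lit 420) (nat_lit 3472077714) (nat_lit 41) (nat_lit 5) (nat_lit 45) (nat_lit 5) (nat_lit 46) (nat_lit 5) (nat_lit 333) (nat_lit 276) (nat_lit 252)))) (XT.nd (nat_lit 188) (nat_lit 252) (nat_lit 0) (XT.nd (nat_lit 94) (nat_lit 84) (nat_lit 0) (XT.lf (nat_lit 0) (nat_lit 5977036371) (nat_lit 336) (nat_lit 2839223512) (nat_lit 420) (nat_lit 1428596940) (nat_lit 41) (nat_lit 5) (nat_lit 45) (nat_lit 5) (nat_lit 46) (nat_lit 5) (nat_lit 334) (nat_lit 276) (nat_lit 251)) (XT.lf (nat_lit 0) (nat_lit 615541650) (nat_lit 420) (nat_lit 206809349) (nat_lit 84) (nat_lit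 9623880833) (nat_lit 40) (nat_lit 5) (nat_lit 45) (nat_lit 5) (nat_lit 41) (nat_lit 5) (nat_lit 335) (nat_lit 276) (nat_lit 250))) (XT.nd (nat_lit 94) (nat_lit 0) (nat_lit 0) (XT.lf (nat_lit 0) (nat_lit 2698270066) (nat_lit 336) (nat_lit 6680573688) (nat_lit 84) (nat_lit 1274623202) (nat_lit 37) (nat_lit 5) (nat_lit 41) (nat_lit 5) (nat_lit 38) (nat_lit 5) (nat_lit 336) (nat_lit 276) (nat_lit 249)) (XT.lf (nat_lit 0) (nat_lit 4809326026) (nat_lit 336) (nat_lit 2649476720) (nat_lit 84) (nat_lit 3409662526) (nat_lit 37) (nat_lit 5) (nat_lit 41) (nat_lit 5) (nat_lit 38) (nat_lit 5) (nat_lit 337) (nat_lit 276) (nat_lit 248)))))) (XT.nd (nat_lit 51512) (nat_lit 0) (nat_lit 3696) (XT.nd (nat_lit 51136) (nat_lit 0) (nat_lit 6972) (XT.nd (nat_lit 94) (nat_lit 0) (nat_lit 0) (XT.lf (nat_lit 0) (nat_lit 1477640187) (nat_lit 336) (nat_lit 5477422445) (nat_lit 420) (nat_lit 4136228605) (nat_lit 33) (nat_lit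 5) (nat_lit 37) (nat_lit 5) (nat_lit 38) (nat_lit 5) (nat_lit 338) (nat_lit 276) (nat_lit 247)) (XT.nd (nat_lit 94) (nat_lit 0) (nat_lit 0) (XT.lf (nat_lit 0) (nat_lit 5730744449) (nat_lit 336) (nat_lit 3419596396) (nat_lit 420) (nat_lit 2171413012) (nat_lit 33) (nat_lit 5) (nat_lit 37) (nat_lit 5) (nat_lit 38) (nat_lit 5) (nat_lit 339) (nat_lit 276) (nat_lit 246)) (XT.lf (nat_lit 0) (nat_lit 10059321731) (nat_lit 336) (nat_lit 1311061594) (nat_lit 420) (nat_lit 190516157) (nat_lit 33) (nat_lit 5) (nat_lit 37) (nat_lit 5) (nat_lit 38) (nat_lit 5) (nat_lit 340) (nat_lit 276) (nat_lit 245)))) (XT.nd (nat_lit 188) (nat_lit 924) (nat_lit 0) (XT.nd (nat_lit 94) (nat_lit 756) (nat_lit 0) (XT.lf (nat_lit 0) (nat_lit 1618367322) (nat_lit 756) (nat_lit 260470585) (nat_lit 0) (nat_lit 1618367322) (nat_lit 136) (nat_lit 5) (nat_lit 145) (nat_lit 4) (nat_lit 136) (nat_lit 4) (nat_lit 307) (nat_lit 277) (nat_lit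 277)) (XT.lf (nat_lit 0) (nat_lit 3009608953) (nat_lit 756) (nat_lit 2792508366) (nat_lit 756) (nat_lit 1252003974) (nat_lit 127) (nat_lit 4) (nat_lit 136) (nat_lit 5) (nat_lit 136) (nat_lit 4) (nat_lit 308) (nat_lit 277) (nat_lit 276))) (XT.nd (nat_lit 94) (nat_lit 840) (nat_lit 0) (XT.lf (nat_lit 0) (nat_lit 1227623802) (nat_lit 840) (nat_lit 541385117) (nat_lit 84) (nat_lit 5349257243) (nat_lit 126) (nat_lit 5) (nat_lit 136) (nat_lit 5) (nat_lit 127) (nat_lit 4) (nat_lit 309) (nat_lit 277) (nat_lit 275)) (XT.lf (nat_lit 0) (nat_lit 3047887212) (nat_lit 840) (nat_lit 660549001) (nat_lit 924) (nat_lit 3477696663) (nat_lit 116) (nat_lit 5) (nat_lit 126) (nat_lit 5) (nat_lit 127) (nat_lit 4) (nat_lit 310) (nat_lit 277) (nat_lit 274))))) (XT.nd (nat_lit 376) (nat_lit 1260) (nat_lit 0) (XT.nd (nat_lit 188) (nat_lit 1008) (nat_lit 0) (XT.nd (nat_lit 94) (nat_lit 1008) (nat_lit 0) (XT.lf (nat_lit 0)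 (nat_lit 6198517731) (nat_lit 924) (nat_lit 574276863) (nat_lit 0) (nat_lit 485978167) (nat_lit 116) (nat_lit 5) (nat_lit 127) (nat_lit 4) (nat_lit 116) (nat_lit 4) (nat_lit 311) (nat_lit 277) (nat_lit 273)) (XT.lf (nat_lit 0) (nat_lit 1363909148) (nat_lit 1008) (nat_lit 4264860709) (nat_lit 84) (nat_lit 1706213162) (nat_lit 104) (nat_lit 5) (nat_lit 116) (nat_lit 5) (nat_lit 105) (nat_lit 4) (nat_lit 312) (nat_lit 277) (nat_lit 272))) (XT.nd (nat_lit 94) (nat_lit 1008) (nat_lit 0) (XT.lf (nat_lit 0) (nat_lit 3771766780) (nat_lit 1008) (nat_lit 657160079) (nat_lit 84) (nat_lit 2986967627) (nat_lit 104) (nat_lit 5) (nat_lit 116) (nat_lit 5) (nat_lit 105) (nat_lit 4) (nat_lit 313) (nat_lit 277) (nat_lit 271)) (XT.lf (nat_lit 0) (nat_lit 3053525531) (nat_lit 1008) (nat_lit 3157816335) (nat_lit 1092) (nat_lit 1289809815) (nat_lit 92) (nat_lit 5) (nat_lit 104) (nat_lit 5) (nat_lit 105) (nat_lit 4) (nat_lit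 314) (nat_lit 277) (nat_lit 270)))) (XT.nd (nat_lit 188) (nat_lit 588) (nat_lit 0) (XT.nd (nat_lit 94) (nat_lit 588) (nat_lit 0) (XT.lf (nat_lit 0) (nat_lit 1048581493) (nat_lit 1092) (nat_lit 778658734) (nat_lit 84) (nat_lit 5763984329) (nat_lit 91) (nat_lit 5) (nat_lit 104) (nat_lit 5) (nat_lit 92) (nat_lit 5) (nat_lit 315) (nat_lit 277) (nat_lit 269)) (XT.lf (nat_lit 0) (nat_lit 2981439189) (nat_lit 588) (nat_lit 410078148) (nat_lit 672) (nat_lit 4293901569) (nat_lit 84) (nat_lit 5) (nat_lit 91) (nat_lit 5) (nat_lit 92) (nat_lit 5) (nat_lit 316) (nat_lit 277) (nat_lit 268))) (XT.nd (nat_lit 94) (nat_lit 588) (nat_lit 0) (XT.lf (nat_lit 0) (nat_lit 5756441030) (nat_lit 672) (nat_lit 989566339) (nat_lit 84) (nat_lit 1038544357) (nat_lit 84) (nat_lit 5) (nat_lit 92) (nat_lit 5) (nat_lit 85) (nat_lit 4) (nat_lit 317) (nat_lit 277) (nat_lit 267)) (XT.lf (nat_lit 0) (nat_lit 265937744) (nat_lit 588)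 (nat_lit 5067520592) (nat_lit 84) (nat_lit 2554735695) (nat_lit 77) (nat_lit 5) (nat_lit 84) (nat_lit 5) (nat_lit 78) (nat_lit 5) (nat_lit 318) (nat_lit 277) (nat_lit 266))))))))
noncomputable def xc5 : XT := (XT.nd (nat_lit 53392) (nat_lit 0) (nat_lit 0) (XT.nd (nat_lit 1316) (nat_lit 1008) (nat_lit 0) (XT.nd (nat_lit 658) (nat_lit 1260) (nat_lit 0) (XT.nd (nat_lit 282) (nat_lit 924) (nat_lit 0) (XT.nd (nat_lit 94) (nat_lit 504) (nat_lit 0) (XT.lf (nat_lit 0) (nat_lit 2532464344) (nat_lit 588) (nat_lit 1315889988) (nat_lit 84) (nat_lit 4148212914) (nat_lit 77) (nat_lit 5) (nat_lit 84) (nat_lit 5) (nat_lit 78) (nat_lit 5) (nat_lit 319) (nat_lit 277) (nat_lit 265)) (XT.nd (nat_lit 94) (nat_lit 0) (nat_lit 0) (XT.lf (nat_lit 0) (nat_lit 2534906872) (nat_lit 504) (nat_lit 2294562436) (nat_lit 588) (nat_lit 3280460974) (nat_lit 71) (nat_lit 5) (nat_lit 77) (nat_lit 5) (nat_lit 78) (nat_lit 5) (nat_lit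 320) (nat_lit 277) (nat_lit 264)) (XT.lf (nat_lit 0) (nat_lit 6465458129) (nat_lit 504) (nat_lit 682310492) (nat_lit 588) (nat_lit 1080971261) (nat_lit 71) (nat_lit 5) (nat_lit 77) (nat_lit 5) (nat_lit 78) (nat_lit 5) (nat_lit 321) (nat_lit 277) (nat_lit 263)))) (XT.nd (nat_lit 188) (nat_lit 420) (nat_lit 0) (XT.nd (nat_lit 94) (nat_lit 0) (nat_lit 0) (XT.lf (nat_lit 0) (nat_lit 1131211692) (nat_lit 504) (nat_lit 6231892283) (nat_lit 84) (nat_lit 989104901) (nat_lit 65) (nat_lit 5) (nat_lit 71) (nat_lit 5) (nat_lit 66) (nat_lit 5) (nat_lit 322) (nat_lit 277) (nat_lit 262)) (XT.lf (nat_lit 0) (nat_lit 3353535955) (nat_lit 504) (nat_lit 2404137779) (nat_lit 84) (nat_lit 2722955706) (nat_lit 65) (nat_lit 5) (nat_lit 71) (nat_lit 5) (nat_lit 66) (nat_lit 5) (nat_lit 323) (nat_lit 277) (nat_lit 261))) (XT.nd (nat_lit 94) (nat_lit 0) (nat_lit 0) (XT.lf (nat_lit 0) (nat_lit 1506017092) (nat_lit 420) (nat_lit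 4093972079) (nat_lit 504) (nat_lit 3014770280) (nat_lit 60) (nat_lit 5) (nat_lit 65) (nat_lit 5) (nat_lit 66) (nat_lit 5) (nat_lit 324) (nat_lit 277) (nat_lit 260)) (XT.lf (nat_lit 0) (nat_lit 5522424610) (nat_lit 420) (nat_lit 2360190247) (nat_lit 504) (nat_lit 871800640) (nat_lit 60) (nat_lit 5) (nat_lit 65) (nat_lit 5) (nat_lit 66) (nat_lit 5) (nat_lit 325) (nat_lit 277) (nat_lit 259))))) (XT.nd (nat_lit 282) (nat_lit 840) (nat_lit 0) (XT.nd (nat_lit 94) (nat_lit 0) (nat_lit 0) (XT.lf (nat_lit 0) (nat_lit 700337388) (nat_lit 336) (nat_lit 559565351) (nat_lit 420) (nat_lit 7639970937) (nat_lit 55) (nat_lit 5) (nat_lit 59) (nat_lit 5) (nat_lit 60) (nat_lit 5) (nat_lit 326) (nat_lit 277) (nat_lit 258)) (XT.nd (nat_lit 94) (nat_lit 0) (nat_lit 0) (XT.lf (nat_lit 0) (nat_lit 3429840138) (nat_lit 420) (nat_lit 4314593803) (nat_lit 84) (nat_lit 1305734210) (nat_lit 55) (nat_lit 5) (nat_lit 60) (nat_lit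 5) (nat_lit 56) (nat_lit 5) (nat_lit 327) (nat_lit 277) (nat_lit 257)) (XT.lf (nat_lit 0) (nat_lit 5617788008) (nat_lit 420) (nat_lit 379690110) (nat_lit 84) (nat_lit 3209463138) (nat_lit 55) (nat_lit 5) (nat_lit 60) (nat_lit 5) (nat_lit 56) (nat_lit 5) (nat_lit 328) (nat_lit 277) (nat_lit 256)))) (XT.nd (nat_lit 188) (nat_lit 336) (nat_lit 0) (XT.nd (nat_lit 94) (nat_lit 84) (nat_lit 0) (XT.lf (nat_lit 0) (nat_lit 3688712833) (nat_lit 420) (nat_lit 4168114442) (nat_lit 504) (nat_lit 1512549556) (nat_lit 50) (nat_lit 5) (nat_lit 55) (nat_lit 5) (nat_lit 56) (nat_lit 5) (nat_lit 329) (nat_lit 277) (nat_lit 255)) (XT.lf (nat_lit 0) (nat_lit 566625436) (nat_lit 504) (nat_lit 1715240167) (nat_lit 84) (nat_lit 7256579364) (nat_lit 49) (nat_lit 5) (nat_lit 55) (nat_lit 5) (nat_lit 50) (nat_lit 5) (nat_lit 330) (nat_lit 277) (nat_lit 254))) (XT.nd (nat_lit 94) (nat_lit 0) (nat_lit 0) (XT.lf (nat_lit 0)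 (nat_lit 2343237086) (nat_lit 336) (nat_lit 307296043) (nat_lit 420) (nat_lit 7062877789) (nat_lit 45) (nat_lit 5) (nat_lit 49) (nat_lit 5) (nat_lit 50) (nat_lit 5) (nat_lit 331) (nat_lit 277) (nat_lit 253)) (XT.lf (nat_lit 0) (nat_lit 4783569555) (nat_lit 420) (nat_lit 3409395196) (nat_lit 84) (nat_lit 1701566811) (nat_lit 45) (nat_lit 5) (nat_lit 50) (nat_lit 5) (nat_lit 46) (nat_lit 5) (nat_lit 332) (nat_lit 277) (nat_lit 252)))))) (XT.nd (nat_lit 658) (nat_lit 0) (nat_lit 0) (XT.nd (nat_lit 282) (nat_lit 588) (nat_lit 0) (XT.nd (nat_lit 94) (nat_lit 84) (nat_lit 0) (XT.lf (nat_lit 0) (nat_lit 622748354) (nat_lit 336) (nat_lit 6320121137) (nat_lit 420) (nat_lit 3139876689) (nat_lit 41) (nat_lit 5) (nat_lit 45) (nat_lit 5) (nat_lit 46) (nat_lit 5) (nat_lit 333) (nat_lit 277) (nat_lit 251)) (XT.nd (nat_lit 94) (nat_lit 84) (nat_lit 0) (XT.lf (nat_lit 0) (nat_lit 4791958225) (nat_lit 336) (nat_lit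 4364436830) (nat_lit 420) (nat_lit 1121030720) (nat_lit 41) (nat_lit 5) (nat_lit 45) (nat_lit 5) (nat_lit 46) (nat_lit 5) (nat_lit 334) (nat_lit 277) (nat_lit 250)) (XT.lf (nat_lit 0) (nat_lit 893498422) (nat_lit 420) (nat_lit 1456851309) (nat_lit 84) (nat_lit 8129191684) (nat_lit 40) (nat_lit 5) (nat_lit 45) (nat_lit 5) (nat_lit 41) (nat_lit 5) (nat_lit 335) (nat_lit 277) (nat_lit 249)))) (XT.nd (nat_lit 188) (nat_lit 336) (nat_lit 0) (XT.nd (nat_lit 94) (nat_lit 0) (nat_lit 0) (XT.lf (nat_lit 0) (nat_lit 2681405646) (nat_lit 252) (nat_lit 246264372) (nat_lit 336) (nat_lit 7760717915) (nat_lit 37) (nat_lit 5) (nat_lit 40) (nat_lit 5) (nat_lit 41) (nat_lit 5) (nat_lit 336) (nat_lit 277) (nat_lit 248)) (XT.lf (nat_lit 0) (nat_lit 5013919411) (nat_lit 336) (nat_lit 4002351861) (nat_lit 84) (nat_lit 1887986924) (nat_lit 37) (nat_lit 5) (nat_lit 41) (nat_lit 5) (nat_lit 38) (nat_lit 5) (nat_lit 337)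 (nat_lit 277) (nat_lit 247))) (XT.nd (nat_lit 94) (nat_lit 0) (nat_lit 0) (XT.lf (nat_lit 0) (nat_lit 68330328) (nat_lit 336) (nat_lit 7055653991) (nat_lit 420) (nat_lit 4004305510) (nat_lit 33) (nat_lit 5) (nat_lit 37) (nat_lit 5) (nat_lit 38) (nat_lit 5) (nat_lit 338) (nat_lit 277) (nat_lit 246)) (XT.lf (nat_lit 0) (nat_lit 4293678207) (nat_lit 336) (nat_lit 5004270017) (nat_lit 420) (nat_lit 2061561814) (nat_lit 33) (nat_lit 5) (nat_lit 37) (nat_lit 5) (nat_lit 38) (nat_lit 5) (nat_lit 339) (nat_lit 277) (nat_lit 245))))) (XT.nd (nat_lit 51042) (nat_lit 0) (nat_lit 6888) (XT.nd (nat_lit 50854) (nat_lit 0) (nat_lit 8652) (XT.nd (nat_lit 50760) (nat_lit 0) (nat_lit 9408) (XT.lf (nat_lit 0) (nat_lit 8595333682) (nat_lit 336) (nat_lit 2901983590) (nat_lit 420) (nat_lit 102073199) (nat_lit 33) (nat_lit 5) (nat_lit 37) (nat_lit 5) (nat_lit 38) (nat_lit 5) (nat_lit 340) (nat_lit 277) (nat_lit 244))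 (XT.lf (nat_lit 0) (nat_lit 3226767175) (nat_lit 588) (nat_lit 108116440) (nat_lit 588) (nat_lit 108116440) (nat_lit 145) (nat_lit 4) (nat_lit 152) (nat_lit 5) (nat_lit 152) (nat_lit 4) (nat_lit 305) (nat_lit 278) (nat_lit 278))) (XT.nd (nat_lit 94) (nat_lit 0) (nat_lit 0) (XT.lf (nat_lit 0) (nat_lit 2285462829) (nat_lit 756) (nat_lit 3956046704) (nat_lit 0) (nat_lit 697202801) (nat_lit 136) (nat_lit 5) (nat_lit 145) (nat_lit 4) (nat_lit 136) (nat_lit 4) (nat_lit 306) (nat_lit 278) (nat_lit 277)) (XT.lf (nat_lit 0) (nat_lit 4784260872) (nat_lit 756) (nat_lit 556234422) (nat_lit 0) (nat_lit 1655496452) (nat_lit 136) (nat_lit 5) (nat_lit 145) (nat_lit 4) (nat_lit 136) (nat_lit 4) (nat_lit 307) (nat_lit 278) (nat_lit 276)))) (XT.nd (nat_lit 188) (nat_lit 924) (nat_lit 0) (XT.nd (nat_lit 94) (nat_lit 0) (nat_lit 0) (XT.lf (nat_lit 0) (nat_lit 247091789) (nat_lit 840) (nat_lit 4121105663) (nat_lit 84)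 (nat_lit 2688983141) (nat_lit 126) (nat_lit 5) (nat_lit 136) (nat_lit 5) (nat_lit 127) (nat_lit 4) (nat_lit 308) (nat_lit 278) (nat_lit 275)) (XT.lf (nat_lit 0) (nat_lit 2662148254) (nat_lit 840) (nat_lit 665383662) (nat_lit 84) (nat_lit 3794918918) (nat_lit 126) (nat_lit 5) (nat_lit 136) (nat_lit 5) (nat_lit 127) (nat_lit 4) (nat_lit 309) (nat_lit 278) (nat_lit 274))) (XT.nd (nat_lit 94) (nat_lit 84) (nat_lit 0) (XT.lf (nat_lit 0) (nat_lit 2886708008) (nat_lit 840) (nat_lit 2216490577) (nat_lit 924) (nat_lit 2088633510) (nat_lit 116) (nat_lit 5) (nat_lit 126) (nat_lit 5) (nat_lit 127) (nat_lit 4) (nat_lit 310) (nat_lit 278) (nat_lit 273)) (XT.lf (nat_lit 0) (nat_lit 279214138) (nat_lit 924) (nat_lit 774082960) (nat_lit 84) (nat_lit 6212671034) (nat_lit 115) (nat_lit 5) (nat_lit 126) (nat_lit 5) (nat_lit 116) (nat_lit 5) (nat_lit 311) (nat_lit 278) (nat_lit 272))))))) (XT.nd (nat_lit 1316) (nat_lit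 2268) (nat_lit 0) (XT.nd (nat_lit 658) (nat_lit 1428) (nat_lit 0) (XT.nd (nat_lit 282) (nat_lit 1260) (nat_lit 0) (XT.nd (nat_lit 94) (nat_lit 1008) (nat_lit 0) (XT.lf (nat_lit 0) (nat_lit 2632356641) (nat_lit 1008) (nat_lit 4511806464) (nat_lit 84) (nat_lit 199485937) (nat_lit 104) (nat_lit 5) (nat_lit 116) (nat_lit 5) (nat_lit 105) (nat_lit 4) (nat_lit 312) (nat_lit 278) (nat_lit 271)) (XT.nd (nat_lit 94) (nat_lit 1008) (nat_lit 0) (XT.lf (nat_lit 0) (nat_lit 5004164306) (nat_lit 1008) (nat_lit 938756486) (nat_lit 84) (nat_lit 1483006780) (nat_lit 104) (nat_lit 5) (nat_lit 116) (nat_lit 5) (nat_lit 105) (nat_lit 4) (nat_lit 313) (nat_lit 278) (nat_lit 270)) (XT.lf (nat_lit 0) (nat_lit 2731839081) (nat_lit 1008) (nat_lit 4673743120) (nat_lit 1092) (nat_lit 107027449) (nat_lit 92) (nat_lit 5) (nat_lit 104) (nat_lit 5) (nat_lit 105) (nat_lit 4) (nat_lit 314) (nat_lit 278) (nat_lit 269)))) (XT.nd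 (nat_lit 188) (nat_lit 588) (nat_lit 0) (XT.nd (nat_lit 94) (nat_lit 588) (nat_lit 0) (XT.lf (nat_lit 0) (nat_lit 2172708488) (nat_lit 1092) (nat_lit 1157748769) (nat_lit 84) (nat_lit 4273168783) (nat_lit 91) (nat_lit 5) (nat_lit 104) (nat_lit 5) (nat_lit 92) (nat_lit 5) (nat_lit 315) (nat_lit 278) (nat_lit 268)) (XT.lf (nat_lit 0) (nat_lit 2560688385) (nat_lit 588) (nat_lit 1917004219) (nat_lit 672) (nat_lit 3221525121) (nat_lit 84) (nat_lit 5) (nat_lit 91) (nat_lit 5) (nat_lit 92) (nat_lit 5) (nat_lit 316) (nat_lit 278) (nat_lit 267))) (XT.nd (nat_lit 94) (nat_lit 588) (nat_lit 0) (XT.lf (nat_lit 0) (nat_lit 6352227234) (nat_lit 588) (nat_lit 446786681) (nat_lit 672) (nat_lit 1000902495) (nat_lit 84) (nat_lit 5) (nat_lit 91) (nat_lit 5) (nat_lit 92) (nat_lit 5) (nat_lit 317) (nat_lit 278) (nat_lit 266)) (XT.lf (nat_lit 0) (nat_lit 1230371485) (nat_lit 588) (nat_lit 5590906301) (nat_lit 84) (nat_lit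 1083470976) (nat_lit 77) (nat_lit 5) (nat_lit 84) (nat_lit 5) (nat_lit 78) (nat_lit 5) (nat_lit 318) (nat_lit 278) (nat_lit 265))))) (XT.nd (nat_lit 282) (nat_lit 924) (nat_lit 0) (XT.nd (nat_lit 94) (nat_lit 504) (nat_lit 0) (XT.lf (nat_lit 0) (nat_lit 3464928341) (nat_lit 588) (nat_lit 1872858669) (nat_lit 84) (nat_lit 2676521474) (nat_lit 77) (nat_lit 5) (nat_lit 84) (nat_lit 5) (nat_lit 78) (nat_lit 5) (nat_lit 319) (nat_lit 278) (nat_lit 264)) (XT.nd (nat_lit 94) (nat_lit 0) (nat_lit 0) (XT.lf (nat_lit 0) (nat_lit 1933242797) (nat_lit 504) (nat_lit 3791713443) (nat_lit 588) (nat_lit 2404051136) (nat_lit 71) (nat_lit 5) (nat_lit 77) (nat_lit 5) (nat_lit 78) (nat_lit 5) (nat_lit 320) (nat_lit 278) (nat_lit 263)) (XT.lf (nat_lit 0) (nat_lit 5831550626) (nat_lit 504) (nat_lit 2181308947) (nat_lit 588) (nat_lit 236083548) (nat_lit 71) (nat_lit 5) (nat_lit 77) (nat_lit 5) (nat_lit 78) (nat_lit 5)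 (nat_lit 321) (nat_lit 278) (nat_lit 262)))) (XT.nd (nat_lit 188) (nat_lit 420) (nat_lit 0) (XT.nd (nat_lit 94) (nat_lit 0) (nat_lit 0) (XT.lf (nat_lit 0) (nat_lit 1421804293) (nat_lit 420) (nat_lit 490268647) (nat_lit 504) (nat_lit 6461709448) (nat_lit 65) (nat_lit 5) (nat_lit 70) (nat_lit 5) (nat_lit 71) (nat_lit 5) (nat_lit 322) (nat_lit 278) (nat_lit 261)) (XT.lf (nat_lit 0) (nat_lit 4100137827) (nat_lit 504) (nat_lit 3152153227) (nat_lit 84) (nat_lit 1251141716) (nat_lit 65) (nat_lit 5) (nat_lit 71) (nat_lit 5) (nat_lit 66) (nat_lit 5) (nat_lit 323) (nat_lit 278) (nat_lit 260))) (XT.nd (nat_lit 94) (nat_lit 0) (nat_lit 0) (XT.lf (nat_lit 0) (nat_lit 710159754) (nat_lit 420) (nat_lit 5600024307) (nat_lit 504) (nat_lit 2328670068) (nat_lit 60) (nat_lit 5) (nat_lit 65) (nat_lit 5) (nat_lit 66) (nat_lit 5) (nat_lit 324) (nat_lit 278) (nat_lit 259)) (XT.lf (nat_lit 0) (nat_lit 4695082151) (nat_lit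 420) (nat_lit 3869760574) (nat_lit 504) (nat_lit 214692266) (nat_lit 60) (nat_lit 5) (nat_lit 65) (nat_lit 5) (nat_lit 66) (nat_lit 5) (nat_lit 325) (nat_lit 278) (nat_lit 258)))))) (XT.nd (nat_lit 658) (nat_lit 1008) (nat_lit 0) (XT.nd (nat_lit 282) (nat_lit 840) (nat_lit 0) (XT.nd (nat_lit 94) (nat_lit 336) (nat_lit 0) (XT.lf (nat_lit 0) (nat_lit 1869270855) (nat_lit 504) (nat_lit 204006874) (nat_lit 84) (nat_lit 6852731384) (nat_lit 59) (nat_lit 5) (nat_lit 65) (nat_lit 5) (nat_lit 60) (nat_lit 5) (nat_lit 326) (nat_lit 278) (nat_lit 257)) (XT.nd (nat_lit 94) (nat_lit 0) (nat_lit 0) (XT.lf (nat_lit 0) (nat_lit 3809727410) (nat_lit 336) (nat_lit 187164093) (nat_lit 420) (nat_lit 5080867930) (nat_lit 55) (nat_lit 5) (nat_lit 59) (nat_lit 5) (nat_lit 60) (nat_lit 5) (nat_lit 327) (nat_lit 278) (nat_lit 256)) (XT.lf (nat_lit 0) (nat_lit 6156725925) (nat_lit 420) (nat_lit 1362193406) (nat_lit 84)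 (nat_lit 1716624418) (nat_lit 55) (nat_lit 5) (nat_lit 60) (nat_lit 5) (nat_lit 56) (nat_lit 5) (nat_lit 328) (nat_lit 278) (nat_lit 255)))) (XT.nd (nat_lit 188) (nat_lit 336) (nat_lit 0) (XT.nd (nat_lit 94) (nat_lit 84) (nat_lit 0) (XT.lf (nat_lit 0) (nat_lit 2655398544) (nat_lit 420) (nat_lit 5704648771) (nat_lit 504) (nat_lit 1039174758) (nat_lit 50) (nat_lit 5) (nat_lit 55) (nat_lit 5) (nat_lit 56) (nat_lit 5) (nat_lit 329) (nat_lit 278) (nat_lit 254)) (XT.lf (nat_lit 0) (nat_lit 1005082327) (nat_lit 504) (nat_lit 2813433349) (nat_lit 84) (nat_lit 5750543223) (nat_lit 49) (nat_lit 5) (nat_lit 55) (nat_lit 5) (nat_lit 50) (nat_lit 5) (nat_lit 330) (nat_lit 278) (nat_lit 253))) (XT.nd (nat_lit 94) (nat_lit 0) (nat_lit 0) (XT.lf (nat_lit 0) (nat_lit 1192432229) (nat_lit 336) (nat_lit 1860524342) (nat_lit 420) (nat_lit 6692308952) (nat_lit 45) (nat_lit 5) (nat_lit 49) (nat_lit 5) (nat_lit 50) (nat_lit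 5) (nat_lit 331) (nat_lit 278) (nat_lit 252)) (XT.lf (nat_lit 0) (nat_lit 5146369479) (nat_lit 420) (nat_lit 4606593904) (nat_lit 84) (nat_lit 174771030) (nat_lit 45) (nat_lit 5) (nat_lit 50) (nat_lit 5) (nat_lit 46) (nat_lit 5) (nat_lit 332) (nat_lit 278) (nat_lit 251))))) (XT.nd (nat_lit 376) (nat_lit 336) (nat_lit 0) (XT.nd (nat_lit 188) (nat_lit 336) (nat_lit 0) (XT.nd (nat_lit 94) (nat_lit 336) (nat_lit 0) (XT.lf (nat_lit 0) (nat_lit 7276004478) (nat_lit 420) (nat_lit 616044350) (nat_lit 84) (nat_lit 2224936129) (nat_lit 45) (nat_lit 5) (nat_lit 50) (nat_lit 5) (nat_lit 46) (nat_lit 5) (nat_lit 333) (nat_lit 278) (nat_lit 250)) (XT.lf (nat_lit 0) (nat_lit 3511745452) (nat_lit 336) (nat_lit 5948481474) (nat_lit 420) (nat_lit 852458838) (nat_lit 41) (nat_lit 5) (nat_lit 45) (nat_lit 5) (nat_lit 46) (nat_lit 5) (nat_lit 334) (nat_lit 278) (nat_lit 249))) (XT.nd (nat_lit 94) (nat_lit 252) (nat_lit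 0) (XT.lf (nat_lit 0) (nat_lit 1133950474) (nat_lit 420) (nat_lit 2803449799) (nat_lit 84) (nat_lit 6578128642) (nat_lit 40) (nat_lit 5) (nat_lit 45) (nat_lit 5) (nat_lit 41) (nat_lit 5) (nat_lit 335) (nat_lit 278) (nat_lit 248)) (XT.lf (nat_lit 0) (nat_lit 1278945014) (nat_lit 252) (nat_lit 1853238571) (nat_lit 336) (nat_lit 7593408882) (nat_lit 37) (nat_lit 5) (nat_lit 40) (nat_lit 5) (nat_lit 41) (nat_lit 5) (nat_lit 336) (nat_lit 278) (nat_lit 247)))) (XT.nd (nat_lit 188) (nat_lit 336) (nat_lit 0) (XT.nd (nat_lit 94) (nat_lit 0) (nat_lit 0) (XT.lf (nat_lit 0) (nat_lit 5180800425) (nat_lit 336) (nat_lit 5454115910) (nat_lit 84) (nat_lit 307812851) (nat_lit 37) (nat_lit 5) (nat_lit 41) (nat_lit 5) (nat_lit 38) (nat_lit 5) (nat_lit 337) (nat_lit 278) (nat_lit 246)) (XT.lf (nat_lit 0) (nat_lit 7269148527) (nat_lit 336) (nat_lit 1412007578) (nat_lit 84) (nat_lit 2486374780) (nat_lit 37) (nat_lit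 5) (nat_lit 41) (nat_lit 5) (nat_lit 38) (nat_lit 5) (nat_lit 338) (nat_lit 278) (nat_lit 245))) (XT.nd (nat_lit 94) (nat_lit 0) (nat_lit 0) (XT.lf (nat_lit 0) (nat_lit 2757384722) (nat_lit 336) (nat_lit 6650758970) (nat_lit 420) (nat_lit 1991785366) (nat_lit 33) (nat_lit 5) (nat_lit 37) (nat_lit 5) (nat_lit 38) (nat_lit 5) (nat_lit 339) (nat_lit 278) (nat_lit 244)) (XT.lf (nat_lit 0) (nat_lit 7032927871) (nat_lit 336) (nat_lit 4554533042) (nat_lit 420) (nat_lit 53061292) (nat_lit 33) (nat_lit 5) (nat_lit 37) (nat_lit 5) (nat_lit 38) (nat_lit 5) (nat_lit 340) (nat_lit 278) (nat_lit 243))))))))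
noncomputable def xc6 : XT := (XT.nd (nat_lit 2726) (nat_lit 1344) (nat_lit 0) (XT.nd (nat_lit 1316) (nat_lit 2940) (nat_lit 0) (XT.nd (nat_lit 658) (nat_lit 3528) (nat_lit 0) (XT.nd (nat_lit 282) (nat_lit 1512) (nat_lit 0) (XT.nd (nat_lit 94) (nat_lit 672) (nat_lit 0) (XT.lf (nat_lit 0) (nat_lit 1629191334) (nat_lit 588) (nat_lit 136380259) (nat_lit 0) (nat_lit 1629191334) (nat_lit 152) (nat_lit 5) (nat_lit 159) (nat_lit 4) (nat_lit 152) (nat_lit 4) (nat_lit 303) (nat_lit 279) (nat_lit 279)) (XT.nd (nat_lit 94) (nat_lit 84) (nat_lit 0) (XT.lf (nat_lit 0) (nat_lit 3052855191) (nat_lit 588) (nat_lit 2735828383) (nat_lit 588) (nat_lit 1047569915) (nat_lit 145) (nat_lit 4) (nat_lit 152) (nat_lit 5) (nat_lit 152) (nat_lit 4) (nat_lit 304) (nat_lit 279) (nat_lit 278)) (XT.lf (nat_lit 0) (nat_lit 1400641754) (nat_lit 672) (nat_lit 481051154) (nat_lit 84) (nat_lit 5005476435) (nat_lit 144) (nat_lit 5)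 (nat_lit 152) (nat_lit 5) (nat_lit 145) (nat_lit 4) (nat_lit 305) (nat_lit 279) (nat_lit 277)))) (XT.nd (nat_lit 188) (nat_lit 840) (nat_lit 0) (XT.nd (nat_lit 94) (nat_lit 0) (nat_lit 0) (XT.lf (nat_lit 0) (nat_lit 2904530758) (nat_lit 672) (nat_lit 945073054) (nat_lit 756) (nat_lit 3092029484) (nat_lit 136) (nat_lit 5) (nat_lit 144) (nat_lit 5) (nat_lit 145) (nat_lit 4) (nat_lit 306) (nat_lit 279) (nat_lit 276)) (XT.lf (nat_lit 0) (nat_lit 6299517593) (nat_lit 756) (nat_lit 662147072) (nat_lit 0) (nat_lit 39072416) (nat_lit 136) (nat_lit 5) (nat_lit 145) (nat_lit 4) (nat_lit 136) (nat_lit 4) (nat_lit 307) (nat_lit 279) (nat_lit 275))) (XT.nd (nat_lit 94) (nat_lit 0) (nat_lit 0) (XT.lf (nat_lit 0) (nat_lit 1686740278) (nat_lit 840) (nat_lit 4283933351) (nat_lit 84) (nat_lit 1092331755) (nat_lit 126) (nat_lit 5) (nat_lit 136) (nat_lit 5) (nat_lit 127) (nat_lit 4) (nat_lit 308) (nat_lit 279) (nat_lit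 274)) (XT.lf (nat_lit 0) (nat_lit 4063633579) (nat_lit 840) (nat_lit 862144607) (nat_lit 84) (nat_lit 2203962419) (nat_lit 126) (nat_lit 5) (nat_lit 136) (nat_lit 5) (nat_lit 127) (nat_lit 4) (nat_lit 309) (nat_lit 279) (nat_lit 273))))) (XT.nd (nat_lit 282) (nat_lit 1680) (nat_lit 0) (XT.nd (nat_lit 94) (nat_lit 1008) (nat_lit 0) (XT.lf (nat_lit 0) (nat_lit 2652311540) (nat_lit 840) (nat_lit 3813031450) (nat_lit 924) (nat_lit 735271890) (nat_lit 116) (nat_lit 5) (nat_lit 126) (nat_lit 5) (nat_lit 127) (nat_lit 4) (nat_lit 310) (nat_lit 279) (nat_lit 272)) (XT.nd (nat_lit 94) (nat_lit 924) (nat_lit 0) (XT.lf (nat_lit 0) (nat_lit 1568452264) (nat_lit 924) (nat_lit 1064282558) (nat_lit 84) (nat_lit 4642999697) (nat_lit 115) (nat_lit 5) (nat_lit 126) (nat_lit 5) (nat_lit 116) (nat_lit 5) (nat_lit 311) (nat_lit 279) (nat_lit 271)) (XT.lf (nat_lit 0) (nat_lit 2504503392) (nat_lit 924) (nat_lit 1376055773)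 (nat_lit 1008) (nat_lit 3474377880) (nat_lit 104) (nat_lit 5) (nat_lit 115) (nat_lit 5) (nat_lit 116) (nat_lit 5) (nat_lit 312) (nat_lit 279) (nat_lit 270)))) (XT.nd (nat_lit 188) (nat_lit 588) (nat_lit 0) (XT.nd (nat_lit 94) (nat_lit 1092) (nat_lit 0) (XT.lf (nat_lit 0) (nat_lit 6140974412) (nat_lit 924) (nat_lit 63404737) (nat_lit 1008) (nat_lit 1234566056) (nat_lit 104) (nat_lit 5) (nat_lit 115) (nat_lit 5) (nat_lit 116) (nat_lit 5) (nat_lit 313) (nat_lit 279) (nat_lit 269)) (XT.lf (nat_lit 0) (nat_lit 1019278906) (nat_lit 1092) (nat_lit 5204762939) (nat_lit 84) (nat_lit 1302693900) (nat_lit 91) (nat_lit 5) (nat_lit 104) (nat_lit 5) (nat_lit 92) (nat_lit 5) (nat_lit 314) (nat_lit 279) (nat_lit 268))) (XT.nd (nat_lit 94) (nat_lit 588) (nat_lit 0) (XT.lf (nat_lit 0) (nat_lit 3263080651) (nat_lit 1092) (nat_lit 1615986442) (nat_lit 84) (nat_lit 2739920072) (nat_lit 91) (nat_lit 5) (nat_lit 104)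 (nat_lit 5) (nat_lit 92) (nat_lit 5) (nat_lit 315) (nat_lit 279) (nat_lit 267)) (XT.lf (nat_lit 0) (nat_lit 2060180782) (nat_lit 588) (nat_lit 3470156686) (nat_lit 672) (nat_lit 2185625118) (nat_lit 84) (nat_lit 5) (nat_lit 91) (nat_lit 5) (nat_lit 92) (nat_lit 5) (nat_lit 316) (nat_lit 279) (nat_lit 266)))))) (XT.nd (nat_lit 658) (nat_lit 1344) (nat_lit 0) (XT.nd (nat_lit 282) (nat_lit 1008) (nat_lit 0) (XT.nd (nat_lit 94) (nat_lit 504) (nat_lit 0) (XT.lf (nat_lit 0) (nat_lit 1667418) (nat_lit 672) (nat_lit 1998021124) (nat_lit 84) (nat_lit 5818174843) (nat_lit 83) (nat_lit 5) (nat_lit 91) (nat_lit 5) (nat_lit 84) (nat_lit 5) (nat_lit 317) (nat_lit 279) (nat_lit 265)) (XT.nd (nat_lit 94) (nat_lit 0) (nat_lit 0) (XT.lf (nat_lit 0) (nat_lit 1720969617) (nat_lit 504) (nat_lit 443199093) (nat_lit 588) (nat_lit 5759921481) (nat_lit 77) (nat_lit 5) (nat_lit 83) (nat_lit 5) (nat_lit 84) (nat_lit 5) (nat_lit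 318) (nat_lit 279) (nat_lit 264)) (XT.lf (nat_lit 0) (nat_lit 4363320495) (nat_lit 588) (nat_lit 2513249555) (nat_lit 84) (nat_lit 1158366988) (nat_lit 77) (nat_lit 5) (nat_lit 84) (nat_lit 5) (nat_lit 78) (nat_lit 5) (nat_lit 319) (nat_lit 279) (nat_lit 263)))) (XT.nd (nat_lit 188) (nat_lit 420) (nat_lit 0) (XT.nd (nat_lit 94) (nat_lit 84) (nat_lit 0) (XT.lf (nat_lit 0) (nat_lit 1247440733) (nat_lit 504) (nat_lit 5339028299) (nat_lit 588) (nat_lit 1564494027) (nat_lit 71) (nat_lit 5) (nat_lit 77) (nat_lit 5) (nat_lit 78) (nat_lit 5) (nat_lit 320) (nat_lit 279) (nat_lit 262)) (XT.lf (nat_lit 0) (nat_lit 561356597) (nat_lit 588) (nat_lit 3163199693) (nat_lit 84) (nat_lit 4547258616) (nat_lit 70) (nat_lit 5) (nat_lit 77) (nat_lit 5) (nat_lit 71) (nat_lit 5) (nat_lit 321) (nat_lit 279) (nat_lit 261))) (XT.nd (nat_lit 94) (nat_lit 0) (nat_lit 0) (XT.lf (nat_lit 0) (nat_lit 626533325) (nat_lit 420)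 (nat_lit 2041276484) (nat_lit 504) (nat_lit 5730084888) (nat_lit 65) (nat_lit 5) (nat_lit 70) (nat_lit 5) (nat_lit 71) (nat_lit 5) (nat_lit 322) (nat_lit 279) (nat_lit 260)) (XT.lf (nat_lit 0) (nat_lit 4538283923) (nat_lit 420) (nat_lit 276434872) (nat_lit 504) (nat_lit 3714264849) (nat_lit 65) (nat_lit 5) (nat_lit 70) (nat_lit 5) (nat_lit 71) (nat_lit 5) (nat_lit 323) (nat_lit 279) (nat_lit 259))))) (XT.nd (nat_lit 376) (nat_lit 504) (nat_lit 0) (XT.nd (nat_lit 188) (nat_lit 336) (nat_lit 0) (XT.nd (nat_lit 94) (nat_lit 504) (nat_lit 0) (XT.lf (nat_lit 0) (nat_lit 6987323205) (nat_lit 504) (nat_lit 170803372) (nat_lit 84) (nat_lit 1507596961) (nat_lit 65) (nat_lit 5) (nat_lit 71) (nat_lit 5) (nat_lit 66) (nat_lit 5) (nat_lit 324) (nat_lit 279) (nat_lit 258)) (XT.lf (nat_lit 0) (nat_lit 397501080) (nat_lit 504) (nat_lit 5031407823) (nat_lit 84) (nat_lit 3378418351) (nat_lit 59) (nat_lit 5) (nat_lit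 65) (nat_lit 5) (nat_lit 60) (nat_lit 5) (nat_lit 325) (nat_lit 279) (nat_lit 257))) (XT.nd (nat_lit 94) (nat_lit 336) (nat_lit 0) (XT.lf (nat_lit 0) (nat_lit 2450413553) (nat_lit 504) (nat_lit 1183405381) (nat_lit 84) (nat_lit 5320888922) (nat_lit 59) (nat_lit 5) (nat_lit 65) (nat_lit 5) (nat_lit 60) (nat_lit 5) (nat_lit 326) (nat_lit 279) (nat_lit 256)) (XT.lf (nat_lit 0) (nat_lit 2780183610) (nat_lit 336) (nat_lit 1761715877) (nat_lit 420) (nat_lit 4565818559) (nat_lit 55) (nat_lit 5) (nat_lit 59) (nat_lit 5) (nat_lit 60) (nat_lit 5) (nat_lit 327) (nat_lit 279) (nat_lit 255)))) (XT.nd (nat_lit 188) (nat_lit 84) (nat_lit 0) (XT.nd (nat_lit 94) (nat_lit 420) (nat_lit 0) (XT.lf (nat_lit 0) (nat_lit 6660646889) (nat_lit 420) (nat_lit 2436068083) (nat_lit 84) (nat_lit 170196582) (nat_lit 55) (nat_lit 5) (nat_lit 60) (nat_lit 5) (nat_lit 56) (nat_lit 5) (nat_lit 328) (nat_lit 279) (nat_lit 254)) (XT.lf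 (nat_lit 0) (nat_lit 1529754430) (nat_lit 420) (nat_lit 7298345795) (nat_lit 504) (nat_lit 603732983) (nat_lit 50) (nat_lit 5) (nat_lit 55) (nat_lit 5) (nat_lit 56) (nat_lit 5) (nat_lit 329) (nat_lit 279) (nat_lit 253))) (XT.nd (nat_lit 94) (nat_lit 0) (nat_lit 0) (XT.lf (nat_lit 0) (nat_lit 1407133598) (nat_lit 504) (nat_lit 4005433756) (nat_lit 84) (nat_lit 4189855543) (nat_lit 49) (nat_lit 5) (nat_lit 55) (nat_lit 5) (nat_lit 50) (nat_lit 5) (nat_lit 330) (nat_lit 279) (nat_lit 252)) (XT.lf (nat_lit 0) (nat_lit 3419301635) (nat_lit 504) (nat_lit 52133789) (nat_lit 84) (nat_lit 6308420907) (nat_lit 49) (nat_lit 5) (nat_lit 55) (nat_lit 5) (nat_lit 50) (nat_lit 5) (nat_lit 331) (nat_lit 279) (nat_lit 251))))))) (XT.nd (nat_lit 51606) (nat_lit 0) (nat_lit 3192) (XT.nd (nat_lit 658) (nat_lit 336) (nat_lit 0) (XT.nd (nat_lit 282) (nat_lit 336) (nat_lit 0) (XT.nd (nat_lit 94) (nat_lit 336) (nat_lit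 0) (XT.lf (nat_lit 0) (nat_lit 4049074956) (nat_lit 336) (nat_lit 1437902922) (nat_lit 420) (nat_lit 4476261495) (nat_lit 45) (nat_lit 5) (nat_lit 49) (nat_lit 5) (nat_lit 50) (nat_lit 5) (nat_lit 332) (nat_lit 279) (nat_lit 250)) (XT.nd (nat_lit 94) (nat_lit 336) (nat_lit 0) (XT.lf (nat_lit 0) (nat_lit 7579567715) (nat_lit 420) (nat_lit 1937524312) (nat_lit 84) (nat_lit 636659104) (nat_lit 45) (nat_lit 5) (nat_lit 50) (nat_lit 5) (nat_lit 46) (nat_lit 5) (nat_lit 333) (nat_lit 279) (nat_lit 249)) (XT.lf (nat_lit 0) (nat_lit 2135204761) (nat_lit 336) (nat_lit 7592833938) (nat_lit 420) (nat_lit 622630957) (nat_lit 41) (nat_lit 5) (nat_lit 45) (nat_lit 5) (nat_lit 46) (nat_lit 5) (nat_lit 334) (nat_lit 279) (nat_lit 248)))) (XT.nd (nat_lit 188) (nat_lit 252) (nat_lit 0) (XT.nd (nat_lit 94) (nat_lit 0) (nat_lit 0) (XT.lf (nat_lit 0) (nat_lit 1337121933) (nat_lit 420) (nat_lit 4247859990) (nat_lit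 84) (nat_lit 4969245952) (nat_lit 40) (nat_lit 5) (nat_lit 45) (nat_lit 5) (nat_lit 41) (nat_lit 5) (nat_lit 335) (nat_lit 279) (nat_lit 247)) (XT.lf (nat_lit 0) (nat_lit 3301304122) (nat_lit 420) (nat_lit 218008709) (nat_lit 84) (nat_lit 7246134022) (nat_lit 40) (nat_lit 5) (nat_lit 45) (nat_lit 5) (nat_lit 41) (nat_lit 5) (nat_lit 336) (nat_lit 279) (nat_lit 246))) (XT.nd (nat_lit 94) (nat_lit 0) (nat_lit 0) (XT.lf (nat_lit 0) (nat_lit 3963885219) (nat_lit 252) (nat_lit 1359728072) (nat_lit 336) (nat_lit 5659882663) (nat_lit 37) (nat_lit 5) (nat_lit 40) (nat_lit 5) (nat_lit 41) (nat_lit 5) (nat_lit 337) (nat_lit 279) (nat_lit 245)) (XT.lf (nat_lit 0) (nat_lit 7378066359) (nat_lit 336) (nat_lit 2990393125) (nat_lit 84) (nat_lit 840982848) (nat_lit 37) (nat_lit 5) (nat_lit 41) (nat_lit 5) (nat_lit 38) (nat_lit 5) (nat_lit 338) (nat_lit 279) (nat_lit 244))))) (XT.nd (nat_lit 50572) (nat_lit 0) (nat_lit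 9324) (XT.nd (nat_lit 94) (nat_lit 0) (nat_lit 0) (XT.lf (nat_lit 0) (nat_lit 1120432007) (nat_lit 336) (nat_lit 8360597955) (nat_lit 420) (nat_lit 1962018629) (nat_lit 33) (nat_lit 5) (nat_lit 37) (nat_lit 5) (nat_lit 38) (nat_lit 5) (nat_lit 339) (nat_lit 279) (nat_lit 243)) (XT.nd (nat_lit 50384) (nat_lit 0) (nat_lit 9996) (XT.lf (nat_lit 0) (nat_lit 5370647974) (nat_lit 336) (nat_lit 6270250301) (nat_lit 420) (nat_lit 43434749) (nat_lit 33) (nat_lit 5) (nat_lit 37) (nat_lit 5) (nat_lit 38) (nat_lit 5) (nat_lit 340) (nat_lit 279) (nat_lit 242)) (XT.lf (nat_lit 0) (nat_lit 8824582) (nat_lit 588) (nat_lit 3335597960) (nat_lit 0) (nat_lit 8824582) (nat_lit 152) (nat_lit 5) (nat_lit 159) (nat_lit 4) (nat_lit 152) (nat_lit 4) (nat_lit 301) (nat_lit 280) (nat_lit 280)))) (XT.nd (nat_lit 188) (nat_lit 672) (nat_lit 0) (XT.nd (nat_lit 94) (nat_lit 0) (nat_lit 0) (XT.lf (nat_lit 0) (nat_lit 2491571826)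 (nat_lit 588) (nat_lit 3503990481) (nat_lit 0) (nat_lit 750977346) (nat_lit 152) (nat_lit 5) (nat_lit 159) (nat_lit 4) (nat_lit 152) (nat_lit 4) (nat_lit 302) (nat_lit 280) (nat_lit 279)) (XT.lf (nat_lit 0) (nat_lit 4957067408) (nat_lit 588) (nat_lit 305892281) (nat_lit 0) (nat_lit 1528214460) (nat_lit 152) (nat_lit 5) (nat_lit 159) (nat_lit 4) (nat_lit 152) (nat_lit 4) (nat_lit 303) (nat_lit 280) (nat_lit 278))) (XT.nd (nat_lit 94) (nat_lit 0) (nat_lit 0) (XT.lf (nat_lit 0) (nat_lit 594316570) (nat_lit 672) (nat_lit 3859292082) (nat_lit 84) (nat_lit 2385725823) (nat_lit 144) (nat_lit 5) (nat_lit 152) (nat_lit 5) (nat_lit 145) (nat_lit 4) (nat_lit 304) (nat_lit 280) (nat_lit 277)) (XT.lf (nat_lit 0) (nat_lit 2980950851) (nat_lit 672) (nat_lit 600297885) (nat_lit 84) (nat_lit 3310252585) (nat_lit 144) (nat_lit 5) (nat_lit 152) (nat_lit 5) (nat_lit 145) (nat_lit 4) (nat_lit 305) (nat_lit 280) (nat_lit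 276)))))) (XT.nd (nat_lit 658) (nat_lit 2772) (nat_lit 0) (XT.nd (nat_lit 282) (nat_lit 1848) (nat_lit 0) (XT.nd (nat_lit 94) (nat_lit 840) (nat_lit 0) (XT.lf (nat_lit 0) (nat_lit 2750204843) (nat_lit 672) (nat_lit 2638922828) (nat_lit 756) (nat_lit 1558410908) (nat_lit 136) (nat_lit 5) (nat_lit 144) (nat_lit 5) (nat_lit 145) (nat_lit 4) (nat_lit 306) (nat_lit 280) (nat_lit 275)) (XT.nd (nat_lit 94) (nat_lit 756) (nat_lit 0) (XT.lf (nat_lit 0) (nat_lit 776154283) (nat_lit 756) (nat_lit 862976454) (nat_lit 84) (nat_lit 5368769995) (nat_lit 135) (nat_lit 5) (nat_lit 144) (nat_lit 5) (nat_lit 136) (nat_lit 5) (nat_lit 307) (nat_lit 280) (nat_lit 274)) (XT.lf (nat_lit 0) (nat_lit 2545599002) (nat_lit 756) (nat_lit 553399270) (nat_lit 840) (nat_lit 3972817662) (nat_lit 126) (nat_lit 5) (nat_lit 135) (nat_lit 5) (nat_lit 136) (nat_lit 5) (nat_lit 308) (nat_lit 280) (nat_lit 273)))) (XT.nd (nat_lit 188)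 (nat_lit 924) (nat_lit 0) (XT.nd (nat_lit 94) (nat_lit 924) (nat_lit 0) (XT.lf (nat_lit 0) (nat_lit 5433386108) (nat_lit 840) (nat_lit 1131851356) (nat_lit 84) (nat_lit 574904807) (nat_lit 126) (nat_lit 5) (nat_lit 136) (nat_lit 5) (nat_lit 127) (nat_lit 4) (nat_lit 309) (nat_lit 280) (nat_lit 272)) (XT.lf (nat_lit 0) (nat_lit 571890432) (nat_lit 924) (nat_lit 4873799968) (nat_lit 84) (nat_lit 1766619530) (nat_lit 115) (nat_lit 5) (nat_lit 126) (nat_lit 5) (nat_lit 116) (nat_lit 5) (nat_lit 310) (nat_lit 280) (nat_lit 271))) (XT.nd (nat_lit 94) (nat_lit 924) (nat_lit 0) (XT.lf (nat_lit 0) (nat_lit 2825052413) (nat_lit 924) (nat_lit 1429657879) (nat_lit 84) (nat_lit 3033850868) (nat_lit 115) (nat_lit 5) (nat_lit 126) (nat_lit 5) (nat_lit 116) (nat_lit 5) (nat_lit 311) (nat_lit 280) (nat_lit 270)) (XT.lf (nat_lit 0) (nat_lit 2099360391) (nat_lit 924) (nat_lit 2999106641) (nat_lit 1008) (nat_lit 2270738126)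 (nat_lit 104) (nat_lit 5) (nat_lit 115) (nat_lit 5) (nat_lit 116) (nat_lit 5) (nat_lit 312) (nat_lit 280) (nat_lit 269))))) (XT.nd (nat_lit 376) (nat_lit 1092) (nat_lit 0) (XT.nd (nat_lit 188) (nat_lit 588) (nat_lit 0) (XT.nd (nat_lit 94) (nat_lit 1092) (nat_lit 0) (XT.lf (nat_lit 0) (nat_lit 5704546431) (nat_lit 924) (nat_lit 1683799570) (nat_lit 1008) (nat_lit 66154222) (nat_lit 104) (nat_lit 5) (nat_lit 115) (nat_lit 5) (nat_lit 116) (nat_lit 5) (nat_lit 313) (nat_lit 280) (nat_lit 268)) (XT.lf (nat_lit 0) (nat_lit 1830568245) (nat_lit 1008) (nat_lit 281903044) (nat_lit 1092) (nat_lit 5431283025) (nat_lit 91) (nat_lit 5) (nat_lit 103) (nat_lit 5) (nat_lit 104) (nat_lit 5) (nat_lit 314) (nat_lit 280) (nat_lit 267))) (XT.nd (nat_lit 94) (nat_lit 588) (nat_lit 0) (XT.lf (nat_lit 0) (nat_lit 4320714321) (nat_lit 1092) (nat_lit 2153798877) (nat_lit 84) (nat_lit 1162809048) (nat_lit 91) (nat_lit 5)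 (nat_lit 104) (nat_lit 5) (nat_lit 92) (nat_lit 5) (nat_lit 315) (nat_lit 280) (nat_lit 266)) (XT.lf (nat_lit 0) (nat_lit 1479449856) (nat_lit 588) (nat_lit 5070983249) (nat_lit 672) (nat_lit 1185235991) (nat_lit 84) (nat_lit 5) (nat_lit 91) (nat_lit 5) (nat_lit 92) (nat_lit 5) (nat_lit 316) (nat_lit 280) (nat_lit 265)))) (XT.nd (nat_lit 188) (nat_lit 504) (nat_lit 0) (XT.nd (nat_lit 94) (nat_lit 504) (nat_lit 0) (XT.lf (nat_lit 0) (nat_lit 950256931) (nat_lit 672) (nat_lit 2640130658) (nat_lit 84) (nat_lit 4248051073) (nat_lit 83) (nat_lit 5) (nat_lit 91) (nat_lit 5) (nat_lit 84) (nat_lit 5) (nat_lit 317) (nat_lit 280) (nat_lit 264)) (XT.lf (nat_lit 0) (nat_lit 1034230303) (nat_lit 504) (nat_lit 2041022846) (nat_lit 588) (nat_lit 4870764543) (nat_lit 77) (nat_lit 5) (nat_lit 83) (nat_lit 5) (nat_lit 84) (nat_lit 5) (nat_lit 318) (nat_lit 280) (nat_lit 263))) (XT.nd (nat_lit 94) (nat_lit 504) (nat_lit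 0) (XT.lf (nat_lit 0) (nat_lit 4816557387) (nat_lit 504) (nat_lit 416048064) (nat_lit 588) (nat_lit 2825738741) (nat_lit 77) (nat_lit 5) (nat_lit 83) (nat_lit 5) (nat_lit 84) (nat_lit 5) (nat_lit 319) (nat_lit 280) (nat_lit 262)) (XT.lf (nat_lit 0) (nat_lit 476861439) (nat_lit 504) (nat_lit 6937949262) (nat_lit 588) (nat_lit 761007093) (nat_lit 71) (nat_lit 5) (nat_lit 77) (nat_lit 5) (nat_lit 78) (nat_lit 5) (nat_lit 320) (nat_lit 280) (nat_lit 261))))))))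
noncomputable def xc7 : XT := (XT.nd (nat_lit 52828) (nat_lit 0) (nat_lit 588) (XT.nd (nat_lit 1316) (nat_lit 672) (nat_lit 0) (XT.nd (nat_lit 658) (nat_lit 1176) (nat_lit 0) (XT.nd (nat_lit 282) (nat_lit 840) (nat_lit 0) (XT.nd (nat_lit 94) (nat_lit 420) (nat_lit 0) (XT.lf (nat_lit 0) (nat_lit 1319597528) (nat_lit 588) (nat_lit 3997703266) (nat_lit 84) (nat_lit 2980190316) (nat_lit 70) (nat_lit 5) (nat_lit 77) (nat_lit 5) (nat_lit 71) (nat_lit 5) (nat_lit 321) (nat_lit 280) (nat_lit 260)) (XT.nd (nat_lit 94) (nat_lit 420) (nat_lit 0) (XT.lf (nat_lit 0) (nat_lit 3391651619) (nat_lit 588) (nat_lit 250757274) (nat_lit 84) (nat_lit 4782391112) (nat_lit 70) (nat_lit 5) (nat_lit 77) (nat_lit 5) (nat_lit 71) (nat_lit 5) (nat_lit 322) (nat_lit 280) (nat_lit 259)) (XT.lf (nat_lit 0) (nat_lit 3625978843) (nat_lit 420) (nat_lit 1882410465) (nat_lit 504) (nat_lit 3048592793) (nat_lit 65) (nat_lit 5) (nat_lit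 70) (nat_lit 5) (nat_lit 71) (nat_lit 5) (nat_lit 323) (nat_lit 280) (nat_lit 258)))) (XT.nd (nat_lit 188) (nat_lit 336) (nat_lit 0) (XT.nd (nat_lit 94) (nat_lit 504) (nat_lit 0) (XT.lf (nat_lit 0) (nat_lit 7569390690) (nat_lit 420) (nat_lit 69538212) (nat_lit 504) (nat_lit 1056250196) (nat_lit 65) (nat_lit 5) (nat_lit 70) (nat_lit 5) (nat_lit 71) (nat_lit 5) (nat_lit 324) (nat_lit 280) (nat_lit 257)) (XT.lf (nat_lit 0) (nat_lit 969934123) (nat_lit 504) (nat_lit 6071481434) (nat_lit 84) (nat_lit 1796472603) (nat_lit 59) (nat_lit 5) (nat_lit 65) (nat_lit 5) (nat_lit 60) (nat_lit 5) (nat_lit 325) (nat_lit 280) (nat_lit 256))) (XT.nd (nat_lit 94) (nat_lit 336) (nat_lit 0) (XT.lf (nat_lit 0) (nat_lit 2996925084) (nat_lit 504) (nat_lit 2252881271) (nat_lit 84) (nat_lit 3736405667) (nat_lit 59) (nat_lit 5) (nat_lit 65) (nat_lit 5) (nat_lit 60) (nat_lit 5) (nat_lit 326) (nat_lit 280) (nat_lit 255)) (XT.lf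 (nat_lit 0) (nat_lit 1659612494) (nat_lit 336) (nat_lit 3392540214) (nat_lit 420) (nat_lit 4088329007) (nat_lit 55) (nat_lit 5) (nat_lit 59) (nat_lit 5) (nat_lit 60) (nat_lit 5) (nat_lit 327) (nat_lit 280) (nat_lit 254))))) (XT.nd (nat_lit 282) (nat_lit 672) (nat_lit 0) (XT.nd (nat_lit 94) (nat_lit 504) (nat_lit 0) (XT.lf (nat_lit 0) (nat_lit 5683819366) (nat_lit 336) (nat_lit 1460691480) (nat_lit 420) (nat_lit 2156113864) (nat_lit 55) (nat_lit 5) (nat_lit 59) (nat_lit 5) (nat_lit 60) (nat_lit 5) (nat_lit 328) (nat_lit 280) (nat_lit 253)) (XT.nd (nat_lit 94) (nat_lit 84) (nat_lit 0) (XT.lf (nat_lit 0) (nat_lit 310731274) (nat_lit 420) (nat_lit 8950691006) (nat_lit 504) (nat_lit 205818351) (nat_lit 50) (nat_lit 5) (nat_lit 55) (nat_lit 5) (nat_lit 56) (nat_lit 5) (nat_lit 329) (nat_lit 280) (nat_lit 252)) (XT.lf (nat_lit 0) (nat_lit 1773154005) (nat_lit 504) (nat_lit 5292352457) (nat_lit 84) (nat_lit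 2573061599) (nat_lit 49) (nat_lit 5) (nat_lit 55) (nat_lit 5) (nat_lit 50) (nat_lit 5) (nat_lit 330) (nat_lit 280) (nat_lit 251)))) (XT.nd (nat_lit 188) (nat_lit 336) (nat_lit 0) (XT.nd (nat_lit 94) (nat_lit 336) (nat_lit 0) (XT.lf (nat_lit 0) (nat_lit 3762162845) (nat_lit 504) (nat_lit 1366735089) (nat_lit 84) (nat_lit 4687937810) (nat_lit 49) (nat_lit 5) (nat_lit 55) (nat_lit 5) (nat_lit 50) (nat_lit 5) (nat_lit 331) (nat_lit 280) (nat_lit 250)) (XT.lf (nat_lit 0) (nat_lit 2680040420) (nat_lit 336) (nat_lit 3113754827) (nat_lit 420) (nat_lit 4207653712) (nat_lit 45) (nat_lit 5) (nat_lit 49) (nat_lit 5) (nat_lit 50) (nat_lit 5) (nat_lit 332) (nat_lit 280) (nat_lit 249))) (XT.nd (nat_lit 94) (nat_lit 336) (nat_lit 0) (XT.lf (nat_lit 0) (nat_lit 6827259292) (nat_lit 336) (nat_lit 1030629091) (nat_lit 420) (nat_lit 2335065156) (nat_lit 45) (nat_lit 5) (nat_lit 49) (nat_lit 5) (nat_lit 50) (nat_lit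 5) (nat_lit 333) (nat_lit 280) (nat_lit 248)) (XT.lf (nat_lit 0) (nat_lit 661053070) (nat_lit 336) (nat_lit 9299026932) (nat_lit 420) (nat_lit 431332855) (nat_lit 41) (nat_lit 5) (nat_lit 45) (nat_lit 5) (nat_lit 46) (nat_lit 5) (nat_lit 334) (nat_lit 280) (nat_lit 247)))))) (XT.nd (nat_lit 50760) (nat_lit 0) (nat_lit 8568) (XT.nd (nat_lit 282) (nat_lit 336) (nat_lit 0) (XT.nd (nat_lit 94) (nat_lit 252) (nat_lit 0) (XT.lf (nat_lit 0) (nat_lit 1503202175) (nat_lit 420) (nat_lit 5791428224) (nat_lit 84) (nat_lit 3301043968) (nat_lit 40) (nat_lit 5) (nat_lit 45) (nat_lit 5) (nat_lit 41) (nat_lit 5) (nat_lit 335) (nat_lit 280) (nat_lit 246)) (XT.nd (nat_lit 94) (nat_lit 252) (nat_lit 0) (XT.lf (nat_lit 0) (nat_lit 3446663094) (nat_lit 420) (nat_lit 1787547497) (nat_lit 84) (nat_lit 5573421958) (nat_lit 40) (nat_lit 5) (nat_lit 45) (nat_lit 5) (nat_lit 41) (nat_lit 5) (nat_lit 336) (nat_lit 280) (nat_lit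 245)) (XT.lf (nat_lit 0) (nat_lit 2336365870) (nat_lit 252) (nat_lit 3096362975) (nat_lit 336) (nat_lit 5594170284) (nat_lit 37) (nat_lit 5) (nat_lit 40) (nat_lit 5) (nat_lit 41) (nat_lit 5) (nat_lit 337) (nat_lit 280) (nat_lit 244)))) (XT.nd (nat_lit 188) (nat_lit 336) (nat_lit 0) (XT.nd (nat_lit 94) (nat_lit 0) (nat_lit 0) (XT.lf (nat_lit 0) (nat_lit 6575373343) (nat_lit 252) (nat_lit 883553104) (nat_lit 336) (nat_lit 3794886087) (nat_lit 37) (nat_lit 5) (nat_lit 40) (nat_lit 5) (nat_lit 41) (nat_lit 5) (nat_lit 338) (nat_lit 280) (nat_lit 243)) (XT.lf (nat_lit 0) (nat_lit 9522812610) (nat_lit 336) (nat_lit 606240207) (nat_lit 84) (nat_lit 1359665745) (nat_lit 37) (nat_lit 5) (nat_lit 41) (nat_lit 5) (nat_lit 38) (nat_lit 5) (nat_lit 339) (nat_lit 280) (nat_lit 242))) (XT.nd (nat_lit 50196) (nat_lit 0) (nat_lit 10584) (XT.lf (nat_lit 0) (nat_lit 3606944570) (nat_lit 336) (nat_lit 8050734594)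 (nat_lit 420) (nat_lit 73184598) (nat_lit 33) (nat_lit 5) (nat_lit 37) (nat_lit 5) (nat_lit 38) (nat_lit 5) (nat_lit 340) (nat_lit 280) (nat_lit 241)) (XT.lf (nat_lit 0) (nat_lit 223238452) (nat_lit 420) (nat_lit 1546982952) (nat_lit 420) (nat_lit 1546982952) (nat_lit 159) (nat_lit 4) (nat_lit 164) (nat_lit 5) (nat_lit 164) (nat_lit 4) (nat_lit 299) (nat_lit 281) (nat_lit 281))))) (XT.nd (nat_lit 376) (nat_lit 1428) (nat_lit 0) (XT.nd (nat_lit 188) (nat_lit 504) (nat_lit 0) (XT.nd (nat_lit 94) (nat_lit 84) (nat_lit 0) (XT.lf (nat_lit 0) (nat_lit 3561383671) (nat_lit 420) (nat_lit 2478929996) (nat_lit 420) (nat_lit 628745947) (nat_lit 159) (nat_lit 4) (nat_lit 164) (nat_lit 5) (nat_lit 164) (nat_lit 4) (nat_lit 300) (nat_lit 281) (nat_lit 280)) (XT.lf (nat_lit 0) (nat_lit 1787028572) (nat_lit 504) (nat_lit 15281928) (nat_lit 84) (nat_lit 4905324041) (nat_lit 158) (nat_lit 5) (nat_lit 164) (nat_lit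 5) (nat_lit 159) (nat_lit 4) (nat_lit 301) (nat_lit 281) (nat_lit 279))) (XT.nd (nat_lit 94) (nat_lit 0) (nat_lit 0) (XT.lf (nat_lit 0) (nat_lit 3167934491) (nat_lit 504) (nat_lit 1043422441) (nat_lit 588) (nat_lit 2538209528) (nat_lit 152) (nat_lit 5) (nat_lit 158) (nat_lit 5) (nat_lit 159) (nat_lit 4) (nat_lit 302) (nat_lit 281) (nat_lit 278)) (XT.lf (nat_lit 0) (nat_lit 6388348678) (nat_lit 504) (nat_lit 239883022) (nat_lit 588) (nat_lit 167815096) (nat_lit 152) (nat_lit 5) (nat_lit 158) (nat_lit 5) (nat_lit 159) (nat_lit 4) (nat_lit 303) (nat_lit 281) (nat_lit 277)))) (XT.nd (nat_lit 188) (nat_lit 756) (nat_lit 0) (XT.nd (nat_lit 94) (nat_lit 0) (nat_lit 0) (XT.lf (nat_lit 0) (nat_lit 2183144060) (nat_lit 672) (nat_lit 4015196389) (nat_lit 84) (nat_lit 647033443) (nat_lit 144) (nat_lit 5) (nat_lit 152) (nat_lit 5) (nat_lit 145) (nat_lit 4) (nat_lit 304) (nat_lit 281) (nat_lit 276)) (XT.lf (nat_lit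 0) (nat_lit 4530524034) (nat_lit 672) (nat_lit 788172052) (nat_lit 84) (nat_lit 1580370497) (nat_lit 144) (nat_lit 5) (nat_lit 152) (nat_lit 5) (nat_lit 145) (nat_lit 4) (nat_lit 305) (nat_lit 281) (nat_lit 275))) (XT.nd (nat_lit 94) (nat_lit 84) (nat_lit 0) (XT.lf (nat_lit 0) (nat_lit 2526821404) (nat_lit 672) (nat_lit 4371589447) (nat_lit 756) (nat_lit 58241651) (nat_lit 136) (nat_lit 5) (nat_lit 144) (nat_lit 5) (nat_lit 145) (nat_lit 4) (nat_lit 306) (nat_lit 281) (nat_lit 274)) (XT.lf (nat_lit 0) (nat_lit 2208199152) (nat_lit 756) (nat_lit 1142111550) (nat_lit 84) (nat_lit 3667699415) (nat_lit 135) (nat_lit 5) (nat_lit 144) (nat_lit 5) (nat_lit 136) (nat_lit 5) (nat_lit 307) (nat_lit 281) (nat_lit 273))))))) (XT.nd (nat_lit 1316) (nat_lit 2520) (nat_lit 0) (XT.nd (nat_lit 658) (nat_lit 1764) (nat_lit 0) (XT.nd (nat_lit 282) (nat_lit 2016) (nat_lit 0) (XT.nd (nat_lit 94) (nat_lit 924) (nat_lit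 0) (XT.lf (nat_lit 0) (nat_lit 2229289947) (nat_lit 756) (nat_lit 2261855603) (nat_lit 840) (nat_lit 2592290041) (nat_lit 126) (nat_lit 5) (nat_lit 135) (nat_lit 5) (nat_lit 136) (nat_lit 5) (nat_lit 308) (nat_lit 281) (nat_lit 272)) (XT.nd (nat_lit 94) (nat_lit 924) (nat_lit 0) (XT.lf (nat_lit 0) (nat_lit 5667493483) (nat_lit 756) (nat_lit 1116262572) (nat_lit 840) (nat_lit 369566192) (nat_lit 126) (nat_lit 5) (nat_lit 135) (nat_lit 5) (nat_lit 136) (nat_lit 5) (nat_lit 309) (nat_lit 281) (nat_lit 271)) (XT.lf (nat_lit 0) (nat_lit 1831697103) (nat_lit 924) (nat_lit 5283086629) (nat_lit 84) (nat_lit 112108170) (nat_lit 115) (nat_lit 5) (nat_lit 126) (nat_lit 5) (nat_lit 116) (nat_lit 5) (nat_lit 310) (nat_lit 281) (nat_lit 270)))) (XT.nd (nat_lit 188) (nat_lit 1092) (nat_lit 0) (XT.nd (nat_lit 94) (nat_lit 924) (nat_lit 0) (XT.lf (nat_lit 0) (nat_lit 4050185870) (nat_lit 924) (nat_lit 1870549491)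 (nat_lit 84) (nat_lit 1383724651) (nat_lit 115) (nat_lit 5) (nat_lit 126) (nat_lit 5) (nat_lit 116) (nat_lit 5) (nat_lit 311) (nat_lit 281) (nat_lit 269)) (XT.lf (nat_lit 0) (nat_lit 1618118164) (nat_lit 924) (nat_lit 4667077679) (nat_lit 1008) (nat_lit 1101333445) (nat_lit 104) (nat_lit 5) (nat_lit 115) (nat_lit 5) (nat_lit 116) (nat_lit 5) (nat_lit 312) (nat_lit 281) (nat_lit 268))) (XT.nd (nat_lit 94) (nat_lit 1008) (nat_lit 0) (XT.lf (nat_lit 0) (nat_lit 1047542152) (nat_lit 1008) (nat_lit 2290718090) (nat_lit 84) (nat_lit 4134483554) (nat_lit 103) (nat_lit 5) (nat_lit 115) (nat_lit 5) (nat_lit 104) (nat_lit 5) (nat_lit 313) (nat_lit 281) (nat_lit 267)) (XT.lf (nat_lit 0) (nat_lit 1247077827) (nat_lit 1008) (nat_lit 1939495093) (nat_lit 1092) (nat_lit 4376804932) (nat_lit 91) (nat_lit 5) (nat_lit 103) (nat_lit 5) (nat_lit 104) (nat_lit 5) (nat_lit 314) (nat_lit 281) (nat_lit 266))))) (XT.nd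 (nat_lit 282) (nat_lit 1092) (nat_lit 0) (XT.nd (nat_lit 94) (nat_lit 672) (nat_lit 0) (XT.lf (nat_lit 0) (nat_lit 4882163362) (nat_lit 1008) (nat_lit 469085346) (nat_lit 1092) (nat_lit 2307255410) (nat_lit 91) (nat_lit 5) (nat_lit 103) (nat_lit 5) (nat_lit 104) (nat_lit 5) (nat_lit 315) (nat_lit 281) (nat_lit 265)) (XT.nd (nat_lit 94) (nat_lit 84) (nat_lit 0) (XT.lf (nat_lit 0) (nat_lit 817954304) (nat_lit 588) (nat_lit 6720976048) (nat_lit 672) (nat_lit 219425273) (nat_lit 84) (nat_lit 5) (nat_lit 91) (nat_lit 5) (nat_lit 92) (nat_lit 5) (nat_lit 316) (nat_lit 281) (nat_lit 264)) (XT.lf (nat_lit 0) (nat_lit 1865916180) (nat_lit 672) (nat_lit 3364687214) (nat_lit 84) (nat_lit 2631365822) (nat_lit 83) (nat_lit 5) (nat_lit 91) (nat_lit 5) (nat_lit 84) (nat_lit 5) (nat_lit 317) (nat_lit 281) (nat_lit 263)))) (XT.nd (nat_lit 188) (nat_lit 588) (nat_lit 0) (XT.nd (nat_lit 94) (nat_lit 0) (nat_lit 0)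 (XT.lf (nat_lit 0) (nat_lit 264293620) (nat_lit 504) (nat_lit 3689211237) (nat_lit 588) (nat_lit 4017386892) (nat_lit 77) (nat_lit 5) (nat_lit 83) (nat_lit 5) (nat_lit 84) (nat_lit 5) (nat_lit 318) (nat_lit 281) (nat_lit 262)) (XT.lf (nat_lit 0) (nat_lit 4017055468) (nat_lit 504) (nat_lit 2064633836) (nat_lit 588) (nat_lit 2002611487) (nat_lit 77) (nat_lit 5) (nat_lit 83) (nat_lit 5) (nat_lit 84) (nat_lit 5) (nat_lit 319) (nat_lit 281) (nat_lit 261))) (XT.nd (nat_lit 94) (nat_lit 504) (nat_lit 0) (XT.lf (nat_lit 0) (nat_lit 14727890) (nat_lit 588) (nat_lit 375595730) (nat_lit 84) (nat_lit 7813029809) (nat_lit 76) (nat_lit 5) (nat_lit 83) (nat_lit 5) (nat_lit 77) (nat_lit 5) (nat_lit 320) (nat_lit 281) (nat_lit 260)) (XT.lf (nat_lit 0) (nat_lit 2044102561) (nat_lit 588) (nat_lit 4919339081) (nat_lit 84) (nat_lit 1362626624) (nat_lit 70) (nat_lit 5) (nat_lit 77) (nat_lit 5) (nat_lit 71) (nat_lit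 5) (nat_lit 321) (nat_lit 281) (nat_lit 259)))))) (XT.nd (nat_lit 658) (nat_lit 1260) (nat_lit 0) (XT.nd (nat_lit 282) (nat_lit 840) (nat_lit 0) (XT.nd (nat_lit 94) (nat_lit 420) (nat_lit 0) (XT.lf (nat_lit 0) (nat_lit 4088820248) (nat_lit 588) (nat_lit 1201649905) (nat_lit 84) (nat_lit 3163912277) (nat_lit 70) (nat_lit 5) (nat_lit 77) (nat_lit 5) (nat_lit 71) (nat_lit 5) (nat_lit 322) (nat_lit 281) (nat_lit 258)) (XT.nd (nat_lit 94) (nat_lit 0) (nat_lit 0) (XT.lf (nat_lit 0) (nat_lit 2626573292) (nat_lit 420) (nat_lit 3542555960) (nat_lit 504) (nat_lit 2418717655) (nat_lit 65) (nat_lit 5) (nat_lit 70) (nat_lit 5) (nat_lit 71) (nat_lit 5) (nat_lit 323) (nat_lit 281) (nat_lit 257)) (XT.lf (nat_lit 0) (nat_lit 6541895307) (nat_lit 420) (nat_lit 1731777662) (nat_lit 504) (nat_lit 453325297) (nat_lit 65) (nat_lit 5) (nat_lit 70) (nat_lit 5) (nat_lit 71) (nat_lit 5) (nat_lit 324) (nat_lit 281) (nat_lit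 256)))) (XT.nd (nat_lit 188) (nat_lit 336) (nat_lit 0) (XT.nd (nat_lit 94) (nat_lit 0) (nat_lit 0) (XT.lf (nat_lit 0) (nat_lit 1507466000) (nat_lit 504) (nat_lit 7203513356) (nat_lit 84) (nat_lit 160332860) (nat_lit 59) (nat_lit 5) (nat_lit 65) (nat_lit 5) (nat_lit 60) (nat_lit 5) (nat_lit 325) (nat_lit 281) (nat_lit 255)) (XT.lf (nat_lit 0) (nat_lit 3509314855) (nat_lit 504) (nat_lit 3413431408) (nat_lit 84) (nat_lit 2097804715) (nat_lit 59) (nat_lit 5) (nat_lit 65) (nat_lit 5) (nat_lit 60) (nat_lit 5) (nat_lit 326) (nat_lit 281) (nat_lit 254))) (XT.nd (nat_lit 94) (nat_lit 0) (nat_lit 0) (XT.lf (nat_lit 0) (nat_lit 446969573) (nat_lit 336) (nat_lit 5081157203) (nat_lit 420) (nat_lit 3647954203) (nat_lit 55) (nat_lit 5) (nat_lit 59) (nat_lit 5) (nat_lit 60) (nat_lit 5) (nat_lit 327) (nat_lit 281) (nat_lit 253)) (XT.lf (nat_lit 0) (nat_lit 4443795752) (nat_lit 336) (nat_lit 3152764645) (nat_lit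 420) (nat_lit 1740532705) (nat_lit 55) (nat_lit 5) (nat_lit 59) (nat_lit 5) (nat_lit 60) (nat_lit 5) (nat_lit 328) (nat_lit 281) (nat_lit 252))))) (XT.nd (nat_lit 376) (nat_lit 420) (nat_lit 0) (XT.nd (nat_lit 188) (nat_lit 336) (nat_lit 0) (XT.nd (nat_lit 94) (nat_lit 420) (nat_lit 0) (XT.lf (nat_lit 0) (nat_lit 173607338) (nat_lit 420) (nat_lit 995980907) (nat_lit 84) (nat_lit 8335165995) (nat_lit 54) (nat_lit 5) (nat_lit 59) (nat_lit 5) (nat_lit 55) (nat_lit 5) (nat_lit 329) (nat_lit 281) (nat_lit 251)) (XT.lf (nat_lit 0) (nat_lit 2103484715) (nat_lit 504) (nat_lit 6675388996) (nat_lit 84) (nat_lit 898654372) (nat_lit 49) (nat_lit 5) (nat_lit 55) (nat_lit 5) (nat_lit 50) (nat_lit 5) (nat_lit 330) (nat_lit 281) (nat_lit 250))) (XT.nd (nat_lit 94) (nat_lit 336) (nat_lit 0) (XT.lf (nat_lit 0) (nat_lit 4070030708) (nat_lit 504) (nat_lit 2776621869) (nat_lit 84) (nat_lit 3009952353) (nat_lit 49)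 (nat_lit 5) (nat_lit 55) (nat_lit 5) (nat_lit 50) (nat_lit 5) (nat_lit 331) (nat_lit 281) (nat_lit 249)) (XT.lf (nat_lit 0) (nat_lit 1214585069) (nat_lit 336) (nat_lit 4850753104) (nat_lit 420) (nat_lit 3977115468) (nat_lit 45) (nat_lit 5) (nat_lit 49) (nat_lit 5) (nat_lit 50) (nat_lit 5) (nat_lit 332) (nat_lit 281) (nat_lit 248)))) (XT.nd (nat_lit 188) (nat_lit 420) (nat_lit 0) (XT.nd (nat_lit 94) (nat_lit 0) (nat_lit 0) (XT.lf (nat_lit 0) (nat_lit 5336024691) (nat_lit 336) (nat_lit 2772018549) (nat_lit 420) (nat_lit 2126684144) (nat_lit 45) (nat_lit 5) (nat_lit 49) (nat_lit 5) (nat_lit 50) (nat_lit 5) (nat_lit 333) (nat_lit 281) (nat_lit 247)) (XT.lf (nat_lit 0) (nat_lit 9534445570) (nat_lit 336) (nat_lit 637493552) (nat_lit 420) (nat_lit 262537692) (nat_lit 45) (nat_lit 5) (nat_lit 49) (nat_lit 5) (nat_lit 50) (nat_lit 5) (nat_lit 334) (nat_lit 281) (nat_lit 246))) (XT.nd (nat_lit 94) (nat_lit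 0) (nat_lit 0) (XT.lf (nat_lit 0) (nat_lit 1632346004) (nat_lit 420) (nat_lit 7435593268) (nat_lit 84) (nat_lit 1571967751) (nat_lit 40) (nat_lit 5) (nat_lit 45) (nat_lit 5) (nat_lit 41) (nat_lit 5) (nat_lit 335) (nat_lit 281) (nat_lit 245)) (XT.lf (nat_lit 0) (nat_lit 3555708698) (nat_lit 420) (nat_lit 3456902215) (nat_lit 84) (nat_lit 3839971270) (nat_lit 40) (nat_lit 5) (nat_lit 45) (nat_lit 5) (nat_lit 41) (nat_lit 5) (nat_lit 336) (nat_lit 281) (nat_lit 244))))))))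
noncomputable def xc8 : XT := (XT.nd (nat_lit 52546) (nat_lit 0) (nat_lit 336) (XT.nd (nat_lit 51230) (nat_lit 0) (nat_lit 3612) (XT.nd (nat_lit 50572) (nat_lit 0) (nat_lit 8568) (XT.nd (nat_lit 282) (nat_lit 336) (nat_lit 0) (XT.nd (nat_lit 94) (nat_lit 0) (nat_lit 0) (XT.lf (nat_lit 0) (nat_lit 607751144) (nat_lit 252) (nat_lit 4897381319) (nat_lit 336) (nat_lit 5567943309) (nat_lit 37) (nat_lit 5) (nat_lit 40) (nat_lit 5) (nat_lit 41) (nat_lit 5) (nat_lit 337) (nat_lit 281) (nat_lit 243)) (XT.nd (nat_lit 94) (nat_lit 0) (nat_lit 0) (XT.lf (nat_lit 0) (nat_lit 4822573698) (nat_lit 252) (nat_lit 2689608677) (nat_lit 336) (nat_lit 3788488750) (nat_lit 37) (nat_lit 5) (nat_lit 40) (nat_lit 5) (nat_lit 41) (nat_lit 5) (nat_lit 338) (nat_lit 281) (nat_lit 242)) (XT.lf (nat_lit 0) (nat_lit 9120413104) (nat_lit 252) (nat_lit 423318080) (nat_lit 336) (nat_lit 1992934139) (nat_lit 37) (nat_lit 5) (nat_lit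 40) (nat_lit 5) (nat_lit 41) (nat_lit 5) (nat_lit 339) (nat_lit 281) (nat_lit 241)))) (XT.nd (nat_lit 50102) (nat_lit 0) (nat_lit 10584) (XT.nd (nat_lit 50008) (nat_lit 0) (nat_lit 11004) (XT.lf (nat_lit 0) (nat_lit 1740173704) (nat_lit 336) (nat_lit 9897645519) (nat_lit 420) (nat_lit 142338569) (nat_lit 33) (nat_lit 5) (nat_lit 37) (nat_lit 5) (nat_lit 38) (nat_lit 5) (nat_lit 340) (nat_lit 281) (nat_lit 240)) (XT.lf (nat_lit 0) (nat_lit 257627260) (nat_lit 420) (nat_lit 2772201163) (nat_lit 0) (nat_lit 257627260) (nat_lit 164) (nat_lit 5) (nat_lit 169) (nat_lit 4) (nat_lit 164) (nat_lit 4) (nat_lit 297) (nat_lit 282) (nat_lit 282))) (XT.nd (nat_lit 94) (nat_lit 420) (nat_lit 0) (XT.lf (nat_lit 0) (nat_lit 2963721561) (nat_lit 420) (nat_lit 2583496207) (nat_lit 0) (nat_lit 1056181806) (nat_lit 164) (nat_lit 5) (nat_lit 169) (nat_lit 4) (nat_lit 164) (nat_lit 4) (nat_lit 298) (nat_lit 282) (nat_lit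 281)) (XT.lf (nat_lit 0) (nat_lit 415081397) (nat_lit 420) (nat_lit 4989391251) (nat_lit 420) (nat_lit 1231667447) (nat_lit 159) (nat_lit 4) (nat_lit 164) (nat_lit 5) (nat_lit 164) (nat_lit 4) (nat_lit 299) (nat_lit 282) (nat_lit 280))))) (XT.nd (nat_lit 282) (nat_lit 1428) (nat_lit 0) (XT.nd (nat_lit 94) (nat_lit 504) (nat_lit 0) (XT.lf (nat_lit 0) (nat_lit 1165702293) (nat_lit 504) (nat_lit 3184735355) (nat_lit 84) (nat_lit 2321666816) (nat_lit 158) (nat_lit 5) (nat_lit 164) (nat_lit 5) (nat_lit 159) (nat_lit 4) (nat_lit 300) (nat_lit 282) (nat_lit 279)) (XT.nd (nat_lit 94) (nat_lit 504) (nat_lit 0) (XT.lf (nat_lit 0) (nat_lit 3527104927) (nat_lit 504) (nat_lit 129321087) (nat_lit 84) (nat_lit 3055701940) (nat_lit 158) (nat_lit 5) (nat_lit 164) (nat_lit 5) (nat_lit 159) (nat_lit 4) (nat_lit 301) (nat_lit 282) (nat_lit 278)) (XT.lf (nat_lit 0) (nat_lit 3021119182) (nat_lit 504) (nat_lit 2888407575)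 (nat_lit 588) (nat_lit 846170814) (nat_lit 152) (nat_lit 5) (nat_lit 158) (nat_lit 5) (nat_lit 159) (nat_lit 4) (nat_lit 302) (nat_lit 282) (nat_lit 277)))) (XT.nd (nat_lit 188) (nat_lit 756) (nat_lit 0) (XT.nd (nat_lit 94) (nat_lit 588) (nat_lit 0) (XT.lf (nat_lit 0) (nat_lit 1453261187) (nat_lit 588) (nat_lit 606427509) (nat_lit 84) (nat_lit 4743586850) (nat_lit 151) (nat_lit 5) (nat_lit 158) (nat_lit 5) (nat_lit 152) (nat_lit 5) (nat_lit 303) (nat_lit 282) (nat_lit 276)) (XT.lf (nat_lit 0) (nat_lit 2602064500) (nat_lit 588) (nat_lit 1150851797) (nat_lit 672) (nat_lit 3101429310) (nat_lit 144) (nat_lit 5) (nat_lit 151) (nat_lit 5) (nat_lit 152) (nat_lit 5) (nat_lit 304) (nat_lit 282) (nat_lit 275))) (XT.nd (nat_lit 94) (nat_lit 756) (nat_lit 0) (XT.lf (nat_lit 0) (nat_lit 5863084222) (nat_lit 588) (nat_lit 189602324) (nat_lit 672) (nat_lit 857127326) (nat_lit 144) (nat_lit 5) (nat_lit 151) (nat_lit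 5) (nat_lit 152) (nat_lit 5) (nat_lit 305) (nat_lit 282) (nat_lit 274)) (XT.lf (nat_lit 0) (nat_lit 1381470728) (nat_lit 756) (nat_lit 4748797487) (nat_lit 84) (nat_lit 838281775) (nat_lit 135) (nat_lit 5) (nat_lit 144) (nat_lit 5) (nat_lit 136) (nat_lit 5) (nat_lit 306) (nat_lit 282) (nat_lit 273)))))) (XT.nd (nat_lit 658) (nat_lit 2268) (nat_lit 0) (XT.nd (nat_lit 282) (nat_lit 1848) (nat_lit 0) (XT.nd (nat_lit 94) (nat_lit 840) (nat_lit 0) (XT.lf (nat_lit 0) (nat_lit 3609978326) (nat_lit 756) (nat_lit 1492456740) (nat_lit 84) (nat_lit 1928867627) (nat_lit 135) (nat_lit 5) (nat_lit 144) (nat_lit 5) (nat_lit 136) (nat_lit 5) (nat_lit 307) (nat_lit 282) (nat_lit 272)) (XT.nd (nat_lit 94) (nat_lit 84) (nat_lit 0) (XT.lf (nat_lit 0) (nat_lit 1841251737) (nat_lit 756) (nat_lit 4012169121) (nat_lit 840) (nat_lit 1244797150) (nat_lit 126) (nat_lit 5) (nat_lit 135) (nat_lit 5) (nat_lit 136) (nat_lit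 5) (nat_lit 308) (nat_lit 282) (nat_lit 271)) (XT.lf (nat_lit 0) (nat_lit 922739106) (nat_lit 840) (nat_lit 1928902152) (nat_lit 84) (nat_lit 4317512204) (nat_lit 125) (nat_lit 5) (nat_lit 135) (nat_lit 5) (nat_lit 126) (nat_lit 5) (nat_lit 309) (nat_lit 282) (nat_lit 270)))) (XT.nd (nat_lit 188) (nat_lit 1008) (nat_lit 0) (XT.nd (nat_lit 94) (nat_lit 0) (nat_lit 0) (XT.lf (nat_lit 0) (nat_lit 1458807743) (nat_lit 840) (nat_lit 1617373283) (nat_lit 924) (nat_lit 4167922092) (nat_lit 115) (nat_lit 5) (nat_lit 125) (nat_lit 5) (nat_lit 126) (nat_lit 5) (nat_lit 310) (nat_lit 282) (nat_lit 269)) (XT.lf (nat_lit 0) (nat_lit 4932853082) (nat_lit 840) (nat_lit 315269011) (nat_lit 924) (nat_lit 2075226847) (nat_lit 115) (nat_lit 5) (nat_lit 125) (nat_lit 5) (nat_lit 126) (nat_lit 5) (nat_lit 311) (nat_lit 282) (nat_lit 268))) (XT.nd (nat_lit 94) (nat_lit 0) (nat_lit 0) (XT.lf (nat_lit 0) (nat_lit 34222485)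 (nat_lit 1008) (nat_lit 6346943913) (nat_lit 84) (nat_lit 1025748445) (nat_lit 103) (nat_lit 5) (nat_lit 115) (nat_lit 5) (nat_lit 104) (nat_lit 5) (nat_lit 312) (nat_lit 282) (nat_lit 267)) (XT.lf (nat_lit 0) (nat_lit 2128435082) (nat_lit 1008) (nat_lit 2910490073) (nat_lit 84) (nat_lit 2455086380) (nat_lit 103) (nat_lit 5) (nat_lit 115) (nat_lit 5) (nat_lit 104) (nat_lit 5) (nat_lit 313) (nat_lit 282) (nat_lit 266))))) (XT.nd (nat_lit 282) (nat_lit 588) (nat_lit 0) (XT.nd (nat_lit 94) (nat_lit 672) (nat_lit 0) (XT.lf (nat_lit 0) (nat_lit 584555130) (nat_lit 1008) (nat_lit 3644841239) (nat_lit 1092) (nat_lit 3356637127) (nat_lit 91) (nat_lit 5) (nat_lit 103) (nat_lit 5) (nat_lit 104) (nat_lit 5) (nat_lit 314) (nat_lit 282) (nat_lit 265)) (XT.nd (nat_lit 94) (nat_lit 672) (nat_lit 0) (XT.lf (nat_lit 0) (nat_lit 4190535980) (nat_lit 1008) (nat_lit 2172697334) (nat_lit 1092) (nat_lit 1319083956)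 (nat_lit 91) (nat_lit 5) (nat_lit 103) (nat_lit 5) (nat_lit 104) (nat_lit 5) (nat_lit 315) (nat_lit 282) (nat_lit 264)) (XT.lf (nat_lit 0) (nat_lit 61206474) (nat_lit 588) (nat_lit 643525183) (nat_lit 672) (nat_lit 7078894585) (nat_lit 83) (nat_lit 5) (nat_lit 90) (nat_lit 5) (nat_lit 91) (nat_lit 5) (nat_lit 316) (nat_lit 282) (nat_lit 263)))) (XT.nd (nat_lit 188) (nat_lit 588) (nat_lit 0) (XT.nd (nat_lit 94) (nat_lit 0) (nat_lit 0) (XT.lf (nat_lit 0) (nat_lit 2749498658) (nat_lit 672) (nat_lit 4172366156) (nat_lit 84) (nat_lit 966612170) (nat_lit 83) (nat_lit 5) (nat_lit 91) (nat_lit 5) (nat_lit 84) (nat_lit 5) (nat_lit 317) (nat_lit 282) (nat_lit 262)) (XT.lf (nat_lit 0) (nat_lit 4805590946) (nat_lit 672) (nat_lit 577679811) (nat_lit 84) (nat_lit 2615283488) (nat_lit 83) (nat_lit 5) (nat_lit 91) (nat_lit 5) (nat_lit 84) (nat_lit 5) (nat_lit 318) (nat_lit 282) (nat_lit 261))) (XT.nd (nat_lit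 94) (nat_lit 84) (nat_lit 0) (XT.lf (nat_lit 0) (nat_lit 3134527485) (nat_lit 504) (nat_lit 3765108581) (nat_lit 588) (nat_lit 1213558518) (nat_lit 77) (nat_lit 5) (nat_lit 83) (nat_lit 5) (nat_lit 84) (nat_lit 5) (nat_lit 319) (nat_lit 282) (nat_lit 260)) (XT.lf (nat_lit 0) (nat_lit 759997963) (nat_lit 588) (nat_lit 1323395155) (nat_lit 84) (nat_lit 6149638625) (nat_lit 76) (nat_lit 5) (nat_lit 83) (nat_lit 5) (nat_lit 77) (nat_lit 5) (nat_lit 320) (nat_lit 282) (nat_lit 259))))))) (XT.nd (nat_lit 1316) (nat_lit 672) (nat_lit 0) (XT.nd (nat_lit 658) (nat_lit 1176) (nat_lit 0) (XT.nd (nat_lit 282) (nat_lit 504) (nat_lit 0) (XT.nd (nat_lit 94) (nat_lit 420) (nat_lit 0) (XT.lf (nat_lit 0) (nat_lit 2425402988) (nat_lit 504) (nat_lit 313251518) (nat_lit 588) (nat_lit 5618822175) (nat_lit 70) (nat_lit 5) (nat_lit 76) (nat_lit 5) (nat_lit 77) (nat_lit 5) (nat_lit 321) (nat_lit 282) (nat_lit 258)) (XT.nd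 (nat_lit 94) (nat_lit 420) (nat_lit 0) (XT.lf (nat_lit 0) (nat_lit 4753750242) (nat_lit 588) (nat_lit 2239654148) (nat_lit 84) (nat_lit 1493457828) (nat_lit 70) (nat_lit 5) (nat_lit 77) (nat_lit 5) (nat_lit 71) (nat_lit 5) (nat_lit 322) (nat_lit 282) (nat_lit 257)) (XT.lf (nat_lit 0) (nat_lit 1539135721) (nat_lit 420) (nat_lit 5258418787) (nat_lit 504) (nat_lit 1824052323) (nat_lit 65) (nat_lit 5) (nat_lit 70) (nat_lit 5) (nat_lit 71) (nat_lit 5) (nat_lit 323) (nat_lit 282) (nat_lit 256)))) (XT.nd (nat_lit 188) (nat_lit 0) (nat_lit 0) (XT.nd (nat_lit 94) (nat_lit 420) (nat_lit 0) (XT.lf (nat_lit 0) (nat_lit 112879105) (nat_lit 504) (nat_lit 3335614151) (nat_lit 84) (nat_lit 5313155174) (nat_lit 64) (nat_lit 5) (nat_lit 70) (nat_lit 5) (nat_lit 65) (nat_lit 5) (nat_lit 324) (nat_lit 282) (nat_lit 255)) (XT.lf (nat_lit 0) (nat_lit 463085829) (nat_lit 420) (nat_lit 1563017243) (nat_lit 504) (nat_lit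 6881046843) (nat_lit 59) (nat_lit 5) (nat_lit 64) (nat_lit 5) (nat_lit 65) (nat_lit 5) (nat_lit 325) (nat_lit 282) (nat_lit 254))) (XT.nd (nat_lit 94) (nat_lit 0) (nat_lit 0) (XT.lf (nat_lit 0) (nat_lit 3988060467) (nat_lit 504) (nat_lit 4666137547) (nat_lit 84) (nat_lit 403558719) (nat_lit 59) (nat_lit 5) (nat_lit 65) (nat_lit 5) (nat_lit 60) (nat_lit 5) (nat_lit 326) (nat_lit 282) (nat_lit 253)) (XT.lf (nat_lit 0) (nat_lit 5978785498) (nat_lit 504) (nat_lit 841571038) (nat_lit 84) (nat_lit 2393928359) (nat_lit 59) (nat_lit 5) (nat_lit 65) (nat_lit 5) (nat_lit 60) (nat_lit 5) (nat_lit 327) (nat_lit 282) (nat_lit 252))))) (XT.nd (nat_lit 282) (nat_lit 336) (nat_lit 0) (XT.nd (nat_lit 94) (nat_lit 504) (nat_lit 0) (XT.lf (nat_lit 0) (nat_lit 3111393302) (nat_lit 336) (nat_lit 4904100510) (nat_lit 420) (nat_lit 1360910327) (nat_lit 55) (nat_lit 5) (nat_lit 59) (nat_lit 5) (nat_lit 60) (nat_lit 5)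 (nat_lit 328) (nat_lit 282) (nat_lit 251)) (XT.nd (nat_lit 94) (nat_lit 420) (nat_lit 0) (XT.lf (nat_lit 0) (nat_lit 522726045) (nat_lit 420) (nat_lit 2397805442) (nat_lit 84) (nat_lit 6624241868) (nat_lit 54) (nat_lit 5) (nat_lit 59) (nat_lit 5) (nat_lit 55) (nat_lit 5) (nat_lit 329) (nat_lit 282) (nat_lit 250)) (XT.lf (nat_lit 0) (nat_lit 1554791846) (nat_lit 420) (nat_lit 852094671) (nat_lit 504) (nat_lit 7312190721) (nat_lit 49) (nat_lit 5) (nat_lit 54) (nat_lit 5) (nat_lit 55) (nat_lit 5) (nat_lit 330) (nat_lit 282) (nat_lit 249)))) (XT.nd (nat_lit 188) (nat_lit 336) (nat_lit 0) (XT.nd (nat_lit 94) (nat_lit 0) (nat_lit 0) (XT.lf (nat_lit 0) (nat_lit 4343192187) (nat_lit 504) (nat_lit 4283108291) (nat_lit 84) (nat_lit 1272900479) (nat_lit 49) (nat_lit 5) (nat_lit 55) (nat_lit 5) (nat_lit 50) (nat_lit 5) (nat_lit 331) (nat_lit 282) (nat_lit 248)) (XT.lf (nat_lit 0) (nat_lit 6305318484) (nat_lit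 504) (nat_lit 341632390) (nat_lit 84) (nat_lit 3439233545) (nat_lit 49) (nat_lit 5) (nat_lit 55) (nat_lit 5) (nat_lit 50) (nat_lit 5) (nat_lit 332) (nat_lit 282) (nat_lit 247))) (XT.nd (nat_lit 94) (nat_lit 0) (nat_lit 0) (XT.lf (nat_lit 0) (nat_lit 3747778447) (nat_lit 336) (nat_lit 4576041408) (nat_lit 420) (nat_lit 1955491564) (nat_lit 45) (nat_lit 5) (nat_lit 49) (nat_lit 5) (nat_lit 50) (nat_lit 5) (nat_lit 333) (nat_lit 282) (nat_lit 246)) (XT.lf (nat_lit 0) (nat_lit 7921947024) (nat_lit 336) (nat_lit 2445647495) (nat_lit 420) (nat_lit 112189932) (nat_lit 45) (nat_lit 5) (nat_lit 49) (nat_lit 5) (nat_lit 50) (nat_lit 5) (nat_lit 334) (nat_lit 282) (nat_lit 245)))))) (XT.nd (nat_lit 50384) (nat_lit 0) (nat_lit 9576) (XT.nd (nat_lit 282) (nat_lit 252) (nat_lit 0) (XT.nd (nat_lit 94) (nat_lit 0) (nat_lit 0) (XT.lf (nat_lit 0) (nat_lit 1502787303) (nat_lit 336) (nat_lit 224109690) (nat_lit 420)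 (nat_lit 8960001162) (nat_lit 40) (nat_lit 5) (nat_lit 44) (nat_lit 5) (nat_lit 45) (nat_lit 5) (nat_lit 335) (nat_lit 282) (nat_lit 244)) (XT.nd (nat_lit 94) (nat_lit 0) (nat_lit 0) (XT.lf (nat_lit 0) (nat_lit 3628542578) (nat_lit 420) (nat_lit 5227628877) (nat_lit 84) (nat_lit 2044166199) (nat_lit 40) (nat_lit 5) (nat_lit 45) (nat_lit 5) (nat_lit 41) (nat_lit 5) (nat_lit 336) (nat_lit 282) (nat_lit 243)) (XT.lf (nat_lit 0) (nat_lit 5553029603) (nat_lit 420) (nat_lit 1198917995) (nat_lit 84) (nat_lit 4369745052) (nat_lit 40) (nat_lit 5) (nat_lit 45) (nat_lit 5) (nat_lit 41) (nat_lit 5) (nat_lit 337) (nat_lit 282) (nat_lit 242)))) (XT.nd (nat_lit 188) (nat_lit 0) (nat_lit 0) (XT.nd (nat_lit 94) (nat_lit 0) (nat_lit 0) (XT.lf (nat_lit 0) (nat_lit 2967794617) (nat_lit 252) (nat_lit 4561574970) (nat_lit 336) (nat_lit 3820956135) (nat_lit 37) (nat_lit 5) (nat_lit 40) (nat_lit 5) (nat_lit 41) (nat_lit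 5) (nat_lit 338) (nat_lit 282) (nat_lit 241)) (XT.lf (nat_lit 0) (nat_lit 7242881618) (nat_lit 252) (nat_lit 2300023238) (nat_lit 336) (nat_lit 2044056618) (nat_lit 37) (nat_lit 5) (nat_lit 40) (nat_lit 5) (nat_lit 41) (nat_lit 5) (nat_lit 339) (nat_lit 282) (nat_lit 240))) (XT.nd (nat_lit 49820) (nat_lit 0) (nat_lit 11088) (XT.lf (nat_lit 0) (nat_lit 11583595502) (nat_lit 336) (nat_lit 226742362) (nat_lit 84) (nat_lit 21852032) (nat_lit 37) (nat_lit 5) (nat_lit 41) (nat_lit 5) (nat_lit 38) (nat_lit 5) (nat_lit 340) (nat_lit 282) (nat_lit 239)) (XT.lf (nat_lit 0) (nat_lit 873785129) (nat_lit 252) (nat_lit 1194646918) (nat_lit 252) (nat_lit 1194646918) (nat_lit 169) (nat_lit 4) (nat_lit 172) (nat_lit 5) (nat_lit 172) (nat_lit 4) (nat_lit 295) (nat_lit 283) (nat_lit 283))))) (XT.nd (nat_lit 376) (nat_lit 588) (nat_lit 0) (XT.nd (nat_lit 188) (nat_lit 504) (nat_lit 0) (XT.nd (nat_lit 94) (nat_lit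 336) (nat_lit 0) (XT.lf (nat_lit 0) (nat_lit 58387547) (nat_lit 336) (nat_lit 1909055257) (nat_lit 84) (nat_lit 4582123446) (nat_lit 168) (nat_lit 5) (nat_lit 172) (nat_lit 5) (nat_lit 169) (nat_lit 4) (nat_lit 296) (nat_lit 283) (nat_lit 282)) (XT.lf (nat_lit 0) (nat_lit 985570045) (nat_lit 336) (nat_lit 1466366881) (nat_lit 420) (nat_lit 4124298597) (nat_lit 164) (nat_lit 5) (nat_lit 168) (nat_lit 5) (nat_lit 169) (nat_lit 4) (nat_lit 297) (nat_lit 283) (nat_lit 281))) (XT.nd (nat_lit 94) (nat_lit 504) (nat_lit 0) (XT.lf (nat_lit 0) (nat_lit 3951717084) (nat_lit 336) (nat_lit 899868682) (nat_lit 420) (nat_lit 1755033903) (nat_lit 164) (nat_lit 5) (nat_lit 168) (nat_lit 5) (nat_lit 169) (nat_lit 4) (nat_lit 298) (nat_lit 283) (nat_lit 280)) (XT.lf (nat_lit 0) (nat_lit 311893185) (nat_lit 420) (nat_lit 278031550) (nat_lit 504) (nat_lit 6051141335) (nat_lit 158) (nat_lit 5) (nat_lit 163) (nat_lit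 5) (nat_lit 164) (nat_lit 5) (nat_lit 299) (nat_lit 283) (nat_lit 279)))) (XT.nd (nat_lit 188) (nat_lit 588) (nat_lit 0) (XT.nd (nat_lit 94) (nat_lit 0) (nat_lit 0) (XT.lf (nat_lit 0) (nat_lit 2918016958) (nat_lit 504) (nat_lit 3333052238) (nat_lit 84) (nat_lit 427309894) (nat_lit 158) (nat_lit 5) (nat_lit 164) (nat_lit 5) (nat_lit 159) (nat_lit 4) (nat_lit 300) (nat_lit 283) (nat_lit 278)) (XT.lf (nat_lit 0) (nat_lit 5238969488) (nat_lit 504) (nat_lit 307456119) (nat_lit 84) (nat_lit 1173569522) (nat_lit 158) (nat_lit 5) (nat_lit 164) (nat_lit 5) (nat_lit 159) (nat_lit 4) (nat_lit 301) (nat_lit 283) (nat_lit 277))) (XT.nd (nat_lit 94) (nat_lit 0) (nat_lit 0) (XT.lf (nat_lit 0) (nat_lit 798468654) (nat_lit 588) (nat_lit 3963453109) (nat_lit 84) (nat_lit 2003002033) (nat_lit 151) (nat_lit 5) (nat_lit 158) (nat_lit 5) (nat_lit 152) (nat_lit 5) (nat_lit 302) (nat_lit 283) (nat_lit 276)) (XT.lf (nat_lit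 0) (nat_lit 3041809794) (nat_lit 588) (nat_lit 873436875) (nat_lit 84) (nat_lit 2898514160) (nat_lit 151) (nat_lit 5) (nat_lit 158) (nat_lit 5) (nat_lit 152) (nat_lit 5) (nat_lit 303) (nat_lit 283) (nat_lit 275))))))))
noncomputable def xc9 : XT := (XT.nd (nat_lit 2726) (nat_lit 1008) (nat_lit 0) (XT.nd (nat_lit 1316) (nat_lit 2856) (nat_lit 0) (XT.nd (nat_lit 658) (nat_lit 2688) (nat_lit 0) (XT.nd (nat_lit 282) (nat_lit 1680) (nat_lit 0) (XT.nd (nat_lit 94) (nat_lit 756) (nat_lit 0) (XT.lf (nat_lit 0) (nat_lit 2300125442) (nat_lit 588) (nat_lit 3000475705) (nat_lit 672) (nat_lit 1565796192) (nat_lit 144) (nat_lit 5) (nat_lit 151) (nat_lit 5) (nat_lit 152) (nat_lit 5) (nat_lit 304) (nat_lit 283) (nat_lit 274)) (XT.nd (nat_lit 94) (nat_lit 672) (nat_lit 0) (XT.lf (nat_lit 0) (nat_lit 627158930) (nat_lit 672) (nat_lit 1397062179) (nat_lit 84) (nat_lit 4898885731) (nat_lit 143) (nat_lit 5) (nat_lit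 151) (nat_lit 5) (nat_lit 144) (nat_lit 5) (nat_lit 305) (nat_lit 283) (nat_lit 273)) (XT.lf (nat_lit 0) (nat_lit 1832977625) (nat_lit 672) (nat_lit 966556019) (nat_lit 756) (nat_lit 4183836750) (nat_lit 135) (nat_lit 5) (nat_lit 143) (nat_lit 5) (nat_lit 144) (nat_lit 5) (nat_lit 306) (nat_lit 283) (nat_lit 272)))) (XT.nd (nat_lit 188) (nat_lit 840) (nat_lit 0) (XT.nd (nat_lit 94) (nat_lit 840) (nat_lit 0) (XT.lf (nat_lit 0) (nat_lit 4982798409) (nat_lit 756) (nat_lit 1914338582) (nat_lit 84) (nat_lit 150653856) (nat_lit 135) (nat_lit 5) (nat_lit 144) (nat_lit 5) (nat_lit 136) (nat_lit 5) (nat_lit 307) (nat_lit 283) (nat_lit 271)) (XT.lf (nat_lit 0) (nat_lit 69488193) (nat_lit 840) (nat_lit 5735757792) (nat_lit 84) (nat_lit 1310909173) (nat_lit 125) (nat_lit 5) (nat_lit 135) (nat_lit 5) (nat_lit 126) (nat_lit 5) (nat_lit 308) (nat_lit 283) (nat_lit 270))) (XT.nd (nat_lit 94) (nat_lit 840) (nat_lit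 0) (XT.lf (nat_lit 0) (nat_lit 2177526960) (nat_lit 840) (nat_lit 2449675198) (nat_lit 84) (nat_lit 2560814607) (nat_lit 125) (nat_lit 5) (nat_lit 135) (nat_lit 5) (nat_lit 126) (nat_lit 5) (nat_lit 309) (nat_lit 283) (nat_lit 269)) (XT.lf (nat_lit 0) (nat_lit 897993559) (nat_lit 840) (nat_lit 3394029237) (nat_lit 924) (nat_lit 2972385686) (nat_lit 115) (nat_lit 5) (nat_lit 125) (nat_lit 5) (nat_lit 126) (nat_lit 5) (nat_lit 310) (nat_lit 283) (nat_lit 268))))) (XT.nd (nat_lit 282) (nat_lit 1680) (nat_lit 0) (XT.nd (nat_lit 94) (nat_lit 1008) (nat_lit 0) (XT.lf (nat_lit 0) (nat_lit 4343587903) (nat_lit 840) (nat_lit 2087714735) (nat_lit 924) (nat_lit 913591842) (nat_lit 115) (nat_lit 5) (nat_lit 125) (nat_lit 5) (nat_lit 126) (nat_lit 5) (nat_lit 311) (nat_lit 283) (nat_lit 267)) (XT.nd (nat_lit 94) (nat_lit 0) (nat_lit 0) (XT.lf (nat_lit 0) (nat_lit 406489217) (nat_lit 924) (nat_lit 716770746)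 (nat_lit 1008) (nat_lit 6306582367) (nat_lit 103) (nat_lit 5) (nat_lit 114) (nat_lit 5) (nat_lit 115) (nat_lit 5) (nat_lit 312) (nat_lit 283) (nat_lit 266)) (XT.lf (nat_lit 0) (nat_lit 3178864933) (nat_lit 1008) (nat_lit 3609191176) (nat_lit 84) (nat_lit 730287501) (nat_lit 103) (nat_lit 5) (nat_lit 115) (nat_lit 5) (nat_lit 104) (nat_lit 5) (nat_lit 313) (nat_lit 283) (nat_lit 265)))) (XT.nd (nat_lit 188) (nat_lit 672) (nat_lit 0) (XT.nd (nat_lit 94) (nat_lit 1008) (nat_lit 0) (XT.lf (nat_lit 0) (nat_lit 5243477240) (nat_lit 1008) (nat_lit 154441746) (nat_lit 84) (nat_lit 2213774906) (nat_lit 103) (nat_lit 5) (nat_lit 115) (nat_lit 5) (nat_lit 104) (nat_lit 5) (nat_lit 314) (nat_lit 283) (nat_lit 264)) (XT.lf (nat_lit 0) (nat_lit 3420133895) (nat_lit 1008) (nat_lit 3925705123) (nat_lit 1092) (nat_lit 363309823) (nat_lit 91) (nat_lit 5) (nat_lit 103) (nat_lit 5) (nat_lit 104) (nat_lit 5) (nat_lit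 315) (nat_lit 283) (nat_lit 263))) (XT.nd (nat_lit 94) (nat_lit 588) (nat_lit 0) (XT.lf (nat_lit 0) (nat_lit 1611147215) (nat_lit 1092) (nat_lit 774912857) (nat_lit 84) (nat_lit 5425220844) (nat_lit 90) (nat_lit 5) (nat_lit 103) (nat_lit 5) (nat_lit 91) (nat_lit 5) (nat_lit 316) (nat_lit 283) (nat_lit 262)) (XT.lf (nat_lit 0) (nat_lit 2846261250) (nat_lit 588) (nat_lit 763137119) (nat_lit 672) (nat_lit 4308353621) (nat_lit 83) (nat_lit 5) (nat_lit 90) (nat_lit 5) (nat_lit 91) (nat_lit 5) (nat_lit 317) (nat_lit 283) (nat_lit 261)))))) (XT.nd (nat_lit 658) (nat_lit 1260) (nat_lit 0) (XT.nd (nat_lit 282) (nat_lit 1008) (nat_lit 0) (XT.nd (nat_lit 94) (nat_lit 588) (nat_lit 0) (XT.lf (nat_lit 0) (nat_lit 5629913876) (nat_lit 672) (nat_lit 1497332487) (nat_lit 84) (nat_lit 901858743) (nat_lit 83) (nat_lit 5) (nat_lit 91) (nat_lit 5) (nat_lit 84) (nat_lit 5) (nat_lit 318) (nat_lit 283) (nat_lit 260))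 (XT.nd (nat_lit 94) (nat_lit 84) (nat_lit 0) (XT.lf (nat_lit 0) (nat_lit 2168150827) (nat_lit 504) (nat_lit 5519057320) (nat_lit 588) (nat_lit 457844353) (nat_lit 77) (nat_lit 5) (nat_lit 83) (nat_lit 5) (nat_lit 84) (nat_lit 5) (nat_lit 319) (nat_lit 283) (nat_lit 259)) (XT.lf (nat_lit 0) (nat_lit 1473439386) (nat_lit 588) (nat_lit 2356818209) (nat_lit 84) (nat_lit 4435395953) (nat_lit 76) (nat_lit 5) (nat_lit 83) (nat_lit 5) (nat_lit 77) (nat_lit 5) (nat_lit 320) (nat_lit 283) (nat_lit 258)))) (XT.nd (nat_lit 188) (nat_lit 504) (nat_lit 0) (XT.nd (nat_lit 94) (nat_lit 0) (nat_lit 0) (XT.lf (nat_lit 0) (nat_lit 1343319288) (nat_lit 504) (nat_lit 2071808690) (nat_lit 588) (nat_lit 4976269607) (nat_lit 70) (nat_lit 5) (nat_lit 76) (nat_lit 5) (nat_lit 77) (nat_lit 5) (nat_lit 321) (nat_lit 283) (nat_lit 257)) (XT.lf (nat_lit 0) (nat_lit 5154125859) (nat_lit 504) (nat_lit 235269428) (nat_lit 588)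 (nat_lit 3132802005) (nat_lit 70) (nat_lit 5) (nat_lit 76) (nat_lit 5) (nat_lit 77) (nat_lit 5) (nat_lit 322) (nat_lit 283) (nat_lit 256))) (XT.nd (nat_lit 94) (nat_lit 84) (nat_lit 0) (XT.lf (nat_lit 0) (nat_lit 362652523) (nat_lit 420) (nat_lit 7031598310) (nat_lit 504) (nat_lit 1264042509) (nat_lit 65) (nat_lit 5) (nat_lit 70) (nat_lit 5) (nat_lit 71) (nat_lit 5) (nat_lit 323) (nat_lit 283) (nat_lit 255)) (XT.lf (nat_lit 0) (nat_lit 636762864) (nat_lit 504) (nat_lit 4581411569) (nat_lit 84) (nat_lit 3580893922) (nat_lit 64) (nat_lit 5) (nat_lit 70) (nat_lit 5) (nat_lit 65) (nat_lit 5) (nat_lit 324) (nat_lit 283) (nat_lit 254))))) (XT.nd (nat_lit 376) (nat_lit 504) (nat_lit 0) (XT.nd (nat_lit 188) (nat_lit 336) (nat_lit 0) (XT.nd (nat_lit 94) (nat_lit 420) (nat_lit 0) (XT.lf (nat_lit 0) (nat_lit 2521296837) (nat_lit 504) (nat_lit 818300069) (nat_lit 84) (nat_lit 5605993743) (nat_lit 64) (nat_lit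 5) (nat_lit 70) (nat_lit 5) (nat_lit 65) (nat_lit 5) (nat_lit 325) (nat_lit 283) (nat_lit 253)) (XT.lf (nat_lit 0) (nat_lit 3071627193) (nat_lit 420) (nat_lit 1375627361) (nat_lit 504) (nat_lit 4650186372) (nat_lit 59) (nat_lit 5) (nat_lit 64) (nat_lit 5) (nat_lit 65) (nat_lit 5) (nat_lit 326) (nat_lit 283) (nat_lit 252))) (XT.nd (nat_lit 94) (nat_lit 336) (nat_lit 0) (XT.lf (nat_lit 0) (nat_lit 6401391488) (nat_lit 504) (nat_lit 2213623170) (nat_lit 84) (nat_lit 640212296) (nat_lit 59) (nat_lit 5) (nat_lit 65) (nat_lit 5) (nat_lit 60) (nat_lit 5) (nat_lit 327) (nat_lit 283) (nat_lit 251)) (XT.lf (nat_lit 0) (nat_lit 1685370077) (nat_lit 336) (nat_lit 6716331504) (nat_lit 420) (nat_lit 1016892881) (nat_lit 55) (nat_lit 5) (nat_lit 59) (nat_lit 5) (nat_lit 60) (nat_lit 5) (nat_lit 328) (nat_lit 283) (nat_lit 250)))) (XT.nd (nat_lit 188) (nat_lit 0) (nat_lit 0) (XT.nd (nat_lit 94) (nat_lit 420) (nat_lit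 0) (XT.lf (nat_lit 0) (nat_lit 837644385) (nat_lit 420) (nat_lit 3894984691) (nat_lit 84) (nat_lit 4855028830) (nat_lit 54) (nat_lit 5) (nat_lit 59) (nat_lit 5) (nat_lit 55) (nat_lit 5) (nat_lit 329) (nat_lit 283) (nat_lit 249)) (XT.lf (nat_lit 0) (nat_lit 1533219) (nat_lit 420) (nat_lit 2683361743) (nat_lit 504) (nat_lit 7078320458) (nat_lit 49) (nat_lit 5) (nat_lit 54) (nat_lit 5) (nat_lit 55) (nat_lit 5) (nat_lit 330) (nat_lit 283) (nat_lit 248))) (XT.nd (nat_lit 94) (nat_lit 0) (nat_lit 0) (XT.lf (nat_lit 0) (nat_lit 4051586752) (nat_lit 420) (nat_lit 535628649) (nat_lit 504) (nat_lit 5357283411) (nat_lit 49) (nat_lit 5) (nat_lit 54) (nat_lit 5) (nat_lit 55) (nat_lit 5) (nat_lit 331) (nat_lit 283) (nat_lit 247)) (XT.lf (nat_lit 0) (nat_lit 6523531266) (nat_lit 504) (nat_lit 1970623003) (nat_lit 84) (nat_lit 1638231072) (nat_lit 49) (nat_lit 5) (nat_lit 55) (nat_lit 5) (nat_lit 50) (nat_lit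 5) (nat_lit 332) (nat_lit 283) (nat_lit 246))))))) (XT.nd (nat_lit 50854) (nat_lit 0) (nat_lit 5544) (XT.nd (nat_lit 658) (nat_lit 0) (nat_lit 0) (XT.nd (nat_lit 282) (nat_lit 588) (nat_lit 0) (XT.nd (nat_lit 94) (nat_lit 84) (nat_lit 0) (XT.lf (nat_lit 0) (nat_lit 2061040145) (nat_lit 336) (nat_lit 6444379208) (nat_lit 420) (nat_lit 1821327845) (nat_lit 45) (nat_lit 5) (nat_lit 49) (nat_lit 5) (nat_lit 50) (nat_lit 5) (nat_lit 333) (nat_lit 283) (nat_lit 245)) (XT.nd (nat_lit 94) (nat_lit 0) (nat_lit 0) (XT.lf (nat_lit 0) (nat_lit 1720350) (nat_lit 420) (nat_lit 4316253858) (nat_lit 84) (nat_lit 6209947331) (nat_lit 44) (nat_lit 5) (nat_lit 49) (nat_lit 5) (nat_lit 45) (nat_lit 5) (nat_lit 334) (nat_lit 283) (nat_lit 244)) (XT.lf (nat_lit 0) (nat_lit 1804424017) (nat_lit 420) (nat_lit 310321884) (nat_lit 84) (nat_lit 8621403757) (nat_lit 44) (nat_lit 5) (nat_lit 49) (nat_lit 5) (nat_lit 45) (nat_lit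 5) (nat_lit 335) (nat_lit 283) (nat_lit 243)))) (XT.nd (nat_lit 188) (nat_lit 252) (nat_lit 0) (XT.nd (nat_lit 94) (nat_lit 0) (nat_lit 0) (XT.lf (nat_lit 0) (nat_lit 3665232621) (nat_lit 420) (nat_lit 7101377985) (nat_lit 84) (nat_lit 184332867) (nat_lit 40) (nat_lit 5) (nat_lit 45) (nat_lit 5) (nat_lit 41) (nat_lit 5) (nat_lit 336) (nat_lit 283) (nat_lit 242)) (XT.lf (nat_lit 0) (nat_lit 5571380390) (nat_lit 420) (nat_lit 3095652211) (nat_lit 84) (nat_lit 2505920096) (nat_lit 40) (nat_lit 5) (nat_lit 45) (nat_lit 5) (nat_lit 41) (nat_lit 5) (nat_lit 337) (nat_lit 283) (nat_lit 241))) (XT.nd (nat_lit 94) (nat_lit 0) (nat_lit 0) (XT.lf (nat_lit 0) (nat_lit 1009307251) (nat_lit 252) (nat_lit 6501196853) (nat_lit 336) (nat_lit 3892318505) (nat_lit 37) (nat_lit 5) (nat_lit 40) (nat_lit 5) (nat_lit 41) (nat_lit 5) (nat_lit 338) (nat_lit 283) (nat_lit 240)) (XT.lf (nat_lit 0) (nat_lit 5262325965) (nat_lit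 252) (nat_lit 4244241498) (nat_lit 336) (nat_lit 2133513163) (nat_lit 37) (nat_lit 5) (nat_lit 40) (nat_lit 5) (nat_lit 41) (nat_lit 5) (nat_lit 339) (nat_lit 283) (nat_lit 239))))) (XT.nd (nat_lit 49820) (nat_lit 0) (nat_lit 10584) (XT.nd (nat_lit 49632) (nat_lit 0) (nat_lit 11340) (XT.lf (nat_lit 0) (nat_lit 9603715230) (nat_lit 252) (nat_lit 1926375078) (nat_lit 336) (nat_lit 355829151) (nat_lit 37) (nat_lit 5) (nat_lit 40) (nat_lit 5) (nat_lit 41) (nat_lit 5) (nat_lit 340) (nat_lit 283) (nat_lit 238)) (XT.nd (nat_lit 94) (nat_lit 0) (nat_lit 0) (XT.lf (nat_lit 0) (nat_lit 661650362) (nat_lit 252) (nat_lit 1921214140) (nat_lit 0) (nat_lit 661650362) (nat_lit 172) (nat_lit 5) (nat_lit 175) (nat_lit 4) (nat_lit 172) (nat_lit 4) (nat_lit 293) (nat_lit 284) (nat_lit 284)) (XT.lf (nat_lit 0) (nat_lit 3752014763) (nat_lit 252) (nat_lit 1093127923) (nat_lit 0) (nat_lit 1661517546) (nat_lit 172) (nat_lit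 5) (nat_lit 175) (nat_lit 4) (nat_lit 172) (nat_lit 4) (nat_lit 294) (nat_lit 284) (nat_lit 283)))) (XT.nd (nat_lit 188) (nat_lit 420) (nat_lit 0) (XT.nd (nat_lit 94) (nat_lit 84) (nat_lit 0) (XT.lf (nat_lit 0) (nat_lit 1718824132) (nat_lit 252) (nat_lit 4463641212) (nat_lit 252) (nat_lit 345503629) (nat_lit 169) (nat_lit 4) (nat_lit 172) (nat_lit 5) (nat_lit 172) (nat_lit 4) (nat_lit 295) (nat_lit 284) (nat_lit 282)) (XT.lf (nat_lit 0) (nat_lit 2016610054) (nat_lit 336) (nat_lit 1989076050) (nat_lit 84) (nat_lit 2546833194) (nat_lit 168) (nat_lit 5) (nat_lit 172) (nat_lit 5) (nat_lit 169) (nat_lit 4) (nat_lit 296) (nat_lit 284) (nat_lit 281))) (XT.nd (nat_lit 94) (nat_lit 84) (nat_lit 0) (XT.lf (nat_lit 0) (nat_lit 875010401) (nat_lit 336) (nat_lit 3490997095) (nat_lit 420) (nat_lit 2214932358) (nat_lit 164) (nat_lit 5) (nat_lit 168) (nat_lit 5) (nat_lit 169) (nat_lit 4) (nat_lit 297) (nat_lit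 284) (nat_lit 280)) (XT.lf (nat_lit 0) (nat_lit 108390730) (nat_lit 420) (nat_lit 2800962881) (nat_lit 84) (nat_lit 3703610638) (nat_lit 163) (nat_lit 5) (nat_lit 168) (nat_lit 5) (nat_lit 164) (nat_lit 5) (nat_lit 298) (nat_lit 284) (nat_lit 279)))))) (XT.nd (nat_lit 658) (nat_lit 3360) (nat_lit 0) (XT.nd (nat_lit 282) (nat_lit 1176) (nat_lit 0) (XT.nd (nat_lit 94) (nat_lit 84) (nat_lit 0) (XT.lf (nat_lit 0) (nat_lit 116092408) (nat_lit 420) (nat_lit 2258410292) (nat_lit 504) (nat_lit 4274065413) (nat_lit 158) (nat_lit 5) (nat_lit 163) (nat_lit 5) (nat_lit 164) (nat_lit 5) (nat_lit 299) (nat_lit 284) (nat_lit 278)) (XT.nd (nat_lit 94) (nat_lit 84) (nat_lit 0) (XT.lf (nat_lit 0) (nat_lit 3125888314) (nat_lit 420) (nat_lit 1531806614) (nat_lit 504) (nat_lit 2029916701) (nat_lit 158) (nat_lit 5) (nat_lit 163) (nat_lit 5) (nat_lit 164) (nat_lit 5) (nat_lit 300) (nat_lit 284) (nat_lit 277)) (XT.lf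 (nat_lit 0) (nat_lit 196683866) (nat_lit 504) (nat_lit 559364773) (nat_lit 84) (nat_lit 5974899895) (nat_lit 157) (nat_lit 5) (nat_lit 163) (nat_lit 5) (nat_lit 158) (nat_lit 5) (nat_lit 301) (nat_lit 284) (nat_lit 276)))) (XT.nd (nat_lit 188) (nat_lit 672) (nat_lit 0) (XT.nd (nat_lit 94) (nat_lit 0) (nat_lit 0) (XT.lf (nat_lit 0) (nat_lit 2397219861) (nat_lit 588) (nat_lit 4268480293) (nat_lit 84) (nat_lit 111553245) (nat_lit 151) (nat_lit 5) (nat_lit 158) (nat_lit 5) (nat_lit 152) (nat_lit 5) (nat_lit 302) (nat_lit 284) (nat_lit 275)) (XT.lf (nat_lit 0) (nat_lit 4602692517) (nat_lit 588) (nat_lit 1207310352) (nat_lit 84) (nat_lit 1017561159) (nat_lit 151) (nat_lit 5) (nat_lit 158) (nat_lit 5) (nat_lit 152) (nat_lit 5) (nat_lit 303) (nat_lit 284) (nat_lit 274))) (XT.nd (nat_lit 94) (nat_lit 84) (nat_lit 0) (XT.lf (nat_lit 0) (nat_lit 1930832592) (nat_lit 588) (nat_lit 4890257989) (nat_lit 672)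 (nat_lit 60652809) (nat_lit 144) (nat_lit 5) (nat_lit 151) (nat_lit 5) (nat_lit 152) (nat_lit 5) (nat_lit 304) (nat_lit 284) (nat_lit 273)) (XT.lf (nat_lit 0) (nat_lit 2065433398) (nat_lit 672) (nat_lit 1825352830) (nat_lit 84) (nat_lit 3048610093) (nat_lit 143) (nat_lit 5) (nat_lit 151) (nat_lit 5) (nat_lit 144) (nat_lit 5) (nat_lit 305) (nat_lit 284) (nat_lit 272))))) (XT.nd (nat_lit 376) (nat_lit 1848) (nat_lit 0) (XT.nd (nat_lit 188) (nat_lit 840) (nat_lit 0) (XT.nd (nat_lit 94) (nat_lit 0) (nat_lit 0) (XT.lf (nat_lit 0) (nat_lit 1367450669) (nat_lit 672) (nat_lit 2830294519) (nat_lit 756) (nat_lit 2803421861) (nat_lit 135) (nat_lit 5) (nat_lit 143) (nat_lit 5) (nat_lit 144) (nat_lit 5) (nat_lit 306) (nat_lit 284) (nat_lit 271)) (XT.lf (nat_lit 0) (nat_lit 4641922880) (nat_lit 672) (nat_lit 1702909203) (nat_lit 756) (nat_lit 722134181) (nat_lit 135) (nat_lit 5) (nat_lit 143) (nat_lit 5) (nat_lit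 144) (nat_lit 5) (nat_lit 307) (nat_lit 284) (nat_lit 270))) (XT.nd (nat_lit 94) (nat_lit 0) (nat_lit 0) (XT.lf (nat_lit 0) (nat_lit 829446456) (nat_lit 756) (nat_lit 504313262) (nat_lit 840) (nat_lit 5802997373) (nat_lit 125) (nat_lit 5) (nat_lit 134) (nat_lit 5) (nat_lit 135) (nat_lit 5) (nat_lit 308) (nat_lit 284) (nat_lit 269)) (XT.lf (nat_lit 0) (nat_lit 3403412898) (nat_lit 840) (nat_lit 3044967174) (nat_lit 84) (nat_lit 761663313) (nat_lit 125) (nat_lit 5) (nat_lit 135) (nat_lit 5) (nat_lit 126) (nat_lit 5) (nat_lit 309) (nat_lit 284) (nat_lit 268)))) (XT.nd (nat_lit 188) (nat_lit 924) (nat_lit 0) (XT.nd (nat_lit 94) (nat_lit 84) (nat_lit 0) (XT.lf (nat_lit 0) (nat_lit 262010163) (nat_lit 840) (nat_lit 5217210548) (nat_lit 924) (nat_lit 1808641396) (nat_lit 115) (nat_lit 5) (nat_lit 125) (nat_lit 5) (nat_lit 126) (nat_lit 5) (nat_lit 310) (nat_lit 284) (nat_lit 267)) (XT.lf (nat_lit 0) (nat_lit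 212892876) (nat_lit 924) (nat_lit 3691697366) (nat_lit 84) (nat_lit 3464893931) (nat_lit 114) (nat_lit 5) (nat_lit 125) (nat_lit 5) (nat_lit 115) (nat_lit 5) (nat_lit 311) (nat_lit 284) (nat_lit 266))) (XT.nd (nat_lit 94) (nat_lit 924) (nat_lit 0) (XT.lf (nat_lit 0) (nat_lit 2196054637) (nat_lit 924) (nat_lit 328770492) (nat_lit 84) (nat_lit 4930627473) (nat_lit 114) (nat_lit 5) (nat_lit 125) (nat_lit 5) (nat_lit 115) (nat_lit 5) (nat_lit 312) (nat_lit 284) (nat_lit 265)) (XT.lf (nat_lit 0) (nat_lit 3147418696) (nat_lit 924) (nat_lit 1062936580) (nat_lit 1008) (nat_lit 3335080544) (nat_lit 103) (nat_lit 5) (nat_lit 114) (nat_lit 5) (nat_lit 115) (nat_lit 5) (nat_lit 313) (nat_lit 284) (nat_lit 264))))))))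
noncomputable def xc10 : XT := (XT.nd (nat_lit 52170) (nat_lit 0) (nat_lit 2772) (XT.nd (nat_lit 1316) (nat_lit 1848) (nat_lit 0) (XT.nd (nat_lit 658) (nat_lit 1428) (nat_lit 0) (XT.nd (nat_lit 282) (nat_lit 1176) (nat_lit 0) (XT.nd (nat_lit 94) (nat_lit 1092) (nat_lit 0) (XT.lf (nat_lit 0) (nat_lit 6234791579) (nat_lit 1008) (nat_lit 960384038) (nat_lit 84) (nat_lit 445051387) (nat_lit 103) (nat_lit 5) (nat_lit 115) (nat_lit 5) (nat_lit 104) (nat_lit 5) (nat_lit 314) (nat_lit 284) (nat_lit 263)) (XT.nd (nat_lit 94) (nat_lit 0) (nat_lit 0) (XT.lf (nat_lit 0) (nat_lit 549655816) (nat_lit 1092) (nat_lit 5174349602) (nat_lit 84) (nat_lit 2014845916) (nat_lit 90) (nat_lit 5) (nat_lit 103) (nat_lit 5) (nat_lit 91) (nat_lit 5) (nat_lit 315) (nat_lit 284) (nat_lit 262)) (XT.lf (nat_lit 0) (nat_lit 2488185134) (nat_lit 1092) (nat_lit 1691175649) (nat_lit 84) (nat_lit 3662576082) (nat_lit 90) (nat_lit 5)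 (nat_lit 103) (nat_lit 5) (nat_lit 91) (nat_lit 5) (nat_lit 316) (nat_lit 284) (nat_lit 261)))) (XT.nd (nat_lit 188) (nat_lit 588) (nat_lit 0) (XT.nd (nat_lit 94) (nat_lit 0) (nat_lit 0) (XT.lf (nat_lit 0) (nat_lit 1884110788) (nat_lit 588) (nat_lit 2565033188) (nat_lit 672) (nat_lit 3500593002) (nat_lit 83) (nat_lit 5) (nat_lit 90) (nat_lit 5) (nat_lit 91) (nat_lit 5) (nat_lit 317) (nat_lit 284) (nat_lit 260)) (XT.lf (nat_lit 0) (nat_lit 5552801547) (nat_lit 588) (nat_lit 880553834) (nat_lit 672) (nat_lit 1629027918) (nat_lit 83) (nat_lit 5) (nat_lit 90) (nat_lit 5) (nat_lit 91) (nat_lit 5) (nat_lit 318) (nat_lit 284) (nat_lit 259))) (XT.nd (nat_lit 94) (nat_lit 0) (nat_lit 0) (XT.lf (nat_lit 0) (nat_lit 259891510) (nat_lit 588) (nat_lit 7065510671) (nat_lit 84) (nat_lit 854420486) (nat_lit 76) (nat_lit 5) (nat_lit 83) (nat_lit 5) (nat_lit 77) (nat_lit 5) (nat_lit 319) (nat_lit 284) (nat_lit 258))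 (XT.lf (nat_lit 0) (nat_lit 2155717160) (nat_lit 588) (nat_lit 3476828151) (nat_lit 84) (nat_lit 2668703939) (nat_lit 76) (nat_lit 5) (nat_lit 83) (nat_lit 5) (nat_lit 77) (nat_lit 5) (nat_lit 320) (nat_lit 284) (nat_lit 257))))) (XT.nd (nat_lit 282) (nat_lit 924) (nat_lit 0) (XT.nd (nat_lit 94) (nat_lit 0) (nat_lit 0) (XT.lf (nat_lit 0) (nat_lit 173692497) (nat_lit 504) (nat_lit 3886665653) (nat_lit 588) (nat_lit 4367932103) (nat_lit 70) (nat_lit 5) (nat_lit 76) (nat_lit 5) (nat_lit 77) (nat_lit 5) (nat_lit 321) (nat_lit 284) (nat_lit 256)) (XT.nd (nat_lit 94) (nat_lit 0) (nat_lit 0) (XT.lf (nat_lit 0) (nat_lit 3958711340) (nat_lit 504) (nat_lit 2050978613) (nat_lit 588) (nat_lit 2550317033) (nat_lit 70) (nat_lit 5) (nat_lit 76) (nat_lit 5) (nat_lit 77) (nat_lit 5) (nat_lit 322) (nat_lit 284) (nat_lit 255)) (XT.lf (nat_lit 0) (nat_lit 7810265695) (nat_lit 504) (nat_lit 160064094) (nat_lit 588)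 (nat_lit 727283628) (nat_lit 70) (nat_lit 5) (nat_lit 76) (nat_lit 5) (nat_lit 77) (nat_lit 5) (nat_lit 323) (nat_lit 284) (nat_lit 254)))) (XT.nd (nat_lit 188) (nat_lit 420) (nat_lit 0) (XT.nd (nat_lit 94) (nat_lit 0) (nat_lit 0) (XT.lf (nat_lit 0) (nat_lit 1127947789) (nat_lit 504) (nat_lit 5919159383) (nat_lit 84) (nat_lit 1792325156) (nat_lit 64) (nat_lit 5) (nat_lit 70) (nat_lit 5) (nat_lit 65) (nat_lit 5) (nat_lit 324) (nat_lit 284) (nat_lit 253)) (XT.lf (nat_lit 0) (nat_lit 2989110156) (nat_lit 504) (nat_lit 2181516685) (nat_lit 84) (nat_lit 3816179770) (nat_lit 64) (nat_lit 5) (nat_lit 70) (nat_lit 5) (nat_lit 65) (nat_lit 5) (nat_lit 325) (nat_lit 284) (nat_lit 252))) (XT.nd (nat_lit 94) (nat_lit 0) (nat_lit 0) (XT.lf (nat_lit 0) (nat_lit 1655169096) (nat_lit 420) (nat_lit 3223178467) (nat_lit 504) (nat_lit 4261571290) (nat_lit 59) (nat_lit 5) (nat_lit 64) (nat_lit 5) (nat_lit 65) (nat_lit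 5) (nat_lit 326) (nat_lit 284) (nat_lit 251)) (XT.lf (nat_lit 0) (nat_lit 5607375279) (nat_lit 420) (nat_lit 1196397802) (nat_lit 504) (nat_lit 2494941773) (nat_lit 59) (nat_lit 5) (nat_lit 64) (nat_lit 5) (nat_lit 65) (nat_lit 5) (nat_lit 327) (nat_lit 284) (nat_lit 250)))))) (XT.nd (nat_lit 658) (nat_lit 588) (nat_lit 0) (XT.nd (nat_lit 282) (nat_lit 840) (nat_lit 0) (XT.nd (nat_lit 94) (nat_lit 84) (nat_lit 0) (XT.lf (nat_lit 0) (nat_lit 164396874) (nat_lit 336) (nat_lit 8591146816) (nat_lit 420) (nat_lit 708159708) (nat_lit 55) (nat_lit 5) (nat_lit 59) (nat_lit 5) (nat_lit 60) (nat_lit 5) (nat_lit 328) (nat_lit 284) (nat_lit 249)) (XT.nd (nat_lit 94) (nat_lit 0) (nat_lit 0) (XT.lf (nat_lit 0) (nat_lit 1118655895) (nat_lit 420) (nat_lit 5488914180) (nat_lit 84) (nat_lit 3025877790) (nat_lit 54) (nat_lit 5) (nat_lit 59) (nat_lit 5) (nat_lit 55) (nat_lit 5) (nat_lit 329) (nat_lit 284) (nat_lit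 248)) (XT.lf (nat_lit 0) (nat_lit 2945036385) (nat_lit 420) (nat_lit 1616466617) (nat_lit 84) (nat_lit 5248255481) (nat_lit 54) (nat_lit 5) (nat_lit 59) (nat_lit 5) (nat_lit 55) (nat_lit 5) (nat_lit 330) (nat_lit 284) (nat_lit 247)))) (XT.nd (nat_lit 188) (nat_lit 420) (nat_lit 0) (XT.nd (nat_lit 94) (nat_lit 0) (nat_lit 0) (XT.lf (nat_lit 0) (nat_lit 2376552968) (nat_lit 420) (nat_lit 2433974709) (nat_lit 504) (nat_lit 5181758846) (nat_lit 49) (nat_lit 5) (nat_lit 54) (nat_lit 5) (nat_lit 55) (nat_lit 5) (nat_lit 331) (nat_lit 284) (nat_lit 246)) (XT.lf (nat_lit 0) (nat_lit 6480747746) (nat_lit 420) (nat_lit 229661608) (nat_lit 504) (nat_lit 3470993003) (nat_lit 49) (nat_lit 5) (nat_lit 54) (nat_lit 5) (nat_lit 55) (nat_lit 5) (nat_lit 332) (nat_lit 284) (nat_lit 245))) (XT.nd (nat_lit 94) (nat_lit 84) (nat_lit 0) (XT.lf (nat_lit 0) (nat_lit 274237571) (nat_lit 336) (nat_lit 8378773434) (nat_lit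 420) (nat_lit 1724067934) (nat_lit 45) (nat_lit 5) (nat_lit 49) (nat_lit 5) (nat_lit 50) (nat_lit 5) (nat_lit 333) (nat_lit 284) (nat_lit 244)) (XT.lf (nat_lit 0) (nat_lit 77805644) (nat_lit 420) (nat_lit 6177655008) (nat_lit 84) (nat_lit 4323449492) (nat_lit 44) (nat_lit 5) (nat_lit 49) (nat_lit 5) (nat_lit 45) (nat_lit 5) (nat_lit 334) (nat_lit 284) (nat_lit 243))))) (XT.nd (nat_lit 376) (nat_lit 252) (nat_lit 0) (XT.nd (nat_lit 188) (nat_lit 0) (nat_lit 0) (XT.nd (nat_lit 94) (nat_lit 336) (nat_lit 0) (XT.lf (nat_lit 0) (nat_lit 1861872022) (nat_lit 420) (nat_lit 2194324396) (nat_lit 84) (nat_lit 6731607971) (nat_lit 44) (nat_lit 5) (nat_lit 49) (nat_lit 5) (nat_lit 45) (nat_lit 5) (nat_lit 335) (nat_lit 284) (nat_lit 242)) (XT.lf (nat_lit 0) (nat_lit 1906375533) (nat_lit 336) (nat_lit 1777066209) (nat_lit 420) (nat_lit 7320458577) (nat_lit 40) (nat_lit 5) (nat_lit 44) (nat_lit 5) (nat_lit 45)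 (nat_lit 5) (nat_lit 336) (nat_lit 284) (nat_lit 241))) (XT.nd (nat_lit 94) (nat_lit 0) (nat_lit 0) (XT.lf (nat_lit 0) (nat_lit 5554172962) (nat_lit 420) (nat_lit 5096464290) (nat_lit 84) (nat_lit 576453340) (nat_lit 40) (nat_lit 5) (nat_lit 45) (nat_lit 5) (nat_lit 41) (nat_lit 5) (nat_lit 337) (nat_lit 284) (nat_lit 240)) (XT.lf (nat_lit 0) (nat_lit 7466031233) (nat_lit 420) (nat_lit 1033463780) (nat_lit 84) (nat_lit 2958391354) (nat_lit 40) (nat_lit 5) (nat_lit 45) (nat_lit 5) (nat_lit 41) (nat_lit 5) (nat_lit 338) (nat_lit 284) (nat_lit 239)))) (XT.nd (nat_lit 49632) (nat_lit 0) (nat_lit 11340) (XT.nd (nat_lit 49538) (nat_lit 0) (nat_lit 11592) (XT.lf (nat_lit 0) (nat_lit 3176900057) (nat_lit 252) (nat_lit 6257785075) (nat_lit 336) (nat_lit 2261387156) (nat_lit 37) (nat_lit 5) (nat_lit 40) (nat_lit 5) (nat_lit 41) (nat_lit 5) (nat_lit 339) (nat_lit 284) (nat_lit 238)) (XT.lf (nat_lit 0) (nat_lit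 1858964895) (nat_lit 84) (nat_lit 686191891) (nat_lit 84) (nat_lit 686191891) (nat_lit 175) (nat_lit 4) (nat_lit 176) (nat_lit 5) (nat_lit 176) (nat_lit 4) (nat_lit 291) (nat_lit 285) (nat_lit 285))) (XT.nd (nat_lit 94) (nat_lit 168) (nat_lit 0) (XT.lf (nat_lit 0) (nat_lit 1044696219) (nat_lit 168) (nat_lit 100338989) (nat_lit 84) (nat_lit 5330170467) (nat_lit 174) (nat_lit 5) (nat_lit 176) (nat_lit 5) (nat_lit 175) (nat_lit 4) (nat_lit 292) (nat_lit 285) (nat_lit 284)) (XT.lf (nat_lit 0) (nat_lit 2610931351) (nat_lit 168) (nat_lit 829911087) (nat_lit 252) (nat_lit 3049790146) (nat_lit 172) (nat_lit 5) (nat_lit 174) (nat_lit 5) (nat_lit 175) (nat_lit 4) (nat_lit 293) (nat_lit 285) (nat_lit 283))))))) (XT.nd (nat_lit 1316) (nat_lit 5376) (nat_lit 0) (XT.nd (nat_lit 658) (nat_lit 2016) (nat_lit 0) (XT.nd (nat_lit 282) (nat_lit 840) (nat_lit 0) (XT.nd (nat_lit 94) (nat_lit 336) (nat_lit 0) (XT.lf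 (nat_lit 0) (nat_lit 5355218197) (nat_lit 168) (nat_lit 466118610) (nat_lit 252) (nat_lit 688840355) (nat_lit 172) (nat_lit 5) (nat_lit 174) (nat_lit 5) (nat_lit 175) (nat_lit 4) (nat_lit 294) (nat_lit 285) (nat_lit 282)) (XT.nd (nat_lit 94) (nat_lit 0) (nat_lit 0) (XT.lf (nat_lit 0) (nat_lit 1615268416) (nat_lit 252) (nat_lit 20934275) (nat_lit 336) (nat_lit 4896681207) (nat_lit 168) (nat_lit 5) (nat_lit 171) (nat_lit 5) (nat_lit 172) (nat_lit 5) (nat_lit 295) (nat_lit 285) (nat_lit 281)) (XT.lf (nat_lit 0) (nat_lit 3948092405) (nat_lit 336) (nat_lit 2129077780) (nat_lit 84) (nat_lit 481881509) (nat_lit 168) (nat_lit 5) (nat_lit 172) (nat_lit 5) (nat_lit 169) (nat_lit 4) (nat_lit 296) (nat_lit 285) (nat_lit 280)))) (XT.nd (nat_lit 188) (nat_lit 420) (nat_lit 0) (XT.nd (nat_lit 94) (nat_lit 84) (nat_lit 0) (XT.lf (nat_lit 0) (nat_lit 704105254) (nat_lit 336) (nat_lit 5549928600) (nat_lit 420) (nat_lit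 335156603) (nat_lit 164) (nat_lit 5) (nat_lit 168) (nat_lit 5) (nat_lit 169) (nat_lit 4) (nat_lit 297) (nat_lit 285) (nat_lit 279)) (XT.lf (nat_lit 0) (nat_lit 1908748914) (nat_lit 420) (nat_lit 3027151617) (nat_lit 84) (nat_lit 1686373209) (nat_lit 163) (nat_lit 5) (nat_lit 168) (nat_lit 5) (nat_lit 164) (nat_lit 5) (nat_lit 298) (nat_lit 285) (nat_lit 278))) (XT.nd (nat_lit 94) (nat_lit 420) (nat_lit 0) (XT.lf (nat_lit 0) (nat_lit 4133414103) (nat_lit 420) (nat_lit 139967218) (nat_lit 84) (nat_lit 2386119728) (nat_lit 163) (nat_lit 5) (nat_lit 168) (nat_lit 5) (nat_lit 164) (nat_lit 5) (nat_lit 299) (nat_lit 285) (nat_lit 277)) (XT.lf (nat_lit 0) (nat_lit 2839697520) (nat_lit 420) (nat_lit 3536137874) (nat_lit 504) (nat_lit 324301485) (nat_lit 158) (nat_lit 5) (nat_lit 163) (nat_lit 5) (nat_lit 164) (nat_lit 5) (nat_lit 300) (nat_lit 285) (nat_lit 276))))) (XT.nd (nat_lit 282) (nat_lit 1428)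 (nat_lit 0) (XT.nd (nat_lit 94) (nat_lit 504) (nat_lit 0) (XT.lf (nat_lit 0) (nat_lit 1829061614) (nat_lit 504) (nat_lit 902542712) (nat_lit 84) (nat_lit 4012858969) (nat_lit 157) (nat_lit 5) (nat_lit 163) (nat_lit 5) (nat_lit 158) (nat_lit 5) (nat_lit 301) (nat_lit 285) (nat_lit 275)) (XT.nd (nat_lit 94) (nat_lit 0) (nat_lit 0) (XT.lf (nat_lit 0) (nat_lit 2132439970) (nat_lit 504) (nat_lit 1854579149) (nat_lit 588) (nat_lit 2805368646) (nat_lit 151) (nat_lit 5) (nat_lit 157) (nat_lit 5) (nat_lit 158) (nat_lit 5) (nat_lit 302) (nat_lit 285) (nat_lit 274)) (XT.lf (nat_lit 0) (nat_lit 5226934005) (nat_lit 504) (nat_lit 919552330) (nat_lit 588) (nat_lit 697928888) (nat_lit 151) (nat_lit 5) (nat_lit 157) (nat_lit 5) (nat_lit 158) (nat_lit 5) (nat_lit 303) (nat_lit 285) (nat_lit 273)))) (XT.nd (nat_lit 188) (nat_lit 756) (nat_lit 0) (XT.nd (nat_lit 94) (nat_lit 0) (nat_lit 0) (XT.lf (nat_lit 0) (nat_lit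 1386886557) (nat_lit 672) (nat_lit 5420597316) (nat_lit 84) (nat_lit 92478922) (nat_lit 143) (nat_lit 5) (nat_lit 151) (nat_lit 5) (nat_lit 144) (nat_lit 5) (nat_lit 304) (nat_lit 285) (nat_lit 272)) (XT.lf (nat_lit 0) (nat_lit 3476305907) (nat_lit 672) (nat_lit 2323498005) (nat_lit 84) (nat_lit 1159157175) (nat_lit 143) (nat_lit 5) (nat_lit 151) (nat_lit 5) (nat_lit 144) (nat_lit 5) (nat_lit 305) (nat_lit 285) (nat_lit 271))) (XT.nd (nat_lit 94) (nat_lit 84) (nat_lit 0) (XT.lf (nat_lit 0) (nat_lit 831487660) (nat_lit 672) (nat_lit 4737434129) (nat_lit 756) (nat_lit 1453297847) (nat_lit 135) (nat_lit 5) (nat_lit 143) (nat_lit 5) (nat_lit 144) (nat_lit 5) (nat_lit 306) (nat_lit 285) (nat_lit 270)) (XT.lf (nat_lit 0) (nat_lit 581138289) (nat_lit 756) (nat_lit 3015979756) (nat_lit 84) (nat_lit 3492009863) (nat_lit 134) (nat_lit 5) (nat_lit 143) (nat_lit 5) (nat_lit 135) (nat_lit 5) (nat_lit 307) (nat_lit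 285) (nat_lit 269)))))) (XT.nd (nat_lit 658) (nat_lit 2772) (nat_lit 0) (XT.nd (nat_lit 282) (nat_lit 1848) (nat_lit 0) (XT.nd (nat_lit 94) (nat_lit 0) (nat_lit 0) (XT.lf (nat_lit 0) (nat_lit 191637570) (nat_lit 756) (nat_lit 2391347425) (nat_lit 840) (nat_lit 4577170833) (nat_lit 125) (nat_lit 5) (nat_lit 134) (nat_lit 5) (nat_lit 135) (nat_lit 5) (nat_lit 308) (nat_lit 285) (nat_lit 268)) (XT.nd (nat_lit 94) (nat_lit 0) (nat_lit 0) (XT.lf (nat_lit 0) (nat_lit 3508631018) (nat_lit 756) (nat_lit 1103858972) (nat_lit 840) (nat_lit 2622424401) (nat_lit 125) (nat_lit 5) (nat_lit 134) (nat_lit 5) (nat_lit 135) (nat_lit 5) (nat_lit 309) (nat_lit 285) (nat_lit 267)) (XT.lf (nat_lit 0) (nat_lit 6643342792) (nat_lit 840) (nat_lit 440674084) (nat_lit 84) (nat_lit 230330673) (nat_lit 125) (nat_lit 5) (nat_lit 135) (nat_lit 5) (nat_lit 126) (nat_lit 5) (nat_lit 310) (nat_lit 285) (nat_lit 266)))) (XT.nd (nat_lit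 188) (nat_lit 924) (nat_lit 0) (XT.nd (nat_lit 94) (nat_lit 0) (nat_lit 0) (XT.lf (nat_lit 0) (nat_lit 1291850831) (nat_lit 924) (nat_lit 4468922514) (nat_lit 84) (nat_lit 1636162663) (nat_lit 114) (nat_lit 5) (nat_lit 125) (nat_lit 5) (nat_lit 115) (nat_lit 5) (nat_lit 311) (nat_lit 285) (nat_lit 265)) (XT.lf (nat_lit 0) (nat_lit 3244701455) (nat_lit 924) (nat_lit 1132781406) (nat_lit 84) (nat_lit 3106562725) (nat_lit 114) (nat_lit 5) (nat_lit 125) (nat_lit 5) (nat_lit 115) (nat_lit 5) (nat_lit 312) (nat_lit 285) (nat_lit 264))) (XT.nd (nat_lit 94) (nat_lit 0) (nat_lit 0) (XT.lf (nat_lit 0) (nat_lit 2300361084) (nat_lit 924) (nat_lit 2920838349) (nat_lit 1008) (nat_lit 2354196699) (nat_lit 103) (nat_lit 5) (nat_lit 114) (nat_lit 5) (nat_lit 115) (nat_lit 5) (nat_lit 313) (nat_lit 285) (nat_lit 263)) (XT.lf (nat_lit 0) (nat_lit 5811713431) (nat_lit 924) (nat_lit 1400645682) (nat_lit 1008) (nat_lit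 459049345) (nat_lit 103) (nat_lit 5) (nat_lit 114) (nat_lit 5) (nat_lit 115) (nat_lit 5) (nat_lit 314) (nat_lit 285) (nat_lit 262))))) (XT.nd (nat_lit 376) (nat_lit 1092) (nat_lit 0) (XT.nd (nat_lit 188) (nat_lit 588) (nat_lit 0) (XT.nd (nat_lit 94) (nat_lit 0) (nat_lit 0) (XT.lf (nat_lit 0) (nat_lit 1425274073) (nat_lit 1092) (nat_lit 6146340599) (nat_lit 84) (nat_lit 199908128) (nat_lit 90) (nat_lit 5) (nat_lit 103) (nat_lit 5) (nat_lit 91) (nat_lit 5) (nat_lit 315) (nat_lit 285) (nat_lit 261)) (XT.lf (nat_lit 0) (nat_lit 3336055732) (nat_lit 1092) (nat_lit 2689669128) (nat_lit 84) (nat_lit 1849916627) (nat_lit 90) (nat_lit 5) (nat_lit 103) (nat_lit 5) (nat_lit 91) (nat_lit 5) (nat_lit 316) (nat_lit 285) (nat_lit 260))) (XT.nd (nat_lit 94) (nat_lit 0) (nat_lit 0) (XT.lf (nat_lit 0) (nat_lit 838852068) (nat_lit 588) (nat_lit 4420880063) (nat_lit 672) (nat_lit 2725033000) (nat_lit 83) (nat_lit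 5) (nat_lit 90) (nat_lit 5) (nat_lit 91) (nat_lit 5) (nat_lit 317) (nat_lit 285) (nat_lit 259)) (XT.lf (nat_lit 0) (nat_lit 4482097464) (nat_lit 588) (nat_lit 2735489532) (nat_lit 672) (nat_lit 880804241) (nat_lit 83) (nat_lit 5) (nat_lit 90) (nat_lit 5) (nat_lit 91) (nat_lit 5) (nat_lit 318) (nat_lit 285) (nat_lit 258)))) (XT.nd (nat_lit 188) (nat_lit 504) (nat_lit 0) (XT.nd (nat_lit 94) (nat_lit 504) (nat_lit 0) (XT.lf (nat_lit 0) (nat_lit 947267150) (nat_lit 672) (nat_lit 38902258) (nat_lit 84) (nat_lit 7231003157) (nat_lit 82) (nat_lit 5) (nat_lit 90) (nat_lit 5) (nat_lit 83) (nat_lit 5) (nat_lit 319) (nat_lit 285) (nat_lit 257)) (XT.lf (nat_lit 0) (nat_lit 2807467240) (nat_lit 588) (nat_lit 4684468948) (nat_lit 84) (nat_lit 847915842) (nat_lit 76) (nat_lit 5) (nat_lit 83) (nat_lit 5) (nat_lit 77) (nat_lit 5) (nat_lit 320) (nat_lit 285) (nat_lit 256))) (XT.nd (nat_lit 94) (nat_lit 504) (nat_lit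 0) (XT.lf (nat_lit 0) (nat_lit 4685705490) (nat_lit 588) (nat_lit 1062715979) (nat_lit 84) (nat_lit 2719434074) (nat_lit 76) (nat_lit 5) (nat_lit 83) (nat_lit 5) (nat_lit 77) (nat_lit 5) (nat_lit 321) (nat_lit 285) (nat_lit 255)) (XT.lf (nat_lit 0) (nat_lit 2675438899) (nat_lit 504) (nat_lit 3924653602) (nat_lit 588) (nat_lit 2000702759) (nat_lit 70) (nat_lit 5) (nat_lit 76) (nat_lit 5) (nat_lit 77) (nat_lit 5) (nat_lit 322) (nat_lit 285) (nat_lit 254))))))))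
noncomputable def xc11 : XT := (XT.nd (nat_lit 51982) (nat_lit 0) (nat_lit 1428) (XT.nd (nat_lit 1316) (nat_lit 588) (nat_lit 0) (XT.nd (nat_lit 658) (nat_lit 840) (nat_lit 0) (XT.nd (nat_lit 282) (nat_lit 840) (nat_lit 0) (XT.nd (nat_lit 94) (nat_lit 504) (nat_lit 0) (XT.lf (nat_lit 0) (nat_lit 6502732977) (nat_lit 504) (nat_lit 2034540826) (nat_lit 588) (nat_lit 201990595) (nat_lit 70) (nat_lit 5) (nat_lit 76) (nat_lit 5) (nat_lit 77) (nat_lit 5) (nat_lit 323) (nat_lit 285) (nat_lit 253)) (XT.nd (nat_lit 94) (nat_lit 0) (nat_lit 0) (XT.lf (nat_lit 0) (nat_lit 1532107530) (nat_lit 420) (nat_lit 55333096) (nat_lit 504) (nat_lit 7295320330) (nat_lit 64) (nat_lit 5) (nat_lit 69) (nat_lit 5) (nat_lit 70) (nat_lit 5) (nat_lit 324) (nat_lit 285) (nat_lit 252)) (XT.lf (nat_lit 0) (nat_lit 3425385211) (nat_lit 504) (nat_lit 3637164824) (nat_lit 84) (nat_lit 1968428590) (nat_lit 64) (nat_lit 5) (nat_lit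 70) (nat_lit 5) (nat_lit 65) (nat_lit 5) (nat_lit 325) (nat_lit 285) (nat_lit 251)))) (XT.nd (nat_lit 188) (nat_lit 420) (nat_lit 0) (XT.nd (nat_lit 94) (nat_lit 0) (nat_lit 0) (XT.lf (nat_lit 0) (nat_lit 145136932) (nat_lit 420) (nat_lit 5132518713) (nat_lit 504) (nat_lit 3907701116) (nat_lit 59) (nat_lit 5) (nat_lit 64) (nat_lit 5) (nat_lit 65) (nat_lit 5) (nat_lit 326) (nat_lit 285) (nat_lit 250)) (XT.lf (nat_lit 0) (nat_lit 4073625451) (nat_lit 420) (nat_lit 3107894276) (nat_lit 504) (nat_lit 2163417753) (nat_lit 59) (nat_lit 5) (nat_lit 64) (nat_lit 5) (nat_lit 65) (nat_lit 5) (nat_lit 327) (nat_lit 285) (nat_lit 249))) (XT.nd (nat_lit 94) (nat_lit 420) (nat_lit 0) (XT.lf (nat_lit 0) (nat_lit 8077174924) (nat_lit 420) (nat_lit 1024754103) (nat_lit 504) (nat_lit 409082013) (nat_lit 59) (nat_lit 5) (nat_lit 64) (nat_lit 5) (nat_lit 65) (nat_lit 5) (nat_lit 328) (nat_lit 285) (nat_lit 248)) (XT.lf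 (nat_lit 0) (nat_lit 1366022506) (nat_lit 420) (nat_lit 7181079620) (nat_lit 84) (nat_lit 1135083786) (nat_lit 54) (nat_lit 5) (nat_lit 59) (nat_lit 5) (nat_lit 55) (nat_lit 5) (nat_lit 329) (nat_lit 285) (nat_lit 247))))) (XT.nd (nat_lit 282) (nat_lit 420) (nat_lit 0) (XT.nd (nat_lit 94) (nat_lit 420) (nat_lit 0) (XT.lf (nat_lit 0) (nat_lit 3172175182) (nat_lit 420) (nat_lit 3331948697) (nat_lit 84) (nat_lit 3355102657) (nat_lit 54) (nat_lit 5) (nat_lit 59) (nat_lit 5) (nat_lit 55) (nat_lit 5) (nat_lit 330) (nat_lit 285) (nat_lit 246)) (XT.nd (nat_lit 94) (nat_lit 0) (nat_lit 0) (XT.lf (nat_lit 0) (nat_lit 602716478) (nat_lit 420) (nat_lit 4397733712) (nat_lit 504) (nat_lit 5042557937) (nat_lit 49) (nat_lit 5) (nat_lit 54) (nat_lit 5) (nat_lit 55) (nat_lit 5) (nat_lit 331) (nat_lit 285) (nat_lit 245)) (XT.lf (nat_lit 0) (nat_lit 4684524659) (nat_lit 420) (nat_lit 2196555442) (nat_lit 504) (nat_lit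 3351737508) (nat_lit 49) (nat_lit 5) (nat_lit 54) (nat_lit 5) (nat_lit 55) (nat_lit 5) (nat_lit 332) (nat_lit 285) (nat_lit 244)))) (XT.nd (nat_lit 188) (nat_lit 0) (nat_lit 0) (XT.nd (nat_lit 94) (nat_lit 420) (nat_lit 0) (XT.lf (nat_lit 0) (nat_lit 8782746385) (nat_lit 504) (nat_lit 1581770321) (nat_lit 84) (nat_lit 65340415) (nat_lit 49) (nat_lit 5) (nat_lit 55) (nat_lit 5) (nat_lit 50) (nat_lit 5) (nat_lit 333) (nat_lit 285) (nat_lit 243)) (XT.lf (nat_lit 0) (nat_lit 118397247) (nat_lit 420) (nat_lit 8142662960) (nat_lit 84) (nat_lit 2371772089) (nat_lit 44) (nat_lit 5) (nat_lit 49) (nat_lit 5) (nat_lit 45) (nat_lit 5) (nat_lit 334) (nat_lit 285) (nat_lit 242))) (XT.nd (nat_lit 94) (nat_lit 0) (nat_lit 0) (XT.lf (nat_lit 0) (nat_lit 1884386719) (nat_lit 420) (nat_lit 4181254135) (nat_lit 84) (nat_lit 4776731783) (nat_lit 44) (nat_lit 5) (nat_lit 49) (nat_lit 5) (nat_lit 45) (nat_lit 5) (nat_lit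 335) (nat_lit 285) (nat_lit 241)) (XT.lf (nat_lit 0) (nat_lit 3669511586) (nat_lit 420) (nat_lit 140226068) (nat_lit 84) (nat_lit 7249943838) (nat_lit 44) (nat_lit 5) (nat_lit 49) (nat_lit 5) (nat_lit 45) (nat_lit 5) (nat_lit 336) (nat_lit 285) (nat_lit 240)))))) (XT.nd (nat_lit 49914) (nat_lit 0) (nat_lit 10080) (XT.nd (nat_lit 49538) (nat_lit 0) (nat_lit 11508) (XT.nd (nat_lit 94) (nat_lit 252) (nat_lit 0) (XT.lf (nat_lit 0) (nat_lit 4066110976) (nat_lit 336) (nat_lit 1449661122) (nat_lit 420) (nat_lit 5767938894) (nat_lit 40) (nat_lit 5) (nat_lit 44) (nat_lit 5) (nat_lit 45) (nat_lit 5) (nat_lit 337) (nat_lit 285) (nat_lit 239)) (XT.nd (nat_lit 94) (nat_lit 252) (nat_lit 0) (XT.lf (nat_lit 0) (nat_lit 7396515322) (nat_lit 420) (nat_lit 3161192172) (nat_lit 84) (nat_lit 957842050) (nat_lit 40) (nat_lit 5) (nat_lit 45) (nat_lit 5) (nat_lit 41) (nat_lit 5) (nat_lit 338) (nat_lit 285) (nat_lit 238))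 (XT.lf (nat_lit 0) (nat_lit 984660061) (nat_lit 252) (nat_lit 8342530801) (nat_lit 336) (nat_lit 2427797790) (nat_lit 37) (nat_lit 5) (nat_lit 40) (nat_lit 5) (nat_lit 41) (nat_lit 5) (nat_lit 339) (nat_lit 285) (nat_lit 237)))) (XT.nd (nat_lit 188) (nat_lit 84) (nat_lit 0) (XT.nd (nat_lit 94) (nat_lit 84) (nat_lit 0) (XT.lf (nat_lit 0) (nat_lit 1242916127) (nat_lit 84) (nat_lit 737654411) (nat_lit 0) (nat_lit 1242916127) (nat_lit 176) (nat_lit 5) (nat_lit 177) (nat_lit 0) (nat_lit 176) (nat_lit 4) (nat_lit 289) (nat_lit 286) (nat_lit 286)) (XT.lf (nat_lit 0) (nat_lit 1079396543) (nat_lit 84) (nat_lit 3832796411) (nat_lit 84) (nat_lit 1541793771) (nat_lit 175) (nat_lit 4) (nat_lit 176) (nat_lit 5) (nat_lit 176) (nat_lit 4) (nat_lit 290) (nat_lit 286) (nat_lit 285))) (XT.nd (nat_lit 94) (nat_lit 0) (nat_lit 0) (XT.lf (nat_lit 0) (nat_lit 852770835) (nat_lit 168) (nat_lit 2781142085) (nat_lit 84)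 (nat_lit 2830415140) (nat_lit 174) (nat_lit 5) (nat_lit 176) (nat_lit 5) (nat_lit 175) (nat_lit 4) (nat_lit 291) (nat_lit 286) (nat_lit 284)) (XT.lf (nat_lit 0) (nat_lit 3196283875) (nat_lit 168) (nat_lit 176769730) (nat_lit 84) (nat_lit 3105216409) (nat_lit 174) (nat_lit 5) (nat_lit 176) (nat_lit 5) (nat_lit 175) (nat_lit 4) (nat_lit 292) (nat_lit 286) (nat_lit 283))))) (XT.nd (nat_lit 376) (nat_lit 924) (nat_lit 0) (XT.nd (nat_lit 188) (nat_lit 252) (nat_lit 0) (XT.nd (nat_lit 94) (nat_lit 84) (nat_lit 0) (XT.lf (nat_lit 0) (nat_lit 2506754734) (nat_lit 168) (nat_lit 3040106040) (nat_lit 252) (nat_lit 948668066) (nat_lit 172) (nat_lit 5) (nat_lit 174) (nat_lit 5) (nat_lit 175) (nat_lit 4) (nat_lit 293) (nat_lit 286) (nat_lit 282)) (XT.lf (nat_lit 0) (nat_lit 1339535929) (nat_lit 252) (nat_lit 1304734301) (nat_lit 84) (nat_lit 3872136347) (nat_lit 171) (nat_lit 5) (nat_lit 174) (nat_lit 5) (nat_lit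 172) (nat_lit 5) (nat_lit 294) (nat_lit 286) (nat_lit 281))) (XT.nd (nat_lit 94) (nat_lit 0) (nat_lit 0) (XT.lf (nat_lit 0) (nat_lit 1429017286) (nat_lit 252) (nat_lit 2176875744) (nat_lit 336) (nat_lit 2934780049) (nat_lit 168) (nat_lit 5) (nat_lit 171) (nat_lit 5) (nat_lit 172) (nat_lit 5) (nat_lit 295) (nat_lit 286) (nat_lit 280)) (XT.lf (nat_lit 0) (nat_lit 4223124883) (nat_lit 252) (nat_lit 1647857007) (nat_lit 336) (nat_lit 697680882) (nat_lit 168) (nat_lit 5) (nat_lit 171) (nat_lit 5) (nat_lit 172) (nat_lit 5) (nat_lit 296) (nat_lit 286) (nat_lit 279)))) (XT.nd (nat_lit 188) (nat_lit 504) (nat_lit 0) (XT.nd (nat_lit 94) (nat_lit 0) (nat_lit 0) (XT.lf (nat_lit 0) (nat_lit 446441147) (nat_lit 336) (nat_lit 1050198010) (nat_lit 420) (nat_lit 5103566457) (nat_lit 163) (nat_lit 5) (nat_lit 167) (nat_lit 5) (nat_lit 168) (nat_lit 5) (nat_lit 297) (nat_lit 286) (nat_lit 278)) (XT.lf (nat_lit 0)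 (nat_lit 3315025023) (nat_lit 336) (nat_lit 371741491) (nat_lit 420) (nat_lit 2948215700) (nat_lit 163) (nat_lit 5) (nat_lit 167) (nat_lit 5) (nat_lit 168) (nat_lit 5) (nat_lit 298) (nat_lit 286) (nat_lit 277))) (XT.nd (nat_lit 94) (nat_lit 504) (nat_lit 0) (XT.lf (nat_lit 0) (nat_lit 5868660441) (nat_lit 420) (nat_lit 455789135) (nat_lit 84) (nat_lit 349414270) (nat_lit 163) (nat_lit 5) (nat_lit 168) (nat_lit 5) (nat_lit 164) (nat_lit 5) (nat_lit 299) (nat_lit 286) (nat_lit 276)) (XT.lf (nat_lit 0) (nat_lit 1326340801) (nat_lit 504) (nat_lit 4238580684) (nat_lit 84) (nat_lit 1150762870) (nat_lit 157) (nat_lit 5) (nat_lit 163) (nat_lit 5) (nat_lit 158) (nat_lit 5) (nat_lit 300) (nat_lit 286) (nat_lit 275))))))) (XT.nd (nat_lit 1316) (nat_lit 4032) (nat_lit 0) (XT.nd (nat_lit 658) (nat_lit 2688) (nat_lit 0) (XT.nd (nat_lit 282) (nat_lit 1344) (nat_lit 0) (XT.nd (nat_lit 94) (nat_lit 588) (nat_lit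 0) (XT.lf (nat_lit 0) (nat_lit 3435465658) (nat_lit 504) (nat_lit 1310614999) (nat_lit 84) (nat_lit 2015298888) (nat_lit 157) (nat_lit 5) (nat_lit 163) (nat_lit 5) (nat_lit 158) (nat_lit 5) (nat_lit 301) (nat_lit 286) (nat_lit 274)) (XT.nd (nat_lit 94) (nat_lit 84) (nat_lit 0) (XT.lf (nat_lit 0) (nat_lit 1689533481) (nat_lit 504) (nat_lit 3862925393) (nat_lit 588) (nat_lit 1258405695) (nat_lit 151) (nat_lit 5) (nat_lit 157) (nat_lit 5) (nat_lit 158) (nat_lit 5) (nat_lit 302) (nat_lit 286) (nat_lit 273)) (XT.lf (nat_lit 0) (nat_lit 795560854) (nat_lit 588) (nat_lit 2113956561) (nat_lit 84) (nat_lit 3954514338) (nat_lit 150) (nat_lit 5) (nat_lit 157) (nat_lit 5) (nat_lit 151) (nat_lit 5) (nat_lit 303) (nat_lit 286) (nat_lit 272)))) (XT.nd (nat_lit 188) (nat_lit 756) (nat_lit 0) (XT.nd (nat_lit 94) (nat_lit 0) (nat_lit 0) (XT.lf (nat_lit 0) (nat_lit 940181450) (nat_lit 588) (nat_lit 1884564941) (nat_lit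 672) (nat_lit 4096172142) (nat_lit 143) (nat_lit 5) (nat_lit 150) (nat_lit 5) (nat_lit 151) (nat_lit 5) (nat_lit 304) (nat_lit 286) (nat_lit 271)) (XT.lf (nat_lit 0) (nat_lit 4081807242) (nat_lit 588) (nat_lit 787092347) (nat_lit 672) (nat_lit 2112677734) (nat_lit 143) (nat_lit 5) (nat_lit 150) (nat_lit 5) (nat_lit 151) (nat_lit 5) (nat_lit 305) (nat_lit 286) (nat_lit 270))) (XT.nd (nat_lit 94) (nat_lit 84) (nat_lit 0) (XT.lf (nat_lit 0) (nat_lit 224589024) (nat_lit 672) (nat_lit 6689752504) (nat_lit 756) (nat_lit 132206250) (nat_lit 135) (nat_lit 5) (nat_lit 143) (nat_lit 5) (nat_lit 144) (nat_lit 5) (nat_lit 306) (nat_lit 286) (nat_lit 269)) (XT.lf (nat_lit 0) (nat_lit 1842442177) (nat_lit 756) (nat_lit 3687170353) (nat_lit 84) (nat_lit 1584700278) (nat_lit 134) (nat_lit 5) (nat_lit 143) (nat_lit 5) (nat_lit 135) (nat_lit 5) (nat_lit 307) (nat_lit 286) (nat_lit 268))))) (XT.nd (nat_lit 282) (nat_lit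 1848) (nat_lit 0) (XT.nd (nat_lit 94) (nat_lit 840) (nat_lit 0) (XT.lf (nat_lit 0) (nat_lit 3810214529) (nat_lit 756) (nat_lit 509464947) (nat_lit 84) (nat_lit 2866945232) (nat_lit 134) (nat_lit 5) (nat_lit 143) (nat_lit 5) (nat_lit 135) (nat_lit 5) (nat_lit 308) (nat_lit 286) (nat_lit 267)) (XT.nd (nat_lit 94) (nat_lit 84) (nat_lit 0) (XT.lf (nat_lit 0) (nat_lit 2771265747) (nat_lit 756) (nat_lit 3031834189) (nat_lit 840) (nat_lit 1459639374) (nat_lit 125) (nat_lit 5) (nat_lit 134) (nat_lit 5) (nat_lit 135) (nat_lit 5) (nat_lit 309) (nat_lit 286) (nat_lit 266)) (XT.lf (nat_lit 0) (nat_lit 448478546) (nat_lit 840) (nat_lit 1234244748) (nat_lit 84) (nat_lit 5660540886) (nat_lit 124) (nat_lit 5) (nat_lit 134) (nat_lit 5) (nat_lit 125) (nat_lit 5) (nat_lit 310) (nat_lit 286) (nat_lit 265)))) (XT.nd (nat_lit 188) (nat_lit 1008) (nat_lit 0) (XT.nd (nat_lit 94) (nat_lit 0) (nat_lit 0) (XT.lf (nat_lit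 0) (nat_lit 2100410164) (nat_lit 840) (nat_lit 244711972) (nat_lit 924) (nat_lit 5082359133) (nat_lit 114) (nat_lit 5) (nat_lit 124) (nat_lit 5) (nat_lit 125) (nat_lit 5) (nat_lit 311) (nat_lit 286) (nat_lit 264)) (XT.lf (nat_lit 0) (nat_lit 4266145442) (nat_lit 924) (nat_lit 2014482799) (nat_lit 84) (nat_lit 1235144697) (nat_lit 114) (nat_lit 5) (nat_lit 125) (nat_lit 5) (nat_lit 115) (nat_lit 5) (nat_lit 312) (nat_lit 286) (nat_lit 263))) (XT.nd (nat_lit 94) (nat_lit 84) (nat_lit 0) (XT.lf (nat_lit 0) (nat_lit 1374812755) (nat_lit 924) (nat_lit 4830133354) (nat_lit 1008) (nat_lit 1403535560) (nat_lit 103) (nat_lit 5) (nat_lit 114) (nat_lit 5) (nat_lit 115) (nat_lit 5) (nat_lit 313) (nat_lit 286) (nat_lit 262)) (XT.lf (nat_lit 0) (nat_lit 453335540) (nat_lit 1008) (nat_lit 2848911538) (nat_lit 84) (nat_lit 4403153588) (nat_lit 102) (nat_lit 5) (nat_lit 114) (nat_lit 5) (nat_lit 103) (nat_lit 5)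 (nat_lit 314) (nat_lit 286) (nat_lit 261)))))) (XT.nd (nat_lit 658) (nat_lit 1848) (nat_lit 0) (XT.nd (nat_lit 282) (nat_lit 1176) (nat_lit 0) (XT.nd (nat_lit 94) (nat_lit 0) (nat_lit 0) (XT.lf (nat_lit 0) (nat_lit 587618995) (nat_lit 1008) (nat_lit 1700935494) (nat_lit 1092) (nat_lit 5518227853) (nat_lit 90) (nat_lit 5) (nat_lit 102) (nat_lit 5) (nat_lit 103) (nat_lit 5) (nat_lit 315) (nat_lit 286) (nat_lit 260)) (XT.nd (nat_lit 94) (nat_lit 0) (nat_lit 0) (XT.lf (nat_lit 0) (nat_lit 4140951406) (nat_lit 1008) (nat_lit 14744169) (nat_lit 1092) (nat_lit 3756726088) (nat_lit 90) (nat_lit 5) (nat_lit 102) (nat_lit 5) (nat_lit 103) (nat_lit 5) (nat_lit 316) (nat_lit 286) (nat_lit 259)) (XT.lf (nat_lit 0) (nat_lit 6044800076) (nat_lit 1092) (nat_lit 284636491) (nat_lit 84) (nat_lit 1693343201) (nat_lit 90) (nat_lit 5) (nat_lit 103) (nat_lit 5) (nat_lit 91) (nat_lit 5) (nat_lit 317) (nat_lit 286) (nat_lit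 258)))) (XT.nd (nat_lit 188) (nat_lit 504) (nat_lit 0) (XT.nd (nat_lit 94) (nat_lit 84) (nat_lit 0) (XT.lf (nat_lit 0) (nat_lit 3328075921) (nat_lit 588) (nat_lit 4646133277) (nat_lit 672) (nat_lit 163236333) (nat_lit 83) (nat_lit 5) (nat_lit 90) (nat_lit 5) (nat_lit 91) (nat_lit 5) (nat_lit 318) (nat_lit 286) (nat_lit 257)) (XT.lf (nat_lit 0) (nat_lit 1625178660) (nat_lit 672) (nat_lit 1263701280) (nat_lit 84) (nat_lit 5368055909) (nat_lit 82) (nat_lit 5) (nat_lit 90) (nat_lit 5) (nat_lit 83) (nat_lit 5) (nat_lit 319) (nat_lit 286) (nat_lit 256))) (XT.nd (nat_lit 94) (nat_lit 0) (nat_lit 0) (XT.lf (nat_lit 0) (nat_lit 2389894463) (nat_lit 504) (nat_lit 1049816975) (nat_lit 588) (nat_lit 4941463587) (nat_lit 76) (nat_lit 5) (nat_lit 82) (nat_lit 5) (nat_lit 83) (nat_lit 5) (nat_lit 320) (nat_lit 286) (nat_lit 255)) (XT.lf (nat_lit 0) (nat_lit 5283597753) (nat_lit 588) (nat_lit 2383621681) (nat_lit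 84) (nat_lit 843163709) (nat_lit 76) (nat_lit 5) (nat_lit 83) (nat_lit 5) (nat_lit 77) (nat_lit 5) (nat_lit 321) (nat_lit 286) (nat_lit 254))))) (XT.nd (nat_lit 376) (nat_lit 840) (nat_lit 0) (XT.nd (nat_lit 188) (nat_lit 420) (nat_lit 0) (XT.nd (nat_lit 94) (nat_lit 84) (nat_lit 0) (XT.lf (nat_lit 0) (nat_lit 1303112390) (nat_lit 504) (nat_lit 5858040856) (nat_lit 588) (nat_lit 1483446884) (nat_lit 70) (nat_lit 5) (nat_lit 76) (nat_lit 5) (nat_lit 77) (nat_lit 5) (nat_lit 322) (nat_lit 286) (nat_lit 253)) (XT.lf (nat_lit 0) (nat_lit 285798717) (nat_lit 588) (nat_lit 3679923846) (nat_lit 84) (nat_lit 4818093778) (nat_lit 69) (nat_lit 5) (nat_lit 76) (nat_lit 5) (nat_lit 70) (nat_lit 5) (nat_lit 323) (nat_lit 286) (nat_lit 252))) (XT.nd (nat_lit 94) (nat_lit 0) (nat_lit 0) (XT.lf (nat_lit 0) (nat_lit 33101780) (nat_lit 420) (nat_lit 2000768517) (nat_lit 504) (nat_lit 6894660109) (nat_lit 64) (nat_lit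 5) (nat_lit 69) (nat_lit 5) (nat_lit 70) (nat_lit 5) (nat_lit 324) (nat_lit 286) (nat_lit 251)) (XT.lf (nat_lit 0) (nat_lit 3830528657) (nat_lit 504) (nat_lit 5186601305) (nat_lit 84) (nat_lit 61017906) (nat_lit 64) (nat_lit 5) (nat_lit 70) (nat_lit 5) (nat_lit 65) (nat_lit 5) (nat_lit 325) (nat_lit 286) (nat_lit 250)))) (XT.nd (nat_lit 188) (nat_lit 420) (nat_lit 0) (XT.nd (nat_lit 94) (nat_lit 420) (nat_lit 0) (XT.lf (nat_lit 0) (nat_lit 5660033160) (nat_lit 504) (nat_lit 1430463540) (nat_lit 84) (nat_lit 2142851360) (nat_lit 64) (nat_lit 5) (nat_lit 70) (nat_lit 5) (nat_lit 65) (nat_lit 5) (nat_lit 326) (nat_lit 286) (nat_lit 249)) (XT.lf (nat_lit 0) (nat_lit 2445607189) (nat_lit 420) (nat_lit 5082894764) (nat_lit 504) (nat_lit 1865636895) (nat_lit 59) (nat_lit 5) (nat_lit 64) (nat_lit 5) (nat_lit 65) (nat_lit 5) (nat_lit 327) (nat_lit 286) (nat_lit 248))) (XT.nd (nat_lit 94) (nat_lit 420) (nat_lit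 0) (XT.lf (nat_lit 0) (nat_lit 6426843835) (nat_lit 420) (nat_lit 3001783101) (nat_lit 504) (nat_lit 132323708) (nat_lit 59) (nat_lit 5) (nat_lit 64) (nat_lit 5) (nat_lit 65) (nat_lit 5) (nat_lit 328) (nat_lit 286) (nat_lit 247)) (XT.lf (nat_lit 0) (nat_lit 752309307) (nat_lit 336) (nat_lit 835958294) (nat_lit 420) (nat_lit 8145392800) (nat_lit 54) (nat_lit 5) (nat_lit 58) (nat_lit 5) (nat_lit 59) (nat_lit 5) (nat_lit 329) (nat_lit 286) (nat_lit 246))))))))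
noncomputable def xc12 : XT := (XT.nd (nat_lit 51794) (nat_lit 0) (nat_lit 672) (XT.nd (nat_lit 50384) (nat_lit 0) (nat_lit 8652) (XT.nd (nat_lit 658) (nat_lit 336) (nat_lit 0) (XT.nd (nat_lit 282) (nat_lit 420) (nat_lit 0) (XT.nd (nat_lit 94) (nat_lit 420) (nat_lit 0) (XT.lf (nat_lit 0) (nat_lit 3366507860) (nat_lit 420) (nat_lit 5146542921) (nat_lit 84) (nat_lit 1398615375) (nat_lit 54) (nat_lit 5) (nat_lit 59) (nat_lit 5) (nat_lit 55) (nat_lit 5) (nat_lit 330) (nat_lit 286) (nat_lit 245)) (XT.nd (nat_lit 94) (nat_lit 420) (nat_lit 0) (XT.lf (nat_lit 0) (nat_lit 5169774160) (nat_lit 420) (nat_lit 1245956694) (nat_lit 84) (nat_lit 3680589007) (nat_lit 54) (nat_lit 5) (nat_lit 59) (nat_lit 5) (nat_lit 55) (nat_lit 5) (nat_lit 331) (nat_lit 286) (nat_lit 244)) (XT.lf (nat_lit 0) (nat_lit 2788518583) (nat_lit 420) (nat_lit 4230598391) (nat_lit 504) (nat_lit 3268076202) (nat_lit 49) (nat_lit 5) (nat_lit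 54) (nat_lit 5) (nat_lit 55) (nat_lit 5) (nat_lit 332) (nat_lit 286) (nat_lit 243)))) (XT.nd (nat_lit 188) (nat_lit 0) (nat_lit 0) (XT.nd (nat_lit 94) (nat_lit 420) (nat_lit 0) (XT.lf (nat_lit 0) (nat_lit 6931702144) (nat_lit 420) (nat_lit 1970308151) (nat_lit 504) (nat_lit 1582895463) (nat_lit 49) (nat_lit 5) (nat_lit 54) (nat_lit 5) (nat_lit 55) (nat_lit 5) (nat_lit 333) (nat_lit 286) (nat_lit 242)) (XT.lf (nat_lit 0) (nat_lit 123532993) (nat_lit 420) (nat_lit 10213109308) (nat_lit 84) (nat_lit 353095955) (nat_lit 44) (nat_lit 5) (nat_lit 49) (nat_lit 5) (nat_lit 45) (nat_lit 5) (nat_lit 334) (nat_lit 286) (nat_lit 241))) (XT.nd (nat_lit 94) (nat_lit 0) (nat_lit 0) (XT.lf (nat_lit 0) (nat_lit 1871989093) (nat_lit 420) (nat_lit 6272963127) (nat_lit 84) (nat_lit 2754953044) (nat_lit 44) (nat_lit 5) (nat_lit 49) (nat_lit 5) (nat_lit 45) (nat_lit 5) (nat_lit 335) (nat_lit 286) (nat_lit 240)) (XT.lf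 (nat_lit 0) (nat_lit 3640107781) (nat_lit 420) (nat_lit 2252558382) (nat_lit 84) (nat_lit 5225155783) (nat_lit 44) (nat_lit 5) (nat_lit 49) (nat_lit 5) (nat_lit 45) (nat_lit 5) (nat_lit 336) (nat_lit 286) (nat_lit 239))))) (XT.nd (nat_lit 49350) (nat_lit 0) (nat_lit 11256) (XT.nd (nat_lit 94) (nat_lit 0) (nat_lit 0) (XT.lf (nat_lit 0) (nat_lit 1889930248) (nat_lit 336) (nat_lit 3558355223) (nat_lit 420) (nat_lit 5894824754) (nat_lit 40) (nat_lit 5) (nat_lit 44) (nat_lit 5) (nat_lit 45) (nat_lit 5) (nat_lit 337) (nat_lit 286) (nat_lit 238)) (XT.nd (nat_lit 94) (nat_lit 0) (nat_lit 0) (XT.lf (nat_lit 0) (nat_lit 6168373843) (nat_lit 336) (nat_lit 1134762260) (nat_lit 420) (nat_lit 4272691202) (nat_lit 40) (nat_lit 5) (nat_lit 44) (nat_lit 5) (nat_lit 45) (nat_lit 5) (nat_lit 338) (nat_lit 286) (nat_lit 237)) (XT.lf (nat_lit 0) (nat_lit 9197043681) (nat_lit 420) (nat_lit 1289914140) (nat_lit 84) (nat_lit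 1329521978) (nat_lit 40) (nat_lit 5) (nat_lit 45) (nat_lit 5) (nat_lit 41) (nat_lit 5) (nat_lit 339) (nat_lit 286) (nat_lit 236)))) (XT.nd (nat_lit 188) (nat_lit 168) (nat_lit 0) (XT.nd (nat_lit 94) (nat_lit 84) (nat_lit 0) (XT.lf (nat_lit 0) (nat_lit 1073741823) (nat_lit 0) (nat_lit 0) (nat_lit 0) (nat_lit 0) (nat_lit 177) (nat_lit 0) (nat_lit 1) (nat_lit 0) (nat_lit 1) (nat_lit 0) (nat_lit 287) (nat_lit 287) (nat_lit 287)) (XT.lf (nat_lit 0) (nat_lit 2411088510) (nat_lit 84) (nat_lit 3983534950) (nat_lit 0) (nat_lit 49064789) (nat_lit 176) (nat_lit 5) (nat_lit 177) (nat_lit 0) (nat_lit 176) (nat_lit 4) (nat_lit 288) (nat_lit 287) (nat_lit 286))) (XT.nd (nat_lit 94) (nat_lit 168) (nat_lit 0) (XT.lf (nat_lit 0) (nat_lit 4800266461) (nat_lit 84) (nat_lit 1501415768) (nat_lit 0) (nat_lit 147240100) (nat_lit 176) (nat_lit 5) (nat_lit 177) (nat_lit 0) (nat_lit 176) (nat_lit 4) (nat_lit 289) (nat_lit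 287) (nat_lit 285)) (XT.lf (nat_lit 0) (nat_lit 707556810) (nat_lit 168) (nat_lit 5438095492) (nat_lit 84) (nat_lit 311967897) (nat_lit 174) (nat_lit 5) (nat_lit 176) (nat_lit 5) (nat_lit 175) (nat_lit 4) (nat_lit 290) (nat_lit 287) (nat_lit 284)))))) (XT.nd (nat_lit 658) (nat_lit 1680) (nat_lit 0) (XT.nd (nat_lit 282) (nat_lit 672) (nat_lit 0) (XT.nd (nat_lit 94) (nat_lit 252) (nat_lit 0) (XT.lf (nat_lit 0) (nat_lit 3025141221) (nat_lit 168) (nat_lit 2886384183) (nat_lit 84) (nat_lit 557817665) (nat_lit 174) (nat_lit 5) (nat_lit 176) (nat_lit 5) (nat_lit 175) (nat_lit 4) (nat_lit 291) (nat_lit 287) (nat_lit 283)) (XT.nd (nat_lit 94) (nat_lit 252) (nat_lit 0) (XT.lf (nat_lit 0) (nat_lit 5324118386) (nat_lit 168) (nat_lit 307658778) (nat_lit 84) (nat_lit 853307741) (nat_lit 174) (nat_lit 5) (nat_lit 176) (nat_lit 5) (nat_lit 175) (nat_lit 4) (nat_lit 292) (nat_lit 287) (nat_lit 282)) (XT.lf (nat_lit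 0) (nat_lit 1103101131) (nat_lit 252) (nat_lit 4167519242) (nat_lit 84) (nat_lit 1233171798) (nat_lit 171) (nat_lit 5) (nat_lit 174) (nat_lit 5) (nat_lit 172) (nat_lit 5) (nat_lit 293) (nat_lit 287) (nat_lit 281)))) (XT.nd (nat_lit 188) (nat_lit 420) (nat_lit 0) (XT.nd (nat_lit 94) (nat_lit 252) (nat_lit 0) (XT.lf (nat_lit 0) (nat_lit 3329231865) (nat_lit 252) (nat_lit 1518780210) (nat_lit 84) (nat_lit 1678080420) (nat_lit 171) (nat_lit 5) (nat_lit 174) (nat_lit 5) (nat_lit 172) (nat_lit 5) (nat_lit 294) (nat_lit 287) (nat_lit 280)) (XT.lf (nat_lit 0) (nat_lit 1184942399) (nat_lit 252) (nat_lit 4366557309) (nat_lit 336) (nat_lit 1000597128) (nat_lit 168) (nat_lit 5) (nat_lit 171) (nat_lit 5) (nat_lit 172) (nat_lit 5) (nat_lit 295) (nat_lit 287) (nat_lit 279))) (XT.nd (nat_lit 94) (nat_lit 336) (nat_lit 0) (XT.lf (nat_lit 0) (nat_lit 1170159019) (nat_lit 336) (nat_lit 2639360952) (nat_lit 84) (nat_lit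 2771819732) (nat_lit 167) (nat_lit 5) (nat_lit 171) (nat_lit 5) (nat_lit 168) (nat_lit 5) (nat_lit 296) (nat_lit 287) (nat_lit 278)) (XT.lf (nat_lit 0) (nat_lit 113718737) (nat_lit 336) (nat_lit 3193218422) (nat_lit 420) (nat_lit 3307417468) (nat_lit 163) (nat_lit 5) (nat_lit 167) (nat_lit 5) (nat_lit 168) (nat_lit 5) (nat_lit 297) (nat_lit 287) (nat_lit 277))))) (XT.nd (nat_lit 376) (nat_lit 1176) (nat_lit 0) (XT.nd (nat_lit 188) (nat_lit 420) (nat_lit 0) (XT.nd (nat_lit 94) (nat_lit 84) (nat_lit 0) (XT.lf (nat_lit 0) (nat_lit 2957283845) (nat_lit 336) (nat_lit 2500556209) (nat_lit 420) (nat_lit 1192835546) (nat_lit 163) (nat_lit 5) (nat_lit 167) (nat_lit 5) (nat_lit 168) (nat_lit 5) (nat_lit 298) (nat_lit 287) (nat_lit 276)) (XT.lf (nat_lit 0) (nat_lit 888712819) (nat_lit 420) (nat_lit 860448055) (nat_lit 84) (nat_lit 4941725037) (nat_lit 162) (nat_lit 5) (nat_lit 167) (nat_lit 5) (nat_lit 163)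 (nat_lit 5) (nat_lit 299) (nat_lit 287) (nat_lit 275))) (XT.nd (nat_lit 94) (nat_lit 0) (nat_lit 0) (XT.lf (nat_lit 0) (nat_lit 2039221306) (nat_lit 420) (nat_lit 914691628) (nat_lit 504) (nat_lit 3780399290) (nat_lit 157) (nat_lit 5) (nat_lit 162) (nat_lit 5) (nat_lit 163) (nat_lit 5) (nat_lit 300) (nat_lit 287) (nat_lit 274)) (XT.lf (nat_lit 0) (nat_lit 4997546028) (nat_lit 420) (nat_lit 20046168) (nat_lit 504) (nat_lit 1764114694) (nat_lit 157) (nat_lit 5) (nat_lit 162) (nat_lit 5) (nat_lit 163) (nat_lit 5) (nat_lit 301) (nat_lit 287) (nat_lit 273)))) (XT.nd (nat_lit 188) (nat_lit 588) (nat_lit 0) (XT.nd (nat_lit 94) (nat_lit 0) (nat_lit 0) (XT.lf (nat_lit 0) (nat_lit 255871611) (nat_lit 588) (nat_lit 5654521325) (nat_lit 84) (nat_lit 922262807) (nat_lit 150) (nat_lit 5) (nat_lit 157) (nat_lit 5) (nat_lit 151) (nat_lit 5) (nat_lit 302) (nat_lit 287) (nat_lit 272)) (XT.lf (nat_lit 0) (nat_lit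 2249210508) (nat_lit 588) (nat_lit 2685497968) (nat_lit 84) (nat_lit 1952086164) (nat_lit 150) (nat_lit 5) (nat_lit 157) (nat_lit 5) (nat_lit 151) (nat_lit 5) (nat_lit 303) (nat_lit 287) (nat_lit 271))) (XT.nd (nat_lit 94) (nat_lit 0) (nat_lit 0) (XT.lf (nat_lit 0) (nat_lit 331282235) (nat_lit 588) (nat_lit 3906860474) (nat_lit 672) (nat_lit 2707043813) (nat_lit 143) (nat_lit 5) (nat_lit 150) (nat_lit 5) (nat_lit 151) (nat_lit 5) (nat_lit 304) (nat_lit 287) (nat_lit 270)) (XT.lf (nat_lit 0) (nat_lit 3448072195) (nat_lit 588) (nat_lit 2800793070) (nat_lit 672) (nat_lit 758265911) (nat_lit 143) (nat_lit 5) (nat_lit 150) (nat_lit 5) (nat_lit 151) (nat_lit 5) (nat_lit 305) (nat_lit 287) (nat_lit 269))))))) (XT.nd (nat_lit 1316) (nat_lit 2856) (nat_lit 0) (XT.nd (nat_lit 658) (nat_lit 2688) (nat_lit 0) (XT.nd (nat_lit 282) (nat_lit 1680) (nat_lit 0) (XT.nd (nat_lit 94) (nat_lit 672) (nat_lit 0) (XT.lf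 (nat_lit 0) (nat_lit 1158709502) (nat_lit 672) (nat_lit 472702332) (nat_lit 84) (nat_lit 5441753686) (nat_lit 142) (nat_lit 5) (nat_lit 150) (nat_lit 5) (nat_lit 143) (nat_lit 5) (nat_lit 306) (nat_lit 287) (nat_lit 268)) (XT.nd (nat_lit 94) (nat_lit 0) (nat_lit 0) (XT.lf (nat_lit 0) (nat_lit 2706860599) (nat_lit 672) (nat_lit 374355598) (nat_lit 756) (nat_lit 4061435192) (nat_lit 134) (nat_lit 5) (nat_lit 142) (nat_lit 5) (nat_lit 143) (nat_lit 5) (nat_lit 307) (nat_lit 287) (nat_lit 267)) (XT.lf (nat_lit 0) (nat_lit 5014068993) (nat_lit 756) (nat_lit 1279639287) (nat_lit 84) (nat_lit 922558346) (nat_lit 134) (nat_lit 5) (nat_lit 143) (nat_lit 5) (nat_lit 135) (nat_lit 5) (nat_lit 308) (nat_lit 287) (nat_lit 266)))) (XT.nd (nat_lit 188) (nat_lit 840) (nat_lit 0) (XT.nd (nat_lit 94) (nat_lit 84) (nat_lit 0) (XT.lf (nat_lit 0) (nat_lit 1960243298) (nat_lit 756) (nat_lit 5008398052) (nat_lit 840)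 (nat_lit 325141772) (nat_lit 125) (nat_lit 5) (nat_lit 134) (nat_lit 5) (nat_lit 135) (nat_lit 5) (nat_lit 309) (nat_lit 287) (nat_lit 265)) (XT.lf (nat_lit 0) (nat_lit 1530014083) (nat_lit 840) (nat_lit 2112645575) (nat_lit 84) (nat_lit 3732434194) (nat_lit 124) (nat_lit 5) (nat_lit 134) (nat_lit 5) (nat_lit 125) (nat_lit 5) (nat_lit 310) (nat_lit 287) (nat_lit 264))) (XT.nd (nat_lit 94) (nat_lit 0) (nat_lit 0) (XT.lf (nat_lit 0) (nat_lit 1179121322) (nat_lit 840) (nat_lit 2209197762) (nat_lit 924) (nat_lit 4072375796) (nat_lit 114) (nat_lit 5) (nat_lit 124) (nat_lit 5) (nat_lit 125) (nat_lit 5) (nat_lit 311) (nat_lit 287) (nat_lit 263)) (XT.lf (nat_lit 0) (nat_lit 4568813856) (nat_lit 840) (nat_lit 699463600) (nat_lit 924) (nat_lit 2282171675) (nat_lit 114) (nat_lit 5) (nat_lit 124) (nat_lit 5) (nat_lit 125) (nat_lit 5) (nat_lit 312) (nat_lit 287) (nat_lit 262))))) (XT.nd (nat_lit 282) (nat_lit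 1680) (nat_lit 0) (XT.nd (nat_lit 94) (nat_lit 84) (nat_lit 0) (XT.lf (nat_lit 0) (nat_lit 369911001) (nat_lit 924) (nat_lit 6792601260) (nat_lit 1008) (nat_lit 482211011) (nat_lit 103) (nat_lit 5) (nat_lit 114) (nat_lit 5) (nat_lit 115) (nat_lit 5) (nat_lit 313) (nat_lit 287) (nat_lit 261)) (XT.nd (nat_lit 94) (nat_lit 0) (nat_lit 0) (XT.lf (nat_lit 0) (nat_lit 1328579149) (nat_lit 1008) (nat_lit 3924127423) (nat_lit 84) (nat_lit 2489678413) (nat_lit 102) (nat_lit 5) (nat_lit 114) (nat_lit 5) (nat_lit 103) (nat_lit 5) (nat_lit 314) (nat_lit 287) (nat_lit 260)) (XT.lf (nat_lit 0) (nat_lit 3131277960) (nat_lit 1008) (nat_lit 523619298) (nat_lit 84) (nat_lit 4190045304) (nat_lit 102) (nat_lit 5) (nat_lit 114) (nat_lit 5) (nat_lit 103) (nat_lit 5) (nat_lit 315) (nat_lit 287) (nat_lit 259)))) (XT.nd (nat_lit 188) (nat_lit 672) (nat_lit 0) (XT.nd (nat_lit 94) (nat_lit 0) (nat_lit 0) (XT.lf (nat_lit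 0) (nat_lit 2995008063) (nat_lit 1008) (nat_lit 1971983988) (nat_lit 1092) (nat_lit 2984726800) (nat_lit 90) (nat_lit 5) (nat_lit 102) (nat_lit 5) (nat_lit 103) (nat_lit 5) (nat_lit 316) (nat_lit 287) (nat_lit 258)) (XT.lf (nat_lit 0) (nat_lit 6586656379) (nat_lit 1008) (nat_lit 226956324) (nat_lit 1092) (nat_lit 1249939091) (nat_lit 90) (nat_lit 5) (nat_lit 102) (nat_lit 5) (nat_lit 103) (nat_lit 5) (nat_lit 317) (nat_lit 287) (nat_lit 257))) (XT.nd (nat_lit 94) (nat_lit 0) (nat_lit 0) (XT.lf (nat_lit 0) (nat_lit 513780277) (nat_lit 672) (nat_lit 6095122899) (nat_lit 84) (nat_lit 1570518158) (nat_lit 82) (nat_lit 5) (nat_lit 90) (nat_lit 5) (nat_lit 83) (nat_lit 5) (nat_lit 318) (nat_lit 287) (nat_lit 256)) (XT.lf (nat_lit 0) (nat_lit 2274465100) (nat_lit 672) (nat_lit 2574938900) (nat_lit 84) (nat_lit 3450359158) (nat_lit 82) (nat_lit 5) (nat_lit 90) (nat_lit 5) (nat_lit 83) (nat_lit 5) (nat_lit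 319) (nat_lit 287) (nat_lit 255)))))) (XT.nd (nat_lit 658) (nat_lit 1344) (nat_lit 0) (XT.nd (nat_lit 282) (nat_lit 1008) (nat_lit 0) (XT.nd (nat_lit 94) (nat_lit 0) (nat_lit 0) (XT.lf (nat_lit 0) (nat_lit 1028071712) (nat_lit 504) (nat_lit 3023710292) (nat_lit 588) (nat_lit 4373513717) (nat_lit 76) (nat_lit 5) (nat_lit 82) (nat_lit 5) (nat_lit 83) (nat_lit 5) (nat_lit 320) (nat_lit 287) (nat_lit 254)) (XT.nd (nat_lit 94) (nat_lit 0) (nat_lit 0) (XT.lf (nat_lit 0) (nat_lit 4750826522) (nat_lit 504) (nat_lit 1113084599) (nat_lit 588) (nat_lit 2691712685) (nat_lit 76) (nat_lit 5) (nat_lit 82) (nat_lit 5) (nat_lit 83) (nat_lit 5) (nat_lit 321) (nat_lit 287) (nat_lit 253)) (XT.lf (nat_lit 0) (nat_lit 7694977885) (nat_lit 588) (nat_lit 156332814) (nat_lit 84) (nat_lit 840102665) (nat_lit 76) (nat_lit 5) (nat_lit 83) (nat_lit 5) (nat_lit 77) (nat_lit 5) (nat_lit 322) (nat_lit 287) (nat_lit 252)))) (XT.nd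 (nat_lit 188) (nat_lit 420) (nat_lit 0) (XT.nd (nat_lit 94) (nat_lit 0) (nat_lit 0) (XT.lf (nat_lit 0) (nat_lit 738979351) (nat_lit 588) (nat_lit 5217668827) (nat_lit 84) (nat_lit 2874699840) (nat_lit 69) (nat_lit 5) (nat_lit 76) (nat_lit 5) (nat_lit 70) (nat_lit 5) (nat_lit 323) (nat_lit 287) (nat_lit 251)) (XT.lf (nat_lit 0) (nat_lit 2464977011) (nat_lit 588) (nat_lit 1528014229) (nat_lit 84) (nat_lit 4983875054) (nat_lit 69) (nat_lit 5) (nat_lit 76) (nat_lit 5) (nat_lit 70) (nat_lit 5) (nat_lit 324) (nat_lit 287) (nat_lit 250))) (XT.nd (nat_lit 94) (nat_lit 0) (nat_lit 0) (XT.lf (nat_lit 0) (nat_lit 2277174105) (nat_lit 420) (nat_lit 1947059090) (nat_lit 504) (nat_lit 4903526341) (nat_lit 64) (nat_lit 5) (nat_lit 69) (nat_lit 5) (nat_lit 70) (nat_lit 5) (nat_lit 325) (nat_lit 287) (nat_lit 249)) (XT.lf (nat_lit 0) (nat_lit 6013737710) (nat_lit 504) (nat_lit 3097673633) (nat_lit 84) (nat_lit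 172901200) (nat_lit 64) (nat_lit 5) (nat_lit 70) (nat_lit 5) (nat_lit 65) (nat_lit 5) (nat_lit 326) (nat_lit 287) (nat_lit 248))))) (XT.nd (nat_lit 376) (nat_lit 504) (nat_lit 0) (XT.nd (nat_lit 188) (nat_lit 336) (nat_lit 0) (XT.nd (nat_lit 94) (nat_lit 84) (nat_lit 0) (XT.lf (nat_lit 0) (nat_lit 721803010) (nat_lit 420) (nat_lit 7123240171) (nat_lit 504) (nat_lit 1601321637) (nat_lit 59) (nat_lit 5) (nat_lit 64) (nat_lit 5) (nat_lit 65) (nat_lit 5) (nat_lit 327) (nat_lit 287) (nat_lit 247)) (XT.lf (nat_lit 0) (nat_lit 109352587) (nat_lit 504) (nat_lit 4933602023) (nat_lit 84) (nat_lit 4570903725) (nat_lit 58) (nat_lit 5) (nat_lit 64) (nat_lit 5) (nat_lit 59) (nat_lit 5) (nat_lit 328) (nat_lit 287) (nat_lit 246))) (XT.nd (nat_lit 94) (nat_lit 336) (nat_lit 0) (XT.lf (nat_lit 0) (nat_lit 1800435986) (nat_lit 504) (nat_lit 1085145444) (nat_lit 84) (nat_lit 6901877913) (nat_lit 58) (nat_lit 5) (nat_lit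 64) (nat_lit 5) (nat_lit 59) (nat_lit 5) (nat_lit 329) (nat_lit 287) (nat_lit 245)) (XT.lf (nat_lit 0) (nat_lit 2898682389) (nat_lit 336) (nat_lit 635840787) (nat_lit 420) (nat_lit 6432407511) (nat_lit 54) (nat_lit 5) (nat_lit 58) (nat_lit 5) (nat_lit 59) (nat_lit 5) (nat_lit 330) (nat_lit 287) (nat_lit 244)))) (XT.nd (nat_lit 188) (nat_lit 84) (nat_lit 0) (XT.nd (nat_lit 94) (nat_lit 420) (nat_lit 0) (XT.lf (nat_lit 0) (nat_lit 5313024354) (nat_lit 420) (nat_lit 3182630453) (nat_lit 84) (nat_lit 1656791238) (nat_lit 54) (nat_lit 5) (nat_lit 59) (nat_lit 5) (nat_lit 55) (nat_lit 5) (nat_lit 331) (nat_lit 287) (nat_lit 243)) (XT.lf (nat_lit 0) (nat_lit 790962240) (nat_lit 420) (nat_lit 6333686396) (nat_lit 504) (nat_lit 3219931106) (nat_lit 49) (nat_lit 5) (nat_lit 54) (nat_lit 5) (nat_lit 55) (nat_lit 5) (nat_lit 332) (nat_lit 287) (nat_lit 242))) (XT.nd (nat_lit 94) (nat_lit 84) (nat_lit 0) (XT.lf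 (nat_lit 0) (nat_lit 4913718450) (nat_lit 420) (nat_lit 4076256631) (nat_lit 504) (nat_lit 1552950185) (nat_lit 49) (nat_lit 5) (nat_lit 54) (nat_lit 5) (nat_lit 55) (nat_lit 5) (nat_lit 333) (nat_lit 287) (nat_lit 241)) (XT.lf (nat_lit 0) (nat_lit 127238454) (nat_lit 504) (nat_lit 1625914923) (nat_lit 84) (nat_lit 8995473044) (nat_lit 48) (nat_lit 5) (nat_lit 54) (nat_lit 5) (nat_lit 49) (nat_lit 5) (nat_lit 334) (nat_lit 287) (nat_lit 240))))))))
noncomputable def xc13 : XT := (XT.nd (nat_lit 51888) (nat_lit 0) (nat_lit 0) (XT.nd (nat_lit 50478) (nat_lit 0) (nat_lit 6216) (XT.nd (nat_lit 49820) (nat_lit 0) (nat_lit 10584) (XT.nd (nat_lit 282) (nat_lit 336) (nat_lit 0) (XT.nd (nat_lit 94) (nat_lit 0) (nat_lit 0) (XT.lf (nat_lit 0) (nat_lit 1824667590) (nat_lit 420) (nat_lit 8471401065) (nat_lit 84) (nat_lit 664387244) (nat_lit 44) (nat_lit 5) (nat_lit 49) (nat_lit 5) (nat_lit 45) (nat_lit 5) (nat_lit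 335) (nat_lit 287) (nat_lit 239)) (XT.nd (nat_lit 94) (nat_lit 0) (nat_lit 0) (XT.lf (nat_lit 0) (nat_lit 3576291439) (nat_lit 420) (nat_lit 4470999542) (nat_lit 84) (nat_lit 3131671152) (nat_lit 44) (nat_lit 5) (nat_lit 49) (nat_lit 5) (nat_lit 45) (nat_lit 5) (nat_lit 336) (nat_lit 287) (nat_lit 238)) (XT.lf (nat_lit 0) (nat_lit 5349721912) (nat_lit 420) (nat_lit 385990561) (nat_lit 84) (nat_lit 5669690960) (nat_lit 44) (nat_lit 5) (nat_lit 49) (nat_lit 5) (nat_lit 45) (nat_lit 5) (nat_lit 337) (nat_lit 287) (nat_lit 237)))) (XT.nd (nat_lit 49350) (nat_lit 0) (nat_lit 11172) (XT.nd (nat_lit 94) (nat_lit 0) (nat_lit 0) (XT.lf (nat_lit 0) (nat_lit 3865310934) (nat_lit 336) (nat_lit 3319645460) (nat_lit 420) (nat_lit 4453845798) (nat_lit 40) (nat_lit 5) (nat_lit 44) (nat_lit 5) (nat_lit 45) (nat_lit 5) (nat_lit 338) (nat_lit 287) (nat_lit 236)) (XT.lf (nat_lit 0) (nat_lit 8218752355) (nat_lit 336)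 (nat_lit 831415375) (nat_lit 420) (nat_lit 2830247904) (nat_lit 40) (nat_lit 5) (nat_lit 44) (nat_lit 5) (nat_lit 45) (nat_lit 5) (nat_lit 339) (nat_lit 287) (nat_lit 235))) (XT.nd (nat_lit 94) (nat_lit 252) (nat_lit 0) (XT.lf (nat_lit 0) (nat_lit 1193339202) (nat_lit 0) (nat_lit 1193339202) (nat_lit 84) (nat_lit 836777948) (nat_lit 176) (nat_lit 5) (nat_lit 176) (nat_lit 3) (nat_lit 177) (nat_lit 0) (nat_lit 288) (nat_lit 288) (nat_lit 285)) (XT.lf (nat_lit 0) (nat_lit 647757777) (nat_lit 252) (nat_lit 1608771023) (nat_lit 252) (nat_lit 4197343031) (nat_lit 173) (nat_lit 3) (nat_lit 176) (nat_lit 3) (nat_lit 176) (nat_lit 5) (nat_lit 289) (nat_lit 288) (nat_lit 284))))) (XT.nd (nat_lit 282) (nat_lit 336) (nat_lit 0) (XT.nd (nat_lit 94) (nat_lit 252) (nat_lit 0) (XT.lf (nat_lit 84) (nat_lit 870626583) (nat_lit 0) (nat_lit 2051074520) (nat_lit 252) (nat_lit 3542314492) (nat_lit 174) (nat_lit 5)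 (nat_lit 173) (nat_lit 3) (nat_lit 176) (nat_lit 5) (nat_lit 290) (nat_lit 288) (nat_lit 283)) (XT.nd (nat_lit 94) (nat_lit 252) (nat_lit 0) (XT.lf (nat_lit 84) (nat_lit 3412995809) (nat_lit 0) (nat_lit 1779055366) (nat_lit 252) (nat_lit 1285570823) (nat_lit 174) (nat_lit 5) (nat_lit 173) (nat_lit 3) (nat_lit 176) (nat_lit 5) (nat_lit 291) (nat_lit 288) (nat_lit 282)) (XT.lf (nat_lit 0) (nat_lit 930299341) (nat_lit 252) (nat_lit 517000299) (nat_lit 336) (nat_lit 5047617018) (nat_lit 170) (nat_lit 5) (nat_lit 173) (nat_lit 3) (nat_lit 174) (nat_lit 5) (nat_lit 292) (nat_lit 288) (nat_lit 281)))) (XT.nd (nat_lit 188) (nat_lit 336) (nat_lit 0) (XT.nd (nat_lit 94) (nat_lit 0) (nat_lit 0) (XT.lf (nat_lit 84) (nat_lit 2090858701) (nat_lit 0) (nat_lit 1030885740) (nat_lit 336) (nat_lit 3393431215) (nat_lit 171) (nat_lit 5) (nat_lit 170) (nat_lit 5) (nat_lit 174) (nat_lit 5) (nat_lit 293) (nat_lit 288)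 (nat_lit 280)) (XT.lf (nat_lit 84) (nat_lit 4743283529) (nat_lit 0) (nat_lit 558234886) (nat_lit 336) (nat_lit 1237765696) (nat_lit 171) (nat_lit 5) (nat_lit 170) (nat_lit 5) (nat_lit 174) (nat_lit 5) (nat_lit 294) (nat_lit 288) (nat_lit 279))) (XT.nd (nat_lit 94) (nat_lit 0) (nat_lit 84) (XT.lf (nat_lit 84) (nat_lit 873367476) (nat_lit 0) (nat_lit 16175871) (nat_lit 420) (nat_lit 5677338362) (nat_lit 167) (nat_lit 5) (nat_lit 166) (nat_lit 5) (nat_lit 171) (nat_lit 5) (nat_lit 295) (nat_lit 288) (nat_lit 278)) (XT.lf (nat_lit 0) (nat_lit 2999794689) (nat_lit 336) (nat_lit 3000760981) (nat_lit 84) (nat_lit 596850490) (nat_lit 167) (nat_lit 5) (nat_lit 171) (nat_lit 5) (nat_lit 168) (nat_lit 5) (nat_lit 296) (nat_lit 288) (nat_lit 277)))))) (XT.nd (nat_lit 658) (nat_lit 3024) (nat_lit 0) (XT.nd (nat_lit 282) (nat_lit 1008) (nat_lit 0) (XT.nd (nat_lit 94) (nat_lit 420) (nat_lit 0) (XT.lf (nat_lit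 0) (nat_lit 5096468452) (nat_lit 336) (nat_lit 274487165) (nat_lit 84) (nat_lit 1261037116) (nat_lit 167) (nat_lit 5) (nat_lit 171) (nat_lit 5) (nat_lit 168) (nat_lit 5) (nat_lit 297) (nat_lit 288) (nat_lit 276)) (XT.nd (nat_lit 94) (nat_lit 0) (nat_lit 0) (XT.lf (nat_lit 0) (nat_lit 525837261) (nat_lit 420) (nat_lit 4136054005) (nat_lit 84) (nat_lit 2007841491) (nat_lit 162) (nat_lit 5) (nat_lit 167) (nat_lit 5) (nat_lit 163) (nat_lit 5) (nat_lit 298) (nat_lit 288) (nat_lit 275)) (XT.lf (nat_lit 0) (nat_lit 2545771371) (nat_lit 420) (nat_lit 1339552665) (nat_lit 84) (nat_lit 2825716899) (nat_lit 162) (nat_lit 5) (nat_lit 167) (nat_lit 5) (nat_lit 163) (nat_lit 5) (nat_lit 299) (nat_lit 288) (nat_lit 274)))) (XT.nd (nat_lit 188) (nat_lit 588) (nat_lit 0) (XT.nd (nat_lit 94) (nat_lit 0) (nat_lit 0) (XT.lf (nat_lit 0) (nat_lit 1525905187) (nat_lit 420) (nat_lit 3043522851) (nat_lit 504) (nat_lit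 2186617718) (nat_lit 157) (nat_lit 5) (nat_lit 162) (nat_lit 5) (nat_lit 163) (nat_lit 5) (nat_lit 300) (nat_lit 288) (nat_lit 273)) (XT.lf (nat_lit 0) (nat_lit 4460602229) (nat_lit 420) (nat_lit 2136915405) (nat_lit 504) (nat_lit 207307988) (nat_lit 157) (nat_lit 5) (nat_lit 162) (nat_lit 5) (nat_lit 163) (nat_lit 5) (nat_lit 301) (nat_lit 288) (nat_lit 272))) (XT.nd (nat_lit 94) (nat_lit 0) (nat_lit 0) (XT.lf (nat_lit 0) (nat_lit 576024549) (nat_lit 504) (nat_lit 1154741449) (nat_lit 588) (nat_lit 5126361875) (nat_lit 150) (nat_lit 5) (nat_lit 156) (nat_lit 5) (nat_lit 157) (nat_lit 5) (nat_lit 302) (nat_lit 288) (nat_lit 271)) (XT.lf (nat_lit 0) (nat_lit 3586273036) (nat_lit 504) (nat_lit 93087138) (nat_lit 588) (nat_lit 3233550932) (nat_lit 150) (nat_lit 5) (nat_lit 156) (nat_lit 5) (nat_lit 157) (nat_lit 5) (nat_lit 303) (nat_lit 288) (nat_lit 270))))) (XT.nd (nat_lit 376) (nat_lit 1680) (nat_lit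 0) (XT.nd (nat_lit 188) (nat_lit 672) (nat_lit 0) (XT.nd (nat_lit 94) (nat_lit 672) (nat_lit 0) (XT.lf (nat_lit 0) (nat_lit 5630898311) (nat_lit 588) (nat_lit 339944475) (nat_lit 84) (nat_lit 1001868930) (nat_lit 150) (nat_lit 5) (nat_lit 157) (nat_lit 5) (nat_lit 151) (nat_lit 5) (nat_lit 304) (nat_lit 288) (nat_lit 269)) (XT.lf (nat_lit 0) (nat_lit 558264456) (nat_lit 672) (nat_lit 4295895731) (nat_lit 84) (nat_lit 2181674864) (nat_lit 142) (nat_lit 5) (nat_lit 150) (nat_lit 5) (nat_lit 143) (nat_lit 5) (nat_lit 305) (nat_lit 288) (nat_lit 268))) (XT.nd (nat_lit 94) (nat_lit 672) (nat_lit 0) (XT.lf (nat_lit 0) (nat_lit 2427960344) (nat_lit 672) (nat_lit 1241311644) (nat_lit 84) (nat_lit 3433583965) (nat_lit 142) (nat_lit 5) (nat_lit 150) (nat_lit 5) (nat_lit 143) (nat_lit 5) (nat_lit 306) (nat_lit 288) (nat_lit 267)) (XT.lf (nat_lit 0) (nat_lit 1898442147) (nat_lit 672) (nat_lit 2412965361) (nat_lit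 756) (nat_lit 2862365991) (nat_lit 134) (nat_lit 5) (nat_lit 142) (nat_lit 5) (nat_lit 143) (nat_lit 5) (nat_lit 307) (nat_lit 288) (nat_lit 266)))) (XT.nd (nat_lit 188) (nat_lit 840) (nat_lit 0) (XT.nd (nat_lit 94) (nat_lit 840) (nat_lit 0) (XT.lf (nat_lit 0) (nat_lit 5114555327) (nat_lit 672) (nat_lit 1090027315) (nat_lit 756) (nat_lit 1044250292) (nat_lit 134) (nat_lit 5) (nat_lit 142) (nat_lit 5) (nat_lit 143) (nat_lit 5) (nat_lit 308) (nat_lit 288) (nat_lit 265)) (XT.lf (nat_lit 0) (nat_lit 766367780) (nat_lit 840) (nat_lit 6261025838) (nat_lit 84) (nat_lit 300440626) (nat_lit 124) (nat_lit 5) (nat_lit 134) (nat_lit 5) (nat_lit 125) (nat_lit 5) (nat_lit 309) (nat_lit 288) (nat_lit 264))) (XT.nd (nat_lit 94) (nat_lit 840) (nat_lit 0) (XT.lf (nat_lit 0) (nat_lit 2585773465) (nat_lit 840) (nat_lit 3067683133) (nat_lit 84) (nat_lit 1756689008) (nat_lit 124) (nat_lit 5) (nat_lit 134) (nat_lit 5)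 (nat_lit 125) (nat_lit 5) (nat_lit 310) (nat_lit 288) (nat_lit 263)) (XT.lf (nat_lit 0) (nat_lit 180366413) (nat_lit 840) (nat_lit 4225482953) (nat_lit 924) (nat_lit 3091271940) (nat_lit 114) (nat_lit 5) (nat_lit 124) (nat_lit 5) (nat_lit 125) (nat_lit 5) (nat_lit 311) (nat_lit 288) (nat_lit 262))))))) (XT.nd (nat_lit 1316) (nat_lit 2016) (nat_lit 0) (XT.nd (nat_lit 658) (nat_lit 1512) (nat_lit 0) (XT.nd (nat_lit 282) (nat_lit 1680) (nat_lit 0) (XT.nd (nat_lit 94) (nat_lit 1008) (nat_lit 0) (XT.lf (nat_lit 0) (nat_lit 3546703159) (nat_lit 840) (nat_lit 2711403122) (nat_lit 924) (nat_lit 1329811889) (nat_lit 114) (nat_lit 5) (nat_lit 124) (nat_lit 5) (nat_lit 125) (nat_lit 5) (nat_lit 312) (nat_lit 288) (nat_lit 261)) (XT.nd (nat_lit 94) (nat_lit 924) (nat_lit 0) (XT.lf (nat_lit 0) (nat_lit 420973476) (nat_lit 924) (nat_lit 716458571) (nat_lit 84) (nat_lit 6546019449) (nat_lit 113) (nat_lit 5) (nat_lit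 124) (nat_lit 5) (nat_lit 114) (nat_lit 5) (nat_lit 313) (nat_lit 288) (nat_lit 260)) (XT.lf (nat_lit 0) (nat_lit 2176746122) (nat_lit 1008) (nat_lit 5081791070) (nat_lit 84) (nat_lit 523999865) (nat_lit 102) (nat_lit 5) (nat_lit 114) (nat_lit 5) (nat_lit 103) (nat_lit 5) (nat_lit 314) (nat_lit 288) (nat_lit 259)))) (XT.nd (nat_lit 188) (nat_lit 672) (nat_lit 0) (XT.nd (nat_lit 94) (nat_lit 1008) (nat_lit 0) (XT.lf (nat_lit 0) (nat_lit 3953556585) (nat_lit 1008) (nat_lit 1704739003) (nat_lit 84) (nat_lit 2227764316) (nat_lit 102) (nat_lit 5) (nat_lit 114) (nat_lit 5) (nat_lit 103) (nat_lit 5) (nat_lit 315) (nat_lit 288) (nat_lit 258)) (XT.lf (nat_lit 0) (nat_lit 1766383529) (nat_lit 1008) (nat_lit 3985589102) (nat_lit 1092) (nat_lit 2242177641) (nat_lit 90) (nat_lit 5) (nat_lit 102) (nat_lit 5) (nat_lit 103) (nat_lit 5) (nat_lit 316) (nat_lit 288) (nat_lit 257))) (XT.nd (nat_lit 94) (nat_lit 672)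 (nat_lit 0) (XT.lf (nat_lit 0) (nat_lit 5335511392) (nat_lit 1008) (nat_lit 2238503548) (nat_lit 1092) (nat_lit 532883296) (nat_lit 90) (nat_lit 5) (nat_lit 102) (nat_lit 5) (nat_lit 103) (nat_lit 5) (nat_lit 317) (nat_lit 288) (nat_lit 256)) (XT.lf (nat_lit 0) (nat_lit 749375177) (nat_lit 588) (nat_lit 413479867) (nat_lit 672) (nat_lit 7061495797) (nat_lit 82) (nat_lit 5) (nat_lit 89) (nat_lit 5) (nat_lit 90) (nat_lit 5) (nat_lit 318) (nat_lit 288) (nat_lit 255))))) (XT.nd (nat_lit 282) (nat_lit 1008) (nat_lit 0) (XT.nd (nat_lit 94) (nat_lit 504) (nat_lit 0) (XT.lf (nat_lit 0) (nat_lit 2895731673) (nat_lit 672) (nat_lit 3973837331) (nat_lit 84) (nat_lit 1476125410) (nat_lit 82) (nat_lit 5) (nat_lit 90) (nat_lit 5) (nat_lit 83) (nat_lit 5) (nat_lit 319) (nat_lit 288) (nat_lit 254)) (XT.nd (nat_lit 94) (nat_lit 504) (nat_lit 0) (XT.lf (nat_lit 0) (nat_lit 4639856357) (nat_lit 672) (nat_lit 413991513)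 (nat_lit 84) (nat_lit 3418543560) (nat_lit 82) (nat_lit 5) (nat_lit 90) (nat_lit 5) (nat_lit 83) (nat_lit 5) (nat_lit 320) (nat_lit 288) (nat_lit 253)) (XT.lf (nat_lit 0) (nat_lit 3278026640) (nat_lit 504) (nat_lit 3147244823) (nat_lit 588) (nat_lit 2178407606) (nat_lit 76) (nat_lit 5) (nat_lit 82) (nat_lit 5) (nat_lit 83) (nat_lit 5) (nat_lit 321) (nat_lit 288) (nat_lit 252)))) (XT.nd (nat_lit 188) (nat_lit 420) (nat_lit 0) (XT.nd (nat_lit 94) (nat_lit 588) (nat_lit 0) (XT.lf (nat_lit 0) (nat_lit 7049493710) (nat_lit 504) (nat_lit 1176493726) (nat_lit 588) (nat_lit 514549535) (nat_lit 76) (nat_lit 5) (nat_lit 82) (nat_lit 5) (nat_lit 83) (nat_lit 5) (nat_lit 322) (nat_lit 288) (nat_lit 251)) (XT.lf (nat_lit 0) (nat_lit 1162043380) (nat_lit 588) (nat_lit 6849195934) (nat_lit 84) (nat_lit 870726542) (nat_lit 69) (nat_lit 5) (nat_lit 76) (nat_lit 5) (nat_lit 70) (nat_lit 5) (nat_lit 323) (nat_lit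 288) (nat_lit 250))) (XT.nd (nat_lit 94) (nat_lit 420) (nat_lit 0) (XT.lf (nat_lit 0) (nat_lit 2866949335) (nat_lit 588) (nat_lit 3181562773) (nat_lit 84) (nat_lit 2979742178) (nat_lit 69) (nat_lit 5) (nat_lit 76) (nat_lit 5) (nat_lit 70) (nat_lit 5) (nat_lit 324) (nat_lit 288) (nat_lit 249)) (XT.lf (nat_lit 0) (nat_lit 567826723) (nat_lit 420) (nat_lit 4020964338) (nat_lit 504) (nat_lit 4591629131) (nat_lit 64) (nat_lit 5) (nat_lit 69) (nat_lit 5) (nat_lit 70) (nat_lit 5) (nat_lit 325) (nat_lit 288) (nat_lit 248)))))) (XT.nd (nat_lit 658) (nat_lit 1176) (nat_lit 0) (XT.nd (nat_lit 282) (nat_lit 336) (nat_lit 0) (XT.nd (nat_lit 94) (nat_lit 504) (nat_lit 0) (XT.lf (nat_lit 0) (nat_lit 4457953207) (nat_lit 420) (nat_lit 1898539750) (nat_lit 504) (nat_lit 2981265546) (nat_lit 64) (nat_lit 5) (nat_lit 69) (nat_lit 5) (nat_lit 70) (nat_lit 5) (nat_lit 326) (nat_lit 288) (nat_lit 247)) (XT.nd (nat_lit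 94) (nat_lit 504) (nat_lit 0) (XT.lf (nat_lit 0) (nat_lit 8142344586) (nat_lit 504) (nat_lit 1077243516) (nat_lit 84) (nat_lit 281737878) (nat_lit 64) (nat_lit 5) (nat_lit 70) (nat_lit 5) (nat_lit 65) (nat_lit 5) (nat_lit 327) (nat_lit 288) (nat_lit 246)) (XT.lf (nat_lit 0) (nat_lit 316413664) (nat_lit 504) (nat_lit 6833880154) (nat_lit 84) (nat_lit 2519493293) (nat_lit 58) (nat_lit 5) (nat_lit 64) (nat_lit 5) (nat_lit 59) (nat_lit 5) (nat_lit 328) (nat_lit 288) (nat_lit 245)))) (XT.nd (nat_lit 188) (nat_lit 0) (nat_lit 0) (XT.nd (nat_lit 94) (nat_lit 336) (nat_lit 0) (XT.lf (nat_lit 0) (nat_lit 1988700864) (nat_lit 504) (nat_lit 3006266947) (nat_lit 84) (nat_lit 4849099835) (nat_lit 58) (nat_lit 5) (nat_lit 64) (nat_lit 5) (nat_lit 59) (nat_lit 5) (nat_lit 329) (nat_lit 288) (nat_lit 244)) (XT.lf (nat_lit 0) (nat_lit 917426337) (nat_lit 336) (nat_lit 2767476374) (nat_lit 420) (nat_lit 6339904657)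 (nat_lit 54) (nat_lit 5) (nat_lit 58) (nat_lit 5) (nat_lit 59) (nat_lit 5) (nat_lit 330) (nat_lit 288) (nat_lit 243))) (XT.nd (nat_lit 94) (nat_lit 0) (nat_lit 0) (XT.lf (nat_lit 0) (nat_lit 4985841063) (nat_lit 336) (nat_lit 442907912) (nat_lit 420) (nat_lit 4782739162) (nat_lit 54) (nat_lit 5) (nat_lit 58) (nat_lit 5) (nat_lit 59) (nat_lit 5) (nat_lit 331) (nat_lit 288) (nat_lit 242)) (XT.lf (nat_lit 0) (nat_lit 7210768879) (nat_lit 420) (nat_lit 1283612592) (nat_lit 84) (nat_lit 1910246468) (nat_lit 54) (nat_lit 5) (nat_lit 59) (nat_lit 5) (nat_lit 55) (nat_lit 5) (nat_lit 332) (nat_lit 288) (nat_lit 241))))) (XT.nd (nat_lit 376) (nat_lit 336) (nat_lit 0) (XT.nd (nat_lit 188) (nat_lit 336) (nat_lit 0) (XT.nd (nat_lit 94) (nat_lit 84) (nat_lit 0) (XT.lf (nat_lit 0) (nat_lit 2792936765) (nat_lit 420) (nat_lit 6253124456) (nat_lit 504) (nat_lit 1557929010) (nat_lit 49) (nat_lit 5) (nat_lit 54)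 (nat_lit 5) (nat_lit 55) (nat_lit 5) (nat_lit 333) (nat_lit 288) (nat_lit 240)) (XT.lf (nat_lit 0) (nat_lit 105583096) (nat_lit 504) (nat_lit 3827355188) (nat_lit 84) (nat_lit 6877355350) (nat_lit 48) (nat_lit 5) (nat_lit 54) (nat_lit 5) (nat_lit 49) (nat_lit 5) (nat_lit 334) (nat_lit 288) (nat_lit 239))) (XT.nd (nat_lit 94) (nat_lit 0) (nat_lit 0) (XT.lf (nat_lit 0) (nat_lit 229839145) (nat_lit 336) (nat_lit 1527693868) (nat_lit 420) (nat_lit 9266078167) (nat_lit 44) (nat_lit 5) (nat_lit 48) (nat_lit 5) (nat_lit 49) (nat_lit 5) (nat_lit 335) (nat_lit 288) (nat_lit 238)) (XT.lf (nat_lit 0) (nat_lit 3478003075) (nat_lit 420) (nat_lit 6797617368) (nat_lit 84) (nat_lit 967538597) (nat_lit 44) (nat_lit 5) (nat_lit 49) (nat_lit 5) (nat_lit 45) (nat_lit 5) (nat_lit 336) (nat_lit 288) (nat_lit 237)))) (XT.nd (nat_lit 188) (nat_lit 0) (nat_lit 0) (XT.nd (nat_lit 94) (nat_lit 336) (nat_lit 0) (XT.lf (nat_lit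 0) (nat_lit 5235915725) (nat_lit 420) (nat_lit 2731426783) (nat_lit 84) (nat_lit 3502812461) (nat_lit 44) (nat_lit 5) (nat_lit 49) (nat_lit 5) (nat_lit 45) (nat_lit 5) (nat_lit 337) (nat_lit 288) (nat_lit 236)) (XT.lf (nat_lit 0) (nat_lit 1453019856) (nat_lit 336) (nat_lit 5579148893) (nat_lit 420) (nat_lit 4672664772) (nat_lit 40) (nat_lit 5) (nat_lit 44) (nat_lit 5) (nat_lit 45) (nat_lit 5) (nat_lit 338) (nat_lit 288) (nat_lit 235))) (XT.nd (nat_lit 49350) (nat_lit 0) (nat_lit 11172) (XT.lf (nat_lit 0) (nat_lit 5788393500) (nat_lit 336) (nat_lit 3094208675) (nat_lit 420) (nat_lit 3064372122) (nat_lit 40) (nat_lit 5) (nat_lit 44) (nat_lit 5) (nat_lit 45) (nat_lit 5) (nat_lit 339) (nat_lit 288) (nat_lit 234)) (XT.lf (nat_lit 0) (nat_lit 1444731142) (nat_lit 252) (nat_lit 893177222) (nat_lit 252) (nat_lit 893177222) (nat_lit 173) (nat_lit 3) (nat_lit 176) (nat_lit 3) (nat_lit 176) (nat_lit 5) (nat_lit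 289) (nat_lit 289) (nat_lit 283))))))))
noncomputable def xc14 : XT := (XT.nd (nat_lit 2726) (nat_lit 4116) (nat_lit 0) (XT.nd (nat_lit 1316) (nat_lit 5124) (nat_lit 0) (XT.nd (nat_lit 658) (nat_lit 1344) (nat_lit 0) (XT.nd (nat_lit 282) (nat_lit 336) (nat_lit 0) (XT.nd (nat_lit 94) (nat_lit 252) (nat_lit 0) (XT.lf (nat_lit 84) (nat_lit 665760560) (nat_lit 0) (nat_lit 4451101848) (nat_lit 252) (nat_lit 1357314639) (nat_lit 174) (nat_lit 5) (nat_lit 173) (nat_lit 3) (nat_lit 176) (nat_lit 5) (nat_lit 290) (nat_lit 289) (nat_lit 282)) (XT.nd (nat_lit 94) (nat_lit 0) (nat_lit 0) (XT.lf (nat_lit 0) (nat_lit 837065259) (nat_lit 252) (nat_lit 3312800839) (nat_lit 336) (nat_lit 2339406699) (nat_lit 170) (nat_lit 5) (nat_lit 173) (nat_lit 3) (nat_lit 174) (nat_lit 5) (nat_lit 291) (nat_lit 289) (nat_lit 281)) (XT.lf (nat_lit 0) (nat_lit 2984122030) (nat_lit 252) (nat_lit 801424312) (nat_lit 336) (nat_lit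 2722338619) (nat_lit 170) (nat_lit 5) (nat_lit 173) (nat_lit 3) (nat_lit 174) (nat_lit 5) (nat_lit 292) (nat_lit 289) (nat_lit 280)))) (XT.nd (nat_lit 188) (nat_lit 0) (nat_lit 0) (XT.nd (nat_lit 94) (nat_lit 336) (nat_lit 0) (XT.lf (nat_lit 84) (nat_lit 1777327884) (nat_lit 0) (nat_lit 3353507247) (nat_lit 336) (nat_lit 1399066590) (nat_lit 171) (nat_lit 5) (nat_lit 170) (nat_lit 5) (nat_lit 174) (nat_lit 5) (nat_lit 293) (nat_lit 289) (nat_lit 279)) (XT.lf (nat_lit 0) (nat_lit 699993258) (nat_lit 336) (nat_lit 2155521724) (nat_lit 420) (nat_lit 3699893830) (nat_lit 166) (nat_lit 5) (nat_lit 170) (nat_lit 5) (nat_lit 171) (nat_lit 5) (nat_lit 294) (nat_lit 289) (nat_lit 278))) (XT.nd (nat_lit 94) (nat_lit 0) (nat_lit 0) (XT.lf (nat_lit 84) (nat_lit 470404406) (nat_lit 0) (nat_lit 2287844009) (nat_lit 420) (nat_lit 3826083535) (nat_lit 167) (nat_lit 5) (nat_lit 166) (nat_lit 5) (nat_lit 171) (nat_lit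 5) (nat_lit 295) (nat_lit 289) (nat_lit 277)) (XT.lf (nat_lit 84) (nat_lit 3177100976) (nat_lit 0) (nat_lit 1646217964) (nat_lit 420) (nat_lit 1793266480) (nat_lit 167) (nat_lit 5) (nat_lit 166) (nat_lit 5) (nat_lit 171) (nat_lit 5) (nat_lit 296) (nat_lit 289) (nat_lit 276))))) (XT.nd (nat_lit 282) (nat_lit 924) (nat_lit 0) (XT.nd (nat_lit 94) (nat_lit 0) (nat_lit 0) (XT.lf (nat_lit 0) (nat_lit 217949689) (nat_lit 420) (nat_lit 732313373) (nat_lit 504) (nat_lit 5702544326) (nat_lit 161) (nat_lit 5) (nat_lit 166) (nat_lit 5) (nat_lit 167) (nat_lit 5) (nat_lit 297) (nat_lit 289) (nat_lit 275)) (XT.nd (nat_lit 94) (nat_lit 0) (nat_lit 84) (XT.lf (nat_lit 84) (nat_lit 2035694098) (nat_lit 0) (nat_lit 162602286) (nat_lit 504) (nat_lit 4493630889) (nat_lit 162) (nat_lit 5) (nat_lit 161) (nat_lit 5) (nat_lit 167) (nat_lit 5) (nat_lit 298) (nat_lit 289) (nat_lit 274)) (XT.lf (nat_lit 0) (nat_lit 4180166170)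 (nat_lit 420) (nat_lit 1881988136) (nat_lit 84) (nat_lit 672551800) (nat_lit 162) (nat_lit 5) (nat_lit 167) (nat_lit 5) (nat_lit 163) (nat_lit 5) (nat_lit 299) (nat_lit 289) (nat_lit 273)))) (XT.nd (nat_lit 188) (nat_lit 504) (nat_lit 0) (XT.nd (nat_lit 94) (nat_lit 84) (nat_lit 0) (XT.lf (nat_lit 0) (nat_lit 948688451) (nat_lit 420) (nat_lit 5214053049) (nat_lit 504) (nat_lit 618524870) (nat_lit 157) (nat_lit 5) (nat_lit 162) (nat_lit 5) (nat_lit 163) (nat_lit 5) (nat_lit 300) (nat_lit 289) (nat_lit 272)) (XT.lf (nat_lit 0) (nat_lit 1298227528) (nat_lit 504) (nat_lit 2984064927) (nat_lit 84) (nat_lit 2548689888) (nat_lit 156) (nat_lit 5) (nat_lit 162) (nat_lit 5) (nat_lit 157) (nat_lit 5) (nat_lit 301) (nat_lit 289) (nat_lit 271))) (XT.nd (nat_lit 94) (nat_lit 504) (nat_lit 0) (XT.lf (nat_lit 0) (nat_lit 3192326542) (nat_lit 504) (nat_lit 100665370) (nat_lit 84) (nat_lit 3591719922) (nat_lit 156)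 (nat_lit 5) (nat_lit 162) (nat_lit 5) (nat_lit 157) (nat_lit 5) (nat_lit 302) (nat_lit 289) (nat_lit 270)) (XT.lf (nat_lit 0) (nat_lit 2884561714) (nat_lit 504) (nat_lit 2222053061) (nat_lit 588) (nat_lit 1835193289) (nat_lit 150) (nat_lit 5) (nat_lit 156) (nat_lit 5) (nat_lit 157) (nat_lit 5) (nat_lit 303) (nat_lit 289) (nat_lit 269)))))) (XT.nd (nat_lit 658) (nat_lit 2940) (nat_lit 0) (XT.nd (nat_lit 282) (nat_lit 1512) (nat_lit 0) (XT.nd (nat_lit 94) (nat_lit 588) (nat_lit 0) (XT.lf (nat_lit 0) (nat_lit 12304958) (nat_lit 588) (nat_lit 1084038595) (nat_lit 84) (nat_lit 5906818569) (nat_lit 149) (nat_lit 5) (nat_lit 156) (nat_lit 5) (nat_lit 150) (nat_lit 5) (nat_lit 304) (nat_lit 289) (nat_lit 268)) (XT.nd (nat_lit 94) (nat_lit 0) (nat_lit 0) (XT.lf (nat_lit 0) (nat_lit 1834859917) (nat_lit 672) (nat_lit 5112582403) (nat_lit 84) (nat_lit 120223312) (nat_lit 142) (nat_lit 5) (nat_lit 150) (nat_lit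 5) (nat_lit 143) (nat_lit 5) (nat_lit 305) (nat_lit 289) (nat_lit 267)) (XT.lf (nat_lit 0) (nat_lit 3673515885) (nat_lit 672) (nat_lit 2081519625) (nat_lit 84) (nat_lit 1380834091) (nat_lit 142) (nat_lit 5) (nat_lit 150) (nat_lit 5) (nat_lit 143) (nat_lit 5) (nat_lit 306) (nat_lit 289) (nat_lit 266)))) (XT.nd (nat_lit 188) (nat_lit 756) (nat_lit 0) (XT.nd (nat_lit 94) (nat_lit 84) (nat_lit 0) (XT.lf (nat_lit 0) (nat_lit 1017674589) (nat_lit 672) (nat_lit 4500444522) (nat_lit 756) (nat_lit 1690086389) (nat_lit 134) (nat_lit 5) (nat_lit 142) (nat_lit 5) (nat_lit 143) (nat_lit 5) (nat_lit 307) (nat_lit 289) (nat_lit 265)) (XT.lf (nat_lit 0) (nat_lit 95519887) (nat_lit 756) (nat_lit 3074147259) (nat_lit 84) (nat_lit 4114687749) (nat_lit 133) (nat_lit 5) (nat_lit 142) (nat_lit 5) (nat_lit 134) (nat_lit 5) (nat_lit 308) (nat_lit 289) (nat_lit 264))) (XT.nd (nat_lit 94) (nat_lit 0) (nat_lit 0) (XT.lf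 (nat_lit 0) (nat_lit 77013873) (nat_lit 756) (nat_lit 1766163097) (nat_lit 840) (nat_lit 5521353119) (nat_lit 124) (nat_lit 5) (nat_lit 133) (nat_lit 5) (nat_lit 134) (nat_lit 5) (nat_lit 309) (nat_lit 289) (nat_lit 263)) (XT.lf (nat_lit 0) (nat_lit 3345401532) (nat_lit 756) (nat_lit 274057928) (nat_lit 840) (nat_lit 3828908379) (nat_lit 124) (nat_lit 5) (nat_lit 133) (nat_lit 5) (nat_lit 134) (nat_lit 5) (nat_lit 310) (nat_lit 289) (nat_lit 262))))) (XT.nd (nat_lit 376) (nat_lit 1092) (nat_lit 0) (XT.nd (nat_lit 188) (nat_lit 1008) (nat_lit 0) (XT.nd (nat_lit 94) (nat_lit 840) (nat_lit 0) (XT.lf (nat_lit 0) (nat_lit 5407557651) (nat_lit 840) (nat_lit 878717275) (nat_lit 84) (nat_lit 1250243790) (nat_lit 124) (nat_lit 5) (nat_lit 134) (nat_lit 5) (nat_lit 125) (nat_lit 5) (nat_lit 311) (nat_lit 289) (nat_lit 261)) (XT.lf (nat_lit 0) (nat_lit 2446897710) (nat_lit 840) (nat_lit 4777152099) (nat_lit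 924) (nat_lit 404552818) (nat_lit 114) (nat_lit 5) (nat_lit 124) (nat_lit 5) (nat_lit 125) (nat_lit 5) (nat_lit 312) (nat_lit 289) (nat_lit 260))) (XT.nd (nat_lit 94) (nat_lit 924) (nat_lit 0) (XT.lf (nat_lit 0) (nat_lit 1301093954) (nat_lit 924) (nat_lit 1888812150) (nat_lit 84) (nat_lit 4534934483) (nat_lit 113) (nat_lit 5) (nat_lit 124) (nat_lit 5) (nat_lit 114) (nat_lit 5) (nat_lit 313) (nat_lit 289) (nat_lit 259)) (XT.lf (nat_lit 0) (nat_lit 1487300574) (nat_lit 924) (nat_lit 1526469226) (nat_lit 1008) (nat_lit 4811655080) (nat_lit 102) (nat_lit 5) (nat_lit 113) (nat_lit 5) (nat_lit 114) (nat_lit 5) (nat_lit 314) (nat_lit 289) (nat_lit 258)))) (XT.nd (nat_lit 188) (nat_lit 84) (nat_lit 0) (XT.nd (nat_lit 94) (nat_lit 1008) (nat_lit 0) (XT.lf (nat_lit 0) (nat_lit 4750327562) (nat_lit 1008) (nat_lit 2968680259) (nat_lit 84) (nat_lit 211345579) (nat_lit 102) (nat_lit 5) (nat_lit 114) (nat_lit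 5) (nat_lit 103) (nat_lit 5) (nat_lit 315) (nat_lit 289) (nat_lit 257)) (XT.lf (nat_lit 0) (nat_lit 453932595) (nat_lit 1008) (nat_lit 6057436400) (nat_lit 1092) (nat_lit 1528386479) (nat_lit 90) (nat_lit 5) (nat_lit 102) (nat_lit 5) (nat_lit 103) (nat_lit 5) (nat_lit 316) (nat_lit 289) (nat_lit 256))) (XT.nd (nat_lit 94) (nat_lit 0) (nat_lit 0) (XT.lf (nat_lit 0) (nat_lit 153034334) (nat_lit 1092) (nat_lit 4153723134) (nat_lit 84) (nat_lit 3846585450) (nat_lit 89) (nat_lit 5) (nat_lit 102) (nat_lit 5) (nat_lit 90) (nat_lit 5) (nat_lit 317) (nat_lit 289) (nat_lit 255)) (XT.lf (nat_lit 0) (nat_lit 1807102234) (nat_lit 1092) (nat_lit 675155052) (nat_lit 84) (nat_lit 5789473012) (nat_lit 89) (nat_lit 5) (nat_lit 102) (nat_lit 5) (nat_lit 90) (nat_lit 5) (nat_lit 318) (nat_lit 289) (nat_lit 254))))))) (XT.nd (nat_lit 1316) (nat_lit 1176) (nat_lit 0) (XT.nd (nat_lit 658) (nat_lit 1260) (nat_lit 0) (XT.nd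 (nat_lit 282) (nat_lit 588) (nat_lit 0) (XT.nd (nat_lit 94) (nat_lit 504) (nat_lit 0) (XT.lf (nat_lit 0) (nat_lit 2927263371) (nat_lit 588) (nat_lit 567928009) (nat_lit 672) (nat_lit 4899406397) (nat_lit 82) (nat_lit 5) (nat_lit 89) (nat_lit 5) (nat_lit 90) (nat_lit 5) (nat_lit 319) (nat_lit 289) (nat_lit 253)) (XT.nd (nat_lit 94) (nat_lit 504) (nat_lit 0) (XT.lf (nat_lit 0) (nat_lit 5211379897) (nat_lit 672) (nat_lit 1923631047) (nat_lit 84) (nat_lit 1387281291) (nat_lit 82) (nat_lit 5) (nat_lit 90) (nat_lit 5) (nat_lit 83) (nat_lit 5) (nat_lit 320) (nat_lit 289) (nat_lit 252)) (XT.lf (nat_lit 0) (nat_lit 1715789913) (nat_lit 504) (nat_lit 5243875839) (nat_lit 588) (nat_lit 1695192597) (nat_lit 76) (nat_lit 5) (nat_lit 82) (nat_lit 5) (nat_lit 83) (nat_lit 5) (nat_lit 321) (nat_lit 289) (nat_lit 251)))) (XT.nd (nat_lit 188) (nat_lit 0) (nat_lit 0) (XT.nd (nat_lit 94) (nat_lit 588) (nat_lit 0)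 (XT.lf (nat_lit 0) (nat_lit 5466349216) (nat_lit 504) (nat_lit 3272843849) (nat_lit 588) (nat_lit 53303670) (nat_lit 76) (nat_lit 5) (nat_lit 82) (nat_lit 5) (nat_lit 83) (nat_lit 5) (nat_lit 322) (nat_lit 289) (nat_lit 250)) (XT.lf (nat_lit 0) (nat_lit 347210518) (nat_lit 504) (nat_lit 1220279951) (nat_lit 588) (nat_lit 7367851296) (nat_lit 69) (nat_lit 5) (nat_lit 75) (nat_lit 5) (nat_lit 76) (nat_lit 5) (nat_lit 323) (nat_lit 289) (nat_lit 249))) (XT.nd (nat_lit 94) (nat_lit 0) (nat_lit 0) (XT.lf (nat_lit 0) (nat_lit 3239833576) (nat_lit 588) (nat_lit 4929752057) (nat_lit 84) (nat_lit 913166827) (nat_lit 69) (nat_lit 5) (nat_lit 76) (nat_lit 5) (nat_lit 70) (nat_lit 5) (nat_lit 324) (nat_lit 289) (nat_lit 248)) (XT.lf (nat_lit 0) (nat_lit 4936199984) (nat_lit 588) (nat_lit 1212520073) (nat_lit 84) (nat_lit 3087097466) (nat_lit 69) (nat_lit 5) (nat_lit 76) (nat_lit 5) (nat_lit 70) (nat_lit 5)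 (nat_lit 325) (nat_lit 289) (nat_lit 247))))) (XT.nd (nat_lit 282) (nat_lit 336) (nat_lit 0) (XT.nd (nat_lit 94) (nat_lit 504) (nat_lit 0) (XT.lf (nat_lit 0) (nat_lit 2632167183) (nat_lit 420) (nat_lit 4040009798) (nat_lit 504) (nat_lit 2722068459) (nat_lit 64) (nat_lit 5) (nat_lit 69) (nat_lit 5) (nat_lit 70) (nat_lit 5) (nat_lit 326) (nat_lit 289) (nat_lit 246)) (XT.nd (nat_lit 94) (nat_lit 504) (nat_lit 0) (XT.lf (nat_lit 0) (nat_lit 6581346490) (nat_lit 420) (nat_lit 1854965351) (nat_lit 504) (nat_lit 1122277237) (nat_lit 64) (nat_lit 5) (nat_lit 69) (nat_lit 5) (nat_lit 70) (nat_lit 5) (nat_lit 327) (nat_lit 289) (nat_lit 245)) (XT.lf (nat_lit 0) (nat_lit 491718554) (nat_lit 504) (nat_lit 8835399796) (nat_lit 84) (nat_lit 401711449) (nat_lit 58) (nat_lit 5) (nat_lit 64) (nat_lit 5) (nat_lit 59) (nat_lit 5) (nat_lit 328) (nat_lit 289) (nat_lit 244)))) (XT.nd (nat_lit 188) (nat_lit 336) (nat_lit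 0) (XT.nd (nat_lit 94) (nat_lit 0) (nat_lit 0) (XT.lf (nat_lit 0) (nat_lit 2145774715) (nat_lit 504) (nat_lit 5028003244) (nat_lit 84) (nat_lit 2729991468) (nat_lit 58) (nat_lit 5) (nat_lit 64) (nat_lit 5) (nat_lit 59) (nat_lit 5) (nat_lit 329) (nat_lit 289) (nat_lit 243)) (XT.lf (nat_lit 0) (nat_lit 3815192712) (nat_lit 504) (nat_lit 1142402838) (nat_lit 84) (nat_lit 5127835008) (nat_lit 58) (nat_lit 5) (nat_lit 64) (nat_lit 5) (nat_lit 59) (nat_lit 5) (nat_lit 330) (nat_lit 289) (nat_lit 242))) (XT.nd (nat_lit 94) (nat_lit 0) (nat_lit 0) (XT.lf (nat_lit 0) (nat_lit 2883111480) (nat_lit 336) (nat_lit 2647017959) (nat_lit 420) (nat_lit 4742966452) (nat_lit 54) (nat_lit 5) (nat_lit 58) (nat_lit 5) (nat_lit 59) (nat_lit 5) (nat_lit 331) (nat_lit 289) (nat_lit 241)) (XT.lf (nat_lit 0) (nat_lit 7019398184) (nat_lit 336) (nat_lit 256589384) (nat_lit 420) (nat_lit 3191454852) (nat_lit 54) (nat_lit 5)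 (nat_lit 58) (nat_lit 5) (nat_lit 59) (nat_lit 5) (nat_lit 332) (nat_lit 289) (nat_lit 240)))))) (XT.nd (nat_lit 50008) (nat_lit 0) (nat_lit 10164) (XT.nd (nat_lit 282) (nat_lit 672) (nat_lit 0) (XT.nd (nat_lit 94) (nat_lit 84) (nat_lit 0) (XT.lf (nat_lit 0) (nat_lit 567380299) (nat_lit 420) (nat_lit 8502940696) (nat_lit 504) (nat_lit 1597836578) (nat_lit 49) (nat_lit 5) (nat_lit 54) (nat_lit 5) (nat_lit 55) (nat_lit 5) (nat_lit 333) (nat_lit 289) (nat_lit 239)) (XT.nd (nat_lit 94) (nat_lit 0) (nat_lit 0) (XT.lf (nat_lit 0) (nat_lit 50207175) (nat_lit 504) (nat_lit 6135735490) (nat_lit 84) (nat_lit 4689113237) (nat_lit 48) (nat_lit 5) (nat_lit 54) (nat_lit 5) (nat_lit 49) (nat_lit 5) (nat_lit 334) (nat_lit 289) (nat_lit 238)) (XT.lf (nat_lit 0) (nat_lit 1684093936) (nat_lit 504) (nat_lit 2101651420) (nat_lit 84) (nat_lit 7303263910) (nat_lit 48) (nat_lit 5) (nat_lit 54) (nat_lit 5) (nat_lit 49)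 (nat_lit 5) (nat_lit 335) (nat_lit 289) (nat_lit 237)))) (XT.nd (nat_lit 188) (nat_lit 336) (nat_lit 0) (XT.nd (nat_lit 94) (nat_lit 0) (nat_lit 0) (XT.lf (nat_lit 0) (nat_lit 2062643533) (nat_lit 336) (nat_lit 1295357649) (nat_lit 420) (nat_lit 7952072968) (nat_lit 44) (nat_lit 5) (nat_lit 48) (nat_lit 5) (nat_lit 49) (nat_lit 5) (nat_lit 336) (nat_lit 289) (nat_lit 236)) (XT.lf (nat_lit 0) (nat_lit 5088012491) (nat_lit 420) (nat_lit 5186642492) (nat_lit 84) (nat_lit 1263351404) (nat_lit 44) (nat_lit 5) (nat_lit 49) (nat_lit 5) (nat_lit 45) (nat_lit 5) (nat_lit 337) (nat_lit 289) (nat_lit 235))) (XT.nd (nat_lit 94) (nat_lit 336) (nat_lit 0) (XT.lf (nat_lit 0) (nat_lit 6855252703) (nat_lit 420) (nat_lit 1049174715) (nat_lit 84) (nat_lit 3869226137) (nat_lit 44) (nat_lit 5) (nat_lit 49) (nat_lit 5) (nat_lit 45) (nat_lit 5) (nat_lit 338) (nat_lit 289) (nat_lit 234)) (XT.lf (nat_lit 0) (nat_lit 3247101227)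 (nat_lit 336) (nat_lit 5433629380) (nat_lit 420) (nat_lit 3335904484) (nat_lit 40) (nat_lit 5) (nat_lit 44) (nat_lit 5) (nat_lit 45) (nat_lit 5) (nat_lit 339) (nat_lit 289) (nat_lit 233))))) (XT.nd (nat_lit 376) (nat_lit 420) (nat_lit 0) (XT.nd (nat_lit 188) (nat_lit 336) (nat_lit 0) (XT.nd (nat_lit 94) (nat_lit 0) (nat_lit 0) (XT.lf (nat_lit 0) (nat_lit 197862263) (nat_lit 0) (nat_lit 197862263) (nat_lit 252) (nat_lit 2848197012) (nat_lit 170) (nat_lit 5) (nat_lit 170) (nat_lit 3) (nat_lit 173) (nat_lit 3) (nat_lit 290) (nat_lit 290) (nat_lit 281)) (XT.lf (nat_lit 0) (nat_lit 2874433228) (nat_lit 0) (nat_lit 37584053) (nat_lit 252) (nat_lit 3592327123) (nat_lit 170) (nat_lit 5) (nat_lit 170) (nat_lit 3) (nat_lit 173) (nat_lit 3) (nat_lit 291) (nat_lit 290) (nat_lit 280))) (XT.nd (nat_lit 94) (nat_lit 336) (nat_lit 0) (XT.lf (nat_lit 0) (nat_lit 5017079480) (nat_lit 252) (nat_lit 1140951668) (nat_lit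 336) (nat_lit 366598322) (nat_lit 170) (nat_lit 5) (nat_lit 173) (nat_lit 3) (nat_lit 174) (nat_lit 5) (nat_lit 292) (nat_lit 290) (nat_lit 279)) (XT.lf (nat_lit 0) (nat_lit 559877772) (nat_lit 336) (nat_lit 5145779358) (nat_lit 420) (nat_lit 842538273) (nat_lit 166) (nat_lit 5) (nat_lit 170) (nat_lit 5) (nat_lit 171) (nat_lit 5) (nat_lit 293) (nat_lit 290) (nat_lit 278)))) (XT.nd (nat_lit 188) (nat_lit 420) (nat_lit 0) (XT.nd (nat_lit 94) (nat_lit 0) (nat_lit 0) (XT.lf (nat_lit 0) (nat_lit 2590631323) (nat_lit 336) (nat_lit 2585650490) (nat_lit 420) (nat_lit 1398572695) (nat_lit 166) (nat_lit 5) (nat_lit 170) (nat_lit 5) (nat_lit 171) (nat_lit 5) (nat_lit 294) (nat_lit 290) (nat_lit 277)) (XT.lf (nat_lit 84) (nat_lit 8620282) (nat_lit 0) (nat_lit 4596773289) (nat_lit 420) (nat_lit 2000060768) (nat_lit 167) (nat_lit 5) (nat_lit 166) (nat_lit 5) (nat_lit 171) (nat_lit 5) (nat_lit 295) (nat_lit 290)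 (nat_lit 276))) (XT.nd (nat_lit 94) (nat_lit 420) (nat_lit 0) (XT.lf (nat_lit 84) (nat_lit 2693191703) (nat_lit 0) (nat_lit 3939310956) (nat_lit 420) (nat_lit 6700494) (nat_lit 167) (nat_lit 5) (nat_lit 166) (nat_lit 5) (nat_lit 171) (nat_lit 5) (nat_lit 296) (nat_lit 290) (nat_lit 275)) (XT.lf (nat_lit 0) (nat_lit 1931021017) (nat_lit 420) (nat_lit 1279093962) (nat_lit 504) (nat_lit 3466222881) (nat_lit 161) (nat_lit 5) (nat_lit 166) (nat_lit 5) (nat_lit 167) (nat_lit 5) (nat_lit 297) (nat_lit 290) (nat_lit 274))))))))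
noncomputable def xc15 : XT := (XT.nd (nat_lit 2726) (nat_lit 2016) (nat_lit 0) (XT.nd (nat_lit 1316) (nat_lit 5040) (nat_lit 0) (XT.nd (nat_lit 658) (nat_lit 2100) (nat_lit 0) (XT.nd (nat_lit 282) (nat_lit 504) (nat_lit 0) (XT.nd (nat_lit 94) (nat_lit 504) (nat_lit 0) (XT.lf (nat_lit 84) (nat_lit 1455368053) (nat_lit 0) (nat_lit 2413870943) (nat_lit 504) (nat_lit 2847815401) (nat_lit 162) (nat_lit 5) (nat_lit 161) (nat_lit 5) (nat_lit 167) (nat_lit 5) (nat_lit 298) (nat_lit 290) (nat_lit 273)) (XT.nd (nat_lit 94) (nat_lit 504) (nat_lit 0) (XT.lf (nat_lit 84) (nat_lit 4257780053) (nat_lit 0) (nat_lit 1551026969) (nat_lit 504) (nat_lit 952619484) (nat_lit 162) (nat_lit 5) (nat_lit 161) (nat_lit 5) (nat_lit 167) (nat_lit 5) (nat_lit 299) (nat_lit 290) (nat_lit 272)) (XT.lf (nat_lit 84) (nat_lit 291210963) (nat_lit 0) (nat_lit 621653235) (nat_lit 588) (nat_lit 5896657640) (nat_lit 156) (nat_lit 5)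 (nat_lit 155) (nat_lit 5) (nat_lit 162) (nat_lit 5) (nat_lit 300) (nat_lit 290) (nat_lit 271)))) (XT.nd (nat_lit 188) (nat_lit 588) (nat_lit 0) (XT.nd (nat_lit 94) (nat_lit 0) (nat_lit 0) (XT.lf (nat_lit 0) (nat_lit 2776903878) (nat_lit 504) (nat_lit 3692953105) (nat_lit 84) (nat_lit 390695641) (nat_lit 156) (nat_lit 5) (nat_lit 162) (nat_lit 5) (nat_lit 157) (nat_lit 5) (nat_lit 301) (nat_lit 290) (nat_lit 270)) (XT.lf (nat_lit 0) (nat_lit 4637943778) (nat_lit 504) (nat_lit 832042641) (nat_lit 84) (nat_lit 1445570041) (nat_lit 156) (nat_lit 5) (nat_lit 162) (nat_lit 5) (nat_lit 157) (nat_lit 5) (nat_lit 302) (nat_lit 290) (nat_lit 269))) (XT.nd (nat_lit 94) (nat_lit 84) (nat_lit 0) (XT.lf (nat_lit 0) (nat_lit 2115884415) (nat_lit 504) (nat_lit 4396657127) (nat_lit 588) (nat_lit 461583564) (nat_lit 150) (nat_lit 5) (nat_lit 156) (nat_lit 5) (nat_lit 157) (nat_lit 5) (nat_lit 303) (nat_lit 290)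 (nat_lit 268)) (XT.lf (nat_lit 0) (nat_lit 1326374061) (nat_lit 588) (nat_lit 1921134268) (nat_lit 84) (nat_lit 3788763922) (nat_lit 149) (nat_lit 5) (nat_lit 156) (nat_lit 5) (nat_lit 150) (nat_lit 5) (nat_lit 304) (nat_lit 290) (nat_lit 267))))) (XT.nd (nat_lit 282) (nat_lit 840) (nat_lit 0) (XT.nd (nat_lit 94) (nat_lit 672) (nat_lit 0) (XT.lf (nat_lit 0) (nat_lit 1079782623) (nat_lit 588) (nat_lit 2028326385) (nat_lit 672) (nat_lit 3994153004) (nat_lit 142) (nat_lit 5) (nat_lit 149) (nat_lit 5) (nat_lit 150) (nat_lit 5) (nat_lit 305) (nat_lit 290) (nat_lit 266)) (XT.nd (nat_lit 94) (nat_lit 672) (nat_lit 0) (XT.lf (nat_lit 0) (nat_lit 4170629081) (nat_lit 588) (nat_lit 733181281) (nat_lit 672) (nat_lit 2268201405) (nat_lit 142) (nat_lit 5) (nat_lit 149) (nat_lit 5) (nat_lit 150) (nat_lit 5) (nat_lit 306) (nat_lit 290) (nat_lit 265)) (XT.lf (nat_lit 0) (nat_lit 63736957) (nat_lit 672) (nat_lit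 6638738829) (nat_lit 756) (nat_lit 543503700) (nat_lit 134) (nat_lit 5) (nat_lit 142) (nat_lit 5) (nat_lit 143) (nat_lit 5) (nat_lit 307) (nat_lit 290) (nat_lit 264)))) (XT.nd (nat_lit 188) (nat_lit 756) (nat_lit 0) (XT.nd (nat_lit 94) (nat_lit 0) (nat_lit 0) (XT.lf (nat_lit 0) (nat_lit 1189971502) (nat_lit 756) (nat_lit 4099929556) (nat_lit 84) (nat_lit 2032970596) (nat_lit 133) (nat_lit 5) (nat_lit 142) (nat_lit 5) (nat_lit 134) (nat_lit 5) (nat_lit 308) (nat_lit 290) (nat_lit 263)) (XT.lf (nat_lit 0) (nat_lit 2908707483) (nat_lit 756) (nat_lit 972334082) (nat_lit 84) (nat_lit 3523091406) (nat_lit 133) (nat_lit 5) (nat_lit 142) (nat_lit 5) (nat_lit 134) (nat_lit 5) (nat_lit 309) (nat_lit 290) (nat_lit 262))) (XT.nd (nat_lit 94) (nat_lit 0) (nat_lit 0) (XT.lf (nat_lit 0) (nat_lit 2254269262) (nat_lit 756) (nat_lit 2393350038) (nat_lit 840) (nat_lit 2841693780) (nat_lit 124) (nat_lit 5) (nat_lit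 133) (nat_lit 5) (nat_lit 134) (nat_lit 5) (nat_lit 310) (nat_lit 290) (nat_lit 261)) (XT.lf (nat_lit 0) (nat_lit 5558583236) (nat_lit 756) (nat_lit 837777666) (nat_lit 840) (nat_lit 1182501449) (nat_lit 124) (nat_lit 5) (nat_lit 133) (nat_lit 5) (nat_lit 134) (nat_lit 5) (nat_lit 311) (nat_lit 290) (nat_lit 260)))))) (XT.nd (nat_lit 658) (nat_lit 2100) (nat_lit 0) (XT.nd (nat_lit 282) (nat_lit 1092) (nat_lit 0) (XT.nd (nat_lit 94) (nat_lit 924) (nat_lit 0) (XT.lf (nat_lit 0) (nat_lit 484505548) (nat_lit 924) (nat_lit 6409073233) (nat_lit 84) (nat_lit 778809585) (nat_lit 113) (nat_lit 5) (nat_lit 124) (nat_lit 5) (nat_lit 114) (nat_lit 5) (nat_lit 312) (nat_lit 290) (nat_lit 259)) (XT.nd (nat_lit 94) (nat_lit 924) (nat_lit 0) (XT.lf (nat_lit 0) (nat_lit 2156301499) (nat_lit 924) (nat_lit 3142196577) (nat_lit 84) (nat_lit 2470963270) (nat_lit 113) (nat_lit 5) (nat_lit 124) (nat_lit 5) (nat_lit 114)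 (nat_lit 5) (nat_lit 313) (nat_lit 290) (nat_lit 258)) (XT.lf (nat_lit 0) (nat_lit 186363853) (nat_lit 924) (nat_lit 3644780798) (nat_lit 1008) (nat_lit 4040231640) (nat_lit 102) (nat_lit 5) (nat_lit 113) (nat_lit 5) (nat_lit 114) (nat_lit 5) (nat_lit 314) (nat_lit 290) (nat_lit 257)))) (XT.nd (nat_lit 188) (nat_lit 1092) (nat_lit 0) (XT.nd (nat_lit 94) (nat_lit 0) (nat_lit 0) (XT.lf (nat_lit 0) (nat_lit 3641817179) (nat_lit 924) (nat_lit 1899358254) (nat_lit 1008) (nat_lit 2436104808) (nat_lit 102) (nat_lit 5) (nat_lit 113) (nat_lit 5) (nat_lit 114) (nat_lit 5) (nat_lit 315) (nat_lit 290) (nat_lit 256)) (XT.lf (nat_lit 0) (nat_lit 7162774237) (nat_lit 924) (nat_lit 93401614) (nat_lit 1008) (nat_lit 832082225) (nat_lit 102) (nat_lit 5) (nat_lit 113) (nat_lit 5) (nat_lit 114) (nat_lit 5) (nat_lit 316) (nat_lit 290) (nat_lit 255))) (XT.nd (nat_lit 94) (nat_lit 0) (nat_lit 0) (XT.lf (nat_lit 0) (nat_lit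 801417395) (nat_lit 1092) (nat_lit 5628656948) (nat_lit 84) (nat_lit 1772747399) (nat_lit 89) (nat_lit 5) (nat_lit 102) (nat_lit 5) (nat_lit 90) (nat_lit 5) (nat_lit 317) (nat_lit 290) (nat_lit 254)) (XT.lf (nat_lit 0) (nat_lit 2432691758) (nat_lit 1092) (nat_lit 2171242536) (nat_lit 84) (nat_lit 3718116923) (nat_lit 89) (nat_lit 5) (nat_lit 102) (nat_lit 5) (nat_lit 90) (nat_lit 5) (nat_lit 318) (nat_lit 290) (nat_lit 253))))) (XT.nd (nat_lit 376) (nat_lit 924) (nat_lit 0) (XT.nd (nat_lit 188) (nat_lit 588) (nat_lit 0) (XT.nd (nat_lit 94) (nat_lit 0) (nat_lit 0) (XT.lf (nat_lit 0) (nat_lit 1379473753) (nat_lit 588) (nat_lit 2703844703) (nat_lit 672) (nat_lit 4362892995) (nat_lit 82) (nat_lit 5) (nat_lit 89) (nat_lit 5) (nat_lit 90) (nat_lit 5) (nat_lit 319) (nat_lit 290) (nat_lit 252)) (XT.lf (nat_lit 0) (nat_lit 5045042042) (nat_lit 588) (nat_lit 718775040) (nat_lit 672) (nat_lit 2811322682)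 (nat_lit 82) (nat_lit 5) (nat_lit 89) (nat_lit 5) (nat_lit 90) (nat_lit 5) (nat_lit 320) (nat_lit 290) (nat_lit 251))) (XT.nd (nat_lit 94) (nat_lit 84) (nat_lit 0) (XT.lf (nat_lit 0) (nat_lit 62660172) (nat_lit 504) (nat_lit 7404931925) (nat_lit 588) (nat_lit 1241617253) (nat_lit 76) (nat_lit 5) (nat_lit 82) (nat_lit 5) (nat_lit 83) (nat_lit 5) (nat_lit 321) (nat_lit 290) (nat_lit 250)) (XT.lf (nat_lit 0) (nat_lit 371327834) (nat_lit 588) (nat_lit 5058423754) (nat_lit 84) (nat_lit 3417736624) (nat_lit 75) (nat_lit 5) (nat_lit 82) (nat_lit 5) (nat_lit 76) (nat_lit 5) (nat_lit 322) (nat_lit 290) (nat_lit 249)))) (XT.nd (nat_lit 188) (nat_lit 420) (nat_lit 0) (XT.nd (nat_lit 94) (nat_lit 504) (nat_lit 0) (XT.lf (nat_lit 0) (nat_lit 1967352192) (nat_lit 588) (nat_lit 1412788604) (nat_lit 84) (nat_lit 5611023441) (nat_lit 75) (nat_lit 5) (nat_lit 82) (nat_lit 5) (nat_lit 76) (nat_lit 5) (nat_lit 323)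 (nat_lit 290) (nat_lit 248)) (XT.lf (nat_lit 0) (nat_lit 2353488939) (nat_lit 504) (nat_lit 1242817262) (nat_lit 588) (nat_lit 5543723215) (nat_lit 69) (nat_lit 5) (nat_lit 75) (nat_lit 5) (nat_lit 76) (nat_lit 5) (nat_lit 324) (nat_lit 290) (nat_lit 247))) (XT.nd (nat_lit 94) (nat_lit 420) (nat_lit 0) (XT.lf (nat_lit 0) (nat_lit 5261097921) (nat_lit 588) (nat_lit 3077073744) (nat_lit 84) (nat_lit 956007763) (nat_lit 69) (nat_lit 5) (nat_lit 76) (nat_lit 5) (nat_lit 70) (nat_lit 5) (nat_lit 325) (nat_lit 290) (nat_lit 246)) (XT.lf (nat_lit 0) (nat_lit 709383749) (nat_lit 420) (nat_lit 6249949813) (nat_lit 504) (nat_lit 2494546708) (nat_lit 64) (nat_lit 5) (nat_lit 69) (nat_lit 5) (nat_lit 70) (nat_lit 5) (nat_lit 326) (nat_lit 290) (nat_lit 245))))))) (XT.nd (nat_lit 50760) (nat_lit 0) (nat_lit 8568) (XT.nd (nat_lit 658) (nat_lit 1176) (nat_lit 0) (XT.nd (nat_lit 282) (nat_lit 336) (nat_lit 0)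 (XT.nd (nat_lit 94) (nat_lit 504) (nat_lit 0) (XT.lf (nat_lit 0) (nat_lit 4639270412) (nat_lit 420) (nat_lit 4065900798) (nat_lit 504) (nat_lit 913719758) (nat_lit 64) (nat_lit 5) (nat_lit 69) (nat_lit 5) (nat_lit 70) (nat_lit 5) (nat_lit 327) (nat_lit 290) (nat_lit 244)) (XT.nd (nat_lit 94) (nat_lit 420) (nat_lit 0) (XT.lf (nat_lit 0) (nat_lit 665079108) (nat_lit 504) (nat_lit 1144086027) (nat_lit 84) (nat_lit 7980957193) (nat_lit 63) (nat_lit 5) (nat_lit 69) (nat_lit 5) (nat_lit 64) (nat_lit 5) (nat_lit 328) (nat_lit 290) (nat_lit 243)) (XT.lf (nat_lit 0) (nat_lit 2271803950) (nat_lit 504) (nat_lit 7152238804) (nat_lit 84) (nat_lit 542577582) (nat_lit 58) (nat_lit 5) (nat_lit 64) (nat_lit 5) (nat_lit 59) (nat_lit 5) (nat_lit 329) (nat_lit 290) (nat_lit 242)))) (XT.nd (nat_lit 188) (nat_lit 0) (nat_lit 0) (XT.nd (nat_lit 94) (nat_lit 336) (nat_lit 0) (XT.lf (nat_lit 0) (nat_lit 3924070765) (nat_lit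 504) (nat_lit 3285657586) (nat_lit 84) (nat_lit 2939173171) (nat_lit 58) (nat_lit 5) (nat_lit 64) (nat_lit 5) (nat_lit 59) (nat_lit 5) (nat_lit 330) (nat_lit 290) (nat_lit 241)) (XT.lf (nat_lit 0) (nat_lit 676960382) (nat_lit 336) (nat_lit 4923526336) (nat_lit 420) (nat_lit 4737359994) (nat_lit 54) (nat_lit 5) (nat_lit 58) (nat_lit 5) (nat_lit 59) (nat_lit 5) (nat_lit 331) (nat_lit 290) (nat_lit 240))) (XT.nd (nat_lit 94) (nat_lit 0) (nat_lit 0) (XT.lf (nat_lit 0) (nat_lit 4794986528) (nat_lit 336) (nat_lit 2535041884) (nat_lit 420) (nat_lit 3202753773) (nat_lit 54) (nat_lit 5) (nat_lit 58) (nat_lit 5) (nat_lit 59) (nat_lit 5) (nat_lit 332) (nat_lit 290) (nat_lit 239)) (XT.lf (nat_lit 0) (nat_lit 9004699424) (nat_lit 336) (nat_lit 76344206) (nat_lit 420) (nat_lit 1653877208) (nat_lit 54) (nat_lit 5) (nat_lit 58) (nat_lit 5) (nat_lit 59) (nat_lit 5) (nat_lit 333) (nat_lit 290) (nat_lit 238)))))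 (XT.nd (nat_lit 282) (nat_lit 672) (nat_lit 0) (XT.nd (nat_lit 94) (nat_lit 84) (nat_lit 0) (XT.lf (nat_lit 0) (nat_lit 2389359649) (nat_lit 420) (nat_lit 8513860094) (nat_lit 504) (nat_lit 39741628) (nat_lit 49) (nat_lit 5) (nat_lit 54) (nat_lit 5) (nat_lit 55) (nat_lit 5) (nat_lit 334) (nat_lit 290) (nat_lit 237)) (XT.nd (nat_lit 94) (nat_lit 0) (nat_lit 0) (XT.lf (nat_lit 0) (nat_lit 1579637278) (nat_lit 504) (nat_lit 4537047287) (nat_lit 84) (nat_lit 5040790534) (nat_lit 48) (nat_lit 5) (nat_lit 54) (nat_lit 5) (nat_lit 49) (nat_lit 5) (nat_lit 335) (nat_lit 290) (nat_lit 236)) (XT.lf (nat_lit 0) (nat_lit 3218234583) (nat_lit 504) (nat_lit 431694948) (nat_lit 84) (nat_lit 7729776426) (nat_lit 48) (nat_lit 5) (nat_lit 54) (nat_lit 5) (nat_lit 49) (nat_lit 5) (nat_lit 336) (nat_lit 290) (nat_lit 235)))) (XT.nd (nat_lit 188) (nat_lit 336) (nat_lit 0) (XT.nd (nat_lit 94) (nat_lit 0) (nat_lit 0)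 (XT.lf (nat_lit 0) (nat_lit 3844126741) (nat_lit 336) (nat_lit 1072385806) (nat_lit 420) (nat_lit 6692178601) (nat_lit 44) (nat_lit 5) (nat_lit 48) (nat_lit 5) (nat_lit 49) (nat_lit 5) (nat_lit 337) (nat_lit 290) (nat_lit 234)) (XT.lf (nat_lit 0) (nat_lit 6658954835) (nat_lit 420) (nat_lit 3633629866) (nat_lit 84) (nat_lit 1552589487) (nat_lit 44) (nat_lit 5) (nat_lit 49) (nat_lit 5) (nat_lit 45) (nat_lit 5) (nat_lit 338) (nat_lit 290) (nat_lit 233))) (XT.nd (nat_lit 49538) (nat_lit 0) (nat_lit 10920) (XT.lf (nat_lit 0) (nat_lit 592506787) (nat_lit 336) (nat_lit 7851858078) (nat_lit 420) (nat_lit 3645098085) (nat_lit 40) (nat_lit 5) (nat_lit 44) (nat_lit 5) (nat_lit 45) (nat_lit 5) (nat_lit 339) (nat_lit 290) (nat_lit 232)) (XT.lf (nat_lit 0) (nat_lit 1247689075) (nat_lit 0) (nat_lit 1247689075) (nat_lit 252) (nat_lit 765878603) (nat_lit 170) (nat_lit 5) (nat_lit 170) (nat_lit 3) (nat_lit 173)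 (nat_lit 3) (nat_lit 291) (nat_lit 291) (nat_lit 279)))))) (XT.nd (nat_lit 658) (nat_lit 1596) (nat_lit 0) (XT.nd (nat_lit 282) (nat_lit 336) (nat_lit 0) (XT.nd (nat_lit 94) (nat_lit 0) (nat_lit 0) (XT.lf (nat_lit 0) (nat_lit 496789261) (nat_lit 420) (nat_lit 1561397291) (nat_lit 420) (nat_lit 4486188791) (nat_lit 165) (nat_lit 3) (nat_lit 170) (nat_lit 3) (nat_lit 170) (nat_lit 5) (nat_lit 292) (nat_lit 291) (nat_lit 278)) (XT.nd (nat_lit 94) (nat_lit 0) (nat_lit 0) (XT.lf (nat_lit 84) (nat_lit 941763105) (nat_lit 0) (nat_lit 1542546541) (nat_lit 420) (nat_lit 4085042159) (nat_lit 166) (nat_lit 5) (nat_lit 165) (nat_lit 3) (nat_lit 170) (nat_lit 5) (nat_lit 293) (nat_lit 291) (nat_lit 277)) (XT.lf (nat_lit 84) (nat_lit 3513727061) (nat_lit 0) (nat_lit 956611636) (nat_lit 420) (nat_lit 2127387087) (nat_lit 166) (nat_lit 5) (nat_lit 165) (nat_lit 3) (nat_lit 170) (nat_lit 5) (nat_lit 294) (nat_lit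 291) (nat_lit 276)))) (XT.nd (nat_lit 188) (nat_lit 0) (nat_lit 0) (XT.nd (nat_lit 94) (nat_lit 336) (nat_lit 0) (XT.lf (nat_lit 84) (nat_lit 6124786385) (nat_lit 0) (nat_lit 316133471) (nat_lit 420) (nat_lit 189093912) (nat_lit 166) (nat_lit 5) (nat_lit 165) (nat_lit 3) (nat_lit 170) (nat_lit 5) (nat_lit 295) (nat_lit 291) (nat_lit 275)) (XT.lf (nat_lit 0) (nat_lit 1722111709) (nat_lit 420) (nat_lit 4532206395) (nat_lit 504) (nat_lit 410609177) (nat_lit 161) (nat_lit 5) (nat_lit 166) (nat_lit 5) (nat_lit 167) (nat_lit 5) (nat_lit 296) (nat_lit 291) (nat_lit 274))) (XT.nd (nat_lit 94) (nat_lit 0) (nat_lit 0) (XT.lf (nat_lit 0) (nat_lit 3623326412) (nat_lit 420) (nat_lit 1887208556) (nat_lit 504) (nat_lit 1192943149) (nat_lit 161) (nat_lit 5) (nat_lit 166) (nat_lit 5) (nat_lit 167) (nat_lit 5) (nat_lit 297) (nat_lit 291) (nat_lit 273)) (XT.lf (nat_lit 84) (nat_lit 813117442) (nat_lit 0) (nat_lit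 4706777559) (nat_lit 504) (nat_lit 1225872706) (nat_lit 162) (nat_lit 5) (nat_lit 161) (nat_lit 5) (nat_lit 167) (nat_lit 5) (nat_lit 298) (nat_lit 291) (nat_lit 272))))) (XT.nd (nat_lit 376) (nat_lit 1092) (nat_lit 0) (XT.nd (nat_lit 188) (nat_lit 0) (nat_lit 0) (XT.nd (nat_lit 94) (nat_lit 0) (nat_lit 0) (XT.lf (nat_lit 0) (nat_lit 620792227) (nat_lit 504) (nat_lit 3203217483) (nat_lit 588) (nat_lit 2967275908) (nat_lit 155) (nat_lit 5) (nat_lit 161) (nat_lit 5) (nat_lit 162) (nat_lit 5) (nat_lit 299) (nat_lit 291) (nat_lit 271)) (XT.lf (nat_lit 0) (nat_lit 2430202039) (nat_lit 504) (nat_lit 444984250) (nat_lit 588) (nat_lit 3965302260) (nat_lit 155) (nat_lit 5) (nat_lit 161) (nat_lit 5) (nat_lit 162) (nat_lit 5) (nat_lit 300) (nat_lit 291) (nat_lit 270))) (XT.nd (nat_lit 94) (nat_lit 0) (nat_lit 0) (XT.lf (nat_lit 84) (nat_lit 2405241462) (nat_lit 0) (nat_lit 1847360720) (nat_lit 588) (nat_lit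 2640457491) (nat_lit 156) (nat_lit 5) (nat_lit 155) (nat_lit 5) (nat_lit 162) (nat_lit 5) (nat_lit 301) (nat_lit 291) (nat_lit 269)) (XT.lf (nat_lit 84) (nat_lit 5311709537) (nat_lit 0) (nat_lit 759071487) (nat_lit 588) (nat_lit 878853190) (nat_lit 156) (nat_lit 5) (nat_lit 155) (nat_lit 5) (nat_lit 162) (nat_lit 5) (nat_lit 302) (nat_lit 291) (nat_lit 268)))) (XT.nd (nat_lit 188) (nat_lit 588) (nat_lit 0) (XT.nd (nat_lit 94) (nat_lit 0) (nat_lit 0) (XT.lf (nat_lit 0) (nat_lit 870656114) (nat_lit 588) (nat_lit 5739182317) (nat_lit 84) (nat_lit 399780672) (nat_lit 149) (nat_lit 5) (nat_lit 156) (nat_lit 5) (nat_lit 150) (nat_lit 5) (nat_lit 303) (nat_lit 291) (nat_lit 267)) (XT.lf (nat_lit 0) (nat_lit 2618406540) (nat_lit 588) (nat_lit 2828454038) (nat_lit 84) (nat_lit 1625942680) (nat_lit 149) (nat_lit 5) (nat_lit 156) (nat_lit 5) (nat_lit 150) (nat_lit 5) (nat_lit 304) (nat_lit 291) (nat_lit 266)))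 (XT.nd (nat_lit 94) (nat_lit 0) (nat_lit 0) (XT.lf (nat_lit 0) (nat_lit 132228017) (nat_lit 588) (nat_lit 4228535610) (nat_lit 672) (nat_lit 2779464296) (nat_lit 142) (nat_lit 5) (nat_lit 149) (nat_lit 5) (nat_lit 150) (nat_lit 5) (nat_lit 305) (nat_lit 291) (nat_lit 265)) (XT.lf (nat_lit 0) (nat_lit 3202144813) (nat_lit 588) (nat_lit 2925035916) (nat_lit 672) (nat_lit 1083912510) (nat_lit 142) (nat_lit 5) (nat_lit 149) (nat_lit 5) (nat_lit 150) (nat_lit 5) (nat_lit 306) (nat_lit 291) (nat_lit 264))))))))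
noncomputable def xc16 : XT := (XT.nd (nat_lit 2632) (nat_lit 840) (nat_lit 0) (XT.nd (nat_lit 1316) (nat_lit 2352) (nat_lit 0) (XT.nd (nat_lit 658) (nat_lit 2604) (nat_lit 0) (XT.nd (nat_lit 282) (nat_lit 1680) (nat_lit 0) (XT.nd (nat_lit 94) (nat_lit 672) (nat_lit 0) (XT.lf (nat_lit 0) (nat_lit 592140195) (nat_lit 672) (nat_lit 966348833) (nat_lit 84) (nat_lit 5727678092) (nat_lit 141) (nat_lit 5) (nat_lit 149) (nat_lit 5) (nat_lit 142) (nat_lit 5) (nat_lit 307) (nat_lit 291) (nat_lit 263)) (XT.nd (nat_lit 94) (nat_lit 0) (nat_lit 0) (XT.lf (nat_lit 0) (nat_lit 2161489051) (nat_lit 672) (nat_lit 100673658) (nat_lit 756) (nat_lit 5102546579) (nat_lit 133) (nat_lit 5) (nat_lit 141) (nat_lit 5) (nat_lit 142) (nat_lit 5) (nat_lit 308) (nat_lit 291) (nat_lit 262)) (XT.lf (nat_lit 0) (nat_lit 3952589503) (nat_lit 756) (nat_lit 2095978156) (nat_lit 84) (nat_lit 1398464399) (nat_lit 133) (nat_lit 5)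 (nat_lit 142) (nat_lit 5) (nat_lit 134) (nat_lit 5) (nat_lit 309) (nat_lit 291) (nat_lit 261)))) (XT.nd (nat_lit 188) (nat_lit 924) (nat_lit 0) (XT.nd (nat_lit 94) (nat_lit 0) (nat_lit 0) (XT.lf (nat_lit 0) (nat_lit 1086384845) (nat_lit 756) (nat_lit 4567041595) (nat_lit 840) (nat_lit 1880144388) (nat_lit 124) (nat_lit 5) (nat_lit 133) (nat_lit 5) (nat_lit 134) (nat_lit 5) (nat_lit 310) (nat_lit 291) (nat_lit 260)) (XT.lf (nat_lit 0) (nat_lit 4370198415) (nat_lit 756) (nat_lit 3006073416) (nat_lit 840) (nat_lit 247824028) (nat_lit 124) (nat_lit 5) (nat_lit 133) (nat_lit 5) (nat_lit 134) (nat_lit 5) (nat_lit 311) (nat_lit 291) (nat_lit 259))) (XT.nd (nat_lit 94) (nat_lit 840) (nat_lit 0) (XT.lf (nat_lit 0) (nat_lit 1354314814) (nat_lit 840) (nat_lit 17634768) (nat_lit 84) (nat_lit 6346974718) (nat_lit 123) (nat_lit 5) (nat_lit 133) (nat_lit 5) (nat_lit 124) (nat_lit 5) (nat_lit 312) (nat_lit 291)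 (nat_lit 258)) (XT.lf (nat_lit 0) (nat_lit 2987393252) (nat_lit 924) (nat_lit 4477780138) (nat_lit 84) (nat_lit 352181972) (nat_lit 113) (nat_lit 5) (nat_lit 124) (nat_lit 5) (nat_lit 114) (nat_lit 5) (nat_lit 313) (nat_lit 291) (nat_lit 257))))) (XT.nd (nat_lit 282) (nat_lit 1680) (nat_lit 0) (XT.nd (nat_lit 94) (nat_lit 924) (nat_lit 0) (XT.lf (nat_lit 0) (nat_lit 4636209923) (nat_lit 924) (nat_lit 1173674153) (nat_lit 84) (nat_lit 2110346147) (nat_lit 113) (nat_lit 5) (nat_lit 124) (nat_lit 5) (nat_lit 114) (nat_lit 5) (nat_lit 314) (nat_lit 291) (nat_lit 256)) (XT.nd (nat_lit 94) (nat_lit 0) (nat_lit 0) (XT.lf (nat_lit 0) (nat_lit 2237155960) (nat_lit 924) (nat_lit 4073548325) (nat_lit 1008) (nat_lit 1716680005) (nat_lit 102) (nat_lit 5) (nat_lit 113) (nat_lit 5) (nat_lit 114) (nat_lit 5) (nat_lit 315) (nat_lit 291) (nat_lit 255)) (XT.lf (nat_lit 0) (nat_lit 5738239047) (nat_lit 924) (nat_lit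 2264522862) (nat_lit 1008) (nat_lit 136455467) (nat_lit 102) (nat_lit 5) (nat_lit 113) (nat_lit 5) (nat_lit 114) (nat_lit 5) (nat_lit 316) (nat_lit 291) (nat_lit 254)))) (XT.nd (nat_lit 188) (nat_lit 588) (nat_lit 0) (XT.nd (nat_lit 94) (nat_lit 0) (nat_lit 0) (XT.lf (nat_lit 0) (nat_lit 1059506693) (nat_lit 1008) (nat_lit 367748070) (nat_lit 1092) (nat_lit 6828176849) (nat_lit 89) (nat_lit 5) (nat_lit 101) (nat_lit 5) (nat_lit 102) (nat_lit 5) (nat_lit 317) (nat_lit 291) (nat_lit 253)) (XT.lf (nat_lit 0) (nat_lit 3032772837) (nat_lit 1092) (nat_lit 3755380023) (nat_lit 84) (nat_lit 1587438091) (nat_lit 89) (nat_lit 5) (nat_lit 102) (nat_lit 5) (nat_lit 90) (nat_lit 5) (nat_lit 318) (nat_lit 291) (nat_lit 252))) (XT.nd (nat_lit 94) (nat_lit 588) (nat_lit 0) (XT.lf (nat_lit 0) (nat_lit 4648271549) (nat_lit 1092) (nat_lit 252357755) (nat_lit 84) (nat_lit 3600338318) (nat_lit 89) (nat_lit 5) (nat_lit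 102) (nat_lit 5) (nat_lit 90) (nat_lit 5) (nat_lit 319) (nat_lit 291) (nat_lit 251)) (XT.lf (nat_lit 0) (nat_lit 3388322315) (nat_lit 588) (nat_lit 2916898867) (nat_lit 672) (nat_lit 2325528407) (nat_lit 82) (nat_lit 5) (nat_lit 89) (nat_lit 5) (nat_lit 90) (nat_lit 5) (nat_lit 320) (nat_lit 291) (nat_lit 250)))))) (XT.nd (nat_lit 658) (nat_lit 840) (nat_lit 0) (XT.nd (nat_lit 282) (nat_lit 924) (nat_lit 0) (XT.nd (nat_lit 94) (nat_lit 588) (nat_lit 0) (XT.lf (nat_lit 0) (nat_lit 7108407187) (nat_lit 588) (nat_lit 866406221) (nat_lit 672) (nat_lit 791185353) (nat_lit 82) (nat_lit 5) (nat_lit 89) (nat_lit 5) (nat_lit 90) (nat_lit 5) (nat_lit 321) (nat_lit 291) (nat_lit 249)) (XT.nd (nat_lit 94) (nat_lit 0) (nat_lit 0) (XT.lf (nat_lit 0) (nat_lit 766884955) (nat_lit 588) (nat_lit 6885969062) (nat_lit 84) (nat_lit 1252817690) (nat_lit 75) (nat_lit 5) (nat_lit 82) (nat_lit 5) (nat_lit 76) (nat_lit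 5) (nat_lit 322) (nat_lit 291) (nat_lit 248)) (XT.lf (nat_lit 0) (nat_lit 2343266770) (nat_lit 588) (nat_lit 3259925174) (nat_lit 84) (nat_lit 3446874129) (nat_lit 75) (nat_lit 5) (nat_lit 82) (nat_lit 5) (nat_lit 76) (nat_lit 5) (nat_lit 323) (nat_lit 291) (nat_lit 247)))) (XT.nd (nat_lit 188) (nat_lit 420) (nat_lit 0) (XT.nd (nat_lit 94) (nat_lit 0) (nat_lit 0) (XT.lf (nat_lit 0) (nat_lit 448978534) (nat_lit 504) (nat_lit 3485297333) (nat_lit 588) (nat_lit 5265937810) (nat_lit 69) (nat_lit 5) (nat_lit 75) (nat_lit 5) (nat_lit 76) (nat_lit 5) (nat_lit 324) (nat_lit 291) (nat_lit 246)) (XT.lf (nat_lit 0) (nat_lit 4303764227) (nat_lit 504) (nat_lit 1266958964) (nat_lit 588) (nat_lit 3784622118) (nat_lit 69) (nat_lit 5) (nat_lit 75) (nat_lit 5) (nat_lit 76) (nat_lit 5) (nat_lit 325) (nat_lit 291) (nat_lit 245))) (XT.nd (nat_lit 94) (nat_lit 420) (nat_lit 0) (XT.lf (nat_lit 0) (nat_lit 7231247441)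 (nat_lit 588) (nat_lit 1285751640) (nat_lit 84) (nat_lit 999315968) (nat_lit 69) (nat_lit 5) (nat_lit 76) (nat_lit 5) (nat_lit 70) (nat_lit 5) (nat_lit 326) (nat_lit 291) (nat_lit 244)) (XT.lf (nat_lit 0) (nat_lit 2598984777) (nat_lit 420) (nat_lit 6347336179) (nat_lit 504) (nat_lit 736055325) (nat_lit 64) (nat_lit 5) (nat_lit 69) (nat_lit 5) (nat_lit 70) (nat_lit 5) (nat_lit 327) (nat_lit 291) (nat_lit 243))))) (XT.nd (nat_lit 282) (nat_lit 336) (nat_lit 0) (XT.nd (nat_lit 94) (nat_lit 420) (nat_lit 0) (XT.lf (nat_lit 0) (nat_lit 821682469) (nat_lit 504) (nat_lit 3268219899) (nat_lit 84) (nat_lit 5764283671) (nat_lit 63) (nat_lit 5) (nat_lit 69) (nat_lit 5) (nat_lit 64) (nat_lit 5) (nat_lit 328) (nat_lit 291) (nat_lit 242)) (XT.nd (nat_lit 94) (nat_lit 0) (nat_lit 0) (XT.lf (nat_lit 0) (nat_lit 633822350) (nat_lit 420) (nat_lit 1750448355) (nat_lit 504) (nat_lit 7647869947) (nat_lit 58) (nat_lit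 5) (nat_lit 63) (nat_lit 5) (nat_lit 64) (nat_lit 5) (nat_lit 329) (nat_lit 291) (nat_lit 241)) (XT.lf (nat_lit 0) (nat_lit 4002537374) (nat_lit 504) (nat_lit 5532819741) (nat_lit 84) (nat_lit 680204439) (nat_lit 58) (nat_lit 5) (nat_lit 64) (nat_lit 5) (nat_lit 59) (nat_lit 5) (nat_lit 330) (nat_lit 291) (nat_lit 240)))) (XT.nd (nat_lit 188) (nat_lit 0) (nat_lit 0) (XT.nd (nat_lit 94) (nat_lit 336) (nat_lit 0) (XT.lf (nat_lit 0) (nat_lit 5656102508) (nat_lit 504) (nat_lit 1601733664) (nat_lit 84) (nat_lit 3147462081) (nat_lit 58) (nat_lit 5) (nat_lit 64) (nat_lit 5) (nat_lit 59) (nat_lit 5) (nat_lit 331) (nat_lit 291) (nat_lit 239)) (XT.lf (nat_lit 0) (nat_lit 2465646049) (nat_lit 336) (nat_lit 4887956203) (nat_lit 420) (nat_lit 3247705409) (nat_lit 54) (nat_lit 5) (nat_lit 58) (nat_lit 5) (nat_lit 59) (nat_lit 5) (nat_lit 332) (nat_lit 291) (nat_lit 238))) (XT.nd (nat_lit 94) (nat_lit 0) (nat_lit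 0) (XT.lf (nat_lit 0) (nat_lit 6658179991) (nat_lit 336) (nat_lit 2431087495) (nat_lit 420) (nat_lit 1714732889) (nat_lit 54) (nat_lit 5) (nat_lit 58) (nat_lit 5) (nat_lit 59) (nat_lit 5) (nat_lit 333) (nat_lit 291) (nat_lit 237)) (XT.lf (nat_lit 0) (nat_lit 10849475470) (nat_lit 420) (nat_lit 68202469) (nat_lit 84) (nat_lit 96359840) (nat_lit 54) (nat_lit 5) (nat_lit 59) (nat_lit 5) (nat_lit 55) (nat_lit 5) (nat_lit 334) (nat_lit 291) (nat_lit 236))))))) (XT.nd (nat_lit 50854) (nat_lit 0) (nat_lit 4872) (XT.nd (nat_lit 50196) (nat_lit 0) (nat_lit 9240) (XT.nd (nat_lit 282) (nat_lit 0) (nat_lit 0) (XT.nd (nat_lit 94) (nat_lit 336) (nat_lit 0) (XT.lf (nat_lit 0) (nat_lit 1441785642) (nat_lit 504) (nat_lit 7083249247) (nat_lit 84) (nat_lit 2704108289) (nat_lit 48) (nat_lit 5) (nat_lit 54) (nat_lit 5) (nat_lit 49) (nat_lit 5) (nat_lit 335) (nat_lit 291) (nat_lit 235)) (XT.nd (nat_lit 94) (nat_lit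 336) (nat_lit 0) (XT.lf (nat_lit 0) (nat_lit 3065981140) (nat_lit 504) (nat_lit 2994759122) (nat_lit 84) (nat_lit 5391149449) (nat_lit 48) (nat_lit 5) (nat_lit 54) (nat_lit 5) (nat_lit 49) (nat_lit 5) (nat_lit 336) (nat_lit 291) (nat_lit 234)) (XT.lf (nat_lit 0) (nat_lit 1211669210) (nat_lit 336) (nat_lit 3512506815) (nat_lit 420) (nat_lit 6958008591) (nat_lit 44) (nat_lit 5) (nat_lit 48) (nat_lit 5) (nat_lit 49) (nat_lit 5) (nat_lit 337) (nat_lit 291) (nat_lit 233)))) (XT.nd (nat_lit 49726) (nat_lit 0) (nat_lit 10164) (XT.nd (nat_lit 94) (nat_lit 0) (nat_lit 0) (XT.lf (nat_lit 0) (nat_lit 5579103020) (nat_lit 336) (nat_lit 858087352) (nat_lit 420) (nat_lit 5482454671) (nat_lit 44) (nat_lit 5) (nat_lit 48) (nat_lit 5) (nat_lit 49) (nat_lit 5) (nat_lit 338) (nat_lit 291) (nat_lit 232)) (XT.lf (nat_lit 0) (nat_lit 8194889310) (nat_lit 420) (nat_lit 2133985071) (nat_lit 84) (nat_lit 1835981629) (nat_lit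 44) (nat_lit 5) (nat_lit 49) (nat_lit 5) (nat_lit 45) (nat_lit 5) (nat_lit 339) (nat_lit 291) (nat_lit 231))) (XT.nd (nat_lit 94) (nat_lit 0) (nat_lit 0) (XT.lf (nat_lit 0) (nat_lit 1227189055) (nat_lit 420) (nat_lit 1028242397) (nat_lit 420) (nat_lit 1028242397) (nat_lit 165) (nat_lit 3) (nat_lit 170) (nat_lit 3) (nat_lit 170) (nat_lit 5) (nat_lit 292) (nat_lit 292) (nat_lit 277)) (XT.lf (nat_lit 84) (nat_lit 415867711) (nat_lit 0) (nat_lit 3981923317) (nat_lit 420) (nat_lit 2196228880) (nat_lit 166) (nat_lit 5) (nat_lit 165) (nat_lit 3) (nat_lit 170) (nat_lit 5) (nat_lit 293) (nat_lit 292) (nat_lit 276))))) (XT.nd (nat_lit 282) (nat_lit 504) (nat_lit 0) (XT.nd (nat_lit 94) (nat_lit 420) (nat_lit 0) (XT.lf (nat_lit 84) (nat_lit 2967824028) (nat_lit 0) (nat_lit 3378076409) (nat_lit 420) (nat_lit 277987498) (nat_lit 166) (nat_lit 5) (nat_lit 165) (nat_lit 3) (nat_lit 170) (nat_lit 5) (nat_lit 294)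 (nat_lit 292) (nat_lit 275)) (XT.nd (nat_lit 94) (nat_lit 0) (nat_lit 0) (XT.lf (nat_lit 0) (nat_lit 1589395835) (nat_lit 420) (nat_lit 1114238950) (nat_lit 504) (nat_lit 3953491433) (nat_lit 160) (nat_lit 5) (nat_lit 165) (nat_lit 3) (nat_lit 166) (nat_lit 5) (nat_lit 295) (nat_lit 292) (nat_lit 274)) (XT.lf (nat_lit 84) (nat_lit 1493289662) (nat_lit 0) (nat_lit 1956627083) (nat_lit 504) (nat_lit 3243808619) (nat_lit 161) (nat_lit 5) (nat_lit 160) (nat_lit 5) (nat_lit 166) (nat_lit 5) (nat_lit 296) (nat_lit 292) (nat_lit 273)))) (XT.nd (nat_lit 188) (nat_lit 0) (nat_lit 84) (XT.nd (nat_lit 94) (nat_lit 504) (nat_lit 0) (XT.lf (nat_lit 84) (nat_lit 4165345090) (nat_lit 0) (nat_lit 1142431249) (nat_lit 504) (nat_lit 1426125790) (nat_lit 161) (nat_lit 5) (nat_lit 160) (nat_lit 5) (nat_lit 166) (nat_lit 5) (nat_lit 297) (nat_lit 292) (nat_lit 272)) (XT.lf (nat_lit 84) (nat_lit 101790280) (nat_lit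 0) (nat_lit 267038385) (nat_lit 588) (nat_lit 6409068252) (nat_lit 155) (nat_lit 5) (nat_lit 154) (nat_lit 5) (nat_lit 161) (nat_lit 5) (nat_lit 298) (nat_lit 292) (nat_lit 271))) (XT.nd (nat_lit 94) (nat_lit 0) (nat_lit 0) (XT.lf (nat_lit 0) (nat_lit 2154154079) (nat_lit 504) (nat_lit 3977492441) (nat_lit 588) (nat_lit 692784442) (nat_lit 155) (nat_lit 5) (nat_lit 161) (nat_lit 5) (nat_lit 162) (nat_lit 5) (nat_lit 299) (nat_lit 292) (nat_lit 270)) (XT.lf (nat_lit 0) (nat_lit 3930594090) (nat_lit 504) (nat_lit 1239925385) (nat_lit 588) (nat_lit 1704385994) (nat_lit 155) (nat_lit 5) (nat_lit 161) (nat_lit 5) (nat_lit 162) (nat_lit 5) (nat_lit 300) (nat_lit 292) (nat_lit 269)))))) (XT.nd (nat_lit 658) (nat_lit 3276) (nat_lit 0) (XT.nd (nat_lit 282) (nat_lit 588) (nat_lit 0) (XT.nd (nat_lit 94) (nat_lit 588) (nat_lit 0) (XT.lf (nat_lit 84) (nat_lit 1573497756) (nat_lit 0) (nat_lit 4139267009) (nat_lit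 588) (nat_lit 1216200953) (nat_lit 156) (nat_lit 5) (nat_lit 155) (nat_lit 5) (nat_lit 162) (nat_lit 5) (nat_lit 301) (nat_lit 292) (nat_lit 268)) (XT.nd (nat_lit 94) (nat_lit 0) (nat_lit 0) (XT.lf (nat_lit 0) (nat_lit 502651660) (nat_lit 588) (nat_lit 2531707540) (nat_lit 672) (nat_lit 3952225664) (nat_lit 148) (nat_lit 5) (nat_lit 155) (nat_lit 5) (nat_lit 156) (nat_lit 5) (nat_lit 302) (nat_lit 292) (nat_lit 267)) (XT.lf (nat_lit 84) (nat_lit 333038361) (nat_lit 0) (nat_lit 1857219768) (nat_lit 672) (nat_lit 4857632260) (nat_lit 149) (nat_lit 5) (nat_lit 148) (nat_lit 5) (nat_lit 156) (nat_lit 5) (nat_lit 303) (nat_lit 292) (nat_lit 266)))) (XT.nd (nat_lit 188) (nat_lit 588) (nat_lit 0) (XT.nd (nat_lit 94) (nat_lit 0) (nat_lit 84) (XT.lf (nat_lit 84) (nat_lit 3299853346) (nat_lit 0) (nat_lit 595662404) (nat_lit 672) (nat_lit 3217090262) (nat_lit 149) (nat_lit 5) (nat_lit 148) (nat_lit 5) (nat_lit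 156) (nat_lit 5) (nat_lit 304) (nat_lit 292) (nat_lit 265)) (XT.lf (nat_lit 0) (nat_lit 5601575448) (nat_lit 588) (nat_lit 869333641) (nat_lit 84) (nat_lit 710454557) (nat_lit 149) (nat_lit 5) (nat_lit 156) (nat_lit 5) (nat_lit 150) (nat_lit 5) (nat_lit 305) (nat_lit 292) (nat_lit 264))) (XT.nd (nat_lit 94) (nat_lit 0) (nat_lit 0) (XT.lf (nat_lit 0) (nat_lit 75648287) (nat_lit 672) (nat_lit 5091942171) (nat_lit 84) (nat_lit 2085969619) (nat_lit 141) (nat_lit 5) (nat_lit 149) (nat_lit 5) (nat_lit 142) (nat_lit 5) (nat_lit 306) (nat_lit 292) (nat_lit 263)) (XT.lf (nat_lit 0) (nat_lit 1701839602) (nat_lit 672) (nat_lit 2080550863) (nat_lit 84) (nat_lit 3546968445) (nat_lit 141) (nat_lit 5) (nat_lit 149) (nat_lit 5) (nat_lit 142) (nat_lit 5) (nat_lit 307) (nat_lit 292) (nat_lit 262))))) (XT.nd (nat_lit 376) (nat_lit 1764) (nat_lit 0) (XT.nd (nat_lit 188) (nat_lit 840) (nat_lit 0) (XT.nd (nat_lit 94)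 (nat_lit 0) (nat_lit 0) (XT.lf (nat_lit 0) (nat_lit 1004128098) (nat_lit 672) (nat_lit 2329072475) (nat_lit 756) (nat_lit 4076082881) (nat_lit 133) (nat_lit 5) (nat_lit 141) (nat_lit 5) (nat_lit 142) (nat_lit 5) (nat_lit 308) (nat_lit 292) (nat_lit 261)) (XT.lf (nat_lit 0) (nat_lit 4188650240) (nat_lit 672) (nat_lit 794260979) (nat_lit 756) (nat_lit 2510135545) (nat_lit 133) (nat_lit 5) (nat_lit 141) (nat_lit 5) (nat_lit 142) (nat_lit 5) (nat_lit 309) (nat_lit 292) (nat_lit 260))) (XT.nd (nat_lit 94) (nat_lit 840) (nat_lit 0) (XT.lf (nat_lit 0) (nat_lit 6639399073) (nat_lit 756) (nat_lit 156129956) (nat_lit 84) (nat_lit 785604304) (nat_lit 133) (nat_lit 5) (nat_lit 142) (nat_lit 5) (nat_lit 134) (nat_lit 5) (nat_lit 310) (nat_lit 292) (nat_lit 259)) (XT.lf (nat_lit 0) (nat_lit 649536629) (nat_lit 840) (nat_lit 4574640502) (nat_lit 84) (nat_lit 2448272801) (nat_lit 123) (nat_lit 5) (nat_lit 133)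 (nat_lit 5) (nat_lit 124) (nat_lit 5) (nat_lit 311) (nat_lit 292) (nat_lit 258)))) (XT.nd (nat_lit 188) (nat_lit 924) (nat_lit 0) (XT.nd (nat_lit 94) (nat_lit 840) (nat_lit 0) (XT.lf (nat_lit 0) (nat_lit 2221911413) (nat_lit 840) (nat_lit 1360789581) (nat_lit 84) (nat_lit 4185426905) (nat_lit 123) (nat_lit 5) (nat_lit 133) (nat_lit 5) (nat_lit 124) (nat_lit 5) (nat_lit 312) (nat_lit 292) (nat_lit 257)) (XT.lf (nat_lit 0) (nat_lit 1952727150) (nat_lit 840) (nat_lit 1860876858) (nat_lit 924) (nat_lit 4054391007) (nat_lit 113) (nat_lit 5) (nat_lit 123) (nat_lit 5) (nat_lit 124) (nat_lit 5) (nat_lit 313) (nat_lit 292) (nat_lit 256))) (XT.nd (nat_lit 94) (nat_lit 924) (nat_lit 0) (XT.lf (nat_lit 0) (nat_lit 5358902203) (nat_lit 840) (nat_lit 62224868) (nat_lit 924) (nat_lit 2551171396) (nat_lit 113) (nat_lit 5) (nat_lit 123) (nat_lit 5) (nat_lit 124) (nat_lit 5) (nat_lit 314) (nat_lit 292) (nat_lit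 255)) (XT.lf (nat_lit 0) (nat_lit 748586208) (nat_lit 924) (nat_lit 6308905509) (nat_lit 1008) (nat_lit 1023286864) (nat_lit 102) (nat_lit 5) (nat_lit 113) (nat_lit 5) (nat_lit 114) (nat_lit 5) (nat_lit 315) (nat_lit 292) (nat_lit 254))))))))
noncomputable def xc17 : XT := (XT.nd (nat_lit 52452) (nat_lit 0) (nat_lit 2100) (XT.nd (nat_lit 1316) (nat_lit 1596) (nat_lit 0) (XT.nd (nat_lit 658) (nat_lit 1008) (nat_lit 0) (XT.nd (nat_lit 282) (nat_lit 1176) (nat_lit 0) (XT.nd (nat_lit 94) (nat_lit 1008) (nat_lit 0) (XT.lf (nat_lit 0) (nat_lit 523099192) (nat_lit 1008) (nat_lit 3968344221) (nat_lit 84) (nat_lit 3701833618) (nat_lit 101) (nat_lit 5) (nat_lit 113) (nat_lit 5) (nat_lit 102) (nat_lit 5) (nat_lit 316) (nat_lit 292) (nat_lit 253)) (XT.nd (nat_lit 94) (nat_lit 1008) (nat_lit 0) (XT.lf (nat_lit 0) (nat_lit 2051612343) (nat_lit 1008) (nat_lit 549838850) (nat_lit 84) (nat_lit 5709135411) (nat_lit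 101) (nat_lit 5) (nat_lit 113) (nat_lit 5) (nat_lit 102) (nat_lit 5) (nat_lit 317) (nat_lit 292) (nat_lit 252)) (XT.lf (nat_lit 0) (nat_lit 2997045055) (nat_lit 1008) (nat_lit 616980276) (nat_lit 1092) (nat_lit 4818184340) (nat_lit 89) (nat_lit 5) (nat_lit 101) (nat_lit 5) (nat_lit 102) (nat_lit 5) (nat_lit 318) (nat_lit 292) (nat_lit 251)))) (XT.nd (nat_lit 188) (nat_lit 588) (nat_lit 0) (XT.nd (nat_lit 94) (nat_lit 588) (nat_lit 0) (XT.lf (nat_lit 0) (nat_lit 5202604844) (nat_lit 1092) (nat_lit 1945324157) (nat_lit 84) (nat_lit 1410615471) (nat_lit 89) (nat_lit 5) (nat_lit 102) (nat_lit 5) (nat_lit 90) (nat_lit 5) (nat_lit 319) (nat_lit 292) (nat_lit 250)) (XT.lf (nat_lit 0) (nat_lit 1641438143) (nat_lit 588) (nat_lit 5180613722) (nat_lit 672) (nat_lit 1867557074) (nat_lit 82) (nat_lit 5) (nat_lit 89) (nat_lit 5) (nat_lit 90) (nat_lit 5) (nat_lit 320) (nat_lit 292) (nat_lit 249))) (XT.nd (nat_lit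 94) (nat_lit 588) (nat_lit 0) (XT.lf (nat_lit 0) (nat_lit 5342990609) (nat_lit 588) (nat_lit 3128902901) (nat_lit 672) (nat_lit 353693180) (nat_lit 82) (nat_lit 5) (nat_lit 89) (nat_lit 5) (nat_lit 90) (nat_lit 5) (nat_lit 321) (nat_lit 292) (nat_lit 248)) (XT.lf (nat_lit 0) (nat_lit 146955047) (nat_lit 504) (nat_lit 997753130) (nat_lit 588) (nat_lit 7822102832) (nat_lit 75) (nat_lit 5) (nat_lit 81) (nat_lit 5) (nat_lit 82) (nat_lit 5) (nat_lit 322) (nat_lit 292) (nat_lit 247))))) (XT.nd (nat_lit 282) (nat_lit 504) (nat_lit 0) (XT.nd (nat_lit 94) (nat_lit 504) (nat_lit 0) (XT.lf (nat_lit 0) (nat_lit 2692140224) (nat_lit 588) (nat_lit 5202916434) (nat_lit 84) (nat_lit 1217152293) (nat_lit 75) (nat_lit 5) (nat_lit 82) (nat_lit 5) (nat_lit 76) (nat_lit 5) (nat_lit 323) (nat_lit 292) (nat_lit 246)) (XT.nd (nat_lit 94) (nat_lit 504) (nat_lit 0) (XT.lf (nat_lit 0) (nat_lit 4260216318) (nat_lit 588) (nat_lit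 1521489480) (nat_lit 84) (nat_lit 3481464623) (nat_lit 75) (nat_lit 5) (nat_lit 82) (nat_lit 5) (nat_lit 76) (nat_lit 5) (nat_lit 324) (nat_lit 292) (nat_lit 245)) (XT.lf (nat_lit 0) (nat_lit 2283767025) (nat_lit 504) (nat_lit 3579388462) (nat_lit 588) (nat_lit 3556285164) (nat_lit 69) (nat_lit 5) (nat_lit 75) (nat_lit 5) (nat_lit 76) (nat_lit 5) (nat_lit 325) (nat_lit 292) (nat_lit 244)))) (XT.nd (nat_lit 188) (nat_lit 84) (nat_lit 0) (XT.nd (nat_lit 94) (nat_lit 420) (nat_lit 0) (XT.lf (nat_lit 0) (nat_lit 6203301340) (nat_lit 504) (nat_lit 1292701144) (nat_lit 588) (nat_lit 2085362747) (nat_lit 69) (nat_lit 5) (nat_lit 75) (nat_lit 5) (nat_lit 76) (nat_lit 5) (nat_lit 326) (nat_lit 292) (nat_lit 243)) (XT.lf (nat_lit 0) (nat_lit 458587825) (nat_lit 420) (nat_lit 8701398029) (nat_lit 504) (nat_lit 589118336) (nat_lit 64) (nat_lit 5) (nat_lit 69) (nat_lit 5) (nat_lit 70) (nat_lit 5) (nat_lit 327)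 (nat_lit 292) (nat_lit 242))) (XT.nd (nat_lit 94) (nat_lit 0) (nat_lit 0) (XT.lf (nat_lit 0) (nat_lit 948703109) (nat_lit 504) (nat_lit 5494843588) (nat_lit 84) (nat_lit 3477936067) (nat_lit 63) (nat_lit 5) (nat_lit 69) (nat_lit 5) (nat_lit 64) (nat_lit 5) (nat_lit 328) (nat_lit 292) (nat_lit 241)) (XT.lf (nat_lit 0) (nat_lit 2488557680) (nat_lit 504) (nat_lit 1623070179) (nat_lit 84) (nat_lit 5988599972) (nat_lit 63) (nat_lit 5) (nat_lit 69) (nat_lit 5) (nat_lit 64) (nat_lit 5) (nat_lit 329) (nat_lit 292) (nat_lit 240)))))) (XT.nd (nat_lit 658) (nat_lit 336) (nat_lit 0) (XT.nd (nat_lit 282) (nat_lit 504) (nat_lit 0) (XT.nd (nat_lit 94) (nat_lit 336) (nat_lit 0) (XT.lf (nat_lit 0) (nat_lit 2382253995) (nat_lit 420) (nat_lit 1685128364) (nat_lit 504) (nat_lit 6217572211) (nat_lit 58) (nat_lit 5) (nat_lit 63) (nat_lit 5) (nat_lit 64) (nat_lit 5) (nat_lit 330) (nat_lit 292) (nat_lit 239)) (XT.nd (nat_lit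 94) (nat_lit 336) (nat_lit 0) (XT.lf (nat_lit 0) (nat_lit 5688580678) (nat_lit 504) (nat_lit 3972252471) (nat_lit 84) (nat_lit 814942126) (nat_lit 58) (nat_lit 5) (nat_lit 64) (nat_lit 5) (nat_lit 59) (nat_lit 5) (nat_lit 331) (nat_lit 292) (nat_lit 238)) (XT.lf (nat_lit 0) (nat_lit 29205559) (nat_lit 336) (nat_lit 7317525504) (nat_lit 420) (nat_lit 3326351660) (nat_lit 54) (nat_lit 5) (nat_lit 58) (nat_lit 5) (nat_lit 59) (nat_lit 5) (nat_lit 332) (nat_lit 292) (nat_lit 237)))) (XT.nd (nat_lit 188) (nat_lit 504) (nat_lit 0) (XT.nd (nat_lit 94) (nat_lit 0) (nat_lit 0) (XT.lf (nat_lit 0) (nat_lit 4205077081) (nat_lit 336) (nat_lit 4862430773) (nat_lit 420) (nat_lit 1808804984) (nat_lit 54) (nat_lit 5) (nat_lit 58) (nat_lit 5) (nat_lit 59) (nat_lit 5) (nat_lit 333) (nat_lit 292) (nat_lit 236)) (XT.lf (nat_lit 0) (nat_lit 8477576785) (nat_lit 336) (nat_lit 2334722717) (nat_lit 420) (nat_lit 274602224)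 (nat_lit 54) (nat_lit 5) (nat_lit 58) (nat_lit 5) (nat_lit 59) (nat_lit 5) (nat_lit 334) (nat_lit 292) (nat_lit 235))) (XT.nd (nat_lit 94) (nat_lit 0) (nat_lit 0) (XT.lf (nat_lit 0) (nat_lit 1270410536) (nat_lit 504) (nat_lit 9742630626) (nat_lit 84) (nat_lit 291039143) (nat_lit 48) (nat_lit 5) (nat_lit 54) (nat_lit 5) (nat_lit 49) (nat_lit 5) (nat_lit 335) (nat_lit 292) (nat_lit 234)) (XT.lf (nat_lit 0) (nat_lit 2880637259) (nat_lit 504) (nat_lit 5670495705) (nat_lit 84) (nat_lit 2976194044) (nat_lit 48) (nat_lit 5) (nat_lit 54) (nat_lit 5) (nat_lit 49) (nat_lit 5) (nat_lit 336) (nat_lit 292) (nat_lit 233))))) (XT.nd (nat_lit 50102) (nat_lit 0) (nat_lit 9240) (XT.nd (nat_lit 49914) (nat_lit 0) (nat_lit 9744) (XT.nd (nat_lit 94) (nat_lit 336) (nat_lit 0) (XT.lf (nat_lit 0) (nat_lit 4513263473) (nat_lit 504) (nat_lit 1504343243) (nat_lit 84) (nat_lit 5740872946) (nat_lit 48) (nat_lit 5) (nat_lit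 54) (nat_lit 5) (nat_lit 49) (nat_lit 5) (nat_lit 337) (nat_lit 292) (nat_lit 232)) (XT.lf (nat_lit 0) (nat_lit 2816455349) (nat_lit 336) (nat_lit 3381295192) (nat_lit 420) (nat_lit 5799137055) (nat_lit 44) (nat_lit 5) (nat_lit 48) (nat_lit 5) (nat_lit 49) (nat_lit 5) (nat_lit 338) (nat_lit 292) (nat_lit 231))) (XT.nd (nat_lit 94) (nat_lit 420) (nat_lit 0) (XT.lf (nat_lit 0) (nat_lit 3147615932) (nat_lit 420) (nat_lit 81800981) (nat_lit 420) (nat_lit 81800981) (nat_lit 165) (nat_lit 3) (nat_lit 170) (nat_lit 3) (nat_lit 170) (nat_lit 5) (nat_lit 293) (nat_lit 293) (nat_lit 275)) (XT.lf (nat_lit 0) (nat_lit 1519849952) (nat_lit 420) (nat_lit 4303607092) (nat_lit 504) (nat_lit 829870242) (nat_lit 160) (nat_lit 5) (nat_lit 165) (nat_lit 3) (nat_lit 166) (nat_lit 5) (nat_lit 294) (nat_lit 293) (nat_lit 274)))) (XT.nd (nat_lit 188) (nat_lit 504) (nat_lit 0) (XT.nd (nat_lit 94) (nat_lit 0) (nat_lit 0)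 (XT.lf (nat_lit 0) (nat_lit 3345300369) (nat_lit 420) (nat_lit 1784400080) (nat_lit 504) (nat_lit 1558196587) (nat_lit 160) (nat_lit 5) (nat_lit 165) (nat_lit 3) (nat_lit 166) (nat_lit 5) (nat_lit 295) (nat_lit 293) (nat_lit 273)) (XT.lf (nat_lit 84) (nat_lit 789689436) (nat_lit 0) (nat_lit 4373912384) (nat_lit 504) (nat_lit 1562485088) (nat_lit 161) (nat_lit 5) (nat_lit 160) (nat_lit 5) (nat_lit 166) (nat_lit 5) (nat_lit 296) (nat_lit 293) (nat_lit 272))) (XT.nd (nat_lit 94) (nat_lit 0) (nat_lit 0) (XT.lf (nat_lit 0) (nat_lit 215067389) (nat_lit 504) (nat_lit 3327103162) (nat_lit 588) (nat_lit 3225364515) (nat_lit 154) (nat_lit 5) (nat_lit 160) (nat_lit 5) (nat_lit 161) (nat_lit 5) (nat_lit 297) (nat_lit 293) (nat_lit 271)) (XT.lf (nat_lit 0) (nat_lit 1946342167) (nat_lit 504) (nat_lit 692403849) (nat_lit 588) (nat_lit 4173685859) (nat_lit 154) (nat_lit 5) (nat_lit 160) (nat_lit 5) (nat_lit 161)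 (nat_lit 5) (nat_lit 298) (nat_lit 293) (nat_lit 270))))))) (XT.nd (nat_lit 1316) (nat_lit 4536) (nat_lit 0) (XT.nd (nat_lit 658) (nat_lit 2100) (nat_lit 0) (XT.nd (nat_lit 282) (nat_lit 0) (nat_lit 0) (XT.nd (nat_lit 94) (nat_lit 504) (nat_lit 0) (XT.lf (nat_lit 84) (nat_lit 2026485494) (nat_lit 0) (nat_lit 1658051061) (nat_lit 588) (nat_lit 3176139939) (nat_lit 155) (nat_lit 5) (nat_lit 154) (nat_lit 5) (nat_lit 161) (nat_lit 5) (nat_lit 299) (nat_lit 293) (nat_lit 269)) (XT.nd (nat_lit 94) (nat_lit 504) (nat_lit 0) (XT.lf (nat_lit 84) (nat_lit 4806412094) (nat_lit 0) (nat_lit 612211143) (nat_lit 588) (nat_lit 1494082729) (nat_lit 155) (nat_lit 5) (nat_lit 154) (nat_lit 5) (nat_lit 161) (nat_lit 5) (nat_lit 300) (nat_lit 293) (nat_lit 268)) (XT.lf (nat_lit 0) (nat_lit 182615414) (nat_lit 588) (nat_lit 6294604474) (nat_lit 672) (nat_lit 491149645) (nat_lit 148) (nat_lit 5) (nat_lit 155) (nat_lit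 5) (nat_lit 156) (nat_lit 5) (nat_lit 301) (nat_lit 293) (nat_lit 267)))) (XT.nd (nat_lit 188) (nat_lit 0) (nat_lit 0) (XT.nd (nat_lit 94) (nat_lit 0) (nat_lit 0) (XT.lf (nat_lit 0) (nat_lit 1846156312) (nat_lit 588) (nat_lit 3503008472) (nat_lit 672) (nat_lit 1677625763) (nat_lit 148) (nat_lit 5) (nat_lit 155) (nat_lit 5) (nat_lit 156) (nat_lit 5) (nat_lit 302) (nat_lit 293) (nat_lit 266)) (XT.lf (nat_lit 0) (nat_lit 3500577354) (nat_lit 588) (nat_lit 664467755) (nat_lit 672) (nat_lit 2924293902) (nat_lit 148) (nat_lit 5) (nat_lit 155) (nat_lit 5) (nat_lit 156) (nat_lit 5) (nat_lit 303) (nat_lit 293) (nat_lit 265))) (XT.nd (nat_lit 94) (nat_lit 0) (nat_lit 0) (XT.lf (nat_lit 84) (nat_lit 2269386575) (nat_lit 0) (nat_lit 2900546654) (nat_lit 672) (nat_lit 1985442108) (nat_lit 149) (nat_lit 5) (nat_lit 148) (nat_lit 5) (nat_lit 156) (nat_lit 5) (nat_lit 304) (nat_lit 293) (nat_lit 264)) (XT.lf (nat_lit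 84) (nat_lit 5270261335) (nat_lit 0) (nat_lit 1570241492) (nat_lit 672) (nat_lit 384931842) (nat_lit 149) (nat_lit 5) (nat_lit 148) (nat_lit 5) (nat_lit 156) (nat_lit 5) (nat_lit 305) (nat_lit 293) (nat_lit 263))))) (XT.nd (nat_lit 282) (nat_lit 1428) (nat_lit 0) (XT.nd (nat_lit 94) (nat_lit 0) (nat_lit 84) (XT.lf (nat_lit 84) (nat_lit 1036404405) (nat_lit 0) (nat_lit 156877242) (nat_lit 756) (nat_lit 6105819204) (nat_lit 141) (nat_lit 5) (nat_lit 140) (nat_lit 5) (nat_lit 149) (nat_lit 5) (nat_lit 306) (nat_lit 293) (nat_lit 262)) (XT.nd (nat_lit 94) (nat_lit 0) (nat_lit 0) (XT.lf (nat_lit 0) (nat_lit 2790736341) (nat_lit 672) (nat_lit 3269589576) (nat_lit 84) (nat_lit 1315648470) (nat_lit 141) (nat_lit 5) (nat_lit 149) (nat_lit 5) (nat_lit 142) (nat_lit 5) (nat_lit 307) (nat_lit 293) (nat_lit 261)) (XT.lf (nat_lit 0) (nat_lit 4385773115) (nat_lit 672) (nat_lit 224385668) (nat_lit 84) (nat_lit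 2847044536) (nat_lit 141) (nat_lit 5) (nat_lit 149) (nat_lit 5) (nat_lit 142) (nat_lit 5) (nat_lit 308) (nat_lit 293) (nat_lit 260)))) (XT.nd (nat_lit 188) (nat_lit 840) (nat_lit 0) (XT.nd (nat_lit 94) (nat_lit 0) (nat_lit 0) (XT.lf (nat_lit 0) (nat_lit 2936473361) (nat_lit 672) (nat_lit 3070979287) (nat_lit 756) (nat_lit 1534555924) (nat_lit 133) (nat_lit 5) (nat_lit 141) (nat_lit 5) (nat_lit 142) (nat_lit 5) (nat_lit 309) (nat_lit 293) (nat_lit 259)) (XT.lf (nat_lit 0) (nat_lit 6162550087) (nat_lit 672) (nat_lit 1468451999) (nat_lit 756) (nat_lit 281923) (nat_lit 133) (nat_lit 5) (nat_lit 141) (nat_lit 5) (nat_lit 142) (nat_lit 5) (nat_lit 310) (nat_lit 293) (nat_lit 258))) (XT.nd (nat_lit 94) (nat_lit 0) (nat_lit 0) (XT.lf (nat_lit 0) (nat_lit 1519257767) (nat_lit 840) (nat_lit 5979386425) (nat_lit 84) (nat_lit 225460389) (nat_lit 123) (nat_lit 5) (nat_lit 133) (nat_lit 5) (nat_lit 124) (nat_lit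 5) (nat_lit 311) (nat_lit 293) (nat_lit 257)) (XT.lf (nat_lit 0) (nat_lit 3067606405) (nat_lit 840) (nat_lit 2784888861) (nat_lit 84) (nat_lit 1968185186) (nat_lit 123) (nat_lit 5) (nat_lit 133) (nat_lit 5) (nat_lit 124) (nat_lit 5) (nat_lit 312) (nat_lit 293) (nat_lit 256)))))) (XT.nd (nat_lit 658) (nat_lit 1680) (nat_lit 0) (XT.nd (nat_lit 282) (nat_lit 2016) (nat_lit 0) (XT.nd (nat_lit 94) (nat_lit 0) (nat_lit 0) (XT.lf (nat_lit 0) (nat_lit 480188047) (nat_lit 840) (nat_lit 4141199452) (nat_lit 924) (nat_lit 3300483815) (nat_lit 113) (nat_lit 5) (nat_lit 123) (nat_lit 5) (nat_lit 124) (nat_lit 5) (nat_lit 313) (nat_lit 293) (nat_lit 255)) (XT.nd (nat_lit 94) (nat_lit 0) (nat_lit 0) (XT.lf (nat_lit 0) (nat_lit 3867781702) (nat_lit 840) (nat_lit 2338341494) (nat_lit 924) (nat_lit 1820902003) (nat_lit 113) (nat_lit 5) (nat_lit 123) (nat_lit 5) (nat_lit 124) (nat_lit 5) (nat_lit 314) (nat_lit 293)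 (nat_lit 254)) (XT.lf (nat_lit 0) (nat_lit 7323786668) (nat_lit 840) (nat_lit 471309468) (nat_lit 924) (nat_lit 342018015) (nat_lit 113) (nat_lit 5) (nat_lit 123) (nat_lit 5) (nat_lit 124) (nat_lit 5) (nat_lit 315) (nat_lit 293) (nat_lit 253)))) (XT.nd (nat_lit 188) (nat_lit 1008) (nat_lit 0) (XT.nd (nat_lit 94) (nat_lit 0) (nat_lit 0) (XT.lf (nat_lit 0) (nat_lit 1155710747) (nat_lit 1008) (nat_lit 5624850330) (nat_lit 84) (nat_lit 1470056305) (nat_lit 101) (nat_lit 5) (nat_lit 113) (nat_lit 5) (nat_lit 102) (nat_lit 5) (nat_lit 316) (nat_lit 293) (nat_lit 252)) (XT.lf (nat_lit 0) (nat_lit 2662946139) (nat_lit 1008) (nat_lit 2225044571) (nat_lit 84) (nat_lit 3480723326) (nat_lit 101) (nat_lit 5) (nat_lit 113) (nat_lit 5) (nat_lit 102) (nat_lit 5) (nat_lit 317) (nat_lit 293) (nat_lit 251))) (XT.nd (nat_lit 94) (nat_lit 0) (nat_lit 0) (XT.lf (nat_lit 0) (nat_lit 1268883374) (nat_lit 1008) (nat_lit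 2918694192) (nat_lit 1092) (nat_lit 4304054399) (nat_lit 89) (nat_lit 5) (nat_lit 101) (nat_lit 5) (nat_lit 102) (nat_lit 5) (nat_lit 318) (nat_lit 293) (nat_lit 250)) (XT.lf (nat_lit 0) (nat_lit 4881828839) (nat_lit 1008) (nat_lit 859851482) (nat_lit 1092) (nat_lit 2877475144) (nat_lit 89) (nat_lit 5) (nat_lit 101) (nat_lit 5) (nat_lit 102) (nat_lit 5) (nat_lit 319) (nat_lit 293) (nat_lit 249))))) (XT.nd (nat_lit 376) (nat_lit 504) (nat_lit 0) (XT.nd (nat_lit 188) (nat_lit 504) (nat_lit 0) (XT.nd (nat_lit 94) (nat_lit 672) (nat_lit 0) (XT.lf (nat_lit 0) (nat_lit 7316747504) (nat_lit 1092) (nat_lit 193264832) (nat_lit 84) (nat_lit 1241699684) (nat_lit 89) (nat_lit 5) (nat_lit 102) (nat_lit 5) (nat_lit 90) (nat_lit 5) (nat_lit 320) (nat_lit 293) (nat_lit 248)) (XT.lf (nat_lit 0) (nat_lit 55869893) (nat_lit 672) (nat_lit 5402684196) (nat_lit 84) (nat_lit 3429885477) (nat_lit 81) (nat_lit 5) (nat_lit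 89) (nat_lit 5) (nat_lit 82) (nat_lit 5) (nat_lit 321) (nat_lit 293) (nat_lit 247))) (XT.nd (nat_lit 94) (nat_lit 504) (nat_lit 0) (XT.lf (nat_lit 0) (nat_lit 1526809334) (nat_lit 672) (nat_lit 1797531566) (nat_lit 84) (nat_lit 5705950758) (nat_lit 81) (nat_lit 5) (nat_lit 89) (nat_lit 5) (nat_lit 82) (nat_lit 5) (nat_lit 322) (nat_lit 293) (nat_lit 246)) (XT.lf (nat_lit 0) (nat_lit 1922802054) (nat_lit 504) (nat_lit 1102431949) (nat_lit 588) (nat_lit 6152077768) (nat_lit 75) (nat_lit 5) (nat_lit 81) (nat_lit 5) (nat_lit 82) (nat_lit 5) (nat_lit 323) (nat_lit 293) (nat_lit 245)))) (XT.nd (nat_lit 188) (nat_lit 0) (nat_lit 0) (XT.nd (nat_lit 94) (nat_lit 504) (nat_lit 0) (XT.lf (nat_lit 0) (nat_lit 4564450382) (nat_lit 588) (nat_lit 3580023163) (nat_lit 84) (nat_lit 1184794194) (nat_lit 75) (nat_lit 5) (nat_lit 82) (nat_lit 5) (nat_lit 76) (nat_lit 5) (nat_lit 324) (nat_lit 293) (nat_lit 244)) (XT.lf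 (nat_lit 0) (nat_lit 165209991) (nat_lit 504) (nat_lit 5963778678) (nat_lit 588) (nat_lit 3357836571) (nat_lit 69) (nat_lit 5) (nat_lit 75) (nat_lit 5) (nat_lit 76) (nat_lit 5) (nat_lit 325) (nat_lit 293) (nat_lit 243))) (XT.nd (nat_lit 94) (nat_lit 0) (nat_lit 0) (XT.lf (nat_lit 0) (nat_lit 4067580701) (nat_lit 504) (nat_lit 3677222882) (nat_lit 588) (nat_lit 1904568165) (nat_lit 69) (nat_lit 5) (nat_lit 75) (nat_lit 5) (nat_lit 76) (nat_lit 5) (nat_lit 326) (nat_lit 293) (nat_lit 242)) (XT.lf (nat_lit 0) (nat_lit 8057113768) (nat_lit 504) (nat_lit 1320042946) (nat_lit 588) (nat_lit 441025637) (nat_lit 69) (nat_lit 5) (nat_lit 75) (nat_lit 5) (nat_lit 76) (nat_lit 5) (nat_lit 327) (nat_lit 293) (nat_lit 241))))))))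
noncomputable def xc18 : XT := (XT.nd (nat_lit 52546) (nat_lit 0) (nat_lit 0) (XT.nd (nat_lit 51136) (nat_lit 0) (nat_lit 6300) (XT.nd (nat_lit 658) (nat_lit 504) (nat_lit 0) (XT.nd (nat_lit 282) (nat_lit 756) (nat_lit 0) (XT.nd (nat_lit 94) (nat_lit 0) (nat_lit 0) (XT.lf (nat_lit 0) (nat_lit 1046259423) (nat_lit 504) (nat_lit 7826032540) (nat_lit 84) (nat_lit 1119783265) (nat_lit 63) (nat_lit 5) (nat_lit 69) (nat_lit 5) (nat_lit 64) (nat_lit 5) (nat_lit 328) (nat_lit 293) (nat_lit 240)) (XT.nd (nat_lit 94) (nat_lit 0) (nat_lit 0) (XT.lf (nat_lit 0) (nat_lit 2570162424) (nat_lit 504) (nat_lit 3971231715) (nat_lit 84) (nat_lit 3630003790) (nat_lit 63) (nat_lit 5) (nat_lit 69) (nat_lit 5) (nat_lit 64) (nat_lit 5) (nat_lit 329) (nat_lit 293) (nat_lit 239)) (XT.lf (nat_lit 0) (nat_lit 4109882909) (nat_lit 504) (nat_lit 30366903) (nat_lit 84) (nat_lit 6217167721) (nat_lit 63) (nat_lit 5) (nat_lit 69)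 (nat_lit 5) (nat_lit 64) (nat_lit 5) (nat_lit 330) (nat_lit 293) (nat_lit 238)))) (XT.nd (nat_lit 188) (nat_lit 336) (nat_lit 0) (XT.nd (nat_lit 94) (nat_lit 0) (nat_lit 0) (XT.lf (nat_lit 0) (nat_lit 4082488235) (nat_lit 420) (nat_lit 1624866612) (nat_lit 504) (nat_lit 4841697119) (nat_lit 58) (nat_lit 5) (nat_lit 63) (nat_lit 5) (nat_lit 64) (nat_lit 5) (nat_lit 331) (nat_lit 293) (nat_lit 237)) (XT.lf (nat_lit 0) (nat_lit 7334373484) (nat_lit 504) (nat_lit 2465901957) (nat_lit 84) (nat_lit 947124917) (nat_lit 58) (nat_lit 5) (nat_lit 64) (nat_lit 5) (nat_lit 59) (nat_lit 5) (nat_lit 332) (nat_lit 293) (nat_lit 236))) (XT.nd (nat_lit 94) (nat_lit 0) (nat_lit 0) (XT.lf (nat_lit 0) (nat_lit 1643104146) (nat_lit 336) (nat_lit 7372640305) (nat_lit 420) (nat_lit 1936181178) (nat_lit 54) (nat_lit 5) (nat_lit 58) (nat_lit 5) (nat_lit 59) (nat_lit 5) (nat_lit 333) (nat_lit 293) (nat_lit 235)) (XT.lf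 (nat_lit 0) (nat_lit 5899928374) (nat_lit 336) (nat_lit 4846601151) (nat_lit 420) (nat_lit 416490563) (nat_lit 54) (nat_lit 5) (nat_lit 58) (nat_lit 5) (nat_lit 59) (nat_lit 5) (nat_lit 334) (nat_lit 293) (nat_lit 234))))) (XT.nd (nat_lit 282) (nat_lit 0) (nat_lit 0) (XT.nd (nat_lit 94) (nat_lit 420) (nat_lit 0) (XT.lf (nat_lit 0) (nat_lit 1099122312) (nat_lit 420) (nat_lit 1134947509) (nat_lit 84) (nat_lit 9147239635) (nat_lit 53) (nat_lit 5) (nat_lit 58) (nat_lit 5) (nat_lit 54) (nat_lit 5) (nat_lit 335) (nat_lit 293) (nat_lit 233)) (XT.nd (nat_lit 94) (nat_lit 0) (nat_lit 0) (XT.lf (nat_lit 0) (nat_lit 2662030180) (nat_lit 504) (nat_lit 8461398763) (nat_lit 84) (nat_lit 482659221) (nat_lit 48) (nat_lit 5) (nat_lit 54) (nat_lit 5) (nat_lit 49) (nat_lit 5) (nat_lit 336) (nat_lit 293) (nat_lit 232)) (XT.lf (nat_lit 0) (nat_lit 4281515014) (nat_lit 504) (nat_lit 4310632758) (nat_lit 84) (nat_lit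 3245563591) (nat_lit 48) (nat_lit 5) (nat_lit 54) (nat_lit 5) (nat_lit 49) (nat_lit 5) (nat_lit 337) (nat_lit 293) (nat_lit 231)))) (XT.nd (nat_lit 50008) (nat_lit 0) (nat_lit 8820) (XT.nd (nat_lit 49914) (nat_lit 0) (nat_lit 9408) (XT.lf (nat_lit 0) (nat_lit 5925316250) (nat_lit 504) (nat_lit 61503282) (nat_lit 84) (nat_lit 6090622288) (nat_lit 48) (nat_lit 5) (nat_lit 54) (nat_lit 5) (nat_lit 49) (nat_lit 5) (nat_lit 338) (nat_lit 293) (nat_lit 230)) (XT.lf (nat_lit 0) (nat_lit 827568651) (nat_lit 0) (nat_lit 827568651) (nat_lit 420) (nat_lit 1687842678) (nat_lit 160) (nat_lit 5) (nat_lit 160) (nat_lit 3) (nat_lit 165) (nat_lit 3) (nat_lit 294) (nat_lit 294) (nat_lit 273))) (XT.nd (nat_lit 94) (nat_lit 588) (nat_lit 0) (XT.lf (nat_lit 0) (nat_lit 4198808638) (nat_lit 0) (nat_lit 894127414) (nat_lit 420) (nat_lit 1629202041) (nat_lit 160) (nat_lit 5) (nat_lit 160) (nat_lit 3) (nat_lit 165) (nat_lit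 3) (nat_lit 295) (nat_lit 294) (nat_lit 272)) (XT.lf (nat_lit 84) (nat_lit 23792938) (nat_lit 0) (nat_lit 73388078) (nat_lit 588) (nat_lit 6664937092) (nat_lit 154) (nat_lit 5) (nat_lit 153) (nat_lit 3) (nat_lit 160) (nat_lit 5) (nat_lit 296) (nat_lit 294) (nat_lit 271)))))) (XT.nd (nat_lit 658) (nat_lit 2016) (nat_lit 0) (XT.nd (nat_lit 282) (nat_lit 588) (nat_lit 0) (XT.nd (nat_lit 94) (nat_lit 0) (nat_lit 0) (XT.lf (nat_lit 0) (nat_lit 1808588234) (nat_lit 504) (nat_lit 4163252701) (nat_lit 588) (nat_lit 832576682) (nat_lit 154) (nat_lit 5) (nat_lit 160) (nat_lit 5) (nat_lit 161) (nat_lit 5) (nat_lit 297) (nat_lit 294) (nat_lit 270)) (XT.nd (nat_lit 94) (nat_lit 0) (nat_lit 0) (XT.lf (nat_lit 0) (nat_lit 3506946767) (nat_lit 504) (nat_lit 1547418388) (nat_lit 588) (nat_lit 1796219189) (nat_lit 154) (nat_lit 5) (nat_lit 160) (nat_lit 5) (nat_lit 161) (nat_lit 5) (nat_lit 298) (nat_lit 294) (nat_lit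 269)) (XT.lf (nat_lit 84) (nat_lit 1135216094) (nat_lit 0) (nat_lit 4069157034) (nat_lit 588) (nat_lit 1695961655) (nat_lit 155) (nat_lit 5) (nat_lit 154) (nat_lit 5) (nat_lit 161) (nat_lit 5) (nat_lit 299) (nat_lit 294) (nat_lit 268)))) (XT.nd (nat_lit 188) (nat_lit 0) (nat_lit 0) (XT.nd (nat_lit 94) (nat_lit 588) (nat_lit 0) (XT.lf (nat_lit 84) (nat_lit 3897030173) (nat_lit 0) (nat_lit 3010283398) (nat_lit 588) (nat_lit 46250951) (nat_lit 155) (nat_lit 5) (nat_lit 154) (nat_lit 5) (nat_lit 161) (nat_lit 5) (nat_lit 300) (nat_lit 294) (nat_lit 267)) (XT.lf (nat_lit 0) (nat_lit 1558827669) (nat_lit 588) (nat_lit 317810506) (nat_lit 672) (nat_lit 5133681419) (nat_lit 147) (nat_lit 5) (nat_lit 154) (nat_lit 5) (nat_lit 155) (nat_lit 5) (nat_lit 301) (nat_lit 294) (nat_lit 266))) (XT.nd (nat_lit 94) (nat_lit 0) (nat_lit 84) (XT.lf (nat_lit 84) (nat_lit 2519821684) (nat_lit 0) (nat_lit 657318985) (nat_lit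 672) (nat_lit 3893216194) (nat_lit 148) (nat_lit 5) (nat_lit 147) (nat_lit 5) (nat_lit 155) (nat_lit 5) (nat_lit 302) (nat_lit 294) (nat_lit 265)) (XT.lf (nat_lit 0) (nat_lit 4796057858) (nat_lit 588) (nat_lit 1724382802) (nat_lit 672) (nat_lit 613773037) (nat_lit 148) (nat_lit 5) (nat_lit 155) (nat_lit 5) (nat_lit 156) (nat_lit 5) (nat_lit 303) (nat_lit 294) (nat_lit 264))))) (XT.nd (nat_lit 376) (nat_lit 1428) (nat_lit 0) (XT.nd (nat_lit 188) (nat_lit 0) (nat_lit 0) (XT.nd (nat_lit 94) (nat_lit 672) (nat_lit 0) (XT.lf (nat_lit 84) (nat_lit 1168959912) (nat_lit 0) (nat_lit 5257425747) (nat_lit 672) (nat_lit 775275738) (nat_lit 149) (nat_lit 5) (nat_lit 148) (nat_lit 5) (nat_lit 156) (nat_lit 5) (nat_lit 304) (nat_lit 294) (nat_lit 263)) (XT.lf (nat_lit 0) (nat_lit 780689126) (nat_lit 672) (nat_lit 3128990912) (nat_lit 756) (nat_lit 3362841962) (nat_lit 140) (nat_lit 5) (nat_lit 148) (nat_lit 5)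 (nat_lit 149) (nat_lit 5) (nat_lit 305) (nat_lit 294) (nat_lit 262))) (XT.nd (nat_lit 94) (nat_lit 0) (nat_lit 0) (XT.lf (nat_lit 0) (nat_lit 2313786532) (nat_lit 672) (nat_lit 180462570) (nat_lit 756) (nat_lit 4853162749) (nat_lit 140) (nat_lit 5) (nat_lit 148) (nat_lit 5) (nat_lit 149) (nat_lit 5) (nat_lit 306) (nat_lit 294) (nat_lit 261)) (XT.lf (nat_lit 84) (nat_lit 2881376011) (nat_lit 0) (nat_lit 988273159) (nat_lit 756) (nat_lit 3556103911) (nat_lit 141) (nat_lit 5) (nat_lit 140) (nat_lit 5) (nat_lit 149) (nat_lit 5) (nat_lit 307) (nat_lit 294) (nat_lit 260)))) (XT.nd (nat_lit 188) (nat_lit 840) (nat_lit 0) (XT.nd (nat_lit 94) (nat_lit 672) (nat_lit 0) (XT.lf (nat_lit 0) (nat_lit 5429311714) (nat_lit 672) (nat_lit 1508034852) (nat_lit 84) (nat_lit 570905027) (nat_lit 141) (nat_lit 5) (nat_lit 149) (nat_lit 5) (nat_lit 142) (nat_lit 5) (nat_lit 308) (nat_lit 294) (nat_lit 259)) (XT.lf (nat_lit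 0) (nat_lit 1607953207) (nat_lit 672) (nat_lit 5405057367) (nat_lit 756) (nat_lit 581391450) (nat_lit 133) (nat_lit 5) (nat_lit 141) (nat_lit 5) (nat_lit 142) (nat_lit 5) (nat_lit 309) (nat_lit 294) (nat_lit 258))) (XT.nd (nat_lit 94) (nat_lit 756) (nat_lit 0) (XT.lf (nat_lit 0) (nat_lit 909043148) (nat_lit 756) (nat_lit 2877685709) (nat_lit 84) (nat_lit 3897577277) (nat_lit 132) (nat_lit 5) (nat_lit 141) (nat_lit 5) (nat_lit 133) (nat_lit 5) (nat_lit 310) (nat_lit 294) (nat_lit 257)) (XT.lf (nat_lit 0) (nat_lit 290748616) (nat_lit 756) (nat_lit 2097199016) (nat_lit 840) (nat_lit 5390591596) (nat_lit 123) (nat_lit 5) (nat_lit 132) (nat_lit 5) (nat_lit 133) (nat_lit 5) (nat_lit 311) (nat_lit 294) (nat_lit 256))))))) (XT.nd (nat_lit 1316) (nat_lit 2268) (nat_lit 0) (XT.nd (nat_lit 658) (nat_lit 2184) (nat_lit 0) (XT.nd (nat_lit 282) (nat_lit 1008) (nat_lit 0) (XT.nd (nat_lit 94) (nat_lit 840) (nat_lit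 0) (XT.lf (nat_lit 0) (nat_lit 3582168385) (nat_lit 756) (nat_lit 313125928) (nat_lit 840) (nat_lit 3981240335) (nat_lit 123) (nat_lit 5) (nat_lit 132) (nat_lit 5) (nat_lit 133) (nat_lit 5) (nat_lit 312) (nat_lit 294) (nat_lit 255)) (XT.nd (nat_lit 94) (nat_lit 840) (nat_lit 0) (XT.lf (nat_lit 0) (nat_lit 5418602600) (nat_lit 840) (nat_lit 1054064850) (nat_lit 84) (nat_lit 1506146743) (nat_lit 123) (nat_lit 5) (nat_lit 133) (nat_lit 5) (nat_lit 124) (nat_lit 5) (nat_lit 313) (nat_lit 294) (nat_lit 254)) (XT.lf (nat_lit 0) (nat_lit 2293832374) (nat_lit 840) (nat_lit 4676732264) (nat_lit 924) (nat_lit 1114559118) (nat_lit 113) (nat_lit 5) (nat_lit 123) (nat_lit 5) (nat_lit 124) (nat_lit 5) (nat_lit 314) (nat_lit 294) (nat_lit 253)))) (XT.nd (nat_lit 188) (nat_lit 0) (nat_lit 0) (XT.nd (nat_lit 94) (nat_lit 924) (nat_lit 0) (XT.lf (nat_lit 0) (nat_lit 335194883) (nat_lit 924) (nat_lit 2467049766)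 (nat_lit 84) (nat_lit 5393662919) (nat_lit 112) (nat_lit 5) (nat_lit 123) (nat_lit 5) (nat_lit 113) (nat_lit 5) (nat_lit 315) (nat_lit 294) (nat_lit 252)) (XT.lf (nat_lit 0) (nat_lit 932045190) (nat_lit 924) (nat_lit 841015923) (nat_lit 1008) (nat_lit 6538014097) (nat_lit 101) (nat_lit 5) (nat_lit 112) (nat_lit 5) (nat_lit 113) (nat_lit 5) (nat_lit 316) (nat_lit 294) (nat_lit 251))) (XT.nd (nat_lit 94) (nat_lit 0) (nat_lit 0) (XT.lf (nat_lit 0) (nat_lit 3251315542) (nat_lit 1008) (nat_lit 3989018633) (nat_lit 84) (nat_lit 1189859735) (nat_lit 101) (nat_lit 5) (nat_lit 113) (nat_lit 5) (nat_lit 102) (nat_lit 5) (nat_lit 317) (nat_lit 294) (nat_lit 250)) (XT.lf (nat_lit 0) (nat_lit 4743342049) (nat_lit 1008) (nat_lit 538247860) (nat_lit 84) (nat_lit 3272652601) (nat_lit 101) (nat_lit 5) (nat_lit 113) (nat_lit 5) (nat_lit 102) (nat_lit 5) (nat_lit 318) (nat_lit 294) (nat_lit 249))))) (XT.nd (nat_lit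 282) (nat_lit 504) (nat_lit 0) (XT.nd (nat_lit 94) (nat_lit 672) (nat_lit 0) (XT.lf (nat_lit 0) (nat_lit 3046216225) (nat_lit 1008) (nat_lit 3226190994) (nat_lit 1092) (nat_lit 2410251268) (nat_lit 89) (nat_lit 5) (nat_lit 101) (nat_lit 5) (nat_lit 102) (nat_lit 5) (nat_lit 319) (nat_lit 294) (nat_lit 248)) (XT.nd (nat_lit 94) (nat_lit 672) (nat_lit 0) (XT.lf (nat_lit 0) (nat_lit 6718905074) (nat_lit 1008) (nat_lit 1096998907) (nat_lit 1092) (nat_lit 1000402560) (nat_lit 89) (nat_lit 5) (nat_lit 101) (nat_lit 5) (nat_lit 102) (nat_lit 5) (nat_lit 320) (nat_lit 294) (nat_lit 247)) (XT.lf (nat_lit 0) (nat_lit 432441215) (nat_lit 672) (nat_lit 7422326295) (nat_lit 84) (nat_lit 1099765362) (nat_lit 81) (nat_lit 5) (nat_lit 89) (nat_lit 5) (nat_lit 82) (nat_lit 5) (nat_lit 321) (nat_lit 294) (nat_lit 246)))) (XT.nd (nat_lit 188) (nat_lit 504) (nat_lit 0) (XT.nd (nat_lit 94) (nat_lit 0) (nat_lit 0) (XT.lf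 (nat_lit 0) (nat_lit 1885070302) (nat_lit 672) (nat_lit 3834563580) (nat_lit 84) (nat_lit 3377421645) (nat_lit 81) (nat_lit 5) (nat_lit 89) (nat_lit 5) (nat_lit 82) (nat_lit 5) (nat_lit 322) (nat_lit 294) (nat_lit 245)) (XT.lf (nat_lit 0) (nat_lit 3346660737) (nat_lit 672) (nat_lit 169837172) (nat_lit 84) (nat_lit 5728819439) (nat_lit 81) (nat_lit 5) (nat_lit 89) (nat_lit 5) (nat_lit 82) (nat_lit 5) (nat_lit 323) (nat_lit 294) (nat_lit 244))) (XT.nd (nat_lit 94) (nat_lit 0) (nat_lit 0) (XT.lf (nat_lit 0) (nat_lit 3648783696) (nat_lit 504) (nat_lit 1205987563) (nat_lit 588) (nat_lit 4543563183) (nat_lit 75) (nat_lit 5) (nat_lit 81) (nat_lit 5) (nat_lit 82) (nat_lit 5) (nat_lit 324) (nat_lit 294) (nat_lit 243)) (XT.lf (nat_lit 0) (nat_lit 6388845280) (nat_lit 588) (nat_lit 2012500455) (nat_lit 84) (nat_lit 1155584533) (nat_lit 75) (nat_lit 5) (nat_lit 82) (nat_lit 5) (nat_lit 76) (nat_lit 5) (nat_lit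 325) (nat_lit 294) (nat_lit 242)))))) (XT.nd (nat_lit 658) (nat_lit 840) (nat_lit 0) (XT.nd (nat_lit 282) (nat_lit 840) (nat_lit 0) (XT.nd (nat_lit 94) (nat_lit 84) (nat_lit 0) (XT.lf (nat_lit 0) (nat_lit 1831841587) (nat_lit 504) (nat_lit 6135923885) (nat_lit 588) (nat_lit 1752946150) (nat_lit 69) (nat_lit 5) (nat_lit 75) (nat_lit 5) (nat_lit 76) (nat_lit 5) (nat_lit 326) (nat_lit 294) (nat_lit 241)) (XT.nd (nat_lit 94) (nat_lit 84) (nat_lit 0) (XT.lf (nat_lit 0) (nat_lit 5805227678) (nat_lit 504) (nat_lit 3778867681) (nat_lit 588) (nat_lit 306011955) (nat_lit 69) (nat_lit 5) (nat_lit 75) (nat_lit 5) (nat_lit 76) (nat_lit 5) (nat_lit 327) (nat_lit 294) (nat_lit 240)) (XT.lf (nat_lit 0) (nat_lit 1129828325) (nat_lit 588) (nat_lit 207365064) (nat_lit 84) (nat_lit 8728358878) (nat_lit 68) (nat_lit 5) (nat_lit 75) (nat_lit 5) (nat_lit 69) (nat_lit 5) (nat_lit 328) (nat_lit 294) (nat_lit 239)))) (XT.nd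 (nat_lit 188) (nat_lit 420) (nat_lit 0) (XT.nd (nat_lit 94) (nat_lit 0) (nat_lit 0) (XT.lf (nat_lit 0) (nat_lit 2622873406) (nat_lit 504) (nat_lit 6425621097) (nat_lit 84) (nat_lit 1197417696) (nat_lit 63) (nat_lit 5) (nat_lit 69) (nat_lit 5) (nat_lit 64) (nat_lit 5) (nat_lit 329) (nat_lit 294) (nat_lit 238)) (XT.lf (nat_lit 0) (nat_lit 4147587160) (nat_lit 504) (nat_lit 2500723553) (nat_lit 84) (nat_lit 3784164508) (nat_lit 63) (nat_lit 5) (nat_lit 69) (nat_lit 5) (nat_lit 64) (nat_lit 5) (nat_lit 330) (nat_lit 294) (nat_lit 237))) (XT.nd (nat_lit 94) (nat_lit 0) (nat_lit 0) (XT.lf (nat_lit 0) (nat_lit 1545530371) (nat_lit 420) (nat_lit 4159806280) (nat_lit 504) (nat_lit 4920080257) (nat_lit 58) (nat_lit 5) (nat_lit 63) (nat_lit 5) (nat_lit 64) (nat_lit 5) (nat_lit 331) (nat_lit 294) (nat_lit 236)) (XT.lf (nat_lit 0) (nat_lit 5739096206) (nat_lit 420) (nat_lit 1569400356) (nat_lit 504) (nat_lit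 3516081937) (nat_lit 58) (nat_lit 5) (nat_lit 63) (nat_lit 5) (nat_lit 64) (nat_lit 5) (nat_lit 332) (nat_lit 294) (nat_lit 235))))) (XT.nd (nat_lit 376) (nat_lit 0) (nat_lit 0) (XT.nd (nat_lit 188) (nat_lit 504) (nat_lit 0) (XT.nd (nat_lit 94) (nat_lit 336) (nat_lit 0) (XT.lf (nat_lit 0) (nat_lit 8944148016) (nat_lit 504) (nat_lit 1009372080) (nat_lit 84) (nat_lit 1077072345) (nat_lit 58) (nat_lit 5) (nat_lit 64) (nat_lit 5) (nat_lit 59) (nat_lit 5) (nat_lit 333) (nat_lit 294) (nat_lit 234)) (XT.lf (nat_lit 0) (nat_lit 3211493240) (nat_lit 336) (nat_lit 7439635437) (nat_lit 420) (nat_lit 591365379) (nat_lit 54) (nat_lit 5) (nat_lit 58) (nat_lit 5) (nat_lit 59) (nat_lit 5) (nat_lit 334) (nat_lit 294) (nat_lit 233))) (XT.nd (nat_lit 94) (nat_lit 420) (nat_lit 0) (XT.lf (nat_lit 0) (nat_lit 914393337) (nat_lit 420) (nat_lit 3916209011) (nat_lit 84) (nat_lit 6630714676) (nat_lit 53) (nat_lit 5) (nat_lit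 58) (nat_lit 5) (nat_lit 54) (nat_lit 5) (nat_lit 335) (nat_lit 294) (nat_lit 232)) (XT.lf (nat_lit 0) (nat_lit 296342996) (nat_lit 420) (nat_lit 2134790528) (nat_lit 504) (nat_lit 9256456568) (nat_lit 48) (nat_lit 5) (nat_lit 53) (nat_lit 5) (nat_lit 54) (nat_lit 5) (nat_lit 336) (nat_lit 294) (nat_lit 231)))) (XT.nd (nat_lit 50102) (nat_lit 0) (nat_lit 8820) (XT.nd (nat_lit 94) (nat_lit 0) (nat_lit 0) (XT.lf (nat_lit 0) (nat_lit 4016694725) (nat_lit 504) (nat_lit 7234227523) (nat_lit 84) (nat_lit 669403937) (nat_lit 48) (nat_lit 5) (nat_lit 54) (nat_lit 5) (nat_lit 49) (nat_lit 5) (nat_lit 337) (nat_lit 294) (nat_lit 230)) (XT.lf (nat_lit 0) (nat_lit 5648132968) (nat_lit 504) (nat_lit 2999573138) (nat_lit 84) (nat_lit 3512793210) (nat_lit 48) (nat_lit 5) (nat_lit 54) (nat_lit 5) (nat_lit 49) (nat_lit 5) (nat_lit 338) (nat_lit 294) (nat_lit 229))) (XT.nd (nat_lit 94) (nat_lit 0) (nat_lit 0) (XT.lf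 (nat_lit 0) (nat_lit 39974301) (nat_lit 588) (nat_lit 1669920209) (nat_lit 588) (nat_lit 1669920209) (nat_lit 153) (nat_lit 3) (nat_lit 160) (nat_lit 3) (nat_lit 160) (nat_lit 5) (nat_lit 295) (nat_lit 295) (nat_lit 271)) (XT.lf (nat_lit 0) (nat_lit 1739352591) (nat_lit 588) (nat_lit 826972768) (nat_lit 588) (nat_lit 4234099110) (nat_lit 153) (nat_lit 3) (nat_lit 160) (nat_lit 3) (nat_lit 160) (nat_lit 5) (nat_lit 296) (nat_lit 295) (nat_lit 270))))))))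
noncomputable def xc19 : XT := (XT.nd (nat_lit 2726) (nat_lit 2268) (nat_lit 0) (XT.nd (nat_lit 1316) (nat_lit 4704) (nat_lit 0) (XT.nd (nat_lit 658) (nat_lit 1344) (nat_lit 0) (XT.nd (nat_lit 282) (nat_lit 504) (nat_lit 0) (XT.nd (nat_lit 94) (nat_lit 0) (nat_lit 0) (XT.lf (nat_lit 84) (nat_lit 1764650185) (nat_lit 0) (nat_lit 1636236816) (nat_lit 588) (nat_lit 3443632546) (nat_lit 154) (nat_lit 5) (nat_lit 153) (nat_lit 3) (nat_lit 160) (nat_lit 5) (nat_lit 297) (nat_lit 295) (nat_lit 269)) (XT.nd (nat_lit 94) (nat_lit 0) (nat_lit 84) (XT.lf (nat_lit 84) (nat_lit 4419798754) (nat_lit 0) (nat_lit 637613793) (nat_lit 588) (nat_lit 1834812561) (nat_lit 154) (nat_lit 5) (nat_lit 153) (nat_lit 3) (nat_lit 160) (nat_lit 5) (nat_lit 298) (nat_lit 295) (nat_lit 268)) (XT.lf (nat_lit 84) (nat_lit 179530813) (nat_lit 0) (nat_lit 6528535812) (nat_lit 588) (nat_lit 235593598) (nat_lit 155) (nat_lit 5) (nat_lit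 154) (nat_lit 5) (nat_lit 161) (nat_lit 5) (nat_lit 299) (nat_lit 295) (nat_lit 267)))) (XT.nd (nat_lit 188) (nat_lit 0) (nat_lit 0) (XT.nd (nat_lit 94) (nat_lit 0) (nat_lit 0) (XT.lf (nat_lit 0) (nat_lit 1354883996) (nat_lit 588) (nat_lit 4087994147) (nat_lit 672) (nat_lit 1554750769) (nat_lit 147) (nat_lit 5) (nat_lit 154) (nat_lit 5) (nat_lit 155) (nat_lit 5) (nat_lit 300) (nat_lit 295) (nat_lit 266)) (XT.lf (nat_lit 0) (nat_lit 2929213304) (nat_lit 588) (nat_lit 1367596103) (nat_lit 672) (nat_lit 2758698887) (nat_lit 147) (nat_lit 5) (nat_lit 154) (nat_lit 5) (nat_lit 155) (nat_lit 5) (nat_lit 301) (nat_lit 295) (nat_lit 265))) (XT.nd (nat_lit 94) (nat_lit 0) (nat_lit 0) (XT.lf (nat_lit 84) (nat_lit 1430764246) (nat_lit 0) (nat_lit 3077037563) (nat_lit 672) (nat_lit 2609182963) (nat_lit 148) (nat_lit 5) (nat_lit 147) (nat_lit 5) (nat_lit 155) (nat_lit 5) (nat_lit 302) (nat_lit 295) (nat_lit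 264)) (XT.lf (nat_lit 84) (nat_lit 4310025676) (nat_lit 0) (nat_lit 1782257927) (nat_lit 672) (nat_lit 1089827004) (nat_lit 148) (nat_lit 5) (nat_lit 147) (nat_lit 5) (nat_lit 155) (nat_lit 5) (nat_lit 303) (nat_lit 295) (nat_lit 263))))) (XT.nd (nat_lit 282) (nat_lit 672) (nat_lit 0) (XT.nd (nat_lit 94) (nat_lit 0) (nat_lit 84) (XT.lf (nat_lit 0) (nat_lit 410474001) (nat_lit 672) (nat_lit 10780021) (nat_lit 756) (nat_lit 6829992869) (nat_lit 139) (nat_lit 5) (nat_lit 147) (nat_lit 5) (nat_lit 148) (nat_lit 5) (nat_lit 304) (nat_lit 295) (nat_lit 262)) (XT.nd (nat_lit 94) (nat_lit 0) (nat_lit 0) (XT.lf (nat_lit 0) (nat_lit 1919450336) (nat_lit 672) (nat_lit 4380401795) (nat_lit 756) (nat_lit 1023173239) (nat_lit 140) (nat_lit 5) (nat_lit 148) (nat_lit 5) (nat_lit 149) (nat_lit 5) (nat_lit 305) (nat_lit 295) (nat_lit 261)) (XT.lf (nat_lit 0) (nat_lit 3426282654) (nat_lit 672) (nat_lit 1449671308)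 (nat_lit 756) (nat_lit 2522953817) (nat_lit 140) (nat_lit 5) (nat_lit 148) (nat_lit 5) (nat_lit 149) (nat_lit 5) (nat_lit 306) (nat_lit 295) (nat_lit 260)))) (XT.nd (nat_lit 188) (nat_lit 756) (nat_lit 0) (XT.nd (nat_lit 94) (nat_lit 0) (nat_lit 0) (XT.lf (nat_lit 84) (nat_lit 1568452072) (nat_lit 0) (nat_lit 3375193501) (nat_lit 756) (nat_lit 2534969905) (nat_lit 141) (nat_lit 5) (nat_lit 140) (nat_lit 5) (nat_lit 149) (nat_lit 5) (nat_lit 307) (nat_lit 295) (nat_lit 259)) (XT.lf (nat_lit 84) (nat_lit 4676163939) (nat_lit 0) (nat_lit 1796485401) (nat_lit 756) (nat_lit 1089582849) (nat_lit 141) (nat_lit 5) (nat_lit 140) (nat_lit 5) (nat_lit 149) (nat_lit 5) (nat_lit 308) (nat_lit 295) (nat_lit 258))) (XT.nd (nat_lit 94) (nat_lit 0) (nat_lit 84) (XT.lf (nat_lit 84) (nat_lit 196756589) (nat_lit 0) (nat_lit 147900243) (nat_lit 840) (nat_lit 7305465930) (nat_lit 132) (nat_lit 5) (nat_lit 131) (nat_lit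 5) (nat_lit 141) (nat_lit 5) (nat_lit 309) (nat_lit 295) (nat_lit 257)) (XT.lf (nat_lit 0) (nat_lit 1798010460) (nat_lit 756) (nat_lit 4366929993) (nat_lit 84) (nat_lit 1575847105) (nat_lit 132) (nat_lit 5) (nat_lit 141) (nat_lit 5) (nat_lit 133) (nat_lit 5) (nat_lit 310) (nat_lit 295) (nat_lit 256)))))) (XT.nd (nat_lit 658) (nat_lit 2184) (nat_lit 0) (XT.nd (nat_lit 282) (nat_lit 1848) (nat_lit 0) (XT.nd (nat_lit 94) (nat_lit 756) (nat_lit 0) (XT.lf (nat_lit 0) (nat_lit 3250849264) (nat_lit 756) (nat_lit 1221838223) (nat_lit 84) (nat_lit 3363289690) (nat_lit 132) (nat_lit 5) (nat_lit 141) (nat_lit 5) (nat_lit 133) (nat_lit 5) (nat_lit 311) (nat_lit 295) (nat_lit 255)) (XT.nd (nat_lit 94) (nat_lit 0) (nat_lit 0) (XT.lf (nat_lit 0) (nat_lit 2027150443) (nat_lit 756) (nat_lit 2696019394) (nat_lit 840) (nat_lit 3212032595) (nat_lit 123) (nat_lit 5) (nat_lit 132) (nat_lit 5) (nat_lit 133) (nat_lit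 5) (nat_lit 312) (nat_lit 295) (nat_lit 254)) (XT.lf (nat_lit 0) (nat_lit 5368665285) (nat_lit 756) (nat_lit 840589582) (nat_lit 840) (nat_lit 1829520725) (nat_lit 123) (nat_lit 5) (nat_lit 132) (nat_lit 5) (nat_lit 133) (nat_lit 5) (nat_lit 313) (nat_lit 295) (nat_lit 253)))) (XT.nd (nat_lit 188) (nat_lit 924) (nat_lit 0) (XT.nd (nat_lit 94) (nat_lit 84) (nat_lit 0) (XT.lf (nat_lit 0) (nat_lit 635587132) (nat_lit 840) (nat_lit 7079576803) (nat_lit 924) (nat_lit 431484356) (nat_lit 113) (nat_lit 5) (nat_lit 123) (nat_lit 5) (nat_lit 124) (nat_lit 5) (nat_lit 314) (nat_lit 295) (nat_lit 252)) (XT.lf (nat_lit 0) (nat_lit 983372728) (nat_lit 924) (nat_lit 4211112945) (nat_lit 84) (nat_lit 3063519006) (nat_lit 112) (nat_lit 5) (nat_lit 123) (nat_lit 5) (nat_lit 113) (nat_lit 5) (nat_lit 315) (nat_lit 295) (nat_lit 251))) (XT.nd (nat_lit 94) (nat_lit 924) (nat_lit 0) (XT.lf (nat_lit 0) (nat_lit 2391493941)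 (nat_lit 924) (nat_lit 847787132) (nat_lit 84) (nat_lit 5134936979) (nat_lit 112) (nat_lit 5) (nat_lit 123) (nat_lit 5) (nat_lit 113) (nat_lit 5) (nat_lit 316) (nat_lit 295) (nat_lit 250)) (XT.lf (nat_lit 0) (nat_lit 2639511910) (nat_lit 924) (nat_lit 1189557621) (nat_lit 1008) (nat_lit 4665648182) (nat_lit 101) (nat_lit 5) (nat_lit 112) (nat_lit 5) (nat_lit 113) (nat_lit 5) (nat_lit 317) (nat_lit 295) (nat_lit 249))))) (XT.nd (nat_lit 376) (nat_lit 1092) (nat_lit 0) (XT.nd (nat_lit 188) (nat_lit 84) (nat_lit 0) (XT.nd (nat_lit 94) (nat_lit 1008) (nat_lit 0) (XT.lf (nat_lit 0) (nat_lit 5289879921) (nat_lit 1008) (nat_lit 2409697520) (nat_lit 84) (nat_lit 920272886) (nat_lit 101) (nat_lit 5) (nat_lit 113) (nat_lit 5) (nat_lit 102) (nat_lit 5) (nat_lit 318) (nat_lit 295) (nat_lit 248)) (XT.lf (nat_lit 0) (nat_lit 1119395424) (nat_lit 1008) (nat_lit 5661603594) (nat_lit 1092) (nat_lit 1968556431)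 (nat_lit 89) (nat_lit 5) (nat_lit 101) (nat_lit 5) (nat_lit 102) (nat_lit 5) (nat_lit 319) (nat_lit 295) (nat_lit 247))) (XT.nd (nat_lit 94) (nat_lit 84) (nat_lit 0) (XT.lf (nat_lit 0) (nat_lit 4775701829) (nat_lit 1008) (nat_lit 3530365891) (nat_lit 1092) (nat_lit 577816474) (nat_lit 89) (nat_lit 5) (nat_lit 101) (nat_lit 5) (nat_lit 102) (nat_lit 5) (nat_lit 320) (nat_lit 295) (nat_lit 246)) (XT.lf (nat_lit 0) (nat_lit 801904674) (nat_lit 1092) (nat_lit 518755184) (nat_lit 84) (nat_lit 7702806518) (nat_lit 88) (nat_lit 5) (nat_lit 101) (nat_lit 5) (nat_lit 89) (nat_lit 5) (nat_lit 321) (nat_lit 295) (nat_lit 245)))) (XT.nd (nat_lit 188) (nat_lit 504) (nat_lit 0) (XT.nd (nat_lit 94) (nat_lit 0) (nat_lit 0) (XT.lf (nat_lit 0) (nat_lit 2218367206) (nat_lit 672) (nat_lit 5969000538) (nat_lit 84) (nat_lit 979842296) (nat_lit 81) (nat_lit 5) (nat_lit 89) (nat_lit 5) (nat_lit 82) (nat_lit 5) (nat_lit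 322) (nat_lit 295) (nat_lit 244)) (XT.lf (nat_lit 0) (nat_lit 3662731840) (nat_lit 672) (nat_lit 2320634011) (nat_lit 84) (nat_lit 3332736855) (nat_lit 81) (nat_lit 5) (nat_lit 89) (nat_lit 5) (nat_lit 82) (nat_lit 5) (nat_lit 323) (nat_lit 295) (nat_lit 243))) (XT.nd (nat_lit 94) (nat_lit 0) (nat_lit 0) (XT.lf (nat_lit 0) (nat_lit 1437567812) (nat_lit 504) (nat_lit 3694631158) (nat_lit 588) (nat_lit 4338212707) (nat_lit 75) (nat_lit 5) (nat_lit 81) (nat_lit 5) (nat_lit 82) (nat_lit 5) (nat_lit 324) (nat_lit 295) (nat_lit 242)) (XT.lf (nat_lit 0) (nat_lit 5329568538) (nat_lit 504) (nat_lit 1308643892) (nat_lit 588) (nat_lit 2991756060) (nat_lit 75) (nat_lit 5) (nat_lit 81) (nat_lit 5) (nat_lit 82) (nat_lit 5) (nat_lit 325) (nat_lit 295) (nat_lit 241))))))) (XT.nd (nat_lit 51324) (nat_lit 0) (nat_lit 6972) (XT.nd (nat_lit 658) (nat_lit 840) (nat_lit 0) (XT.nd (nat_lit 282) (nat_lit 840) (nat_lit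 0) (XT.nd (nat_lit 94) (nat_lit 588) (nat_lit 0) (XT.lf (nat_lit 0) (nat_lit 8170115554) (nat_lit 588) (nat_lit 495805175) (nat_lit 84) (nat_lit 1129375011) (nat_lit 75) (nat_lit 5) (nat_lit 82) (nat_lit 5) (nat_lit 76) (nat_lit 5) (nat_lit 326) (nat_lit 295) (nat_lit 240)) (XT.nd (nat_lit 94) (nat_lit 84) (nat_lit 0) (XT.lf (nat_lit 0) (nat_lit 3451724675) (nat_lit 504) (nat_lit 6314159727) (nat_lit 588) (nat_lit 199530135) (nat_lit 69) (nat_lit 5) (nat_lit 75) (nat_lit 5) (nat_lit 76) (nat_lit 5) (nat_lit 327) (nat_lit 295) (nat_lit 239)) (XT.lf (nat_lit 0) (nat_lit 1218854981) (nat_lit 588) (nat_lit 2652817600) (nat_lit 84) (nat_lit 6269709401) (nat_lit 68) (nat_lit 5) (nat_lit 75) (nat_lit 5) (nat_lit 69) (nat_lit 5) (nat_lit 328) (nat_lit 295) (nat_lit 238)))) (XT.nd (nat_lit 188) (nat_lit 420) (nat_lit 0) (XT.nd (nat_lit 94) (nat_lit 0) (nat_lit 0) (XT.lf (nat_lit 0) (nat_lit 1321625427)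 (nat_lit 420) (nat_lit 1338391337) (nat_lit 504) (nat_lit 7663411742) (nat_lit 63) (nat_lit 5) (nat_lit 68) (nat_lit 5) (nat_lit 69) (nat_lit 5) (nat_lit 329) (nat_lit 295) (nat_lit 237)) (XT.lf (nat_lit 0) (nat_lit 4156898001) (nat_lit 504) (nat_lit 5079115695) (nat_lit 84) (nat_lit 1274916500) (nat_lit 63) (nat_lit 5) (nat_lit 69) (nat_lit 5) (nat_lit 64) (nat_lit 5) (nat_lit 330) (nat_lit 295) (nat_lit 236))) (XT.nd (nat_lit 94) (nat_lit 420) (nat_lit 0) (XT.lf (nat_lit 0) (nat_lit 5685197783) (nat_lit 504) (nat_lit 1079022262) (nat_lit 84) (nat_lit 3940638356) (nat_lit 63) (nat_lit 5) (nat_lit 69) (nat_lit 5) (nat_lit 64) (nat_lit 5) (nat_lit 331) (nat_lit 295) (nat_lit 235)) (XT.lf (nat_lit 0) (nat_lit 3077487240) (nat_lit 420) (nat_lit 4186105454) (nat_lit 504) (nat_lit 3641266380) (nat_lit 58) (nat_lit 5) (nat_lit 63) (nat_lit 5) (nat_lit 64) (nat_lit 5) (nat_lit 332) (nat_lit 295) (nat_lit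 234))))) (XT.nd (nat_lit 282) (nat_lit 420) (nat_lit 0) (XT.nd (nat_lit 94) (nat_lit 420) (nat_lit 0) (XT.lf (nat_lit 0) (nat_lit 7356431493) (nat_lit 420) (nat_lit 1518483561) (nat_lit 504) (nat_lit 2236781383) (nat_lit 58) (nat_lit 5) (nat_lit 63) (nat_lit 5) (nat_lit 64) (nat_lit 5) (nat_lit 333) (nat_lit 295) (nat_lit 233)) (XT.nd (nat_lit 94) (nat_lit 84) (nat_lit 0) (XT.lf (nat_lit 0) (nat_lit 409765478) (nat_lit 336) (nat_lit 10116242556) (nat_lit 420) (nat_lit 799389674) (nat_lit 54) (nat_lit 5) (nat_lit 58) (nat_lit 5) (nat_lit 59) (nat_lit 5) (nat_lit 334) (nat_lit 295) (nat_lit 232)) (XT.lf (nat_lit 0) (nat_lit 697585005) (nat_lit 420) (nat_lit 6813410337) (nat_lit 84) (nat_lit 4033754702) (nat_lit 53) (nat_lit 5) (nat_lit 58) (nat_lit 5) (nat_lit 54) (nat_lit 5) (nat_lit 335) (nat_lit 295) (nat_lit 231)))) (XT.nd (nat_lit 188) (nat_lit 0) (nat_lit 0) (XT.nd (nat_lit 94) (nat_lit 420)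 (nat_lit 0) (XT.lf (nat_lit 0) (nat_lit 2198800308) (nat_lit 420) (nat_lit 2621022520) (nat_lit 84) (nat_lit 6951742817) (nat_lit 53) (nat_lit 5) (nat_lit 58) (nat_lit 5) (nat_lit 54) (nat_lit 5) (nat_lit 336) (nat_lit 295) (nat_lit 230)) (XT.lf (nat_lit 0) (nat_lit 1707776908) (nat_lit 420) (nat_lit 2030925895) (nat_lit 504) (nat_lit 8267073776) (nat_lit 48) (nat_lit 5) (nat_lit 53) (nat_lit 5) (nat_lit 54) (nat_lit 5) (nat_lit 337) (nat_lit 295) (nat_lit 229))) (XT.nd (nat_lit 50102) (nat_lit 0) (nat_lit 8820) (XT.lf (nat_lit 0) (nat_lit 5338002746) (nat_lit 504) (nat_lit 6057238105) (nat_lit 84) (nat_lit 851762780) (nat_lit 48) (nat_lit 5) (nat_lit 54) (nat_lit 5) (nat_lit 49) (nat_lit 5) (nat_lit 338) (nat_lit 295) (nat_lit 228)) (XT.lf (nat_lit 0) (nat_lit 1682929090) (nat_lit 588) (nat_lit 869157670) (nat_lit 588) (nat_lit 869157670) (nat_lit 153) (nat_lit 3) (nat_lit 160) (nat_lit 3) (nat_lit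 160) (nat_lit 5) (nat_lit 296) (nat_lit 296) (nat_lit 269)))))) (XT.nd (nat_lit 658) (nat_lit 672) (nat_lit 0) (XT.nd (nat_lit 282) (nat_lit 588) (nat_lit 0) (XT.nd (nat_lit 94) (nat_lit 588) (nat_lit 0) (XT.lf (nat_lit 84) (nat_lit 817657617) (nat_lit 0) (nat_lit 4168431475) (nat_lit 588) (nat_lit 1902017266) (nat_lit 154) (nat_lit 5) (nat_lit 153) (nat_lit 3) (nat_lit 160) (nat_lit 5) (nat_lit 297) (nat_lit 296) (nat_lit 268)) (XT.nd (nat_lit 94) (nat_lit 588) (nat_lit 0) (XT.lf (nat_lit 84) (nat_lit 3456403739) (nat_lit 0) (nat_lit 3155098413) (nat_lit 588) (nat_lit 325508988) (nat_lit 154) (nat_lit 5) (nat_lit 153) (nat_lit 3) (nat_lit 160) (nat_lit 5) (nat_lit 298) (nat_lit 296) (nat_lit 267)) (XT.lf (nat_lit 0) (nat_lit 1211312115) (nat_lit 588) (nat_lit 857418518) (nat_lit 672) (nat_lit 4920683554) (nat_lit 146) (nat_lit 5) (nat_lit 153) (nat_lit 3) (nat_lit 154) (nat_lit 5) (nat_lit 299)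 (nat_lit 296) (nat_lit 266)))) (XT.nd (nat_lit 188) (nat_lit 588) (nat_lit 0) (XT.nd (nat_lit 94) (nat_lit 0) (nat_lit 84) (XT.lf (nat_lit 84) (nat_lit 1847973510) (nat_lit 0) (nat_lit 898877594) (nat_lit 672) (nat_lit 4298229464) (nat_lit 147) (nat_lit 5) (nat_lit 146) (nat_lit 5) (nat_lit 154) (nat_lit 5) (nat_lit 300) (nat_lit 296) (nat_lit 265)) (XT.lf (nat_lit 0) (nat_lit 4283342524) (nat_lit 588) (nat_lit 2485121798) (nat_lit 672) (nat_lit 335876352) (nat_lit 147) (nat_lit 5) (nat_lit 154) (nat_lit 5) (nat_lit 155) (nat_lit 5) (nat_lit 301) (nat_lit 296) (nat_lit 264))) (XT.nd (nat_lit 94) (nat_lit 672) (nat_lit 0) (XT.lf (nat_lit 84) (nat_lit 273105618) (nat_lit 0) (nat_lit 5549289973) (nat_lit 672) (nat_lit 1344848663) (nat_lit 148) (nat_lit 5) (nat_lit 147) (nat_lit 5) (nat_lit 155) (nat_lit 5) (nat_lit 302) (nat_lit 296) (nat_lit 263)) (XT.lf (nat_lit 0) (nat_lit 143146963) (nat_lit 672)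 (nat_lit 4099134800) (nat_lit 756) (nat_lit 2991087405) (nat_lit 139) (nat_lit 5) (nat_lit 147) (nat_lit 5) (nat_lit 148) (nat_lit 5) (nat_lit 303) (nat_lit 296) (nat_lit 262))))) (XT.nd (nat_lit 376) (nat_lit 672) (nat_lit 0) (XT.nd (nat_lit 188) (nat_lit 0) (nat_lit 84) (XT.nd (nat_lit 94) (nat_lit 0) (nat_lit 0) (XT.lf (nat_lit 0) (nat_lit 1594483206) (nat_lit 672) (nat_lit 1265518534) (nat_lit 756) (nat_lit 4443189657) (nat_lit 139) (nat_lit 5) (nat_lit 147) (nat_lit 5) (nat_lit 148) (nat_lit 5) (nat_lit 304) (nat_lit 296) (nat_lit 261)) (XT.lf (nat_lit 84) (nat_lit 1656058340) (nat_lit 0) (nat_lit 1397978531) (nat_lit 756) (nat_lit 4322643446) (nat_lit 140) (nat_lit 5) (nat_lit 139) (nat_lit 5) (nat_lit 148) (nat_lit 5) (nat_lit 305) (nat_lit 296) (nat_lit 260))) (XT.nd (nat_lit 94) (nat_lit 0) (nat_lit 0) (XT.lf (nat_lit 0) (nat_lit 4521525716) (nat_lit 672) (nat_lit 2793286081) (nat_lit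 756) (nat_lit 139143553) (nat_lit 140) (nat_lit 5) (nat_lit 148) (nat_lit 5) (nat_lit 149) (nat_lit 5) (nat_lit 306) (nat_lit 296) (nat_lit 259)) (XT.lf (nat_lit 84) (nat_lit 180121882) (nat_lit 0) (nat_lit 5820284984) (nat_lit 756) (nat_lit 1534616895) (nat_lit 141) (nat_lit 5) (nat_lit 140) (nat_lit 5) (nat_lit 149) (nat_lit 5) (nat_lit 307) (nat_lit 296) (nat_lit 258)))) (XT.nd (nat_lit 188) (nat_lit 0) (nat_lit 0) (XT.nd (nat_lit 94) (nat_lit 756) (nat_lit 0) (XT.lf (nat_lit 84) (nat_lit 3271259606) (nat_lit 0) (nat_lit 4234020206) (nat_lit 756) (nat_lit 114271447) (nat_lit 141) (nat_lit 5) (nat_lit 140) (nat_lit 5) (nat_lit 149) (nat_lit 5) (nat_lit 308) (nat_lit 296) (nat_lit 257)) (XT.lf (nat_lit 0) (nat_lit 1274566736) (nat_lit 756) (nat_lit 1295824479) (nat_lit 840) (nat_lit 5137702064) (nat_lit 131) (nat_lit 5) (nat_lit 140) (nat_lit 5) (nat_lit 141) (nat_lit 5) (nat_lit 309) (nat_lit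 296) (nat_lit 256))) (XT.nd (nat_lit 94) (nat_lit 0) (nat_lit 84) (XT.lf (nat_lit 84) (nat_lit 1854531308) (nat_lit 0) (nat_lit 821068089) (nat_lit 840) (nat_lit 5124929118) (nat_lit 132) (nat_lit 5) (nat_lit 131) (nat_lit 5) (nat_lit 141) (nat_lit 5) (nat_lit 310) (nat_lit 296) (nat_lit 255)) (XT.lf (nat_lit 0) (nat_lit 4097808705) (nat_lit 756) (nat_lit 2809719233) (nat_lit 84) (nat_lit 989283736) (nat_lit 132) (nat_lit 5) (nat_lit 141) (nat_lit 5) (nat_lit 133) (nat_lit 5) (nat_lit 311) (nat_lit 296) (nat_lit 254))))))))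
noncomputable def xc20 : XT := (XT.nd (nat_lit 52734) (nat_lit 0) (nat_lit 2268) (XT.nd (nat_lit 1316) (nat_lit 2268) (nat_lit 0) (XT.nd (nat_lit 658) (nat_lit 2184) (nat_lit 0) (XT.nd (nat_lit 282) (nat_lit 1764) (nat_lit 0) (XT.nd (nat_lit 94) (nat_lit 84) (nat_lit 0) (XT.lf (nat_lit 0) (nat_lit 389832143) (nat_lit 756) (nat_lit 5142246392) (nat_lit 840) (nat_lit 2465277661) (nat_lit 123) (nat_lit 5) (nat_lit 132) (nat_lit 5) (nat_lit 133) (nat_lit 5) (nat_lit 312) (nat_lit 296) (nat_lit 253)) (XT.nd (nat_lit 94) (nat_lit 84) (nat_lit 0) (XT.lf (nat_lit 0) (nat_lit 3715064542) (nat_lit 756) (nat_lit 3281784889) (nat_lit 840) (nat_lit 1104876158) (nat_lit 123) (nat_lit 5) (nat_lit 132) (nat_lit 5) (nat_lit 133) (nat_lit 5) (nat_lit 313) (nat_lit 296) (nat_lit 252)) (XT.lf (nat_lit 0) (nat_lit 249021477) (nat_lit 840) (nat_lit 1102116239) (nat_lit 84) (nat_lit 6859683086) (nat_lit 122) (nat_lit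 5) (nat_lit 132) (nat_lit 5) (nat_lit 123) (nat_lit 5) (nat_lit 314) (nat_lit 296) (nat_lit 251)))) (XT.nd (nat_lit 188) (nat_lit 924) (nat_lit 0) (XT.nd (nat_lit 94) (nat_lit 0) (nat_lit 0) (XT.lf (nat_lit 0) (nat_lit 1610010590) (nat_lit 924) (nat_lit 6043749809) (nat_lit 84) (nat_lit 669808144) (nat_lit 112) (nat_lit 5) (nat_lit 123) (nat_lit 5) (nat_lit 113) (nat_lit 5) (nat_lit 315) (nat_lit 296) (nat_lit 250)) (XT.lf (nat_lit 0) (nat_lit 2998249152) (nat_lit 924) (nat_lit 2696903638) (nat_lit 84) (nat_lit 2745365408) (nat_lit 112) (nat_lit 5) (nat_lit 123) (nat_lit 5) (nat_lit 113) (nat_lit 5) (nat_lit 316) (nat_lit 296) (nat_lit 249))) (XT.nd (nat_lit 94) (nat_lit 0) (nat_lit 0) (XT.lf (nat_lit 0) (nat_lit 736060977) (nat_lit 924) (nat_lit 3661596475) (nat_lit 1008) (nat_lit 4164659906) (nat_lit 101) (nat_lit 5) (nat_lit 112) (nat_lit 5) (nat_lit 113) (nat_lit 5) (nat_lit 317) (nat_lit 296)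 (nat_lit 248)) (XT.lf (nat_lit 0) (nat_lit 4300485327) (nat_lit 924) (nat_lit 1529803650) (nat_lit 1008) (nat_lit 2858147354) (nat_lit 101) (nat_lit 5) (nat_lit 112) (nat_lit 5) (nat_lit 113) (nat_lit 5) (nat_lit 318) (nat_lit 296) (nat_lit 247))))) (XT.nd (nat_lit 282) (nat_lit 1092) (nat_lit 0) (XT.nd (nat_lit 94) (nat_lit 1092) (nat_lit 0) (XT.lf (nat_lit 0) (nat_lit 7276862149) (nat_lit 1008) (nat_lit 882287914) (nat_lit 84) (nat_lit 660481735) (nat_lit 101) (nat_lit 5) (nat_lit 113) (nat_lit 5) (nat_lit 102) (nat_lit 5) (nat_lit 319) (nat_lit 296) (nat_lit 246)) (XT.nd (nat_lit 94) (nat_lit 84) (nat_lit 0) (XT.lf (nat_lit 0) (nat_lit 2739986983) (nat_lit 1008) (nat_lit 6035137531) (nat_lit 1092) (nat_lit 179773161) (nat_lit 89) (nat_lit 5) (nat_lit 101) (nat_lit 5) (nat_lit 102) (nat_lit 5) (nat_lit 320) (nat_lit 296) (nat_lit 245)) (XT.lf (nat_lit 0) (nat_lit 1174313589) (nat_lit 1092) (nat_lit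 2645306273) (nat_lit 84) (nat_lit 5275383489) (nat_lit 88) (nat_lit 5) (nat_lit 101) (nat_lit 5) (nat_lit 89) (nat_lit 5) (nat_lit 321) (nat_lit 296) (nat_lit 244)))) (XT.nd (nat_lit 188) (nat_lit 504) (nat_lit 0) (XT.nd (nat_lit 94) (nat_lit 0) (nat_lit 0) (XT.lf (nat_lit 0) (nat_lit 1022446292) (nat_lit 588) (nat_lit 1519639431) (nat_lit 672) (nat_lit 6698267539) (nat_lit 81) (nat_lit 5) (nat_lit 88) (nat_lit 5) (nat_lit 89) (nat_lit 5) (nat_lit 322) (nat_lit 296) (nat_lit 243)) (XT.lf (nat_lit 0) (nat_lit 3954667490) (nat_lit 672) (nat_lit 4570333405) (nat_lit 84) (nat_lit 865324234) (nat_lit 81) (nat_lit 5) (nat_lit 89) (nat_lit 5) (nat_lit 82) (nat_lit 5) (nat_lit 323) (nat_lit 296) (nat_lit 242))) (XT.nd (nat_lit 94) (nat_lit 504) (nat_lit 0) (XT.lf (nat_lit 0) (nat_lit 5393668283) (nat_lit 672) (nat_lit 856486226) (nat_lit 84) (nat_lit 3295515157) (nat_lit 81) (nat_lit 5) (nat_lit 89) (nat_lit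 5) (nat_lit 82) (nat_lit 5) (nat_lit 324) (nat_lit 296) (nat_lit 241)) (XT.lf (nat_lit 0) (nat_lit 3002668347) (nat_lit 504) (nat_lit 3872472885) (nat_lit 588) (nat_lit 2830934370) (nat_lit 75) (nat_lit 5) (nat_lit 81) (nat_lit 5) (nat_lit 82) (nat_lit 5) (nat_lit 325) (nat_lit 296) (nat_lit 240)))))) (XT.nd (nat_lit 658) (nat_lit 840) (nat_lit 0) (XT.nd (nat_lit 282) (nat_lit 840) (nat_lit 0) (XT.nd (nat_lit 94) (nat_lit 588) (nat_lit 0) (XT.lf (nat_lit 0) (nat_lit 6969601781) (nat_lit 504) (nat_lit 1410616470) (nat_lit 588) (nat_lit 1492101923) (nat_lit 75) (nat_lit 5) (nat_lit 81) (nat_lit 5) (nat_lit 82) (nat_lit 5) (nat_lit 326) (nat_lit 296) (nat_lit 239)) (XT.nd (nat_lit 94) (nat_lit 84) (nat_lit 0) (XT.lf (nat_lit 0) (nat_lit 994411047) (nat_lit 504) (nat_lit 8928282241) (nat_lit 588) (nat_lit 121480927) (nat_lit 69) (nat_lit 5) (nat_lit 75) (nat_lit 5) (nat_lit 76) (nat_lit 5) (nat_lit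 327) (nat_lit 296) (nat_lit 238)) (XT.lf (nat_lit 0) (nat_lit 1280482214) (nat_lit 588) (nat_lit 5204782523) (nat_lit 84) (nat_lit 3735391464) (nat_lit 68) (nat_lit 5) (nat_lit 75) (nat_lit 5) (nat_lit 69) (nat_lit 5) (nat_lit 328) (nat_lit 296) (nat_lit 237)))) (XT.nd (nat_lit 188) (nat_lit 420) (nat_lit 0) (XT.nd (nat_lit 94) (nat_lit 420) (nat_lit 0) (XT.lf (nat_lit 0) (nat_lit 2694130343) (nat_lit 588) (nat_lit 1271630114) (nat_lit 84) (nat_lit 6437871050) (nat_lit 68) (nat_lit 5) (nat_lit 75) (nat_lit 5) (nat_lit 69) (nat_lit 5) (nat_lit 329) (nat_lit 296) (nat_lit 236)) (XT.lf (nat_lit 0) (nat_lit 2811204785) (nat_lit 420) (nat_lit 1339911412) (nat_lit 504) (nat_lit 6441327334) (nat_lit 63) (nat_lit 5) (nat_lit 68) (nat_lit 5) (nat_lit 69) (nat_lit 5) (nat_lit 330) (nat_lit 296) (nat_lit 235))) (XT.nd (nat_lit 94) (nat_lit 420) (nat_lit 0) (XT.lf (nat_lit 0) (nat_lit 5652430530) (nat_lit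 504) (nat_lit 3782423062) (nat_lit 84) (nat_lit 1352426059) (nat_lit 63) (nat_lit 5) (nat_lit 69) (nat_lit 5) (nat_lit 64) (nat_lit 5) (nat_lit 331) (nat_lit 296) (nat_lit 234)) (XT.lf (nat_lit 0) (nat_lit 304076646) (nat_lit 420) (nat_lit 6885954586) (nat_lit 504) (nat_lit 3798582931) (nat_lit 58) (nat_lit 5) (nat_lit 63) (nat_lit 5) (nat_lit 64) (nat_lit 5) (nat_lit 332) (nat_lit 296) (nat_lit 233))))) (XT.nd (nat_lit 282) (nat_lit 420) (nat_lit 0) (XT.nd (nat_lit 94) (nat_lit 420) (nat_lit 0) (XT.lf (nat_lit 0) (nat_lit 4569032220) (nat_lit 420) (nat_lit 4219300323) (nat_lit 504) (nat_lit 2407589775) (nat_lit 58) (nat_lit 5) (nat_lit 63) (nat_lit 5) (nat_lit 64) (nat_lit 5) (nat_lit 333) (nat_lit 296) (nat_lit 232)) (XT.nd (nat_lit 94) (nat_lit 420) (nat_lit 0) (XT.lf (nat_lit 0) (nat_lit 8938644667) (nat_lit 420) (nat_lit 1471885940) (nat_lit 504) (nat_lit 1000053845) (nat_lit 58) (nat_lit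 5) (nat_lit 63) (nat_lit 5) (nat_lit 64) (nat_lit 5) (nat_lit 334) (nat_lit 296) (nat_lit 231)) (XT.lf (nat_lit 0) (nat_lit 448495226) (nat_lit 420) (nat_lit 9829251984) (nat_lit 84) (nat_lit 1353939073) (nat_lit 53) (nat_lit 5) (nat_lit 58) (nat_lit 5) (nat_lit 54) (nat_lit 5) (nat_lit 335) (nat_lit 296) (nat_lit 230)))) (XT.nd (nat_lit 188) (nat_lit 420) (nat_lit 0) (XT.nd (nat_lit 94) (nat_lit 0) (nat_lit 0) (XT.lf (nat_lit 0) (nat_lit 1937503813) (nat_lit 420) (nat_lit 5650630937) (nat_lit 84) (nat_lit 4270804964) (nat_lit 53) (nat_lit 5) (nat_lit 58) (nat_lit 5) (nat_lit 54) (nat_lit 5) (nat_lit 336) (nat_lit 296) (nat_lit 229)) (XT.lf (nat_lit 0) (nat_lit 3448625265) (nat_lit 420) (nat_lit 1369592238) (nat_lit 84) (nat_lit 7275882991) (nat_lit 53) (nat_lit 5) (nat_lit 58) (nat_lit 5) (nat_lit 54) (nat_lit 5) (nat_lit 337) (nat_lit 296) (nat_lit 228))) (XT.nd (nat_lit 50196) (nat_lit 0) (nat_lit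 8820) (XT.lf (nat_lit 0) (nat_lit 3079907764) (nat_lit 420) (nat_lit 1933913405) (nat_lit 504) (nat_lit 7322619503) (nat_lit 48) (nat_lit 5) (nat_lit 53) (nat_lit 5) (nat_lit 54) (nat_lit 5) (nat_lit 338) (nat_lit 296) (nat_lit 227)) (XT.lf (nat_lit 0) (nat_lit 3279573852) (nat_lit 588) (nat_lit 94068307) (nat_lit 588) (nat_lit 94068307) (nat_lit 153) (nat_lit 3) (nat_lit 160) (nat_lit 3) (nat_lit 160) (nat_lit 5) (nat_lit 297) (nat_lit 297) (nat_lit 267))))))) (XT.nd (nat_lit 1316) (nat_lit 4704) (nat_lit 0) (XT.nd (nat_lit 658) (nat_lit 672) (nat_lit 0) (XT.nd (nat_lit 282) (nat_lit 588) (nat_lit 0) (XT.nd (nat_lit 94) (nat_lit 0) (nat_lit 0) (XT.lf (nat_lit 0) (nat_lit 1143420065) (nat_lit 588) (nat_lit 4566292253) (nat_lit 672) (nat_lit 1275476747) (nat_lit 146) (nat_lit 5) (nat_lit 153) (nat_lit 3) (nat_lit 154) (nat_lit 5) (nat_lit 298) (nat_lit 297) (nat_lit 266)) (XT.nd (nat_lit 94) (nat_lit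 0) (nat_lit 0) (XT.lf (nat_lit 0) (nat_lit 2643897507) (nat_lit 588) (nat_lit 1962590000) (nat_lit 672) (nat_lit 2432142040) (nat_lit 146) (nat_lit 5) (nat_lit 153) (nat_lit 3) (nat_lit 154) (nat_lit 5) (nat_lit 299) (nat_lit 297) (nat_lit 265)) (XT.lf (nat_lit 84) (nat_lit 703984487) (nat_lit 0) (nat_lit 3435213699) (nat_lit 672) (nat_lit 2956552879) (nat_lit 147) (nat_lit 5) (nat_lit 146) (nat_lit 5) (nat_lit 154) (nat_lit 5) (nat_lit 300) (nat_lit 297) (nat_lit 264)))) (XT.nd (nat_lit 188) (nat_lit 588) (nat_lit 0) (XT.nd (nat_lit 94) (nat_lit 0) (nat_lit 0) (XT.lf (nat_lit 84) (nat_lit 3463126646) (nat_lit 0) (nat_lit 2180986528) (nat_lit 672) (nat_lit 1512078370) (nat_lit 147) (nat_lit 5) (nat_lit 146) (nat_lit 5) (nat_lit 154) (nat_lit 5) (nat_lit 301) (nat_lit 297) (nat_lit 263)) (XT.lf (nat_lit 84) (nat_lit 6277053410) (nat_lit 0) (nat_lit 863122338) (nat_lit 672) (nat_lit 80447527) (nat_lit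 147) (nat_lit 5) (nat_lit 146) (nat_lit 5) (nat_lit 154) (nat_lit 5) (nat_lit 302) (nat_lit 297) (nat_lit 262))) (XT.nd (nat_lit 94) (nat_lit 0) (nat_lit 0) (XT.lf (nat_lit 0) (nat_lit 1336853276) (nat_lit 672) (nat_lit 5409647632) (nat_lit 756) (nat_lit 541444136) (nat_lit 139) (nat_lit 5) (nat_lit 147) (nat_lit 5) (nat_lit 148) (nat_lit 5) (nat_lit 303) (nat_lit 297) (nat_lit 261)) (XT.lf (nat_lit 0) (nat_lit 2761994390) (nat_lit 672) (nat_lit 2592401322) (nat_lit 756) (nat_lit 2004361949) (nat_lit 139) (nat_lit 5) (nat_lit 147) (nat_lit 5) (nat_lit 148) (nat_lit 5) (nat_lit 304) (nat_lit 297) (nat_lit 260))))) (XT.nd (nat_lit 282) (nat_lit 672) (nat_lit 0) (XT.nd (nat_lit 94) (nat_lit 0) (nat_lit 0) (XT.lf (nat_lit 84) (nat_lit 285687895) (nat_lit 0) (nat_lit 3896858419) (nat_lit 756) (nat_lit 3251082298) (nat_lit 140) (nat_lit 5) (nat_lit 139) (nat_lit 5) (nat_lit 148) (nat_lit 5) (nat_lit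 305) (nat_lit 297) (nat_lit 259)) (XT.nd (nat_lit 94) (nat_lit 0) (nat_lit 0) (XT.lf (nat_lit 84) (nat_lit 3276034201) (nat_lit 0) (nat_lit 2347792794) (nat_lit 756) (nat_lit 1888056881) (nat_lit 140) (nat_lit 5) (nat_lit 139) (nat_lit 5) (nat_lit 148) (nat_lit 5) (nat_lit 306) (nat_lit 297) (nat_lit 258)) (XT.lf (nat_lit 84) (nat_lit 6328119823) (nat_lit 0) (nat_lit 732814301) (nat_lit 756) (nat_lit 533475888) (nat_lit 140) (nat_lit 5) (nat_lit 139) (nat_lit 5) (nat_lit 148) (nat_lit 5) (nat_lit 307) (nat_lit 297) (nat_lit 257)))) (XT.nd (nat_lit 188) (nat_lit 0) (nat_lit 0) (XT.nd (nat_lit 94) (nat_lit 0) (nat_lit 0) (XT.lf (nat_lit 0) (nat_lit 824981038) (nat_lit 756) (nat_lit 5898640300) (nat_lit 840) (nat_lit 956561154) (nat_lit 131) (nat_lit 5) (nat_lit 140) (nat_lit 5) (nat_lit 141) (nat_lit 5) (nat_lit 308) (nat_lit 297) (nat_lit 256)) (XT.lf (nat_lit 0) (nat_lit 2188433205) (nat_lit 756)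 (nat_lit 2863522278) (nat_lit 840) (nat_lit 2717597974) (nat_lit 131) (nat_lit 5) (nat_lit 140) (nat_lit 5) (nat_lit 141) (nat_lit 5) (nat_lit 309) (nat_lit 297) (nat_lit 255))) (XT.nd (nat_lit 94) (nat_lit 0) (nat_lit 0) (XT.lf (nat_lit 84) (nat_lit 238547029) (nat_lit 0) (nat_lit 3312498448) (nat_lit 840) (nat_lit 4312278271) (nat_lit 132) (nat_lit 5) (nat_lit 131) (nat_lit 5) (nat_lit 141) (nat_lit 5) (nat_lit 310) (nat_lit 297) (nat_lit 254)) (XT.lf (nat_lit 84) (nat_lit 3465865490) (nat_lit 0) (nat_lit 1475502826) (nat_lit 840) (nat_lit 3019366766) (nat_lit 132) (nat_lit 5) (nat_lit 131) (nat_lit 5) (nat_lit 141) (nat_lit 5) (nat_lit 311) (nat_lit 297) (nat_lit 253)))))) (XT.nd (nat_lit 658) (nat_lit 2184) (nat_lit 0) (XT.nd (nat_lit 282) (nat_lit 1764) (nat_lit 0) (XT.nd (nat_lit 94) (nat_lit 840) (nat_lit 0) (XT.lf (nat_lit 0) (nat_lit 6335981184) (nat_lit 756) (nat_lit 1304489682) (nat_lit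 84) (nat_lit 422173599) (nat_lit 132) (nat_lit 5) (nat_lit 141) (nat_lit 5) (nat_lit 133) (nat_lit 5) (nat_lit 312) (nat_lit 297) (nat_lit 252)) (XT.nd (nat_lit 94) (nat_lit 84) (nat_lit 0) (XT.lf (nat_lit 0) (nat_lit 1978126867) (nat_lit 756) (nat_lit 5788745162) (nat_lit 840) (nat_lit 401323531) (nat_lit 123) (nat_lit 5) (nat_lit 132) (nat_lit 5) (nat_lit 133) (nat_lit 5) (nat_lit 313) (nat_lit 297) (nat_lit 251)) (XT.lf (nat_lit 0) (nat_lit 918017443) (nat_lit 840) (nat_lit 2928363944) (nat_lit 84) (nat_lit 4431448492) (nat_lit 122) (nat_lit 5) (nat_lit 132) (nat_lit 5) (nat_lit 123) (nat_lit 5) (nat_lit 314) (nat_lit 297) (nat_lit 250)))) (XT.nd (nat_lit 188) (nat_lit 924) (nat_lit 0) (XT.nd (nat_lit 94) (nat_lit 0) (nat_lit 0) (XT.lf (nat_lit 0) (nat_lit 407310899) (nat_lit 840) (nat_lit 1826500775) (nat_lit 924) (nat_lit 6158286907) (nat_lit 112) (nat_lit 5) (nat_lit 122) (nat_lit 5) (nat_lit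 123) (nat_lit 5) (nat_lit 315) (nat_lit 297) (nat_lit 249)) (XT.lf (nat_lit 0) (nat_lit 3584646301) (nat_lit 924) (nat_lit 4635806531) (nat_lit 84) (nat_lit 289871239) (nat_lit 112) (nat_lit 5) (nat_lit 123) (nat_lit 5) (nat_lit 113) (nat_lit 5) (nat_lit 316) (nat_lit 297) (nat_lit 248))) (XT.nd (nat_lit 94) (nat_lit 924) (nat_lit 0) (XT.lf (nat_lit 0) (nat_lit 4958047816) (nat_lit 924) (nat_lit 1233175427) (nat_lit 84) (nat_lit 2441819012) (nat_lit 112) (nat_lit 5) (nat_lit 123) (nat_lit 5) (nat_lit 113) (nat_lit 5) (nat_lit 317) (nat_lit 297) (nat_lit 247)) (XT.lf (nat_lit 0) (nat_lit 2290545742) (nat_lit 924) (nat_lit 4069354018) (nat_lit 1008) (nat_lit 2400325060) (nat_lit 101) (nat_lit 5) (nat_lit 112) (nat_lit 5) (nat_lit 113) (nat_lit 5) (nat_lit 318) (nat_lit 297) (nat_lit 246))))) (XT.nd (nat_lit 376) (nat_lit 1092) (nat_lit 0) (XT.nd (nat_lit 188) (nat_lit 0) (nat_lit 0) (XT.nd (nat_lit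 94) (nat_lit 1092) (nat_lit 0) (XT.lf (nat_lit 0) (nat_lit 5919413248) (nat_lit 924) (nat_lit 1862628196) (nat_lit 1008) (nat_lit 1110242353) (nat_lit 101) (nat_lit 5) (nat_lit 112) (nat_lit 5) (nat_lit 113) (nat_lit 5) (nat_lit 319) (nat_lit 297) (nat_lit 245)) (XT.lf (nat_lit 0) (nat_lit 190187746) (nat_lit 1092) (nat_lit 8421475617) (nat_lit 84) (nat_lit 417690120) (nat_lit 88) (nat_lit 5) (nat_lit 101) (nat_lit 5) (nat_lit 89) (nat_lit 5) (nat_lit 320) (nat_lit 297) (nat_lit 244))) (XT.nd (nat_lit 94) (nat_lit 0) (nat_lit 0) (XT.lf (nat_lit 0) (nat_lit 1523567393) (nat_lit 1092) (nat_lit 4869051393) (nat_lit 84) (nat_lit 2777411571) (nat_lit 88) (nat_lit 5) (nat_lit 101) (nat_lit 5) (nat_lit 89) (nat_lit 5) (nat_lit 321) (nat_lit 297) (nat_lit 243)) (XT.lf (nat_lit 0) (nat_lit 2864625372) (nat_lit 1092) (nat_lit 1236832714) (nat_lit 84) (nat_lit 5214844255) (nat_lit 88) (nat_lit 5) (nat_lit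 101) (nat_lit 5) (nat_lit 89) (nat_lit 5) (nat_lit 322) (nat_lit 297) (nat_lit 242)))) (XT.nd (nat_lit 188) (nat_lit 504) (nat_lit 0) (XT.nd (nat_lit 94) (nat_lit 0) (nat_lit 0) (XT.lf (nat_lit 0) (nat_lit 2529530430) (nat_lit 588) (nat_lit 1710174513) (nat_lit 672) (nat_lit 5227822940) (nat_lit 81) (nat_lit 5) (nat_lit 88) (nat_lit 5) (nat_lit 89) (nat_lit 5) (nat_lit 323) (nat_lit 297) (nat_lit 241)) (XT.lf (nat_lit 0) (nat_lit 5646022372) (nat_lit 672) (nat_lit 3222113218) (nat_lit 84) (nat_lit 755838383) (nat_lit 81) (nat_lit 5) (nat_lit 89) (nat_lit 5) (nat_lit 82) (nat_lit 5) (nat_lit 324) (nat_lit 297) (nat_lit 240))) (XT.nd (nat_lit 94) (nat_lit 0) (nat_lit 0) (XT.lf (nat_lit 0) (nat_lit 573622260) (nat_lit 504) (nat_lit 6514531015) (nat_lit 588) (nat_lit 2697531950) (nat_lit 75) (nat_lit 5) (nat_lit 81) (nat_lit 5) (nat_lit 82) (nat_lit 5) (nat_lit 325) (nat_lit 297) (nat_lit 239)) (XT.lf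 (nat_lit 0) (nat_lit 4526223053) (nat_lit 504) (nat_lit 4052077855) (nat_lit 588) (nat_lit 1374174834) (nat_lit 75) (nat_lit 5) (nat_lit 81) (nat_lit 5) (nat_lit 82) (nat_lit 5) (nat_lit 326) (nat_lit 297) (nat_lit 238))))))))
noncomputable def xc21 : XT := (XT.nd (nat_lit 52922) (nat_lit 0) (nat_lit 0) (XT.nd (nat_lit 51512) (nat_lit 0) (nat_lit 5712) (XT.nd (nat_lit 658) (nat_lit 420) (nat_lit 0) (XT.nd (nat_lit 282) (nat_lit 840) (nat_lit 0) (XT.nd (nat_lit 94) (nat_lit 588) (nat_lit 0) (XT.lf (nat_lit 0) (nat_lit 8573120141) (nat_lit 504) (nat_lit 1512113098) (nat_lit 588) (nat_lit 40279002) (nat_lit 75) (nat_lit 5) (nat_lit 81) (nat_lit 5) (nat_lit 82) (nat_lit 5) (nat_lit 327) (nat_lit 297) (nat_lit 237)) (XT.nd (nat_lit 94) (nat_lit 0) (nat_lit 0) (XT.lf (nat_lit 0) (nat_lit 1314767466) (nat_lit 588) (nat_lit 7865638530) (nat_lit 84) (nat_lit 1123042819) (nat_lit 68) (nat_lit 5) (nat_lit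 75) (nat_lit 5) (nat_lit 69) (nat_lit 5) (nat_lit 328) (nat_lit 297) (nat_lit 236)) (XT.lf (nat_lit 0) (nat_lit 2714445695) (nat_lit 588) (nat_lit 3946708054) (nat_lit 84) (nat_lit 3825777016) (nat_lit 68) (nat_lit 5) (nat_lit 75) (nat_lit 5) (nat_lit 69) (nat_lit 5) (nat_lit 329) (nat_lit 297) (nat_lit 235)))) (XT.nd (nat_lit 188) (nat_lit 420) (nat_lit 0) (XT.nd (nat_lit 94) (nat_lit 0) (nat_lit 0) (XT.lf (nat_lit 0) (nat_lit 67043808) (nat_lit 420) (nat_lit 4063615471) (nat_lit 504) (nat_lit 6546418817) (nat_lit 63) (nat_lit 5) (nat_lit 68) (nat_lit 5) (nat_lit 69) (nat_lit 5) (nat_lit 330) (nat_lit 297) (nat_lit 234)) (XT.lf (nat_lit 0) (nat_lit 4261157513) (nat_lit 420) (nat_lit 1343846105) (nat_lit 504) (nat_lit 5267815888) (nat_lit 63) (nat_lit 5) (nat_lit 68) (nat_lit 5) (nat_lit 69) (nat_lit 5) (nat_lit 331) (nat_lit 297) (nat_lit 233))) (XT.nd (nat_lit 94) (nat_lit 420) (nat_lit 0) (XT.lf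 (nat_lit 0) (nat_lit 7113374442) (nat_lit 504) (nat_lit 2531664469) (nat_lit 84) (nat_lit 1430088370) (nat_lit 63) (nat_lit 5) (nat_lit 69) (nat_lit 5) (nat_lit 64) (nat_lit 5) (nat_lit 332) (nat_lit 297) (nat_lit 232)) (XT.lf (nat_lit 0) (nat_lit 1667666820) (nat_lit 420) (nat_lit 7005748567) (nat_lit 504) (nat_lit 2610271240) (nat_lit 58) (nat_lit 5) (nat_lit 63) (nat_lit 5) (nat_lit 64) (nat_lit 5) (nat_lit 333) (nat_lit 297) (nat_lit 231))))) (XT.nd (nat_lit 282) (nat_lit 0) (nat_lit 0) (XT.nd (nat_lit 94) (nat_lit 420) (nat_lit 0) (XT.lf (nat_lit 0) (nat_lit 6024119161) (nat_lit 420) (nat_lit 4259244499) (nat_lit 504) (nat_lit 1215428006) (nat_lit 58) (nat_lit 5) (nat_lit 63) (nat_lit 5) (nat_lit 64) (nat_lit 5) (nat_lit 334) (nat_lit 297) (nat_lit 230)) (XT.nd (nat_lit 94) (nat_lit 336) (nat_lit 0) (XT.lf (nat_lit 0) (nat_lit 193669377) (nat_lit 504) (nat_lit 1233701175) (nat_lit 84) (nat_lit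 10294006120) (nat_lit 57) (nat_lit 5) (nat_lit 63) (nat_lit 5) (nat_lit 58) (nat_lit 5) (nat_lit 335) (nat_lit 297) (nat_lit 229)) (XT.lf (nat_lit 0) (nat_lit 1644060725) (nat_lit 420) (nat_lit 8801276816) (nat_lit 84) (nat_lit 1504547330) (nat_lit 53) (nat_lit 5) (nat_lit 58) (nat_lit 5) (nat_lit 54) (nat_lit 5) (nat_lit 336) (nat_lit 297) (nat_lit 228)))) (XT.nd (nat_lit 50384) (nat_lit 0) (nat_lit 7812) (XT.nd (nat_lit 94) (nat_lit 0) (nat_lit 0) (XT.lf (nat_lit 0) (nat_lit 3143698485) (nat_lit 420) (nat_lit 4533189458) (nat_lit 84) (nat_lit 4508569603) (nat_lit 53) (nat_lit 5) (nat_lit 58) (nat_lit 5) (nat_lit 54) (nat_lit 5) (nat_lit 337) (nat_lit 297) (nat_lit 227)) (XT.lf (nat_lit 0) (nat_lit 4667202923) (nat_lit 420) (nat_lit 158304653) (nat_lit 84) (nat_lit 7603636804) (nat_lit 53) (nat_lit 5) (nat_lit 58) (nat_lit 5) (nat_lit 54) (nat_lit 5) (nat_lit 338) (nat_lit 297) (nat_lit 226)))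 (XT.nd (nat_lit 94) (nat_lit 0) (nat_lit 0) (XT.lf (nat_lit 0) (nat_lit 650885990) (nat_lit 0) (nat_lit 650885990) (nat_lit 588) (nat_lit 2216561675) (nat_lit 146) (nat_lit 5) (nat_lit 146) (nat_lit 3) (nat_lit 153) (nat_lit 3) (nat_lit 298) (nat_lit 298) (nat_lit 265)) (XT.lf (nat_lit 0) (nat_lit 3956471027) (nat_lit 0) (nat_lit 106806374) (nat_lit 588) (nat_lit 3028301209) (nat_lit 146) (nat_lit 5) (nat_lit 146) (nat_lit 3) (nat_lit 153) (nat_lit 3) (nat_lit 299) (nat_lit 298) (nat_lit 264)))))) (XT.nd (nat_lit 658) (nat_lit 1428) (nat_lit 0) (XT.nd (nat_lit 282) (nat_lit 0) (nat_lit 0) (XT.nd (nat_lit 94) (nat_lit 672) (nat_lit 0) (XT.lf (nat_lit 0) (nat_lit 5522513793) (nat_lit 588) (nat_lit 496951860) (nat_lit 672) (nat_lit 1130553971) (nat_lit 146) (nat_lit 5) (nat_lit 153) (nat_lit 3) (nat_lit 154) (nat_lit 5) (nat_lit 300) (nat_lit 298) (nat_lit 263)) (XT.nd (nat_lit 94) (nat_lit 672) (nat_lit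 0) (XT.lf (nat_lit 84) (nat_lit 2236832214) (nat_lit 0) (nat_lit 4758236583) (nat_lit 672) (nat_lit 216589911) (nat_lit 147) (nat_lit 5) (nat_lit 146) (nat_lit 5) (nat_lit 154) (nat_lit 5) (nat_lit 301) (nat_lit 298) (nat_lit 262)) (XT.lf (nat_lit 0) (nat_lit 1163596637) (nat_lit 672) (nat_lit 2252807635) (nat_lit 756) (nat_lit 3860332262) (nat_lit 138) (nat_lit 5) (nat_lit 146) (nat_lit 5) (nat_lit 147) (nat_lit 5) (nat_lit 302) (nat_lit 298) (nat_lit 261)))) (XT.nd (nat_lit 188) (nat_lit 0) (nat_lit 84) (XT.nd (nat_lit 94) (nat_lit 0) (nat_lit 0) (XT.lf (nat_lit 84) (nat_lit 531709460) (nat_lit 0) (nat_lit 2002517943) (nat_lit 756) (nat_lit 4811381025) (nat_lit 139) (nat_lit 5) (nat_lit 138) (nat_lit 5) (nat_lit 147) (nat_lit 5) (nat_lit 303) (nat_lit 298) (nat_lit 260)) (XT.lf (nat_lit 84) (nat_lit 3420230611) (nat_lit 0) (nat_lit 498813476) (nat_lit 756) (nat_lit 3498799993) (nat_lit 139) (nat_lit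 5) (nat_lit 138) (nat_lit 5) (nat_lit 147) (nat_lit 5) (nat_lit 304) (nat_lit 298) (nat_lit 259))) (XT.nd (nat_lit 94) (nat_lit 0) (nat_lit 0) (XT.lf (nat_lit 0) (nat_lit 5307170115) (nat_lit 672) (nat_lit 1135732271) (nat_lit 756) (nat_lit 1050985625) (nat_lit 139) (nat_lit 5) (nat_lit 147) (nat_lit 5) (nat_lit 148) (nat_lit 5) (nat_lit 305) (nat_lit 298) (nat_lit 258)) (XT.lf (nat_lit 84) (nat_lit 1816016628) (nat_lit 0) (nat_lit 4896882105) (nat_lit 756) (nat_lit 860509387) (nat_lit 140) (nat_lit 5) (nat_lit 139) (nat_lit 5) (nat_lit 148) (nat_lit 5) (nat_lit 306) (nat_lit 298) (nat_lit 257))))) (XT.nd (nat_lit 376) (nat_lit 756) (nat_lit 0) (XT.nd (nat_lit 188) (nat_lit 0) (nat_lit 84) (XT.nd (nat_lit 94) (nat_lit 0) (nat_lit 0) (XT.lf (nat_lit 0) (nat_lit 460393341) (nat_lit 756) (nat_lit 2808160216) (nat_lit 840) (nat_lit 4388117293) (nat_lit 130) (nat_lit 5) (nat_lit 139) (nat_lit 5) (nat_lit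 140) (nat_lit 5) (nat_lit 307) (nat_lit 298) (nat_lit 256)) (XT.lf (nat_lit 84) (nat_lit 197280956) (nat_lit 0) (nat_lit 1562311027) (nat_lit 840) (nat_lit 5984339587) (nat_lit 131) (nat_lit 5) (nat_lit 130) (nat_lit 5) (nat_lit 140) (nat_lit 5) (nat_lit 308) (nat_lit 298) (nat_lit 255))) (XT.nd (nat_lit 94) (nat_lit 0) (nat_lit 0) (XT.lf (nat_lit 0) (nat_lit 3085156207) (nat_lit 756) (nat_lit 4511762272) (nat_lit 840) (nat_lit 237702606) (nat_lit 131) (nat_lit 5) (nat_lit 140) (nat_lit 5) (nat_lit 141) (nat_lit 5) (nat_lit 309) (nat_lit 298) (nat_lit 254)) (XT.lf (nat_lit 0) (nat_lit 4423685650) (nat_lit 756) (nat_lit 1429754245) (nat_lit 840) (nat_lit 2075837746) (nat_lit 131) (nat_lit 5) (nat_lit 140) (nat_lit 5) (nat_lit 141) (nat_lit 5) (nat_lit 310) (nat_lit 298) (nat_lit 253)))) (XT.nd (nat_lit 188) (nat_lit 840) (nat_lit 0) (XT.nd (nat_lit 94) (nat_lit 0) (nat_lit 0) (XT.lf (nat_lit 84)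 (nat_lit 1753064888) (nat_lit 0) (nat_lit 4025255373) (nat_lit 840) (nat_lit 2249610542) (nat_lit 132) (nat_lit 5) (nat_lit 131) (nat_lit 5) (nat_lit 141) (nat_lit 5) (nat_lit 311) (nat_lit 298) (nat_lit 252)) (XT.lf (nat_lit 84) (nat_lit 5035114207) (nat_lit 0) (nat_lit 2112969382) (nat_lit 840) (nat_lit 982658353) (nat_lit 132) (nat_lit 5) (nat_lit 131) (nat_lit 5) (nat_lit 141) (nat_lit 5) (nat_lit 312) (nat_lit 298) (nat_lit 251))) (XT.nd (nat_lit 94) (nat_lit 0) (nat_lit 84) (XT.lf (nat_lit 84) (nat_lit 152069767) (nat_lit 0) (nat_lit 125288551) (nat_lit 924) (nat_lit 7960763955) (nat_lit 122) (nat_lit 5) (nat_lit 121) (nat_lit 5) (nat_lit 132) (nat_lit 5) (nat_lit 313) (nat_lit 298) (nat_lit 250)) (XT.lf (nat_lit 0) (nat_lit 1567601830) (nat_lit 840) (nat_lit 4842469891) (nat_lit 84) (nat_lit 1938332736) (nat_lit 122) (nat_lit 5) (nat_lit 132) (nat_lit 5) (nat_lit 123) (nat_lit 5) (nat_lit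 314) (nat_lit 298) (nat_lit 249))))))) (XT.nd (nat_lit 1316) (nat_lit 1764) (nat_lit 0) (XT.nd (nat_lit 658) (nat_lit 1176) (nat_lit 0) (XT.nd (nat_lit 282) (nat_lit 2016) (nat_lit 0) (XT.nd (nat_lit 94) (nat_lit 840) (nat_lit 0) (XT.lf (nat_lit 0) (nat_lit 2860181083) (nat_lit 840) (nat_lit 1529922726) (nat_lit 84) (nat_lit 4073405327) (nat_lit 122) (nat_lit 5) (nat_lit 132) (nat_lit 5) (nat_lit 123) (nat_lit 5) (nat_lit 315) (nat_lit 298) (nat_lit 248)) (XT.nd (nat_lit 94) (nat_lit 0) (nat_lit 0) (XT.lf (nat_lit 0) (nat_lit 1894081017) (nat_lit 840) (nat_lit 2279766519) (nat_lit 924) (nat_lit 4409152117) (nat_lit 112) (nat_lit 5) (nat_lit 122) (nat_lit 5) (nat_lit 123) (nat_lit 5) (nat_lit 316) (nat_lit 298) (nat_lit 247)) (XT.lf (nat_lit 0) (nat_lit 5427566129) (nat_lit 840) (nat_lit 79715597) (nat_lit 924) (nat_lit 3199784523) (nat_lit 112) (nat_lit 5) (nat_lit 122) (nat_lit 5) (nat_lit 123)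 (nat_lit 5) (nat_lit 317) (nat_lit 298) (nat_lit 246)))) (XT.nd (nat_lit 188) (nat_lit 1092) (nat_lit 0) (XT.nd (nat_lit 94) (nat_lit 0) (nat_lit 0) (XT.lf (nat_lit 0) (nat_lit 188066338) (nat_lit 924) (nat_lit 6681822646) (nat_lit 1008) (nat_lit 1965682547) (nat_lit 101) (nat_lit 5) (nat_lit 112) (nat_lit 5) (nat_lit 113) (nat_lit 5) (nat_lit 318) (nat_lit 298) (nat_lit 245)) (XT.lf (nat_lit 0) (nat_lit 3802496283) (nat_lit 924) (nat_lit 4472323229) (nat_lit 1008) (nat_lit 693447485) (nat_lit 101) (nat_lit 5) (nat_lit 112) (nat_lit 5) (nat_lit 113) (nat_lit 5) (nat_lit 319) (nat_lit 298) (nat_lit 244))) (XT.nd (nat_lit 94) (nat_lit 1008) (nat_lit 0) (XT.lf (nat_lit 0) (nat_lit 571320690) (nat_lit 1008) (nat_lit 1611581428) (nat_lit 84) (nat_lit 6923248434) (nat_lit 100) (nat_lit 5) (nat_lit 112) (nat_lit 5) (nat_lit 101) (nat_lit 5) (nat_lit 320) (nat_lit 298) (nat_lit 243)) (XT.lf (nat_lit 0)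 (nat_lit 1849991628) (nat_lit 1092) (nat_lit 7192063308) (nat_lit 84) (nat_lit 206562392) (nat_lit 88) (nat_lit 5) (nat_lit 101) (nat_lit 5) (nat_lit 89) (nat_lit 5) (nat_lit 321) (nat_lit 298) (nat_lit 242))))) (XT.nd (nat_lit 282) (nat_lit 588) (nat_lit 0) (XT.nd (nat_lit 94) (nat_lit 588) (nat_lit 0) (XT.lf (nat_lit 0) (nat_lit 3174976510) (nat_lit 1092) (nat_lit 3574329471) (nat_lit 84) (nat_lit 2646172704) (nat_lit 88) (nat_lit 5) (nat_lit 101) (nat_lit 5) (nat_lit 89) (nat_lit 5) (nat_lit 322) (nat_lit 298) (nat_lit 241)) (XT.nd (nat_lit 94) (nat_lit 0) (nat_lit 0) (XT.lf (nat_lit 0) (nat_lit 129631749) (nat_lit 588) (nat_lit 4381027228) (nat_lit 672) (nat_lit 5037354930) (nat_lit 81) (nat_lit 5) (nat_lit 88) (nat_lit 5) (nat_lit 89) (nat_lit 5) (nat_lit 323) (nat_lit 298) (nat_lit 240)) (XT.lf (nat_lit 0) (nat_lit 3995944400) (nat_lit 588) (nat_lit 1898120800) (nat_lit 672) (nat_lit 3811190756)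 (nat_lit 81) (nat_lit 5) (nat_lit 88) (nat_lit 5) (nat_lit 89) (nat_lit 5) (nat_lit 324) (nat_lit 298) (nat_lit 239)))) (XT.nd (nat_lit 188) (nat_lit 84) (nat_lit 0) (XT.nd (nat_lit 94) (nat_lit 504) (nat_lit 0) (XT.lf (nat_lit 0) (nat_lit 7296888903) (nat_lit 672) (nat_lit 1920347564) (nat_lit 84) (nat_lit 651032399) (nat_lit 81) (nat_lit 5) (nat_lit 89) (nat_lit 5) (nat_lit 82) (nat_lit 5) (nat_lit 325) (nat_lit 298) (nat_lit 238)) (XT.lf (nat_lit 0) (nat_lit 1978865255) (nat_lit 504) (nat_lit 6774248994) (nat_lit 588) (nat_lit 1283077360) (nat_lit 75) (nat_lit 5) (nat_lit 81) (nat_lit 5) (nat_lit 82) (nat_lit 5) (nat_lit 326) (nat_lit 298) (nat_lit 237))) (XT.nd (nat_lit 94) (nat_lit 0) (nat_lit 0) (XT.lf (nat_lit 0) (nat_lit 35529217) (nat_lit 588) (nat_lit 4197822769) (nat_lit 84) (nat_lit 5976378579) (nat_lit 74) (nat_lit 5) (nat_lit 81) (nat_lit 5) (nat_lit 75) (nat_lit 5) (nat_lit 327)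 (nat_lit 298) (nat_lit 236)) (XT.lf (nat_lit 0) (nat_lit 1340258241) (nat_lit 588) (nat_lit 259086664) (nat_lit 84) (nat_lit 8789918108) (nat_lit 74) (nat_lit 5) (nat_lit 81) (nat_lit 5) (nat_lit 75) (nat_lit 5) (nat_lit 328) (nat_lit 298) (nat_lit 235)))))) (XT.nd (nat_lit 658) (nat_lit 420) (nat_lit 0) (XT.nd (nat_lit 282) (nat_lit 420) (nat_lit 0) (XT.nd (nat_lit 94) (nat_lit 420) (nat_lit 0) (XT.lf (nat_lit 0) (nat_lit 2707871070) (nat_lit 588) (nat_lit 6732729651) (nat_lit 84) (nat_lit 1133209636) (nat_lit 68) (nat_lit 5) (nat_lit 75) (nat_lit 5) (nat_lit 69) (nat_lit 5) (nat_lit 329) (nat_lit 298) (nat_lit 234)) (XT.nd (nat_lit 94) (nat_lit 420) (nat_lit 0) (XT.lf (nat_lit 0) (nat_lit 4110277133) (nat_lit 588) (nat_lit 2733708115) (nat_lit 84) (nat_lit 3920469692) (nat_lit 68) (nat_lit 5) (nat_lit 75) (nat_lit 5) (nat_lit 69) (nat_lit 5) (nat_lit 330) (nat_lit 298) (nat_lit 233)) (XT.lf (nat_lit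 0) (nat_lit 1390950857) (nat_lit 420) (nat_lit 4153115619) (nat_lit 504) (nat_lit 5417454218) (nat_lit 63) (nat_lit 5) (nat_lit 68) (nat_lit 5) (nat_lit 69) (nat_lit 5) (nat_lit 331) (nat_lit 298) (nat_lit 232)))) (XT.nd (nat_lit 188) (nat_lit 420) (nat_lit 0) (XT.nd (nat_lit 94) (nat_lit 0) (nat_lit 0) (XT.lf (nat_lit 0) (nat_lit 5675337480) (nat_lit 420) (nat_lit 1350130037) (nat_lit 504) (nat_lit 4139262135) (nat_lit 63) (nat_lit 5) (nat_lit 68) (nat_lit 5) (nat_lit 69) (nat_lit 5) (nat_lit 332) (nat_lit 298) (nat_lit 231)) (XT.lf (nat_lit 0) (nat_lit 8543452303) (nat_lit 504) (nat_lit 1323162154) (nat_lit 84) (nat_lit 1508041443) (nat_lit 63) (nat_lit 5) (nat_lit 69) (nat_lit 5) (nat_lit 64) (nat_lit 5) (nat_lit 333) (nat_lit 298) (nat_lit 230))) (XT.nd (nat_lit 94) (nat_lit 0) (nat_lit 0) (XT.lf (nat_lit 0) (nat_lit 2993318849) (nat_lit 420) (nat_lit 7134804432) (nat_lit 504) (nat_lit 1462482517)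 (nat_lit 58) (nat_lit 5) (nat_lit 63) (nat_lit 5) (nat_lit 64) (nat_lit 5) (nat_lit 334) (nat_lit 298) (nat_lit 229)) (XT.lf (nat_lit 0) (nat_lit 7446516086) (nat_lit 420) (nat_lit 4305808392) (nat_lit 504) (nat_lit 61343780) (nat_lit 58) (nat_lit 5) (nat_lit 63) (nat_lit 5) (nat_lit 64) (nat_lit 5) (nat_lit 335) (nat_lit 298) (nat_lit 228))))) (XT.nd (nat_lit 50760) (nat_lit 0) (nat_lit 7056) (XT.nd (nat_lit 50572) (nat_lit 0) (nat_lit 7812) (XT.nd (nat_lit 94) (nat_lit 336) (nat_lit 0) (XT.lf (nat_lit 0) (nat_lit 1332312445) (nat_lit 504) (nat_lit 44581459) (nat_lit 84) (nat_lit 10667154421) (nat_lit 57) (nat_lit 5) (nat_lit 63) (nat_lit 5) (nat_lit 58) (nat_lit 5) (nat_lit 336) (nat_lit 298) (nat_lit 227)) (XT.lf (nat_lit 0) (nat_lit 2806696882) (nat_lit 420) (nat_lit 7820371453) (nat_lit 84) (nat_lit 1653389739) (nat_lit 53) (nat_lit 5) (nat_lit 58) (nat_lit 5) (nat_lit 54) (nat_lit 5) (nat_lit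 337) (nat_lit 298) (nat_lit 226))) (XT.nd (nat_lit 94) (nat_lit 0) (nat_lit 0) (XT.lf (nat_lit 0) (nat_lit 1373712504) (nat_lit 0) (nat_lit 1373712504) (nat_lit 588) (nat_lit 826357188) (nat_lit 146) (nat_lit 5) (nat_lit 146) (nat_lit 3) (nat_lit 153) (nat_lit 3) (nat_lit 299) (nat_lit 299) (nat_lit 263)) (XT.lf (nat_lit 0) (nat_lit 5442165370) (nat_lit 0) (nat_lit 1473161113) (nat_lit 588) (nat_lit 292075931) (nat_lit 146) (nat_lit 5) (nat_lit 146) (nat_lit 3) (nat_lit 153) (nat_lit 3) (nat_lit 300) (nat_lit 299) (nat_lit 262)))) (XT.nd (nat_lit 188) (nat_lit 0) (nat_lit 84) (XT.nd (nat_lit 94) (nat_lit 0) (nat_lit 84) (XT.lf (nat_lit 84) (nat_lit 930677308) (nat_lit 0) (nat_lit 112183985) (nat_lit 756) (nat_lit 6227676536) (nat_lit 138) (nat_lit 5) (nat_lit 137) (nat_lit 3) (nat_lit 146) (nat_lit 5) (nat_lit 301) (nat_lit 299) (nat_lit 261)) (XT.lf (nat_lit 0) (nat_lit 2391417980) (nat_lit 672)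 (nat_lit 3633836468) (nat_lit 756) (nat_lit 1311318189) (nat_lit 138) (nat_lit 5) (nat_lit 146) (nat_lit 5) (nat_lit 147) (nat_lit 5) (nat_lit 302) (nat_lit 299) (nat_lit 260))) (XT.nd (nat_lit 94) (nat_lit 0) (nat_lit 0) (XT.lf (nat_lit 0) (nat_lit 3731407315) (nat_lit 672) (nat_lit 874541430) (nat_lit 756) (nat_lit 2800618648) (nat_lit 138) (nat_lit 5) (nat_lit 146) (nat_lit 5) (nat_lit 147) (nat_lit 5) (nat_lit 303) (nat_lit 299) (nat_lit 259)) (XT.lf (nat_lit 84) (nat_lit 1981634951) (nat_lit 0) (nat_lit 3100988543) (nat_lit 756) (nat_lit 2397388943) (nat_lit 139) (nat_lit 5) (nat_lit 138) (nat_lit 5) (nat_lit 147) (nat_lit 5) (nat_lit 304) (nat_lit 299) (nat_lit 258))))))))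
noncomputable def xc22 : XT := (XT.nd (nat_lit 2726) (nat_lit 840) (nat_lit 0) (XT.nd (nat_lit 1316) (nat_lit 4116) (nat_lit 0) (XT.nd (nat_lit 658) (nat_lit 1512) (nat_lit 0) (XT.nd (nat_lit 282) (nat_lit 0) (nat_lit 0) (XT.nd (nat_lit 94) (nat_lit 672) (nat_lit 0) (XT.lf (nat_lit 84) (nat_lit 4916599658) (nat_lit 0) (nat_lit 1519507095) (nat_lit 756) (nat_lit 1121186272) (nat_lit 139) (nat_lit 5) (nat_lit 138) (nat_lit 5) (nat_lit 147) (nat_lit 5) (nat_lit 305) (nat_lit 299) (nat_lit 257)) (XT.nd (nat_lit 94) (nat_lit 0) (nat_lit 0) (XT.lf (nat_lit 0) (nat_lit 146701764) (nat_lit 756) (nat_lit 7359406291) (nat_lit 840) (nat_lit 132475006) (nat_lit 130) (nat_lit 5) (nat_lit 139) (nat_lit 5) (nat_lit 140) (nat_lit 5) (nat_lit 306) (nat_lit 299) (nat_lit 256)) (XT.lf (nat_lit 0) (nat_lit 1427256650) (nat_lit 756) (nat_lit 4433674474) (nat_lit 840) (nat_lit 1861511853) (nat_lit 130) (nat_lit 5) (nat_lit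 139) (nat_lit 5) (nat_lit 140) (nat_lit 5) (nat_lit 307) (nat_lit 299) (nat_lit 255)))) (XT.nd (nat_lit 188) (nat_lit 0) (nat_lit 0) (XT.nd (nat_lit 94) (nat_lit 0) (nat_lit 0) (XT.lf (nat_lit 0) (nat_lit 2702179623) (nat_lit 756) (nat_lit 1446721264) (nat_lit 840) (nat_lit 3661699382) (nat_lit 130) (nat_lit 5) (nat_lit 139) (nat_lit 5) (nat_lit 140) (nat_lit 5) (nat_lit 308) (nat_lit 299) (nat_lit 254)) (XT.lf (nat_lit 84) (nat_lit 1637223905) (nat_lit 0) (nat_lit 2351676601) (nat_lit 840) (nat_lit 3913733115) (nat_lit 131) (nat_lit 5) (nat_lit 130) (nat_lit 5) (nat_lit 140) (nat_lit 5) (nat_lit 309) (nat_lit 299) (nat_lit 253))) (XT.nd (nat_lit 94) (nat_lit 0) (nat_lit 84) (XT.lf (nat_lit 84) (nat_lit 4819140552) (nat_lit 0) (nat_lit 468545050) (nat_lit 840) (nat_lit 2710972143) (nat_lit 131) (nat_lit 5) (nat_lit 130) (nat_lit 5) (nat_lit 140) (nat_lit 5) (nat_lit 310) (nat_lit 299) (nat_lit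 252)) (XT.lf (nat_lit 0) (nat_lit 6599851455) (nat_lit 756) (nat_lit 41721890) (nat_lit 840) (nat_lit 1457185515) (nat_lit 131) (nat_lit 5) (nat_lit 140) (nat_lit 5) (nat_lit 141) (nat_lit 5) (nat_lit 311) (nat_lit 299) (nat_lit 251))))) (XT.nd (nat_lit 282) (nat_lit 756) (nat_lit 0) (XT.nd (nat_lit 94) (nat_lit 840) (nat_lit 0) (XT.lf (nat_lit 84) (nat_lit 3225263331) (nat_lit 0) (nat_lit 4723972303) (nat_lit 840) (nat_lit 253093587) (nat_lit 132) (nat_lit 5) (nat_lit 131) (nat_lit 5) (nat_lit 141) (nat_lit 5) (nat_lit 312) (nat_lit 299) (nat_lit 250)) (XT.nd (nat_lit 94) (nat_lit 0) (nat_lit 0) (XT.lf (nat_lit 0) (nat_lit 971039617) (nat_lit 840) (nat_lit 1753973179) (nat_lit 924) (nat_lit 5585249031) (nat_lit 121) (nat_lit 5) (nat_lit 131) (nat_lit 5) (nat_lit 132) (nat_lit 5) (nat_lit 313) (nat_lit 299) (nat_lit 249)) (XT.lf (nat_lit 84) (nat_lit 1569899811) (nat_lit 0) (nat_lit 634777377)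 (nat_lit 924) (nat_lit 6217737920) (nat_lit 122) (nat_lit 5) (nat_lit 121) (nat_lit 5) (nat_lit 132) (nat_lit 5) (nat_lit 314) (nat_lit 299) (nat_lit 248)))) (XT.nd (nat_lit 188) (nat_lit 840) (nat_lit 0) (XT.nd (nat_lit 94) (nat_lit 0) (nat_lit 0) (XT.lf (nat_lit 0) (nat_lit 3472361501) (nat_lit 840) (nat_lit 3548143683) (nat_lit 84) (nat_lit 1517899161) (nat_lit 122) (nat_lit 5) (nat_lit 132) (nat_lit 5) (nat_lit 123) (nat_lit 5) (nat_lit 315) (nat_lit 299) (nat_lit 247)) (XT.lf (nat_lit 0) (nat_lit 4749199766) (nat_lit 840) (nat_lit 176338910) (nat_lit 84) (nat_lit 3733607283) (nat_lit 122) (nat_lit 5) (nat_lit 132) (nat_lit 5) (nat_lit 123) (nat_lit 5) (nat_lit 316) (nat_lit 299) (nat_lit 246))) (XT.nd (nat_lit 94) (nat_lit 0) (nat_lit 0) (XT.lf (nat_lit 0) (nat_lit 3339624967) (nat_lit 840) (nat_lit 2723589585) (nat_lit 924) (nat_lit 2720706138) (nat_lit 112) (nat_lit 5) (nat_lit 122) (nat_lit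 5) (nat_lit 123) (nat_lit 5) (nat_lit 317) (nat_lit 299) (nat_lit 245)) (XT.lf (nat_lit 0) (nat_lit 6940949134) (nat_lit 840) (nat_lit 444117241) (nat_lit 924) (nat_lit 1528725958) (nat_lit 112) (nat_lit 5) (nat_lit 122) (nat_lit 5) (nat_lit 123) (nat_lit 5) (nat_lit 318) (nat_lit 299) (nat_lit 244)))))) (XT.nd (nat_lit 658) (nat_lit 1512) (nat_lit 0) (XT.nd (nat_lit 282) (nat_lit 1596) (nat_lit 0) (XT.nd (nat_lit 94) (nat_lit 84) (nat_lit 0) (XT.lf (nat_lit 0) (nat_lit 1591513876) (nat_lit 924) (nat_lit 7157455013) (nat_lit 1008) (nat_lit 298890625) (nat_lit 101) (nat_lit 5) (nat_lit 112) (nat_lit 5) (nat_lit 113) (nat_lit 5) (nat_lit 319) (nat_lit 299) (nat_lit 243)) (XT.nd (nat_lit 94) (nat_lit 0) (nat_lit 0) (XT.lf (nat_lit 0) (nat_lit 941475901) (nat_lit 1008) (nat_lit 3920085029) (nat_lit 84) (nat_lit 4324664754) (nat_lit 100) (nat_lit 5) (nat_lit 112) (nat_lit 5) (nat_lit 101) (nat_lit 5)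 (nat_lit 320) (nat_lit 299) (nat_lit 242)) (XT.lf (nat_lit 0) (nat_lit 2181675398) (nat_lit 1008) (nat_lit 304865146) (nat_lit 84) (nat_lit 6843435639) (nat_lit 100) (nat_lit 5) (nat_lit 112) (nat_lit 5) (nat_lit 101) (nat_lit 5) (nat_lit 321) (nat_lit 299) (nat_lit 241)))) (XT.nd (nat_lit 188) (nat_lit 588) (nat_lit 0) (XT.nd (nat_lit 94) (nat_lit 0) (nat_lit 0) (XT.lf (nat_lit 0) (nat_lit 3463285624) (nat_lit 1092) (nat_lit 6012822783) (nat_lit 84) (nat_lit 2162116) (nat_lit 88) (nat_lit 5) (nat_lit 101) (nat_lit 5) (nat_lit 89) (nat_lit 5) (nat_lit 322) (nat_lit 299) (nat_lit 240)) (XT.lf (nat_lit 0) (nat_lit 4782561068) (nat_lit 1092) (nat_lit 2325100234) (nat_lit 84) (nat_lit 2523738772) (nat_lit 88) (nat_lit 5) (nat_lit 101) (nat_lit 5) (nat_lit 89) (nat_lit 5) (nat_lit 323) (nat_lit 299) (nat_lit 239))) (XT.nd (nat_lit 94) (nat_lit 0) (nat_lit 0) (XT.lf (nat_lit 0) (nat_lit 1479914666) (nat_lit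 588) (nat_lit 4647712861) (nat_lit 672) (nat_lit 3662286264) (nat_lit 81) (nat_lit 5) (nat_lit 88) (nat_lit 5) (nat_lit 89) (nat_lit 5) (nat_lit 324) (nat_lit 299) (nat_lit 238)) (XT.lf (nat_lit 0) (nat_lit 5425603674) (nat_lit 588) (nat_lit 2083901235) (nat_lit 672) (nat_lit 2444151763) (nat_lit 81) (nat_lit 5) (nat_lit 88) (nat_lit 5) (nat_lit 89) (nat_lit 5) (nat_lit 325) (nat_lit 299) (nat_lit 237))))) (XT.nd (nat_lit 376) (nat_lit 420) (nat_lit 0) (XT.nd (nat_lit 188) (nat_lit 504) (nat_lit 0) (XT.nd (nat_lit 94) (nat_lit 588) (nat_lit 0) (XT.lf (nat_lit 0) (nat_lit 8911515776) (nat_lit 672) (nat_lit 661249373) (nat_lit 84) (nat_lit 550573125) (nat_lit 81) (nat_lit 5) (nat_lit 89) (nat_lit 5) (nat_lit 82) (nat_lit 5) (nat_lit 326) (nat_lit 299) (nat_lit 236)) (XT.lf (nat_lit 0) (nat_lit 84748980) (nat_lit 588) (nat_lit 6952962976) (nat_lit 84) (nat_lit 3259855523) (nat_lit 74) (nat_lit 5)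 (nat_lit 81) (nat_lit 5) (nat_lit 75) (nat_lit 5) (nat_lit 327) (nat_lit 299) (nat_lit 235))) (XT.nd (nat_lit 94) (nat_lit 504) (nat_lit 0) (XT.lf (nat_lit 0) (nat_lit 1376057590) (nat_lit 588) (nat_lit 3027259220) (nat_lit 84) (nat_lit 6074270516) (nat_lit 74) (nat_lit 5) (nat_lit 81) (nat_lit 5) (nat_lit 75) (nat_lit 5) (nat_lit 328) (nat_lit 299) (nat_lit 234)) (XT.lf (nat_lit 0) (nat_lit 1014916822) (nat_lit 504) (nat_lit 1676110742) (nat_lit 588) (nat_lit 7972808254) (nat_lit 68) (nat_lit 5) (nat_lit 74) (nat_lit 5) (nat_lit 75) (nat_lit 5) (nat_lit 329) (nat_lit 299) (nat_lit 233)))) (XT.nd (nat_lit 188) (nat_lit 420) (nat_lit 0) (XT.nd (nat_lit 94) (nat_lit 0) (nat_lit 0) (XT.lf (nat_lit 0) (nat_lit 4064059128) (nat_lit 588) (nat_lit 5646247482) (nat_lit 84) (nat_lit 1145151538) (nat_lit 68) (nat_lit 5) (nat_lit 75) (nat_lit 5) (nat_lit 69) (nat_lit 5) (nat_lit 330) (nat_lit 299) (nat_lit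 232)) (XT.lf (nat_lit 0) (nat_lit 5471686078) (nat_lit 588) (nat_lit 1562200120) (nat_lit 84) (nat_lit 4019513859) (nat_lit 68) (nat_lit 5) (nat_lit 75) (nat_lit 5) (nat_lit 69) (nat_lit 5) (nat_lit 331) (nat_lit 299) (nat_lit 231))) (XT.nd (nat_lit 94) (nat_lit 0) (nat_lit 0) (XT.lf (nat_lit 0) (nat_lit 2677604847) (nat_lit 420) (nat_lit 4247550567) (nat_lit 504) (nat_lit 4332382646) (nat_lit 63) (nat_lit 5) (nat_lit 68) (nat_lit 5) (nat_lit 69) (nat_lit 5) (nat_lit 332) (nat_lit 299) (nat_lit 230)) (XT.lf (nat_lit 0) (nat_lit 7057416991) (nat_lit 420) (nat_lit 1358704110) (nat_lit 504) (nat_lit 3052242062) (nat_lit 63) (nat_lit 5) (nat_lit 68) (nat_lit 5) (nat_lit 69) (nat_lit 5) (nat_lit 333) (nat_lit 299) (nat_lit 229))))))) (XT.nd (nat_lit 51794) (nat_lit 0) (nat_lit 2940) (XT.nd (nat_lit 51136) (nat_lit 0) (nat_lit 6384) (XT.nd (nat_lit 282) (nat_lit 336) (nat_lit 0) (XT.nd (nat_lit 94) (nat_lit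 504) (nat_lit 0) (XT.lf (nat_lit 0) (nat_lit 9946218075) (nat_lit 504) (nat_lit 153426528) (nat_lit 84) (nat_lit 1586419672) (nat_lit 63) (nat_lit 5) (nat_lit 69) (nat_lit 5) (nat_lit 64) (nat_lit 5) (nat_lit 334) (nat_lit 299) (nat_lit 228)) (XT.nd (nat_lit 94) (nat_lit 84) (nat_lit 0) (XT.lf (nat_lit 0) (nat_lit 4284607593) (nat_lit 420) (nat_lit 7273080666) (nat_lit 504) (nat_lit 351890771) (nat_lit 58) (nat_lit 5) (nat_lit 63) (nat_lit 5) (nat_lit 64) (nat_lit 5) (nat_lit 335) (nat_lit 299) (nat_lit 227)) (XT.lf (nat_lit 0) (nat_lit 1036612053) (nat_lit 504) (nat_lit 3311446300) (nat_lit 84) (nat_lit 7792385539) (nat_lit 57) (nat_lit 5) (nat_lit 63) (nat_lit 5) (nat_lit 58) (nat_lit 5) (nat_lit 336) (nat_lit 299) (nat_lit 226)))) (XT.nd (nat_lit 50666) (nat_lit 0) (nat_lit 7056) (XT.nd (nat_lit 50572) (nat_lit 0) (nat_lit 7056) (XT.lf (nat_lit 0) (nat_lit 1131499257) (nat_lit 336) (nat_lit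 1318890637) (nat_lit 420) (nat_lit 9928395141) (nat_lit 53) (nat_lit 5) (nat_lit 57) (nat_lit 5) (nat_lit 58) (nat_lit 5) (nat_lit 337) (nat_lit 299) (nat_lit 225)) (XT.lf (nat_lit 0) (nat_lit 510041923) (nat_lit 756) (nat_lit 1561961820) (nat_lit 756) (nat_lit 1561961820) (nat_lit 137) (nat_lit 3) (nat_lit 146) (nat_lit 3) (nat_lit 146) (nat_lit 5) (nat_lit 300) (nat_lit 300) (nat_lit 261))) (XT.nd (nat_lit 94) (nat_lit 0) (nat_lit 0) (XT.lf (nat_lit 0) (nat_lit 2313764757) (nat_lit 756) (nat_lit 463221718) (nat_lit 756) (nat_lit 4555265106) (nat_lit 137) (nat_lit 3) (nat_lit 146) (nat_lit 3) (nat_lit 146) (nat_lit 5) (nat_lit 301) (nat_lit 300) (nat_lit 260)) (XT.lf (nat_lit 84) (nat_lit 2299573222) (nat_lit 0) (nat_lit 1319296155) (nat_lit 756) (nat_lit 3780937003) (nat_lit 138) (nat_lit 5) (nat_lit 137) (nat_lit 3) (nat_lit 146) (nat_lit 5) (nat_lit 302) (nat_lit 300) (nat_lit 259))))) (XT.nd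 (nat_lit 282) (nat_lit 756) (nat_lit 0) (XT.nd (nat_lit 94) (nat_lit 0) (nat_lit 0) (XT.lf (nat_lit 0) (nat_lit 4921167051) (nat_lit 672) (nat_lit 2341923573) (nat_lit 756) (nat_lit 208046730) (nat_lit 138) (nat_lit 5) (nat_lit 146) (nat_lit 5) (nat_lit 147) (nat_lit 5) (nat_lit 303) (nat_lit 300) (nat_lit 258)) (XT.nd (nat_lit 94) (nat_lit 0) (nat_lit 0) (XT.lf (nat_lit 84) (nat_lit 470149864) (nat_lit 0) (nat_lit 5763374957) (nat_lit 756) (nat_lit 1312424919) (nat_lit 139) (nat_lit 5) (nat_lit 138) (nat_lit 5) (nat_lit 147) (nat_lit 5) (nat_lit 304) (nat_lit 300) (nat_lit 257)) (XT.lf (nat_lit 84) (nat_lit 3391602878) (nat_lit 0) (nat_lit 4172124427) (nat_lit 756) (nat_lit 60382568) (nat_lit 139) (nat_lit 5) (nat_lit 138) (nat_lit 5) (nat_lit 147) (nat_lit 5) (nat_lit 305) (nat_lit 300) (nat_lit 256)))) (XT.nd (nat_lit 188) (nat_lit 0) (nat_lit 84) (XT.nd (nat_lit 94) (nat_lit 0) (nat_lit 0)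 (XT.lf (nat_lit 0) (nat_lit 1159046531) (nat_lit 756) (nat_lit 1341156099) (nat_lit 840) (nat_lit 5205859215) (nat_lit 129) (nat_lit 5) (nat_lit 138) (nat_lit 5) (nat_lit 139) (nat_lit 5) (nat_lit 306) (nat_lit 300) (nat_lit 255)) (XT.lf (nat_lit 84) (nat_lit 1645319221) (nat_lit 0) (nat_lit 740793145) (nat_lit 840) (nat_lit 5405611581) (nat_lit 130) (nat_lit 5) (nat_lit 129) (nat_lit 5) (nat_lit 139) (nat_lit 5) (nat_lit 307) (nat_lit 300) (nat_lit 254))) (XT.nd (nat_lit 94) (nat_lit 0) (nat_lit 0) (XT.lf (nat_lit 0) (nat_lit 3632039034) (nat_lit 756) (nat_lit 3166179567) (nat_lit 840) (nat_lit 1082701217) (nat_lit 130) (nat_lit 5) (nat_lit 139) (nat_lit 5) (nat_lit 140) (nat_lit 5) (nat_lit 308) (nat_lit 300) (nat_lit 253)) (XT.lf (nat_lit 0) (nat_lit 4881521806) (nat_lit 756) (nat_lit 128874361) (nat_lit 840) (nat_lit 2963846880) (nat_lit 130) (nat_lit 5) (nat_lit 139) (nat_lit 5) (nat_lit 140)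 (nat_lit 5) (nat_lit 309) (nat_lit 300) (nat_lit 252)))))) (XT.nd (nat_lit 658) (nat_lit 2772) (nat_lit 0) (XT.nd (nat_lit 282) (nat_lit 0) (nat_lit 0) (XT.nd (nat_lit 94) (nat_lit 756) (nat_lit 0) (XT.lf (nat_lit 84) (nat_lit 3036877043) (nat_lit 0) (nat_lit 3121625723) (nat_lit 840) (nat_lit 1912571752) (nat_lit 131) (nat_lit 5) (nat_lit 130) (nat_lit 5) (nat_lit 140) (nat_lit 5) (nat_lit 310) (nat_lit 300) (nat_lit 251)) (XT.nd (nat_lit 94) (nat_lit 756) (nat_lit 0) (XT.lf (nat_lit 84) (nat_lit 6276874547) (nat_lit 0) (nat_lit 1159158353) (nat_lit 840) (nat_lit 736343909) (nat_lit 131) (nat_lit 5) (nat_lit 130) (nat_lit 5) (nat_lit 140) (nat_lit 5) (nat_lit 311) (nat_lit 300) (nat_lit 250)) (XT.lf (nat_lit 0) (nat_lit 449070606) (nat_lit 840) (nat_lit 6950830154) (nat_lit 924) (nat_lit 877563828) (nat_lit 121) (nat_lit 5) (nat_lit 131) (nat_lit 5) (nat_lit 132) (nat_lit 5) (nat_lit 312) (nat_lit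 300) (nat_lit 249)))) (XT.nd (nat_lit 188) (nat_lit 0) (nat_lit 0) (XT.nd (nat_lit 94) (nat_lit 0) (nat_lit 0) (XT.lf (nat_lit 0) (nat_lit 1649020337) (nat_lit 840) (nat_lit 3744121635) (nat_lit 924) (nat_lit 2992885311) (nat_lit 121) (nat_lit 5) (nat_lit 131) (nat_lit 5) (nat_lit 132) (nat_lit 5) (nat_lit 313) (nat_lit 300) (nat_lit 248)) (XT.lf (nat_lit 0) (nat_lit 2848573928) (nat_lit 840) (nat_lit 465334954) (nat_lit 924) (nat_lit 5185441101) (nat_lit 121) (nat_lit 5) (nat_lit 131) (nat_lit 5) (nat_lit 132) (nat_lit 5) (nat_lit 314) (nat_lit 300) (nat_lit 247))) (XT.nd (nat_lit 94) (nat_lit 0) (nat_lit 84) (XT.lf (nat_lit 84) (nat_lit 2947981314) (nat_lit 0) (nat_lit 1130112513) (nat_lit 924) (nat_lit 4538537914) (nat_lit 122) (nat_lit 5) (nat_lit 121) (nat_lit 5) (nat_lit 132) (nat_lit 5) (nat_lit 315) (nat_lit 300) (nat_lit 246)) (XT.lf (nat_lit 0) (nat_lit 5326224950) (nat_lit 840) (nat_lit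 2299250182) (nat_lit 84) (nat_lit 1112894279) (nat_lit 122) (nat_lit 5) (nat_lit 132) (nat_lit 5) (nat_lit 123) (nat_lit 5) (nat_lit 316) (nat_lit 300) (nat_lit 245))))) (XT.nd (nat_lit 376) (nat_lit 1008) (nat_lit 0) (XT.nd (nat_lit 188) (nat_lit 1008) (nat_lit 0) (XT.nd (nat_lit 94) (nat_lit 0) (nat_lit 0) (XT.lf (nat_lit 0) (nat_lit 1159584746) (nat_lit 840) (nat_lit 5442058512) (nat_lit 924) (nat_lit 2262800317) (nat_lit 112) (nat_lit 5) (nat_lit 122) (nat_lit 5) (nat_lit 123) (nat_lit 5) (nat_lit 317) (nat_lit 300) (nat_lit 244)) (XT.lf (nat_lit 0) (nat_lit 4747836615) (nat_lit 840) (nat_lit 3159068835) (nat_lit 924) (nat_lit 1088023891) (nat_lit 112) (nat_lit 5) (nat_lit 122) (nat_lit 5) (nat_lit 123) (nat_lit 5) (nat_lit 318) (nat_lit 300) (nat_lit 243))) (XT.nd (nat_lit 94) (nat_lit 924) (nat_lit 0) (XT.lf (nat_lit 0) (nat_lit 87481571) (nat_lit 924) (nat_lit 709982875) (nat_lit 84) (nat_lit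 8333178052) (nat_lit 111) (nat_lit 5) (nat_lit 122) (nat_lit 5) (nat_lit 112) (nat_lit 5) (nat_lit 319) (nat_lit 300) (nat_lit 242)) (XT.lf (nat_lit 0) (nat_lit 1290696193) (nat_lit 1008) (nat_lit 6327760098) (nat_lit 84) (nat_lit 1651516596) (nat_lit 100) (nat_lit 5) (nat_lit 112) (nat_lit 5) (nat_lit 101) (nat_lit 5) (nat_lit 320) (nat_lit 300) (nat_lit 241)))) (XT.nd (nat_lit 188) (nat_lit 0) (nat_lit 0) (XT.nd (nat_lit 94) (nat_lit 1008) (nat_lit 0) (XT.lf (nat_lit 0) (nat_lit 2515417975) (nat_lit 1008) (nat_lit 2725724729) (nat_lit 84) (nat_lit 4173148861) (nat_lit 100) (nat_lit 5) (nat_lit 112) (nat_lit 5) (nat_lit 101) (nat_lit 5) (nat_lit 321) (nat_lit 300) (nat_lit 240)) (XT.lf (nat_lit 0) (nat_lit 981781855) (nat_lit 1008) (nat_lit 2775573627) (nat_lit 1092) (nat_lit 5806545990) (nat_lit 88) (nat_lit 5) (nat_lit 100) (nat_lit 5) (nat_lit 101) (nat_lit 5) (nat_lit 322) (nat_lit 300) (nat_lit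 239))) (XT.nd (nat_lit 94) (nat_lit 0) (nat_lit 0) (XT.lf (nat_lit 0) (nat_lit 4836295429) (nat_lit 1008) (nat_lit 200120280) (nat_lit 1092) (nat_lit 4681945121) (nat_lit 88) (nat_lit 5) (nat_lit 100) (nat_lit 5) (nat_lit 101) (nat_lit 5) (nat_lit 323) (nat_lit 300) (nat_lit 238)) (XT.lf (nat_lit 0) (nat_lit 6350590600) (nat_lit 1092) (nat_lit 1117702002) (nat_lit 84) (nat_lit 2409620217) (nat_lit 88) (nat_lit 5) (nat_lit 101) (nat_lit 5) (nat_lit 89) (nat_lit 5) (nat_lit 324) (nat_lit 300) (nat_lit 237))))))))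
noncomputable def xc23 : XT := (XT.nd (nat_lit 53298) (nat_lit 0) (nat_lit 0) (XT.nd (nat_lit 51888) (nat_lit 0) (nat_lit 5292) (XT.nd (nat_lit 658) (nat_lit 924) (nat_lit 0) (XT.nd (nat_lit 282) (nat_lit 504) (nat_lit 0) (XT.nd (nat_lit 94) (nat_lit 588) (nat_lit 0) (XT.lf (nat_lit 0) (nat_lit 2792314812) (nat_lit 588) (nat_lit 4914913870) (nat_lit 672) (nat_lit 2335287647) (nat_lit 81) (nat_lit 5) (nat_lit 88) (nat_lit 5) (nat_lit 89) (nat_lit 5) (nat_lit 325) (nat_lit 300) (nat_lit 236)) (XT.nd (nat_lit 94) (nat_lit 588) (nat_lit 0) (XT.lf (nat_lit 0) (nat_lit 6822238505) (nat_lit 588) (nat_lit 2267922067) (nat_lit 672) (nat_lit 1122704666) (nat_lit 81) (nat_lit 5) (nat_lit 88) (nat_lit 5) (nat_lit 89) (nat_lit 5) (nat_lit 326) (nat_lit 300) (nat_lit 235)) (XT.lf (nat_lit 0) (nat_lit 108237695) (nat_lit 588) (nat_lit 9819981230) (nat_lit 84) (nat_lit 460898319) (nat_lit 74) (nat_lit 5) (nat_lit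 81) (nat_lit 5) (nat_lit 75) (nat_lit 5) (nat_lit 327) (nat_lit 300) (nat_lit 234)))) (XT.nd (nat_lit 188) (nat_lit 504) (nat_lit 0) (XT.nd (nat_lit 94) (nat_lit 0) (nat_lit 0) (XT.lf (nat_lit 0) (nat_lit 1386529416) (nat_lit 588) (nat_lit 5906917967) (nat_lit 84) (nat_lit 3276162452) (nat_lit 74) (nat_lit 5) (nat_lit 81) (nat_lit 5) (nat_lit 75) (nat_lit 5) (nat_lit 328) (nat_lit 300) (nat_lit 233)) (XT.lf (nat_lit 0) (nat_lit 2678805790) (nat_lit 588) (nat_lit 1897450656) (nat_lit 84) (nat_lit 6180372520) (nat_lit 74) (nat_lit 5) (nat_lit 81) (nat_lit 5) (nat_lit 75) (nat_lit 5) (nat_lit 329) (nat_lit 300) (nat_lit 232))) (XT.nd (nat_lit 94) (nat_lit 0) (nat_lit 0) (XT.lf (nat_lit 0) (nat_lit 2257644450) (nat_lit 504) (nat_lit 1751023018) (nat_lit 588) (nat_lit 6940987215) (nat_lit 68) (nat_lit 5) (nat_lit 74) (nat_lit 5) (nat_lit 75) (nat_lit 5) (nat_lit 330) (nat_lit 300) (nat_lit 231)) (XT.lf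 (nat_lit 0) (nat_lit 5386931822) (nat_lit 588) (nat_lit 4602801089) (nat_lit 84) (nat_lit 1158837081) (nat_lit 68) (nat_lit 5) (nat_lit 75) (nat_lit 5) (nat_lit 69) (nat_lit 5) (nat_lit 331) (nat_lit 300) (nat_lit 230))))) (XT.nd (nat_lit 282) (nat_lit 504) (nat_lit 0) (XT.nd (nat_lit 94) (nat_lit 420) (nat_lit 0) (XT.lf (nat_lit 0) (nat_lit 6802207338) (nat_lit 588) (nat_lit 428785389) (nat_lit 84) (nat_lit 4122960539) (nat_lit 68) (nat_lit 5) (nat_lit 75) (nat_lit 5) (nat_lit 69) (nat_lit 5) (nat_lit 332) (nat_lit 300) (nat_lit 229)) (XT.nd (nat_lit 94) (nat_lit 0) (nat_lit 0) (XT.lf (nat_lit 0) (nat_lit 3930488433) (nat_lit 420) (nat_lit 4346945335) (nat_lit 504) (nat_lit 3287891940) (nat_lit 63) (nat_lit 5) (nat_lit 68) (nat_lit 5) (nat_lit 69) (nat_lit 5) (nat_lit 333) (nat_lit 300) (nat_lit 228)) (XT.lf (nat_lit 0) (nat_lit 8410898989) (nat_lit 420) (nat_lit 1369515208) (nat_lit 504) (nat_lit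 2003510869) (nat_lit 63) (nat_lit 5) (nat_lit 68) (nat_lit 5) (nat_lit 69) (nat_lit 5) (nat_lit 334) (nat_lit 300) (nat_lit 227)))) (XT.nd (nat_lit 188) (nat_lit 0) (nat_lit 0) (XT.nd (nat_lit 94) (nat_lit 84) (nat_lit 0) (XT.lf (nat_lit 0) (nat_lit 1001024299) (nat_lit 420) (nat_lit 10333974696) (nat_lit 504) (nat_lit 674260175) (nat_lit 58) (nat_lit 5) (nat_lit 63) (nat_lit 5) (nat_lit 64) (nat_lit 5) (nat_lit 335) (nat_lit 300) (nat_lit 226)) (XT.lf (nat_lit 0) (nat_lit 710061365) (nat_lit 504) (nat_lit 6703080983) (nat_lit 84) (nat_lit 4827464377) (nat_lit 57) (nat_lit 5) (nat_lit 63) (nat_lit 5) (nat_lit 58) (nat_lit 5) (nat_lit 336) (nat_lit 300) (nat_lit 225))) (XT.nd (nat_lit 50666) (nat_lit 0) (nat_lit 6720) (XT.lf (nat_lit 0) (nat_lit 2102259298) (nat_lit 504) (nat_lit 2294153945) (nat_lit 84) (nat_lit 8083254610) (nat_lit 57) (nat_lit 5) (nat_lit 63) (nat_lit 5) (nat_lit 58) (nat_lit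 5) (nat_lit 337) (nat_lit 300) (nat_lit 224)) (XT.lf (nat_lit 0) (nat_lit 1791046209) (nat_lit 756) (nat_lit 953859636) (nat_lit 756) (nat_lit 953859636) (nat_lit 137) (nat_lit 3) (nat_lit 146) (nat_lit 3) (nat_lit 146) (nat_lit 5) (nat_lit 301) (nat_lit 301) (nat_lit 259)))))) (XT.nd (nat_lit 658) (nat_lit 756) (nat_lit 0) (XT.nd (nat_lit 282) (nat_lit 672) (nat_lit 0) (XT.nd (nat_lit 94) (nat_lit 0) (nat_lit 0) (XT.lf (nat_lit 84) (nat_lit 812350939) (nat_lit 0) (nat_lit 4035501740) (nat_lit 756) (nat_lit 2618620537) (nat_lit 138) (nat_lit 5) (nat_lit 137) (nat_lit 3) (nat_lit 146) (nat_lit 5) (nat_lit 302) (nat_lit 301) (nat_lit 258)) (XT.nd (nat_lit 94) (nat_lit 0) (nat_lit 0) (XT.lf (nat_lit 84) (nat_lit 3631531755) (nat_lit 0) (nat_lit 2492535473) (nat_lit 756) (nat_lit 1414708270) (nat_lit 138) (nat_lit 5) (nat_lit 137) (nat_lit 3) (nat_lit 146) (nat_lit 5) (nat_lit 303) (nat_lit 301) (nat_lit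 257)) (XT.lf (nat_lit 84) (nat_lit 6513224326) (nat_lit 0) (nat_lit 879387361) (nat_lit 756) (nat_lit 222492251) (nat_lit 138) (nat_lit 5) (nat_lit 137) (nat_lit 3) (nat_lit 146) (nat_lit 5) (nat_lit 304) (nat_lit 301) (nat_lit 256)))) (XT.nd (nat_lit 188) (nat_lit 0) (nat_lit 0) (XT.nd (nat_lit 94) (nat_lit 0) (nat_lit 0) (XT.lf (nat_lit 0) (nat_lit 965851962) (nat_lit 756) (nat_lit 5911794988) (nat_lit 840) (nat_lit 816780602) (nat_lit 129) (nat_lit 5) (nat_lit 138) (nat_lit 5) (nat_lit 139) (nat_lit 5) (nat_lit 305) (nat_lit 301) (nat_lit 255)) (XT.lf (nat_lit 0) (nat_lit 2161793169) (nat_lit 756) (nat_lit 3034356437) (nat_lit 840) (nat_lit 2581045785) (nat_lit 129) (nat_lit 5) (nat_lit 138) (nat_lit 5) (nat_lit 139) (nat_lit 5) (nat_lit 306) (nat_lit 301) (nat_lit 254))) (XT.nd (nat_lit 94) (nat_lit 0) (nat_lit 0) (XT.lf (nat_lit 0) (nat_lit 3350935566) (nat_lit 756) (nat_lit 93943670) (nat_lit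 840) (nat_lit 4419293577) (nat_lit 129) (nat_lit 5) (nat_lit 138) (nat_lit 5) (nat_lit 139) (nat_lit 5) (nat_lit 307) (nat_lit 301) (nat_lit 253)) (XT.lf (nat_lit 84) (nat_lit 2972064560) (nat_lit 0) (nat_lit 1591806248) (nat_lit 840) (nat_lit 3390656106) (nat_lit 130) (nat_lit 5) (nat_lit 129) (nat_lit 5) (nat_lit 139) (nat_lit 5) (nat_lit 308) (nat_lit 301) (nat_lit 252))))) (XT.nd (nat_lit 376) (nat_lit 0) (nat_lit 84) (XT.nd (nat_lit 188) (nat_lit 840) (nat_lit 0) (XT.nd (nat_lit 94) (nat_lit 0) (nat_lit 0) (XT.lf (nat_lit 0) (nat_lit 5777197341) (nat_lit 756) (nat_lit 1942609250) (nat_lit 840) (nat_lit 329295815) (nat_lit 130) (nat_lit 5) (nat_lit 139) (nat_lit 5) (nat_lit 140) (nat_lit 5) (nat_lit 309) (nat_lit 301) (nat_lit 251)) (XT.lf (nat_lit 84) (nat_lit 1172739102) (nat_lit 0) (nat_lit 5843193740) (nat_lit 840) (nat_lit 1131314114) (nat_lit 131) (nat_lit 5) (nat_lit 130) (nat_lit 5)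 (nat_lit 140) (nat_lit 5) (nat_lit 310) (nat_lit 301) (nat_lit 250))) (XT.nd (nat_lit 94) (nat_lit 0) (nat_lit 0) (XT.lf (nat_lit 0) (nat_lit 24405246) (nat_lit 840) (nat_lit 3849495985) (nat_lit 924) (nat_lit 4375361833) (nat_lit 120) (nat_lit 5) (nat_lit 130) (nat_lit 5) (nat_lit 131) (nat_lit 5) (nat_lit 311) (nat_lit 301) (nat_lit 249)) (XT.lf (nat_lit 0) (nat_lit 1153834150) (nat_lit 840) (nat_lit 665256983) (nat_lit 924) (nat_lit 6536425226) (nat_lit 120) (nat_lit 5) (nat_lit 130) (nat_lit 5) (nat_lit 131) (nat_lit 5) (nat_lit 312) (nat_lit 301) (nat_lit 248)))) (XT.nd (nat_lit 188) (nat_lit 0) (nat_lit 0) (XT.nd (nat_lit 94) (nat_lit 0) (nat_lit 0) (XT.lf (nat_lit 0) (nat_lit 2310423878) (nat_lit 840) (nat_lit 5823294496) (nat_lit 924) (nat_lit 331817657) (nat_lit 121) (nat_lit 5) (nat_lit 131) (nat_lit 5) (nat_lit 132) (nat_lit 5) (nat_lit 313) (nat_lit 301) (nat_lit 247)) (XT.lf (nat_lit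 0) (nat_lit 3492023657) (nat_lit 840) (nat_lit 2557559539) (nat_lit 924) (nat_lit 2529941526) (nat_lit 121) (nat_lit 5) (nat_lit 131) (nat_lit 5) (nat_lit 132) (nat_lit 5) (nat_lit 314) (nat_lit 301) (nat_lit 246))) (XT.nd (nat_lit 94) (nat_lit 0) (nat_lit 0) (XT.lf (nat_lit 84) (nat_lit 799816714) (nat_lit 0) (nat_lit 3883002804) (nat_lit 924) (nat_lit 4015293539) (nat_lit 122) (nat_lit 5) (nat_lit 121) (nat_lit 5) (nat_lit 132) (nat_lit 5) (nat_lit 315) (nat_lit 301) (nat_lit 245)) (XT.lf (nat_lit 84) (nat_lit 4290039840) (nat_lit 0) (nat_lit 1612629058) (nat_lit 924) (nat_lit 2918161505) (nat_lit 122) (nat_lit 5) (nat_lit 121) (nat_lit 5) (nat_lit 132) (nat_lit 5) (nat_lit 316) (nat_lit 301) (nat_lit 244))))))) (XT.nd (nat_lit 1316) (nat_lit 1428) (nat_lit 0) (XT.nd (nat_lit 658) (nat_lit 1176) (nat_lit 0) (XT.nd (nat_lit 282) (nat_lit 1932) (nat_lit 0) (XT.nd (nat_lit 94) (nat_lit 924) (nat_lit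 0) (XT.lf (nat_lit 0) (nat_lit 7134126551) (nat_lit 840) (nat_lit 1092130124) (nat_lit 84) (nat_lit 722110519) (nat_lit 122) (nat_lit 5) (nat_lit 132) (nat_lit 5) (nat_lit 123) (nat_lit 5) (nat_lit 317) (nat_lit 301) (nat_lit 243)) (XT.nd (nat_lit 94) (nat_lit 84) (nat_lit 0) (XT.lf (nat_lit 0) (nat_lit 2460986067) (nat_lit 840) (nat_lit 5951255024) (nat_lit 924) (nat_lit 667550291) (nat_lit 112) (nat_lit 5) (nat_lit 122) (nat_lit 5) (nat_lit 123) (nat_lit 5) (nat_lit 318) (nat_lit 301) (nat_lit 242)) (XT.lf (nat_lit 0) (nat_lit 483624905) (nat_lit 924) (nat_lit 3098581812) (nat_lit 84) (nat_lit 5633751243) (nat_lit 111) (nat_lit 5) (nat_lit 122) (nat_lit 5) (nat_lit 112) (nat_lit 5) (nat_lit 319) (nat_lit 301) (nat_lit 241)))) (XT.nd (nat_lit 188) (nat_lit 1008) (nat_lit 0) (XT.nd (nat_lit 94) (nat_lit 0) (nat_lit 0) (XT.lf (nat_lit 0) (nat_lit 509151337) (nat_lit 924) (nat_lit 1121278964) (nat_lit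 1008) (nat_lit 7726695104) (nat_lit 100) (nat_lit 5) (nat_lit 111) (nat_lit 5) (nat_lit 112) (nat_lit 5) (nat_lit 320) (nat_lit 301) (nat_lit 240)) (XT.lf (nat_lit 0) (nat_lit 2829016525) (nat_lit 1008) (nat_lit 5247603556) (nat_lit 84) (nat_lit 1425719915) (nat_lit 100) (nat_lit 5) (nat_lit 112) (nat_lit 5) (nat_lit 101) (nat_lit 5) (nat_lit 321) (nat_lit 301) (nat_lit 239))) (XT.nd (nat_lit 94) (nat_lit 1008) (nat_lit 0) (XT.lf (nat_lit 0) (nat_lit 4046653691) (nat_lit 1008) (nat_lit 1572281260) (nat_lit 84) (nat_lit 4033851397) (nat_lit 100) (nat_lit 5) (nat_lit 112) (nat_lit 5) (nat_lit 101) (nat_lit 5) (nat_lit 322) (nat_lit 301) (nat_lit 238)) (XT.lf (nat_lit 0) (nat_lit 2237624988) (nat_lit 1008) (nat_lit 3057926068) (nat_lit 1092) (nat_lit 4512710333) (nat_lit 88) (nat_lit 5) (nat_lit 100) (nat_lit 5) (nat_lit 101) (nat_lit 5) (nat_lit 323) (nat_lit 301) (nat_lit 237))))) (XT.nd (nat_lit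 282) (nat_lit 588) (nat_lit 0) (XT.nd (nat_lit 94) (nat_lit 588) (nat_lit 0) (XT.lf (nat_lit 0) (nat_lit 6174783047) (nat_lit 1008) (nat_lit 396731049) (nat_lit 1092) (nat_lit 3397562061) (nat_lit 88) (nat_lit 5) (nat_lit 100) (nat_lit 5) (nat_lit 101) (nat_lit 5) (nat_lit 324) (nat_lit 301) (nat_lit 236)) (XT.nd (nat_lit 94) (nat_lit 0) (nat_lit 0) (XT.lf (nat_lit 0) (nat_lit 52395657) (nat_lit 588) (nat_lit 7831257745) (nat_lit 672) (nat_lit 2251481585) (nat_lit 81) (nat_lit 5) (nat_lit 88) (nat_lit 5) (nat_lit 89) (nat_lit 5) (nat_lit 325) (nat_lit 301) (nat_lit 235)) (XT.lf (nat_lit 0) (nat_lit 4070381049) (nat_lit 588) (nat_lit 5183105389) (nat_lit 672) (nat_lit 1052477101) (nat_lit 81) (nat_lit 5) (nat_lit 88) (nat_lit 5) (nat_lit 89) (nat_lit 5) (nat_lit 326) (nat_lit 301) (nat_lit 234)))) (XT.nd (nat_lit 188) (nat_lit 0) (nat_lit 0) (XT.nd (nat_lit 94) (nat_lit 504) (nat_lit 0) (XT.lf (nat_lit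 0) (nat_lit 153785657) (nat_lit 672) (nat_lit 2295183236) (nat_lit 84) (nat_lit 8034015480) (nat_lit 80) (nat_lit 5) (nat_lit 88) (nat_lit 5) (nat_lit 81) (nat_lit 5) (nat_lit 327) (nat_lit 301) (nat_lit 233)) (XT.lf (nat_lit 0) (nat_lit 1371683478) (nat_lit 588) (nat_lit 8900747048) (nat_lit 84) (nat_lit 392985786) (nat_lit 74) (nat_lit 5) (nat_lit 81) (nat_lit 5) (nat_lit 75) (nat_lit 5) (nat_lit 328) (nat_lit 301) (nat_lit 232))) (XT.nd (nat_lit 94) (nat_lit 0) (nat_lit 0) (XT.lf (nat_lit 0) (nat_lit 2651713976) (nat_lit 588) (nat_lit 4903171512) (nat_lit 84) (nat_lit 3297994699) (nat_lit 74) (nat_lit 5) (nat_lit 81) (nat_lit 5) (nat_lit 75) (nat_lit 5) (nat_lit 329) (nat_lit 301) (nat_lit 231)) (XT.lf (nat_lit 0) (nat_lit 3947301872) (nat_lit 588) (nat_lit 805097124) (nat_lit 84) (nat_lit 6294632557) (nat_lit 74) (nat_lit 5) (nat_lit 81) (nat_lit 5) (nat_lit 75) (nat_lit 5) (nat_lit 330) (nat_lit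 301) (nat_lit 230)))))) (XT.nd (nat_lit 51324) (nat_lit 0) (nat_lit 5964) (XT.nd (nat_lit 282) (nat_lit 504) (nat_lit 0) (XT.nd (nat_lit 94) (nat_lit 420) (nat_lit 0) (XT.lf (nat_lit 0) (nat_lit 3467151322) (nat_lit 504) (nat_lit 1826898037) (nat_lit 588) (nat_lit 5952935787) (nat_lit 68) (nat_lit 5) (nat_lit 74) (nat_lit 5) (nat_lit 75) (nat_lit 5) (nat_lit 331) (nat_lit 301) (nat_lit 229)) (XT.nd (nat_lit 94) (nat_lit 420) (nat_lit 0) (XT.lf (nat_lit 0) (nat_lit 6679919912) (nat_lit 588) (nat_lit 3599180519) (nat_lit 84) (nat_lit 1174238965) (nat_lit 68) (nat_lit 5) (nat_lit 75) (nat_lit 5) (nat_lit 69) (nat_lit 5) (nat_lit 332) (nat_lit 301) (nat_lit 228)) (XT.lf (nat_lit 0) (nat_lit 683534309) (nat_lit 420) (nat_lit 7428459159) (nat_lit 504) (nat_lit 3554113741) (nat_lit 63) (nat_lit 5) (nat_lit 68) (nat_lit 5) (nat_lit 69) (nat_lit 5) (nat_lit 333) (nat_lit 301) (nat_lit 227)))) (XT.nd (nat_lit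 188) (nat_lit 504) (nat_lit 0) (XT.nd (nat_lit 94) (nat_lit 0) (nat_lit 0) (XT.lf (nat_lit 0) (nat_lit 5152917543) (nat_lit 420) (nat_lit 4451333298) (nat_lit 504) (nat_lit 2280844042) (nat_lit 63) (nat_lit 5) (nat_lit 68) (nat_lit 5) (nat_lit 69) (nat_lit 5) (nat_lit 334) (nat_lit 301) (nat_lit 226)) (XT.lf (nat_lit 0) (nat_lit 9739128583) (nat_lit 420) (nat_lit 1382515920) (nat_lit 504) (nat_lit 989991629) (nat_lit 63) (nat_lit 5) (nat_lit 68) (nat_lit 5) (nat_lit 69) (nat_lit 5) (nat_lit 335) (nat_lit 301) (nat_lit 225))) (XT.nd (nat_lit 94) (nat_lit 0) (nat_lit 0) (XT.lf (nat_lit 0) (nat_lit 352356000) (nat_lit 504) (nat_lit 10222646866) (nat_lit 84) (nat_lit 1769627316) (nat_lit 57) (nat_lit 5) (nat_lit 63) (nat_lit 5) (nat_lit 58) (nat_lit 5) (nat_lit 336) (nat_lit 301) (nat_lit 224)) (XT.lf (nat_lit 0) (nat_lit 1734509999) (nat_lit 504) (nat_lit 5824603757) (nat_lit 84) (nat_lit 5024938391)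 (nat_lit 57) (nat_lit 5) (nat_lit 63) (nat_lit 5) (nat_lit 58) (nat_lit 5) (nat_lit 337) (nat_lit 301) (nat_lit 223))))) (XT.nd (nat_lit 376) (nat_lit 0) (nat_lit 0) (XT.nd (nat_lit 188) (nat_lit 756) (nat_lit 0) (XT.nd (nat_lit 94) (nat_lit 0) (nat_lit 0) (XT.lf (nat_lit 0) (nat_lit 3036822082) (nat_lit 756) (nat_lit 365793267) (nat_lit 756) (nat_lit 365793267) (nat_lit 137) (nat_lit 3) (nat_lit 146) (nat_lit 3) (nat_lit 146) (nat_lit 5) (nat_lit 302) (nat_lit 302) (nat_lit 257)) (XT.lf (nat_lit 84) (nat_lit 2060299835) (nat_lit 0) (nat_lit 5258896316) (nat_lit 756) (nat_lit 291031740) (nat_lit 138) (nat_lit 5) (nat_lit 137) (nat_lit 3) (nat_lit 146) (nat_lit 5) (nat_lit 303) (nat_lit 302) (nat_lit 256))) (XT.nd (nat_lit 94) (nat_lit 0) (nat_lit 0) (XT.lf (nat_lit 0) (nat_lit 860090065) (nat_lit 756) (nat_lit 2766007063) (nat_lit 840) (nat_lit 4061041614) (nat_lit 128) (nat_lit 5) (nat_lit 137)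 (nat_lit 3) (nat_lit 138) (nat_lit 5) (nat_lit 304) (nat_lit 302) (nat_lit 255)) (XT.lf (nat_lit 84) (nat_lit 78183525) (nat_lit 0) (nat_lit 1918258260) (nat_lit 840) (nat_lit 5771568979) (nat_lit 129) (nat_lit 5) (nat_lit 128) (nat_lit 5) (nat_lit 138) (nat_lit 5) (nat_lit 305) (nat_lit 302) (nat_lit 254)))) (XT.nd (nat_lit 188) (nat_lit 0) (nat_lit 84) (XT.nd (nat_lit 94) (nat_lit 0) (nat_lit 84) (XT.lf (nat_lit 84) (nat_lit 3044800673) (nat_lit 0) (nat_lit 108022893) (nat_lit 840) (nat_lit 4699321073) (nat_lit 129) (nat_lit 5) (nat_lit 128) (nat_lit 5) (nat_lit 138) (nat_lit 5) (nat_lit 306) (nat_lit 302) (nat_lit 253)) (XT.lf (nat_lit 0) (nat_lit 4319942212) (nat_lit 756) (nat_lit 1878384370) (nat_lit 840) (nat_lit 1741613711) (nat_lit 129) (nat_lit 5) (nat_lit 138) (nat_lit 5) (nat_lit 139) (nat_lit 5) (nat_lit 307) (nat_lit 302) (nat_lit 252))) (XT.nd (nat_lit 94) (nat_lit 0) (nat_lit 0)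 (XT.lf (nat_lit 84) (nat_lit 1138534132) (nat_lit 0) (nat_lit 4355832310) (nat_lit 840) (nat_lit 2537253212) (nat_lit 130) (nat_lit 5) (nat_lit 129) (nat_lit 5) (nat_lit 139) (nat_lit 5) (nat_lit 308) (nat_lit 302) (nat_lit 251)) (XT.lf (nat_lit 84) (nat_lit 4264374714) (nat_lit 0) (nat_lit 2420154026) (nat_lit 840) (nat_lit 1442511966) (nat_lit 130) (nat_lit 5) (nat_lit 129) (nat_lit 5) (nat_lit 139) (nat_lit 5) (nat_lit 309) (nat_lit 302) (nat_lit 250))))))))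
noncomputable def xc24 : XT := (XT.nd (nat_lit 53392) (nat_lit 0) (nat_lit 1428) (XT.nd (nat_lit 1316) (nat_lit 3612) (nat_lit 0) (XT.nd (nat_lit 658) (nat_lit 1680) (nat_lit 0) (XT.nd (nat_lit 282) (nat_lit 0) (nat_lit 0) (XT.nd (nat_lit 94) (nat_lit 756) (nat_lit 0) (XT.lf (nat_lit 84) (nat_lit 7463427552) (nat_lit 0) (nat_lit 409093956) (nat_lit 840) (nat_lit 354360409) (nat_lit 130) (nat_lit 5) (nat_lit 129) (nat_lit 5) (nat_lit 139) (nat_lit 5) (nat_lit 310) (nat_lit 302) (nat_lit 249)) (XT.nd (nat_lit 94) (nat_lit 0) (nat_lit 0) (XT.lf (nat_lit 0) (nat_lit 754824329) (nat_lit 840) (nat_lit 5897672131) (nat_lit 924) (nat_lit 1677236248) (nat_lit 120) (nat_lit 5) (nat_lit 130) (nat_lit 5) (nat_lit 131) (nat_lit 5) (nat_lit 311) (nat_lit 302) (nat_lit 248)) (XT.lf (nat_lit 0) (nat_lit 1865810815) (nat_lit 840) (nat_lit 2725886825) (nat_lit 924) (nat_lit 3844972893) (nat_lit 120) (nat_lit 5)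 (nat_lit 130) (nat_lit 5) (nat_lit 131) (nat_lit 5) (nat_lit 312) (nat_lit 302) (nat_lit 247)))) (XT.nd (nat_lit 188) (nat_lit 0) (nat_lit 84) (XT.nd (nat_lit 94) (nat_lit 0) (nat_lit 0) (XT.lf (nat_lit 84) (nat_lit 530376799) (nat_lit 0) (nat_lit 2449792177) (nat_lit 924) (nat_lit 5567939830) (nat_lit 121) (nat_lit 5) (nat_lit 120) (nat_lit 5) (nat_lit 131) (nat_lit 5) (nat_lit 313) (nat_lit 302) (nat_lit 246)) (XT.lf (nat_lit 84) (nat_lit 3921087404) (nat_lit 0) (nat_lit 200958666) (nat_lit 924) (nat_lit 4541388965) (nat_lit 121) (nat_lit 5) (nat_lit 120) (nat_lit 5) (nat_lit 131) (nat_lit 5) (nat_lit 314) (nat_lit 302) (nat_lit 245))) (XT.nd (nat_lit 94) (nat_lit 0) (nat_lit 0) (XT.lf (nat_lit 0) (nat_lit 5286023740) (nat_lit 840) (nat_lit 1411371015) (nat_lit 924) (nat_lit 2085562922) (nat_lit 121) (nat_lit 5) (nat_lit 131) (nat_lit 5) (nat_lit 132) (nat_lit 5) (nat_lit 315) (nat_lit 302) (nat_lit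 244)) (XT.lf (nat_lit 84) (nat_lit 2037677089) (nat_lit 0) (nat_lit 4437404074) (nat_lit 924) (nat_lit 2431648255) (nat_lit 122) (nat_lit 5) (nat_lit 121) (nat_lit 5) (nat_lit 132) (nat_lit 5) (nat_lit 316) (nat_lit 302) (nat_lit 243))))) (XT.nd (nat_lit 282) (nat_lit 924) (nat_lit 0) (XT.nd (nat_lit 94) (nat_lit 840) (nat_lit 0) (XT.lf (nat_lit 84) (nat_lit 5599622790) (nat_lit 0) (nat_lit 2083598428) (nat_lit 924) (nat_lit 1351864682) (nat_lit 122) (nat_lit 5) (nat_lit 121) (nat_lit 5) (nat_lit 132) (nat_lit 5) (nat_lit 317) (nat_lit 302) (nat_lit 242)) (XT.nd (nat_lit 94) (nat_lit 84) (nat_lit 0) (XT.lf (nat_lit 0) (nat_lit 78265907) (nat_lit 840) (nat_lit 8823278418) (nat_lit 924) (nat_lit 266913231) (nat_lit 112) (nat_lit 5) (nat_lit 122) (nat_lit 5) (nat_lit 123) (nat_lit 5) (nat_lit 318) (nat_lit 302) (nat_lit 241)) (XT.lf (nat_lit 0) (nat_lit 860808196) (nat_lit 924) (nat_lit 5586275395)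 (nat_lit 84) (nat_lit 2857982542) (nat_lit 111) (nat_lit 5) (nat_lit 122) (nat_lit 5) (nat_lit 112) (nat_lit 5) (nat_lit 319) (nat_lit 302) (nat_lit 240)))) (XT.nd (nat_lit 188) (nat_lit 0) (nat_lit 0) (XT.nd (nat_lit 94) (nat_lit 924) (nat_lit 0) (XT.lf (nat_lit 0) (nat_lit 1987643424) (nat_lit 924) (nat_lit 2000762565) (nat_lit 84) (nat_lit 5458532377) (nat_lit 111) (nat_lit 5) (nat_lit 122) (nat_lit 5) (nat_lit 112) (nat_lit 5) (nat_lit 320) (nat_lit 302) (nat_lit 239)) (XT.lf (nat_lit 0) (nat_lit 1706723396) (nat_lit 924) (nat_lit 1430227996) (nat_lit 1008) (nat_lit 6456812325) (nat_lit 100) (nat_lit 5) (nat_lit 111) (nat_lit 5) (nat_lit 112) (nat_lit 5) (nat_lit 321) (nat_lit 302) (nat_lit 238))) (XT.nd (nat_lit 94) (nat_lit 0) (nat_lit 0) (XT.lf (nat_lit 0) (nat_lit 4326277394) (nat_lit 1008) (nat_lit 4209560609) (nat_lit 84) (nat_lit 1209330347) (nat_lit 100) (nat_lit 5) (nat_lit 112) (nat_lit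 5) (nat_lit 101) (nat_lit 5) (nat_lit 322) (nat_lit 302) (nat_lit 237)) (XT.lf (nat_lit 0) (nat_lit 5539278769) (nat_lit 1008) (nat_lit 456406404) (nat_lit 84) (nat_lit 3906149204) (nat_lit 100) (nat_lit 5) (nat_lit 112) (nat_lit 5) (nat_lit 101) (nat_lit 5) (nat_lit 323) (nat_lit 302) (nat_lit 236)))))) (XT.nd (nat_lit 658) (nat_lit 1428) (nat_lit 0) (XT.nd (nat_lit 282) (nat_lit 588) (nat_lit 0) (XT.nd (nat_lit 94) (nat_lit 588) (nat_lit 0) (XT.lf (nat_lit 0) (nat_lit 3459816251) (nat_lit 1008) (nat_lit 3337403678) (nat_lit 1092) (nat_lit 3266063753) (nat_lit 88) (nat_lit 5) (nat_lit 100) (nat_lit 5) (nat_lit 101) (nat_lit 5) (nat_lit 324) (nat_lit 302) (nat_lit 235)) (XT.nd (nat_lit 94) (nat_lit 588) (nat_lit 0) (XT.lf (nat_lit 0) (nat_lit 7484363191) (nat_lit 1008) (nat_lit 588158618) (nat_lit 1092) (nat_lit 2158036242) (nat_lit 88) (nat_lit 5) (nat_lit 100) (nat_lit 5) (nat_lit 101) (nat_lit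 5) (nat_lit 325) (nat_lit 302) (nat_lit 234)) (XT.lf (nat_lit 0) (nat_lit 1209698368) (nat_lit 588) (nat_lit 8186373185) (nat_lit 672) (nat_lit 1006821197) (nat_lit 81) (nat_lit 5) (nat_lit 88) (nat_lit 5) (nat_lit 89) (nat_lit 5) (nat_lit 326) (nat_lit 302) (nat_lit 233)))) (XT.nd (nat_lit 188) (nat_lit 504) (nat_lit 0) (XT.nd (nat_lit 94) (nat_lit 0) (nat_lit 0) (XT.lf (nat_lit 0) (nat_lit 186004850) (nat_lit 672) (nat_lit 5264803725) (nat_lit 84) (nat_lit 5129546129) (nat_lit 80) (nat_lit 5) (nat_lit 88) (nat_lit 5) (nat_lit 81) (nat_lit 5) (nat_lit 327) (nat_lit 302) (nat_lit 232)) (XT.lf (nat_lit 0) (nat_lit 1370237121) (nat_lit 672) (nat_lit 1247694287) (nat_lit 84) (nat_lit 8145963987) (nat_lit 80) (nat_lit 5) (nat_lit 88) (nat_lit 5) (nat_lit 81) (nat_lit 5) (nat_lit 328) (nat_lit 302) (nat_lit 231))) (XT.nd (nat_lit 94) (nat_lit 0) (nat_lit 0) (XT.lf (nat_lit 0) (nat_lit 2599658768) (nat_lit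 588) (nat_lit 8025495704) (nat_lit 84) (nat_lit 327836834) (nat_lit 74) (nat_lit 5) (nat_lit 81) (nat_lit 5) (nat_lit 75) (nat_lit 5) (nat_lit 329) (nat_lit 302) (nat_lit 230)) (XT.lf (nat_lit 0) (nat_lit 3883726131) (nat_lit 588) (nat_lit 3938608721) (nat_lit 84) (nat_lit 3325226218) (nat_lit 74) (nat_lit 5) (nat_lit 81) (nat_lit 5) (nat_lit 75) (nat_lit 5) (nat_lit 330) (nat_lit 302) (nat_lit 229))))) (XT.nd (nat_lit 282) (nat_lit 924) (nat_lit 0) (XT.nd (nat_lit 94) (nat_lit 0) (nat_lit 0) (XT.lf (nat_lit 0) (nat_lit 258134158) (nat_lit 504) (nat_lit 4929331479) (nat_lit 588) (nat_lit 6161441696) (nat_lit 68) (nat_lit 5) (nat_lit 74) (nat_lit 5) (nat_lit 75) (nat_lit 5) (nat_lit 331) (nat_lit 302) (nat_lit 228)) (XT.nd (nat_lit 94) (nat_lit 0) (nat_lit 0) (XT.lf (nat_lit 0) (nat_lit 4646657193) (nat_lit 504) (nat_lit 1903846174) (nat_lit 588) (nat_lit 5005523666) (nat_lit 68) (nat_lit 5) (nat_lit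 74) (nat_lit 5) (nat_lit 75) (nat_lit 5) (nat_lit 332) (nat_lit 302) (nat_lit 227)) (XT.lf (nat_lit 0) (nat_lit 7946296127) (nat_lit 588) (nat_lit 2632345461) (nat_lit 84) (nat_lit 1191333865) (nat_lit 68) (nat_lit 5) (nat_lit 75) (nat_lit 5) (nat_lit 69) (nat_lit 5) (nat_lit 333) (nat_lit 302) (nat_lit 226)))) (XT.nd (nat_lit 188) (nat_lit 504) (nat_lit 0) (XT.nd (nat_lit 94) (nat_lit 0) (nat_lit 0) (XT.lf (nat_lit 0) (nat_lit 1772215598) (nat_lit 420) (nat_lit 7629287133) (nat_lit 504) (nat_lit 2588663190) (nat_lit 63) (nat_lit 5) (nat_lit 68) (nat_lit 5) (nat_lit 69) (nat_lit 5) (nat_lit 334) (nat_lit 302) (nat_lit 225)) (XT.lf (nat_lit 0) (nat_lit 6348052483) (nat_lit 420) (nat_lit 4560755999) (nat_lit 504) (nat_lit 1308264003) (nat_lit 63) (nat_lit 5) (nat_lit 68) (nat_lit 5) (nat_lit 69) (nat_lit 5) (nat_lit 335) (nat_lit 302) (nat_lit 224))) (XT.nd (nat_lit 94) (nat_lit 504) (nat_lit 0)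 (XT.lf (nat_lit 0) (nat_lit 11045303931) (nat_lit 420) (nat_lit 1397664281) (nat_lit 504) (nat_lit 8764585) (nat_lit 63) (nat_lit 5) (nat_lit 68) (nat_lit 5) (nat_lit 69) (nat_lit 5) (nat_lit 336) (nat_lit 302) (nat_lit 223)) (XT.lf (nat_lit 0) (nat_lit 1335574605) (nat_lit 504) (nat_lit 9485938117) (nat_lit 84) (nat_lit 1870870456) (nat_lit 57) (nat_lit 5) (nat_lit 63) (nat_lit 5) (nat_lit 58) (nat_lit 5) (nat_lit 337) (nat_lit 302) (nat_lit 222))))))) (XT.nd (nat_lit 1316) (nat_lit 3780) (nat_lit 0) (XT.nd (nat_lit 658) (nat_lit 756) (nat_lit 0) (XT.nd (nat_lit 282) (nat_lit 0) (nat_lit 0) (XT.nd (nat_lit 94) (nat_lit 0) (nat_lit 0) (XT.lf (nat_lit 0) (nat_lit 201855019) (nat_lit 0) (nat_lit 201855019) (nat_lit 756) (nat_lit 3438915027) (nat_lit 128) (nat_lit 5) (nat_lit 128) (nat_lit 3) (nat_lit 137) (nat_lit 3) (nat_lit 303) (nat_lit 303) (nat_lit 255)) (XT.nd (nat_lit 94) (nat_lit 0) (nat_lit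 0) (XT.lf (nat_lit 0) (nat_lit 1926425708) (nat_lit 756) (nat_lit 4508628647) (nat_lit 840) (nat_lit 1327974980) (nat_lit 128) (nat_lit 5) (nat_lit 137) (nat_lit 3) (nat_lit 138) (nat_lit 5) (nat_lit 304) (nat_lit 303) (nat_lit 254)) (XT.lf (nat_lit 0) (nat_lit 3040423099) (nat_lit 756) (nat_lit 1677775969) (nat_lit 840) (nat_lit 3126534967) (nat_lit 128) (nat_lit 5) (nat_lit 137) (nat_lit 3) (nat_lit 138) (nat_lit 5) (nat_lit 305) (nat_lit 303) (nat_lit 253)))) (XT.nd (nat_lit 188) (nat_lit 0) (nat_lit 84) (XT.nd (nat_lit 94) (nat_lit 0) (nat_lit 0) (XT.lf (nat_lit 84) (nat_lit 1242699062) (nat_lit 0) (nat_lit 2916074424) (nat_lit 840) (nat_lit 3771408892) (nat_lit 129) (nat_lit 5) (nat_lit 128) (nat_lit 5) (nat_lit 138) (nat_lit 5) (nat_lit 306) (nat_lit 303) (nat_lit 252)) (XT.lf (nat_lit 84) (nat_lit 4266339685) (nat_lit 0) (nat_lit 1021507546) (nat_lit 840) (nat_lit 2731441612) (nat_lit 129)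 (nat_lit 5) (nat_lit 128) (nat_lit 5) (nat_lit 138) (nat_lit 5) (nat_lit 307) (nat_lit 303) (nat_lit 251))) (XT.nd (nat_lit 94) (nat_lit 0) (nat_lit 0) (XT.lf (nat_lit 0) (nat_lit 6421132462) (nat_lit 756) (nat_lit 760619007) (nat_lit 840) (nat_lit 930619513) (nat_lit 129) (nat_lit 5) (nat_lit 138) (nat_lit 5) (nat_lit 139) (nat_lit 5) (nat_lit 308) (nat_lit 303) (nat_lit 250)) (XT.lf (nat_lit 84) (nat_lit 2337918072) (nat_lit 0) (nat_lit 5246441952) (nat_lit 840) (nat_lit 624390624) (nat_lit 130) (nat_lit 5) (nat_lit 129) (nat_lit 5) (nat_lit 139) (nat_lit 5) (nat_lit 309) (nat_lit 303) (nat_lit 249))))) (XT.nd (nat_lit 282) (nat_lit 0) (nat_lit 84) (XT.nd (nat_lit 94) (nat_lit 0) (nat_lit 0) (XT.lf (nat_lit 0) (nat_lit 435453055) (nat_lit 840) (nat_lit 2788040683) (nat_lit 924) (nat_lit 5085659703) (nat_lit 119) (nat_lit 5) (nat_lit 129) (nat_lit 5) (nat_lit 130) (nat_lit 5) (nat_lit 310) (nat_lit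 303) (nat_lit 248)) (XT.nd (nat_lit 94) (nat_lit 0) (nat_lit 84) (XT.lf (nat_lit 84) (nat_lit 368064427) (nat_lit 0) (nat_lit 1113410597) (nat_lit 924) (nat_lit 6932269768) (nat_lit 120) (nat_lit 5) (nat_lit 119) (nat_lit 5) (nat_lit 130) (nat_lit 5) (nat_lit 311) (nat_lit 303) (nat_lit 247)) (XT.lf (nat_lit 0) (nat_lit 2563528448) (nat_lit 840) (nat_lit 4874929128) (nat_lit 924) (nat_lit 1083231390) (nat_lit 120) (nat_lit 5) (nat_lit 130) (nat_lit 5) (nat_lit 131) (nat_lit 5) (nat_lit 312) (nat_lit 303) (nat_lit 246)))) (XT.nd (nat_lit 188) (nat_lit 0) (nat_lit 0) (XT.nd (nat_lit 94) (nat_lit 0) (nat_lit 0) (XT.lf (nat_lit 0) (nat_lit 3655275165) (nat_lit 840) (nat_lit 1641067455) (nat_lit 924) (nat_lit 3337591707) (nat_lit 120) (nat_lit 5) (nat_lit 130) (nat_lit 5) (nat_lit 131) (nat_lit 5) (nat_lit 313) (nat_lit 303) (nat_lit 245)) (XT.lf (nat_lit 84) (nat_lit 1704302008) (nat_lit 0) (nat_lit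 3059292506) (nat_lit 924) (nat_lit 3986809273) (nat_lit 121) (nat_lit 5) (nat_lit 120) (nat_lit 5) (nat_lit 131) (nat_lit 5) (nat_lit 314) (nat_lit 303) (nat_lit 244))) (XT.nd (nat_lit 94) (nat_lit 0) (nat_lit 84) (XT.lf (nat_lit 84) (nat_lit 5165321548) (nat_lit 0) (nat_lit 724702227) (nat_lit 924) (nat_lit 2981166502) (nat_lit 121) (nat_lit 5) (nat_lit 120) (nat_lit 5) (nat_lit 131) (nat_lit 5) (nat_lit 315) (nat_lit 303) (nat_lit 243)) (XT.lf (nat_lit 0) (nat_lit 7035788124) (nat_lit 840) (nat_lit 302237503) (nat_lit 924) (nat_lit 1658375322) (nat_lit 121) (nat_lit 5) (nat_lit 131) (nat_lit 5) (nat_lit 132) (nat_lit 5) (nat_lit 316) (nat_lit 303) (nat_lit 242)))))) (XT.nd (nat_lit 658) (nat_lit 2184) (nat_lit 0) (XT.nd (nat_lit 282) (nat_lit 840) (nat_lit 0) (XT.nd (nat_lit 94) (nat_lit 924) (nat_lit 0) (XT.lf (nat_lit 84) (nat_lit 3242059157) (nat_lit 0) (nat_lit 4983283551) (nat_lit 924) (nat_lit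 900084803) (nat_lit 122) (nat_lit 5) (nat_lit 121) (nat_lit 5) (nat_lit 132) (nat_lit 5) (nat_lit 317) (nat_lit 303) (nat_lit 241)) (XT.nd (nat_lit 94) (nat_lit 0) (nat_lit 84) (XT.lf (nat_lit 0) (nat_lit 161533166) (nat_lit 924) (nat_lit 2381013367) (nat_lit 1008) (nat_lit 6716892027) (nat_lit 110) (nat_lit 5) (nat_lit 121) (nat_lit 5) (nat_lit 122) (nat_lit 5) (nat_lit 318) (nat_lit 303) (nat_lit 240)) (XT.lf (nat_lit 0) (nat_lit 1219383020) (nat_lit 924) (nat_lit 8175382414) (nat_lit 84) (nat_lit 3284643) (nat_lit 111) (nat_lit 5) (nat_lit 122) (nat_lit 5) (nat_lit 112) (nat_lit 5) (nat_lit 319) (nat_lit 303) (nat_lit 239)))) (XT.nd (nat_lit 188) (nat_lit 924) (nat_lit 0) (XT.nd (nat_lit 94) (nat_lit 0) (nat_lit 0) (XT.lf (nat_lit 0) (nat_lit 2331747515) (nat_lit 924) (nat_lit 4601471966) (nat_lit 84) (nat_lit 2607234555) (nat_lit 111) (nat_lit 5) (nat_lit 122) (nat_lit 5) (nat_lit 112) (nat_lit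 5) (nat_lit 320) (nat_lit 303) (nat_lit 238)) (XT.lf (nat_lit 0) (nat_lit 3450088948) (nat_lit 924) (nat_lit 939626199) (nat_lit 84) (nat_lit 5298604838) (nat_lit 111) (nat_lit 5) (nat_lit 122) (nat_lit 5) (nat_lit 112) (nat_lit 5) (nat_lit 321) (nat_lit 303) (nat_lit 237))) (XT.nd (nat_lit 94) (nat_lit 0) (nat_lit 0) (XT.lf (nat_lit 0) (nat_lit 2871420841) (nat_lit 924) (nat_lit 1732513741) (nat_lit 1008) (nat_lit 5236968138) (nat_lit 100) (nat_lit 5) (nat_lit 111) (nat_lit 5) (nat_lit 112) (nat_lit 5) (nat_lit 322) (nat_lit 303) (nat_lit 236)) (XT.lf (nat_lit 0) (nat_lit 5786462617) (nat_lit 1008) (nat_lit 3210458952) (nat_lit 84) (nat_lit 1001667710) (nat_lit 100) (nat_lit 5) (nat_lit 112) (nat_lit 5) (nat_lit 101) (nat_lit 5) (nat_lit 323) (nat_lit 303) (nat_lit 235))))) (XT.nd (nat_lit 376) (nat_lit 504) (nat_lit 0) (XT.nd (nat_lit 188) (nat_lit 672) (nat_lit 0) (XT.nd (nat_lit 94) (nat_lit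 0) (nat_lit 0) (XT.lf (nat_lit 0) (nat_lit 637931290) (nat_lit 1008) (nat_lit 6365591949) (nat_lit 1092) (nat_lit 3157856219) (nat_lit 88) (nat_lit 5) (nat_lit 100) (nat_lit 5) (nat_lit 101) (nat_lit 5) (nat_lit 324) (nat_lit 303) (nat_lit 234)) (XT.lf (nat_lit 0) (nat_lit 4651611651) (nat_lit 1008) (nat_lit 3614606069) (nat_lit 1092) (nat_lit 2062898303) (nat_lit 88) (nat_lit 5) (nat_lit 100) (nat_lit 5) (nat_lit 101) (nat_lit 5) (nat_lit 325) (nat_lit 303) (nat_lit 233))) (XT.nd (nat_lit 94) (nat_lit 672) (nat_lit 0) (XT.lf (nat_lit 0) (nat_lit 8768309678) (nat_lit 1008) (nat_lit 774910329) (nat_lit 1092) (nat_lit 959742905) (nat_lit 88) (nat_lit 5) (nat_lit 100) (nat_lit 5) (nat_lit 101) (nat_lit 5) (nat_lit 326) (nat_lit 303) (nat_lit 232)) (XT.lf (nat_lit 0) (nat_lit 194565499) (nat_lit 672) (nat_lit 8349246366) (nat_lit 84) (nat_lit 2137828287) (nat_lit 80) (nat_lit 5) (nat_lit 88) (nat_lit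 5) (nat_lit 81) (nat_lit 5) (nat_lit 327) (nat_lit 303) (nat_lit 231)))) (XT.nd (nat_lit 188) (nat_lit 504) (nat_lit 0) (XT.nd (nat_lit 94) (nat_lit 0) (nat_lit 0) (XT.lf (nat_lit 0) (nat_lit 1367022318) (nat_lit 672) (nat_lit 4343008151) (nat_lit 84) (nat_lit 5155578574) (nat_lit 80) (nat_lit 5) (nat_lit 88) (nat_lit 5) (nat_lit 81) (nat_lit 5) (nat_lit 328) (nat_lit 303) (nat_lit 230)) (XT.lf (nat_lit 0) (nat_lit 2552628457) (nat_lit 672) (nat_lit 233992121) (nat_lit 84) (nat_lit 8269503919) (nat_lit 80) (nat_lit 5) (nat_lit 88) (nat_lit 5) (nat_lit 81) (nat_lit 5) (nat_lit 329) (nat_lit 303) (nat_lit 229))) (XT.nd (nat_lit 94) (nat_lit 0) (nat_lit 0) (XT.lf (nat_lit 0) (nat_lit 3795484875) (nat_lit 588) (nat_lit 7191297605) (nat_lit 84) (nat_lit 265248741) (nat_lit 74) (nat_lit 5) (nat_lit 81) (nat_lit 5) (nat_lit 75) (nat_lit 5) (nat_lit 330) (nat_lit 303) (nat_lit 228)) (XT.lf (nat_lit 0)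 (nat_lit 5085825506) (nat_lit 588) (nat_lit 3010280309) (nat_lit 84) (nat_lit 3357744668) (nat_lit 74) (nat_lit 5) (nat_lit 81) (nat_lit 5) (nat_lit 75) (nat_lit 5) (nat_lit 331) (nat_lit 303) (nat_lit 227))))))))
noncomputable def xc25 : XT := (XT.nd (nat_lit 53674) (nat_lit 0) (nat_lit 0) (XT.nd (nat_lit 52264) (nat_lit 0) (nat_lit 2016) (XT.nd (nat_lit 51606) (nat_lit 0) (nat_lit 4704) (XT.nd (nat_lit 282) (nat_lit 420) (nat_lit 0) (XT.nd (nat_lit 94) (nat_lit 0) (nat_lit 0) (XT.lf (nat_lit 0) (nat_lit 1305926986) (nat_lit 504) (nat_lit 5101844244) (nat_lit 588) (nat_lit 5254528706) (nat_lit 68) (nat_lit 5) (nat_lit 74) (nat_lit 5) (nat_lit 75) (nat_lit 5) (nat_lit 332) (nat_lit 303) (nat_lit 226)) (XT.nd (nat_lit 94) (nat_lit 0) (nat_lit 0) (XT.lf (nat_lit 0) (nat_lit 5799229919) (nat_lit 504) (nat_lit 1981976453) (nat_lit 588) (nat_lit 4095789290) (nat_lit 68) (nat_lit 5) (nat_lit 74) (nat_lit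 5) (nat_lit 75) (nat_lit 5) (nat_lit 333) (nat_lit 303) (nat_lit 225)) (XT.lf (nat_lit 0) (nat_lit 9189185929) (nat_lit 588) (nat_lit 1699414566) (nat_lit 84) (nat_lit 1210102264) (nat_lit 68) (nat_lit 5) (nat_lit 75) (nat_lit 5) (nat_lit 69) (nat_lit 5) (nat_lit 334) (nat_lit 303) (nat_lit 224)))) (XT.nd (nat_lit 51136) (nat_lit 0) (nat_lit 5460) (XT.nd (nat_lit 94) (nat_lit 0) (nat_lit 0) (XT.lf (nat_lit 0) (nat_lit 2831416644) (nat_lit 420) (nat_lit 7838085401) (nat_lit 504) (nat_lit 1656994965) (nat_lit 63) (nat_lit 5) (nat_lit 68) (nat_lit 5) (nat_lit 69) (nat_lit 5) (nat_lit 335) (nat_lit 303) (nat_lit 223)) (XT.lf (nat_lit 0) (nat_lit 7518908417) (nat_lit 420) (nat_lit 4675262972) (nat_lit 504) (nat_lit 367329610) (nat_lit 63) (nat_lit 5) (nat_lit 68) (nat_lit 5) (nat_lit 69) (nat_lit 5) (nat_lit 336) (nat_lit 303) (nat_lit 222))) (XT.nd (nat_lit 94) (nat_lit 0) (nat_lit 0) (XT.lf (nat_lit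 0) (nat_lit 749213981) (nat_lit 0) (nat_lit 749213981) (nat_lit 756) (nat_lit 2422799073) (nat_lit 128) (nat_lit 5) (nat_lit 128) (nat_lit 3) (nat_lit 137) (nat_lit 3) (nat_lit 304) (nat_lit 304) (nat_lit 253)) (XT.lf (nat_lit 0) (nat_lit 4075058815) (nat_lit 756) (nat_lit 3509717849) (nat_lit 840) (nat_lit 340627232) (nat_lit 128) (nat_lit 5) (nat_lit 137) (nat_lit 3) (nat_lit 138) (nat_lit 5) (nat_lit 305) (nat_lit 304) (nat_lit 252))))) (XT.nd (nat_lit 282) (nat_lit 756) (nat_lit 0) (XT.nd (nat_lit 94) (nat_lit 0) (nat_lit 0) (XT.lf (nat_lit 0) (nat_lit 5160780881) (nat_lit 756) (nat_lit 625346398) (nat_lit 840) (nat_lit 2225867858) (nat_lit 128) (nat_lit 5) (nat_lit 137) (nat_lit 3) (nat_lit 138) (nat_lit 5) (nat_lit 306) (nat_lit 304) (nat_lit 251)) (XT.nd (nat_lit 94) (nat_lit 0) (nat_lit 0) (XT.lf (nat_lit 84) (nat_lit 2374481890) (nat_lit 0) (nat_lit 3889242803) (nat_lit 840) (nat_lit 1838314406)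 (nat_lit 129) (nat_lit 5) (nat_lit 128) (nat_lit 5) (nat_lit 138) (nat_lit 5) (nat_lit 307) (nat_lit 304) (nat_lit 250)) (XT.lf (nat_lit 84) (nat_lit 5458983371) (nat_lit 0) (nat_lit 1909401314) (nat_lit 840) (nat_lit 827747572) (nat_lit 129) (nat_lit 5) (nat_lit 128) (nat_lit 5) (nat_lit 138) (nat_lit 5) (nat_lit 308) (nat_lit 304) (nat_lit 249)))) (XT.nd (nat_lit 188) (nat_lit 0) (nat_lit 0) (XT.nd (nat_lit 94) (nat_lit 0) (nat_lit 0) (XT.lf (nat_lit 0) (nat_lit 176162109) (nat_lit 840) (nat_lit 7967430480) (nat_lit 924) (nat_lit 150763863) (nat_lit 119) (nat_lit 5) (nat_lit 129) (nat_lit 5) (nat_lit 130) (nat_lit 5) (nat_lit 309) (nat_lit 304) (nat_lit 248)) (XT.lf (nat_lit 0) (nat_lit 1205031792) (nat_lit 840) (nat_lit 4902296411) (nat_lit 924) (nat_lit 2287922054) (nat_lit 119) (nat_lit 5) (nat_lit 129) (nat_lit 5) (nat_lit 130) (nat_lit 5) (nat_lit 310) (nat_lit 304) (nat_lit 247))) (XT.nd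 (nat_lit 94) (nat_lit 0) (nat_lit 0) (XT.lf (nat_lit 0) (nat_lit 2229561666) (nat_lit 840) (nat_lit 1764726077) (nat_lit 924) (nat_lit 4506329543) (nat_lit 119) (nat_lit 5) (nat_lit 129) (nat_lit 5) (nat_lit 130) (nat_lit 5) (nat_lit 311) (nat_lit 304) (nat_lit 246)) (XT.lf (nat_lit 84) (nat_lit 1477983131) (nat_lit 0) (nat_lit 1787385346) (nat_lit 924) (nat_lit 5344732762) (nat_lit 120) (nat_lit 5) (nat_lit 119) (nat_lit 5) (nat_lit 130) (nat_lit 5) (nat_lit 312) (nat_lit 304) (nat_lit 245)))))) (XT.nd (nat_lit 658) (nat_lit 1932) (nat_lit 0) (XT.nd (nat_lit 282) (nat_lit 840) (nat_lit 0) (XT.nd (nat_lit 94) (nat_lit 0) (nat_lit 0) (XT.lf (nat_lit 0) (nat_lit 4322555749) (nat_lit 840) (nat_lit 3891889117) (nat_lit 924) (nat_lit 509076019) (nat_lit 120) (nat_lit 5) (nat_lit 130) (nat_lit 5) (nat_lit 131) (nat_lit 5) (nat_lit 313) (nat_lit 304) (nat_lit 244)) (XT.nd (nat_lit 94) (nat_lit 0) (nat_lit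 0) (XT.lf (nat_lit 0) (nat_lit 5397645843) (nat_lit 840) (nat_lit 591879621) (nat_lit 924) (nat_lit 2851594834) (nat_lit 120) (nat_lit 5) (nat_lit 130) (nat_lit 5) (nat_lit 131) (nat_lit 5) (nat_lit 314) (nat_lit 304) (nat_lit 243)) (XT.lf (nat_lit 84) (nat_lit 2846059167) (nat_lit 0) (nat_lit 3656083865) (nat_lit 924) (nat_lit 2460540496) (nat_lit 121) (nat_lit 5) (nat_lit 120) (nat_lit 5) (nat_lit 131) (nat_lit 5) (nat_lit 315) (nat_lit 304) (nat_lit 242)))) (XT.nd (nat_lit 188) (nat_lit 840) (nat_lit 0) (XT.nd (nat_lit 94) (nat_lit 0) (nat_lit 84) (XT.lf (nat_lit 84) (nat_lit 6381628666) (nat_lit 0) (nat_lit 1234028608) (nat_lit 924) (nat_lit 1473330612) (nat_lit 121) (nat_lit 5) (nat_lit 120) (nat_lit 5) (nat_lit 131) (nat_lit 5) (nat_lit 316) (nat_lit 304) (nat_lit 241)) (XT.lf (nat_lit 84) (nat_lit 788886029) (nat_lit 0) (nat_lit 7964799588) (nat_lit 924) (nat_lit 466017252) (nat_lit 122)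 (nat_lit 5) (nat_lit 121) (nat_lit 5) (nat_lit 132) (nat_lit 5) (nat_lit 317) (nat_lit 304) (nat_lit 240))) (XT.nd (nat_lit 94) (nat_lit 0) (nat_lit 0) (XT.lf (nat_lit 0) (nat_lit 572013272) (nat_lit 924) (nat_lit 4943915885) (nat_lit 1008) (nat_lit 3838197087) (nat_lit 110) (nat_lit 5) (nat_lit 121) (nat_lit 5) (nat_lit 122) (nat_lit 5) (nat_lit 318) (nat_lit 304) (nat_lit 239)) (XT.lf (nat_lit 0) (nat_lit 1603304832) (nat_lit 924) (nat_lit 1375648119) (nat_lit 1008) (nat_lit 6514691251) (nat_lit 110) (nat_lit 5) (nat_lit 121) (nat_lit 5) (nat_lit 122) (nat_lit 5) (nat_lit 319) (nat_lit 304) (nat_lit 238))))) (XT.nd (nat_lit 376) (nat_lit 1092) (nat_lit 0) (XT.nd (nat_lit 188) (nat_lit 840) (nat_lit 0) (XT.nd (nat_lit 94) (nat_lit 0) (nat_lit 84) (XT.lf (nat_lit 84) (nat_lit 2328856677) (nat_lit 0) (nat_lit 332453778) (nat_lit 1008) (nat_lit 6976503467) (nat_lit 111) (nat_lit 5) (nat_lit 110)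 (nat_lit 5) (nat_lit 122) (nat_lit 5) (nat_lit 320) (nat_lit 304) (nat_lit 237)) (XT.lf (nat_lit 0) (nat_lit 3762740300) (nat_lit 924) (nat_lit 3654728649) (nat_lit 84) (nat_lit 2368813392) (nat_lit 111) (nat_lit 5) (nat_lit 122) (nat_lit 5) (nat_lit 112) (nat_lit 5) (nat_lit 321) (nat_lit 304) (nat_lit 236))) (XT.nd (nat_lit 94) (nat_lit 0) (nat_lit 0) (XT.lf (nat_lit 0) (nat_lit 89685670) (nat_lit 924) (nat_lit 4786100832) (nat_lit 1008) (nat_lit 5064419214) (nat_lit 100) (nat_lit 5) (nat_lit 111) (nat_lit 5) (nat_lit 112) (nat_lit 5) (nat_lit 322) (nat_lit 304) (nat_lit 235)) (XT.lf (nat_lit 0) (nat_lit 4006370739) (nat_lit 924) (nat_lit 2028891602) (nat_lit 1008) (nat_lit 4063418131) (nat_lit 100) (nat_lit 5) (nat_lit 111) (nat_lit 5) (nat_lit 112) (nat_lit 5) (nat_lit 323) (nat_lit 304) (nat_lit 234)))) (XT.nd (nat_lit 188) (nat_lit 84) (nat_lit 0) (XT.nd (nat_lit 94) (nat_lit 1008) (nat_lit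 0) (XT.lf (nat_lit 0) (nat_lit 7213368149) (nat_lit 1008) (nat_lit 2247293170) (nat_lit 84) (nat_lit 802088297) (nat_lit 100) (nat_lit 5) (nat_lit 112) (nat_lit 5) (nat_lit 101) (nat_lit 5) (nat_lit 324) (nat_lit 304) (nat_lit 233)) (XT.lf (nat_lit 0) (nat_lit 1709638389) (nat_lit 1008) (nat_lit 6731444093) (nat_lit 1092) (nat_lit 1990557302) (nat_lit 88) (nat_lit 5) (nat_lit 100) (nat_lit 5) (nat_lit 101) (nat_lit 5) (nat_lit 325) (nat_lit 304) (nat_lit 232))) (XT.nd (nat_lit 94) (nat_lit 84) (nat_lit 0) (XT.lf (nat_lit 0) (nat_lit 5816113482) (nat_lit 1008) (nat_lit 3890110645) (nat_lit 1092) (nat_lit 899697364) (nat_lit 88) (nat_lit 5) (nat_lit 100) (nat_lit 5) (nat_lit 101) (nat_lit 5) (nat_lit 326) (nat_lit 304) (nat_lit 231)) (XT.lf (nat_lit 0) (nat_lit 196713182) (nat_lit 1092) (nat_lit 758703222) (nat_lit 84) (nat_lit 9830984354) (nat_lit 87) (nat_lit 5) (nat_lit 100) (nat_lit 5) (nat_lit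 88) (nat_lit 5) (nat_lit 327) (nat_lit 304) (nat_lit 230))))))) (XT.nd (nat_lit 52358) (nat_lit 0) (nat_lit 3108) (XT.nd (nat_lit 658) (nat_lit 420) (nat_lit 0) (XT.nd (nat_lit 282) (nat_lit 504) (nat_lit 0) (XT.nd (nat_lit 94) (nat_lit 504) (nat_lit 0) (XT.lf (nat_lit 0) (nat_lit 1340511014) (nat_lit 672) (nat_lit 7555692315) (nat_lit 84) (nat_lit 2075116012) (nat_lit 80) (nat_lit 5) (nat_lit 88) (nat_lit 5) (nat_lit 81) (nat_lit 5) (nat_lit 328) (nat_lit 304) (nat_lit 229)) (XT.nd (nat_lit 94) (nat_lit 504) (nat_lit 0) (XT.lf (nat_lit 0) (nat_lit 2515039180) (nat_lit 672) (nat_lit 3456903587) (nat_lit 84) (nat_lit 5190294865) (nat_lit 80) (nat_lit 5) (nat_lit 88) (nat_lit 5) (nat_lit 81) (nat_lit 5) (nat_lit 329) (nat_lit 304) (nat_lit 228)) (XT.lf (nat_lit 0) (nat_lit 764197375) (nat_lit 504) (nat_lit 2947538424) (nat_lit 588) (nat_lit 7647897146) (nat_lit 74) (nat_lit 5) (nat_lit 80) (nat_lit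 5) (nat_lit 81) (nat_lit 5) (nat_lit 330) (nat_lit 304) (nat_lit 227)))) (XT.nd (nat_lit 188) (nat_lit 504) (nat_lit 0) (XT.nd (nat_lit 94) (nat_lit 0) (nat_lit 0) (XT.lf (nat_lit 0) (nat_lit 4962324213) (nat_lit 588) (nat_lit 6395386626) (nat_lit 84) (nat_lit 205029587) (nat_lit 74) (nat_lit 5) (nat_lit 81) (nat_lit 5) (nat_lit 75) (nat_lit 5) (nat_lit 331) (nat_lit 304) (nat_lit 226)) (XT.lf (nat_lit 0) (nat_lit 6261118790) (nat_lit 588) (nat_lit 2115392205) (nat_lit 84) (nat_lit 3395450789) (nat_lit 74) (nat_lit 5) (nat_lit 81) (nat_lit 5) (nat_lit 75) (nat_lit 5) (nat_lit 332) (nat_lit 304) (nat_lit 225))) (XT.nd (nat_lit 94) (nat_lit 0) (nat_lit 0) (XT.lf (nat_lit 0) (nat_lit 2324612810) (nat_lit 504) (nat_lit 5278537834) (nat_lit 588) (nat_lit 4384532957) (nat_lit 68) (nat_lit 5) (nat_lit 74) (nat_lit 5) (nat_lit 75) (nat_lit 5) (nat_lit 333) (nat_lit 304) (nat_lit 224)) (XT.lf (nat_lit 0)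 (nat_lit 6927795656) (nat_lit 504) (nat_lit 2061396790) (nat_lit 588) (nat_lit 3220929332) (nat_lit 68) (nat_lit 5) (nat_lit 74) (nat_lit 5) (nat_lit 75) (nat_lit 5) (nat_lit 334) (nat_lit 304) (nat_lit 223))))) (XT.nd (nat_lit 51324) (nat_lit 0) (nat_lit 4620) (XT.nd (nat_lit 94) (nat_lit 420) (nat_lit 0) (XT.lf (nat_lit 0) (nat_lit 10411577679) (nat_lit 588) (nat_lit 797655376) (nat_lit 84) (nat_lit 1230528306) (nat_lit 68) (nat_lit 5) (nat_lit 75) (nat_lit 5) (nat_lit 69) (nat_lit 5) (nat_lit 335) (nat_lit 304) (nat_lit 222)) (XT.nd (nat_lit 51136) (nat_lit 0) (nat_lit 5460) (XT.lf (nat_lit 0) (nat_lit 3863968743) (nat_lit 420) (nat_lit 8054997704) (nat_lit 504) (nat_lit 756382588) (nat_lit 63) (nat_lit 5) (nat_lit 68) (nat_lit 5) (nat_lit 69) (nat_lit 5) (nat_lit 336) (nat_lit 304) (nat_lit 221)) (XT.lf (nat_lit 0) (nat_lit 1281490706) (nat_lit 0) (nat_lit 1281490706) (nat_lit 756) (nat_lit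 1441684289) (nat_lit 128) (nat_lit 5) (nat_lit 128) (nat_lit 3) (nat_lit 137) (nat_lit 3) (nat_lit 305) (nat_lit 305) (nat_lit 251)))) (XT.nd (nat_lit 188) (nat_lit 840) (nat_lit 0) (XT.nd (nat_lit 94) (nat_lit 0) (nat_lit 0) (XT.lf (nat_lit 0) (nat_lit 5543727976) (nat_lit 0) (nat_lit 629082198) (nat_lit 756) (nat_lit 1924445056) (nat_lit 128) (nat_lit 5) (nat_lit 128) (nat_lit 3) (nat_lit 137) (nat_lit 3) (nat_lit 306) (nat_lit 305) (nat_lit 250)) (XT.lf (nat_lit 84) (nat_lit 402398003) (nat_lit 0) (nat_lit 6828453939) (nat_lit 840) (nat_lit 957962849) (nat_lit 129) (nat_lit 5) (nat_lit 128) (nat_lit 5) (nat_lit 138) (nat_lit 5) (nat_lit 307) (nat_lit 305) (nat_lit 249))) (XT.nd (nat_lit 94) (nat_lit 0) (nat_lit 0) (XT.lf (nat_lit 0) (nat_lit 32609986) (nat_lit 840) (nat_lit 4807341051) (nat_lit 924) (nat_lit 3443644006) (nat_lit 118) (nat_lit 5) (nat_lit 128) (nat_lit 5) (nat_lit 129) (nat_lit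 5) (nat_lit 308) (nat_lit 305) (nat_lit 248)) (XT.lf (nat_lit 0) (nat_lit 996692458) (nat_lit 840) (nat_lit 1767008112) (nat_lit 924) (nat_lit 5618694580) (nat_lit 118) (nat_lit 5) (nat_lit 128) (nat_lit 5) (nat_lit 129) (nat_lit 5) (nat_lit 309) (nat_lit 305) (nat_lit 247)))))) (XT.nd (nat_lit 658) (nat_lit 1512) (nat_lit 0) (XT.nd (nat_lit 282) (nat_lit 0) (nat_lit 84) (XT.nd (nat_lit 94) (nat_lit 0) (nat_lit 84) (XT.lf (nat_lit 84) (nat_lit 1374614465) (nat_lit 0) (nat_lit 593505888) (nat_lit 924) (nat_lit 6517058721) (nat_lit 119) (nat_lit 5) (nat_lit 118) (nat_lit 5) (nat_lit 129) (nat_lit 5) (nat_lit 310) (nat_lit 305) (nat_lit 246)) (XT.nd (nat_lit 94) (nat_lit 0) (nat_lit 0) (XT.lf (nat_lit 0) (nat_lit 2969458162) (nat_lit 840) (nat_lit 3977891395) (nat_lit 924) (nat_lit 1644021634) (nat_lit 119) (nat_lit 5) (nat_lit 129) (nat_lit 5) (nat_lit 130) (nat_lit 5) (nat_lit 311) (nat_lit 305)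 (nat_lit 245)) (XT.lf (nat_lit 0) (nat_lit 3973819092) (nat_lit 840) (nat_lit 775420748) (nat_lit 924) (nat_lit 3952693068) (nat_lit 119) (nat_lit 5) (nat_lit 129) (nat_lit 5) (nat_lit 130) (nat_lit 5) (nat_lit 312) (nat_lit 305) (nat_lit 244)))) (XT.nd (nat_lit 188) (nat_lit 0) (nat_lit 84) (XT.nd (nat_lit 94) (nat_lit 0) (nat_lit 0) (XT.lf (nat_lit 84) (nat_lit 2557242764) (nat_lit 0) (nat_lit 2444377059) (nat_lit 924) (nat_lit 3814743560) (nat_lit 120) (nat_lit 5) (nat_lit 119) (nat_lit 5) (nat_lit 130) (nat_lit 5) (nat_lit 313) (nat_lit 305) (nat_lit 243)) (XT.lf (nat_lit 84) (nat_lit 5989259513) (nat_lit 0) (nat_lit 47844919) (nat_lit 924) (nat_lit 2898182979) (nat_lit 120) (nat_lit 5) (nat_lit 119) (nat_lit 5) (nat_lit 130) (nat_lit 5) (nat_lit 314) (nat_lit 305) (nat_lit 242))) (XT.nd (nat_lit 94) (nat_lit 0) (nat_lit 0) (XT.lf (nat_lit 84) (nat_lit 433406722) (nat_lit 0) (nat_lit 6668430893)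 (nat_lit 924) (nat_lit 1956339640) (nat_lit 121) (nat_lit 5) (nat_lit 120) (nat_lit 5) (nat_lit 131) (nat_lit 5) (nat_lit 315) (nat_lit 305) (nat_lit 241)) (XT.lf (nat_lit 84) (nat_lit 3958711976) (nat_lit 0) (nat_lit 4241644202) (nat_lit 924) (nat_lit 984681411) (nat_lit 121) (nat_lit 5) (nat_lit 120) (nat_lit 5) (nat_lit 131) (nat_lit 5) (nat_lit 316) (nat_lit 305) (nat_lit 240))))) (XT.nd (nat_lit 376) (nat_lit 840) (nat_lit 0) (XT.nd (nat_lit 188) (nat_lit 0) (nat_lit 0) (XT.nd (nat_lit 94) (nat_lit 840) (nat_lit 0) (XT.lf (nat_lit 84) (nat_lit 7573081827) (nat_lit 0) (nat_lit 1730306518) (nat_lit 924) (nat_lit 13537479) (nat_lit 121) (nat_lit 5) (nat_lit 120) (nat_lit 5) (nat_lit 131) (nat_lit 5) (nat_lit 317) (nat_lit 305) (nat_lit 239)) (XT.lf (nat_lit 0) (nat_lit 965980624) (nat_lit 924) (nat_lit 7608229240) (nat_lit 1008) (nat_lit 878614595) (nat_lit 110) (nat_lit 5) (nat_lit 121) (nat_lit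 5) (nat_lit 122) (nat_lit 5) (nat_lit 318) (nat_lit 305) (nat_lit 238))) (XT.nd (nat_lit 94) (nat_lit 0) (nat_lit 0) (XT.lf (nat_lit 0) (nat_lit 1983309348) (nat_lit 924) (nat_lit 4050449186) (nat_lit 1008) (nat_lit 3559097367) (nat_lit 110) (nat_lit 5) (nat_lit 121) (nat_lit 5) (nat_lit 122) (nat_lit 5) (nat_lit 319) (nat_lit 305) (nat_lit 237)) (XT.lf (nat_lit 0) (nat_lit 3004669420) (nat_lit 924) (nat_lit 403038029) (nat_lit 1008) (nat_lit 6330532393) (nat_lit 110) (nat_lit 5) (nat_lit 121) (nat_lit 5) (nat_lit 122) (nat_lit 5) (nat_lit 320) (nat_lit 305) (nat_lit 236)))) (XT.nd (nat_lit 188) (nat_lit 840) (nat_lit 0) (XT.nd (nat_lit 94) (nat_lit 0) (nat_lit 84) (XT.lf (nat_lit 84) (nat_lit 3406027868) (nat_lit 0) (nat_lit 658773206) (nat_lit 1008) (nat_lit 5823263290) (nat_lit 111) (nat_lit 5) (nat_lit 110) (nat_lit 5) (nat_lit 122) (nat_lit 5) (nat_lit 321) (nat_lit 305) (nat_lit 235)) (XT.lf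 (nat_lit 0) (nat_lit 5157615223) (nat_lit 924) (nat_lit 2743162661) (nat_lit 84) (nat_lit 2141910627) (nat_lit 111) (nat_lit 5) (nat_lit 122) (nat_lit 5) (nat_lit 112) (nat_lit 5) (nat_lit 322) (nat_lit 305) (nat_lit 234))) (XT.nd (nat_lit 94) (nat_lit 0) (nat_lit 0) (XT.lf (nat_lit 0) (nat_lit 1106952688) (nat_lit 924) (nat_lit 5169843319) (nat_lit 1008) (nat_lit 3925687772) (nat_lit 100) (nat_lit 5) (nat_lit 111) (nat_lit 5) (nat_lit 112) (nat_lit 5) (nat_lit 323) (nat_lit 305) (nat_lit 233)) (XT.lf (nat_lit 0) (nat_lit 5114551513) (nat_lit 924) (nat_lit 2320083421) (nat_lit 1008) (nat_lit 2932615482) (nat_lit 100) (nat_lit 5) (nat_lit 111) (nat_lit 5) (nat_lit 112) (nat_lit 5) (nat_lit 324) (nat_lit 305) (nat_lit 232))))))))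
noncomputable def xc26 : XT := (XT.nd (nat_lit 53862) (nat_lit 0) (nat_lit 420) (XT.nd (nat_lit 52452) (nat_lit 0) (nat_lit 3864) (XT.nd (nat_lit 658) (nat_lit 924) (nat_lit 0) (XT.nd (nat_lit 282) (nat_lit 1092) (nat_lit 0) (XT.nd (nat_lit 94) (nat_lit 1092) (nat_lit 0) (XT.lf (nat_lit 0) (nat_lit 8610614700) (nat_lit 1008) (nat_lit 1317214197) (nat_lit 84) (nat_lit 609982597) (nat_lit 100) (nat_lit 5) (nat_lit 112) (nat_lit 5) (nat_lit 101) (nat_lit 5) (nat_lit 325) (nat_lit 305) (nat_lit 231)) (XT.nd (nat_lit 94) (nat_lit 84) (nat_lit 0) (XT.lf (nat_lit 0) (nat_lit 2752260719) (nat_lit 1008) (nat_lit 7098655998) (nat_lit 1092) (nat_lit 862011634) (nat_lit 88) (nat_lit 5) (nat_lit 100) (nat_lit 5) (nat_lit 101) (nat_lit 5) (nat_lit 326) (nat_lit 305) (nat_lit 230)) (XT.lf (nat_lit 0) (nat_lit 222305503) (nat_lit 1092) (nat_lit 3939848417) (nat_lit 84) (nat_lit 6731654727) (nat_lit 87) (nat_lit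 5) (nat_lit 100) (nat_lit 5) (nat_lit 88) (nat_lit 5) (nat_lit 327) (nat_lit 305) (nat_lit 229)))) (XT.nd (nat_lit 188) (nat_lit 504) (nat_lit 0) (XT.nd (nat_lit 94) (nat_lit 0) (nat_lit 0) (XT.lf (nat_lit 0) (nat_lit 180919536) (nat_lit 588) (nat_lit 1120878211) (nat_lit 672) (nat_lit 9778982376) (nat_lit 80) (nat_lit 5) (nat_lit 87) (nat_lit 5) (nat_lit 88) (nat_lit 5) (nat_lit 328) (nat_lit 305) (nat_lit 228)) (XT.lf (nat_lit 0) (nat_lit 2454461782) (nat_lit 672) (nat_lit 6799872398) (nat_lit 84) (nat_lit 2018099657) (nat_lit 80) (nat_lit 5) (nat_lit 88) (nat_lit 5) (nat_lit 81) (nat_lit 5) (nat_lit 329) (nat_lit 305) (nat_lit 227))) (XT.nd (nat_lit 94) (nat_lit 504) (nat_lit 0) (XT.lf (nat_lit 0) (nat_lit 3633155664) (nat_lit 672) (nat_lit 2603789830) (nat_lit 84) (nat_lit 5233497641) (nat_lit 80) (nat_lit 5) (nat_lit 88) (nat_lit 5) (nat_lit 81) (nat_lit 5) (nat_lit 330) (nat_lit 305) (nat_lit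 226)) (XT.lf (nat_lit 0) (nat_lit 1738443311) (nat_lit 504) (nat_lit 3106661068) (nat_lit 588) (nat_lit 6829698288) (nat_lit 74) (nat_lit 5) (nat_lit 80) (nat_lit 5) (nat_lit 81) (nat_lit 5) (nat_lit 331) (nat_lit 305) (nat_lit 225))))) (XT.nd (nat_lit 282) (nat_lit 420) (nat_lit 0) (XT.nd (nat_lit 94) (nat_lit 504) (nat_lit 0) (XT.lf (nat_lit 0) (nat_lit 6103190883) (nat_lit 588) (nat_lit 5635150116) (nat_lit 84) (nat_lit 146997567) (nat_lit 74) (nat_lit 5) (nat_lit 81) (nat_lit 5) (nat_lit 75) (nat_lit 5) (nat_lit 332) (nat_lit 305) (nat_lit 224)) (XT.nd (nat_lit 94) (nat_lit 504) (nat_lit 0) (XT.lf (nat_lit 0) (nat_lit 7412570039) (nat_lit 588) (nat_lit 1251295750) (nat_lit 84) (nat_lit 3438257837) (nat_lit 74) (nat_lit 5) (nat_lit 81) (nat_lit 5) (nat_lit 75) (nat_lit 5) (nat_lit 333) (nat_lit 305) (nat_lit 223)) (XT.lf (nat_lit 0) (nat_lit 3316937310) (nat_lit 504) (nat_lit 5459610982) (nat_lit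 588) (nat_lit 3548746955) (nat_lit 68) (nat_lit 5) (nat_lit 74) (nat_lit 5) (nat_lit 75) (nat_lit 5) (nat_lit 334) (nat_lit 305) (nat_lit 222)))) (XT.nd (nat_lit 51324) (nat_lit 0) (nat_lit 5460) (XT.nd (nat_lit 94) (nat_lit 420) (nat_lit 0) (XT.lf (nat_lit 0) (nat_lit 8035148498) (nat_lit 504) (nat_lit 2142214227) (nat_lit 588) (nat_lit 2378288787) (nat_lit 68) (nat_lit 5) (nat_lit 74) (nat_lit 5) (nat_lit 75) (nat_lit 5) (nat_lit 335) (nat_lit 305) (nat_lit 221)) (XT.lf (nat_lit 0) (nat_lit 77078123) (nat_lit 420) (nat_lit 11540018744) (nat_lit 504) (nat_lit 1176286156) (nat_lit 63) (nat_lit 5) (nat_lit 68) (nat_lit 5) (nat_lit 69) (nat_lit 5) (nat_lit 336) (nat_lit 305) (nat_lit 220))) (XT.nd (nat_lit 94) (nat_lit 0) (nat_lit 0) (XT.lf (nat_lit 0) (nat_lit 1800116042) (nat_lit 0) (nat_lit 1800116042) (nat_lit 756) (nat_lit 492716759) (nat_lit 128) (nat_lit 5) (nat_lit 128) (nat_lit 3) (nat_lit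 137) (nat_lit 3) (nat_lit 306) (nat_lit 306) (nat_lit 249)) (XT.lf (nat_lit 0) (nat_lit 6644582813) (nat_lit 0) (nat_lit 1577583016) (nat_lit 756) (nat_lit 56537879) (nat_lit 128) (nat_lit 5) (nat_lit 128) (nat_lit 3) (nat_lit 137) (nat_lit 3) (nat_lit 307) (nat_lit 306) (nat_lit 248)))))) (XT.nd (nat_lit 658) (nat_lit 756) (nat_lit 0) (XT.nd (nat_lit 282) (nat_lit 0) (nat_lit 0) (XT.nd (nat_lit 94) (nat_lit 0) (nat_lit 0) (XT.lf (nat_lit 0) (nat_lit 865145385) (nat_lit 840) (nat_lit 6971471524) (nat_lit 924) (nat_lit 538275222) (nat_lit 118) (nat_lit 5) (nat_lit 128) (nat_lit 5) (nat_lit 129) (nat_lit 5) (nat_lit 308) (nat_lit 306) (nat_lit 247)) (XT.nd (nat_lit 94) (nat_lit 0) (nat_lit 0) (XT.lf (nat_lit 0) (nat_lit 1811415213) (nat_lit 840) (nat_lit 3941308993) (nat_lit 924) (nat_lit 2721629646) (nat_lit 118) (nat_lit 5) (nat_lit 128) (nat_lit 5) (nat_lit 129) (nat_lit 5) (nat_lit 309) (nat_lit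 306) (nat_lit 246)) (XT.lf (nat_lit 0) (nat_lit 2751929708) (nat_lit 840) (nat_lit 837246439) (nat_lit 924) (nat_lit 4989026077) (nat_lit 118) (nat_lit 5) (nat_lit 128) (nat_lit 5) (nat_lit 129) (nat_lit 5) (nat_lit 310) (nat_lit 306) (nat_lit 245)))) (XT.nd (nat_lit 188) (nat_lit 0) (nat_lit 84) (XT.nd (nat_lit 94) (nat_lit 0) (nat_lit 84) (XT.lf (nat_lit 84) (nat_lit 2391798865) (nat_lit 0) (nat_lit 1319493603) (nat_lit 924) (nat_lit 4974506042) (nat_lit 119) (nat_lit 5) (nat_lit 118) (nat_lit 5) (nat_lit 129) (nat_lit 5) (nat_lit 311) (nat_lit 306) (nat_lit 244)) (XT.lf (nat_lit 0) (nat_lit 4686284414) (nat_lit 840) (nat_lit 3088585429) (nat_lit 924) (nat_lit 1022500669) (nat_lit 119) (nat_lit 5) (nat_lit 129) (nat_lit 5) (nat_lit 130) (nat_lit 5) (nat_lit 312) (nat_lit 306) (nat_lit 243))) (XT.nd (nat_lit 94) (nat_lit 0) (nat_lit 0) (XT.lf (nat_lit 84) (nat_lit 186471421) (nat_lit 0) (nat_lit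 5488305425) (nat_lit 924) (nat_lit 3238339544) (nat_lit 120) (nat_lit 5) (nat_lit 119) (nat_lit 5) (nat_lit 130) (nat_lit 5) (nat_lit 313) (nat_lit 306) (nat_lit 242)) (XT.lf (nat_lit 84) (nat_lit 3608746897) (nat_lit 0) (nat_lit 3086102738) (nat_lit 924) (nat_lit 2337762481) (nat_lit 120) (nat_lit 5) (nat_lit 119) (nat_lit 5) (nat_lit 130) (nat_lit 5) (nat_lit 314) (nat_lit 306) (nat_lit 241))))) (XT.nd (nat_lit 376) (nat_lit 0) (nat_lit 84) (XT.nd (nat_lit 188) (nat_lit 840) (nat_lit 0) (XT.nd (nat_lit 94) (nat_lit 0) (nat_lit 84) (XT.lf (nat_lit 84) (nat_lit 7117923268) (nat_lit 0) (nat_lit 598261177) (nat_lit 924) (nat_lit 1440753974) (nat_lit 120) (nat_lit 5) (nat_lit 119) (nat_lit 5) (nat_lit 130) (nat_lit 5) (nat_lit 315) (nat_lit 306) (nat_lit 240)) (XT.lf (nat_lit 84) (nat_lit 1440465004) (nat_lit 0) (nat_lit 7333175275) (nat_lit 924) (nat_lit 511519787) (nat_lit 121) (nat_lit 5) (nat_lit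 120) (nat_lit 5) (nat_lit 131) (nat_lit 5) (nat_lit 316) (nat_lit 306) (nat_lit 239))) (XT.nd (nat_lit 94) (nat_lit 0) (nat_lit 0) (XT.lf (nat_lit 0) (nat_lit 436028011) (nat_lit 924) (nat_lit 4376807158) (nat_lit 1008) (nat_lit 4604599328) (nat_lit 109) (nat_lit 5) (nat_lit 120) (nat_lit 5) (nat_lit 121) (nat_lit 5) (nat_lit 317) (nat_lit 306) (nat_lit 238)) (XT.lf (nat_lit 0) (nat_lit 1374083906) (nat_lit 924) (nat_lit 826413032) (nat_lit 1008) (nat_lit 7354189540) (nat_lit 109) (nat_lit 5) (nat_lit 120) (nat_lit 5) (nat_lit 121) (nat_lit 5) (nat_lit 318) (nat_lit 306) (nat_lit 237)))) (XT.nd (nat_lit 188) (nat_lit 0) (nat_lit 0) (XT.nd (nat_lit 94) (nat_lit 0) (nat_lit 0) (XT.lf (nat_lit 0) (nat_lit 2347588162) (nat_lit 924) (nat_lit 6828829165) (nat_lit 1008) (nat_lit 519737360) (nat_lit 110) (nat_lit 5) (nat_lit 121) (nat_lit 5) (nat_lit 122) (nat_lit 5) (nat_lit 319) (nat_lit 306) (nat_lit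 236)) (XT.lf (nat_lit 0) (nat_lit 3355812440) (nat_lit 924) (nat_lit 3191284516) (nat_lit 1008) (nat_lit 3294924742) (nat_lit 110) (nat_lit 5) (nat_lit 121) (nat_lit 5) (nat_lit 122) (nat_lit 5) (nat_lit 320) (nat_lit 306) (nat_lit 235))) (XT.nd (nat_lit 94) (nat_lit 0) (nat_lit 0) (XT.lf (nat_lit 84) (nat_lit 550682698) (nat_lit 0) (nat_lit 3824195189) (nat_lit 1008) (nat_lit 5618314962) (nat_lit 111) (nat_lit 5) (nat_lit 110) (nat_lit 5) (nat_lit 122) (nat_lit 5) (nat_lit 321) (nat_lit 306) (nat_lit 234)) (XT.lf (nat_lit 84) (nat_lit 4457064880) (nat_lit 0) (nat_lit 976490524) (nat_lit 1008) (nat_lit 4715391195) (nat_lit 111) (nat_lit 5) (nat_lit 110) (nat_lit 5) (nat_lit 122) (nat_lit 5) (nat_lit 322) (nat_lit 306) (nat_lit 233))))))) (XT.nd (nat_lit 52546) (nat_lit 0) (nat_lit 3444) (XT.nd (nat_lit 658) (nat_lit 1008) (nat_lit 0) (XT.nd (nat_lit 282) (nat_lit 1680) (nat_lit 0) (XT.nd (nat_lit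 94) (nat_lit 924) (nat_lit 0) (XT.lf (nat_lit 0) (nat_lit 6520019520) (nat_lit 924) (nat_lit 1864042493) (nat_lit 84) (nat_lit 1925763290) (nat_lit 111) (nat_lit 5) (nat_lit 122) (nat_lit 5) (nat_lit 112) (nat_lit 5) (nat_lit 323) (nat_lit 306) (nat_lit 232)) (XT.nd (nat_lit 94) (nat_lit 0) (nat_lit 0) (XT.lf (nat_lit 0) (nat_lit 2095665196) (nat_lit 924) (nat_lit 5551540256) (nat_lit 1008) (nat_lit 2828403869) (nat_lit 100) (nat_lit 5) (nat_lit 111) (nat_lit 5) (nat_lit 112) (nat_lit 5) (nat_lit 324) (nat_lit 306) (nat_lit 231)) (XT.lf (nat_lit 0) (nat_lit 6198802877) (nat_lit 924) (nat_lit 2606779813) (nat_lit 1008) (nat_lit 1841198507) (nat_lit 100) (nat_lit 5) (nat_lit 111) (nat_lit 5) (nat_lit 112) (nat_lit 5) (nat_lit 325) (nat_lit 306) (nat_lit 230)))) (XT.nd (nat_lit 188) (nat_lit 588) (nat_lit 0) (XT.nd (nat_lit 94) (nat_lit 1092) (nat_lit 0) (XT.lf (nat_lit 0) (nat_lit 9981659652) (nat_lit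 1008) (nat_lit 417519387) (nat_lit 84) (nat_lit 424773152) (nat_lit 100) (nat_lit 5) (nat_lit 112) (nat_lit 5) (nat_lit 101) (nat_lit 5) (nat_lit 326) (nat_lit 306) (nat_lit 229)) (XT.lf (nat_lit 0) (nat_lit 226363727) (nat_lit 1092) (nat_lit 7239134544) (nat_lit 84) (nat_lit 3539860744) (nat_lit 87) (nat_lit 5) (nat_lit 100) (nat_lit 5) (nat_lit 88) (nat_lit 5) (nat_lit 327) (nat_lit 306) (nat_lit 228))) (XT.nd (nat_lit 94) (nat_lit 588) (nat_lit 0) (XT.lf (nat_lit 0) (nat_lit 1293398441) (nat_lit 1092) (nat_lit 3131336354) (nat_lit 84) (nat_lit 6768039514) (nat_lit 87) (nat_lit 5) (nat_lit 100) (nat_lit 5) (nat_lit 88) (nat_lit 5) (nat_lit 328) (nat_lit 306) (nat_lit 227)) (XT.lf (nat_lit 0) (nat_lit 1107753437) (nat_lit 588) (nat_lit 1275741879) (nat_lit 672) (nat_lit 9002928189) (nat_lit 80) (nat_lit 5) (nat_lit 87) (nat_lit 5) (nat_lit 88) (nat_lit 5) (nat_lit 329) (nat_lit 306) (nat_lit 226)))))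 (XT.nd (nat_lit 282) (nat_lit 504) (nat_lit 0) (XT.nd (nat_lit 94) (nat_lit 504) (nat_lit 0) (XT.lf (nat_lit 0) (nat_lit 3539425238) (nat_lit 672) (nat_lit 6079264206) (nat_lit 84) (nat_lit 1966503263) (nat_lit 80) (nat_lit 5) (nat_lit 88) (nat_lit 5) (nat_lit 81) (nat_lit 5) (nat_lit 330) (nat_lit 306) (nat_lit 225)) (XT.nd (nat_lit 94) (nat_lit 504) (nat_lit 0) (XT.lf (nat_lit 0) (nat_lit 4724323877) (nat_lit 672) (nat_lit 1781108444) (nat_lit 84) (nat_lit 5285011060) (nat_lit 80) (nat_lit 5) (nat_lit 88) (nat_lit 5) (nat_lit 81) (nat_lit 5) (nat_lit 331) (nat_lit 306) (nat_lit 224)) (XT.lf (nat_lit 0) (nat_lit 2686587823) (nat_lit 504) (nat_lit 3266703628) (nat_lit 588) (nat_lit 6048641524) (nat_lit 74) (nat_lit 5) (nat_lit 80) (nat_lit 5) (nat_lit 81) (nat_lit 5) (nat_lit 332) (nat_lit 306) (nat_lit 223)))) (XT.nd (nat_lit 188) (nat_lit 504) (nat_lit 0) (XT.nd (nat_lit 94) (nat_lit 0) (nat_lit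 0) (XT.lf (nat_lit 0) (nat_lit 7220960670) (nat_lit 588) (nat_lit 4908119485) (nat_lit 84) (nat_lit 90980363) (nat_lit 74) (nat_lit 5) (nat_lit 81) (nat_lit 5) (nat_lit 75) (nat_lit 5) (nat_lit 333) (nat_lit 306) (nat_lit 222)) (XT.lf (nat_lit 0) (nat_lit 8543010408) (nat_lit 588) (nat_lit 415478465) (nat_lit 84) (nat_lit 3486091037) (nat_lit 74) (nat_lit 5) (nat_lit 81) (nat_lit 5) (nat_lit 75) (nat_lit 5) (nat_lit 334) (nat_lit 306) (nat_lit 221))) (XT.nd (nat_lit 94) (nat_lit 0) (nat_lit 0) (XT.lf (nat_lit 0) (nat_lit 4285515206) (nat_lit 504) (nat_lit 5645264486) (nat_lit 588) (nat_lit 2744607427) (nat_lit 68) (nat_lit 5) (nat_lit 74) (nat_lit 5) (nat_lit 75) (nat_lit 5) (nat_lit 335) (nat_lit 306) (nat_lit 220)) (XT.lf (nat_lit 0) (nat_lit 9123959574) (nat_lit 504) (nat_lit 2224535151) (nat_lit 588) (nat_lit 1565351643) (nat_lit 68) (nat_lit 5) (nat_lit 74) (nat_lit 5) (nat_lit 75) (nat_lit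 5) (nat_lit 336) (nat_lit 306) (nat_lit 219)))))) (XT.nd (nat_lit 658) (nat_lit 672) (nat_lit 0) (XT.nd (nat_lit 282) (nat_lit 0) (nat_lit 84) (XT.nd (nat_lit 94) (nat_lit 0) (nat_lit 0) (XT.lf (nat_lit 0) (nat_lit 418213274) (nat_lit 924) (nat_lit 1883874184) (nat_lit 924) (nat_lit 1883874184) (nat_lit 117) (nat_lit 3) (nat_lit 128) (nat_lit 3) (nat_lit 128) (nat_lit 5) (nat_lit 307) (nat_lit 307) (nat_lit 247)) (XT.nd (nat_lit 94) (nat_lit 0) (nat_lit 0) (XT.lf (nat_lit 0) (nat_lit 1719740062) (nat_lit 924) (nat_lit 762770520) (nat_lit 924) (nat_lit 5986847311) (nat_lit 117) (nat_lit 3) (nat_lit 128) (nat_lit 3) (nat_lit 128) (nat_lit 5) (nat_lit 308) (nat_lit 307) (nat_lit 246)) (XT.lf (nat_lit 84) (nat_lit 2364820532) (nat_lit 0) (nat_lit 254003893) (nat_lit 924) (nat_lit 5951564073) (nat_lit 118) (nat_lit 5) (nat_lit 117) (nat_lit 3) (nat_lit 128) (nat_lit 5) (nat_lit 309) (nat_lit 307) (nat_lit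 245)))) (XT.nd (nat_lit 188) (nat_lit 0) (nat_lit 0) (XT.nd (nat_lit 94) (nat_lit 0) (nat_lit 0) (XT.lf (nat_lit 0) (nat_lit 3540061601) (nat_lit 840) (nat_lit 3108553661) (nat_lit 924) (nat_lit 2026322148) (nat_lit 118) (nat_lit 5) (nat_lit 128) (nat_lit 5) (nat_lit 129) (nat_lit 5) (nat_lit 310) (nat_lit 307) (nat_lit 244)) (XT.lf (nat_lit 84) (nat_lit 64317778) (nat_lit 0) (nat_lit 4395763977) (nat_lit 924) (nat_lit 4323771408) (nat_lit 119) (nat_lit 5) (nat_lit 118) (nat_lit 5) (nat_lit 129) (nat_lit 5) (nat_lit 311) (nat_lit 307) (nat_lit 243))) (XT.nd (nat_lit 94) (nat_lit 0) (nat_lit 84) (XT.lf (nat_lit 84) (nat_lit 3382790452) (nat_lit 0) (nat_lit 2026075227) (nat_lit 924) (nat_lit 3487468779) (nat_lit 119) (nat_lit 5) (nat_lit 118) (nat_lit 5) (nat_lit 129) (nat_lit 5) (nat_lit 312) (nat_lit 307) (nat_lit 242)) (XT.lf (nat_lit 0) (nat_lit 6360094191) (nat_lit 840) (nat_lit 2231690230)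 (nat_lit 924) (nat_lit 421545029) (nat_lit 119) (nat_lit 5) (nat_lit 129) (nat_lit 5) (nat_lit 130) (nat_lit 5) (nat_lit 313) (nat_lit 307) (nat_lit 241))))) (XT.nd (nat_lit 376) (nat_lit 0) (nat_lit 0) (XT.nd (nat_lit 188) (nat_lit 840) (nat_lit 0) (XT.nd (nat_lit 94) (nat_lit 0) (nat_lit 0) (XT.lf (nat_lit 84) (nat_lit 1135248744) (nat_lit 0) (nat_lit 6207375958) (nat_lit 924) (nat_lit 1791455393) (nat_lit 120) (nat_lit 5) (nat_lit 119) (nat_lit 5) (nat_lit 130) (nat_lit 5) (nat_lit 314) (nat_lit 307) (nat_lit 240)) (XT.lf (nat_lit 84) (nat_lit 4635260834) (nat_lit 0) (nat_lit 3714199727) (nat_lit 924) (nat_lit 909483674) (nat_lit 120) (nat_lit 5) (nat_lit 119) (nat_lit 5) (nat_lit 130) (nat_lit 5) (nat_lit 315) (nat_lit 307) (nat_lit 239))) (XT.nd (nat_lit 94) (nat_lit 840) (nat_lit 0) (XT.lf (nat_lit 84) (nat_lit 8225720289) (nat_lit 0) (nat_lit 1133226093) (nat_lit 924) (nat_lit 29792281)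 (nat_lit 120) (nat_lit 5) (nat_lit 119) (nat_lit 5) (nat_lit 130) (nat_lit 5) (nat_lit 316) (nat_lit 307) (nat_lit 238)) (XT.lf (nat_lit 0) (nat_lit 871008410) (nat_lit 924) (nat_lit 7111297292) (nat_lit 1008) (nat_lit 1539788167) (nat_lit 109) (nat_lit 5) (nat_lit 120) (nat_lit 5) (nat_lit 121) (nat_lit 5) (nat_lit 317) (nat_lit 307) (nat_lit 237)))) (XT.nd (nat_lit 188) (nat_lit 0) (nat_lit 84) (XT.nd (nat_lit 94) (nat_lit 0) (nat_lit 0) (XT.lf (nat_lit 0) (nat_lit 1795577704) (nat_lit 924) (nat_lit 3570343007) (nat_lit 1008) (nat_lit 4293921434) (nat_lit 109) (nat_lit 5) (nat_lit 120) (nat_lit 5) (nat_lit 121) (nat_lit 5) (nat_lit 318) (nat_lit 307) (nat_lit 236)) (XT.lf (nat_lit 84) (nat_lit 63055440) (nat_lit 0) (nat_lit 2659811035) (nat_lit 1008) (nat_lit 7079952418) (nat_lit 110) (nat_lit 5) (nat_lit 109) (nat_lit 5) (nat_lit 121) (nat_lit 5) (nat_lit 319) (nat_lit 307) (nat_lit 235))) (XT.nd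 (nat_lit 94) (nat_lit 0) (nat_lit 0) (XT.lf (nat_lit 0) (nat_lit 3691964270) (nat_lit 924) (nat_lit 6085402991) (nat_lit 1008) (nat_lit 172605142) (nat_lit 110) (nat_lit 5) (nat_lit 121) (nat_lit 5) (nat_lit 122) (nat_lit 5) (nat_lit 320) (nat_lit 307) (nat_lit 234)) (XT.lf (nat_lit 0) (nat_lit 4693209139) (nat_lit 924) (nat_lit 2363812901) (nat_lit 1008) (nat_lit 3044745317) (nat_lit 110) (nat_lit 5) (nat_lit 121) (nat_lit 5) (nat_lit 122) (nat_lit 5) (nat_lit 321) (nat_lit 307) (nat_lit 233))))))))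
noncomputable def xc27 : XT := (XT.nd (nat_lit 54144) (nat_lit 0) (nat_lit 504) (XT.nd (nat_lit 52734) (nat_lit 0) (nat_lit 3360) (XT.nd (nat_lit 658) (nat_lit 1596) (nat_lit 0) (XT.nd (nat_lit 282) (nat_lit 1932) (nat_lit 0) (XT.nd (nat_lit 94) (nat_lit 0) (nat_lit 0) (XT.lf (nat_lit 84) (nat_lit 1484776314) (nat_lit 0) (nat_lit 4231101543) (nat_lit 1008) (nat_lit 4542828742) (nat_lit 111) (nat_lit 5) (nat_lit 110) (nat_lit 5) (nat_lit 122) (nat_lit 5) (nat_lit 322) (nat_lit 307) (nat_lit 232)) (XT.nd (nat_lit 94) (nat_lit 0) (nat_lit 84) (XT.lf (nat_lit 84) (nat_lit 5484683407) (nat_lit 0) (nat_lit 1286447766) (nat_lit 1008) (nat_lit 3649488803) (nat_lit 111) (nat_lit 5) (nat_lit 110) (nat_lit 5) (nat_lit 122) (nat_lit 5) (nat_lit 323) (nat_lit 307) (nat_lit 231)) (XT.lf (nat_lit 0) (nat_lit 7853431136) (nat_lit 924) (nat_lit 1014778341) (nat_lit 84) (nat_lit 1719651103) (nat_lit 111) (nat_lit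 5) (nat_lit 122) (nat_lit 5) (nat_lit 112) (nat_lit 5) (nat_lit 324) (nat_lit 307) (nat_lit 230)))) (XT.nd (nat_lit 188) (nat_lit 1092) (nat_lit 0) (XT.nd (nat_lit 94) (nat_lit 0) (nat_lit 0) (XT.lf (nat_lit 0) (nat_lit 3058497225) (nat_lit 924) (nat_lit 5931954013) (nat_lit 1008) (nat_lit 1769306450) (nat_lit 100) (nat_lit 5) (nat_lit 111) (nat_lit 5) (nat_lit 112) (nat_lit 5) (nat_lit 325) (nat_lit 307) (nat_lit 229)) (XT.lf (nat_lit 0) (nat_lit 7261835221) (nat_lit 924) (nat_lit 2889642373) (nat_lit 1008) (nat_lit 785978921) (nat_lit 100) (nat_lit 5) (nat_lit 111) (nat_lit 5) (nat_lit 112) (nat_lit 5) (nat_lit 326) (nat_lit 307) (nat_lit 228))) (XT.nd (nat_lit 94) (nat_lit 0) (nat_lit 0) (XT.lf (nat_lit 0) (nat_lit 208891637) (nat_lit 1092) (nat_lit 10659636882) (nat_lit 84) (nat_lit 252627321) (nat_lit 87) (nat_lit 5) (nat_lit 100) (nat_lit 5) (nat_lit 88) (nat_lit 5) (nat_lit 327) (nat_lit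 307) (nat_lit 227)) (XT.lf (nat_lit 0) (nat_lit 1265584172) (nat_lit 1092) (nat_lit 6560882958) (nat_lit 84) (nat_lit 3482480512) (nat_lit 87) (nat_lit 5) (nat_lit 100) (nat_lit 5) (nat_lit 88) (nat_lit 5) (nat_lit 328) (nat_lit 307) (nat_lit 226))))) (XT.nd (nat_lit 282) (nat_lit 1008) (nat_lit 0) (XT.nd (nat_lit 94) (nat_lit 588) (nat_lit 0) (XT.lf (nat_lit 0) (nat_lit 2334660785) (nat_lit 1092) (nat_lit 2352884253) (nat_lit 84) (nat_lit 6815757648) (nat_lit 87) (nat_lit 5) (nat_lit 100) (nat_lit 5) (nat_lit 88) (nat_lit 5) (nat_lit 329) (nat_lit 307) (nat_lit 225)) (XT.nd (nat_lit 94) (nat_lit 0) (nat_lit 0) (XT.lf (nat_lit 0) (nat_lit 2008753432) (nat_lit 588) (nat_lit 1428291618) (nat_lit 672) (nat_lit 8266739342) (nat_lit 80) (nat_lit 5) (nat_lit 87) (nat_lit 5) (nat_lit 88) (nat_lit 5) (nat_lit 330) (nat_lit 307) (nat_lit 224)) (XT.lf (nat_lit 0) (nat_lit 4598265158) (nat_lit 672) (nat_lit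 5391485827) (nat_lit 84) (nat_lit 1920069125) (nat_lit 80) (nat_lit 5) (nat_lit 88) (nat_lit 5) (nat_lit 81) (nat_lit 5) (nat_lit 331) (nat_lit 307) (nat_lit 223)))) (XT.nd (nat_lit 188) (nat_lit 504) (nat_lit 0) (XT.nd (nat_lit 94) (nat_lit 504) (nat_lit 0) (XT.lf (nat_lit 0) (nat_lit 5791357682) (nat_lit 672) (nat_lit 986433796) (nat_lit 84) (nat_lit 5344679828) (nat_lit 80) (nat_lit 5) (nat_lit 88) (nat_lit 5) (nat_lit 81) (nat_lit 5) (nat_lit 332) (nat_lit 307) (nat_lit 222)) (XT.lf (nat_lit 0) (nat_lit 3611156692) (nat_lit 504) (nat_lit 3427932311) (nat_lit 588) (nat_lit 5302175907) (nat_lit 74) (nat_lit 5) (nat_lit 80) (nat_lit 5) (nat_lit 81) (nat_lit 5) (nat_lit 333) (nat_lit 307) (nat_lit 221))) (XT.nd (nat_lit 94) (nat_lit 504) (nat_lit 0) (XT.lf (nat_lit 0) (nat_lit 8318380478) (nat_lit 588) (nat_lit 4211961341) (nat_lit 84) (nat_lit 36814534) (nat_lit 74) (nat_lit 5) (nat_lit 81) (nat_lit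 5) (nat_lit 75) (nat_lit 5) (nat_lit 334) (nat_lit 307) (nat_lit 220)) (XT.lf (nat_lit 0) (nat_lit 402555250) (nat_lit 504) (nat_lit 9256585493) (nat_lit 588) (nat_lit 3140325243) (nat_lit 68) (nat_lit 5) (nat_lit 74) (nat_lit 5) (nat_lit 75) (nat_lit 5) (nat_lit 335) (nat_lit 307) (nat_lit 219)))))) (XT.nd (nat_lit 658) (nat_lit 756) (nat_lit 0) (XT.nd (nat_lit 282) (nat_lit 0) (nat_lit 84) (XT.nd (nat_lit 94) (nat_lit 0) (nat_lit 0) (XT.lf (nat_lit 0) (nat_lit 1292892819) (nat_lit 924) (nat_lit 1495412075) (nat_lit 924) (nat_lit 1495412075) (nat_lit 117) (nat_lit 3) (nat_lit 128) (nat_lit 3) (nat_lit 128) (nat_lit 5) (nat_lit 308) (nat_lit 308) (nat_lit 245)) (XT.nd (nat_lit 94) (nat_lit 0) (nat_lit 0) (XT.lf (nat_lit 84) (nat_lit 82089518) (nat_lit 0) (nat_lit 3363386781) (nat_lit 924) (nat_lit 5224312392) (nat_lit 118) (nat_lit 5) (nat_lit 117) (nat_lit 3) (nat_lit 128) (nat_lit 5) (nat_lit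 309) (nat_lit 308) (nat_lit 244)) (XT.lf (nat_lit 84) (nat_lit 3296205876) (nat_lit 0) (nat_lit 1033662491) (nat_lit 924) (nat_lit 4445711282) (nat_lit 118) (nat_lit 5) (nat_lit 117) (nat_lit 3) (nat_lit 128) (nat_lit 5) (nat_lit 310) (nat_lit 308) (nat_lit 243)))) (XT.nd (nat_lit 188) (nat_lit 0) (nat_lit 0) (XT.nd (nat_lit 94) (nat_lit 0) (nat_lit 0) (XT.lf (nat_lit 0) (nat_lit 5223231431) (nat_lit 840) (nat_lit 2306545403) (nat_lit 924) (nat_lit 1355641782) (nat_lit 118) (nat_lit 5) (nat_lit 128) (nat_lit 5) (nat_lit 129) (nat_lit 5) (nat_lit 311) (nat_lit 308) (nat_lit 242)) (XT.lf (nat_lit 84) (nat_lit 955589827) (nat_lit 0) (nat_lit 5177694467) (nat_lit 924) (nat_lit 2865910212) (nat_lit 119) (nat_lit 5) (nat_lit 118) (nat_lit 5) (nat_lit 129) (nat_lit 5) (nat_lit 312) (nat_lit 308) (nat_lit 241))) (XT.nd (nat_lit 94) (nat_lit 0) (nat_lit 0) (XT.lf (nat_lit 84) (nat_lit 4350196430) (nat_lit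 0) (nat_lit 2715131675) (nat_lit 924) (nat_lit 2051547227) (nat_lit 119) (nat_lit 5) (nat_lit 118) (nat_lit 5) (nat_lit 129) (nat_lit 5) (nat_lit 313) (nat_lit 308) (nat_lit 240)) (XT.lf (nat_lit 84) (nat_lit 7833011231) (nat_lit 0) (nat_lit 163868693) (nat_lit 924) (nat_lit 1242414762) (nat_lit 119) (nat_lit 5) (nat_lit 118) (nat_lit 5) (nat_lit 129) (nat_lit 5) (nat_lit 314) (nat_lit 308) (nat_lit 239))))) (XT.nd (nat_lit 376) (nat_lit 0) (nat_lit 84) (XT.nd (nat_lit 188) (nat_lit 0) (nat_lit 0) (XT.nd (nat_lit 94) (nat_lit 924) (nat_lit 0) (XT.lf (nat_lit 84) (nat_lit 2057582855) (nat_lit 0) (nat_lit 6916223433) (nat_lit 924) (nat_lit 391365443) (nat_lit 120) (nat_lit 5) (nat_lit 119) (nat_lit 5) (nat_lit 130) (nat_lit 5) (nat_lit 315) (nat_lit 308) (nat_lit 238)) (XT.lf (nat_lit 0) (nat_lit 464626149) (nat_lit 924) (nat_lit 3860755217) (nat_lit 1008) (nat_lit 5169944951) (nat_lit 108) (nat_lit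 5) (nat_lit 119) (nat_lit 5) (nat_lit 120) (nat_lit 5) (nat_lit 316) (nat_lit 308) (nat_lit 237))) (XT.nd (nat_lit 94) (nat_lit 0) (nat_lit 84) (XT.lf (nat_lit 0) (nat_lit 1311718438) (nat_lit 924) (nat_lit 328776463) (nat_lit 1008) (nat_lit 7989902025) (nat_lit 108) (nat_lit 5) (nat_lit 119) (nat_lit 5) (nat_lit 120) (nat_lit 5) (nat_lit 317) (nat_lit 308) (nat_lit 236)) (XT.lf (nat_lit 0) (nat_lit 2203570122) (nat_lit 924) (nat_lit 6417930658) (nat_lit 1008) (nat_lit 1147734526) (nat_lit 109) (nat_lit 5) (nat_lit 120) (nat_lit 5) (nat_lit 121) (nat_lit 5) (nat_lit 318) (nat_lit 308) (nat_lit 235)))) (XT.nd (nat_lit 188) (nat_lit 0) (nat_lit 0) (XT.nd (nat_lit 94) (nat_lit 0) (nat_lit 0) (XT.lf (nat_lit 0) (nat_lit 3117545609) (nat_lit 924) (nat_lit 2794683339) (nat_lit 1008) (nat_lit 4000469395) (nat_lit 109) (nat_lit 5) (nat_lit 120) (nat_lit 5) (nat_lit 121) (nat_lit 5) (nat_lit 319) (nat_lit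 308) (nat_lit 234)) (XT.lf (nat_lit 84) (nat_lit 942377060) (nat_lit 0) (nat_lit 3101831734) (nat_lit 1008) (nat_lit 6017029897) (nat_lit 110) (nat_lit 5) (nat_lit 109) (nat_lit 5) (nat_lit 121) (nat_lit 5) (nat_lit 320) (nat_lit 308) (nat_lit 233))) (XT.nd (nat_lit 94) (nat_lit 0) (nat_lit 84) (XT.lf (nat_lit 84) (nat_lit 4837214884) (nat_lit 0) (nat_lit 167140107) (nat_lit 1008) (nat_lit 5210021934) (nat_lit 110) (nat_lit 5) (nat_lit 109) (nat_lit 5) (nat_lit 121) (nat_lit 5) (nat_lit 321) (nat_lit 308) (nat_lit 232)) (XT.lf (nat_lit 0) (nat_lit 5999010726) (nat_lit 924) (nat_lit 1565562010) (nat_lit 1008) (nat_lit 2807678971) (nat_lit 110) (nat_lit 5) (nat_lit 121) (nat_lit 5) (nat_lit 122) (nat_lit 5) (nat_lit 322) (nat_lit 308) (nat_lit 231))))))) (XT.nd (nat_lit 52828) (nat_lit 0) (nat_lit 2772) (XT.nd (nat_lit 658) (nat_lit 1092) (nat_lit 0) (XT.nd (nat_lit 282) (nat_lit 1932) (nat_lit 0)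 (XT.nd (nat_lit 94) (nat_lit 0) (nat_lit 0) (XT.lf (nat_lit 84) (nat_lit 2393510021) (nat_lit 0) (nat_lit 4633542157) (nat_lit 1008) (nat_lit 3508021595) (nat_lit 111) (nat_lit 5) (nat_lit 110) (nat_lit 5) (nat_lit 122) (nat_lit 5) (nat_lit 323) (nat_lit 308) (nat_lit 230)) (XT.nd (nat_lit 94) (nat_lit 0) (nat_lit 84) (XT.lf (nat_lit 84) (nat_lit 6491474492) (nat_lit 0) (nat_lit 1589447400) (nat_lit 1008) (nat_lit 2622336983) (nat_lit 111) (nat_lit 5) (nat_lit 110) (nat_lit 5) (nat_lit 122) (nat_lit 5) (nat_lit 324) (nat_lit 308) (nat_lit 229)) (XT.lf (nat_lit 0) (nat_lit 9161170209) (nat_lit 924) (nat_lit 192913094) (nat_lit 84) (nat_lit 1522893869) (nat_lit 111) (nat_lit 5) (nat_lit 122) (nat_lit 5) (nat_lit 112) (nat_lit 5) (nat_lit 325) (nat_lit 308) (nat_lit 228)))) (XT.nd (nat_lit 188) (nat_lit 1008) (nat_lit 0) (XT.nd (nat_lit 94) (nat_lit 84) (nat_lit 0) (XT.lf (nat_lit 0) (nat_lit 3997994882)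 (nat_lit 924) (nat_lit 6311821683) (nat_lit 1008) (nat_lit 745302632) (nat_lit 100) (nat_lit 5) (nat_lit 111) (nat_lit 5) (nat_lit 112) (nat_lit 5) (nat_lit 326) (nat_lit 308) (nat_lit 227)) (XT.lf (nat_lit 0) (nat_lit 231312962) (nat_lit 1008) (nat_lit 2935578368) (nat_lit 84) (nat_lit 8072511083) (nat_lit 99) (nat_lit 5) (nat_lit 111) (nat_lit 5) (nat_lit 100) (nat_lit 5) (nat_lit 327) (nat_lit 308) (nat_lit 226))) (XT.nd (nat_lit 94) (nat_lit 0) (nat_lit 0) (XT.lf (nat_lit 0) (nat_lit 1216534270) (nat_lit 1092) (nat_lit 10114562097) (nat_lit 84) (nat_lit 98367676) (nat_lit 87) (nat_lit 5) (nat_lit 100) (nat_lit 5) (nat_lit 88) (nat_lit 5) (nat_lit 328) (nat_lit 308) (nat_lit 225)) (XT.lf (nat_lit 0) (nat_lit 2275881289) (nat_lit 1092) (nat_lit 5915071952) (nat_lit 84) (nat_lit 3433220054) (nat_lit 87) (nat_lit 5) (nat_lit 100) (nat_lit 5) (nat_lit 88) (nat_lit 5) (nat_lit 329) (nat_lit 308)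 (nat_lit 224))))) (XT.nd (nat_lit 282) (nat_lit 504) (nat_lit 0) (XT.nd (nat_lit 94) (nat_lit 588) (nat_lit 0) (XT.lf (nat_lit 0) (nat_lit 3348901427) (nat_lit 1092) (nat_lit 1602158895) (nat_lit 84) (nat_lit 6874555977) (nat_lit 87) (nat_lit 5) (nat_lit 100) (nat_lit 5) (nat_lit 88) (nat_lit 5) (nat_lit 330) (nat_lit 308) (nat_lit 223)) (XT.nd (nat_lit 94) (nat_lit 0) (nat_lit 0) (XT.lf (nat_lit 0) (nat_lit 2886350693) (nat_lit 588) (nat_lit 1578877112) (nat_lit 672) (nat_lit 7567865391) (nat_lit 80) (nat_lit 5) (nat_lit 87) (nat_lit 5) (nat_lit 88) (nat_lit 5) (nat_lit 331) (nat_lit 308) (nat_lit 222)) (XT.lf (nat_lit 0) (nat_lit 5633711247) (nat_lit 672) (nat_lit 4734287252) (nat_lit 84) (nat_lit 1878556762) (nat_lit 80) (nat_lit 5) (nat_lit 88) (nat_lit 5) (nat_lit 81) (nat_lit 5) (nat_lit 332) (nat_lit 308) (nat_lit 221)))) (XT.nd (nat_lit 188) (nat_lit 0) (nat_lit 0) (XT.nd (nat_lit 94) (nat_lit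 504) (nat_lit 0) (XT.lf (nat_lit 0) (nat_lit 6836942020) (nat_lit 672) (nat_lit 217464615) (nat_lit 84) (nat_lit 5412368291) (nat_lit 80) (nat_lit 5) (nat_lit 88) (nat_lit 5) (nat_lit 81) (nat_lit 5) (nat_lit 333) (nat_lit 308) (nat_lit 220)) (XT.lf (nat_lit 0) (nat_lit 4514556466) (nat_lit 504) (nat_lit 3590607498) (nat_lit 588) (nat_lit 4587890705) (nat_lit 74) (nat_lit 5) (nat_lit 80) (nat_lit 5) (nat_lit 81) (nat_lit 5) (nat_lit 334) (nat_lit 308) (nat_lit 219))) (XT.nd (nat_lit 51606) (nat_lit 0) (nat_lit 3612) (XT.lf (nat_lit 0) (nat_lit 9382258801) (nat_lit 504) (nat_lit 15976943) (nat_lit 588) (nat_lit 3528650689) (nat_lit 74) (nat_lit 5) (nat_lit 80) (nat_lit 5) (nat_lit 81) (nat_lit 5) (nat_lit 335) (nat_lit 308) (nat_lit 218)) (XT.lf (nat_lit 0) (nat_lit 2143646578) (nat_lit 924) (nat_lit 1121376055) (nat_lit 924) (nat_lit 1121376055) (nat_lit 117) (nat_lit 3) (nat_lit 128) (nat_lit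 3) (nat_lit 128) (nat_lit 5) (nat_lit 309) (nat_lit 309) (nat_lit 243)))))) (XT.nd (nat_lit 658) (nat_lit 0) (nat_lit 84) (XT.nd (nat_lit 282) (nat_lit 840) (nat_lit 0) (XT.nd (nat_lit 94) (nat_lit 0) (nat_lit 0) (XT.lf (nat_lit 84) (nat_lit 916909664) (nat_lit 0) (nat_lit 4216230313) (nat_lit 924) (nat_lit 3746740105) (nat_lit 118) (nat_lit 5) (nat_lit 117) (nat_lit 3) (nat_lit 128) (nat_lit 5) (nat_lit 310) (nat_lit 309) (nat_lit 242)) (XT.nd (nat_lit 94) (nat_lit 0) (nat_lit 84) (XT.lf (nat_lit 84) (nat_lit 4205638859) (nat_lit 0) (nat_lit 1791776389) (nat_lit 924) (nat_lit 2993299455) (nat_lit 118) (nat_lit 5) (nat_lit 117) (nat_lit 3) (nat_lit 128) (nat_lit 5) (nat_lit 311) (nat_lit 309) (nat_lit 241)) (XT.lf (nat_lit 0) (nat_lit 6865382696) (nat_lit 840) (nat_lit 1532887084) (nat_lit 924) (nat_lit 707616570) (nat_lit 118) (nat_lit 5) (nat_lit 128) (nat_lit 5) (nat_lit 129) (nat_lit 5) (nat_lit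 312) (nat_lit 309) (nat_lit 240)))) (XT.nd (nat_lit 188) (nat_lit 924) (nat_lit 0) (XT.nd (nat_lit 94) (nat_lit 0) (nat_lit 0) (XT.lf (nat_lit 84) (nat_lit 1821817839) (nat_lit 0) (nat_lit 5945621148) (nat_lit 924) (nat_lit 1457146170) (nat_lit 119) (nat_lit 5) (nat_lit 118) (nat_lit 5) (nat_lit 129) (nat_lit 5) (nat_lit 313) (nat_lit 309) (nat_lit 239)) (XT.lf (nat_lit 84) (nat_lit 5296502304) (nat_lit 0) (nat_lit 3388455124) (nat_lit 924) (nat_lit 662567831) (nat_lit 119) (nat_lit 5) (nat_lit 118) (nat_lit 5) (nat_lit 129) (nat_lit 5) (nat_lit 314) (nat_lit 309) (nat_lit 238))) (XT.nd (nat_lit 94) (nat_lit 0) (nat_lit 84) (XT.lf (nat_lit 0) (nat_lit 125393450) (nat_lit 924) (nat_lit 613686058) (nat_lit 1008) (nat_lit 8736183476) (nat_lit 107) (nat_lit 5) (nat_lit 118) (nat_lit 5) (nat_lit 119) (nat_lit 5) (nat_lit 315) (nat_lit 309) (nat_lit 237)) (XT.lf (nat_lit 0) (nat_lit 946447232) (nat_lit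 924) (nat_lit 6660130608) (nat_lit 1008) (nat_lit 1999636218) (nat_lit 108) (nat_lit 5) (nat_lit 119) (nat_lit 5) (nat_lit 120) (nat_lit 5) (nat_lit 316) (nat_lit 309) (nat_lit 236))))) (XT.nd (nat_lit 376) (nat_lit 0) (nat_lit 84) (XT.nd (nat_lit 188) (nat_lit 0) (nat_lit 84) (XT.nd (nat_lit 94) (nat_lit 0) (nat_lit 0) (XT.lf (nat_lit 0) (nat_lit 1780499419) (nat_lit 924) (nat_lit 3136606644) (nat_lit 1008) (nat_lit 4824658705) (nat_lit 108) (nat_lit 5) (nat_lit 119) (nat_lit 5) (nat_lit 120) (nat_lit 5) (nat_lit 317) (nat_lit 309) (nat_lit 235)) (XT.lf (nat_lit 84) (nat_lit 489350522) (nat_lit 0) (nat_lit 2130223004) (nat_lit 1008) (nat_lit 7262739305) (nat_lit 109) (nat_lit 5) (nat_lit 108) (nat_lit 5) (nat_lit 120) (nat_lit 5) (nat_lit 318) (nat_lit 309) (nat_lit 234))) (XT.nd (nat_lit 94) (nat_lit 0) (nat_lit 0) (XT.lf (nat_lit 0) (nat_lit 3500110666) (nat_lit 924) (nat_lit 5757196594) (nat_lit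 1008) (nat_lit 769576563) (nat_lit 109) (nat_lit 5) (nat_lit 120) (nat_lit 5) (nat_lit 121) (nat_lit 5) (nat_lit 319) (nat_lit 309) (nat_lit 233)) (XT.lf (nat_lit 0) (nat_lit 4405489106) (nat_lit 924) (nat_lit 2047477675) (nat_lit 1008) (nat_lit 3723186437) (nat_lit 109) (nat_lit 5) (nat_lit 120) (nat_lit 5) (nat_lit 121) (nat_lit 5) (nat_lit 320) (nat_lit 309) (nat_lit 232)))) (XT.nd (nat_lit 188) (nat_lit 0) (nat_lit 84) (XT.nd (nat_lit 94) (nat_lit 0) (nat_lit 0) (XT.lf (nat_lit 84) (nat_lit 1796989707) (nat_lit 0) (nat_lit 3536257332) (nat_lit 1008) (nat_lit 4997115587) (nat_lit 110) (nat_lit 5) (nat_lit 109) (nat_lit 5) (nat_lit 121) (nat_lit 5) (nat_lit 321) (nat_lit 309) (nat_lit 231)) (XT.lf (nat_lit 84) (nat_lit 5787749494) (nat_lit 0) (nat_lit 500419233) (nat_lit 1008) (nat_lit 4201365556) (nat_lit 110) (nat_lit 5) (nat_lit 109) (nat_lit 5) (nat_lit 121) (nat_lit 5) (nat_lit 322) (nat_lit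 309) (nat_lit 230))) (XT.nd (nat_lit 94) (nat_lit 0) (nat_lit 0) (XT.lf (nat_lit 0) (nat_lit 7276564889) (nat_lit 924) (nat_lit 794187502) (nat_lit 1008) (nat_lit 2582896123) (nat_lit 110) (nat_lit 5) (nat_lit 121) (nat_lit 5) (nat_lit 122) (nat_lit 5) (nat_lit 323) (nat_lit 309) (nat_lit 229)) (XT.lf (nat_lit 84) (nat_lit 3279314941) (nat_lit 0) (nat_lit 5032390259) (nat_lit 1008) (nat_lit 2510770290) (nat_lit 111) (nat_lit 5) (nat_lit 110) (nat_lit 5) (nat_lit 122) (nat_lit 5) (nat_lit 324) (nat_lit 309) (nat_lit 228))))))))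
noncomputable def xc28 : XT := (XT.nd (nat_lit 54332) (nat_lit 0) (nat_lit 504) (XT.nd (nat_lit 52922) (nat_lit 0) (nat_lit 2100) (XT.nd (nat_lit 658) (nat_lit 1092) (nat_lit 0) (XT.nd (nat_lit 282) (nat_lit 1008) (nat_lit 0) (XT.nd (nat_lit 94) (nat_lit 924) (nat_lit 0) (XT.lf (nat_lit 84) (nat_lit 7479913023) (nat_lit 0) (nat_lit 1886254989) (nat_lit 1008) (nat_lit 1630884546) (nat_lit 111) (nat_lit 5) (nat_lit 110) (nat_lit 5) (nat_lit 122) (nat_lit 5) (nat_lit 325) (nat_lit 309) (nat_lit 227)) (XT.nd (nat_lit 94) (nat_lit 84) (nat_lit 0) (XT.lf (nat_lit 0) (nat_lit 616303309) (nat_lit 924) (nat_lit 9836220401) (nat_lit 1008) (nat_lit 724659519) (nat_lit 100) (nat_lit 5) (nat_lit 111) (nat_lit 5) (nat_lit 112) (nat_lit 5) (nat_lit 326) (nat_lit 309) (nat_lit 226)) (XT.lf (nat_lit 0) (nat_lit 241575740) (nat_lit 1008) (nat_lit 6447759896) (nat_lit 84) (nat_lit 4672487577) (nat_lit 99) (nat_lit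 5) (nat_lit 111) (nat_lit 5) (nat_lit 100) (nat_lit 5) (nat_lit 327) (nat_lit 309) (nat_lit 225)))) (XT.nd (nat_lit 188) (nat_lit 0) (nat_lit 0) (XT.nd (nat_lit 94) (nat_lit 1008) (nat_lit 0) (XT.lf (nat_lit 0) (nat_lit 1203082176) (nat_lit 1008) (nat_lit 2230739803) (nat_lit 84) (nat_lit 8118850616) (nat_lit 99) (nat_lit 5) (nat_lit 111) (nat_lit 5) (nat_lit 100) (nat_lit 5) (nat_lit 328) (nat_lit 309) (nat_lit 224)) (XT.lf (nat_lit 0) (nat_lit 2144506808) (nat_lit 1008) (nat_lit 52123251) (nat_lit 1092) (nat_lit 9552842570) (nat_lit 87) (nat_lit 5) (nat_lit 99) (nat_lit 5) (nat_lit 100) (nat_lit 5) (nat_lit 329) (nat_lit 309) (nat_lit 223))) (XT.nd (nat_lit 94) (nat_lit 0) (nat_lit 0) (XT.lf (nat_lit 0) (nat_lit 3259979834) (nat_lit 1092) (nat_lit 5299540278) (nat_lit 84) (nat_lit 3391744776) (nat_lit 87) (nat_lit 5) (nat_lit 100) (nat_lit 5) (nat_lit 88) (nat_lit 5) (nat_lit 330) (nat_lit 309)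 (nat_lit 222)) (XT.lf (nat_lit 0) (nat_lit 4338795183) (nat_lit 1092) (nat_lit 876948125) (nat_lit 84) (nat_lit 6944209306) (nat_lit 87) (nat_lit 5) (nat_lit 100) (nat_lit 5) (nat_lit 88) (nat_lit 5) (nat_lit 331) (nat_lit 309) (nat_lit 221))))) (XT.nd (nat_lit 282) (nat_lit 0) (nat_lit 0) (XT.nd (nat_lit 94) (nat_lit 504) (nat_lit 0) (XT.lf (nat_lit 0) (nat_lit 3742860319) (nat_lit 588) (nat_lit 1727833925) (nat_lit 672) (nat_lit 6903901095) (nat_lit 80) (nat_lit 5) (nat_lit 87) (nat_lit 5) (nat_lit 88) (nat_lit 5) (nat_lit 332) (nat_lit 309) (nat_lit 220)) (XT.nd (nat_lit 94) (nat_lit 504) (nat_lit 0) (XT.lf (nat_lit 0) (nat_lit 6648368177) (nat_lit 672) (nat_lit 4105542273) (nat_lit 84) (nat_lit 1841741962) (nat_lit 80) (nat_lit 5) (nat_lit 88) (nat_lit 5) (nat_lit 81) (nat_lit 5) (nat_lit 333) (nat_lit 309) (nat_lit 219)) (XT.lf (nat_lit 0) (nat_lit 538840408) (nat_lit 504) (nat_lit 7330146669)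 (nat_lit 588) (nat_lit 4954464559) (nat_lit 74) (nat_lit 5) (nat_lit 80) (nat_lit 5) (nat_lit 81) (nat_lit 5) (nat_lit 334) (nat_lit 309) (nat_lit 218)))) (XT.nd (nat_lit 51794) (nat_lit 0) (nat_lit 3612) (XT.nd (nat_lit 51700) (nat_lit 0) (nat_lit 3612) (XT.lf (nat_lit 0) (nat_lit 5399082463) (nat_lit 504) (nat_lit 3754984397) (nat_lit 588) (nat_lit 3903506763) (nat_lit 74) (nat_lit 5) (nat_lit 80) (nat_lit 5) (nat_lit 81) (nat_lit 5) (nat_lit 335) (nat_lit 309) (nat_lit 217)) (XT.lf (nat_lit 0) (nat_lit 2972756091) (nat_lit 924) (nat_lit 760645562) (nat_lit 924) (nat_lit 760645562) (nat_lit 117) (nat_lit 3) (nat_lit 128) (nat_lit 3) (nat_lit 128) (nat_lit 5) (nat_lit 310) (nat_lit 310) (nat_lit 241))) (XT.nd (nat_lit 94) (nat_lit 0) (nat_lit 0) (XT.lf (nat_lit 84) (nat_lit 1728312139) (nat_lit 0) (nat_lit 5051172406) (nat_lit 924) (nat_lit 2320475006) (nat_lit 118) (nat_lit 5) (nat_lit 117) (nat_lit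 3) (nat_lit 128) (nat_lit 5) (nat_lit 311) (nat_lit 310) (nat_lit 240)) (XT.lf (nat_lit 84) (nat_lit 5095449430) (nat_lit 0) (nat_lit 2530385427) (nat_lit 924) (nat_lit 1590054841) (nat_lit 118) (nat_lit 5) (nat_lit 117) (nat_lit 3) (nat_lit 128) (nat_lit 5) (nat_lit 312) (nat_lit 310) (nat_lit 239)))))) (XT.nd (nat_lit 658) (nat_lit 672) (nat_lit 0) (XT.nd (nat_lit 282) (nat_lit 0) (nat_lit 0) (XT.nd (nat_lit 94) (nat_lit 924) (nat_lit 0) (XT.lf (nat_lit 0) (nat_lit 8470764029) (nat_lit 840) (nat_lit 785305705) (nat_lit 924) (nat_lit 80375425) (nat_lit 118) (nat_lit 5) (nat_lit 128) (nat_lit 5) (nat_lit 129) (nat_lit 5) (nat_lit 313) (nat_lit 310) (nat_lit 238)) (XT.nd (nat_lit 94) (nat_lit 924) (nat_lit 0) (XT.lf (nat_lit 84) (nat_lit 2665345389) (nat_lit 0) (nat_lit 6701375139) (nat_lit 924) (nat_lit 93416285) (nat_lit 119) (nat_lit 5) (nat_lit 118) (nat_lit 5) (nat_lit 129) (nat_lit 5) (nat_lit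 314) (nat_lit 310) (nat_lit 237)) (XT.lf (nat_lit 0) (nat_lit 669661664) (nat_lit 924) (nat_lit 3371103419) (nat_lit 1008) (nat_lit 5547428540) (nat_lit 107) (nat_lit 5) (nat_lit 118) (nat_lit 5) (nat_lit 119) (nat_lit 5) (nat_lit 315) (nat_lit 310) (nat_lit 236)))) (XT.nd (nat_lit 188) (nat_lit 0) (nat_lit 84) (XT.nd (nat_lit 94) (nat_lit 0) (nat_lit 84) (XT.lf (nat_lit 84) (nat_lit 144918219) (nat_lit 0) (nat_lit 1284544948) (nat_lit 1008) (nat_lit 8291656211) (nat_lit 108) (nat_lit 5) (nat_lit 107) (nat_lit 5) (nat_lit 119) (nat_lit 5) (nat_lit 316) (nat_lit 310) (nat_lit 235)) (XT.lf (nat_lit 0) (nat_lit 2238124496) (nat_lit 924) (nat_lit 6048134923) (nat_lit 1008) (nat_lit 1571271363) (nat_lit 108) (nat_lit 5) (nat_lit 119) (nat_lit 5) (nat_lit 120) (nat_lit 5) (nat_lit 317) (nat_lit 310) (nat_lit 234))) (XT.nd (nat_lit 94) (nat_lit 0) (nat_lit 0) (XT.lf (nat_lit 0) (nat_lit 3060076472) (nat_lit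 924) (nat_lit 2439991078) (nat_lit 1008) (nat_lit 4498613447) (nat_lit 108) (nat_lit 5) (nat_lit 119) (nat_lit 5) (nat_lit 120) (nat_lit 5) (nat_lit 318) (nat_lit 310) (nat_lit 233)) (XT.lf (nat_lit 84) (nat_lit 1290333738) (nat_lit 0) (nat_lit 2605808928) (nat_lit 1008) (nat_lit 6248557143) (nat_lit 109) (nat_lit 5) (nat_lit 108) (nat_lit 5) (nat_lit 120) (nat_lit 5) (nat_lit 319) (nat_lit 310) (nat_lit 232))))) (XT.nd (nat_lit 376) (nat_lit 840) (nat_lit 0) (XT.nd (nat_lit 188) (nat_lit 0) (nat_lit 0) (XT.nd (nat_lit 94) (nat_lit 0) (nat_lit 0) (XT.lf (nat_lit 0) (nat_lit 4764093808) (nat_lit 924) (nat_lit 5126900681) (nat_lit 1008) (nat_lit 404202098) (nat_lit 109) (nat_lit 5) (nat_lit 120) (nat_lit 5) (nat_lit 121) (nat_lit 5) (nat_lit 320) (nat_lit 310) (nat_lit 231)) (XT.lf (nat_lit 0) (nat_lit 5662796137) (nat_lit 924) (nat_lit 1326498457) (nat_lit 1008) (nat_lit 3461077245) (nat_lit 109)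 (nat_lit 5) (nat_lit 120) (nat_lit 5) (nat_lit 121) (nat_lit 5) (nat_lit 321) (nat_lit 310) (nat_lit 230))) (XT.nd (nat_lit 94) (nat_lit 0) (nat_lit 0) (XT.lf (nat_lit 84) (nat_lit 2629205552) (nat_lit 0) (nat_lit 3964113882) (nat_lit 1008) (nat_lit 4017043574) (nat_lit 110) (nat_lit 5) (nat_lit 109) (nat_lit 5) (nat_lit 121) (nat_lit 5) (nat_lit 322) (nat_lit 310) (nat_lit 229)) (XT.lf (nat_lit 84) (nat_lit 6720330896) (nat_lit 0) (nat_lit 824596219) (nat_lit 1008) (nat_lit 3230751829) (nat_lit 110) (nat_lit 5) (nat_lit 109) (nat_lit 5) (nat_lit 121) (nat_lit 5) (nat_lit 323) (nat_lit 310) (nat_lit 228)))) (XT.nd (nat_lit 188) (nat_lit 924) (nat_lit 0) (XT.nd (nat_lit 94) (nat_lit 0) (nat_lit 0) (XT.lf (nat_lit 0) (nat_lit 8529066793) (nat_lit 924) (nat_lit 47464875) (nat_lit 1008) (nat_lit 2369614693) (nat_lit 110) (nat_lit 5) (nat_lit 121) (nat_lit 5) (nat_lit 122) (nat_lit 5) (nat_lit 324)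 (nat_lit 310) (nat_lit 227)) (XT.lf (nat_lit 84) (nat_lit 4144506994) (nat_lit 0) (nat_lit 5428486229) (nat_lit 1008) (nat_lit 1548114467) (nat_lit 111) (nat_lit 5) (nat_lit 110) (nat_lit 5) (nat_lit 122) (nat_lit 5) (nat_lit 325) (nat_lit 310) (nat_lit 226))) (XT.nd (nat_lit 94) (nat_lit 924) (nat_lit 0) (XT.lf (nat_lit 84) (nat_lit 8452365778) (nat_lit 0) (nat_lit 2177601708) (nat_lit 1008) (nat_lit 672237601) (nat_lit 111) (nat_lit 5) (nat_lit 110) (nat_lit 5) (nat_lit 122) (nat_lit 5) (nat_lit 326) (nat_lit 310) (nat_lit 225)) (XT.lf (nat_lit 0) (nat_lit 232527430) (nat_lit 1008) (nat_lit 10085014142) (nat_lit 84) (nat_lit 1171212803) (nat_lit 99) (nat_lit 5) (nat_lit 111) (nat_lit 5) (nat_lit 100) (nat_lit 5) (nat_lit 327) (nat_lit 310) (nat_lit 224))))))) (XT.nd (nat_lit 53110) (nat_lit 0) (nat_lit 588) (XT.nd (nat_lit 52452) (nat_lit 0) (nat_lit 2184) (XT.nd (nat_lit 282) (nat_lit 588) (nat_lit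 0) (XT.nd (nat_lit 94) (nat_lit 1008) (nat_lit 0) (XT.lf (nat_lit 0) (nat_lit 1184659653) (nat_lit 1008) (nat_lit 5875728237) (nat_lit 84) (nat_lit 4619557475) (nat_lit 99) (nat_lit 5) (nat_lit 111) (nat_lit 5) (nat_lit 100) (nat_lit 5) (nat_lit 328) (nat_lit 310) (nat_lit 223)) (XT.nd (nat_lit 94) (nat_lit 1008) (nat_lit 0) (XT.lf (nat_lit 0) (nat_lit 2147841414) (nat_lit 1008) (nat_lit 1551190297) (nat_lit 84) (nat_lit 8178704513) (nat_lit 99) (nat_lit 5) (nat_lit 111) (nat_lit 5) (nat_lit 100) (nat_lit 5) (nat_lit 329) (nat_lit 310) (nat_lit 222)) (XT.lf (nat_lit 0) (nat_lit 2952109019) (nat_lit 1008) (nat_lit 200146766) (nat_lit 1092) (nat_lit 8929147683) (nat_lit 87) (nat_lit 5) (nat_lit 99) (nat_lit 5) (nat_lit 100) (nat_lit 5) (nat_lit 330) (nat_lit 310) (nat_lit 221)))) (XT.nd (nat_lit 188) (nat_lit 588) (nat_lit 0) (XT.nd (nat_lit 94) (nat_lit 0) (nat_lit 0) (XT.lf (nat_lit 0) (nat_lit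 4220474526) (nat_lit 1092) (nat_lit 4712247272) (nat_lit 84) (nat_lit 3357744436) (nat_lit 87) (nat_lit 5) (nat_lit 100) (nat_lit 5) (nat_lit 88) (nat_lit 5) (nat_lit 331) (nat_lit 310) (nat_lit 220)) (XT.lf (nat_lit 0) (nat_lit 5306891740) (nat_lit 1092) (nat_lit 175153154) (nat_lit 84) (nat_lit 7024519147) (nat_lit 87) (nat_lit 5) (nat_lit 100) (nat_lit 5) (nat_lit 88) (nat_lit 5) (nat_lit 332) (nat_lit 310) (nat_lit 219))) (XT.nd (nat_lit 94) (nat_lit 0) (nat_lit 0) (XT.lf (nat_lit 0) (nat_lit 4580489081) (nat_lit 588) (nat_lit 1875484540) (nat_lit 672) (nat_lit 6272577634) (nat_lit 80) (nat_lit 5) (nat_lit 87) (nat_lit 5) (nat_lit 88) (nat_lit 5) (nat_lit 333) (nat_lit 310) (nat_lit 218)) (XT.lf (nat_lit 0) (nat_lit 7644724130) (nat_lit 672) (nat_lit 3503240859) (nat_lit 84) (nat_lit 1809415882) (nat_lit 80) (nat_lit 5) (nat_lit 88) (nat_lit 5) (nat_lit 81) (nat_lit 5) (nat_lit 334) (nat_lit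 310) (nat_lit 217))))) (XT.nd (nat_lit 282) (nat_lit 924) (nat_lit 0) (XT.nd (nat_lit 94) (nat_lit 0) (nat_lit 0) (XT.lf (nat_lit 0) (nat_lit 3782394549) (nat_lit 924) (nat_lit 412158160) (nat_lit 924) (nat_lit 412158160) (nat_lit 117) (nat_lit 3) (nat_lit 128) (nat_lit 3) (nat_lit 128) (nat_lit 5) (nat_lit 311) (nat_lit 311) (nat_lit 239)) (XT.nd (nat_lit 94) (nat_lit 0) (nat_lit 0) (XT.lf (nat_lit 84) (nat_lit 2518490946) (nat_lit 0) (nat_lit 5870284425) (nat_lit 924) (nat_lit 941355514) (nat_lit 118) (nat_lit 5) (nat_lit 117) (nat_lit 3) (nat_lit 128) (nat_lit 5) (nat_lit 312) (nat_lit 311) (nat_lit 238)) (XT.lf (nat_lit 84) (nat_lit 5967861449) (nat_lit 0) (nat_lit 3251432297) (nat_lit 924) (nat_lit 231922470) (nat_lit 118) (nat_lit 5) (nat_lit 117) (nat_lit 3) (nat_lit 128) (nat_lit 5) (nat_lit 313) (nat_lit 311) (nat_lit 237)))) (XT.nd (nat_lit 188) (nat_lit 0) (nat_lit 84) (XT.nd (nat_lit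 94) (nat_lit 0) (nat_lit 84) (XT.lf (nat_lit 0) (nat_lit 462219404) (nat_lit 924) (nat_lit 71668136) (nat_lit 1008) (nat_lit 9043016697) (nat_lit 106) (nat_lit 5) (nat_lit 117) (nat_lit 3) (nat_lit 118) (nat_lit 5) (nat_lit 314) (nat_lit 311) (nat_lit 236)) (XT.lf (nat_lit 0) (nat_lit 1204373199) (nat_lit 924) (nat_lit 6229765764) (nat_lit 1008) (nat_lit 2271459518) (nat_lit 107) (nat_lit 5) (nat_lit 118) (nat_lit 5) (nat_lit 119) (nat_lit 5) (nat_lit 315) (nat_lit 311) (nat_lit 235))) (XT.nd (nat_lit 94) (nat_lit 0) (nat_lit 0) (XT.lf (nat_lit 0) (nat_lit 1950115564) (nat_lit 924) (nat_lit 2724192721) (nat_lit 1008) (nat_lit 5164725362) (nat_lit 107) (nat_lit 5) (nat_lit 118) (nat_lit 5) (nat_lit 119) (nat_lit 5) (nat_lit 316) (nat_lit 311) (nat_lit 234)) (XT.lf (nat_lit 84) (nat_lit 893218187) (nat_lit 0) (nat_lit 1809755030) (nat_lit 1008) (nat_lit 7274273113) (nat_lit 108) (nat_lit 5) (nat_lit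 107) (nat_lit 5) (nat_lit 119) (nat_lit 5) (nat_lit 317) (nat_lit 311) (nat_lit 233)))))) (XT.nd (nat_lit 658) (nat_lit 1764) (nat_lit 0) (XT.nd (nat_lit 282) (nat_lit 0) (nat_lit 84) (XT.nd (nat_lit 94) (nat_lit 0) (nat_lit 0) (XT.lf (nat_lit 0) (nat_lit 3495073350) (nat_lit 924) (nat_lit 5465646144) (nat_lit 1008) (nat_lit 1158671679) (nat_lit 108) (nat_lit 5) (nat_lit 119) (nat_lit 5) (nat_lit 120) (nat_lit 5) (nat_lit 318) (nat_lit 311) (nat_lit 232)) (XT.nd (nat_lit 94) (nat_lit 0) (nat_lit 0) (XT.lf (nat_lit 0) (nat_lit 4306798197) (nat_lit 924) (nat_lit 1768801546) (nat_lit 1008) (nat_lit 4190631961) (nat_lit 108) (nat_lit 5) (nat_lit 119) (nat_lit 5) (nat_lit 120) (nat_lit 5) (nat_lit 319) (nat_lit 311) (nat_lit 231)) (XT.lf (nat_lit 84) (nat_lit 2069602363) (nat_lit 0) (nat_lit 3071879725) (nat_lit 1008) (nat_lit 5276342799) (nat_lit 109) (nat_lit 5) (nat_lit 108) (nat_lit 5) (nat_lit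 120) (nat_lit 5) (nat_lit 320) (nat_lit 311) (nat_lit 230)))) (XT.nd (nat_lit 188) (nat_lit 0) (nat_lit 0) (XT.nd (nat_lit 94) (nat_lit 0) (nat_lit 0) (XT.lf (nat_lit 0) (nat_lit 5998819387) (nat_lit 924) (nat_lit 4524970367) (nat_lit 1008) (nat_lit 50555863) (nat_lit 109) (nat_lit 5) (nat_lit 120) (nat_lit 5) (nat_lit 121) (nat_lit 5) (nat_lit 321) (nat_lit 311) (nat_lit 229)) (XT.lf (nat_lit 0) (nat_lit 6892696523) (nat_lit 924) (nat_lit 629633260) (nat_lit 1008) (nat_lit 3213204296) (nat_lit 109) (nat_lit 5) (nat_lit 120) (nat_lit 5) (nat_lit 121) (nat_lit 5) (nat_lit 322) (nat_lit 311) (nat_lit 228))) (XT.nd (nat_lit 94) (nat_lit 0) (nat_lit 0) (XT.lf (nat_lit 84) (nat_lit 3441226121) (nat_lit 0) (nat_lit 4386384525) (nat_lit 1008) (nat_lit 3073816290) (nat_lit 110) (nat_lit 5) (nat_lit 109) (nat_lit 5) (nat_lit 121) (nat_lit 5) (nat_lit 323) (nat_lit 311) (nat_lit 227)) (XT.lf (nat_lit 84)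 (nat_lit 7637211297) (nat_lit 0) (nat_lit 1140539994) (nat_lit 1008) (nat_lit 2295254666) (nat_lit 110) (nat_lit 5) (nat_lit 109) (nat_lit 5) (nat_lit 121) (nat_lit 5) (nat_lit 324) (nat_lit 311) (nat_lit 226))))) (XT.nd (nat_lit 376) (nat_lit 924) (nat_lit 0) (XT.nd (nat_lit 188) (nat_lit 1008) (nat_lit 0) (XT.nd (nat_lit 94) (nat_lit 0) (nat_lit 0) (XT.lf (nat_lit 84) (nat_lit 690632933) (nat_lit 0) (nat_lit 9075787759) (nat_lit 1008) (nat_lit 1483315463) (nat_lit 111) (nat_lit 5) (nat_lit 110) (nat_lit 5) (nat_lit 122) (nat_lit 5) (nat_lit 325) (nat_lit 311) (nat_lit 225)) (XT.lf (nat_lit 84) (nat_lit 4991294617) (nat_lit 0) (nat_lit 5822640121) (nat_lit 1008) (nat_lit 617246300) (nat_lit 111) (nat_lit 5) (nat_lit 110) (nat_lit 5) (nat_lit 122) (nat_lit 5) (nat_lit 326) (nat_lit 311) (nat_lit 224))) (XT.nd (nat_lit 94) (nat_lit 0) (nat_lit 84) (XT.lf (nat_lit 0) (nat_lit 251185605) (nat_lit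 1008) (nat_lit 2210379252) (nat_lit 1092) (nat_lit 9157291547) (nat_lit 98) (nat_lit 5) (nat_lit 110) (nat_lit 5) (nat_lit 111) (nat_lit 5) (nat_lit 327) (nat_lit 311) (nat_lit 223)) (XT.lf (nat_lit 0) (nat_lit 1147199471) (nat_lit 1008) (nat_lit 9648947140) (nat_lit 84) (nat_lit 1015689928) (nat_lit 99) (nat_lit 5) (nat_lit 111) (nat_lit 5) (nat_lit 100) (nat_lit 5) (nat_lit 328) (nat_lit 311) (nat_lit 222)))) (XT.nd (nat_lit 188) (nat_lit 1008) (nat_lit 0) (XT.nd (nat_lit 94) (nat_lit 0) (nat_lit 0) (XT.lf (nat_lit 0) (nat_lit 2101562270) (nat_lit 1008) (nat_lit 5331685279) (nat_lit 84) (nat_lit 4576701223) (nat_lit 99) (nat_lit 5) (nat_lit 111) (nat_lit 5) (nat_lit 100) (nat_lit 5) (nat_lit 329) (nat_lit 311) (nat_lit 221)) (XT.lf (nat_lit 0) (nat_lit 3068137560) (nat_lit 1008) (nat_lit 894921683) (nat_lit 84) (nat_lit 8251776328) (nat_lit 99) (nat_lit 5) (nat_lit 111) (nat_lit 5) (nat_lit 100)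 (nat_lit 5) (nat_lit 330) (nat_lit 311) (nat_lit 220))) (XT.nd (nat_lit 94) (nat_lit 0) (nat_lit 0) (XT.lf (nat_lit 0) (nat_lit 3740848944) (nat_lit 1008) (nat_lit 344087031) (nat_lit 1092) (nat_lit 8340601537) (nat_lit 87) (nat_lit 5) (nat_lit 99) (nat_lit 5) (nat_lit 100) (nat_lit 5) (nat_lit 331) (nat_lit 311) (nat_lit 219)) (XT.lf (nat_lit 0) (nat_lit 5159838728) (nat_lit 1092) (nat_lit 4151265480) (nat_lit 84) (nat_lit 3330931848) (nat_lit 87) (nat_lit 5) (nat_lit 100) (nat_lit 5) (nat_lit 88) (nat_lit 5) (nat_lit 332) (nat_lit 311) (nat_lit 218))))))))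
noncomputable def xc29 : XT := (XT.nd (nat_lit 106690) (nat_lit 0) (nat_lit 588) (XT.nd (nat_lit 53204) (nat_lit 0) (nat_lit 588) (XT.nd (nat_lit 52546) (nat_lit 0) (nat_lit 2268) (XT.nd (nat_lit 52170) (nat_lit 0) (nat_lit 2184) (XT.nd (nat_lit 94) (nat_lit 0) (nat_lit 0) (XT.lf (nat_lit 0) (nat_lit 515607038) (nat_lit 588) (nat_lit 5745131943) (nat_lit 672) (nat_lit 6604820390) (nat_lit 80) (nat_lit 5) (nat_lit 87) (nat_lit 5) (nat_lit 88) (nat_lit 5) (nat_lit 333) (nat_lit 311) (nat_lit 217)) (XT.nd (nat_lit 51982) (nat_lit 0) (nat_lit 3108) (XT.lf (nat_lit 0) (nat_lit 5401342725) (nat_lit 588) (nat_lit 2022139344) (nat_lit 672) (nat_lit 5671754342) (nat_lit 80) (nat_lit 5) (nat_lit 87) (nat_lit 5) (nat_lit 88) (nat_lit 5) (nat_lit 334) (nat_lit 311) (nat_lit 216)) (XT.lf (nat_lit 0) (nat_lit 4574634053) (nat_lit 924) (nat_lit 74905839) (nat_lit 924) (nat_lit 74905839) (nat_lit 117) (nat_lit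 3) (nat_lit 128) (nat_lit 3) (nat_lit 128) (nat_lit 5) (nat_lit 312) (nat_lit 312) (nat_lit 237)))) (XT.nd (nat_lit 188) (nat_lit 0) (nat_lit 0) (XT.nd (nat_lit 94) (nat_lit 0) (nat_lit 0) (XT.lf (nat_lit 0) (nat_lit 386618584) (nat_lit 924) (nat_lit 6284892297) (nat_lit 1008) (nat_lit 2898881061) (nat_lit 106) (nat_lit 5) (nat_lit 117) (nat_lit 3) (nat_lit 118) (nat_lit 5) (nat_lit 313) (nat_lit 312) (nat_lit 236)) (XT.lf (nat_lit 0) (nat_lit 1063088584) (nat_lit 924) (nat_lit 2882583981) (nat_lit 1008) (nat_lit 5750814910) (nat_lit 106) (nat_lit 5) (nat_lit 117) (nat_lit 3) (nat_lit 118) (nat_lit 5) (nat_lit 314) (nat_lit 312) (nat_lit 235))) (XT.nd (nat_lit 94) (nat_lit 0) (nat_lit 84) (XT.lf (nat_lit 84) (nat_lit 623822096) (nat_lit 0) (nat_lit 1117288000) (nat_lit 1008) (nat_lit 8086133302) (nat_lit 107) (nat_lit 5) (nat_lit 106) (nat_lit 5) (nat_lit 118) (nat_lit 5) (nat_lit 315) (nat_lit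 312) (nat_lit 234)) (XT.lf (nat_lit 0) (nat_lit 2463526797) (nat_lit 924) (nat_lit 5694067064) (nat_lit 1008) (nat_lit 1803879163) (nat_lit 107) (nat_lit 5) (nat_lit 118) (nat_lit 5) (nat_lit 119) (nat_lit 5) (nat_lit 316) (nat_lit 312) (nat_lit 233))))) (XT.nd (nat_lit 282) (nat_lit 0) (nat_lit 84) (XT.nd (nat_lit 94) (nat_lit 0) (nat_lit 0) (XT.lf (nat_lit 0) (nat_lit 3195649679) (nat_lit 924) (nat_lit 2101735382) (nat_lit 1008) (nat_lit 4803012644) (nat_lit 107) (nat_lit 5) (nat_lit 118) (nat_lit 5) (nat_lit 119) (nat_lit 5) (nat_lit 317) (nat_lit 312) (nat_lit 232)) (XT.nd (nat_lit 94) (nat_lit 0) (nat_lit 84) (XT.lf (nat_lit 84) (nat_lit 1620658462) (nat_lit 0) (nat_lit 2322496192) (nat_lit 1008) (nat_lit 6300837482) (nat_lit 108) (nat_lit 5) (nat_lit 107) (nat_lit 5) (nat_lit 119) (nat_lit 5) (nat_lit 318) (nat_lit 312) (nat_lit 231)) (XT.lf (nat_lit 0) (nat_lit 4720645991) (nat_lit 924)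 (nat_lit 4910707503) (nat_lit 1008) (nat_lit 760605532) (nat_lit 108) (nat_lit 5) (nat_lit 119) (nat_lit 5) (nat_lit 120) (nat_lit 5) (nat_lit 319) (nat_lit 312) (nat_lit 230)))) (XT.nd (nat_lit 188) (nat_lit 0) (nat_lit 0) (XT.nd (nat_lit 94) (nat_lit 0) (nat_lit 0) (XT.lf (nat_lit 0) (nat_lit 5523941693) (nat_lit 924) (nat_lit 1121041114) (nat_lit 1008) (nat_lit 3899605597) (nat_lit 108) (nat_lit 5) (nat_lit 119) (nat_lit 5) (nat_lit 120) (nat_lit 5) (nat_lit 320) (nat_lit 312) (nat_lit 229)) (XT.lf (nat_lit 84) (nat_lit 2829240190) (nat_lit 0) (nat_lit 3529577289) (nat_lit 1008) (nat_lit 4343049225) (nat_lit 109) (nat_lit 5) (nat_lit 108) (nat_lit 5) (nat_lit 120) (nat_lit 5) (nat_lit 321) (nat_lit 312) (nat_lit 228))) (XT.nd (nat_lit 94) (nat_lit 0) (nat_lit 84) (XT.lf (nat_lit 84) (nat_lit 6912018471) (nat_lit 0) (nat_lit 298375749) (nat_lit 1008) (nat_lit 3654031679) (nat_lit 109) (nat_lit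 5) (nat_lit 108) (nat_lit 5) (nat_lit 120) (nat_lit 5) (nat_lit 322) (nat_lit 312) (nat_lit 227)) (XT.lf (nat_lit 84) (nat_lit 46050356) (nat_lit 0) (nat_lit 8052679114) (nat_lit 1008) (nat_lit 2933090865) (nat_lit 110) (nat_lit 5) (nat_lit 109) (nat_lit 5) (nat_lit 121) (nat_lit 5) (nat_lit 323) (nat_lit 312) (nat_lit 226)))))) (XT.nd (nat_lit 658) (nat_lit 924) (nat_lit 0) (XT.nd (nat_lit 282) (nat_lit 924) (nat_lit 0) (XT.nd (nat_lit 94) (nat_lit 0) (nat_lit 0) (XT.lf (nat_lit 84) (nat_lit 4235149662) (nat_lit 0) (nat_lit 4804012584) (nat_lit 1008) (nat_lit 2164593954) (nat_lit 110) (nat_lit 5) (nat_lit 109) (nat_lit 5) (nat_lit 121) (nat_lit 5) (nat_lit 324) (nat_lit 312) (nat_lit 225)) (XT.nd (nat_lit 94) (nat_lit 0) (nat_lit 84) (XT.lf (nat_lit 84) (nat_lit 8540546351) (nat_lit 0) (nat_lit 1449078246) (nat_lit 1008) (nat_lit 1392100441) (nat_lit 110) (nat_lit 5) (nat_lit 109) (nat_lit 5)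 (nat_lit 121) (nat_lit 5) (nat_lit 325) (nat_lit 312) (nat_lit 224)) (XT.lf (nat_lit 84) (nat_lit 1408752453) (nat_lit 0) (nat_lit 9576216539) (nat_lit 1008) (nat_lit 579870778) (nat_lit 111) (nat_lit 5) (nat_lit 110) (nat_lit 5) (nat_lit 122) (nat_lit 5) (nat_lit 326) (nat_lit 312) (nat_lit 223)))) (XT.nd (nat_lit 188) (nat_lit 0) (nat_lit 84) (XT.nd (nat_lit 94) (nat_lit 0) (nat_lit 0) (XT.lf (nat_lit 0) (nat_lit 278767217) (nat_lit 1008) (nat_lit 5933957094) (nat_lit 1092) (nat_lit 5540109074) (nat_lit 98) (nat_lit 5) (nat_lit 110) (nat_lit 5) (nat_lit 111) (nat_lit 5) (nat_lit 327) (nat_lit 312) (nat_lit 222)) (XT.lf (nat_lit 0) (nat_lit 1134167796) (nat_lit 1008) (nat_lit 1600673240) (nat_lit 1092) (nat_lit 9212279482) (nat_lit 98) (nat_lit 5) (nat_lit 110) (nat_lit 5) (nat_lit 111) (nat_lit 5) (nat_lit 328) (nat_lit 312) (nat_lit 221))) (XT.nd (nat_lit 94) (nat_lit 0) (nat_lit 0) (XT.lf (nat_lit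 0) (nat_lit 2036475717) (nat_lit 1008) (nat_lit 9243708988) (nat_lit 84) (nat_lit 866708291) (nat_lit 99) (nat_lit 5) (nat_lit 111) (nat_lit 5) (nat_lit 100) (nat_lit 5) (nat_lit 329) (nat_lit 312) (nat_lit 220)) (XT.lf (nat_lit 0) (nat_lit 2994754408) (nat_lit 1008) (nat_lit 4813790498) (nat_lit 84) (nat_lit 4543537230) (nat_lit 99) (nat_lit 5) (nat_lit 111) (nat_lit 5) (nat_lit 100) (nat_lit 5) (nat_lit 330) (nat_lit 312) (nat_lit 219))))) (XT.nd (nat_lit 52452) (nat_lit 0) (nat_lit 1596) (XT.nd (nat_lit 188) (nat_lit 0) (nat_lit 0) (XT.nd (nat_lit 94) (nat_lit 1008) (nat_lit 0) (XT.lf (nat_lit 0) (nat_lit 3966396001) (nat_lit 1008) (nat_lit 260028926) (nat_lit 84) (nat_lit 8337802799) (nat_lit 99) (nat_lit 5) (nat_lit 111) (nat_lit 5) (nat_lit 100) (nat_lit 5) (nat_lit 331) (nat_lit 312) (nat_lit 218)) (XT.lf (nat_lit 0) (nat_lit 4512742004) (nat_lit 1008) (nat_lit 484331123) (nat_lit 1092)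 (nat_lit 7785066608) (nat_lit 87) (nat_lit 5) (nat_lit 99) (nat_lit 5) (nat_lit 100) (nat_lit 5) (nat_lit 332) (nat_lit 312) (nat_lit 217))) (XT.nd (nat_lit 52170) (nat_lit 0) (nat_lit 1596) (XT.lf (nat_lit 0) (nat_lit 6080432634) (nat_lit 1092) (nat_lit 3614773713) (nat_lit 84) (nat_lit 3311041659) (nat_lit 87) (nat_lit 5) (nat_lit 100) (nat_lit 5) (nat_lit 88) (nat_lit 5) (nat_lit 333) (nat_lit 312) (nat_lit 216)) (XT.lf (nat_lit 0) (nat_lit 249516506) (nat_lit 0) (nat_lit 249516506) (nat_lit 924) (nat_lit 4347970803) (nat_lit 106) (nat_lit 5) (nat_lit 106) (nat_lit 3) (nat_lit 117) (nat_lit 3) (nat_lit 313) (nat_lit 313) (nat_lit 235)))) (XT.nd (nat_lit 188) (nat_lit 0) (nat_lit 0) (XT.nd (nat_lit 94) (nat_lit 0) (nat_lit 0) (XT.lf (nat_lit 0) (nat_lit 1656977258) (nat_lit 924) (nat_lit 5794580638) (nat_lit 1008) (nat_lit 2369163165) (nat_lit 106) (nat_lit 5) (nat_lit 117) (nat_lit 3) (nat_lit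 118) (nat_lit 5) (nat_lit 314) (nat_lit 313) (nat_lit 234)) (XT.lf (nat_lit 0) (nat_lit 2316581186) (nat_lit 924) (nat_lit 2307401582) (nat_lit 1008) (nat_lit 5328136526) (nat_lit 106) (nat_lit 5) (nat_lit 117) (nat_lit 3) (nat_lit 118) (nat_lit 5) (nat_lit 315) (nat_lit 313) (nat_lit 233))) (XT.nd (nat_lit 94) (nat_lit 0) (nat_lit 84) (XT.lf (nat_lit 84) (nat_lit 1300975187) (nat_lit 0) (nat_lit 1684472805) (nat_lit 1008) (nat_lit 7102630195) (nat_lit 107) (nat_lit 5) (nat_lit 106) (nat_lit 5) (nat_lit 118) (nat_lit 5) (nat_lit 316) (nat_lit 313) (nat_lit 232)) (XT.lf (nat_lit 0) (nat_lit 3689343784) (nat_lit 924) (nat_lit 5184931045) (nat_lit 1008) (nat_lit 1353670219) (nat_lit 107) (nat_lit 5) (nat_lit 118) (nat_lit 5) (nat_lit 119) (nat_lit 5) (nat_lit 317) (nat_lit 313) (nat_lit 231))))))) (XT.nd (nat_lit 1316) (nat_lit 924) (nat_lit 0) (XT.nd (nat_lit 658) (nat_lit 756) (nat_lit 0) (XT.nd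 (nat_lit 282) (nat_lit 0) (nat_lit 84) (XT.nd (nat_lit 94) (nat_lit 0) (nat_lit 0) (XT.lf (nat_lit 0) (nat_lit 4409601003) (nat_lit 924) (nat_lit 1501853197) (nat_lit 1008) (nat_lit 4460995077) (nat_lit 107) (nat_lit 5) (nat_lit 118) (nat_lit 5) (nat_lit 119) (nat_lit 5) (nat_lit 318) (nat_lit 313) (nat_lit 230)) (XT.nd (nat_lit 94) (nat_lit 0) (nat_lit 84) (XT.lf (nat_lit 84) (nat_lit 2329201964) (nat_lit 0) (nat_lit 2824084835) (nat_lit 1008) (nat_lit 5368240502) (nat_lit 108) (nat_lit 5) (nat_lit 107) (nat_lit 5) (nat_lit 119) (nat_lit 5) (nat_lit 319) (nat_lit 313) (nat_lit 229)) (XT.lf (nat_lit 0) (nat_lit 5918036213) (nat_lit 924) (nat_lit 4381471657) (nat_lit 1008) (nat_lit 375905007) (nat_lit 108) (nat_lit 5) (nat_lit 119) (nat_lit 5) (nat_lit 120) (nat_lit 5) (nat_lit 320) (nat_lit 313) (nat_lit 228)))) (XT.nd (nat_lit 188) (nat_lit 0) (nat_lit 0) (XT.nd (nat_lit 94) (nat_lit 0) (nat_lit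 0) (XT.lf (nat_lit 0) (nat_lit 6714631215) (nat_lit 924) (nat_lit 494815912) (nat_lit 1008) (nat_lit 3624490174) (nat_lit 108) (nat_lit 5) (nat_lit 119) (nat_lit 5) (nat_lit 120) (nat_lit 5) (nat_lit 321) (nat_lit 313) (nat_lit 227)) (XT.lf (nat_lit 84) (nat_lit 3571232310) (nat_lit 0) (nat_lit 3979993800) (nat_lit 1008) (nat_lit 3445792458) (nat_lit 109) (nat_lit 5) (nat_lit 108) (nat_lit 5) (nat_lit 120) (nat_lit 5) (nat_lit 322) (nat_lit 313) (nat_lit 226))) (XT.nd (nat_lit 94) (nat_lit 0) (nat_lit 84) (XT.lf (nat_lit 84) (nat_lit 7760903723) (nat_lit 0) (nat_lit 638371872) (nat_lit 1008) (nat_lit 2766442168) (nat_lit 109) (nat_lit 5) (nat_lit 108) (nat_lit 5) (nat_lit 120) (nat_lit 5) (nat_lit 323) (nat_lit 313) (nat_lit 225)) (XT.lf (nat_lit 84) (nat_lit 714059421) (nat_lit 0) (nat_lit 8575493678) (nat_lit 1008) (nat_lit 2049709563) (nat_lit 110) (nat_lit 5) (nat_lit 109) (nat_lit 5) (nat_lit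 121) (nat_lit 5) (nat_lit 324) (nat_lit 313) (nat_lit 224))))) (XT.nd (nat_lit 282) (nat_lit 0) (nat_lit 0) (XT.nd (nat_lit 94) (nat_lit 924) (nat_lit 0) (XT.lf (nat_lit 84) (nat_lit 5012978103) (nat_lit 0) (nat_lit 5217904493) (nat_lit 1008) (nat_lit 1286684612) (nat_lit 110) (nat_lit 5) (nat_lit 109) (nat_lit 5) (nat_lit 121) (nat_lit 5) (nat_lit 325) (nat_lit 313) (nat_lit 223)) (XT.nd (nat_lit 94) (nat_lit 924) (nat_lit 0) (XT.lf (nat_lit 84) (nat_lit 9432402029) (nat_lit 0) (nat_lit 1751000174) (nat_lit 1008) (nat_lit 518658314) (nat_lit 110) (nat_lit 5) (nat_lit 109) (nat_lit 5) (nat_lit 121) (nat_lit 5) (nat_lit 326) (nat_lit 313) (nat_lit 222)) (XT.lf (nat_lit 0) (nat_lit 289393943) (nat_lit 1008) (nat_lit 9786767542) (nat_lit 1092) (nat_lit 1815451735) (nat_lit 98) (nat_lit 5) (nat_lit 110) (nat_lit 5) (nat_lit 111) (nat_lit 5) (nat_lit 327) (nat_lit 313) (nat_lit 221)))) (XT.nd (nat_lit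 188) (nat_lit 0) (nat_lit 84) (XT.nd (nat_lit 94) (nat_lit 0) (nat_lit 0) (XT.lf (nat_lit 0) (nat_lit 1136289152) (nat_lit 1008) (nat_lit 5460074877) (nat_lit 1092) (nat_lit 5489846535) (nat_lit 98) (nat_lit 5) (nat_lit 110) (nat_lit 5) (nat_lit 111) (nat_lit 5) (nat_lit 328) (nat_lit 313) (nat_lit 220)) (XT.lf (nat_lit 0) (nat_lit 1992683110) (nat_lit 1008) (nat_lit 1012238934) (nat_lit 1092) (nat_lit 9282529477) (nat_lit 98) (nat_lit 5) (nat_lit 110) (nat_lit 5) (nat_lit 111) (nat_lit 5) (nat_lit 329) (nat_lit 313) (nat_lit 219))) (XT.nd (nat_lit 94) (nat_lit 0) (nat_lit 0) (XT.lf (nat_lit 0) (nat_lit 2902752641) (nat_lit 1008) (nat_lit 8867628637) (nat_lit 84) (nat_lit 723797653) (nat_lit 99) (nat_lit 5) (nat_lit 111) (nat_lit 5) (nat_lit 100) (nat_lit 5) (nat_lit 330) (nat_lit 313) (nat_lit 218)) (XT.lf (nat_lit 0) (nat_lit 3866589056) (nat_lit 1008) (nat_lit 4320306723) (nat_lit 84) (nat_lit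 4519713174) (nat_lit 99) (nat_lit 5) (nat_lit 111) (nat_lit 5) (nat_lit 100) (nat_lit 5) (nat_lit 331) (nat_lit 313) (nat_lit 217)))))) (XT.nd (nat_lit 52828) (nat_lit 0) (nat_lit 1680) (XT.nd (nat_lit 52452) (nat_lit 0) (nat_lit 1596) (XT.nd (nat_lit 94) (nat_lit 0) (nat_lit 0) (XT.lf (nat_lit 0) (nat_lit 362602106) (nat_lit 1008) (nat_lit 4485923682) (nat_lit 1092) (nat_lit 8077547320) (nat_lit 87) (nat_lit 5) (nat_lit 99) (nat_lit 5) (nat_lit 100) (nat_lit 5) (nat_lit 332) (nat_lit 313) (nat_lit 216)) (XT.nd (nat_lit 52264) (nat_lit 0) (nat_lit 1596) (XT.lf (nat_lit 0) (nat_lit 5269712084) (nat_lit 1008) (nat_lit 621247690) (nat_lit 1092) (nat_lit 7260530251) (nat_lit 87) (nat_lit 5) (nat_lit 99) (nat_lit 5) (nat_lit 100) (nat_lit 5) (nat_lit 333) (nat_lit 313) (nat_lit 215)) (XT.lf (nat_lit 0) (nat_lit 563906760) (nat_lit 0) (nat_lit 563906760) (nat_lit 924) (nat_lit 3846873461) (nat_lit 106)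 (nat_lit 5) (nat_lit 106) (nat_lit 3) (nat_lit 117) (nat_lit 3) (nat_lit 314) (nat_lit 314) (nat_lit 233)))) (XT.nd (nat_lit 188) (nat_lit 0) (nat_lit 0) (XT.nd (nat_lit 94) (nat_lit 0) (nat_lit 0) (XT.lf (nat_lit 0) (nat_lit 2892181434) (nat_lit 924) (nat_lit 5329651530) (nat_lit 1008) (nat_lit 1859722988) (nat_lit 106) (nat_lit 5) (nat_lit 117) (nat_lit 3) (nat_lit 118) (nat_lit 5) (nat_lit 315) (nat_lit 314) (nat_lit 232)) (XT.lf (nat_lit 0) (nat_lit 3536637570) (nat_lit 924) (nat_lit 1753750519) (nat_lit 1008) (nat_lit 4927950626) (nat_lit 106) (nat_lit 5) (nat_lit 117) (nat_lit 3) (nat_lit 118) (nat_lit 5) (nat_lit 316) (nat_lit 314) (nat_lit 231))) (XT.nd (nat_lit 94) (nat_lit 0) (nat_lit 84) (XT.lf (nat_lit 84) (nat_lit 1960156539) (nat_lit 0) (nat_lit 2237696558) (nat_lit 1008) (nat_lit 6161740686) (nat_lit 107) (nat_lit 5) (nat_lit 106) (nat_lit 5) (nat_lit 118) (nat_lit 5) (nat_lit 317)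 (nat_lit 314) (nat_lit 230)) (XT.lf (nat_lit 0) (nat_lit 4885077344) (nat_lit 924) (nat_lit 4700624157) (nat_lit 1008) (nat_lit 919483696) (nat_lit 107) (nat_lit 5) (nat_lit 118) (nat_lit 5) (nat_lit 119) (nat_lit 5) (nat_lit 318) (nat_lit 314) (nat_lit 229))))) (XT.nd (nat_lit 376) (nat_lit 0) (nat_lit 84) (XT.nd (nat_lit 188) (nat_lit 0) (nat_lit 84) (XT.nd (nat_lit 94) (nat_lit 0) (nat_lit 0) (XT.lf (nat_lit 0) (nat_lit 5595148200) (nat_lit 924) (nat_lit 922765884) (nat_lit 1008) (nat_lit 4137452462) (nat_lit 107) (nat_lit 5) (nat_lit 118) (nat_lit 5) (nat_lit 119) (nat_lit 5) (nat_lit 319) (nat_lit 314) (nat_lit 228)) (XT.lf (nat_lit 84) (nat_lit 3020717896) (nat_lit 0) (nat_lit 3315777300) (nat_lit 1008) (nat_lit 4473541822) (nat_lit 108) (nat_lit 5) (nat_lit 107) (nat_lit 5) (nat_lit 119) (nat_lit 5) (nat_lit 320) (nat_lit 314) (nat_lit 227))) (XT.nd (nat_lit 94) (nat_lit 0) (nat_lit 0) (XT.lf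 (nat_lit 0) (nat_lit 7090290030) (nat_lit 924) (nat_lit 3876194003) (nat_lit 1008) (nat_lit 3461848) (nat_lit 108) (nat_lit 5) (nat_lit 119) (nat_lit 5) (nat_lit 120) (nat_lit 5) (nat_lit 321) (nat_lit 314) (nat_lit 226)) (XT.lf (nat_lit 84) (nat_lit 113967637) (nat_lit 0) (nat_lit 7769011437) (nat_lit 1008) (nat_lit 3251465056) (nat_lit 109) (nat_lit 5) (nat_lit 108) (nat_lit 5) (nat_lit 120) (nat_lit 5) (nat_lit 322) (nat_lit 314) (nat_lit 225)))) (XT.nd (nat_lit 188) (nat_lit 0) (nat_lit 84) (XT.nd (nat_lit 94) (nat_lit 0) (nat_lit 0) (XT.lf (nat_lit 84) (nat_lit 4297471724) (nat_lit 0) (nat_lit 4424175231) (nat_lit 1008) (nat_lit 2581841420) (nat_lit 109) (nat_lit 5) (nat_lit 108) (nat_lit 5) (nat_lit 120) (nat_lit 5) (nat_lit 323) (nat_lit 314) (nat_lit 224)) (XT.lf (nat_lit 84) (nat_lit 8598515224) (nat_lit 0) (nat_lit 969317194) (nat_lit 1008) (nat_lit 1910620299) (nat_lit 109) (nat_lit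 5) (nat_lit 108) (nat_lit 5) (nat_lit 120) (nat_lit 5) (nat_lit 324) (nat_lit 314) (nat_lit 223))) (XT.nd (nat_lit 94) (nat_lit 0) (nat_lit 0) (XT.lf (nat_lit 84) (nat_lit 1363294004) (nat_lit 0) (nat_lit 9098334485) (nat_lit 1008) (nat_lit 1196653318) (nat_lit 110) (nat_lit 5) (nat_lit 109) (nat_lit 5) (nat_lit 121) (nat_lit 5) (nat_lit 325) (nat_lit 314) (nat_lit 222)) (XT.lf (nat_lit 84) (nat_lit 5776623626) (nat_lit 0) (nat_lit 5628932571) (nat_lit 1008) (nat_lit 437534744) (nat_lit 110) (nat_lit 5) (nat_lit 109) (nat_lit 5) (nat_lit 121) (nat_lit 5) (nat_lit 326) (nat_lit 314) (nat_lit 221))))))))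
noncomputable def xc30 : XT := (XT.nd (nat_lit 107442) (nat_lit 0) (nat_lit 756) (XT.nd (nat_lit 53580) (nat_lit 0) (nat_lit 840) (XT.nd (nat_lit 52922) (nat_lit 0) (nat_lit 1596) (XT.nd (nat_lit 282) (nat_lit 840) (nat_lit 0) (XT.nd (nat_lit 94) (nat_lit 0) (nat_lit 84) (XT.lf (nat_lit 0) (nat_lit 320969111) (nat_lit 1008) (nat_lit 1722739732) (nat_lit 1092) (nat_lit 9990441730) (nat_lit 97) (nat_lit 5) (nat_lit 109) (nat_lit 5) (nat_lit 110) (nat_lit 5) (nat_lit 327) (nat_lit 314) (nat_lit 220)) (XT.nd (nat_lit 94) (nat_lit 0) (nat_lit 0) (XT.lf (nat_lit 0) (nat_lit 1121721268) (nat_lit 1008) (nat_lit 9452102159) (nat_lit 1092) (nat_lit 1656400070) (nat_lit 98) (nat_lit 5) (nat_lit 110) (nat_lit 5) (nat_lit 111) (nat_lit 5) (nat_lit 328) (nat_lit 314) (nat_lit 219)) (XT.lf (nat_lit 0) (nat_lit 1970113643) (nat_lit 1008) (nat_lit 5010466997) (nat_lit 1092) (nat_lit 5451175649) (nat_lit 98) (nat_lit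 5) (nat_lit 110) (nat_lit 5) (nat_lit 111) (nat_lit 5) (nat_lit 329) (nat_lit 314) (nat_lit 218)))) (XT.nd (nat_lit 188) (nat_lit 924) (nat_lit 0) (XT.nd (nat_lit 94) (nat_lit 0) (nat_lit 84) (XT.lf (nat_lit 0) (nat_lit 2829043607) (nat_lit 1008) (nat_lit 443356265) (nat_lit 1092) (nat_lit 9367711626) (nat_lit 98) (nat_lit 5) (nat_lit 110) (nat_lit 5) (nat_lit 111) (nat_lit 5) (nat_lit 330) (nat_lit 314) (nat_lit 217)) (XT.lf (nat_lit 0) (nat_lit 3748312426) (nat_lit 1008) (nat_lit 8519138820) (nat_lit 84) (nat_lit 586513062) (nat_lit 99) (nat_lit 5) (nat_lit 111) (nat_lit 5) (nat_lit 100) (nat_lit 5) (nat_lit 331) (nat_lit 314) (nat_lit 216))) (XT.nd (nat_lit 94) (nat_lit 1008) (nat_lit 0) (XT.lf (nat_lit 0) (nat_lit 4719309236) (nat_lit 1008) (nat_lit 3849593841) (nat_lit 84) (nat_lit 4504904478) (nat_lit 99) (nat_lit 5) (nat_lit 111) (nat_lit 5) (nat_lit 100) (nat_lit 5) (nat_lit 332) (nat_lit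 314) (nat_lit 215)) (XT.lf (nat_lit 0) (nat_lit 972363700) (nat_lit 1008) (nat_lit 4743224273) (nat_lit 1092) (nat_lit 7585106067) (nat_lit 87) (nat_lit 5) (nat_lit 99) (nat_lit 5) (nat_lit 100) (nat_lit 5) (nat_lit 333) (nat_lit 314) (nat_lit 214))))) (XT.nd (nat_lit 282) (nat_lit 0) (nat_lit 0) (XT.nd (nat_lit 94) (nat_lit 0) (nat_lit 0) (XT.lf (nat_lit 0) (nat_lit 869879397) (nat_lit 0) (nat_lit 869879397) (nat_lit 924) (nat_lit 3367906626) (nat_lit 106) (nat_lit 5) (nat_lit 106) (nat_lit 3) (nat_lit 117) (nat_lit 3) (nat_lit 315) (nat_lit 315) (nat_lit 231)) (XT.nd (nat_lit 94) (nat_lit 0) (nat_lit 0) (XT.lf (nat_lit 0) (nat_lit 4095556195) (nat_lit 924) (nat_lit 4888488078) (nat_lit 1008) (nat_lit 1369015397) (nat_lit 106) (nat_lit 5) (nat_lit 117) (nat_lit 3) (nat_lit 118) (nat_lit 5) (nat_lit 316) (nat_lit 315) (nat_lit 230)) (XT.lf (nat_lit 0) (nat_lit 4726503341) (nat_lit 924) (nat_lit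 1219966785) (nat_lit 1008) (nat_lit 4548846093) (nat_lit 106) (nat_lit 5) (nat_lit 117) (nat_lit 3) (nat_lit 118) (nat_lit 5) (nat_lit 317) (nat_lit 315) (nat_lit 229)))) (XT.nd (nat_lit 188) (nat_lit 0) (nat_lit 84) (XT.nd (nat_lit 94) (nat_lit 0) (nat_lit 84) (XT.lf (nat_lit 84) (nat_lit 2603116901) (nat_lit 0) (nat_lit 2778394857) (nat_lit 1008) (nat_lit 5260455829) (nat_lit 107) (nat_lit 5) (nat_lit 106) (nat_lit 5) (nat_lit 118) (nat_lit 5) (nat_lit 318) (nat_lit 315) (nat_lit 228)) (XT.lf (nat_lit 0) (nat_lit 6053827609) (nat_lit 924) (nat_lit 4239510565) (nat_lit 1008) (nat_lit 500040588) (nat_lit 107) (nat_lit 5) (nat_lit 118) (nat_lit 5) (nat_lit 119) (nat_lit 5) (nat_lit 319) (nat_lit 315) (nat_lit 227))) (XT.nd (nat_lit 94) (nat_lit 0) (nat_lit 0) (XT.lf (nat_lit 0) (nat_lit 6755322205) (nat_lit 924) (nat_lit 362784874) (nat_lit 1008) (nat_lit 3831235212) (nat_lit 107) (nat_lit 5) (nat_lit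 118) (nat_lit 5) (nat_lit 119) (nat_lit 5) (nat_lit 320) (nat_lit 315) (nat_lit 226)) (XT.lf (nat_lit 84) (nat_lit 3696987990) (nat_lit 0) (nat_lit 3798773981) (nat_lit 1008) (nat_lit 3613959091) (nat_lit 108) (nat_lit 5) (nat_lit 107) (nat_lit 5) (nat_lit 119) (nat_lit 5) (nat_lit 321) (nat_lit 315) (nat_lit 225)))))) (XT.nd (nat_lit 658) (nat_lit 0) (nat_lit 84) (XT.nd (nat_lit 282) (nat_lit 840) (nat_lit 0) (XT.nd (nat_lit 94) (nat_lit 0) (nat_lit 84) (XT.lf (nat_lit 84) (nat_lit 7878804888) (nat_lit 0) (nat_lit 365132987) (nat_lit 1008) (nat_lit 3031715563) (nat_lit 108) (nat_lit 5) (nat_lit 107) (nat_lit 5) (nat_lit 119) (nat_lit 5) (nat_lit 322) (nat_lit 315) (nat_lit 224)) (XT.nd (nat_lit 94) (nat_lit 0) (nat_lit 0) (XT.lf (nat_lit 84) (nat_lit 714524118) (nat_lit 0) (nat_lit 8321006586) (nat_lit 1008) (nat_lit 2410678897) (nat_lit 109) (nat_lit 5) (nat_lit 108) (nat_lit 5) (nat_lit 120)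 (nat_lit 5) (nat_lit 323) (nat_lit 315) (nat_lit 223)) (XT.lf (nat_lit 84) (nat_lit 5009765593) (nat_lit 0) (nat_lit 4863124658) (nat_lit 1008) (nat_lit 1748608304) (nat_lit 109) (nat_lit 5) (nat_lit 108) (nat_lit 5) (nat_lit 120) (nat_lit 5) (nat_lit 324) (nat_lit 315) (nat_lit 222)))) (XT.nd (nat_lit 188) (nat_lit 924) (nat_lit 0) (XT.nd (nat_lit 94) (nat_lit 0) (nat_lit 84) (XT.lf (nat_lit 84) (nat_lit 9426729957) (nat_lit 0) (nat_lit 1292091531) (nat_lit 1008) (nat_lit 1084039441) (nat_lit 109) (nat_lit 5) (nat_lit 108) (nat_lit 5) (nat_lit 120) (nat_lit 5) (nat_lit 325) (nat_lit 315) (nat_lit 221)) (XT.lf (nat_lit 84) (nat_lit 1995510727) (nat_lit 0) (nat_lit 9622160777) (nat_lit 1008) (nat_lit 371443954) (nat_lit 110) (nat_lit 5) (nat_lit 109) (nat_lit 5) (nat_lit 121) (nat_lit 5) (nat_lit 326) (nat_lit 315) (nat_lit 220))) (XT.nd (nat_lit 94) (nat_lit 0) (nat_lit 0) (XT.lf (nat_lit 0) (nat_lit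 377517055) (nat_lit 1008) (nat_lit 5656480091) (nat_lit 1092) (nat_lit 6146457314) (nat_lit 97) (nat_lit 5) (nat_lit 109) (nat_lit 5) (nat_lit 110) (nat_lit 5) (nat_lit 327) (nat_lit 315) (nat_lit 219)) (XT.lf (nat_lit 0) (nat_lit 1125804460) (nat_lit 1008) (nat_lit 1200419388) (nat_lit 1092) (nat_lit 10051973731) (nat_lit 97) (nat_lit 5) (nat_lit 109) (nat_lit 5) (nat_lit 110) (nat_lit 5) (nat_lit 328) (nat_lit 315) (nat_lit 218))))) (XT.nd (nat_lit 52828) (nat_lit 0) (nat_lit 672) (XT.nd (nat_lit 188) (nat_lit 0) (nat_lit 0) (XT.nd (nat_lit 94) (nat_lit 0) (nat_lit 0) (XT.lf (nat_lit 0) (nat_lit 1931081948) (nat_lit 1008) (nat_lit 9144855250) (nat_lit 1092) (nat_lit 1505172207) (nat_lit 98) (nat_lit 5) (nat_lit 110) (nat_lit 5) (nat_lit 111) (nat_lit 5) (nat_lit 329) (nat_lit 315) (nat_lit 217)) (XT.lf (nat_lit 0) (nat_lit 2782484276) (nat_lit 1008) (nat_lit 4583578015) (nat_lit 1092) (nat_lit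 5423676871) (nat_lit 98) (nat_lit 5) (nat_lit 110) (nat_lit 5) (nat_lit 111) (nat_lit 5) (nat_lit 330) (nat_lit 315) (nat_lit 216))) (XT.nd (nat_lit 94) (nat_lit 0) (nat_lit 84) (XT.lf (nat_lit 84) (nat_lit 109819841) (nat_lit 0) (nat_lit 3536720730) (nat_lit 1092) (nat_lit 9358802946) (nat_lit 99) (nat_lit 5) (nat_lit 98) (nat_lit 5) (nat_lit 111) (nat_lit 5) (nat_lit 331) (nat_lit 315) (nat_lit 215)) (XT.lf (nat_lit 0) (nat_lit 4575330596) (nat_lit 1008) (nat_lit 8196770057) (nat_lit 84) (nat_lit 454433275) (nat_lit 99) (nat_lit 5) (nat_lit 111) (nat_lit 5) (nat_lit 100) (nat_lit 5) (nat_lit 332) (nat_lit 315) (nat_lit 214)))) (XT.nd (nat_lit 188) (nat_lit 0) (nat_lit 0) (XT.nd (nat_lit 94) (nat_lit 0) (nat_lit 0) (XT.lf (nat_lit 0) (nat_lit 1168249339) (nat_lit 0) (nat_lit 1168249339) (nat_lit 924) (nat_lit 2909525409) (nat_lit 106) (nat_lit 5) (nat_lit 106) (nat_lit 3) (nat_lit 117) (nat_lit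 3) (nat_lit 316) (nat_lit 316) (nat_lit 229)) (XT.lf (nat_lit 0) (nat_lit 5270268201) (nat_lit 924) (nat_lit 4469565641) (nat_lit 1008) (nat_lit 895576113) (nat_lit 106) (nat_lit 5) (nat_lit 117) (nat_lit 3) (nat_lit 118) (nat_lit 5) (nat_lit 317) (nat_lit 316) (nat_lit 228))) (XT.nd (nat_lit 94) (nat_lit 0) (nat_lit 0) (XT.lf (nat_lit 0) (nat_lit 5889271079) (nat_lit 924) (nat_lit 704472887) (nat_lit 1008) (nat_lit 4189492949) (nat_lit 106) (nat_lit 5) (nat_lit 117) (nat_lit 3) (nat_lit 118) (nat_lit 5) (nat_lit 318) (nat_lit 316) (nat_lit 227)) (XT.lf (nat_lit 84) (nat_lit 3231524598) (nat_lit 0) (nat_lit 3307937137) (nat_lit 1008) (nat_lit 4395929869) (nat_lit 107) (nat_lit 5) (nat_lit 106) (nat_lit 5) (nat_lit 118) (nat_lit 5) (nat_lit 319) (nat_lit 316) (nat_lit 226))))))) (XT.nd (nat_lit 53862) (nat_lit 84) (nat_lit 0) (XT.nd (nat_lit 658) (nat_lit 840) (nat_lit 0) (XT.nd (nat_lit 282) (nat_lit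 0) (nat_lit 0) (XT.nd (nat_lit 94) (nat_lit 0) (nat_lit 0) (XT.lf (nat_lit 0) (nat_lit 7198551949) (nat_lit 924) (nat_lit 3800046205) (nat_lit 1008) (nat_lit 94127417) (nat_lit 107) (nat_lit 5) (nat_lit 118) (nat_lit 5) (nat_lit 119) (nat_lit 5) (nat_lit 320) (nat_lit 316) (nat_lit 225)) (XT.nd (nat_lit 94) (nat_lit 0) (nat_lit 0) (XT.lf (nat_lit 84) (nat_lit 183387392) (nat_lit 0) (nat_lit 7711448061) (nat_lit 1008) (nat_lit 3359691954) (nat_lit 108) (nat_lit 5) (nat_lit 107) (nat_lit 5) (nat_lit 119) (nat_lit 5) (nat_lit 321) (nat_lit 316) (nat_lit 224)) (XT.lf (nat_lit 84) (nat_lit 4359712413) (nat_lit 0) (nat_lit 4274223213) (nat_lit 1008) (nat_lit 2786858094) (nat_lit 108) (nat_lit 5) (nat_lit 107) (nat_lit 5) (nat_lit 119) (nat_lit 5) (nat_lit 322) (nat_lit 316) (nat_lit 223)))) (XT.nd (nat_lit 188) (nat_lit 0) (nat_lit 84) (XT.nd (nat_lit 94) (nat_lit 0) (nat_lit 84) (XT.lf (nat_lit 84)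 (nat_lit 8654684886) (nat_lit 0) (nat_lit 723384446) (nat_lit 1008) (nat_lit 2214802791) (nat_lit 108) (nat_lit 5) (nat_lit 107) (nat_lit 5) (nat_lit 119) (nat_lit 5) (nat_lit 323) (nat_lit 316) (nat_lit 222)) (XT.lf (nat_lit 84) (nat_lit 1298335127) (nat_lit 0) (nat_lit 8871683294) (nat_lit 1008) (nat_lit 1599599856) (nat_lit 109) (nat_lit 5) (nat_lit 108) (nat_lit 5) (nat_lit 120) (nat_lit 5) (nat_lit 324) (nat_lit 316) (nat_lit 221))) (XT.nd (nat_lit 94) (nat_lit 0) (nat_lit 0) (XT.lf (nat_lit 84) (nat_lit 5709841131) (nat_lit 0) (nat_lit 5297805387) (nat_lit 1008) (nat_lit 943639519) (nat_lit 109) (nat_lit 5) (nat_lit 108) (nat_lit 5) (nat_lit 120) (nat_lit 5) (nat_lit 325) (nat_lit 316) (nat_lit 220)) (XT.lf (nat_lit 84) (nat_lit 10247351219) (nat_lit 0) (nat_lit 1607533240) (nat_lit 1008) (nat_lit 284302625) (nat_lit 109) (nat_lit 5) (nat_lit 108) (nat_lit 5) (nat_lit 120) (nat_lit 5) (nat_lit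 326) (nat_lit 316) (nat_lit 219))))) (XT.nd (nat_lit 282) (nat_lit 0) (nat_lit 84) (XT.nd (nat_lit 94) (nat_lit 0) (nat_lit 0) (XT.lf (nat_lit 0) (nat_lit 419642353) (nat_lit 1008) (nat_lit 9723882205) (nat_lit 1092) (nat_lit 2188359587) (nat_lit 97) (nat_lit 5) (nat_lit 109) (nat_lit 5) (nat_lit 110) (nat_lit 5) (nat_lit 327) (nat_lit 316) (nat_lit 218)) (XT.nd (nat_lit 94) (nat_lit 0) (nat_lit 0) (XT.lf (nat_lit 0) (nat_lit 1160204862) (nat_lit 1008) (nat_lit 5273416545) (nat_lit 1092) (nat_lit 6096287799) (nat_lit 97) (nat_lit 5) (nat_lit 109) (nat_lit 5) (nat_lit 110) (nat_lit 5) (nat_lit 328) (nat_lit 316) (nat_lit 217)) (XT.lf (nat_lit 0) (nat_lit 1908507287) (nat_lit 1008) (nat_lit 696008306) (nat_lit 1092) (nat_lit 10130112859) (nat_lit 97) (nat_lit 5) (nat_lit 109) (nat_lit 5) (nat_lit 110) (nat_lit 5) (nat_lit 329) (nat_lit 316) (nat_lit 216)))) (XT.nd (nat_lit 188) (nat_lit 0) (nat_lit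 0) (XT.nd (nat_lit 94) (nat_lit 0) (nat_lit 0) (XT.lf (nat_lit 0) (nat_lit 2719652675) (nat_lit 1008) (nat_lit 8863638237) (nat_lit 1092) (nat_lit 1361255220) (nat_lit 98) (nat_lit 5) (nat_lit 110) (nat_lit 5) (nat_lit 111) (nat_lit 5) (nat_lit 330) (nat_lit 316) (nat_lit 215)) (XT.lf (nat_lit 0) (nat_lit 3575537784) (nat_lit 1008) (nat_lit 4177940975) (nat_lit 1092) (nat_lit 5406963788) (nat_lit 98) (nat_lit 5) (nat_lit 110) (nat_lit 5) (nat_lit 111) (nat_lit 5) (nat_lit 331) (nat_lit 316) (nat_lit 214))) (XT.nd (nat_lit 52640) (nat_lit 0) (nat_lit 672) (XT.lf (nat_lit 84) (nat_lit 655406961) (nat_lit 0) (nat_lit 3795099500) (nat_lit 1092) (nat_lit 8932832547) (nat_lit 99) (nat_lit 5) (nat_lit 98) (nat_lit 5) (nat_lit 111) (nat_lit 5) (nat_lit 332) (nat_lit 316) (nat_lit 213)) (XT.lf (nat_lit 0) (nat_lit 1459793045) (nat_lit 0) (nat_lit 1459793045) (nat_lit 924) (nat_lit 2470269172) (nat_lit 106)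 (nat_lit 5) (nat_lit 106) (nat_lit 3) (nat_lit 117) (nat_lit 3) (nat_lit 317) (nat_lit 317) (nat_lit 227)))))) (XT.nd (nat_lit 658) (nat_lit 840) (nat_lit 0) (XT.nd (nat_lit 282) (nat_lit 0) (nat_lit 0) (XT.nd (nat_lit 94) (nat_lit 0) (nat_lit 0) (XT.lf (nat_lit 0) (nat_lit 6419336267) (nat_lit 924) (nat_lit 4071446260) (nat_lit 1008) (nat_lit 438016594) (nat_lit 106) (nat_lit 5) (nat_lit 117) (nat_lit 3) (nat_lit 118) (nat_lit 5) (nat_lit 318) (nat_lit 317) (nat_lit 226)) (XT.nd (nat_lit 94) (nat_lit 0) (nat_lit 0) (XT.lf (nat_lit 0) (nat_lit 7027890617) (nat_lit 924) (nat_lit 205772346) (nat_lit 1008) (nat_lit 3848637474) (nat_lit 106) (nat_lit 5) (nat_lit 117) (nat_lit 3) (nat_lit 118) (nat_lit 5) (nat_lit 319) (nat_lit 317) (nat_lit 225)) (XT.lf (nat_lit 84) (nat_lit 3846971068) (nat_lit 0) (nat_lit 3827631175) (nat_lit 1008) (nat_lit 3565470118) (nat_lit 107) (nat_lit 5) (nat_lit 106) (nat_lit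 5) (nat_lit 118) (nat_lit 5) (nat_lit 320) (nat_lit 317) (nat_lit 224)))) (XT.nd (nat_lit 188) (nat_lit 0) (nat_lit 84) (XT.nd (nat_lit 94) (nat_lit 0) (nat_lit 84) (XT.lf (nat_lit 84) (nat_lit 8019541529) (nat_lit 0) (nat_lit 305564404) (nat_lit 1008) (nat_lit 3078240027) (nat_lit 107) (nat_lit 5) (nat_lit 106) (nat_lit 5) (nat_lit 118) (nat_lit 5) (nat_lit 321) (nat_lit 317) (nat_lit 223)) (XT.lf (nat_lit 84) (nat_lit 720709448) (nat_lit 0) (nat_lit 8297435287) (nat_lit 1008) (nat_lit 2552946450) (nat_lit 108) (nat_lit 5) (nat_lit 107) (nat_lit 5) (nat_lit 119) (nat_lit 5) (nat_lit 322) (nat_lit 317) (nat_lit 222))) (XT.nd (nat_lit 94) (nat_lit 0) (nat_lit 0) (XT.lf (nat_lit 84) (nat_lit 5010515338) (nat_lit 0) (nat_lit 4743224944) (nat_lit 1008) (nat_lit 1989743464) (nat_lit 108) (nat_lit 5) (nat_lit 107) (nat_lit 5) (nat_lit 119) (nat_lit 5) (nat_lit 323) (nat_lit 317) (nat_lit 221)) (XT.lf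 (nat_lit 84) (nat_lit 9423127392) (nat_lit 0) (nat_lit 1072192304) (nat_lit 1008) (nat_lit 1426519650) (nat_lit 108) (nat_lit 5) (nat_lit 107) (nat_lit 5) (nat_lit 119) (nat_lit 5) (nat_lit 324) (nat_lit 317) (nat_lit 220))))) (XT.nd (nat_lit 376) (nat_lit 0) (nat_lit 84) (XT.nd (nat_lit 188) (nat_lit 1008) (nat_lit 0) (XT.nd (nat_lit 94) (nat_lit 0) (nat_lit 0) (XT.lf (nat_lit 84) (nat_lit 1866976149) (nat_lit 0) (nat_lit 9422092347) (nat_lit 1008) (nat_lit 815845412) (nat_lit 109) (nat_lit 5) (nat_lit 108) (nat_lit 5) (nat_lit 120) (nat_lit 5) (nat_lit 325) (nat_lit 317) (nat_lit 219)) (XT.lf (nat_lit 84) (nat_lit 6399351184) (nat_lit 0) (nat_lit 5729143921) (nat_lit 1008) (nat_lit 164607147) (nat_lit 109) (nat_lit 5) (nat_lit 108) (nat_lit 5) (nat_lit 120) (nat_lit 5) (nat_lit 326) (nat_lit 317) (nat_lit 218))) (XT.nd (nat_lit 94) (nat_lit 0) (nat_lit 84) (XT.lf (nat_lit 0) (nat_lit 480975905)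 (nat_lit 1008) (nat_lit 1430445698) (nat_lit 1092) (nat_lit 10576117832) (nat_lit 96) (nat_lit 5) (nat_lit 108) (nat_lit 5) (nat_lit 109) (nat_lit 5) (nat_lit 327) (nat_lit 317) (nat_lit 217)) (XT.lf (nat_lit 0) (nat_lit 1180454155) (nat_lit 1008) (nat_lit 9483698471) (nat_lit 1092) (nat_lit 2022726676) (nat_lit 97) (nat_lit 5) (nat_lit 109) (nat_lit 5) (nat_lit 110) (nat_lit 5) (nat_lit 328) (nat_lit 317) (nat_lit 216)))) (XT.nd (nat_lit 188) (nat_lit 0) (nat_lit 84) (XT.nd (nat_lit 94) (nat_lit 0) (nat_lit 0) (XT.lf (nat_lit 0) (nat_lit 1921489242) (nat_lit 1008) (nat_lit 4911553872) (nat_lit 1092) (nat_lit 6058820677) (nat_lit 97) (nat_lit 5) (nat_lit 109) (nat_lit 5) (nat_lit 110) (nat_lit 5) (nat_lit 329) (nat_lit 317) (nat_lit 215)) (XT.lf (nat_lit 0) (nat_lit 2671180256) (nat_lit 1008) (nat_lit 208041804) (nat_lit 1092) (nat_lit 10224503250) (nat_lit 97) (nat_lit 5) (nat_lit 109) (nat_lit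 5) (nat_lit 110) (nat_lit 5) (nat_lit 330) (nat_lit 317) (nat_lit 214))) (XT.nd (nat_lit 52828) (nat_lit 0) (nat_lit 672) (XT.lf (nat_lit 0) (nat_lit 3489506520) (nat_lit 1008) (nat_lit 8607152090) (nat_lit 1092) (nat_lit 1224165027) (nat_lit 98) (nat_lit 5) (nat_lit 110) (nat_lit 5) (nat_lit 111) (nat_lit 5) (nat_lit 331) (nat_lit 317) (nat_lit 213)) (XT.lf (nat_lit 0) (nat_lit 1745251092) (nat_lit 0) (nat_lit 1745251092) (nat_lit 924) (nat_lit 2048756312) (nat_lit 106) (nat_lit 5) (nat_lit 106) (nat_lit 3) (nat_lit 117) (nat_lit 3) (nat_lit 318) (nat_lit 318) (nat_lit 225))))))))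
noncomputable def xc31 : XT := (XT.nd (nat_lit 108664) (nat_lit 168) (nat_lit 0) (XT.nd (nat_lit 54238) (nat_lit 84) (nat_lit 0) (XT.nd (nat_lit 658) (nat_lit 840) (nat_lit 0) (XT.nd (nat_lit 282) (nat_lit 0) (nat_lit 0) (XT.nd (nat_lit 94) (nat_lit 0) (nat_lit 0) (XT.lf (nat_lit 0) (nat_lit 7540608567) (nat_lit 0) (nat_lit 5083209) (nat_lit 924) (nat_lit 3687740629) (nat_lit 106) (nat_lit 5) (nat_lit 106) (nat_lit 3) (nat_lit 117) (nat_lit 3) (nat_lit 319) (nat_lit 318) (nat_lit 224)) (XT.nd (nat_lit 94) (nat_lit 0) (nat_lit 0) (XT.lf (nat_lit 84) (nat_lit 283262592) (nat_lit 0) (nat_lit 7864726164) (nat_lit 1008) (nat_lit 3244645017) (nat_lit 107) (nat_lit 5) (nat_lit 106) (nat_lit 5) (nat_lit 118) (nat_lit 5) (nat_lit 320) (nat_lit 318) (nat_lit 223)) (XT.lf (nat_lit 84) (nat_lit 4450976102) (nat_lit 0) (nat_lit 4338727337) (nat_lit 1008) (nat_lit 2766527400) (nat_lit 107) (nat_lit 5) (nat_lit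 106) (nat_lit 5) (nat_lit 118) (nat_lit 5) (nat_lit 321) (nat_lit 318) (nat_lit 222)))) (XT.nd (nat_lit 188) (nat_lit 0) (nat_lit 84) (XT.nd (nat_lit 94) (nat_lit 0) (nat_lit 84) (XT.lf (nat_lit 84) (nat_lit 8738320867) (nat_lit 0) (nat_lit 695676664) (nat_lit 1008) (nat_lit 2291539094) (nat_lit 107) (nat_lit 5) (nat_lit 106) (nat_lit 5) (nat_lit 118) (nat_lit 5) (nat_lit 322) (nat_lit 318) (nat_lit 221)) (XT.lf (nat_lit 84) (nat_lit 1243198715) (nat_lit 0) (nat_lit 8881038721) (nat_lit 1008) (nat_lit 1775145762) (nat_lit 108) (nat_lit 5) (nat_lit 107) (nat_lit 5) (nat_lit 119) (nat_lit 5) (nat_lit 323) (nat_lit 318) (nat_lit 220))) (XT.nd (nat_lit 94) (nat_lit 0) (nat_lit 0) (XT.lf (nat_lit 84) (nat_lit 5650950211) (nat_lit 0) (nat_lit 5206834209) (nat_lit 1008) (nat_lit 1220249927) (nat_lit 108) (nat_lit 5) (nat_lit 107) (nat_lit 5) (nat_lit 119) (nat_lit 5) (nat_lit 324) (nat_lit 318) (nat_lit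 219)) (XT.lf (nat_lit 84) (nat_lit 10185767036) (nat_lit 0) (nat_lit 1412480985) (nat_lit 1008) (nat_lit 664557875) (nat_lit 108) (nat_lit 5) (nat_lit 107) (nat_lit 5) (nat_lit 119) (nat_lit 5) (nat_lit 325) (nat_lit 318) (nat_lit 218))))) (XT.nd (nat_lit 282) (nat_lit 0) (nat_lit 84) (XT.nd (nat_lit 94) (nat_lit 1008) (nat_lit 0) (XT.lf (nat_lit 84) (nat_lit 2421947443) (nat_lit 0) (nat_lit 9973252445) (nat_lit 1008) (nat_lit 57154857) (nat_lit 109) (nat_lit 5) (nat_lit 108) (nat_lit 5) (nat_lit 120) (nat_lit 5) (nat_lit 326) (nat_lit 318) (nat_lit 217)) (XT.nd (nat_lit 94) (nat_lit 0) (nat_lit 0) (XT.lf (nat_lit 0) (nat_lit 578797842) (nat_lit 1008) (nat_lit 5573193466) (nat_lit 1092) (nat_lit 6495040198) (nat_lit 96) (nat_lit 5) (nat_lit 108) (nat_lit 5) (nat_lit 109) (nat_lit 5) (nat_lit 327) (nat_lit 318) (nat_lit 216)) (XT.lf (nat_lit 0) (nat_lit 1218571447) (nat_lit 1008) (nat_lit 988290639)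 (nat_lit 1092) (nat_lit 10641400086) (nat_lit 96) (nat_lit 5) (nat_lit 108) (nat_lit 5) (nat_lit 109) (nat_lit 5) (nat_lit 328) (nat_lit 318) (nat_lit 215)))) (XT.nd (nat_lit 53110) (nat_lit 0) (nat_lit 756) (XT.nd (nat_lit 94) (nat_lit 0) (nat_lit 0) (XT.lf (nat_lit 0) (nat_lit 1920557477) (nat_lit 1008) (nat_lit 9268150363) (nat_lit 1092) (nat_lit 1865788095) (nat_lit 97) (nat_lit 5) (nat_lit 109) (nat_lit 5) (nat_lit 110) (nat_lit 5) (nat_lit 329) (nat_lit 318) (nat_lit 214)) (XT.lf (nat_lit 0) (nat_lit 2663411610) (nat_lit 1008) (nat_lit 4569590160) (nat_lit 1092) (nat_lit 6033605216) (nat_lit 97) (nat_lit 5) (nat_lit 109) (nat_lit 5) (nat_lit 110) (nat_lit 5) (nat_lit 330) (nat_lit 318) (nat_lit 213))) (XT.nd (nat_lit 94) (nat_lit 0) (nat_lit 0) (XT.lf (nat_lit 0) (nat_lit 2025330617) (nat_lit 0) (nat_lit 2025330617) (nat_lit 924) (nat_lit 1643679347) (nat_lit 106) (nat_lit 5) (nat_lit 106)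 (nat_lit 3) (nat_lit 117) (nat_lit 3) (nat_lit 319) (nat_lit 319) (nat_lit 223)) (XT.lf (nat_lit 0) (nat_lit 8212731625) (nat_lit 0) (nat_lit 443604981) (nat_lit 924) (nat_lit 2893062703) (nat_lit 106) (nat_lit 5) (nat_lit 106) (nat_lit 3) (nat_lit 117) (nat_lit 3) (nat_lit 320) (nat_lit 319) (nat_lit 222)))))) (XT.nd (nat_lit 658) (nat_lit 0) (nat_lit 84) (XT.nd (nat_lit 282) (nat_lit 924) (nat_lit 0) (XT.nd (nat_lit 94) (nat_lit 0) (nat_lit 0) (XT.lf (nat_lit 84) (nat_lit 762217283) (nat_lit 0) (nat_lit 8489172439) (nat_lit 1008) (nat_lit 2463102638) (nat_lit 107) (nat_lit 5) (nat_lit 106) (nat_lit 5) (nat_lit 118) (nat_lit 5) (nat_lit 321) (nat_lit 319) (nat_lit 221)) (XT.nd (nat_lit 94) (nat_lit 0) (nat_lit 0) (XT.lf (nat_lit 84) (nat_lit 5044992783) (nat_lit 0) (nat_lit 4842422612) (nat_lit 1008) (nat_lit 1996687058) (nat_lit 107) (nat_lit 5) (nat_lit 106) (nat_lit 5) (nat_lit 118) (nat_lit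 5) (nat_lit 322) (nat_lit 319) (nat_lit 220)) (XT.lf (nat_lit 84) (nat_lit 9451533180) (nat_lit 0) (nat_lit 1075336460) (nat_lit 1008) (nat_lit 1532700287) (nat_lit 107) (nat_lit 5) (nat_lit 106) (nat_lit 5) (nat_lit 118) (nat_lit 5) (nat_lit 323) (nat_lit 319) (nat_lit 219)))) (XT.nd (nat_lit 188) (nat_lit 1008) (nat_lit 0) (XT.nd (nat_lit 94) (nat_lit 0) (nat_lit 0) (XT.lf (nat_lit 84) (nat_lit 1752260570) (nat_lit 0) (nat_lit 9463401642) (nat_lit 1008) (nat_lit 1023991397) (nat_lit 108) (nat_lit 5) (nat_lit 107) (nat_lit 5) (nat_lit 119) (nat_lit 5) (nat_lit 324) (nat_lit 319) (nat_lit 218)) (XT.lf (nat_lit 84) (nat_lit 6282504736) (nat_lit 0) (nat_lit 5666064421) (nat_lit 1008) (nat_lit 476134044) (nat_lit 108) (nat_lit 5) (nat_lit 107) (nat_lit 5) (nat_lit 119) (nat_lit 5) (nat_lit 325) (nat_lit 319) (nat_lit 217))) (XT.nd (nat_lit 94) (nat_lit 0) (nat_lit 84) (XT.lf (nat_lit 0) (nat_lit 71796773)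 (nat_lit 1008) (nat_lit 1672585291) (nat_lit 1092) (nat_lit 10871632460) (nat_lit 95) (nat_lit 5) (nat_lit 107) (nat_lit 5) (nat_lit 108) (nat_lit 5) (nat_lit 326) (nat_lit 319) (nat_lit 216)) (XT.lf (nat_lit 0) (nat_lit 664945872) (nat_lit 1008) (nat_lit 9854266493) (nat_lit 1092) (nat_lit 2292792513) (nat_lit 96) (nat_lit 5) (nat_lit 108) (nat_lit 5) (nat_lit 109) (nat_lit 5) (nat_lit 327) (nat_lit 319) (nat_lit 215))))) (XT.nd (nat_lit 53392) (nat_lit 0) (nat_lit 840) (XT.nd (nat_lit 188) (nat_lit 0) (nat_lit 84) (XT.nd (nat_lit 94) (nat_lit 0) (nat_lit 0) (XT.lf (nat_lit 0) (nat_lit 1297696239) (nat_lit 1008) (nat_lit 5274091585) (nat_lit 1092) (nat_lit 6441704195) (nat_lit 96) (nat_lit 5) (nat_lit 108) (nat_lit 5) (nat_lit 109) (nat_lit 5) (nat_lit 328) (nat_lit 319) (nat_lit 214)) (XT.lf (nat_lit 0) (nat_lit 1936226564) (nat_lit 1008) (nat_lit 561244934) (nat_lit 1092) (nat_lit 10724258999)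 (nat_lit 96) (nat_lit 5) (nat_lit 108) (nat_lit 5) (nat_lit 109) (nat_lit 5) (nat_lit 329) (nat_lit 319) (nat_lit 213))) (XT.nd (nat_lit 53110) (nat_lit 0) (nat_lit 756) (XT.lf (nat_lit 0) (nat_lit 2641933945) (nat_lit 1008) (nat_lit 9076101354) (nat_lit 1092) (nat_lit 1716994256) (nat_lit 97) (nat_lit 5) (nat_lit 109) (nat_lit 5) (nat_lit 110) (nat_lit 5) (nat_lit 330) (nat_lit 319) (nat_lit 212)) (XT.lf (nat_lit 0) (nat_lit 2300707618) (nat_lit 0) (nat_lit 2300707618) (nat_lit 924) (nat_lit 1253800291) (nat_lit 106) (nat_lit 5) (nat_lit 106) (nat_lit 3) (nat_lit 117) (nat_lit 3) (nat_lit 320) (nat_lit 320) (nat_lit 221)))) (XT.nd (nat_lit 188) (nat_lit 0) (nat_lit 0) (XT.nd (nat_lit 94) (nat_lit 0) (nat_lit 0) (XT.lf (nat_lit 0) (nat_lit 8879725436) (nat_lit 0) (nat_lit 869755866) (nat_lit 924) (nat_lit 2127591263) (nat_lit 106) (nat_lit 5) (nat_lit 106) (nat_lit 3) (nat_lit 117) (nat_lit 3)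 (nat_lit 321) (nat_lit 320) (nat_lit 220)) (XT.lf (nat_lit 84) (nat_lit 1228170385) (nat_lit 0) (nat_lit 9110430603) (nat_lit 1008) (nat_lit 1709582301) (nat_lit 107) (nat_lit 5) (nat_lit 106) (nat_lit 5) (nat_lit 118) (nat_lit 5) (nat_lit 322) (nat_lit 320) (nat_lit 219))) (XT.nd (nat_lit 94) (nat_lit 0) (nat_lit 0) (XT.lf (nat_lit 84) (nat_lit 5630412162) (nat_lit 0) (nat_lit 5339864405) (nat_lit 1008) (nat_lit 1253660479) (nat_lit 107) (nat_lit 5) (nat_lit 106) (nat_lit 5) (nat_lit 118) (nat_lit 5) (nat_lit 323) (nat_lit 320) (nat_lit 218)) (XT.lf (nat_lit 84) (nat_lit 10160655446) (nat_lit 0) (nat_lit 1445555199) (nat_lit 1008) (nat_lit 799492484) (nat_lit 107) (nat_lit 5) (nat_lit 106) (nat_lit 5) (nat_lit 118) (nat_lit 5) (nat_lit 324) (nat_lit 320) (nat_lit 217))))))) (XT.nd (nat_lit 107818) (nat_lit 168) (nat_lit 0) (XT.nd (nat_lit 53862) (nat_lit 0) (nat_lit 0) (XT.nd (nat_lit 282) (nat_lit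 0) (nat_lit 84) (XT.nd (nat_lit 94) (nat_lit 1008) (nat_lit 0) (XT.lf (nat_lit 84) (nat_lit 2249233477) (nat_lit 0) (nat_lit 10045630672) (nat_lit 1008) (nat_lit 297302898) (nat_lit 108) (nat_lit 5) (nat_lit 107) (nat_lit 5) (nat_lit 119) (nat_lit 5) (nat_lit 325) (nat_lit 320) (nat_lit 216)) (XT.nd (nat_lit 94) (nat_lit 0) (nat_lit 0) (XT.lf (nat_lit 0) (nat_lit 239802735) (nat_lit 1008) (nat_lit 5879584693) (nat_lit 1092) (nat_lit 6664299789) (nat_lit 95) (nat_lit 5) (nat_lit 107) (nat_lit 5) (nat_lit 108) (nat_lit 5) (nat_lit 326) (nat_lit 320) (nat_lit 215)) (XT.lf (nat_lit 0) (nat_lit 773155849) (nat_lit 1008) (nat_lit 1289758236) (nat_lit 1092) (nat_lit 10918655916) (nat_lit 95) (nat_lit 5) (nat_lit 107) (nat_lit 5) (nat_lit 108) (nat_lit 5) (nat_lit 327) (nat_lit 320) (nat_lit 214)))) (XT.nd (nat_lit 53392) (nat_lit 0) (nat_lit 840) (XT.nd (nat_lit 94) (nat_lit 0) (nat_lit 0) (XT.lf (nat_lit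 0) (nat_lit 1365438596) (nat_lit 1008) (nat_lit 9702066040) (nat_lit 1092) (nat_lit 2116844591) (nat_lit 96) (nat_lit 5) (nat_lit 108) (nat_lit 5) (nat_lit 109) (nat_lit 5) (nat_lit 328) (nat_lit 320) (nat_lit 213)) (XT.lf (nat_lit 0) (nat_lit 1997361682) (nat_lit 1008) (nat_lit 4993667265) (nat_lit 1092) (nat_lit 6401800041) (nat_lit 96) (nat_lit 5) (nat_lit 108) (nat_lit 5) (nat_lit 109) (nat_lit 5) (nat_lit 329) (nat_lit 320) (nat_lit 212))) (XT.nd (nat_lit 94) (nat_lit 0) (nat_lit 0) (XT.lf (nat_lit 0) (nat_lit 2572029133) (nat_lit 0) (nat_lit 2572029133) (nat_lit 924) (nat_lit 877946284) (nat_lit 106) (nat_lit 5) (nat_lit 106) (nat_lit 3) (nat_lit 117) (nat_lit 3) (nat_lit 321) (nat_lit 321) (nat_lit 219)) (XT.lf (nat_lit 0) (nat_lit 9542968949) (nat_lit 0) (nat_lit 1284690322) (nat_lit 924) (nat_lit 1389042585) (nat_lit 106) (nat_lit 5) (nat_lit 106) (nat_lit 3) (nat_lit 117) (nat_lit 3)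 (nat_lit 322) (nat_lit 321) (nat_lit 218))))) (XT.nd (nat_lit 282) (nat_lit 924) (nat_lit 0) (XT.nd (nat_lit 94) (nat_lit 0) (nat_lit 0) (XT.lf (nat_lit 84) (nat_lit 1682368403) (nat_lit 0) (nat_lit 9729737261) (nat_lit 1008) (nat_lit 981857840) (nat_lit 107) (nat_lit 5) (nat_lit 106) (nat_lit 5) (nat_lit 118) (nat_lit 5) (nat_lit 323) (nat_lit 321) (nat_lit 217)) (XT.nd (nat_lit 94) (nat_lit 0) (nat_lit 0) (XT.lf (nat_lit 84) (nat_lit 6208567681) (nat_lit 0) (nat_lit 5832154138) (nat_lit 1008) (nat_lit 535277094) (nat_lit 107) (nat_lit 5) (nat_lit 106) (nat_lit 5) (nat_lit 118) (nat_lit 5) (nat_lit 324) (nat_lit 321) (nat_lit 216)) (XT.lf (nat_lit 84) (nat_lit 10867112720) (nat_lit 0) (nat_lit 1807296543) (nat_lit 1008) (nat_lit 89798711) (nat_lit 107) (nat_lit 5) (nat_lit 106) (nat_lit 5) (nat_lit 118) (nat_lit 5) (nat_lit 325) (nat_lit 321) (nat_lit 215)))) (XT.nd (nat_lit 188) (nat_lit 0) (nat_lit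 0) (XT.nd (nat_lit 94) (nat_lit 0) (nat_lit 0) (XT.lf (nat_lit 0) (nat_lit 398789768) (nat_lit 1008) (nat_lit 10225846603) (nat_lit 1092) (nat_lit 2332441144) (nat_lit 95) (nat_lit 5) (nat_lit 107) (nat_lit 5) (nat_lit 108) (nat_lit 5) (nat_lit 326) (nat_lit 321) (nat_lit 214)) (XT.lf (nat_lit 0) (nat_lit 925348527) (nat_lit 1008) (nat_lit 5640244448) (nat_lit 1092) (nat_lit 6589615536) (nat_lit 95) (nat_lit 5) (nat_lit 107) (nat_lit 5) (nat_lit 108) (nat_lit 5) (nat_lit 327) (nat_lit 321) (nat_lit 213))) (XT.nd (nat_lit 94) (nat_lit 0) (nat_lit 84) (XT.lf (nat_lit 0) (nat_lit 1454846190) (nat_lit 1008) (nat_lit 920810216) (nat_lit 1092) (nat_lit 10984314127) (nat_lit 95) (nat_lit 5) (nat_lit 107) (nat_lit 5) (nat_lit 108) (nat_lit 5) (nat_lit 328) (nat_lit 321) (nat_lit 212)) (XT.lf (nat_lit 0) (nat_lit 2047376173) (nat_lit 1008) (nat_lit 9572256703) (nat_lit 1092) (nat_lit 1950073967) (nat_lit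 96) (nat_lit 5) (nat_lit 108) (nat_lit 5) (nat_lit 109) (nat_lit 5) (nat_lit 329) (nat_lit 321) (nat_lit 211)))))) (XT.nd (nat_lit 54144) (nat_lit 84) (nat_lit 0) (XT.nd (nat_lit 282) (nat_lit 1008) (nat_lit 0) (XT.nd (nat_lit 94) (nat_lit 0) (nat_lit 0) (XT.lf (nat_lit 0) (nat_lit 2839915297) (nat_lit 0) (nat_lit 2839915297) (nat_lit 924) (nat_lit 515005487) (nat_lit 106) (nat_lit 5) (nat_lit 106) (nat_lit 3) (nat_lit 117) (nat_lit 3) (nat_lit 322) (nat_lit 322) (nat_lit 217)) (XT.nd (nat_lit 94) (nat_lit 0) (nat_lit 0) (XT.lf (nat_lit 0) (nat_lit 10203792763) (nat_lit 0) (nat_lit 1689507499) (nat_lit 924) (nat_lit 675251047) (nat_lit 106) (nat_lit 5) (nat_lit 106) (nat_lit 3) (nat_lit 117) (nat_lit 3) (nat_lit 323) (nat_lit 322) (nat_lit 216)) (XT.lf (nat_lit 84) (nat_lit 2125998780) (nat_lit 0) (nat_lit 10348288250) (nat_lit 1008) (nat_lit 277817393) (nat_lit 107) (nat_lit 5) (nat_lit 106) (nat_lit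 5) (nat_lit 118) (nat_lit 5) (nat_lit 324) (nat_lit 322) (nat_lit 215)))) (XT.nd (nat_lit 188) (nat_lit 0) (nat_lit 84) (XT.nd (nat_lit 94) (nat_lit 0) (nat_lit 0) (XT.lf (nat_lit 0) (nat_lit 157288962) (nat_lit 1008) (nat_lit 6161419921) (nat_lit 1092) (nat_lit 6621808610) (nat_lit 94) (nat_lit 5) (nat_lit 106) (nat_lit 5) (nat_lit 107) (nat_lit 5) (nat_lit 325) (nat_lit 322) (nat_lit 214)) (XT.lf (nat_lit 0) (nat_lit 586334928) (nat_lit 1008) (nat_lit 1569024553) (nat_lit 1092) (nat_lit 10979827258) (nat_lit 94) (nat_lit 5) (nat_lit 106) (nat_lit 5) (nat_lit 107) (nat_lit 5) (nat_lit 326) (nat_lit 322) (nat_lit 213))) (XT.nd (nat_lit 94) (nat_lit 0) (nat_lit 0) (XT.lf (nat_lit 0) (nat_lit 1068874761) (nat_lit 1008) (nat_lit 10133917322) (nat_lit 1092) (nat_lit 2131926697) (nat_lit 95) (nat_lit 5) (nat_lit 107) (nat_lit 5) (nat_lit 108) (nat_lit 5) (nat_lit 327) (nat_lit 322) (nat_lit 212)) (XT.lf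 (nat_lit 0) (nat_lit 1591980510) (nat_lit 1008) (nat_lit 5418457181) (nat_lit 1092) (nat_lit 6529276623) (nat_lit 95) (nat_lit 5) (nat_lit 107) (nat_lit 5) (nat_lit 108) (nat_lit 5) (nat_lit 328) (nat_lit 322) (nat_lit 211))))) (XT.nd (nat_lit 376) (nat_lit 0) (nat_lit 0) (XT.nd (nat_lit 188) (nat_lit 0) (nat_lit 84) (XT.nd (nat_lit 94) (nat_lit 1092) (nat_lit 0) (XT.lf (nat_lit 0) (nat_lit 3104961292) (nat_lit 0) (nat_lit 3104961292) (nat_lit 924) (nat_lit 163923199) (nat_lit 106) (nat_lit 5) (nat_lit 106) (nat_lit 3) (nat_lit 117) (nat_lit 3) (nat_lit 323) (nat_lit 323) (nat_lit 215)) (XT.lf (nat_lit 0) (nat_lit 15519287) (nat_lit 1092) (nat_lit 2069573643) (nat_lit 1092) (nat_lit 10847801750) (nat_lit 93) (nat_lit 3) (nat_lit 106) (nat_lit 3) (nat_lit 106) (nat_lit 5) (nat_lit 324) (nat_lit 323) (nat_lit 214))) (XT.nd (nat_lit 94) (nat_lit 0) (nat_lit 0) (XT.lf (nat_lit 0) (nat_lit 396393256)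 (nat_lit 1008) (nat_lit 10566711274) (nat_lit 1092) (nat_lit 2159663058) (nat_lit 94) (nat_lit 5) (nat_lit 106) (nat_lit 5) (nat_lit 107) (nat_lit 5) (nat_lit 325) (nat_lit 323) (nat_lit 213)) (XT.lf (nat_lit 0) (nat_lit 818859458) (nat_lit 1008) (nat_lit 5978066785) (nat_lit 1092) (nat_lit 6520751022) (nat_lit 94) (nat_lit 5) (nat_lit 106) (nat_lit 5) (nat_lit 107) (nat_lit 5) (nat_lit 326) (nat_lit 323) (nat_lit 212)))) (XT.nd (nat_lit 53862) (nat_lit 0) (nat_lit 0) (XT.nd (nat_lit 53768) (nat_lit 84) (nat_lit 0) (XT.lf (nat_lit 0) (nat_lit 1241460426) (nat_lit 1008) (nat_lit 1254563292) (nat_lit 1092) (nat_lit 11023079056) (nat_lit 94) (nat_lit 5) (nat_lit 106) (nat_lit 5) (nat_lit 107) (nat_lit 5) (nat_lit 327) (nat_lit 323) (nat_lit 211)) (XT.lf (nat_lit 0) (nat_lit 172749701) (nat_lit 1092) (nat_lit 3193186336) (nat_lit 1092) (nat_lit 3193186336) (nat_lit 93) (nat_lit 3) (nat_lit 106) (nat_lit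 3) (nat_lit 106) (nat_lit 5) (nat_lit 324) (nat_lit 324) (nat_lit 213))) (XT.nd (nat_lit 94) (nat_lit 0) (nat_lit 84) (XT.lf (nat_lit 0) (nat_lit 672352373) (nat_lit 1092) (nat_lit 1793561607) (nat_lit 1092) (nat_lit 10843914785) (nat_lit 93) (nat_lit 3) (nat_lit 106) (nat_lit 3) (nat_lit 106) (nat_lit 5) (nat_lit 325) (nat_lit 324) (nat_lit 212)) (XT.lf (nat_lit 0) (nat_lit 1045630563) (nat_lit 1008) (nat_lit 10531178302) (nat_lit 1092) (nat_lit 1929489766) (nat_lit 94) (nat_lit 5) (nat_lit 106) (nat_lit 5) (nat_lit 107) (nat_lit 5) (nat_lit 326) (nat_lit 324) (nat_lit 211))))))))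

set_option maxRecDepth 10000000 in
noncomputable def Tp : PT := (PT.nd (nat_lit 2327816) (PT.nd (nat_lit 1842588) (PT.nd (nat_lit 1517912) (PT.nd (nat_lit 1248132) pc0 pc1) (PT.nd (nat_lit 215260) pc2 pc3)) (PT.nd (nat_lit 269498) (PT.nd (nat_lit 161022) pc4 pc5) (PT.nd (nat_lit 108006) pc6 pc7))) (PT.nd (nat_lit 324488) (PT.nd (nat_lit 162808) (PT.nd (nat_lit 107160) pc8 pc9) (PT.nd (nat_lit 106314) pc10 pc11)) (PT.nd (nat_lit 160740) (PT.nd (nat_lit 55178) pc12 pc13) (PT.nd (nat_lit 54802) pc14 pc15))))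

set_option maxRecDepth 10000000 in
noncomputable def Tx : XT := (XT.nd (nat_lit 14138916) (nat_lit 0) (nat_lit 2268) XT.nil (XT.nd (nat_lit 3404022) (nat_lit 0) (nat_lit 0) (XT.nd (nat_lit 1618492) (nat_lit 0) (nat_lit 1428) (XT.nd (nat_lit 1080812) (nat_lit 0) (nat_lit 504) (XT.nd (nat_lit 755666) (nat_lit 0) (nat_lit 504) (XT.nd (nat_lit 538714) (nat_lit 0) (nat_lit 252) (XT.nd (nat_lit 324206) (nat_lit 0) (nat_lit 252) xc0 xc1) (XT.nd (nat_lit 108852) (nat_lit 0) (nat_lit 0) xc2 xc3)) (XT.nd (nat_lit 213850) (nat_lit 0) (nat_lit 0) (XT.nd (nat_lit 107254) (nat_lit 0) (nat_lit 0) xc4 xc5) (XT.nd (nat_lit 55742) (nat_lit 0) (nat_lit 0) xc6 xc7))) (XT.nd (nat_lit 269592) (nat_lit 0) (nat_lit 588) (XT.nd (nat_lit 159988) (nat_lit 0) (nat_lit 336) (XT.nd (nat_lit 104998) (nat_lit 0) (nat_lit 336) xc8 xc9) (XT.nd (nat_lit 54896) (nat_lit 0) (nat_lit 0) xc10 xc11)) (XT.nd (nat_lit 158390) (nat_lit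 0) (nat_lit 0) (XT.nd (nat_lit 54520) (nat_lit 0) (nat_lit 0) xc12 xc13) (XT.nd (nat_lit 54802) (nat_lit 0) (nat_lit 0) xc14 xc15)))) (XT.nd (nat_lit 594832) (nat_lit 0) (nat_lit 1092) (XT.nd (nat_lit 270720) (nat_lit 0) (nat_lit 336) (XT.nd (nat_lit 110074) (nat_lit 0) (nat_lit 336) (XT.nd (nat_lit 54896) (nat_lit 0) (nat_lit 0) xc16 xc17) (XT.nd (nat_lit 105186) (nat_lit 0) (nat_lit 0) xc18 xc19)) (XT.nd (nat_lit 161492) (nat_lit 0) (nat_lit 420) (XT.nd (nat_lit 55460) (nat_lit 0) (nat_lit 420) xc20 xc21) (XT.nd (nat_lit 55930) (nat_lit 0) (nat_lit 336) xc22 xc23))) (XT.nd (nat_lit 379760) (nat_lit 0) (nat_lit 1428) (XT.nd (nat_lit 163560) (nat_lit 0) (nat_lit 504) (XT.nd (nat_lit 56118) (nat_lit 0) (nat_lit 504) xc24 xc25) (XT.nd (nat_lit 107818) (nat_lit 0) (nat_lit 420) xc26 xc27)) (XT.nd (nat_lit 270438) (nat_lit 0) (nat_lit 1092) (XT.nd (nat_lit 108852) (nat_lit 0) (nat_lit 504) xc28 xc29)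 (XT.nd (nat_lit 215448) (nat_lit 0) (nat_lit 504) xc30 xc31))))) XT.nil))

set_option maxRecDepth 10000000 in
noncomputable def Te : XT := XT.nil

set_option maxRecDepth 10000000 in
noncomputable def Tz : ZL := (ZL.cons (nat_lit 84) (nat_lit 3) (nat_lit 71678969508180320467) (ZL.cons (nat_lit 168) (nat_lit 6) (nat_lit 141735054983679785038) (ZL.cons (nat_lit 2268) (nat_lit 3) (nat_lit 63207690474881339585) (ZL.cons (nat_lit 2436) (nat_lit 6) (nat_lit 125383501272905441480) (ZL.cons (nat_lit 2520) (nat_lit 6) (nat_lit 125282755148719025818) (ZL.cons (nat_lit 2772) (nat_lit 6) (nat_lit 124215764072029434876) (ZL.cons (nat_lit 2856) (nat_lit 3) (nat_lit 62083079937495166560) (ZL.cons (nat_lit 3108) (nat_lit 6) (nat_lit 123213413172240270364) (ZL.cons (nat_lit 3192) (nat_lit 6) (nat_lit 123115696271962466614) (ZL.cons (nat_lit 3360) (nat_lit 6) (nat_lit 122274768153313998440) (ZL.cons (nat_lit 3444)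 (nat_lit 6) (nat_lit 122130385197518539996) (ZL.cons (nat_lit 3528) (nat_lit 3) (nat_lit 61041136247139919001) (ZL.cons (nat_lit 3696) (nat_lit 6) (nat_lit 121398954099767410428) (ZL.cons (nat_lit 3780) (nat_lit 6) (nat_lit 121209308238523208338) (ZL.cons (nat_lit 3864) (nat_lit 6) (nat_lit 121114529479766851650) (ZL.cons (nat_lit 4032) (nat_lit 6) (nat_lit 120585154661158742726) (ZL.cons (nat_lit 4116) (nat_lit 6) (nat_lit 120351606854765419740) (ZL.cons (nat_lit 4200) (nat_lit 6) (nat_lit 120211565190560319406) (ZL.cons (nat_lit 4284) (nat_lit 3) (nat_lit 60082449567521332356) (ZL.cons (nat_lit 4452) (nat_lit 6) (nat_lit 119832611291163550208) (ZL.cons (nat_lit 4536) (nat_lit 6) (nat_lit 119556481578709004238) (ZL.cons (nat_lit 4620) (nat_lit 6) (nat_lit 119372537969354783008) (ZL.cons (nat_lit 4704) (nat_lit 6) (nat_lit 119280609008388384668) (ZL.cons (nat_lit 4788) (nat_lit 6) (nat_lit 119140622540530072074)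 (ZL.cons (nat_lit 4872) (nat_lit 6) (nat_lit 118823191270305183734) (ZL.cons (nat_lit 4956) (nat_lit 6) (nat_lit 118596665754889739520) (ZL.cons (nat_lit 5040) (nat_lit 6) (nat_lit 118460834848774220284) (ZL.cons (nat_lit 5124) (nat_lit 3) (nat_lit 59207785971662738319) (ZL.cons (nat_lit 5208) (nat_lit 6) (nat_lit 118508543403255050546) (ZL.cons (nat_lit 5292) (nat_lit 6) (nat_lit 118151052426172410150) (ZL.cons (nat_lit 5376) (nat_lit 6) (nat_lit 117883225352986623566) (ZL.cons (nat_lit 5460) (nat_lit 6) (nat_lit 117704812540809881346) (ZL.cons (nat_lit 5544) (nat_lit 6) (nat_lit 117615647690212016804) (ZL.cons (nat_lit 5712) (nat_lit 6) (nat_lit 117539438542499615010) (ZL.cons (nat_lit 5796) (nat_lit 6) (nat_lit 117231551762456076370) (ZL.cons (nat_lit 5880) (nat_lit 6) (nat_lit 117011837392508991780) (ZL.cons (nat_lit 5964) (nat_lit 6) (nat_lit 116880090635849904254) (ZL.cons (nat_lit 6048)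 (nat_lit 3) (nat_lit 58418094345350391679) (ZL.cons (nat_lit 6216) (nat_lit 6) (nat_lit 116987779531079029588) (ZL.cons (nat_lit 6300) (nat_lit 6) (nat_lit 116641037555247176636) (ZL.cons (nat_lit 6384) (nat_lit 6) (nat_lit 116381263478442339990) (ZL.cons (nat_lit 6468) (nat_lit 6) (nat_lit 116208215164012910094) (ZL.cons (nat_lit 6552) (nat_lit 6) (nat_lit 116121731312802566214) (ZL.cons (nat_lit 6720) (nat_lit 6) (nat_lit 116495561187924257010) (ZL.cons (nat_lit 6804) (nat_lit 6) (nat_lit 116111132310260867380) (ZL.cons (nat_lit 6888) (nat_lit 6) (nat_lit 115812503037667716422) (ZL.cons (nat_lit 6972) (nat_lit 6) (nat_lit 115599395016380534470) (ZL.cons (nat_lit 7056) (nat_lit 6) (nat_lit 115471609607399848220) (ZL.cons (nat_lit 7140) (nat_lit 3) (nat_lit 57714513850669312618) (ZL.cons (nat_lit 7308) (nat_lit 6) (nat_lit 116062324713978292678) (ZL.cons (nat_lit 7392) (nat_lit 6) (nat_lit 115641342100299833528)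 (ZL.cons (nat_lit 7476) (nat_lit 6) (nat_lit 115305025925875145892) (ZL.cons (nat_lit 7560) (nat_lit 6) (nat_lit 115053062708799649628) (ZL.cons (nat_lit 7644) (nat_lit 6) (nat_lit 114885217592961211322) (ZL.cons (nat_lit 7728) (nat_lit 6) (nat_lit 114801334129129645968) (ZL.cons (nat_lit 7812) (nat_lit 3) (nat_lit 57327041820940255283) (ZL.cons (nat_lit 7896) (nat_lit 6) (nat_lit 114682716351498615930) (ZL.cons (nat_lit 7980) (nat_lit 6) (nat_lit 114768641169037648802) (ZL.cons (nat_lit 8064) (nat_lit 6) (nat_lit 114911938185428409388) (ZL.cons (nat_lit 8148) (nat_lit 6) (nat_lit 115112740968500918560) (ZL.cons (nat_lit 8232) (nat_lit 6) (nat_lit 115371236687483627028) (ZL.cons (nat_lit 8316) (nat_lit 6) (nat_lit 115687666287464742730) (ZL.cons (nat_lit 8400) (nat_lit 6) (nat_lit 115231229031676613822) (ZL.cons (nat_lit 8484) (nat_lit 6) (nat_lit 114858359121236856666) (ZL.cons (nat_lit 8568)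 (nat_lit 6) (nat_lit 114568709002329823724) (ZL.cons (nat_lit 8652) (nat_lit 6) (nat_lit 114362008690703071106) (ZL.cons (nat_lit 8736) (nat_lit 6) (nat_lit 114238065520013753696) (ZL.cons (nat_lit 8820) (nat_lit 3) (nat_lit 57098381981121705663) (ZL.cons (nat_lit 8904) (nat_lit 6) (nat_lit 114006216757272925940) (ZL.cons (nat_lit 8988) (nat_lit 6) (nat_lit 114064369790507297936) (ZL.cons (nat_lit 9072) (nat_lit 6) (nat_lit 114180730061694701704) (ZL.cons (nat_lit 9156) (nat_lit 6) (nat_lit 114355406030796932684) (ZL.cons (nat_lit 9240) (nat_lit 6) (nat_lit 114588560514114967832) (ZL.cons (nat_lit 9324) (nat_lit 6) (nat_lit 114880410836050813584) (ZL.cons (nat_lit 9408) (nat_lit 6) (nat_lit 114472086283501386670) (ZL.cons (nat_lit 9492) (nat_lit 6) (nat_lit 114145882428579284208) (ZL.cons (nat_lit 9576) (nat_lit 6) (nat_lit 113901495215120994912) (ZL.cons (nat_lit 9660) (nat_lit 6) (nat_lit 113738696848643363190)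 (ZL.cons (nat_lit 9744) (nat_lit 6) (nat_lit 113657335584015268764) (ZL.cons (nat_lit 9828) (nat_lit 3) (nat_lit 56703231287952021654) (ZL.cons (nat_lit 9912) (nat_lit 6) (nat_lit 113435982899520309940) (ZL.cons (nat_lit 9996) (nat_lit 6) (nat_lit 113524571386403052832) (ZL.cons (nat_lit 10080) (nat_lit 6) (nat_lit 113672310610301926994) (ZL.cons (nat_lit 10164) (nat_lit 6) (nat_lit 113879338279649683950) (ZL.cons (nat_lit 10248) (nat_lit 6) (nat_lit 114145847365920856382) (ZL.cons (nat_lit 10332) (nat_lit 6) (nat_lit 113784188868889084162) (ZL.cons (nat_lit 10416) (nat_lit 6) (nat_lit 113503247919415725346) (ZL.cons (nat_lit 10500) (nat_lit 6) (nat_lit 113302762651106556946) (ZL.cons (nat_lit 10584) (nat_lit 6) (nat_lit 113182546190690148208) (ZL.cons (nat_lit 10668) (nat_lit 3) (nat_lit 56571243241916198076) (ZL.cons (nat_lit 10752) (nat_lit 6) (nat_lit 112882894773669082002) (ZL.cons (nat_lit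 10836) (nat_lit 6) (nat_lit 112942850550933719530) (ZL.cons (nat_lit 10920) (nat_lit 6) (nat_lit 113062817990527932816) (ZL.cons (nat_lit 11004) (nat_lit 6) (nat_lit 113242908914672332954) (ZL.cons (nat_lit 11088) (nat_lit 6) (nat_lit 113483291186973227194) (ZL.cons (nat_lit 11172) (nat_lit 6) (nat_lit 113166895595390198620) (ZL.cons (nat_lit 11256) (nat_lit 6) (nat_lit 112929856591065960700) (ZL.cons (nat_lit 11340) (nat_lit 6) (nat_lit 112771953228818015284) (ZL.cons (nat_lit 11424) (nat_lit 6) (nat_lit 112693038326171948916) (ZL.cons (nat_lit 11508) (nat_lit 3) (nat_lit 56202294938441432171) (ZL.cons (nat_lit 11592) (nat_lit 6) (nat_lit 112435025330531235238) (ZL.cons (nat_lit 11676) (nat_lit 6) (nat_lit 112526360060507343160) (ZL.cons (nat_lit 11760) (nat_lit 6) (nat_lit 112678679200347082422) (ZL.cons (nat_lit 11844) (nat_lit 6) (nat_lit 112892124727444619844) (ZL.cons (nat_lit 11928) (nat_lit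 6) (nat_lit 112619631081010712166) (ZL.cons (nat_lit 12012) (nat_lit 6) (nat_lit 112425173982747697230) (ZL.cons (nat_lit 12096) (nat_lit 6) (nat_lit 112308572178270094184) (ZL.cons (nat_lit 12180) (nat_lit 3) (nat_lit 56134858491240889936) (ZL.cons (nat_lit 12264) (nat_lit 6) (nat_lit 112000622378894138474) (ZL.cons (nat_lit 12348) (nat_lit 6) (nat_lit 112062436785253979764) (ZL.cons (nat_lit 12432) (nat_lit 6) (nat_lit 112186123215475613662) (ZL.cons (nat_lit 12516) (nat_lit 6) (nat_lit 112371796958268490208) (ZL.cons (nat_lit 12600) (nat_lit 6) (nat_lit 112141885217895805514) (ZL.cons (nat_lit 12684) (nat_lit 6) (nat_lit 111988729677403132948) (ZL.cons (nat_lit 12768) (nat_lit 6) (nat_lit 111912187579783281958) (ZL.cons (nat_lit 12852) (nat_lit 3) (nat_lit 55819618393483317795) (ZL.cons (nat_lit 12936) (nat_lit 6) (nat_lit 111670615739678105984) (ZL.cons (nat_lit 13020) (nat_lit 6) (nat_lit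 111764781846283473250) (ZL.cons (nat_lit 13104) (nat_lit 6) (nat_lit 111921822879458244432) (ZL.cons (nat_lit 13188) (nat_lit 6) (nat_lit 111733212696855902108) (ZL.cons (nat_lit 13272) (nat_lit 6) (nat_lit 111620116863220981598) (ZL.cons (nat_lit 13356) (nat_lit 3) (nat_lit 55791214980694722460) (ZL.cons (nat_lit 13440) (nat_lit 6) (nat_lit 111350531705520945470) (ZL.cons (nat_lit 13524) (nat_lit 6) (nat_lit 111414262358477941840) (ZL.cons (nat_lit 13608) (nat_lit 6) (nat_lit 111541783068036446390) (ZL.cons (nat_lit 13692) (nat_lit 6) (nat_lit 111393232592291856122) (ZL.cons (nat_lit 13776) (nat_lit 6) (nat_lit 111318991954445249924) (ZL.cons (nat_lit 13860) (nat_lit 3) (nat_lit 55550943165466503703) (ZL.cons (nat_lit 13944) (nat_lit 6) (nat_lit 111134238031178533382) (ZL.cons (nat_lit 14028) (nat_lit 6) (nat_lit 111231323287088667036) (ZL.cons (nat_lit 14112) (nat_lit 6) (nat_lit 111121628007132391080)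 (ZL.cons (nat_lit 14196) (nat_lit 3) (nat_lit 55542537135558660780) (ZL.cons (nat_lit 14280) (nat_lit 6) (nat_lit 110924447852378909630) (ZL.cons (nat_lit 14364) (nat_lit 6) (nat_lit 110990154155577572890) (ZL.cons (nat_lit 14448) (nat_lit 6) (nat_lit 110918145777452833612) (ZL.cons (nat_lit 14532) (nat_lit 3) (nat_lit 55392348137828174266) (ZL.cons (nat_lit 14616) (nat_lit 6) (nat_lit 110818050878609485816) (ZL.cons (nat_lit 14700) (nat_lit 3) (nat_lit 55391298118249908029) (ZL.cons (nat_lit 14784) (nat_lit 6) (nat_lit 110714853037901994238) (ZL.cons (nat_lit 14868) (nat_lit 1) (nat_lit 18446744073709551617) ZL.nil))))))))))))))))))))))))))))))))))))))))))))))))))))))))))))))))))))))))))))))))))))))))))))))))))))))))))))))))))))))))))))))))))))))))))))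

noncomputable def vl : XL := ⟨(nat_lit 0), (nat_lit 84), (nat_lit 669140731), (nat_lit 168), (nat_lit 80839590), (nat_lit 168), (nat_lit 80839590), (nat_lit 1), (nat_lit 4), (nat_lit 2), (nat_lit 5), (nat_lit 2), (nat_lit 4), (nat_lit 0), (nat_lit 0), (nat_lit 0)⟩

noncomputable def cp0 : Nat := (nat_lit 35172387058719863255559278021816167493501062648733530700165419442468870083695318943061846820845185419514332496941042570572119009477016665004442621088270618815008094718353444693086720262081997350343595594820440700452187096718064712991969601982670175100292238786786659854924623601658811371287261019759092392196761928641011061533979451347555911008532031634915860718932428818163778309929748458600732465239768037307250648470783587652074443154153989671827966178496949886368403026188314242082971460848867714661104803521345282798290764994301018791688705231969369371847782127142195541680630251629691875639220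4356671473385577332831965990599954645648299221960558778991080160435973897441278529334045169755118927159679086771460791076792559756981406682430796906149895863679966258257498045381562842169350152583892581238513966713738834625617428422195421279734844338035168344314419366968439968480207671918501241918172982095369673068078067426204850581751006568439380186030715895811923394545445234464608427092181312016118826607562286105337923797865047612870018142314985581264464112086873871530313132581751775036333399632294077024895739784723054093216066429076617156351028574440650628582706467226974108572756786489444997723880376706708590653121294231544481845405746417957439109801178323414916716766375150620461964426317810718055125292075035693043604759449215011287845796595705839654502820758633830441855313180351787840291640993492338556187090073107670080856686785135910503393497443538986949656594056082754943110338348684330577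3087813710882983637121393783143931510095103646265801032506615733324485652372973474638120686762930341434291319654440872932220155684092962070273877451643831148514499944718149572409264813186379144251910993259489543076903971121920902779677213352112449718301828278898703015629865699808062923550807127195705105535718417630872877350801882270595923464985619963735017352250581549025191852895050655858508625250333726323028551936048211946848007097350933994668893933857822040980617675509112558144263123685530251158804266581491575249906040937428687824456512489917516803966703984071513225860284853115780472797424104499837292875756013929491271451191662304753055908869694230736997550177587581538912153006038854313507825249093159954904483037452848099972464042584747538763438320229157902049493176027613418093269283351938747943989681292229029137407630785112116775318484124306265247011760147405173516880891860319280186094553323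1084702136669258001887498609378846571669864789743415657978066696422582315072527046117428787539020569729957741492391796092535084590074059291940375112986903089332571422565731180942939215764998640459118465636214476058152491072997061076028302454329890222540403808392934470938595842442992986331616545967541988724267214113450826729817915853297219657003487413356797021932588887743491292677201938813226124334803961057696757392622868331444900547699552638030673562876510711256394619462855009148583725801550798178703590810374731404419150648354999752283854239581316844622292064265596727718988745154003222802374409388263228048118786978518627095888385132951450805375580984355302001515397688138435192426712520101448804339744391787799925162612132833344787712165311748391053511908025300652773815956861074038413057447957516990992085781683698856681914726579319488524896252612121979585709102243343266184446783352997941150806706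0193706677776267645497903056756965127038081607781622735157880280969513316824590531087591238942318134377302607826488098860626406241882566412680457971829323718774503050293572760526821977671978384335986474836166507824915886066244206547228180548262499466234432812360105554507293167984387080336955493915879706023806697751444475428943579979179075262187702886682351758543736662214884808030211242306787822104383843089416164200173597893820380144383039967226399606775056407599448092577351211549972848268483814916647355518244727816386905482197622122921111425328843951538532715404261058159487664829192933940567774755915881016900604657029358323210693858925255373564629465406772741391907215708715082859403019643027812798219407689481242816616860668370865478417007351291953367769895921461842753817427534019614070422951672207565209162200455581564689555140873717625821334288374610307514181378447330326195016114783808489775238151437037003049661325779626746652792141950518923103400738750890071972621880658240331341052180547411976003956450358467340109180210441055042964184730522930732647624030505806224572382359453374212660085543509165944577991262605289209876222919175473416188115755821224911962112)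

noncomputable def cp1 : Nat := (nat_lit 5380883591780420539223681175616646005274015153553307945540982069131567319011616832515211238995562485025005354758342818259529723349048896178799399016499784253709084633870983704657336840889691412982338127123309144168314427660998798371894532073987791648109020653409733903272586774516467709294551662593232276162879366191931827428193226752040048186304115409298315363636775669498821211193358313885244146714188092857533960792014312753049710702703863146158733635266082007732151185775674286807929790586118915561617563581899953977809569863897003679394545955039075372291604363082697750014254305203639663624728011367352361365866984528268938148463538725316397113137949683595526787349552323966656758985254748482407554051120500586068301847255593505875586115591018749005721185687864678668154079881836150631226026678357042350927566662620664230854496155505788938345907627614309781308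0315714845732536124625189257152530543201348789802100410757251255652285635483799501497677982184769178072634913686560968985966175566675520313948416960661454923105242102925452901225283536676378913130185986631211697870950643623241146947533591368787773365716593964497447876951843957916672928845072003487752752300477607117910319700211750675593709714599383573307558728108734216289270874796469328468041873799432688891102855384473857745923554600519416966629082924148897623762949321466691934578606257704833349856146756839539893842012219141384469613950537117693774004010497719390356609803525921032571691232048291254850749946147534132436014472091794261339818926109034250528051874525361843541231026444119825242506676306010292030127499963253241862024406449396584373557810489483760866879862259818481605299388100247756391497658601262419908442558042469835797082565554184040333566950088412828136112012239113075649676010805103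7928727794868531202230347144745949220141471189728713635859539243387010940980724691216115721523182463240365991675260665652971065761877194981961170910776509642028609208108149942189326614780514965015285733245112706653965745094562038863084468689873532352860218129677600481044887634421991150624263063137765212168601215682580956797137505674960783762930012714817730838820806980697746277141214090803878817622713818134961847656640707571571501329235112162891651965217269457108457021511671668659529491116269138921512084312397190405953121347868540007159977330455184217230583926034276647257001747888076815062683698067973225438543822116900060695826482489811141908736886040087712585888447677286202326669964348682789686851899335214673756690572429774034799423599206718766524315814666337170168845089082508776475760815349386665169187747536507910438638528048856206441042045633014164330779793615432934789340180288465043233928999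7322859677034869811511416514575246409335200410029637238542848739787565846073875118871986129489850195610480046278603234341847175022366880766437797124926059918112500826876169791438963183654527578090330603509109252018168994110312974282237120037531070769947085065066750717582856642171245459833173351888244397839488076236919840852899255248799528799309439150217077581694264253797693555491710834730552429967931889503305612226771840657071297476801153203781926823164154005128008224872840925081473158884768961348710999702331416117165933809964282277776308721938168208486426636296338995760276621195455924451290867749427010478406425734626357484091985127332327266687639223337497013266821594047249600943385352423218792295142423040200650409241716333843766854481711608822511891774807907514873713788631391216812413659507398986998951026914061903854081221354495511867633237475823992575921026604788573000867921043232946349584456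75320075743294482509628864320051171364652523803316732053058313930885997369953153492380549581937560735829239073588948020645653989893288923217561819029433196204982438311874615998910741238733554103163989384066034292725612273637158739435553816204331580632171375201509950952800221463899239316828240242573993206695106538114481161582555840818425810117097635749654023596327277890133905324447153162433314829962159509085712383992720813154191473280033302027484847289180617851080523714935613741957331020201149413066968697687492888212540364698225828610437986807356935306442442293454644069645671915268137302229884634080708311351711977749826742459990060746450004642231483139788314965778259194645890838265280795971906740594626556803167124542036799417306388042036134581447809486789446728441694474488795646220857224351276845015407392874273024355301194733989714126375913510454351431399248939406314071521715683285038617412962877440)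

noncomputable def rc0 : Nat := (nat_lit 4373014505319276718195983763148818492819652691909178737332027661192083657469476170034401163493898353213672205228231772304250470828503443719099184331120912642395723320220678961369146501525483877331609450217449123433110274246781822993428912660568429201357021979787012159625602898128622462349401658009819322997375771794392544122575918388703651282367604803042112431773022513627307721562289613589960231521916426290949842819006062732401804856593502833685734195583584831436751346459938519453140534171156613647530616239677011003328472889596490281098473230742017354791128979366601716637494707413886395164921375421162189771570131690775346003816532827791518737163395020842804868289211384128525979329230421184225712108834271014578388141410552047992619715452337857378386433484989097759959008442315016496463161148072191993922961688519481960817412838239877624600899770669729602426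6788265641254153558861261965387705623544612906366724057361483876239094180406765387766636963238660810119780030725539009367864654770923457231302563153307723211242253423573578696998225078521235138130208213667476232560882629691944576325972471994758943703133373813347420764077720291067136136725192719093875642778253973610441465406050347532789764685980438990531679917403304685911595425136472378432565901101164114405203693669483281142579678709684817522172266186962670441386754255820182052538287803585368539808819623629519268520567645562738460648923564574006841919906244450859176642389594248730329403892708019166252911697212121898872867735401635223732124651101414774476910052666219926670436487328219429533334068466914728003686802698024519721894855289297627285891441310432385667870734267156146830617322165506163677805922299913019790948426733867626918645867600573654378315665543886637847967973119883217061785942665998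4085352467493191326734100840667467676693756830911511988154808434433191153572604509256209117743717822159359181552247617354692873560355077675677553943854370901481635285265671082313527651087708475382786449024576790223757084923535042883733287723222394799966922744199839735726722247493429860073970921501097553569217578352209784634500601967738463757003245126698276590947463131812839300351839073615594693602426077919680238616768668845958131418807347898484838589725425431759415821821394740815186336000050715228580746122162481159113217528267236736907767729561356179851038682138418590842130052944761639278190987071427975906564346712370664506672531376312575678225608880428924416618739213939468814199386637593308736706830701143252953315515367342179784771102620884449792767403136783006637525030692924879884100291589945534950625876879603408498905152901105846563983670794852626077954042455526788216224578122959020705791294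0809629753702317383377243056581162068021478658289893473397806312878679378875540365007894548978467533065984277877820532981047036026284830592998244545675451471699586978079137627024453436992075227057862560427789166499850002182492270634026253242786374442754954282505842594323369178907623472228314097175813682084440610549599982813298462100911695367663942674497705199896933480402153137347228862103201646352435449940712481445321872804249052712968236960442563202250981957291482860353013913736265335932685794919394021189701743591788246851443690619382043012262139901877677662339205376042659072173714809321892172444282577106905052892385199805076633539481830373824765484317328549727784095935406488520067894019322341871233370900993870009650600571437547666395161308285760627840516899778913960509007231112382195630688801928667675446527162791011088828440170746777850089831340290129518177779150008857708539117295063538268257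67097309682404104158925137039841125147249476795238397031582374023708186141261362973972681077444310777277159692471965558575205678105877096868780619982664066160913585374284416434148693759371010954577733479265694890445326410528461310409806718096957169080441055701594681943224632071607098395444811742787044048677236694694287536912453215254982695327004704756958512418160111322552945979960441837858607509552873164953182683086184013420112045863050398789235634307779662101177833985473294397777561933889275006028715477843275665165142671227129395122638616609021850783242562365671896948319587822163653657777710551602165699785430413011125741851125583178366078850040863983798333069266663148780801323075004882049341517631025082948804706557805754294200309812290917534354648407508711338662199235036363474099427663816765620691878656310737883777760459714862138541099280654920205886369330560688575384039311003270901900147752435712)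

noncomputable def rc1 : Nat := (nat_lit 4977475636844860370173182139852038931652865964602712840240238520351894254374104749819383207931520877576865907816904919504297937860921305666221435335874680290397634310751041414068589180936165512842306208238563068522150925208085198521134088734733936451099985217368832497306927049174322463554854194913509428270777689759416458791656416468764569384151753786456308170734700755007271749306952561197786655582558093698818288879056254160024545305528294720720429855976239056775945176862749188202992478380727598857724718727034576806843689116816885609459703923575868574931139461751221962281048012061145702292603356044507226227155101474368645130028465366191777616049909837728166703838085247833303119640100207993373826344485424108931726600040818787751823132191032800985922865917666811582016057076272374127204560321884025534255171666540238063820738325115124998724003248424533385413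9596628230918209272499872644894691385306386992335363059715516909373750434289589782438675792461896720201967079593294197929197047975391552297380191820322035862310749333704084692735240208157310298839610689120232162415543379955630330323710186661052534768395851881207683544305058648881134682687181404025511203414601215325535115047503557380959711256113736523506846061581199997477113623649466579003322149634686652292639090066008517699262388917517780900878296761693815393177124278581245929242894309026576562379613043910879865234562661991415476426625400260383078163580197415864424898762700797722966501259154969565399176802170756969967572572698798565094801147871743459425818947558291731778902987024166096336321126011164839075939800913762918281010988474179185295897904962937121121177226209877932692390073346043687110164095803625850812846712613840424700688130277025997301835038164476466036740252192640238049730166131845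8888059577897632229055539151271715528413616249049255295106856912372585255069599859881973683215517834562757990205101859825757600332394806797505021855301955772531582456001820724548146522016723260045777084371094619920159027139436545509320557160063354519986671140286280892990306399193278227100654833064477638143063438057699072682960932228225362751192971962302502942630893198657879427772360315012707405007497659908060206180755331535991011887196137130478260467405095913199127551759059287683748757354985162828522582381850182559420188817209482519167869375910429728743156078288493167360298625300269360405192534203494680956469908250476466344882917950571388624422390420829708141382448014821877271436849978001388749539061764230134237105770222873795113259811364931970193563394910807430621402982790732326445898218865821238958677372559165167134095028706722314845694372481547937296595667898652851349808366463442831007520395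8874736881586089347195760478760643457160759899224210390301655055511009892030116710496504207141736277313268467387211549426742127176768686555045256018717029952050109374729552244615513611865798801264421957613630177594149848451202863854453510517798788474160854416077910806373208822322794517582396213614524114301553385924863590492382460801459597758990258396245243432935313184881423229844371350374583445128034163480517379690004635208217730326069876256284162806318754998898156737539280249027538412156430894397470096589880246309031220831619856556405933336270741015194540996209176245623795707324787810501216226763491067570208373345940262337027201965698532680544176176482036896654745383270417203969176741180986057729605021875479313234402389834667179215808616352942028888561867038218965385661462012350890012181158180728008292638362734142328133270440372135265312290965397226924337372091909059559677176699673674817134007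02964677367195436505783546169954421229953571868985322183191458044583297870229357099724665984881067879861641092630569445069741302636164812964015643831547801596284643267275818166320291390701741485271027760011897782747432596662890864206190022295717673717025465722160153116745911556459985097585205571445267852171106718024185883230855642091638114769303829448482235771357294880597081467864873269068092004114960132155705619269555925348241958918691655696055860002534794593848393057070274044128229673713118964278887501122355453417762623311966635866867144158725518798354981301670500996292051316460322175818282073857749701037987354024418420963065496883052048381885141718951748242218659192367209025220361729430941209204939561252361288258269836704032573402017054260725722133320534268692629931795818321854799673607514526100615754556468618891524333891052948083191867620728477299005112554799597405190870436705843602092900483072)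

noncomputable def rc2 : Nat := (nat_lit 5380883591780420539223681175616646005274015153553307945540982069131567319011616832515211238995562485025005354758342818259529723349048896178799399016499784253709084633870983704657336840889691412982338127123309144168314427660998798371894532073987791648109020653409733903272586774516467709294551662593232276162879366191931827428193226752040048186304115409298315363636775669498821211193358313885244146714188092857533960792014312753049710702703863146158733635266082007732151185775674286807929790586118915561617563581899953977809569863897003679394545955039075372291604363082697750014254305203639663624728011367352361365866984528268938148463538725316397113137949683595526787349552323966656758985254748482407554051120500586068301847255593505875586115591018749005721185687864678668154079881836150631226026678357042350927566662620664230854496155505788938345907627614309781308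0315714845732536124625189257152530543201348789802100410757251255652285635483799501497677982184769178072634913686560968985966175566675520313948416960661454923105242102925452901225283536676378913130185986631211697870950643623241146947533591368787773365716593964497447876951843957916672928845072003487752752300477607117910319700211750675593709714599383573307558728108734216289270874796469328468041873799432688891102855384473857745923554600519416966629082924148897623762949321466691934578606257704833349856146756839539893842012219141384469613950537117693774004010497719390356609803525921032571691232048291254850749946147534132436014472091794261339818926109034250528051874525361843541231026444119825242506676306010292030127499963253241862024406449396584373557810489483760866879862259818481605299388100247756391497658601262419908442558042469835797082565554184040333566950088412828136112012239113075649676010805103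7928727794868531202230347144745949220141471189728713635859539243387010940980724691216115721523182463240365991675260665652971065761877194981961170910776509642028609208108149942189326614780514965015285733245112706653965745094562038863084468689873532352860218129677600481044887634421991150624263063137765212168601215682580956797137505674960783762930012714817730838820806980697746277141214090803878817622713818134961847656640707571571501329235112162891651965217269457108457021511671668659529491116269138921512084312397190405953121347868540007159977330455184217230583926034276647257001747888076815062683698067973225438543822116900060695826482489811141908736886040087712585888447677286202326669964348682789686851899335214673756690572429774034799423599206718766524315814666337170168845089082508776475760815349386665169187747536507910438638528048856206441042045633014164330779793615432934789340180288465043233928999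7322859677034869811511416514575246409335200410029637238542848739787565846073875118871986129489850195610480046278603234341847175022366880766437797124926059918112500826876169791438963183654527578090330603509109252018168994110312974282237120037531070769947085065066750717582856642171245459833173351888244397839488076236919840852899255248799528799309439150217077581694264253797693555491710834730552429967931889503305612226771840657071297476801153203781926823164154005128008224872840925081473158884768961348710999702331416117165933809964282277776308721938168208486426636296338995760276621195455924451290867749427010478406425734626357484091985127332327266687639223337497013266821594047249600943385352423218792295142423040200650409241716333843766854481711608822511891774807907514873713788631391216812413659507398986998951026914061903854081221354495511867633237475823992575921026604788573000867921043232946349584456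75320075743294482509628864320051171364652523803316732053058313930885997369953153492380549581937560735829239073588948020645653989893288923217561819029433196204982438311874615998910741238733554103163989384066034292725612273637158739435553816204331580632171375201509950952800221463899239316828240242573993206695106538114481161582555840818425810117097635749654023596327277890133905324447153162433314829962159509085712383992720813154191473280033302027484847289180617851080523714935613741957331020201149413066968697687492888212540364698225828610437986807356935306442442293454644069645671915268137302229884634080708311351711977749826742459990060746450004642231483139788314965778259194645890838265280795971906740594626556803167124542036799417306388042036134581447809486789446728441694474488795646220857224351276845015407392874273024355301194733989714126375913510454351431399248939406314071521715683285038617412962877440)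

end Vale.Agent.Lib.P154.Chain.D7.S2
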